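import Mathlib

/-! # Package A (S0170): computability of rational arithmetic

`Primcodable ℚ` is `Primcodable.ofDenumerable ℚ` where `Denumerable ℚ = ofEncodableOfInfinite ℚ`
(rank among the raw codes `pair (encode num) den`).  Everything here is stated for that instance
(found by type-class resolution).

ELABORATION TIP: `exact Computable.comp h1 h2` / `Computable₂.comp ..` against an expected type often
times out in `whnf` (higher-order unification).  Write `(Computable.comp h1 h2 :)`, or
`have h := Computable.comp h1 h2; exact h`, or use `comp2` below in the same way, and give the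
arguments `h2` etc. as `have`s with explicit types. -/

set_option autoImplicit false
open Encodable Denumerable

namespace Crest.Agent.BF

/-- raw code of a rational -/
def rawQ (q : ℚ) : ℕ := @encode ℚ Rat.instEncodable q

theorem rawQ_eq (q : ℚ) : rawQ q = Nat.pair (encode q.num) q.den := rfl

/-- absolute value of the integer with code `a` -/
def absCode (a : ℕ) : ℕ := if a.bodd then a.div2 + 1 else a.div2

theorem absCode_encode (z : ℤ) : absCode (encode z) = z.natAbs := by
  cases z with
  | ofNat m =>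
    have : encode (Int.ofNat m) = 2 * m := rfl
    rw [this]; simp [absCode]
  | negSucc m =>
    have : encode (Int.negSucc m) = 2 * m + 1 := rfl
    rw [this]; simp [absCode, Nat.div2_val]

theorem bodd_encode (z : ℤ) : (encode z).bodd = decide (z < 0) := by
  cases z with
  | ofNat m =>
    have : encode (Int.ofNat m) = 2 * m := rfl
    rw [this]; simp
  | negSucc m =>
    have : encode (Int.negSucc m) = 2 * m + 1 := rfl
    rw [this]; simp [Int.negSucc_lt_zero]

def InS (c : ℕ) : Prop := 0 < c.unpair.2 ∧ Nat.Coprime (absCode c.unpair.1) c.unpair.2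

theorem mem_range_rawQ (c : ℕ) : c ∈ Set.range (@encode ℚ Rat.instEncodable) ↔ InS c := by
  constructor
  · rintro ⟨q, rfl⟩
    change InS (rawQ q)
    rw [rawQ_eq, InS, Nat.unpair_pair]
    simp only [absCode_encode]
    exact ⟨q.den_pos, q.reduced⟩
  · rintro ⟨h1, h2⟩
    let z : ℤ := ofNat ℤ c.unpair.1
    have hz : encode z = c.unpair.1 := encode_ofNat _
    rw [← hz, absCode_encode] at h2
    refine ⟨⟨z, c.unpair.2, h1.ne', h2⟩, ?_⟩
    change Nat.pair (encode z) c.unpair.2 = c
    rw [hz, Nat.pair_unpair]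


theorem primrec_absCode : Primrec absCode := by
  unfold absCode
  refine Primrec.ite (c := fun a : ℕ => a.bodd = true) ?_ ?_ Primrec.nat_div2
  · exact Primrec.eq.comp Primrec.nat_bodd (Primrec.const true)
  · exact Primrec.succ.comp Primrec.nat_div2

theorem coprime_iff_forall (x d : ℕ) (hd0 : 0 < d) :
    Nat.Coprime x d ↔ ∀ k < x + d + 1, ¬ (x % k = 0 ∧ d % k = 0) ∨ k ≤ 1 := by
  constructor
  · intro h k _
    by_cases hk : x % k = 0 ∧ d % k = 0
    · right
      have h1 : k ∣ x := Nat.dvd_of_mod_eq_zero hk.1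
      have h2 : k ∣ d := Nat.dvd_of_mod_eq_zero hk.2
      have := Nat.dvd_gcd h1 h2
      rw [h] at this
      exact Nat.le_of_dvd one_pos this
    · left; exact hk
  · intro h
    have hx : Nat.gcd x d ∣ x := Nat.gcd_dvd_left _ _
    have hd : Nat.gcd x d ∣ d := Nat.gcd_dvd_right _ _
    have hpos : 0 < Nat.gcd x d := Nat.gcd_pos_of_pos_right _ hd0
    have hlt : Nat.gcd x d < x + d + 1 := by
      have := Nat.le_of_dvd hd0 hd
      omega
    rcases h _ hlt with h1 | h1
    · exact absurd ⟨Nat.mod_eq_zero_of_dvd hx, Nat.mod_eq_zero_of_dvd hd⟩ h1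
    · show Nat.gcd x d = 1
      omega

/-- decidable, primitive recursive version of `InS` -/
def InS' (c : ℕ) : Prop :=
  0 < c.unpair.2 ∧ ∀ k < absCode c.unpair.1 + c.unpair.2 + 1,
    ¬ (absCode c.unpair.1 % k = 0 ∧ c.unpair.2 % k = 0) ∨ k ≤ 1

theorem inS_iff (c : ℕ) : InS c ↔ InS' c := by
  unfold InS InS'
  constructor
  · rintro ⟨h1, h2⟩; exact ⟨h1, (coprime_iff_forall _ _ h1).1 h2⟩
  · rintro ⟨h1, h2⟩; exact ⟨h1, (coprime_iff_forall _ _ h1).2 h2⟩

theorem primrecPred_InS' : PrimrecPred InS' := by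
  have hR : PrimrecRel (fun (k : ℕ) (p : ℕ × ℕ) => ¬ (p.1 % k = 0 ∧ p.2 % k = 0) ∨ k ≤ 1) := by
    refine PrimrecPred.or (PrimrecPred.not (PrimrecPred.and ?_ ?_)) ?_
    · exact Primrec.eq.comp (Primrec.nat_mod.comp (Primrec.fst.comp Primrec.snd) Primrec.fst)
        (Primrec.const 0)
    · exact Primrec.eq.comp (Primrec.nat_mod.comp (Primrec.snd.comp Primrec.snd) Primrec.fst)
        (Primrec.const 0)
    · exact Primrec.nat_le.comp Primrec.fst (Primrec.const 1)
  have hall := hR.forall_mem_list
  have h1 : Primrec (fun c : ℕ => absCode c.unpair.1) :=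
    primrec_absCode.comp (Primrec.fst.comp Primrec.unpair)
  have h2 : Primrec (fun c : ℕ => c.unpair.2) := Primrec.snd.comp Primrec.unpair
  refine PrimrecPred.and ?_ ?_
  · exact Primrec.nat_lt.comp (Primrec.const 0) h2
  · refine (hall.comp (Primrec.list_range.comp (Primrec.succ.comp (Primrec.nat_add.comp h1 h2)))
      (h1.pair h2)).of_eq ?_
    intro c
    simp


abbrev SQ : Set ℕ := Set.range (@encode ℚ Rat.instEncodable)

instance : DecidablePred (· ∈ SQ) := decidableRangeEncode ℚ
instance : Infinite SQ := Infinite.of_injective _ (Equiv.ofInjective _ (@encode_injective ℚ Rat.instEncodable)).injective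

theorem rawQ_ofNat (n : ℕ) : rawQ (ofNat ℚ n) = ((Nat.Subtype.ofNat SQ n : SQ) : ℕ) := by
  have h1 : ofNat ℚ n = (equivRangeEncode ℚ).symm (Nat.Subtype.ofNat SQ n) := rfl
  rw [h1]
  have := (equivRangeEncode ℚ).apply_symm_apply (Nat.Subtype.ofNat SQ n)
  exact congrArg Subtype.val this


/-- unbounded search for a computable total predicate -/
theorem computable_find {α : Type*} [Primcodable α] {p : α → ℕ → Prop} [∀ a, DecidablePred (p a)]
    (hp : Computable₂ (fun a n => decide (p a n))) (h : ∀ a, ∃ n, p a n) :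
    Computable (fun a => Nat.find (h a)) := by
  have h1 : Partrec (fun a => Nat.rfind (fun n => Part.some (decide (p a n)))) :=
    Partrec.rfind (p := fun a n => Part.some (decide (p a n))) hp
  refine h1.of_eq ?_
  intro a
  apply Part.eq_some_iff.2
  refine Nat.mem_rfind.2 ⟨?_, ?_⟩
  · simpa using Nat.find_spec (h a)
  · intro m hm
    simpa using Nat.find_min (h a) hm

theorem exists_gt_mem_SQ (x : ℕ) : ∃ c, x < c ∧ InS' c := by
  obtain ⟨m, hm⟩ : ∃ m, x < ((Nat.Subtype.ofNat SQ m : SQ) : ℕ) := by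
    have hmono : StrictMono (fun m => ((Nat.Subtype.ofNat SQ m : SQ) : ℕ)) :=
      strictMono_nat_of_lt_succ (fun m => Nat.Subtype.lt_succ_self _)
    exact ⟨x + 1, lt_of_lt_of_le (Nat.lt_succ_self x) (hmono.le_apply)⟩
  exact ⟨_, hm, (inS_iff _).1 ((mem_range_rawQ _).1 (Nat.Subtype.ofNat SQ m).2)⟩

instance : DecidablePred InS' := fun c => by unfold InS'; infer_instance

/-- least element of `SQ` above `x` -/
def nextS (x : ℕ) : ℕ := Nat.find (exists_gt_mem_SQ x)

theorem computable_nextS : Computable nextS := by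
  apply computable_find
  have : PrimrecRel (fun (x c : ℕ) => x < c ∧ InS' c) :=
    PrimrecPred.and Primrec.nat_lt (primrecPred_InS'.comp Primrec.snd)
  exact this.decide.to_comp

def nthQ (n : ℕ) : ℕ := rawQ (ofNat ℚ n)

theorem nthQ_succ (n : ℕ) : nthQ (n + 1) = nextS (nthQ n) := by
  unfold nthQ nextS
  rw [rawQ_ofNat, rawQ_ofNat]
  symm
  rw [Nat.find_eq_iff]
  constructor
  · refine ⟨Nat.Subtype.lt_succ_self _, (inS_iff _).1 ((mem_range_rawQ _).1 (Nat.Subtype.ofNat SQ (n+1)).2)⟩
  · rintro m hm ⟨h1, h2⟩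
    have hmS : m ∈ SQ := (mem_range_rawQ _).2 ((inS_iff _).2 h2)
    have : Nat.Subtype.succ (Nat.Subtype.ofNat SQ n) ≤ (⟨m, hmS⟩ : SQ) :=
      Nat.Subtype.succ_le_of_lt (show Nat.Subtype.ofNat SQ n < ⟨m, hmS⟩ from h1)
    exact absurd (show ((Nat.Subtype.ofNat SQ (n+1) : SQ) : ℕ) ≤ m from this) (not_le.2 hm)

theorem computable_nthQ : Computable nthQ := by
  have := Computable.nat_rec (f := fun n : ℕ => n) (g := fun _ : ℕ => nthQ 0)
      (h := fun (_ : ℕ) (p : ℕ × ℕ) => nextS p.2) Computable.id (Computable.const (nthQ 0))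
      (computable_nextS.comp (Computable.snd.comp Computable.snd)).to₂
  refine this.of_eq ?_
  intro n
  induction n with
  | zero => rfl
  | succ n ih => simp only [nthQ_succ]; rw [← ih]


/-- the code of a rational used by `Primcodable ℚ` -/
def encQ (q : ℚ) : ℕ := @encode ℚ (Denumerable.toEncodable) q

theorem ofNat_encQ (q : ℚ) : ofNat ℚ (encQ q) = q := Denumerable.ofNat_encode q

theorem encQ_ofNat (n : ℕ) : encQ (ofNat ℚ n) = n := Denumerable.encode_ofNat n

theorem computable_encQ : Computable encQ := Computable.encode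

theorem computable_rawQ : Computable rawQ :=
  (computable_nthQ.comp computable_encQ).of_eq (fun q => by simp only [nthQ, ofNat_encQ])

/-- representation of a rational as `(u - v) / d` -/
def repQ (q : ℚ) : ℕ × ℕ × ℕ := (q.num.toNat, (-q.num).toNat, q.den)

/-- `(u, v, d) ↦ (u - v) / d` -/
def mk3 (p : ℕ × ℕ × ℕ) : ℚ := ((p.1 : ℚ) - (p.2.1 : ℚ)) / (p.2.2 : ℚ)

def repCode (c : ℕ) : ℕ × ℕ × ℕ :=
  (if c.unpair.1.bodd then 0 else c.unpair.1.div2, if c.unpair.1.bodd then c.unpair.1.div2 + 1 else 0,
    c.unpair.2)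

theorem repQ_eq (q : ℚ) : repQ q = repCode (rawQ q) := by
  rw [rawQ_eq, repCode, Nat.unpair_pair, repQ]
  simp only
  cases h : q.num with
  | ofNat m =>
    have : encode (Int.ofNat m) = 2 * m := rfl
    rw [this]; simp
  | negSucc m =>
    have : encode (Int.negSucc m) = 2 * m + 1 := rfl
    rw [this]; simp [Nat.div2_val]

theorem primrec_repCode : Primrec repCode := by
  unfold repCode
  have h1 : Primrec (fun c : ℕ => c.unpair.1) := Primrec.fst.comp Primrec.unpair
  have hb : PrimrecPred (fun c : ℕ => c.unpair.1.bodd = true) :=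
    Primrec.eq.comp (Primrec.nat_bodd.comp h1) (Primrec.const true)
  refine Primrec.pair ?_ (Primrec.pair ?_ (Primrec.snd.comp Primrec.unpair))
  · exact Primrec.ite hb (Primrec.const 0) (Primrec.nat_div2.comp h1)
  · exact Primrec.ite hb (Primrec.succ.comp (Primrec.nat_div2.comp h1)) (Primrec.const 0)

theorem computable_repQ : Computable repQ :=
  (primrec_repCode.to_comp.comp computable_rawQ).of_eq (fun q => (repQ_eq q).symm)

theorem mk3_repQ (q : ℚ) : mk3 (repQ q) = q := by
  unfold mk3 repQ
  simp only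
  have h : ((q.num.toNat : ℤ) - ((-q.num).toNat : ℤ)) = q.num := Int.toNat_sub_toNat_neg _
  have h' : ((q.num.toNat : ℚ) - ((-q.num).toNat : ℚ)) = (q.num : ℚ) := by exact_mod_cast h
  rw [h']
  exact Rat.num_div_den q

/-- the decidable test for `q = mk3 p` in terms of `repQ q` -/
def testEq (r p : ℕ × ℕ × ℕ) : Prop :=
  if p.2.2 = 0 then r.1 = r.2.1 else r.1 * p.2.2 + p.2.1 * r.2.2 = p.1 * r.2.2 + r.2.1 * p.2.2

instance : DecidableRel testEq := fun r p => by unfold testEq; infer_instance

theorem eq_mk3_iff (q : ℚ) (p : ℕ × ℕ × ℕ) : q = mk3 p ↔ testEq (repQ q) p := by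
  obtain ⟨u, v, d⟩ := p
  unfold testEq
  simp only
  have hq : q = mk3 (repQ q) := (mk3_repQ q).symm
  have hden : (q.den : ℚ) ≠ 0 := by exact_mod_cast q.den_ne_zero
  by_cases hd : d = 0
  · subst hd
    simp only [if_true, mk3, Nat.cast_zero, div_zero]
    unfold repQ
    simp only
    constructor
    · intro h; rw [h]; simp
    · intro h
      have : q.num = 0 := by omega
      exact Rat.num_eq_zero.1 this
  · simp only [if_neg hd]
    have hd' : (d : ℚ) ≠ 0 := by exact_mod_cast hd
    conv_lhs => rw [hq]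
    unfold mk3 repQ
    simp only
    rw [div_eq_div_iff hden hd']
    constructor
    · intro h
      have : ((q.num.toNat * d + v * q.den : ℕ) : ℚ) = ((u * q.den + (-q.num).toNat * d : ℕ) : ℚ) := by
        push_cast; linarith
      exact_mod_cast this
    · intro h
      have : ((q.num.toNat * d + v * q.den : ℕ) : ℚ) = ((u * q.den + (-q.num).toNat * d : ℕ) : ℚ) := by
        rw [h]
      push_cast at this; linarith

theorem primrecRel_testEq : PrimrecRel testEq := by
  unfold testEq
  have r1 : Primrec (fun x : (ℕ × ℕ × ℕ) × (ℕ × ℕ × ℕ) => x.1.1) := Primrec.fst.comp Primrec.fst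
  have r2 : Primrec (fun x : (ℕ × ℕ × ℕ) × (ℕ × ℕ × ℕ) => x.1.2.1) :=
    Primrec.fst.comp (Primrec.snd.comp Primrec.fst)
  have r3 : Primrec (fun x : (ℕ × ℕ × ℕ) × (ℕ × ℕ × ℕ) => x.1.2.2) :=
    Primrec.snd.comp (Primrec.snd.comp Primrec.fst)
  have p1 : Primrec (fun x : (ℕ × ℕ × ℕ) × (ℕ × ℕ × ℕ) => x.2.1) := Primrec.fst.comp Primrec.snd
  have p2 : Primrec (fun x : (ℕ × ℕ × ℕ) × (ℕ × ℕ × ℕ) => x.2.2.1) :=
    Primrec.fst.comp (Primrec.snd.comp Primrec.snd)
  have p3 : Primrec (fun x : (ℕ × ℕ × ℕ) × (ℕ × ℕ × ℕ) => x.2.2.2) :=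
    Primrec.snd.comp (Primrec.snd.comp Primrec.snd)
  have c0 : PrimrecPred (fun x : (ℕ × ℕ × ℕ) × (ℕ × ℕ × ℕ) => x.2.2.2 = 0) :=
    Primrec.eq.comp p3 (Primrec.const 0)
  have c1 : PrimrecPred (fun x : (ℕ × ℕ × ℕ) × (ℕ × ℕ × ℕ) => x.1.1 = x.1.2.1) :=
    Primrec.eq.comp r1 r2
  have c2 : PrimrecPred (fun x : (ℕ × ℕ × ℕ) × (ℕ × ℕ × ℕ) =>
      x.1.1 * x.2.2.2 + x.2.2.1 * x.1.2.2 = x.2.1 * x.1.2.2 + x.1.2.1 * x.2.2.2) :=
    Primrec.eq.comp
      (Primrec.nat_add.comp (Primrec.nat_mul.comp r1 p3) (Primrec.nat_mul.comp p2 r3))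
      (Primrec.nat_add.comp (Primrec.nat_mul.comp p1 r3) (Primrec.nat_mul.comp r2 p3))
  have := (c0.and c1).or ((c0.not).and c2)
  refine this.of_eq ?_
  intro x
  by_cases h : x.2.2.2 = 0 <;> simp [h]

theorem computable_of_encQ {α : Type*} [Primcodable α] {f : α → ℚ}
    (h : Computable (fun a => encQ (f a))) : Computable f :=
  Computable.encode_iff.1 h

theorem exists_testEq (p : ℕ × ℕ × ℕ) : ∃ n, testEq (repCode (nthQ n)) p := by
  refine ⟨encQ (mk3 p), ?_⟩
  have := (eq_mk3_iff (mk3 p) p).1 rfl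
  rw [repQ_eq] at this
  simpa only [nthQ, ofNat_encQ] using this

theorem computable_testEq :
    Computable₂ (fun (p : ℕ × ℕ × ℕ) (n : ℕ) => decide (testEq (repCode (nthQ n)) p)) := by
  have h0 : Computable₂ (fun r p => decide (testEq r p)) := primrecRel_testEq.decide.to_comp
  have h1 : Computable (fun x : (ℕ × ℕ × ℕ) × ℕ => repCode (nthQ x.2)) :=
    primrec_repCode.to_comp.comp (computable_nthQ.comp Computable.snd)
  have h2 : Computable (fun x : (ℕ × ℕ × ℕ) × ℕ => (repCode (nthQ x.2), x.1)) :=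
    h1.pair Computable.fst
  have h3 := Computable.comp h0 h2
  exact h3

theorem computable_findTest : Computable (fun p => Nat.find (exists_testEq p)) :=
  computable_find computable_testEq exists_testEq

theorem computable_mk3 : Computable mk3 := by
  apply computable_of_encQ
  refine computable_findTest.of_eq ?_
  intro p
  have hs := Nat.find_spec (exists_testEq p)
  have : ofNat ℚ (Nat.find (exists_testEq p)) = mk3 p := by
    rw [eq_mk3_iff, repQ_eq]; exact hs
  rw [← this, encQ_ofNat]


abbrev N3 := ℕ × ℕ × ℕ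

theorem repQ_den_ne (q : ℚ) : ((repQ q).2.2 : ℚ) ≠ 0 := by
  simp [repQ]

theorem repQ_zero_or (q : ℚ) : (repQ q).1 = 0 ∨ (repQ q).2.1 = 0 := by
  simp only [repQ]; omega

theorem computable₂_of_rep {f : ℚ → ℚ → ℚ} {F : N3 × N3 → N3} (hF : Primrec F)
    (h : ∀ a b, f a b = mk3 (F (repQ a, repQ b))) : Computable₂ f := by
  have h1 : Computable (fun x : ℚ × ℚ => (repQ x.1, repQ x.2)) :=
    (computable_repQ.comp Computable.fst).pair (computable_repQ.comp Computable.snd)
  have h2 := computable_mk3.comp (hF.to_comp.comp h1)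
  exact h2.of_eq (fun x => (h x.1 x.2).symm)

theorem computable_of_rep {f : ℚ → ℚ} {F : N3 → N3} (hF : Primrec F)
    (h : ∀ a, f a = mk3 (F (repQ a))) : Computable f :=
  (computable_mk3.comp (hF.to_comp.comp computable_repQ)).of_eq (fun x => (h x).symm)

section proj
variable {α : Type*} [Primcodable α]
theorem pr1 {f : α → N3} (h : Primrec f) : Primrec (fun a => (f a).1) := Primrec.fst.comp h
theorem pr2 {f : α → N3} (h : Primrec f) : Primrec (fun a => (f a).2.1) :=
  Primrec.fst.comp (Primrec.snd.comp h)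
theorem pr3 {f : α → N3} (h : Primrec f) : Primrec (fun a => (f a).2.2) :=
  Primrec.snd.comp (Primrec.snd.comp h)
end proj

theorem comp_rat_add : Computable₂ (fun a b : ℚ => a + b) := by
  refine computable₂_of_rep (F := fun x => (x.1.1 * x.2.2.2 + x.2.1 * x.1.2.2,
    x.1.2.1 * x.2.2.2 + x.2.2.1 * x.1.2.2, x.1.2.2 * x.2.2.2)) ?_ ?_
  · have A : Primrec (fun x : N3 × N3 => x.1) := Primrec.fst
    have B : Primrec (fun x : N3 × N3 => x.2) := Primrec.snd
    exact ((Primrec.nat_add.comp (Primrec.nat_mul.comp (pr1 A) (pr3 B))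
      (Primrec.nat_mul.comp (pr1 B) (pr3 A))).pair
      ((Primrec.nat_add.comp (Primrec.nat_mul.comp (pr2 A) (pr3 B))
      (Primrec.nat_mul.comp (pr2 B) (pr3 A))).pair (Primrec.nat_mul.comp (pr3 A) (pr3 B))))
  · intro a b
    have ha := repQ_den_ne a
    have hb := repQ_den_ne b
    conv_lhs => rw [← mk3_repQ a, ← mk3_repQ b]
    simp only [mk3]
    push_cast
    field_simp
    ring

theorem comp_rat_mul : Computable₂ (fun a b : ℚ => a * b) := by
  refine computable₂_of_rep (F := fun x => (x.1.1 * x.2.1 + x.1.2.1 * x.2.2.1,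
    x.1.1 * x.2.2.1 + x.1.2.1 * x.2.1, x.1.2.2 * x.2.2.2)) ?_ ?_
  · have A : Primrec (fun x : N3 × N3 => x.1) := Primrec.fst
    have B : Primrec (fun x : N3 × N3 => x.2) := Primrec.snd
    exact ((Primrec.nat_add.comp (Primrec.nat_mul.comp (pr1 A) (pr1 B))
      (Primrec.nat_mul.comp (pr2 A) (pr2 B))).pair
      ((Primrec.nat_add.comp (Primrec.nat_mul.comp (pr1 A) (pr2 B))
      (Primrec.nat_mul.comp (pr2 A) (pr1 B))).pair (Primrec.nat_mul.comp (pr3 A) (pr3 B))))
  · intro a b
    have ha := repQ_den_ne a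
    have hb := repQ_den_ne b
    conv_lhs => rw [← mk3_repQ a, ← mk3_repQ b]
    simp only [mk3]
    push_cast
    field_simp
    ring

theorem comp_rat_neg : Computable (fun a : ℚ => -a) := by
  refine computable_of_rep (F := fun x => (x.2.1, x.1, x.2.2)) ?_ ?_
  · exact (pr2 Primrec.id).pair ((pr1 Primrec.id).pair (pr3 Primrec.id))
  · intro a
    conv_lhs => rw [← mk3_repQ a]
    simp only [mk3]
    ring

theorem comp_rat_sub : Computable₂ (fun a b : ℚ => a - b) := by
  have h : Computable (fun x : ℚ × ℚ => (x.1, -x.2)) :=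
    Computable.fst.pair (comp_rat_neg.comp Computable.snd)
  have := Computable.comp comp_rat_add h
  exact this.of_eq (fun x => by simp [sub_eq_add_neg])

theorem comp_rat_inv : Computable (fun a : ℚ => a⁻¹) := by
  refine computable_of_rep (F := fun x => if x.1 = 0 then (0, x.2.2, x.2.1) else (x.2.2, 0, x.1)) ?_ ?_
  · refine Primrec.ite (Primrec.eq.comp (pr1 Primrec.id) (Primrec.const 0)) ?_ ?_
    · exact (Primrec.const 0).pair ((pr3 Primrec.id).pair (pr2 Primrec.id))
    · exact (pr3 Primrec.id).pair ((Primrec.const 0).pair (pr1 Primrec.id))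
  · intro a
    have h0 := repQ_zero_or a
    conv_lhs => rw [← mk3_repQ a]
    by_cases h : (repQ a).1 = 0
    · simp only [h, if_true, mk3]
      simp only [Nat.cast_zero, zero_sub, inv_div]
      rw [neg_div, div_neg]
    · have h2 : (repQ a).2.1 = 0 := by tauto
      simp only [h, if_false, mk3, h2]
      simp

theorem comp_rat_div : Computable₂ (fun a b : ℚ => a / b) := by
  have h : Computable (fun x : ℚ × ℚ => (x.1, x.2⁻¹)) :=
    Computable.fst.pair (comp_rat_inv.comp Computable.snd)
  have := Computable.comp comp_rat_mul h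
  exact this.of_eq (fun x => by simp [div_eq_mul_inv])

theorem comp_rat_natCast : Computable (fun n : ℕ => (n : ℚ)) := by
  have h : Computable (fun n : ℕ => ((n, 0, 1) : N3)) :=
    Computable.id.pair (Computable.const (0, 1))
  exact (computable_mk3.comp h).of_eq (fun n => by simp [mk3])

theorem comp_rat_abs : Computable (fun a : ℚ => |a|) := by
  refine computable_of_rep (F := fun x => (x.1 + x.2.1, 0, x.2.2)) ?_ ?_
  · exact (Primrec.nat_add.comp (pr1 Primrec.id) (pr2 Primrec.id)).pair
      ((Primrec.const 0).pair (pr3 Primrec.id))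
  · intro a
    have h0 := repQ_zero_or a
    have hd : (0 : ℚ) < ((repQ a).2.2 : ℚ) := by
      have : 0 < (repQ a).2.2 := a.den_pos
      exact_mod_cast this
    conv_lhs => rw [← mk3_repQ a]
    simp only [mk3]
    rw [abs_div, abs_of_pos hd]
    congr 1
    rcases h0 with h | h
    · rw [h]; simp
    · rw [h]; simp

theorem rat_le_iff (a b : ℚ) : a ≤ b ↔
    (repQ a).1 * (repQ b).2.2 + (repQ b).2.1 * (repQ a).2.2 ≤
      (repQ b).1 * (repQ a).2.2 + (repQ a).2.1 * (repQ b).2.2 := by
  have hda : (0 : ℚ) < ((repQ a).2.2 : ℚ) := by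
    have : 0 < (repQ a).2.2 := a.den_pos
    exact_mod_cast this
  have hdb : (0 : ℚ) < ((repQ b).2.2 : ℚ) := by
    have : 0 < (repQ b).2.2 := b.den_pos
    exact_mod_cast this
  conv_lhs => rw [← mk3_repQ a, ← mk3_repQ b]
  simp only [mk3]
  rw [div_le_div_iff₀ hda hdb]
  constructor
  · intro h
    have : (((repQ a).1 * (repQ b).2.2 + (repQ b).2.1 * (repQ a).2.2 : ℕ) : ℚ) ≤
      (((repQ b).1 * (repQ a).2.2 + (repQ a).2.1 * (repQ b).2.2 : ℕ) : ℚ) := by
      push_cast; linarith
    exact_mod_cast this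
  · intro h
    have : (((repQ a).1 * (repQ b).2.2 + (repQ b).2.1 * (repQ a).2.2 : ℕ) : ℚ) ≤
      (((repQ b).1 * (repQ a).2.2 + (repQ a).2.1 * (repQ b).2.2 : ℕ) : ℚ) := by
      exact_mod_cast h
    push_cast at this; linarith

theorem comp_rat_le : Computable₂ (fun a b : ℚ => decide (a ≤ b)) := by
  have A : Primrec (fun x : N3 × N3 => x.1) := Primrec.fst
  have B : Primrec (fun x : N3 × N3 => x.2) := Primrec.snd
  have hP : PrimrecPred (fun x : N3 × N3 => x.1.1 * x.2.2.2 + x.2.2.1 * x.1.2.2 ≤
      x.2.1 * x.1.2.2 + x.1.2.1 * x.2.2.2) :=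
    Primrec.nat_le.comp
      (Primrec.nat_add.comp (Primrec.nat_mul.comp (pr1 A) (pr3 B)) (Primrec.nat_mul.comp (pr2 B) (pr3 A)))
      (Primrec.nat_add.comp (Primrec.nat_mul.comp (pr1 B) (pr3 A)) (Primrec.nat_mul.comp (pr2 A) (pr3 B)))
  have h1 : Computable (fun x : ℚ × ℚ => (repQ x.1, repQ x.2)) :=
    (computable_repQ.comp Computable.fst).pair (computable_repQ.comp Computable.snd)
  have h2 := Computable.comp hP.decide.to_comp h1
  refine h2.of_eq ?_
  intro x
  simp only [decide_eq_decide]
  exact (rat_le_iff x.1 x.2).symm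

theorem comp_rat_lt : Computable₂ (fun a b : ℚ => decide (a < b)) := by
  have h : Computable (fun x : ℚ × ℚ => (x.2, x.1)) := Computable.snd.pair Computable.fst
  have h2 := Primrec.not.to_comp.comp (Computable.comp comp_rat_le h)
  refine h2.of_eq ?_
  intro x
  simp [← not_le]


theorem comp_rat_ceil : Computable (fun a : ℚ => ⌈a⌉₊) := by
  have hex : ∀ a : ℚ, ∃ n : ℕ, a ≤ (n : ℚ) := fun a => ⟨⌈a⌉₊, Nat.le_ceil a⟩
  have hc : Computable₂ (fun (a : ℚ) (n : ℕ) => decide (a ≤ (n : ℚ))) := by
    have h : Computable (fun x : ℚ × ℕ => (x.1, (x.2 : ℚ))) :=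
      Computable.fst.pair (comp_rat_natCast.comp Computable.snd)
    have h' := Computable.comp comp_rat_le h
    exact h'
  refine (computable_find hc hex).of_eq ?_
  intro a
  apply le_antisymm
  · exact Nat.find_min' _ (Nat.le_ceil a)
  · exact Nat.ceil_le.2 (Nat.find_spec (hex a))

theorem comp_rat_pow : Computable₂ (fun (a : ℚ) (n : ℕ) => a ^ n) := by
  have hstep : Computable₂ (fun (x : ℚ × ℕ) (p : ℕ × ℚ) => p.2 * x.1) := by
    have h : Computable (fun y : (ℚ × ℕ) × (ℕ × ℚ) => (y.2.2, y.1.1)) :=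
      (Computable.snd.comp Computable.snd).pair (Computable.fst.comp Computable.fst)
    have h' := Computable.comp comp_rat_mul h
    exact h'
  have := Computable.nat_rec (f := fun x : ℚ × ℕ => x.2) (g := fun _ : ℚ × ℕ => (1 : ℚ))
    (h := fun (x : ℚ × ℕ) (p : ℕ × ℚ) => p.2 * x.1) Computable.snd (Computable.const 1) hstep
  refine this.of_eq ?_
  rintro ⟨a, n⟩
  simp only
  induction n with
  | zero => simp
  | succ n ih => simp only [pow_succ]; rw [← ih]

/-- finite sums of a computable family -/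
theorem comp_rat_sum {α : Type*} [Primcodable α] {g : α → ℕ → ℚ} (hg : Computable₂ g) :
    Computable₂ (fun (a : α) (m : ℕ) => ∑ i ∈ Finset.range m, g a i) := by
  have hstep : Computable₂ (fun (x : α × ℕ) (p : ℕ × ℚ) => p.2 + g x.1 p.1) := by
    have h0 : Computable (fun y : (α × ℕ) × (ℕ × ℚ) => (y.1.1, y.2.1)) :=
      (Computable.fst.comp Computable.fst).pair (Computable.fst.comp Computable.snd)
    have h1 : Computable (fun y : (α × ℕ) × (ℕ × ℚ) => g y.1.1 y.2.1) := (Computable.comp hg h0 :)
    have h : Computable (fun y : (α × ℕ) × (ℕ × ℚ) => (y.2.2, g y.1.1 y.2.1)) :=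
      (Computable.snd.comp Computable.snd).pair h1
    have h' := Computable.comp comp_rat_add h
    exact h'
  have := Computable.nat_rec (f := fun x : α × ℕ => x.2) (g := fun _ : α × ℕ => (0 : ℚ))
    (h := fun (x : α × ℕ) (p : ℕ × ℚ) => p.2 + g x.1 p.1) Computable.snd (Computable.const 0) hstep
  refine this.of_eq ?_
  rintro ⟨a, n⟩
  simp only
  induction n with
  | zero => simp
  | succ n ih => simp only [Finset.sum_range_succ]; rw [← ih]

/-- finite sums of a computable family of naturals -/
theorem comp_nat_sum {α : Type*} [Primcodable α] {g : α → ℕ → ℕ} (hg : Computable₂ g) :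
    Computable₂ (fun (a : α) (m : ℕ) => ∑ i ∈ Finset.range m, g a i) := by
  have hstep : Computable₂ (fun (x : α × ℕ) (p : ℕ × ℕ) => p.2 + g x.1 p.1) := by
    have h0 : Computable (fun y : (α × ℕ) × (ℕ × ℕ) => (y.1.1, y.2.1)) :=
      (Computable.fst.comp Computable.fst).pair (Computable.fst.comp Computable.snd)
    have h1 : Computable (fun y : (α × ℕ) × (ℕ × ℕ) => g y.1.1 y.2.1) := (Computable.comp hg h0 :)
    have h : Computable (fun y : (α × ℕ) × (ℕ × ℕ) => (y.2.2, g y.1.1 y.2.1)) :=
      (Computable.snd.comp Computable.snd).pair h1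
    have h' := Computable.comp Primrec.nat_add.to_comp h
    exact h'
  have := Computable.nat_rec (f := fun x : α × ℕ => x.2) (g := fun _ : α × ℕ => (0 : ℕ))
    (h := fun (x : α × ℕ) (p : ℕ × ℕ) => p.2 + g x.1 p.1) Computable.snd (Computable.const 0) hstep
  refine this.of_eq ?_
  rintro ⟨a, n⟩
  simp only
  induction n with
  | zero => simp
  | succ n ih => simp only [Finset.sum_range_succ]; rw [← ih]

theorem comp_nat_pow : Computable₂ (fun a b : ℕ => a ^ b) := by
  have hstep : Computable₂ (fun (x : ℕ × ℕ) (p : ℕ × ℕ) => p.2 * x.1) := by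
    have h : Computable (fun y : (ℕ × ℕ) × (ℕ × ℕ) => (y.2.2, y.1.1)) :=
      (Computable.snd.comp Computable.snd).pair (Computable.fst.comp Computable.fst)
    have h' := Computable.comp Primrec.nat_mul.to_comp h
    exact h'
  have := Computable.nat_rec (f := fun x : ℕ × ℕ => x.2) (g := fun _ : ℕ × ℕ => (1 : ℕ))
    (h := fun (x : ℕ × ℕ) (p : ℕ × ℕ) => p.2 * x.1) Computable.snd (Computable.const 1) hstep
  refine this.of_eq ?_
  rintro ⟨a, n⟩
  simp only
  induction n with
  | zero => simp
  | succ n ih => simp only [pow_succ]; rw [← ih]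

theorem comp_nat_factorial : Computable Nat.factorial := by
  have hstep : Computable₂ (fun (_ : ℕ) (p : ℕ × ℕ) => (p.1 + 1) * p.2) := by
    have h : Computable (fun y : ℕ × (ℕ × ℕ) => (y.2.1 + 1, y.2.2)) :=
      (Computable.succ.comp (Computable.fst.comp Computable.snd)).pair
        (Computable.snd.comp Computable.snd)
    have h' := Computable.comp Primrec.nat_mul.to_comp h
    exact h'
  have := Computable.nat_rec (f := fun x : ℕ => x) (g := fun _ : ℕ => (1 : ℕ))
    (h := fun (_ : ℕ) (p : ℕ × ℕ) => (p.1 + 1) * p.2) Computable.id (Computable.const 1) hstep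
  refine this.of_eq ?_
  intro n
  simp only
  induction n with
  | zero => simp
  | succ n ih => simp only [Nat.factorial_succ]; rw [← ih]

theorem comp_nat_choose : Computable₂ Nat.choose := by
  have hf := comp_nat_factorial
  have h1 : Computable (fun x : ℕ × ℕ => x.1.factorial) := hf.comp Computable.fst
  have h2 : Computable (fun x : ℕ × ℕ => x.2.factorial) := hf.comp Computable.snd
  have h3 : Computable (fun x : ℕ × ℕ => (x.1 - x.2).factorial) :=
    hf.comp (Computable.comp Primrec.nat_sub.to_comp (Computable.fst.pair Computable.snd) :)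
  have h4 : Computable (fun x : ℕ × ℕ => x.2.factorial * (x.1 - x.2).factorial) :=
    (Computable.comp Primrec.nat_mul.to_comp (h2.pair h3) :)
  have h5 : Computable (fun x : ℕ × ℕ => x.1.factorial / (x.2.factorial * (x.1 - x.2).factorial)) :=
    (Computable.comp Primrec.nat_div.to_comp (h1.pair h4) :)
  have hle : Computable (fun x : ℕ × ℕ => decide (x.2 ≤ x.1)) :=
    (Computable.comp Primrec.nat_le.decide.to_comp (Computable.snd.pair Computable.fst) :)
  have h6 := Computable.cond hle h5 (Computable.const 0)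
  refine h6.of_eq ?_
  rintro ⟨n, k⟩
  simp only
  by_cases h : k ≤ n
  · simp [h, Nat.choose_eq_factorial_div_factorial h]
  · simp [h, Nat.choose_eq_zero_of_lt (not_le.1 h)]

theorem comp_rat_num_den : Computable (fun q : ℚ => (q.num.natAbs, decide (q.num < 0), q.den)) := by
  have h : Primrec (fun x : N3 => (x.1 + x.2.1, decide (0 < x.2.1), x.2.2)) :=
    (Primrec.nat_add.comp (pr1 Primrec.id) (pr2 Primrec.id)).pair
      ((Primrec.nat_lt.comp (Primrec.const 0) (pr2 Primrec.id)).decide.pair (pr3 Primrec.id))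
  refine (h.to_comp.comp computable_repQ).of_eq ?_
  intro q
  simp only [repQ, Prod.mk.injEq, and_true]
  constructor
  · omega
  · by_cases h : q.num < 0
    · have : 0 < (-q.num).toNat := by omega
      simp [h, this]
    · have : ¬ 0 < (-q.num).toNat := by omega
      simp only [h, decide_false]
      exact decide_eq_false this

/-- `(a, neg, d) ↦ ± a / d` -/
theorem comp_rat_mk : Computable (fun p : ℕ × Bool × ℕ =>
    ((if p.2.1 then -(p.1 : ℚ) else (p.1 : ℚ)) / (p.2.2 : ℚ) : ℚ)) := by
  have h : Computable (fun p : ℕ × Bool × ℕ =>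
      (cond p.2.1 ((0, p.1, p.2.2) : N3) ((p.1, 0, p.2.2) : N3))) :=
    Computable.cond (Computable.fst.comp Computable.snd)
      ((Computable.const 0).pair (Computable.fst.pair (Computable.snd.comp Computable.snd)))
      (Computable.fst.pair ((Computable.const 0).pair (Computable.snd.comp Computable.snd)))
  refine (computable_mk3.comp h).of_eq ?_
  rintro ⟨a, b, d⟩
  cases b <;> simp [mk3]

/-- building a vector in `Fin 3 → ℚ` -/
theorem comp_vec3 {α : Type*} [Primcodable α] {f : α → Fin 3 → ℚ}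
    (hf : ∀ j, Computable (fun a => f a j)) : Computable f := by
  have h := Computable.vector_ofFn (f := fun (j : Fin 3) (a : α) => f a j) hf
  have h2 : Computable (fun v : List.Vector ℚ 3 => (v.get : Fin 3 → ℚ)) :=
    Primrec.vector_get'.to_comp
  refine (h2.comp h).of_eq ?_
  intro a
  funext j
  simp

/-- reading a coordinate -/
theorem comp_vec3_app (j : Fin 3) : Computable (fun v : Fin 3 → ℚ => v j) := by
  have := Computable.comp (Primrec.fin_app (σ := ℚ) (n := 3)).to_comp
    ((Computable.id (α := Fin 3 → ℚ)).pair (Computable.const j))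
  exact this

/-- counting a direction in a list -/
theorem comp_list_count (d : Fin 4) : Computable (fun l : List (Fin 4) => l.count d) := by
  have hp : PrimrecPred (fun x : Fin 4 => x = d) := Primrec.eq.comp Primrec.id (Primrec.const d)
  have := Primrec.list_length.comp (Primrec.listFilter hp)
  refine this.to_comp.of_eq ?_
  intro l
  simp only [List.count, List.countP_eq_length_filter]
  congr 1

/-- composition with a binary computable function; use as `(comp2 hf hg hh :)` -/
theorem comp2 {α β γ σ : Type*} [Primcodable α] [Primcodable β] [Primcodable γ] [Primcodable σ]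
    {f : β → γ → σ} (hf : Computable₂ f) {g : α → β} {h : α → γ} (hg : Computable g)
    (hh : Computable h) : Computable (fun a => f (g a) (h a)) := by
  have := Computable.comp hf (hg.pair hh)
  exact this

end Crest.Agent.BF
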