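import Crest.Agent.Lib_BF_Defs
import Crest.Agent.Lib_BF_RatComp

/-! # Package B (S0170): computable approximation of the values of `Real.smoothTransition` -/

set_option autoImplicit false
open scoped ContDiff

namespace Crest.Agent.BF

/-- `(M / (M + y)) ^ M` approximates `exp (-y)`. -/
theorem exp_neg_approx (y : ℝ) (hy : 0 ≤ y) (Y M : ℕ) (hY : y ≤ Y) (hM : 0 < M) :
    |Real.exp (-y) - ((M : ℝ) / ((M : ℝ) + y)) ^ M| ≤ Y * y / M := by
  have hMr : (0 : ℝ) < M := by exact_mod_cast hM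
  have hMy : (0 : ℝ) < (M : ℝ) + y := by linarith
  set a : ℝ := (M : ℝ) / ((M : ℝ) + y) with ha
  have ha0 : 0 < a := by positivity
  have ha1 : a ≤ 1 := by rw [ha, div_le_one hMy]; linarith
  -- lower bound `exp (-y) ≤ a ^ M`
  have h1 : Real.exp (-y) ≤ a ^ M := by
    have e1 : Real.exp (-(y / M)) ≤ a := by
      rw [Real.exp_neg, ha]
      have := Real.add_one_le_exp (y / M)
      have e2 : (M : ℝ) / ((M : ℝ) + y) = (y / M + 1)⁻¹ := by
        field_simp
        ring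
      rw [e2]
      exact inv_anti₀ (by positivity) this
    calc Real.exp (-y) = Real.exp (-(y / M)) ^ M := by
          rw [← Real.exp_nat_mul]; congr 1; field_simp
      _ ≤ a ^ M := pow_le_pow_left₀ (Real.exp_pos _).le e1 M
  -- upper bound `a ^ (M + Y) ≤ exp (-y)`
  have h2 : a ^ (M + Y) ≤ Real.exp (-y) := by
    have e1 : a ≤ Real.exp (-(y / (M + y))) := by
      have := Real.add_one_le_exp (-(y / (M + y)))
      have e2 : a = -(y / (M + y)) + 1 := by
        rw [ha]; field_simp; ring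
      rw [e2]; exact this
    calc a ^ (M + Y) ≤ Real.exp (-(y / (M + y))) ^ (M + Y) := pow_le_pow_left₀ ha0.le e1 _
      _ = Real.exp (((M + Y : ℕ) : ℝ) * -(y / (M + y))) := by rw [← Real.exp_nat_mul]
      _ ≤ Real.exp (-y) := by
          apply Real.exp_le_exp.2
          push_cast
          have : y ≤ ((M : ℝ) + Y) * (y / (M + y)) := by
            rw [mul_div_assoc', le_div_iff₀ hMy]
            nlinarith
          linarith
  -- Bernoulli
  have h3 : 1 - (Y : ℝ) * (1 - a) ≤ a ^ Y := by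
    have := one_add_mul_le_pow (a := a - 1) (by linarith) Y
    have e : 1 + (a - 1) = a := by ring
    rw [e] at this
    linarith
  have h4 : 1 - a = y / (M + y) := by
    rw [ha]; field_simp; ring
  have h5 : a ^ M ≤ 1 := pow_le_one₀ ha0.le ha1
  have h6 : a ^ M - a ^ (M + Y) ≤ Y * (1 - a) := by
    rw [pow_add]
    have h7 : 0 ≤ a ^ M := by positivity
    have h8 : 0 ≤ 1 - a ^ Y := by
      have := pow_le_one₀ (n := Y) ha0.le ha1
      linarith
    nlinarith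
  have h9 : (Y : ℝ) * (1 - a) ≤ Y * y / M := by
    rw [h4, mul_div_assoc]
    have : y / (M + y) ≤ y / M := div_le_div_of_nonneg_left hy hMr (by linarith)
    gcongr
  rw [abs_le]
  constructor <;> linarith

/-- the rational approximation of `exp (-y)`. -/
def expA (y : ℚ) (n : ℕ) : ℚ :=
  ((((n + 1) * ⌈y⌉₊ ^ 2 + 1 : ℕ) : ℚ) / ((((n + 1) * ⌈y⌉₊ ^ 2 + 1 : ℕ) : ℚ) + y)) ^
    ((n + 1) * ⌈y⌉₊ ^ 2 + 1)

theorem expA_nonneg (y : ℚ) (hy : 0 ≤ y) (n : ℕ) : 0 ≤ expA y n := by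
  unfold expA
  positivity

theorem expA_spec (y : ℚ) (hy : 0 ≤ y) (n : ℕ) :
    |Real.exp (-(y : ℝ)) - (expA y n : ℝ)| ≤ 1 / ((n : ℝ) + 1) := by
  set Y := ⌈y⌉₊ with hYdef
  set M := (n + 1) * Y ^ 2 + 1 with hMdef
  have hyY : (y : ℝ) ≤ (Y : ℝ) := by
    have : y ≤ (Y : ℚ) := Nat.le_ceil y
    exact_mod_cast this
  have hy' : (0 : ℝ) ≤ (y : ℝ) := by exact_mod_cast hy
  have h := exp_neg_approx (y : ℝ) hy' Y M hyY (by rw [hMdef]; omega)
  have e : ((expA y n : ℚ) : ℝ) = ((M : ℝ) / ((M : ℝ) + (y : ℝ))) ^ M := by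
    have e0 : expA y n = ((M : ℚ) / ((M : ℚ) + y)) ^ M := rfl
    rw [e0]
    push_cast
    rfl
  rw [e]
  refine h.trans ?_
  have hMr : (M : ℝ) = ((n : ℝ) + 1) * (Y : ℝ) ^ 2 + 1 := by rw [hMdef]; push_cast; ring
  have hn : (0 : ℝ) < (n : ℝ) + 1 := by positivity
  have hMpos : (0 : ℝ) < M := by rw [hMr]; positivity
  rw [div_le_div_iff₀ hMpos hn, hMr]
  have hY0 : (0 : ℝ) ≤ Y := Nat.cast_nonneg _
  nlinarith [mul_le_mul_of_nonneg_left hyY hY0]

theorem comp_expA : Computable (fun p : ℚ × ℕ => expA p.1 p.2) := by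
  have hY : Computable (fun p : ℚ × ℕ => ⌈p.1⌉₊) := comp_rat_ceil.comp Computable.fst
  have hY2 : Computable (fun p : ℚ × ℕ => ⌈p.1⌉₊ ^ 2) :=
    (comp2 comp_nat_pow hY (Computable.const 2) :)
  have hn1 : Computable (fun p : ℚ × ℕ => p.2 + 1) := Computable.succ.comp Computable.snd
  have hM0 : Computable (fun p : ℚ × ℕ => (p.2 + 1) * ⌈p.1⌉₊ ^ 2) :=
    (comp2 Primrec.nat_mul.to_comp hn1 hY2 :)
  have hM : Computable (fun p : ℚ × ℕ => (p.2 + 1) * ⌈p.1⌉₊ ^ 2 + 1) :=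
    Computable.succ.comp hM0
  have hMq : Computable (fun p : ℚ × ℕ => (((p.2 + 1) * ⌈p.1⌉₊ ^ 2 + 1 : ℕ) : ℚ)) :=
    comp_rat_natCast.comp hM
  have hden : Computable (fun p : ℚ × ℕ => (((p.2 + 1) * ⌈p.1⌉₊ ^ 2 + 1 : ℕ) : ℚ) + p.1) :=
    (comp2 comp_rat_add hMq Computable.fst :)
  have hdiv : Computable (fun p : ℚ × ℕ => (((p.2 + 1) * ⌈p.1⌉₊ ^ 2 + 1 : ℕ) : ℚ) /
      ((((p.2 + 1) * ⌈p.1⌉₊ ^ 2 + 1 : ℕ) : ℚ) + p.1)) := (comp2 comp_rat_div hMq hden :)
  have := (comp2 comp_rat_pow hdiv hM :)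
  exact this

/-- the exponent `w = 1/q - 1/(1-q)`. -/
def wq (q : ℚ) : ℚ := q⁻¹ - (1 - q)⁻¹

theorem comp_wq : Computable wq := by
  have h1 : Computable (fun q : ℚ => q⁻¹) := comp_rat_inv
  have h2 : Computable (fun q : ℚ => 1 - q) := (comp2 comp_rat_sub (Computable.const 1) Computable.id :)
  have h3 : Computable (fun q : ℚ => (1 - q)⁻¹) := comp_rat_inv.comp h2
  have := (comp2 comp_rat_sub h1 h3 :)
  exact this

/-- the approximation of `smoothTransition`. -/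
def stS (p : ℚ × ℕ) : ℚ :=
  cond (decide (p.1 ≤ 0)) 0 (cond (decide (1 ≤ p.1)) 1
    (cond (decide (0 ≤ wq p.1)) (expA |wq p.1| p.2 / (1 + expA |wq p.1| p.2))
      (1 / (1 + expA |wq p.1| p.2))))

theorem comp_stS : Computable stS := by
  have hq : Computable (fun p : ℚ × ℕ => p.1) := Computable.fst
  have hw : Computable (fun p : ℚ × ℕ => wq p.1) := comp_wq.comp hq
  have hwa : Computable (fun p : ℚ × ℕ => |wq p.1|) := comp_rat_abs.comp hw
  have hA : Computable (fun p : ℚ × ℕ => expA |wq p.1| p.2) :=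
    (Computable.comp comp_expA (hwa.pair Computable.snd) :)
  have h1A : Computable (fun p : ℚ × ℕ => 1 + expA |wq p.1| p.2) :=
    (comp2 comp_rat_add (Computable.const 1) hA :)
  have hb1 : Computable (fun p : ℚ × ℕ => expA |wq p.1| p.2 / (1 + expA |wq p.1| p.2)) :=
    (comp2 comp_rat_div hA h1A :)
  have hb2 : Computable (fun p : ℚ × ℕ => 1 / (1 + expA |wq p.1| p.2)) :=
    (comp2 comp_rat_div (Computable.const 1) h1A :)
  have c1 : Computable (fun p : ℚ × ℕ => decide (p.1 ≤ 0)) :=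
    (comp2 comp_rat_le hq (Computable.const 0) :)
  have c2 : Computable (fun p : ℚ × ℕ => decide (1 ≤ p.1)) :=
    (comp2 comp_rat_le (Computable.const 1) hq :)
  have c3 : Computable (fun p : ℚ × ℕ => decide (0 ≤ wq p.1)) :=
    (comp2 comp_rat_le (Computable.const 0) hw :)
  have := Computable.cond c1 (Computable.const 0)
    (Computable.cond c2 (Computable.const 1) (Computable.cond c3 hb1 hb2))
  exact this

theorem smoothTransition_eq (x : ℝ) (h0 : 0 < x) (h1 : x < 1) :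
    Real.smoothTransition x = 1 / (1 + Real.exp (x⁻¹ - (1 - x)⁻¹)) := by
  have h2 : 0 < 1 - x := by linarith
  unfold Real.smoothTransition expNegInvGlue
  rw [if_neg (not_le.2 h0), if_neg (not_le.2 h2)]
  have e : Real.exp (-(1 - x)⁻¹) = Real.exp (-x⁻¹) * Real.exp (x⁻¹ - (1 - x)⁻¹) := by
    rw [← Real.exp_add]; congr 1; ring
  rw [e]
  have hp := Real.exp_pos (-x⁻¹)
  have hp2 := Real.exp_pos (x⁻¹ - (1 - x)⁻¹)
  field_simp

theorem smoothTransition_approx : ∃ S : ℚ × ℕ → ℚ, Computable S ∧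
    ∀ (q : ℚ) (n : ℕ), |Real.smoothTransition (q : ℝ) - (S (q, n) : ℝ)| ≤ 1 / ((n : ℝ) + 1) := by
  refine ⟨stS, comp_stS, fun q n => ?_⟩
  have hn : (0 : ℝ) ≤ 1 / ((n : ℝ) + 1) := by positivity
  unfold stS
  by_cases c1 : q ≤ 0
  · have : (q : ℝ) ≤ 0 := by exact_mod_cast c1
    simp [c1, Real.smoothTransition.zero_of_nonpos this]
    positivity
  by_cases c2 : 1 ≤ q
  · have : (1 : ℝ) ≤ (q : ℝ) := by exact_mod_cast c2
    simp [c1, c2, Real.smoothTransition.one_of_one_le this]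
    positivity
  have h0 : (0 : ℝ) < (q : ℝ) := by exact_mod_cast not_le.1 c1
  have h1 : (q : ℝ) < 1 := by exact_mod_cast not_le.1 c2
  have hw : ((wq q : ℚ) : ℝ) = (q : ℝ)⁻¹ - (1 - (q : ℝ))⁻¹ := by
    unfold wq; push_cast; ring
  rw [smoothTransition_eq _ h0 h1, ← hw]
  set w := wq q with hwdef
  have hA := expA_spec |w| (abs_nonneg w) n
  have hA0 : (0 : ℝ) ≤ (expA |w| n : ℝ) := by exact_mod_cast expA_nonneg |w| (abs_nonneg w) n
  set A : ℝ := (expA |w| n : ℝ) with hAdef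
  set Ee : ℝ := Real.exp (-((|w| : ℚ) : ℝ)) with hEdef
  have hE0 : 0 < Ee := Real.exp_pos _
  have hden : 1 ≤ (1 + Ee) * (1 + A) := by nlinarith
  by_cases c3 : 0 ≤ w
  · simp only [c1, c2, c3, decide_true, decide_false, cond_true, cond_false]
    have e1 : Real.exp ((w : ℚ) : ℝ) = Ee⁻¹ := by
      rw [hEdef, Real.exp_neg, inv_inv, abs_of_nonneg c3]
    rw [e1]
    push_cast
    rw [← hAdef]
    have e2 : 1 / (1 + Ee⁻¹) - A / (1 + A) = (Ee - A) / ((1 + Ee) * (1 + A)) := by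
      field_simp
      ring
    rw [e2, abs_div, abs_of_pos (by linarith : 0 < (1 + Ee) * (1 + A))]
    exact (div_le_self (abs_nonneg _) hden).trans hA
  · simp only [c1, c2, c3, decide_false, cond_false]
    have e1 : Real.exp ((w : ℚ) : ℝ) = Ee := by
      rw [hEdef, abs_of_neg (not_le.1 c3)]; push_cast; ring_nf
    rw [e1]
    push_cast
    rw [← hAdef]
    have e2 : 1 / (1 + Ee) - 1 / (1 + A) = -(Ee - A) / ((1 + Ee) * (1 + A)) := by
      field_simp
      ring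
    rw [e2, abs_div, abs_neg, abs_of_pos (by linarith : 0 < (1 + Ee) * (1 + A))]
    exact (div_le_self (abs_nonneg _) hden).trans hA

end Crest.Agent.BF
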