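import Crest.Agent.Lib_BF_Defs

/-! # Package C (S0170): explicit bounds for the derivatives of `expNegInvGlue` and
`Real.smoothTransition` -/

set_option autoImplicit false
open scoped ContDiff
open Polynomial

namespace Crest.Agent.BF

/-- `eJ j x = x⁻¹ ^ j * expNegInvGlue x` -/
noncomputable def eJ (j : ℕ) (x : ℝ) : ℝ := (x⁻¹) ^ j * expNegInvGlue x

theorem eJ_eq (j : ℕ) : eJ j = fun x => (X ^ j : ℝ[X]).eval x⁻¹ * expNegInvGlue x := by
  funext x; simp [eJ]

theorem eJ_zero : eJ 0 = expNegInvGlue := by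
  funext x; simp [eJ]

theorem eJ_contDiff (j : ℕ) (n : ℕ∞) : ContDiff ℝ n (eJ j) := by
  rw [eJ_eq]; exact expNegInvGlue.contDiff_polynomial_eval_inv_mul _

theorem eJ_deriv (j : ℕ) : deriv (eJ j) = fun x => eJ (j + 2) x - (j : ℝ) * eJ (j + 1) x := by
  funext x
  rw [eJ_eq, (expNegInvGlue.hasDerivAt_polynomial_eval_inv_mul (X ^ j) x).deriv]
  cases j with
  | zero => simp [eJ]
  | succ j =>
    simp only [derivative_X_pow, eval_mul, eval_pow, eval_X, eval_sub, eval_natCast, eJ,
      Nat.add_sub_cancel, map_natCast]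
    ring

theorem eJ_abs_le (j : ℕ) (x : ℝ) : |eJ j x| ≤ (j.factorial : ℝ) := by
  rcases le_or_gt x 0 with hx | hx
  · simp [eJ, expNegInvGlue.zero_of_nonpos hx]
  · have hy : 0 < x⁻¹ := inv_pos.2 hx
    have h1 : expNegInvGlue x = Real.exp (-x⁻¹) := by simp [expNegInvGlue, hx.not_ge]
    have h2 := Real.pow_div_factorial_le_exp x⁻¹ hy.le j
    have h3 : (0 : ℝ) < j.factorial := by positivity
    rw [div_le_iff₀ h3] at h2
    have h4 : Real.exp (-x⁻¹) * Real.exp x⁻¹ = 1 := by rw [← Real.exp_add]; simp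
    have h5 : 0 < Real.exp (-x⁻¹) := Real.exp_pos _
    unfold eJ
    rw [h1, abs_of_nonneg (by positivity)]
    calc x⁻¹ ^ j * Real.exp (-x⁻¹) ≤ (Real.exp x⁻¹ * j.factorial) * Real.exp (-x⁻¹) :=
          mul_le_mul_of_nonneg_right h2 h5.le
      _ = (Real.exp (-x⁻¹) * Real.exp x⁻¹) * j.factorial := by ring
      _ = j.factorial := by rw [h4, one_mul]

theorem eJ_iteratedDeriv_le (k : ℕ) : ∀ (j : ℕ) (x : ℝ),
    |iteratedDeriv k (eJ j) x| ≤ (2 : ℝ) ^ k * ((j + 2 * k).factorial : ℝ) := by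
  induction k with
  | zero => intro j x; simpa using eJ_abs_le j x
  | succ k ih =>
    intro j x
    rw [iteratedDeriv_succ', eJ_deriv]
    have c1 : ContDiffAt ℝ k (eJ (j + 2)) x := (eJ_contDiff (j + 2) k).contDiffAt
    have c2 : ContDiffAt ℝ k (fun x => (j : ℝ) * eJ (j + 1) x) x :=
      (contDiff_const.mul (eJ_contDiff (j + 1) k)).contDiffAt
    rw [iteratedDeriv_fun_sub c1 c2, iteratedDeriv_const_mul_field]
    have h1 := ih (j + 2) x
    have h2 := ih (j + 1) x
    have e1 : j + 2 + 2 * k = j + 2 * (k + 1) := by ring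
    have e2 : j + 2 * (k + 1) = (j + 1 + 2 * k) + 1 := by ring
    rw [e1] at h1
    have h3 : (j : ℝ) * ((j + 1 + 2 * k).factorial : ℝ) ≤ ((j + 2 * (k + 1)).factorial : ℝ) := by
      rw [e2, Nat.factorial_succ]
      push_cast
      have : (0 : ℝ) ≤ ((j + 1 + 2 * k).factorial : ℝ) := by positivity
      nlinarith
    have h4 : (0 : ℝ) < 2 ^ k := by positivity
    calc |iteratedDeriv k (eJ (j + 2)) x - (j : ℝ) * iteratedDeriv k (eJ (j + 1)) x|
        ≤ |iteratedDeriv k (eJ (j + 2)) x| + |(j : ℝ) * iteratedDeriv k (eJ (j + 1)) x| :=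
          abs_sub _ _
      _ = |iteratedDeriv k (eJ (j + 2)) x| + (j : ℝ) * |iteratedDeriv k (eJ (j + 1)) x| := by
          rw [abs_mul, abs_of_nonneg (Nat.cast_nonneg j : (0 : ℝ) ≤ (j : ℝ))]
      _ ≤ 2 ^ k * ((j + 2 * (k + 1)).factorial : ℝ)
            + (j : ℝ) * (2 ^ k * ((j + 1 + 2 * k).factorial : ℝ)) :=
          add_le_add h1 (mul_le_mul_of_nonneg_left h2 (Nat.cast_nonneg j))
      _ = 2 ^ k * ((j + 2 * (k + 1)).factorial : ℝ)
            + 2 ^ k * ((j : ℝ) * ((j + 1 + 2 * k).factorial : ℝ)) := by ring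
      _ ≤ 2 ^ k * ((j + 2 * (k + 1)).factorial : ℝ)
            + 2 ^ k * ((j + 2 * (k + 1)).factorial : ℝ) := by
          gcongr
      _ = 2 ^ (k + 1) * ((j + 2 * (k + 1)).factorial : ℝ) := by ring

theorem two_mul_factorial_le (k : ℕ) : (2 * k).factorial ≤ 4 ^ k * k.factorial ^ 2 := by
  induction k with
  | zero => simp
  | succ k ih =>
    have e : 2 * (k + 1) = (2 * k + 1) + 1 := by ring
    rw [e, Nat.factorial_succ, Nat.factorial_succ, Nat.factorial_succ]
    calc (2 * k + 1 + 1) * ((2 * k + 1) * (2 * k).factorial)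
        ≤ (2 * k + 1 + 1) * ((2 * k + 1) * (4 ^ k * k.factorial ^ 2)) := by gcongr
      _ ≤ (2 * k + 2) * ((2 * k + 2) * (4 ^ k * k.factorial ^ 2)) := by gcongr; omega
      _ = 4 ^ (k + 1) * ((k + 1) * k.factorial) ^ 2 := by ring

theorem expNegInvGlue_iteratedDeriv_le (k : ℕ) (x : ℝ) :
    |iteratedDeriv k expNegInvGlue x| ≤ ((8 ^ k * k.factorial ^ 2 : ℕ) : ℝ) := by
  have h := eJ_iteratedDeriv_le k 0 x
  rw [eJ_zero, zero_add] at h
  refine h.trans ?_
  have h2 : ((2 * k).factorial : ℝ) ≤ ((4 ^ k * k.factorial ^ 2 : ℕ) : ℝ) := by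
    exact_mod_cast two_mul_factorial_le k
  calc (2 : ℝ) ^ k * ((2 * k).factorial : ℝ) ≤ 2 ^ k * ((4 ^ k * k.factorial ^ 2 : ℕ) : ℝ) := by
        gcongr
    _ = ((8 ^ k * k.factorial ^ 2 : ℕ) : ℝ) := by
        push_cast
        rw [show (8 : ℝ) = 2 * 4 by norm_num, mul_pow]
        ring

/-! ### the smooth transition -/

/-- the denominator -/
noncomputable def Dn (x : ℝ) : ℝ := expNegInvGlue x + expNegInvGlue (1 - x)

theorem Dn_contDiff (n : ℕ∞) : ContDiff ℝ n Dn :=
  expNegInvGlue.contDiff.add (expNegInvGlue.contDiff.comp (contDiff_const.sub contDiff_id))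

theorem Dn_iteratedDeriv_le (m : ℕ) (x : ℝ) :
    |iteratedDeriv m Dn x| ≤ 2 * ((8 : ℝ) ^ m * (m.factorial : ℝ) ^ 2) := by
  have c1 : ContDiffAt ℝ m expNegInvGlue x := expNegInvGlue.contDiff.contDiffAt
  have c2 : ContDiffAt ℝ m (fun x => expNegInvGlue (1 - x)) x :=
    (expNegInvGlue.contDiff.comp (contDiff_const.sub contDiff_id)).contDiffAt
  have e : iteratedDeriv m Dn x = iteratedDeriv m expNegInvGlue x
      + (-1 : ℝ) ^ m • iteratedDeriv m expNegInvGlue (1 - x) := by
    have := iteratedDeriv_fun_add c1 c2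
    rw [iteratedDeriv_comp_const_sub] at this
    exact this
  have h1 := expNegInvGlue_iteratedDeriv_le m x
  have h2 := expNegInvGlue_iteratedDeriv_le m (1 - x)
  push_cast at h1 h2
  rw [e]
  calc |iteratedDeriv m expNegInvGlue x + (-1 : ℝ) ^ m • iteratedDeriv m expNegInvGlue (1 - x)|
      ≤ |iteratedDeriv m expNegInvGlue x| + |(-1 : ℝ) ^ m • iteratedDeriv m expNegInvGlue (1 - x)| :=
        abs_add_le _ _
    _ = |iteratedDeriv m expNegInvGlue x| + |iteratedDeriv m expNegInvGlue (1 - x)| := by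
        rw [smul_eq_mul, abs_mul, abs_pow, abs_neg, abs_one, one_pow, one_mul]
    _ ≤ _ := by linarith

theorem Dn_ge (x : ℝ) : Real.exp (-2) ≤ Dn x := by
  have h0 : expNegInvGlue (1 / 2) = Real.exp (-2) := by
    simp [expNegInvGlue]
  unfold Dn
  rcases le_total (1 / 2) x with h | h
  · have := expNegInvGlue.monotone h
    have h2 := expNegInvGlue.nonneg (1 - x)
    linarith
  · have := expNegInvGlue.monotone (show (1 / 2 : ℝ) ≤ 1 - x by linarith)
    have h2 := expNegInvGlue.nonneg x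
    linarith

theorem smoothTransition_mul_Dn : (Real.smoothTransition * Dn) = expNegInvGlue := by
  funext x
  have := Real.smoothTransition.pos_denom x
  simp only [Pi.mul_apply, Real.smoothTransition, Dn]
  field_simp

theorem geom32 (k : ℕ) : 31 * ∑ i ∈ Finset.range k, (32 : ℝ) ^ i ≤ 32 ^ k := by
  induction k with
  | zero => simp
  | succ k ih => rw [Finset.sum_range_succ, pow_succ]; linarith

theorem exp_two_le : Real.exp 2 ≤ 7.39 := by
  have h := Real.exp_one_lt_d9
  have h0 := Real.exp_pos 1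
  have e : Real.exp 2 = Real.exp 1 * Real.exp 1 := by rw [← Real.exp_add]; norm_num
  rw [e]
  nlinarith

theorem choose_term_le (k i : ℕ) (hi : i ≤ k) :
    (k.choose i : ℝ) * ((i.factorial : ℝ) ^ 2 * ((k - i).factorial : ℝ) ^ 2)
      ≤ (k.factorial : ℝ) ^ 2 := by
  have h1 : k.choose i * i.factorial * (k - i).factorial = k.factorial :=
    Nat.choose_mul_factorial_mul_factorial hi
  have h2 : i.factorial * (k - i).factorial ≤ k.factorial :=
    Nat.le_of_dvd (Nat.factorial_pos _) (Nat.factorial_mul_factorial_dvd_factorial hi)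
  have h1' : (k.choose i : ℝ) * (i.factorial : ℝ) * ((k - i).factorial : ℝ) = (k.factorial : ℝ) := by
    exact_mod_cast h1
  have h2' : (i.factorial : ℝ) * ((k - i).factorial : ℝ) ≤ (k.factorial : ℝ) := by
    exact_mod_cast h2
  calc (k.choose i : ℝ) * ((i.factorial : ℝ) ^ 2 * ((k - i).factorial : ℝ) ^ 2)
      = ((k.choose i : ℝ) * (i.factorial : ℝ) * ((k - i).factorial : ℝ))
          * ((i.factorial : ℝ) * ((k - i).factorial : ℝ)) := by ring
    _ = (k.factorial : ℝ) * ((i.factorial : ℝ) * ((k - i).factorial : ℝ)) := by rw [h1']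
    _ ≤ (k.factorial : ℝ) * (k.factorial : ℝ) := by gcongr
    _ = _ := by ring

theorem smoothTransition_iteratedDeriv_le' (k : ℕ) : ∀ x : ℝ,
    |iteratedDeriv k Real.smoothTransition x| ≤ (256 : ℝ) ^ k * (k.factorial : ℝ) ^ 2 := by
  induction k using Nat.strong_induction_on with
  | _ k ih =>
    intro x
    rcases Nat.eq_zero_or_pos k with rfl | hk
    · simp only [iteratedDeriv_zero, pow_zero, Nat.factorial_zero, Nat.cast_one, one_pow, mul_one]
      rw [abs_of_nonneg (Real.smoothTransition.nonneg x)]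
      exact Real.smoothTransition.le_one x
    have c1 : ContDiffAt ℝ k Real.smoothTransition x := Real.smoothTransition.contDiffAt
    have c2 : ContDiffAt ℝ k Dn x := (Dn_contDiff k).contDiffAt
    have hL := iteratedDeriv_mul c1 c2
    rw [smoothTransition_mul_Dn, Finset.sum_range_succ] at hL
    simp only [Nat.choose_self, Nat.cast_one, one_mul, Nat.sub_self, iteratedDeriv_zero] at hL
    set S : ℝ := ∑ i ∈ Finset.range k,
      (k.choose i : ℝ) * iteratedDeriv i Real.smoothTransition x * iteratedDeriv (k - i) Dn x with hS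
    have hf := expNegInvGlue_iteratedDeriv_le k x
    push_cast at hf
    set A : ℝ := (8 : ℝ) ^ k * (k.factorial : ℝ) ^ 2 with hA
    have hApos : 0 < A := by positivity
    -- bound of the sum
    have hSb : |S| ≤ 2 * A * ∑ i ∈ Finset.range k, (32 : ℝ) ^ i := by
      rw [hS, Finset.mul_sum]
      refine (Finset.abs_sum_le_sum_abs _ _).trans (Finset.sum_le_sum fun i hi => ?_)
      have hik : i < k := Finset.mem_range.1 hi
      have h1 := ih i hik x
      have h2 := Dn_iteratedDeriv_le (k - i) x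
      have h3 := choose_term_le k i hik.le
      rw [abs_mul, abs_mul, abs_of_nonneg (Nat.cast_nonneg _ : (0 : ℝ) ≤ (k.choose i : ℝ))]
      have e8 : (8 : ℝ) ^ k = 8 ^ i * 8 ^ (k - i) := by
        rw [← pow_add]; congr 1; omega
      calc (k.choose i : ℝ) * |iteratedDeriv i Real.smoothTransition x| * |iteratedDeriv (k - i) Dn x|
          ≤ (k.choose i : ℝ) * ((256 : ℝ) ^ i * (i.factorial : ℝ) ^ 2)
              * (2 * ((8 : ℝ) ^ (k - i) * ((k - i).factorial : ℝ) ^ 2)) := by
            gcongr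
        _ = 2 * ((256 : ℝ) ^ i * 8 ^ (k - i)) * ((k.choose i : ℝ)
              * ((i.factorial : ℝ) ^ 2 * ((k - i).factorial : ℝ) ^ 2)) := by ring
        _ ≤ 2 * ((256 : ℝ) ^ i * 8 ^ (k - i)) * (k.factorial : ℝ) ^ 2 := by gcongr
        _ = 2 * A * 32 ^ i := by
            rw [hA, e8, show (256 : ℝ) = 8 * 32 by norm_num, mul_pow]; ring
    have hg := geom32 k
    have h32 : (32 : ℝ) ≤ 32 ^ k := by
      calc (32 : ℝ) = 32 ^ 1 := by norm_num
        _ ≤ 32 ^ k := pow_le_pow_right₀ (by norm_num) hk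
    -- solve for the top derivative
    have hD := Dn_ge x
    have hDpos : 0 < Dn x := lt_of_lt_of_le (Real.exp_pos _) hD
    have hkey : |iteratedDeriv k Real.smoothTransition x| * Dn x ≤ A + |S| := by
      have : iteratedDeriv k Real.smoothTransition x * Dn x
          = iteratedDeriv k expNegInvGlue x - S := by linarith
      calc |iteratedDeriv k Real.smoothTransition x| * Dn x
          = |iteratedDeriv k Real.smoothTransition x * Dn x| := by
            rw [abs_mul, abs_of_pos hDpos]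
        _ = |iteratedDeriv k expNegInvGlue x - S| := by rw [this]
        _ ≤ |iteratedDeriv k expNegInvGlue x| + |S| := abs_sub _ _
        _ ≤ A + |S| := by linarith
    have he : Real.exp 2 * Real.exp (-2) = 1 := by rw [← Real.exp_add]; simp
    have he2 := exp_two_le
    have hepos := Real.exp_pos 2
    set a : ℝ := |iteratedDeriv k Real.smoothTransition x| with ha
    have ha0 : 0 ≤ a := abs_nonneg _
    have h5 : a * Real.exp (-2) ≤ A + 2 * A * (32 ^ k / 31) := by
      have h6 : a * Real.exp (-2) ≤ a * Dn x := mul_le_mul_of_nonneg_left hD ha0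
      have h7 : 2 * A * ∑ i ∈ Finset.range k, (32 : ℝ) ^ i ≤ 2 * A * (32 ^ k / 31) := by
        apply mul_le_mul_of_nonneg_left _ (by positivity)
        rw [le_div_iff₀ (by norm_num)]
        linarith
      linarith
    have h8 : a ≤ Real.exp 2 * (A + 2 * A * (32 ^ k / 31)) := by
      calc a = Real.exp 2 * (a * Real.exp (-2)) := by
            rw [mul_comm a, ← mul_assoc, he, one_mul]
        _ ≤ _ := mul_le_mul_of_nonneg_left h5 hepos.le
    have h9 : Real.exp 2 * (A + 2 * A * (32 ^ k / 31)) ≤ 7.39 * (A + 2 * A * (32 ^ k / 31)) := by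
      apply mul_le_mul_of_nonneg_right he2 (by positivity)
    have h10 : (256 : ℝ) ^ k * (k.factorial : ℝ) ^ 2 = A * 32 ^ k := by
      rw [hA, show (256 : ℝ) = 8 * 32 by norm_num, mul_pow]; ring
    rw [h10]
    have h11 : 7.39 * (A + 2 * A * (32 ^ k / 31)) = A * (7.39 * (1 + 2 * (32 ^ k / 31))) := by ring
    have h12 : 7.39 * (1 + 2 * ((32 : ℝ) ^ k / 31)) ≤ 32 ^ k := by linarith
    calc a ≤ A * (7.39 * (1 + 2 * (32 ^ k / 31))) := by linarith
      _ ≤ A * 32 ^ k := mul_le_mul_of_nonneg_left h12 hApos.le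

theorem smoothTransition_iteratedDeriv_le (k : ℕ) (x : ℝ) :
    |iteratedDeriv k Real.smoothTransition x| ≤ ((256 ^ k * k.factorial ^ 2 : ℕ) : ℝ) := by
  have := smoothTransition_iteratedDeriv_le' k x
  push_cast
  exact this

end Crest.Agent.BF
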