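import Crest.Agent.Lib_BF_Defs
import Crest.Agent.Lib_BF_RatComp

/-! # Package D (S0170): finite differences -/

set_option autoImplicit false
open scoped ContDiff
open Finset

namespace Crest.Agent.BF

theorem contDiff_iteratedDeriv' {f : ℝ → ℝ} (hf : ContDiff ℝ ∞ f) (k : ℕ) :
    ContDiff ℝ ∞ (iteratedDeriv k f) := by
  induction k with
  | zero => simpa [iteratedDeriv_zero] using hf
  | succ k ih =>
    rw [iteratedDeriv_succ]
    exact (contDiff_infty_iff_deriv.1 ih).2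

/-- mean value theorem for iterated forward differences -/
theorem fwdDiff_iter_mvt (h : ℝ) (hh : 0 < h) (k : ℕ) : ∀ (f : ℝ → ℝ) (_ : ContDiff ℝ ∞ f) (x : ℝ),
    ∃ ξ ∈ Set.Icc x (x + k * h), (fwdDiff h)^[k] f x = h ^ k * iteratedDeriv k f ξ := by
  induction k with
  | zero =>
    intro f _ x
    exact ⟨x, ⟨le_refl _, by simp⟩, by simp⟩
  | succ k ih =>
    intro f hf x
    have hg : ContDiff ℝ ∞ (fwdDiff h f) := by
      have : fwdDiff h f = fun y => f (y + h) - f y := by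
        funext y; simp [fwdDiff]
      rw [this]
      exact (hf.comp (contDiff_id.add contDiff_const)).sub hf
    obtain ⟨ξ, hξ, he⟩ := ih (fwdDiff h f) hg x
    have hk : iteratedDeriv k (fwdDiff h f) ξ = iteratedDeriv k f (ξ + h) - iteratedDeriv k f ξ := by
      have : fwdDiff h f = (fun y => f (y + h)) - f := by
        funext y; simp [fwdDiff]
      rw [this, iteratedDeriv_sub, iteratedDeriv_comp_add_const]
      · exact ((hf.comp (contDiff_id.add contDiff_const)).of_le (by exact_mod_cast le_top)).contDiffAt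
      · exact (hf.of_le (by exact_mod_cast le_top)).contDiffAt
    have hsm := contDiff_iteratedDeriv' hf k
    have hd : Differentiable ℝ (iteratedDeriv k f) := hsm.differentiable (by simp)
    obtain ⟨c, hc, hce⟩ := exists_deriv_eq_slope (iteratedDeriv k f) (a := ξ) (b := ξ + h) (by linarith)
      hd.continuous.continuousOn hd.differentiableOn
    refine ⟨c, ⟨by linarith [hξ.1, hc.1], ?_⟩, ?_⟩
    · have := hξ.2
      have := hc.2
      push_cast
      linarith
    · rw [Function.iterate_succ_apply, he, hk, iteratedDeriv_succ, hce]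
      have e : ξ + h - ξ = h := by ring
      rw [e, pow_succ]
      field_simp

theorem iteratedDeriv_lipschitz {f : ℝ → ℝ} (hf : ContDiff ℝ ∞ f) (k : ℕ) (C : ℝ)
    (hC : ∀ x, |iteratedDeriv (k + 1) f x| ≤ C) (x y : ℝ) :
    |iteratedDeriv k f y - iteratedDeriv k f x| ≤ C * |y - x| := by
  have hsm := contDiff_iteratedDeriv' hf k
  have hd : Differentiable ℝ (iteratedDeriv k f) := hsm.differentiable (by simp)
  have := Convex.norm_image_sub_le_of_norm_deriv_le (f := iteratedDeriv k f) (s := Set.univ) (C := C)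
    (x := x) (y := y) (fun z _ => hd z) (fun z _ => by
      rw [← iteratedDeriv_succ]; exact hC z) convex_univ (Set.mem_univ _) (Set.mem_univ _)
  simpa [Real.norm_eq_abs] using this

/-- the finite difference quotient approximates the derivative -/
theorem fwdDiff_quot_approx {f : ℝ → ℝ} (hf : ContDiff ℝ ∞ f) (k : ℕ) (C : ℝ)
    (hC : ∀ x, |iteratedDeriv (k + 1) f x| ≤ C) (h : ℝ) (hh : 0 < h) (x : ℝ) :
    |(h⁻¹) ^ k * (fwdDiff h)^[k] f x - iteratedDeriv k f x| ≤ C * (k * h) := by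
  obtain ⟨ξ, hξ, he⟩ := fwdDiff_iter_mvt h hh k f hf x
  have hC0 : 0 ≤ C := le_trans (abs_nonneg _) (hC 0)
  rw [he]
  have : (h⁻¹) ^ k * (h ^ k * iteratedDeriv k f ξ) = iteratedDeriv k f ξ := by
    rw [← mul_assoc, ← mul_pow, inv_mul_cancel₀ hh.ne', one_pow, one_mul]
  rw [this]
  refine le_trans (iteratedDeriv_lipschitz hf k C hC x ξ) ?_
  apply mul_le_mul_of_nonneg_left _ hC0
  rw [abs_of_nonneg (by linarith [hξ.1])]
  linarith [hξ.2]

section comp
variable {α : Type*} [Primcodable α]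

theorem cN_mul {f g : α → ℕ} (hf : Computable f) (hg : Computable g) :
    Computable (fun a => f a * g a) := (comp2 Primrec.nat_mul.to_comp hf hg :)
theorem cN_add {f g : α → ℕ} (hf : Computable f) (hg : Computable g) :
    Computable (fun a => f a + g a) := (comp2 Primrec.nat_add.to_comp hf hg :)
theorem cN_sub {f g : α → ℕ} (hf : Computable f) (hg : Computable g) :
    Computable (fun a => f a - g a) := (comp2 Primrec.nat_sub.to_comp hf hg :)
theorem cN_pow {f g : α → ℕ} (hf : Computable f) (hg : Computable g) :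
    Computable (fun a => f a ^ g a) := (comp2 comp_nat_pow hf hg :)
theorem cN_choose {f g : α → ℕ} (hf : Computable f) (hg : Computable g) :
    Computable (fun a => (f a).choose (g a)) := (comp2 comp_nat_choose hf hg :)
theorem cQ_mul {f g : α → ℚ} (hf : Computable f) (hg : Computable g) :
    Computable (fun a => f a * g a) := (comp2 comp_rat_mul hf hg :)
theorem cQ_add {f g : α → ℚ} (hf : Computable f) (hg : Computable g) :
    Computable (fun a => f a + g a) := (comp2 comp_rat_add hf hg :)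
theorem cQ_sub {f g : α → ℚ} (hf : Computable f) (hg : Computable g) :
    Computable (fun a => f a - g a) := (comp2 comp_rat_sub hf hg :)
theorem cQ_div {f g : α → ℚ} (hf : Computable f) (hg : Computable g) :
    Computable (fun a => f a / g a) := (comp2 comp_rat_div hf hg :)
theorem cQ_pow {f : α → ℚ} {g : α → ℕ} (hf : Computable f) (hg : Computable g) :
    Computable (fun a => f a ^ g a) := (comp2 comp_rat_pow hf hg :)
theorem cQ_cast {f : α → ℕ} (hf : Computable f) :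
    Computable (fun a => (f a : ℚ)) := comp_rat_natCast.comp hf
theorem cQ_sum {g : α → ℕ → ℚ} (hg : Computable₂ g) {m : α → ℕ} (hm : Computable m) :
    Computable (fun a => ∑ i ∈ Finset.range (m a), g a i) :=
  (comp2 (comp_rat_sum hg) Computable.id hm :)

end comp

theorem fd_estimate {f : ℝ → ℝ} (hf : ContDiff ℝ ∞ f) (S : ℚ × ℕ → ℚ)
    (hSa : ∀ (q : ℚ) (n : ℕ), |f (q : ℝ) - (S (q, n) : ℝ)| ≤ 1 / ((n : ℝ) + 1))
    (k C : ℕ) (hC : ∀ x, |iteratedDeriv (k + 1) f x| ≤ (C : ℝ)) (q : ℚ) (n H N : ℕ)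
    (hH : 2 * (n + 1) * (k + 1) * (C + 1) ≤ H) (hN : 2 * (n + 1) * (2 * H) ^ k ≤ N) :
    |iteratedDeriv k f (q : ℝ) - (((H : ℚ) ^ k * ∑ i ∈ range (k + 1),
      ((-1 : ℚ) ^ (k - i) * (k.choose i : ℚ)) * S (q + (i : ℚ) / (H : ℚ), N) : ℚ) : ℝ)|
      ≤ 1 / ((n : ℝ) + 1) := by
  have hHpos : 0 < H := lt_of_lt_of_le (by positivity) hH
  have hHR : (0 : ℝ) < (H : ℝ) := by exact_mod_cast hHpos
  have hn : (0 : ℝ) < (n : ℝ) + 1 := by positivity
  set h : ℝ := (H : ℝ)⁻¹ with hh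
  have hpos : 0 < h := inv_pos.2 hHR
  have h1 := fwdDiff_quot_approx hf k (C : ℝ) hC h hpos (q : ℝ)
  have hinv : h⁻¹ = (H : ℝ) := by rw [hh, inv_inv]
  rw [hinv] at h1
  -- first error
  have b1 : (C : ℝ) * (k * h) ≤ 1 / (2 * ((n : ℝ) + 1)) := by
    have hHR' : (2 * ((n : ℝ) + 1) * ((k : ℝ) + 1) * ((C : ℝ) + 1)) ≤ (H : ℝ) := by exact_mod_cast hH
    rw [hh, le_div_iff₀ (by positivity)]
    have : (C : ℝ) * (k * (H : ℝ)⁻¹) * (2 * ((n : ℝ) + 1)) = ((C : ℝ) * k * (2 * ((n : ℝ) + 1))) / H := by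
      field_simp
    rw [this, div_le_one hHR]
    refine le_trans ?_ hHR'
    have hk0 : (0 : ℝ) ≤ k := Nat.cast_nonneg _
    have hC0 : (0 : ℝ) ≤ C := Nat.cast_nonneg _
    nlinarith [mul_nonneg hk0 hC0, mul_nonneg hn.le hk0, mul_nonneg hn.le hC0,
      mul_nonneg hn.le (mul_nonneg hk0 hC0)]
  -- second error
  have e2 : (fwdDiff h)^[k] f (q : ℝ) = ∑ i ∈ range (k + 1),
      ((-1 : ℝ) ^ (k - i) * (k.choose i : ℝ)) * f (((q + (i : ℚ) / (H : ℚ) : ℚ)) : ℝ) := by
    rw [fwdDiff_iter_eq_sum_shift]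
    apply Finset.sum_congr rfl
    intro i _
    have : (q : ℝ) + i • h = (((q + (i : ℚ) / (H : ℚ) : ℚ)) : ℝ) := by
      push_cast
      rw [hh, nsmul_eq_mul, div_eq_mul_inv]
    rw [this, zsmul_eq_mul]
    push_cast
    ring
  have b2 : |(H : ℝ) ^ k * (fwdDiff h)^[k] f (q : ℝ) - (((H : ℚ) ^ k * ∑ i ∈ range (k + 1),
      ((-1 : ℚ) ^ (k - i) * (k.choose i : ℚ)) * S (q + (i : ℚ) / (H : ℚ), N) : ℚ) : ℝ)|
      ≤ 1 / (2 * ((n : ℝ) + 1)) := by
    rw [e2]
    push_cast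
    rw [← mul_sub, ← Finset.sum_sub_distrib, abs_mul, abs_of_pos (pow_pos hHR k)]
    have hb : |∑ i ∈ range (k + 1), (((-1 : ℝ) ^ (k - i) * (k.choose i : ℝ)) * f ((q : ℝ) + (i : ℝ) / (H : ℝ))
        - ((-1 : ℝ) ^ (k - i) * (k.choose i : ℝ)) * (S (q + (i : ℚ) / (H : ℚ), N) : ℝ))|
        ≤ ∑ i ∈ range (k + 1), (k.choose i : ℝ) * (1 / ((N : ℝ) + 1)) := by
      refine le_trans (Finset.abs_sum_le_sum_abs _ _) (Finset.sum_le_sum ?_)
      intro i _
      rw [← mul_sub, abs_mul, abs_mul, abs_pow, abs_neg, abs_one, one_pow, one_mul,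
        abs_of_nonneg (Nat.cast_nonneg _)]
      apply mul_le_mul_of_nonneg_left _ (Nat.cast_nonneg _)
      have := hSa (q + (i : ℚ) / (H : ℚ)) N
      push_cast at this
      exact this
    rw [← Finset.sum_mul] at hb
    have hsum : ∑ i ∈ range (k + 1), (k.choose i : ℝ) = 2 ^ k := by
      exact_mod_cast Nat.sum_range_choose k
    rw [hsum] at hb
    have hNR : 2 * ((n : ℝ) + 1) * (2 * (H : ℝ)) ^ k ≤ (N : ℝ) := by exact_mod_cast hN
    calc (H : ℝ) ^ k * _ ≤ (H : ℝ) ^ k * (2 ^ k * (1 / ((N : ℝ) + 1))) :=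
          mul_le_mul_of_nonneg_left hb (pow_pos hHR k).le
      _ = (2 * (H : ℝ)) ^ k / ((N : ℝ) + 1) := by rw [mul_pow]; ring
      _ ≤ 1 / (2 * ((n : ℝ) + 1)) := by
          rw [div_le_div_iff₀ (by positivity) (by positivity)]
          have : (0 : ℝ) < (2 * (H : ℝ)) ^ k := by positivity
          nlinarith
  have e3 : 1 / ((n : ℝ) + 1) = 1 / (2 * ((n : ℝ) + 1)) + 1 / (2 * ((n : ℝ) + 1)) := by
    field_simp
    ring
  rw [e3]
  have h1' := le_trans h1 b1
  rw [abs_le] at h1' b2 ⊢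
  constructor <;> linarith [h1'.1, h1'.2, b2.1, b2.2]

theorem VEff.eff1 {f : ℝ → ℝ} (h : VEff f) : Eff1 f := by
  obtain ⟨hf, S, B, hS, hB, hSa, hBb⟩ := h
  let Hf : ℕ × ℚ × ℕ → ℕ := fun x => 2 * (x.2.2 + 1) * (x.1 + 1) * (B (x.1 + 1) + 1)
  let Nf : ℕ × ℚ × ℕ → ℕ := fun x => 2 * (x.2.2 + 1) * (2 * Hf x) ^ x.1
  let g : ℕ × ℚ × ℕ → ℕ → ℚ := fun x i =>
     ((-1 : ℚ) ^ (x.1 - i) * (x.1.choose i : ℚ)) * S (x.2.1 + (i : ℚ) / (Hf x : ℚ), Nf x)
  let E : ℕ × ℚ × ℕ → ℚ := fun x => (Hf x : ℚ) ^ x.1 * ∑ i ∈ range (x.1 + 1), g x i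
  have c1 : Computable (fun x : ℕ × ℚ × ℕ => x.1) := Computable.fst
  have c2 : Computable (fun x : ℕ × ℚ × ℕ => x.2.1) := Computable.fst.comp Computable.snd
  have c3 : Computable (fun x : ℕ × ℚ × ℕ => x.2.2) := Computable.snd.comp Computable.snd
  have cH : Computable Hf :=
    cN_mul (cN_mul (cN_mul (Computable.const 2) (cN_add c3 (Computable.const 1)))
      (cN_add c1 (Computable.const 1)))
      (cN_add (hB.comp (cN_add c1 (Computable.const 1))) (Computable.const 1))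
  have cNf : Computable Nf :=
    cN_mul (cN_mul (Computable.const 2) (cN_add c3 (Computable.const 1)))
      (cN_pow (cN_mul (Computable.const 2) cH) c1)
  have cg : Computable₂ g := by
    have d1 : Computable (fun y : (ℕ × ℚ × ℕ) × ℕ => y.1) := Computable.fst
    have d2 : Computable (fun y : (ℕ × ℚ × ℕ) × ℕ => y.2) := Computable.snd
    have e1 : Computable (fun y : (ℕ × ℚ × ℕ) × ℕ => (-1 : ℚ) ^ (y.1.1 - y.2)) :=
      cQ_pow (Computable.const (-1)) (cN_sub (c1.comp d1) d2)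
    have e2 : Computable (fun y : (ℕ × ℚ × ℕ) × ℕ => ((y.1.1.choose y.2 : ℕ) : ℚ)) :=
      cQ_cast (cN_choose (c1.comp d1) d2)
    have e3 : Computable (fun y : (ℕ × ℚ × ℕ) × ℕ => y.1.2.1 + (y.2 : ℚ) / (Hf y.1 : ℚ)) :=
      cQ_add (c2.comp d1) (cQ_div (cQ_cast d2) (cQ_cast (cH.comp d1)))
    have e4 : Computable (fun y : (ℕ × ℚ × ℕ) × ℕ =>
        S (y.1.2.1 + (y.2 : ℚ) / (Hf y.1 : ℚ), Nf y.1)) :=
      hS.comp (e3.pair (cNf.comp d1))
    exact cQ_mul (cQ_mul e1 e2) e4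
  have cE : Computable E :=
    cQ_mul (cQ_pow (cQ_cast cH) c1) (cQ_sum cg (cN_add c1 (Computable.const 1)))
  refine ⟨hf, E, B, cE, hB, ?_, hBb⟩
  intro k q n
  exact fd_estimate hf S hSa k (B (k + 1)) (hBb (k + 1)) q n (Hf (k, q, n)) (Nf (k, q, n))
    (le_refl _) (le_refl _)

theorem Eff1.veff {f : ℝ → ℝ} (h : Eff1 f) : VEff f := by
  obtain ⟨hf, E, B, hE, hB, hEa, hBb⟩ := h
  refine ⟨hf, fun x => E (0, x.1, x.2), B, ?_, hB, ?_, hBb⟩
  · exact hE.comp ((Computable.const 0).pair (Computable.fst.pair Computable.snd))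
  · intro q n
    simpa using hEa 0 q n

theorem Eff1.deriv {f : ℝ → ℝ} (h : Eff1 f) : Eff1 (deriv f) := by
  obtain ⟨hf, E, B, hE, hB, hEa, hBb⟩ := h
  refine ⟨(contDiff_infty_iff_deriv.1 hf).2, fun x => E (x.1 + 1, x.2.1, x.2.2), fun k => B (k + 1),
    ?_, ?_, ?_, ?_⟩
  · exact hE.comp ((Computable.succ.comp Computable.fst).pair
      ((Computable.fst.comp Computable.snd).pair (Computable.snd.comp Computable.snd)))
  · exact hB.comp Computable.succ
  · intro k q n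
    rw [← iteratedDeriv_succ']
    exact hEa (k + 1) q n
  · intro k x
    rw [← iteratedDeriv_succ']
    exact hBb (k + 1) x

end Crest.Agent.BF
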