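import Mathlib
import Crest.Prelude.Def_BoxFlow

/-! # Box flows (S0170): shared definitions

All definitions used by the packages `Lib_BF_*`.  No proofs here. -/

set_option autoImplicit false
open scoped ContDiff
open Crest.AnalysisR.BoxFlow

namespace Crest.Agent.BF

/-- three-space -/
abbrev E3 : Type := Fin 3 → ℝ

/-- `f` is smooth, its VALUES at rational points are computably approximable and all its
derivatives have computable global bounds. -/
def VEff (f : ℝ → ℝ) : Prop :=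
  ContDiff ℝ ∞ f ∧ ∃ (S : ℚ × ℕ → ℚ) (B : ℕ → ℕ), Computable S ∧ Computable B ∧
    (∀ (q : ℚ) (n : ℕ), |f (q : ℝ) - (S (q, n) : ℝ)| ≤ 1 / ((n : ℝ) + 1)) ∧
    ∀ (k : ℕ) (x : ℝ), |iteratedDeriv k f x| ≤ (B k : ℝ)

/-- `f` is smooth, ALL its derivatives at rational points are (uniformly) computably approximable
and have computable global bounds. -/
def Eff1 (f : ℝ → ℝ) : Prop :=
  ContDiff ℝ ∞ f ∧ ∃ (E : ℕ × ℚ × ℕ → ℚ) (B : ℕ → ℕ), Computable E ∧ Computable B ∧
    (∀ (k : ℕ) (q : ℚ) (n : ℕ), |iteratedDeriv k f (q : ℝ) - (E (k, q, n) : ℝ)| ≤ 1 / ((n : ℝ) + 1)) ∧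
    ∀ (k : ℕ) (x : ℝ), |iteratedDeriv k f x| ≤ (B k : ℝ)

/-- separable field `f0(t) * g 0 (x 0) * g 1 (x 1) * g 2 (x 2)` in the direction `e_j`. -/
noncomputable def sepField (f0 : ℝ → ℝ) (g : Fin 3 → ℝ → ℝ) (j : Fin 3) : Field :=
  fun p => (f0 p.1 * ∏ m, g m (p.2 m)) • (Pi.single j 1 : E3)

/-- The properties of a velocity field that are closed under addition. -/
structure Good (U : Field) : Prop where
  smooth : ContDiff ℝ ∞ U
  cpt : HasCompactSupport U
  eff : Effective U
  div : ∀ p, spaceDiv U p = 0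

/-- `U` vanishes at all times outside the OPEN interval `(τ0, τ1)`. -/
def TSupp (U : Field) (τ0 τ1 : ℝ) : Prop :=
  ∀ p : ℝ × E3, p.1 ∉ Set.Ioo τ0 τ1 → U p = 0

/-- Every point `x` of `S` is the initial value (for all times `≤ τ0`) of a global solution curve of
`U` which sits at `T x` for all times `≥ τ1`. -/
def Carries (U : Field) (τ0 τ1 : ℝ) (S : Set E3) (T : E3 → E3) : Prop :=
  ∀ x ∈ S, ∃ γ : ℝ → E3, (∀ t, HasDerivAt γ (U (t, γ t)) t) ∧ (∀ t, t ≤ τ0 → γ t = x) ∧
    (∀ t, τ1 ≤ t → γ t = T x)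

/-! ### the elementary fields -/

/-- smooth step in time from 0 (for `t ≤ τ0`) to 1 (for `t ≥ τ1`) -/
noncomputable def stepT (τ0 τ1 : ℝ) (t : ℝ) : ℝ := Real.smoothTransition ((t - τ0) / (τ1 - τ0))

/-- its derivative: a bump of integral one supported in `[τ0, τ1]` -/
noncomputable def bumpT (τ0 τ1 : ℝ) : ℝ → ℝ := deriv (stepT τ0 τ1)

/-- plateau: `0` for `x ≤ lo - δ`, `1` on `[lo, hi]`, `0` for `x ≥ hi + δ`. -/
noncomputable def plateau (lo hi δ : ℝ) (x : ℝ) : ℝ :=
  Real.smoothTransition ((x - (lo - δ)) / δ) - Real.smoothTransition ((x - hi) / δ)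

/-- cut-off primitive of the velocity profile `c0 + c1 x`. -/
noncomputable def strm (lo hi δ c0 c1 : ℝ) (x : ℝ) : ℝ :=
  plateau lo hi δ x * (c0 * x + c1 / 2 * x ^ 2)

/-- data of an elementary move `x ↦ x + (c0 + c1 * x j) e_i` performed inside the box
`∏ (lo m, hi m)`, cut off in the `δ`-collar, during the time interval `(τ0, τ1)`. -/
structure ElemData where
  i : Fin 3
  j : Fin 3
  hij : i ≠ j
  lo : Fin 3 → ℚ
  hi : Fin 3 → ℚ
  δ : ℚ
  hδ : 0 < δ
  c0 : ℚ
  c1 : ℚ
  τ0 : ℚ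
  τ1 : ℚ
  hτ : τ0 < τ1

namespace ElemData

/-- the plateau function of coordinate `m` -/
noncomputable def P (D : ElemData) (m : Fin 3) : ℝ → ℝ := plateau (D.lo m) (D.hi m) D.δ

/-- the stream profile in coordinate `j` -/
noncomputable def B (D : ElemData) : ℝ → ℝ := strm (D.lo D.j) (D.hi D.j) D.δ D.c0 D.c1

/-- the field `α(t) (∂_j ψ e_i - ∂_i ψ e_j)`, `ψ = P_i(x_i) B(x_j) P_l(x_l)`. -/
noncomputable def field (D : ElemData) : Field :=
  sepField (bumpT D.τ0 D.τ1) (Function.update D.P D.j (deriv D.B)) D.i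
    - sepField (bumpT D.τ0 D.τ1)
        (Function.update (Function.update D.P D.i (deriv (D.P D.i))) D.j D.B) D.j

/-- the map realised by the move -/
def map (D : ElemData) (x : E3) : E3 :=
  x + ((D.c0 : ℝ) + (D.c1 : ℝ) * x D.j) • (Pi.single D.i 1 : E3)

/-- the region on which the move is performed exactly -/
def dom (D : ElemData) : Set E3 :=
  {x | (∀ m, (D.lo m : ℝ) < x m ∧ x m < (D.hi m : ℝ)) ∧
    (D.lo D.i : ℝ) < D.map x D.i ∧ D.map x D.i < (D.hi D.i : ℝ)}

/-- the region which is not moved at all -/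
def out (D : ElemData) : Set E3 :=
  {x | ∃ m, x m < (D.lo m : ℝ) - (D.δ : ℝ) ∨ (D.hi m : ℝ) + (D.δ : ℝ) < x m}

end ElemData

/-! ### configurations of boxes and macro moves -/

/-- a configuration of `n` rational boxes: centres and half-widths -/
structure Cfg (n : ℕ) where
  c : Fin n → Fin 3 → ℚ
  h : Fin n → Fin 3 → ℚ

/-- all half widths positive -/
def Cfg.Pos {n : ℕ} (C : Cfg n) : Prop := ∀ i j, 0 < C.h i j

/-- two rational boxes are separated in some coordinate -/
def SepQ (c h c' h' : Fin 3 → ℚ) : Prop := ∃ j, h j + h' j < |c j - c' j|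

/-- the diagonal affine map carrying `box c h` onto `box c' h'` -/
def affMap (c h c' h' : Fin 3 → ℚ) (x : E3) : E3 :=
  fun j => (c' j : ℝ) + ((h' j / h j : ℚ) : ℝ) * (x j - (c j : ℝ))

/-- `C` can be moved to `C'` (during any prescribed rational time interval) by a good field whose
flow is the diagonal affine map near each box. -/
def Moves {n : ℕ} (C C' : Cfg n) : Prop :=
  ∀ τ0 τ1 : ℚ, τ0 < τ1 → ∃ U : Field, Good U ∧ TSupp U τ0 τ1 ∧
    ∀ i, ∃ O : Set E3, IsOpen O ∧ box (C.c i) (C.h i) ⊆ O ∧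
      Carries U τ0 τ1 O (affMap (C.c i) (C.h i) (C'.c i) (C'.h i))

/-- free radius needed around a box of half widths `h` in order to rescale it by `r`
(eight shears; every shear multiplies the sup-norm by at most `1 + |coefficient|`). -/
def bigR (h r : Fin 3 → ℚ) : ℚ :=
  (h 0 + h 1 + h 2 + 1) * (2 + r 0 + (r 0)⁻¹) ^ 4 * (2 + r 0 * r 1 + (r 0 * r 1)⁻¹) ^ 4 + 2

/-- macro moves -/
inductive Step {n : ℕ} : Cfg n → Cfg n → Prop
  /-- translate box `i` by `d` along axis `a`; the swept box must be separated from the others -/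
  | trans (C : Cfg n) (i : Fin n) (a : Fin 3) (d : ℚ)
      (hfree : ∀ i', i' ≠ i → SepQ (C.c i + Pi.single a (d / 2)) (C.h i + Pi.single a (|d| / 2))
        (C.c i') (C.h i')) :
      Step C ⟨Function.update C.c i (C.c i + Pi.single a d), C.h⟩
  /-- rescale box `i` by the positive diagonal matrix `r` of determinant one about its centre;
  the cube of radius `bigR` about the centre must be separated from the others -/
  | scale (C : Cfg n) (i : Fin n) (r : Fin 3 → ℚ) (hr : ∀ j, 0 < r j) (hprod : ∏ j, r j = 1)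
      (hfree : ∀ i', i' ≠ i → SepQ (C.c i) (fun _ => bigR (C.h i) r) (C.c i') (C.h i')) :
      Step C ⟨C.c, Function.update C.h i (fun j => r j * C.h i j)⟩

end Crest.Agent.BF
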