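import Crest.Agent.Lib_BF_Defs
import Crest.Agent.Lib_BF_RatComp
import Crest.Agent.Lib_BF_B
import Crest.Agent.Lib_BF_C
import Crest.Agent.Lib_BF_D

/-! # Package E (S0170): closure properties of `VEff` and the concrete one-dimensional functions -/

set_option autoImplicit false
open scoped ContDiff Topology

namespace Crest.Agent.BF

theorem comp_nat_mul' : Computable₂ (fun a b : ℕ => a * b) := Primrec.nat_mul.to_comp
theorem comp_nat_add' : Computable₂ (fun a b : ℕ => a + b) := Primrec.nat_add.to_comp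

theorem veff_smoothTransition : VEff Real.smoothTransition := by
  obtain ⟨S, hS, hSa⟩ := smoothTransition_approx
  refine ⟨Real.smoothTransition.contDiff, S, fun k => 256 ^ k * k.factorial ^ 2, hS, ?_, hSa,
    smoothTransition_iteratedDeriv_le⟩
  have hc : Computable (fun _ : ℕ => 256) := Computable.const _
  have hc2 : Computable (fun _ : ℕ => 2) := Computable.const _
  have hid : Computable (fun k : ℕ => k) := Computable.id
  have h1 : Computable (fun k : ℕ => 256 ^ k) := (comp2 comp_nat_pow hc hid :)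
  have h2 : Computable (fun k : ℕ => k.factorial ^ 2) :=
    (comp2 comp_nat_pow comp_nat_factorial hc2 :)
  exact (comp2 comp_nat_mul' h1 h2 :)

/-- elementary estimate used for rescaling the precision -/
theorem prec_le {c : ℝ} {C n : ℕ} (hc : |c| ≤ (C : ℝ)) {e : ℝ}
    (he : |e| ≤ 1 / ((((n + 1) * (C + 1) : ℕ) : ℝ) + 1)) : |c * e| ≤ 1 / ((n : ℝ) + 1) := by
  rw [abs_mul]
  have hn : (0 : ℝ) < (n : ℝ) + 1 := by positivity
  have hC : (0 : ℝ) < (C : ℝ) + 1 := by positivity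
  have h1 : |e| ≤ 1 / (((n : ℝ) + 1) * ((C : ℝ) + 1)) := by
    refine he.trans ?_
    apply one_div_le_one_div_of_le (by positivity)
    push_cast; linarith
  calc |c| * |e| ≤ ((C : ℝ) + 1) * (1 / (((n : ℝ) + 1) * ((C : ℝ) + 1))) := by
        apply mul_le_mul (by linarith) h1 (abs_nonneg _) hC.le
    _ = 1 / ((n : ℝ) + 1) := by field_simp

theorem VEff.comp_affine {f : ℝ → ℝ} (h : VEff f) (a b : ℚ) :
    VEff (fun x => f ((a : ℝ) * x + (b : ℝ))) := by
  obtain ⟨hf, S, B, hS, hB, hSa, hBb⟩ := h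
  refine ⟨hf.comp (by fun_prop), fun p => S (a * p.1 + b, p.2), fun k => ⌈|a|⌉₊ ^ k * B k,
    ?_, ?_, ?_, ?_⟩
  · have hfst : Computable (fun p : ℚ × ℕ => p.1) := Computable.fst
    have hsnd : Computable (fun p : ℚ × ℕ => p.2) := Computable.snd
    have hca : Computable (fun _ : ℚ × ℕ => a) := Computable.const a
    have hcb : Computable (fun _ : ℚ × ℕ => b) := Computable.const b
    have h1 : Computable (fun p : ℚ × ℕ => a * p.1) := (comp2 comp_rat_mul hca hfst :)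
    have h2 : Computable (fun p : ℚ × ℕ => a * p.1 + b) := (comp2 comp_rat_add h1 hcb :)
    have h3 : Computable (fun p : ℚ × ℕ => (a * p.1 + b, p.2)) := h2.pair hsnd
    exact (hS.comp h3 :)
  · have hc : Computable (fun _ : ℕ => ⌈|a|⌉₊) := Computable.const _
    have hid : Computable (fun k : ℕ => k) := Computable.id
    have h1 : Computable (fun k : ℕ => ⌈|a|⌉₊ ^ k) := (comp2 comp_nat_pow hc hid :)
    exact (comp2 comp_nat_mul' h1 hB :)
  · intro q n
    have := hSa (a * q + b) n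
    push_cast at this
    exact this
  · intro k x
    have e1 : iteratedDeriv k (fun x => f ((a : ℝ) * x + (b : ℝ))) x
        = (a : ℝ) ^ k * iteratedDeriv k f ((a : ℝ) * x + (b : ℝ)) := by
      have h1 := iteratedDeriv_comp_const_mul (n := k) (f := fun z => f (z + (b : ℝ)))
        ((hf.comp (by fun_prop : ContDiff ℝ ∞ fun z : ℝ => z + (b : ℝ))).of_le (by exact_mod_cast le_top)) (a : ℝ)
      have h2 := congrFun h1 x
      rw [iteratedDeriv_comp_add_const] at h2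
      exact h2
    rw [e1, abs_mul, abs_pow]
    push_cast
    have h3 : |(a : ℝ)| ≤ (⌈|a|⌉₊ : ℝ) := by
      have : ((|a| : ℚ) : ℝ) ≤ ((⌈|a|⌉₊ : ℚ) : ℝ) := by exact_mod_cast Nat.le_ceil |a|
      simpa using this
    exact mul_le_mul (pow_le_pow_left₀ (abs_nonneg _) h3 k) (hBb k _) (abs_nonneg _) (by positivity)

theorem half_prec (n : ℕ) : 1 / (((2 * n + 1 : ℕ) : ℝ) + 1) + 1 / (((2 * n + 1 : ℕ) : ℝ) + 1)
    = 1 / ((n : ℝ) + 1) := by
  push_cast; field_simp; ring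

theorem comp_double : Computable (fun p : ℚ × ℕ => (p.1, 2 * p.2 + 1)) := by
  have hfst : Computable (fun p : ℚ × ℕ => p.1) := Computable.fst
  have hsnd : Computable (fun p : ℚ × ℕ => p.2) := Computable.snd
  have hc2 : Computable (fun _ : ℚ × ℕ => 2) := Computable.const _
  have hc1 : Computable (fun _ : ℚ × ℕ => 1) := Computable.const _
  have h1 : Computable (fun p : ℚ × ℕ => 2 * p.2) := (comp2 comp_nat_mul' hc2 hsnd :)
  have h2 : Computable (fun p : ℚ × ℕ => 2 * p.2 + 1) := (comp2 comp_nat_add' h1 hc1 :)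
  exact hfst.pair h2

theorem natCast_ceil_abs (a : ℚ) : |(a : ℝ)| ≤ (⌈|a|⌉₊ : ℝ) := by
  have : ((|a| : ℚ) : ℝ) ≤ ((⌈|a|⌉₊ : ℚ) : ℝ) := by exact_mod_cast Nat.le_ceil |a|
  simpa using this

theorem cda {f : ℝ → ℝ} (hf : ContDiff ℝ ∞ f) (k : ℕ) (x : ℝ) : ContDiffAt ℝ k f x :=
  (hf.of_le (by exact_mod_cast le_top)).contDiffAt

theorem VEff.add {f g : ℝ → ℝ} (hf : VEff f) (hg : VEff g) : VEff (fun x => f x + g x) := by
  obtain ⟨cf, Sf, Bf, hSf, hBf, af, bf⟩ := hf
  obtain ⟨cg, Sg, Bg, hSg, hBg, ag, bg⟩ := hg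
  refine ⟨cf.add cg, fun p => Sf (p.1, 2 * p.2 + 1) + Sg (p.1, 2 * p.2 + 1),
    fun k => Bf k + Bg k, ?_, ?_, ?_, ?_⟩
  · have h1 : Computable (fun p : ℚ × ℕ => Sf (p.1, 2 * p.2 + 1)) := (hSf.comp comp_double :)
    have h2 : Computable (fun p : ℚ × ℕ => Sg (p.1, 2 * p.2 + 1)) := (hSg.comp comp_double :)
    exact (comp2 comp_rat_add h1 h2 :)
  · exact (comp2 comp_nat_add' hBf hBg :)
  · intro q n
    have h1 := af q (2 * n + 1)
    have h2 := ag q (2 * n + 1)
    rw [← half_prec n]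
    push_cast at h1 h2 ⊢
    have e : f q + g q - ((Sf (q, 2 * n + 1) : ℝ) + (Sg (q, 2 * n + 1) : ℝ))
        = (f q - (Sf (q, 2 * n + 1) : ℝ)) + (g q - (Sg (q, 2 * n + 1) : ℝ)) := by ring
    rw [e]
    exact (abs_add_le _ _).trans (add_le_add h1 h2)
  · intro k x
    rw [iteratedDeriv_fun_add (cda cf k x) (cda cg k x)]
    push_cast
    exact (abs_add_le _ _).trans (add_le_add (bf k x) (bg k x))

theorem VEff.sub {f g : ℝ → ℝ} (hf : VEff f) (hg : VEff g) : VEff (fun x => f x - g x) := by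
  obtain ⟨cf, Sf, Bf, hSf, hBf, af, bf⟩ := hf
  obtain ⟨cg, Sg, Bg, hSg, hBg, ag, bg⟩ := hg
  refine ⟨cf.sub cg, fun p => Sf (p.1, 2 * p.2 + 1) - Sg (p.1, 2 * p.2 + 1),
    fun k => Bf k + Bg k, ?_, ?_, ?_, ?_⟩
  · have h1 : Computable (fun p : ℚ × ℕ => Sf (p.1, 2 * p.2 + 1)) := (hSf.comp comp_double :)
    have h2 : Computable (fun p : ℚ × ℕ => Sg (p.1, 2 * p.2 + 1)) := (hSg.comp comp_double :)
    exact (comp2 comp_rat_sub h1 h2 :)
  · exact (comp2 comp_nat_add' hBf hBg :)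
  · intro q n
    have h1 := af q (2 * n + 1)
    have h2 := ag q (2 * n + 1)
    rw [← half_prec n]
    push_cast at h1 h2 ⊢
    have e : f q - g q - ((Sf (q, 2 * n + 1) : ℝ) - (Sg (q, 2 * n + 1) : ℝ))
        = (f q - (Sf (q, 2 * n + 1) : ℝ)) - (g q - (Sg (q, 2 * n + 1) : ℝ)) := by ring
    rw [e]
    exact (abs_sub _ _).trans (add_le_add h1 h2)
  · intro k x
    rw [iteratedDeriv_fun_sub (cda cf k x) (cda cg k x)]
    push_cast
    exact (abs_sub _ _).trans (add_le_add (bf k x) (bg k x))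

theorem VEff.const_mul {f : ℝ → ℝ} (hf : VEff f) (c : ℚ) : VEff (fun x => (c : ℝ) * f x) := by
  obtain ⟨cf, S, B, hS, hB, a, b⟩ := hf
  refine ⟨contDiff_const.mul cf, fun p => c * S (p.1, (p.2 + 1) * (⌈|c|⌉₊ + 1)),
    fun k => ⌈|c|⌉₊ * B k, ?_, ?_, ?_, ?_⟩
  · have hfst : Computable (fun p : ℚ × ℕ => p.1) := Computable.fst
    have hsnd : Computable (fun p : ℚ × ℕ => p.2) := Computable.snd
    have hc1 : Computable (fun _ : ℚ × ℕ => 1) := Computable.const _
    have hcc : Computable (fun _ : ℚ × ℕ => ⌈|c|⌉₊ + 1) := Computable.const _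
    have hc : Computable (fun _ : ℚ × ℕ => c) := Computable.const _
    have h1 : Computable (fun p : ℚ × ℕ => p.2 + 1) := (comp2 comp_nat_add' hsnd hc1 :)
    have h2 : Computable (fun p : ℚ × ℕ => (p.2 + 1) * (⌈|c|⌉₊ + 1)) :=
      (comp2 comp_nat_mul' h1 hcc :)
    have h3 : Computable (fun p : ℚ × ℕ => S (p.1, (p.2 + 1) * (⌈|c|⌉₊ + 1))) :=
      (hS.comp (hfst.pair h2) :)
    exact (comp2 comp_rat_mul hc h3 :)
  · have hc : Computable (fun _ : ℕ => ⌈|c|⌉₊) := Computable.const _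
    exact (comp2 comp_nat_mul' hc hB :)
  · intro q n
    have := prec_le (natCast_ceil_abs c) (a q ((n + 1) * (⌈|c|⌉₊ + 1)))
    push_cast
    rw [← mul_sub]
    exact this
  · intro k x
    rw [iteratedDeriv_const_mul_field, abs_mul]
    push_cast
    exact mul_le_mul (natCast_ceil_abs c) (b k x) (abs_nonneg _) (by positivity)

theorem hasDerivAt_iteratedDeriv {f : ℝ → ℝ} (hf : ContDiff ℝ ∞ f) (k : ℕ) (x : ℝ) :
    HasDerivAt (iteratedDeriv k f) (iteratedDeriv (k + 1) f x) x := by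
  rw [iteratedDeriv_succ]
  exact ((hf.differentiable_iteratedDeriv k (by exact_mod_cast ENat.natCast_lt_top k)) x).hasDerivAt

theorem iteratedDeriv_mul_id {f : ℝ → ℝ} (hf : ContDiff ℝ ∞ f) (k : ℕ) :
    iteratedDeriv (k + 1) (fun x => f x * x)
      = fun x => iteratedDeriv (k + 1) f x * x + ((k : ℝ) + 1) * iteratedDeriv k f x := by
  induction k with
  | zero =>
    funext x
    have h := (hasDerivAt_iteratedDeriv hf 0 x).mul (hasDerivAt_id' x)
    rw [iteratedDeriv_succ, iteratedDeriv_zero]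
    rw [iteratedDeriv_zero] at h
    have h' : HasDerivAt (fun x => f x * x) (iteratedDeriv (0 + 1) f x * x + f x * 1) x := h
    rw [h'.deriv]; simp
  | succ k ih =>
    rw [iteratedDeriv_succ, ih]
    funext x
    have d1 := hasDerivAt_iteratedDeriv hf (k + 1) x
    have d0 := hasDerivAt_iteratedDeriv hf k x
    have h : HasDerivAt
        (fun x => iteratedDeriv (k + 1) f x * x + ((k : ℝ) + 1) * iteratedDeriv k f x)
        ((iteratedDeriv (k + 1 + 1) f x * x + iteratedDeriv (k + 1) f x * 1)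
          + ((k : ℝ) + 1) * iteratedDeriv (k + 1) f x) x :=
      (d1.mul (hasDerivAt_id' x)).add (d0.const_mul ((k : ℝ) + 1))
    rw [h.deriv]; push_cast; ring

theorem iteratedDeriv_eq_zero_of_large {f : ℝ → ℝ} (R : ℕ)
    (hR : ∀ x : ℝ, (R : ℝ) < |x| → f x = 0) (k : ℕ) (x : ℝ) (hx : (R : ℝ) < |x|) :
    iteratedDeriv k f x = 0 := by
  have hopen : IsOpen {y : ℝ | (R : ℝ) < |y|} := isOpen_lt continuous_const continuous_abs
  have hev : f =ᶠ[𝓝 x] fun _ => 0 := by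
    filter_upwards [hopen.mem_nhds hx] with y hy using hR y hy
  rw [hev.iteratedDeriv_eq k]
  cases k with
  | zero => simp
  | succ k => simp

/-- multiplication by the identity, for functions vanishing outside `[-R, R]` -/
theorem VEff.mul_id {f : ℝ → ℝ} (hf : VEff f) (R : ℕ) (hR : ∀ x : ℝ, (R : ℝ) < |x| → f x = 0) :
    VEff (fun x => f x * x) := by
  obtain ⟨cf, S, B, hS, hB, a, b⟩ := hf
  refine ⟨cf.mul contDiff_id, fun p => p.1 * S (p.1, (p.2 + 1) * (⌈|p.1|⌉₊ + 1)),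
    fun k => B k * R + k * B (k - 1), ?_, ?_, ?_, ?_⟩
  · have hfst : Computable (fun p : ℚ × ℕ => p.1) := Computable.fst
    have hsnd : Computable (fun p : ℚ × ℕ => p.2) := Computable.snd
    have hc1 : Computable (fun _ : ℚ × ℕ => 1) := Computable.const _
    have ha : Computable (fun p : ℚ × ℕ => |p.1|) := (comp_rat_abs.comp hfst :)
    have hce : Computable (fun p : ℚ × ℕ => ⌈|p.1|⌉₊) := (comp_rat_ceil.comp ha :)
    have hcc : Computable (fun p : ℚ × ℕ => ⌈|p.1|⌉₊ + 1) := (comp2 comp_nat_add' hce hc1 :)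
    have h1 : Computable (fun p : ℚ × ℕ => p.2 + 1) := (comp2 comp_nat_add' hsnd hc1 :)
    have h2 : Computable (fun p : ℚ × ℕ => (p.2 + 1) * (⌈|p.1|⌉₊ + 1)) :=
      (comp2 comp_nat_mul' h1 hcc :)
    have h3 : Computable (fun p : ℚ × ℕ => S (p.1, (p.2 + 1) * (⌈|p.1|⌉₊ + 1))) :=
      (hS.comp (hfst.pair h2) :)
    exact (comp2 comp_rat_mul hfst h3 :)
  · have hid : Computable (fun k : ℕ => k) := Computable.id
    have hcR : Computable (fun _ : ℕ => R) := Computable.const _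
    have hpred : Computable (fun k : ℕ => k - 1) := Primrec.pred.to_comp
    have h1 : Computable (fun k : ℕ => B k * R) := (comp2 comp_nat_mul' hB hcR :)
    have h2 : Computable (fun k : ℕ => B (k - 1)) := (hB.comp hpred :)
    have h3 : Computable (fun k : ℕ => k * B (k - 1)) := (comp2 comp_nat_mul' hid h2 :)
    exact (comp2 comp_nat_add' h1 h3 :)
  · intro q n
    have := prec_le (natCast_ceil_abs q) (a q ((n + 1) * (⌈|q|⌉₊ + 1)))
    push_cast
    rw [mul_comm (f q) (q : ℝ), ← mul_sub]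
    exact this
  · intro k x
    have hb : ∀ k : ℕ, |iteratedDeriv k f x * x| ≤ (B k : ℝ) * (R : ℝ) := by
      intro k
      by_cases hx : (R : ℝ) < |x|
      · rw [iteratedDeriv_eq_zero_of_large R hR k x hx]
        simp only [zero_mul, abs_zero]
        positivity
      · rw [abs_mul]
        exact mul_le_mul (b k x) (not_lt.1 hx) (abs_nonneg _) (by positivity)
    cases k with
    | zero =>
      simpa using hb 0
    | succ k =>
      rw [iteratedDeriv_mul_id cf k]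
      push_cast
      refine (abs_add_le _ _).trans (add_le_add (hb (k + 1)) ?_)
      rw [abs_mul, abs_of_nonneg (by positivity : (0 : ℝ) ≤ (k : ℝ) + 1)]
      exact mul_le_mul_of_nonneg_left (b k x) (by positivity)

/-! ### the concrete functions -/

theorem veff_stepT (τ0 τ1 : ℚ) : VEff (stepT (τ0 : ℝ) (τ1 : ℝ)) := by
  have h := veff_smoothTransition.comp_affine ((τ1 - τ0)⁻¹) (-τ0 * (τ1 - τ0)⁻¹)
  have e : (fun x : ℝ => Real.smoothTransition
      ((((τ1 - τ0)⁻¹ : ℚ) : ℝ) * x + ((-τ0 * (τ1 - τ0)⁻¹ : ℚ) : ℝ))) = stepT (τ0 : ℝ) (τ1 : ℝ) := by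
    funext x; unfold stepT; congr 1; push_cast; ring
  rwa [e] at h

theorem eff1_bumpT (τ0 τ1 : ℚ) (h : τ0 < τ1) : Eff1 (bumpT (τ0 : ℝ) (τ1 : ℝ)) :=
  (veff_stepT τ0 τ1).eff1.deriv

theorem veff_plateau (lo hi δ : ℚ) : VEff (plateau (lo : ℝ) (hi : ℝ) (δ : ℝ)) := by
  have h := (veff_smoothTransition.comp_affine (δ⁻¹) (-(lo - δ) * δ⁻¹)).sub
    (veff_smoothTransition.comp_affine (δ⁻¹) (-hi * δ⁻¹))
  have e : (fun x : ℝ => Real.smoothTransition (((δ⁻¹ : ℚ) : ℝ) * x + ((-(lo - δ) * δ⁻¹ : ℚ) : ℝ))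
      - Real.smoothTransition (((δ⁻¹ : ℚ) : ℝ) * x + ((-hi * δ⁻¹ : ℚ) : ℝ)))
      = plateau (lo : ℝ) (hi : ℝ) (δ : ℝ) := by
    funext x; unfold plateau; congr 2 <;> (push_cast; ring)
  rwa [e] at h

theorem eff1_plateau (lo hi δ : ℚ) (hδ : 0 < δ) : Eff1 (plateau (lo : ℝ) (hi : ℝ) (δ : ℝ)) :=
  (veff_plateau lo hi δ).eff1

theorem plateau_zero_of_large (lo hi δ : ℚ) (hδ : 0 < δ) (x : ℝ)
    (hx : ((⌈|lo| + |hi| + δ⌉₊ : ℕ) : ℝ) < |x|) : plateau (lo : ℝ) (hi : ℝ) (δ : ℝ) x = 0 := by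
  have hδ' : (0 : ℝ) < (δ : ℝ) := by exact_mod_cast hδ
  have h1 : |(lo : ℝ)| + |(hi : ℝ)| + (δ : ℝ) < |x| := by
    have : ((|lo| + |hi| + δ : ℚ) : ℝ) ≤ ((⌈|lo| + |hi| + δ⌉₊ : ℚ) : ℝ) := by
      exact_mod_cast Nat.le_ceil _
    push_cast at this
    linarith
  have a1 := le_abs_self (lo : ℝ)
  have a2 := neg_abs_le (lo : ℝ)
  have a3 := le_abs_self (hi : ℝ)
  have a4 := neg_abs_le (hi : ℝ)
  have a5 := abs_nonneg (lo : ℝ)
  have a6 := abs_nonneg (hi : ℝ)
  unfold plateau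
  rcases lt_abs.1 h1 with h | h
  · rw [Real.smoothTransition.one_of_one_le ((one_le_div hδ').2 (by linarith)),
      Real.smoothTransition.one_of_one_le ((one_le_div hδ').2 (by linarith))]
    simp
  · rw [Real.smoothTransition.zero_of_nonpos
        (div_nonpos_of_nonpos_of_nonneg (by linarith) hδ'.le),
      Real.smoothTransition.zero_of_nonpos (div_nonpos_of_nonpos_of_nonneg (by linarith) hδ'.le)]
    simp

theorem eff1_strm (lo hi δ c0 c1 : ℚ) (hδ : 0 < δ) :
    Eff1 (strm (lo : ℝ) (hi : ℝ) (δ : ℝ) (c0 : ℝ) (c1 : ℝ)) := by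
  have hz := plateau_zero_of_large lo hi δ hδ
  have h1 := (veff_plateau lo hi δ).mul_id _ hz
  have h2 := h1.mul_id (⌈|lo| + |hi| + δ⌉₊) (fun x hx => by rw [hz x hx, zero_mul])
  have h := (h1.const_mul c0).add (h2.const_mul (c1 / 2))
  have e : (fun x : ℝ => (c0 : ℝ) * (plateau (lo : ℝ) (hi : ℝ) (δ : ℝ) x * x)
      + ((c1 / 2 : ℚ) : ℝ) * (plateau (lo : ℝ) (hi : ℝ) (δ : ℝ) x * x * x))
      = strm (lo : ℝ) (hi : ℝ) (δ : ℝ) (c0 : ℝ) (c1 : ℝ) := by
    funext x; unfold strm; push_cast; ring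
  rw [e] at h
  exact h.eff1

end Crest.Agent.BF
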