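import Crest.Agent.Lib_BF_B
import Crest.Agent.Lib_BF_C
import Crest.Agent.Lib_BF_D
import Crest.Agent.Lib_BF_E

/-! # Packages B, C, D, E (S0170): effective one-dimensional functions (umbrella file) -/
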