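import Crest.Agent.Lib_BF_F

/-! # Package F (S0170): separable fields (umbrella file, see `Lib_BF_F`) -/
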