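import Crest.Agent.Lib_BF_Defs
import Crest.Agent.Lib_BF_OneD
import Crest.Agent.Lib_BF_Sep

/-! # Package G (S0170): the elementary fields -/

set_option autoImplicit false
open scoped ContDiff Topology
open Crest.AnalysisR.BoxFlow

namespace Crest.Agent.BF

/-! ### one-dimensional facts -/

theorem stepT_contDiff (τ0 τ1 : ℝ) : ContDiff ℝ ∞ (stepT τ0 τ1) := by
  unfold stepT
  exact Real.smoothTransition.contDiff.comp (by fun_prop)

theorem stepT_of_le {τ0 τ1 t : ℝ} (h : τ0 < τ1) (ht : t ≤ τ0) : stepT τ0 τ1 t = 0 := by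
  unfold stepT
  exact Real.smoothTransition.zero_of_nonpos
    (div_nonpos_of_nonpos_of_nonneg (by linarith) (by linarith))

theorem stepT_of_ge {τ0 τ1 t : ℝ} (h : τ0 < τ1) (ht : τ1 ≤ t) : stepT τ0 τ1 t = 1 := by
  unfold stepT
  exact Real.smoothTransition.one_of_one_le ((one_le_div (by linarith)).2 (by linarith))

theorem stepT_nonneg (τ0 τ1 t : ℝ) : 0 ≤ stepT τ0 τ1 t := Real.smoothTransition.nonneg _

theorem stepT_le_one (τ0 τ1 t : ℝ) : stepT τ0 τ1 t ≤ 1 := Real.smoothTransition.le_one _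

theorem stepT_hasDerivAt (τ0 τ1 t : ℝ) : HasDerivAt (stepT τ0 τ1) (bumpT τ0 τ1 t) t :=
  ((stepT_contDiff τ0 τ1).differentiable (by simp)).differentiableAt.hasDerivAt

theorem bumpT_eq_zero {τ0 τ1 t : ℝ} (h : τ0 < τ1) (ht : t ∉ Set.Ioo τ0 τ1) :
    bumpT τ0 τ1 t = 0 := by
  rcases not_and_or.1 ht with h1 | h1
  · have : IsLocalMin (stepT τ0 τ1) t := by
      refine Filter.Eventually.of_forall (fun s => ?_)
      rw [stepT_of_le h (not_lt.1 h1)]; exact stepT_nonneg ..
    exact this.deriv_eq_zero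
  · have : IsLocalMax (stepT τ0 τ1) t := by
      refine Filter.Eventually.of_forall (fun s => ?_)
      rw [stepT_of_ge h (not_lt.1 h1)]; exact stepT_le_one ..
    exact this.deriv_eq_zero

theorem plateau_eq_one {lo hi δ x : ℝ} (hδ : 0 < δ) (h1 : lo ≤ x) (h2 : x ≤ hi) :
    plateau lo hi δ x = 1 := by
  unfold plateau
  rw [Real.smoothTransition.one_of_one_le ((one_le_div hδ).2 (by linarith)),
    Real.smoothTransition.zero_of_nonpos (div_nonpos_of_nonpos_of_nonneg (by linarith) hδ.le)]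
  simp

theorem plateau_eq_zero_left {lo hi δ x : ℝ} (hδ : 0 < δ) (h1 : x ≤ lo - δ) (h2 : x ≤ hi) :
    plateau lo hi δ x = 0 := by
  unfold plateau
  rw [Real.smoothTransition.zero_of_nonpos (div_nonpos_of_nonpos_of_nonneg (by linarith) hδ.le),
    Real.smoothTransition.zero_of_nonpos (div_nonpos_of_nonpos_of_nonneg (by linarith) hδ.le)]
  simp

theorem plateau_eq_zero_right {lo hi δ x : ℝ} (hδ : 0 < δ) (h1 : lo ≤ x) (h2 : hi + δ ≤ x) :
    plateau lo hi δ x = 0 := by
  unfold plateau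
  rw [Real.smoothTransition.one_of_one_le ((one_le_div hδ).2 (by linarith)),
    Real.smoothTransition.one_of_one_le ((one_le_div hδ).2 (by linarith))]
  simp

/-- `f` vanishes outside `[a, b]` -/
def VanishOut (f : ℝ → ℝ) (a b : ℝ) : Prop := ∀ x, x ∉ Set.Icc a b → f x = 0

theorem VanishOut.deriv {f : ℝ → ℝ} {a b : ℝ} (h : VanishOut f a b) : VanishOut (deriv f) a b := by
  intro x hx
  have hev : f =ᶠ[𝓝 x] fun _ => 0 := by
    filter_upwards [isClosed_Icc.isOpen_compl.mem_nhds hx] with y hy using h y hy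
  rw [hev.deriv_eq]; simp

theorem plateau_vanishOut {lo hi δ : ℝ} (hδ : 0 < δ) :
    VanishOut (plateau lo hi δ) (min (lo - δ) hi) (max lo (hi + δ)) := by
  intro x hx
  rw [Set.mem_Icc, not_and_or] at hx
  rcases hx with hx | hx
  · have := not_le.1 hx
    exact plateau_eq_zero_left hδ (this.le.trans (min_le_left _ _)) (this.le.trans (min_le_right _ _))
  · have := not_le.1 hx
    exact plateau_eq_zero_right hδ ((le_max_left _ _).trans this.le)
      ((le_max_right _ _).trans this.le)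

theorem strm_vanishOut {lo hi δ c0 c1 : ℝ} (hδ : 0 < δ) :
    VanishOut (strm lo hi δ c0 c1) (min (lo - δ) hi) (max lo (hi + δ)) := by
  intro x hx
  unfold strm
  rw [plateau_vanishOut hδ x hx, zero_mul]

theorem bumpT_vanishOut {τ0 τ1 : ℝ} (h : τ0 < τ1) : VanishOut (bumpT τ0 τ1) τ0 τ1 := by
  intro x hx
  exact bumpT_eq_zero h (fun h' => hx (Set.Ioo_subset_Icc_self h'))

theorem deriv_plateau_eq_zero {lo hi δ x : ℝ} (hδ : 0 < δ) (h1 : lo < x) (h2 : x < hi) :
    deriv (plateau lo hi δ) x = 0 := by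
  have hev : plateau lo hi δ =ᶠ[𝓝 x] fun _ => 1 := by
    filter_upwards [Ioo_mem_nhds h1 h2] with y hy using plateau_eq_one hδ hy.1.le hy.2.le
  rw [hev.deriv_eq]; simp

theorem deriv_strm_eq {lo hi δ c0 c1 x : ℝ} (hδ : 0 < δ) (h1 : lo < x) (h2 : x < hi) :
    deriv (strm lo hi δ c0 c1) x = c0 + c1 * x := by
  have hev : strm lo hi δ c0 c1 =ᶠ[𝓝 x] fun y => c0 * y + c1 / 2 * y ^ 2 := by
    filter_upwards [Ioo_mem_nhds h1 h2] with y hy
    unfold strm
    rw [plateau_eq_one hδ hy.1.le hy.2.le, one_mul]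
  rw [hev.deriv_eq]
  have : HasDerivAt (fun y : ℝ => c0 * y + c1 / 2 * y ^ 2) (c0 * 1 + c1 / 2 * (2 * x ^ 1 * 1)) x := by
    have h1 := (hasDerivAt_id' x).const_mul c0
    have h2 := ((hasDerivAt_id' x).fun_pow 2).const_mul (c1 / 2)
    simpa using h1.fun_add h2
  rw [this.deriv]; ring

/-! ### separable fields -/

theorem sepField_hasCompactSupport {f0 : ℝ → ℝ} {g : Fin 3 → ℝ → ℝ} {a0 b0 : ℝ} {a b : Fin 3 → ℝ}
    (h0 : VanishOut f0 a0 b0) (hg : ∀ m, VanishOut (g m) (a m) (b m)) (j : Fin 3) :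
    HasCompactSupport (sepField f0 g j) := by
  refine HasCompactSupport.intro
    (K := Set.Icc a0 b0 ×ˢ Set.pi Set.univ (fun m => Set.Icc (a m) (b m)))
    (isCompact_Icc.prod (isCompact_univ_pi fun m => isCompact_Icc)) ?_
  intro p hp
  unfold sepField
  rw [Set.mem_prod, not_and_or] at hp
  rcases hp with hp | hp
  · rw [h0 _ hp]; simp
  · simp only [Set.mem_pi, Set.mem_univ, true_imp_iff, not_forall] at hp
    obtain ⟨m, hm⟩ := hp
    rw [Finset.prod_eq_zero (Finset.mem_univ m) (hg m _ hm)]; simp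

theorem spaceDiv_sepField {f0 : ℝ → ℝ} {g : Fin 3 → ℝ → ℝ} (h0 : ContDiff ℝ ∞ f0)
    (hg : ∀ m, ContDiff ℝ ∞ (g m)) (j : Fin 3) (p : ℝ × E3) :
    spaceDiv (sepField f0 g j) p
      = f0 p.1 * ∏ m, (Function.update g j (deriv (g j))) m (p.2 m) := by
  have hdir : ∀ m : Fin 3, direction m.succ = ((0 : ℝ), (Pi.single m 1 : E3)) := by
    intro m
    simp [direction, Fin.succ_ne_zero]
  have h1 : ∀ m : Fin 3, fderiv ℝ (sepField f0 g j) p (0, Pi.single m 1)
      = mixedDeriv [m.succ] (sepField f0 g j) p := by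
    intro m
    simp only [mixedDeriv, hdir]
  unfold spaceDiv
  simp only [h1, mixedDeriv_sepField h0 hg]
  unfold sepField
  simp only [Pi.smul_apply, smul_eq_mul]
  rw [Finset.sum_eq_single j]
  · simp only [Pi.single_eq_same, mul_one]
    have h00 : List.count (0 : Fin 4) [j.succ] = 0 := by
      simp [Fin.succ_ne_zero]
    rw [h00, iteratedDeriv_zero]
    congr 1
    refine Finset.prod_congr rfl (fun m _ => ?_)
    by_cases hm : m = j
    · subst hm
      simp [iteratedDeriv_one]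
    · have : List.count m.succ [j.succ] = 0 := by
        simp [Ne.symm hm]
      rw [this, iteratedDeriv_zero, Function.update_of_ne hm]
  · intro m _ hm
    rw [Pi.single_eq_of_ne hm, mul_zero]
  · simp

theorem spaceDiv_sub {U V : Field} (hU : ContDiff ℝ ∞ U) (hV : ContDiff ℝ ∞ V) (p : ℝ × E3) :
    spaceDiv (U - V) p = spaceDiv U p - spaceDiv V p := by
  unfold spaceDiv
  rw [fderiv_sub (hU.differentiable (by simp)).differentiableAt
    (hV.differentiable (by simp)).differentiableAt]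
  simp [Finset.sum_sub_distrib]

theorem convex_pos {s a b : ℝ} (h0 : 0 ≤ s) (h1 : s ≤ 1) (ha : 0 < a) (hb : 0 < b) :
    0 < (1 - s) * a + s * b := by
  rcases h0.eq_or_lt with rfl | h
  · simpa using ha
  · have h2 := mul_pos h hb
    have h3 := mul_nonneg (sub_nonneg.2 h1) ha.le
    linarith

namespace ElemData

variable (D : ElemData)

theorem hδ' : (0 : ℝ) < (D.δ : ℝ) := by exact_mod_cast D.hδ
theorem hτ' : (D.τ0 : ℝ) < (D.τ1 : ℝ) := by exact_mod_cast D.hτ

/-- first factor family -/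
noncomputable def g1 : Fin 3 → ℝ → ℝ := Function.update D.P D.j (deriv D.B)
/-- second factor family -/
noncomputable def g2 : Fin 3 → ℝ → ℝ :=
  Function.update (Function.update D.P D.i (deriv (D.P D.i))) D.j D.B

theorem field_eq : D.field = sepField (bumpT D.τ0 D.τ1) D.g1 D.i
    - sepField (bumpT D.τ0 D.τ1) D.g2 D.j := rfl

theorem eff1_P (m : Fin 3) : Eff1 (D.P m) := eff1_plateau _ _ _ D.hδ
theorem eff1_B : Eff1 D.B := eff1_strm _ _ _ _ _ D.hδ
theorem eff1_bump : Eff1 (bumpT D.τ0 D.τ1) := eff1_bumpT _ _ D.hτ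

theorem eff1_g1 (m : Fin 3) : Eff1 (D.g1 m) := by
  unfold g1
  by_cases h : m = D.j
  · rw [h, Function.update_self]; exact D.eff1_B.deriv
  · rw [Function.update_of_ne h]; exact D.eff1_P m

theorem eff1_g2 (m : Fin 3) : Eff1 (D.g2 m) := by
  unfold g2
  by_cases h : m = D.j
  · rw [h, Function.update_self]; exact D.eff1_B
  · rw [Function.update_of_ne h]
    by_cases h' : m = D.i
    · rw [h', Function.update_self]; exact (D.eff1_P _).deriv
    · rw [Function.update_of_ne h']; exact D.eff1_P m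

/-- lower end of the support -/
noncomputable def sa (m : Fin 3) : ℝ := min ((D.lo m : ℝ) - (D.δ : ℝ)) (D.hi m : ℝ)
/-- upper end of the support -/
noncomputable def sb (m : Fin 3) : ℝ := max (D.lo m : ℝ) ((D.hi m : ℝ) + (D.δ : ℝ))

theorem van_P (m : Fin 3) : VanishOut (D.P m) (D.sa m) (D.sb m) := plateau_vanishOut D.hδ'
theorem van_B : VanishOut D.B (D.sa D.j) (D.sb D.j) := strm_vanishOut D.hδ'

theorem van_g1 (m : Fin 3) : VanishOut (D.g1 m) (D.sa m) (D.sb m) := by
  unfold g1
  by_cases h : m = D.j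
  · rw [h, Function.update_self]; exact D.van_B.deriv
  · rw [Function.update_of_ne h]; exact D.van_P m

theorem van_g2 (m : Fin 3) : VanishOut (D.g2 m) (D.sa m) (D.sb m) := by
  unfold g2
  by_cases h : m = D.j
  · rw [h, Function.update_self]; exact D.van_B
  · rw [Function.update_of_ne h]
    by_cases h' : m = D.i
    · rw [h', Function.update_self]; exact (D.van_P _).deriv
    · rw [Function.update_of_ne h']; exact D.van_P m

/-- G1: smooth, compactly supported, effective, divergence free -/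
theorem good : Good D.field := by
  have s0 := D.eff1_bump.1
  have s1 : ContDiff ℝ ∞ (sepField (bumpT D.τ0 D.τ1) D.g1 D.i) :=
    sepField_contDiff s0 (fun m => (D.eff1_g1 m).1) _
  have s2 : ContDiff ℝ ∞ (sepField (bumpT D.τ0 D.τ1) D.g2 D.j) :=
    sepField_contDiff s0 (fun m => (D.eff1_g2 m).1) _
  rw [field_eq]
  refine ⟨s1.sub s2, ?_, ?_, ?_⟩
  · exact (sepField_hasCompactSupport (bumpT_vanishOut D.hτ') D.van_g1 _).sub
      (sepField_hasCompactSupport (bumpT_vanishOut D.hτ') D.van_g2 _)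
  · exact Effective.sub s1 s2 (sepField_effective D.eff1_bump D.eff1_g1 _)
      (sepField_effective D.eff1_bump D.eff1_g2 _)
  · intro p
    rw [spaceDiv_sub s1 s2, spaceDiv_sepField s0 (fun m => (D.eff1_g1 m).1),
      spaceDiv_sepField s0 (fun m => (D.eff1_g2 m).1), sub_eq_zero]
    congr 2
    have e1 : D.g1 D.i = D.P D.i := by
      unfold g1; rw [Function.update_of_ne D.hij]
    have e2 : D.g2 D.j = D.B := by
      unfold g2; rw [Function.update_self]
    rw [e1, e2]
    unfold g1 g2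
    rw [Function.update_idem, Function.update_comm D.hij.symm]

/-- G1 -/
theorem tsupp : TSupp D.field D.τ0 D.τ1 := by
  intro p hp
  rw [field_eq]
  simp only [Pi.sub_apply, sepField, bumpT_eq_zero D.hτ' hp, zero_mul, zero_smul, sub_zero]

/-- G2: curve `γ t = x + stepT τ0 τ1 t • (c0 + c1 x_j) e_i` -/
theorem carries_dom : Carries D.field D.τ0 D.τ1 D.dom D.map := by
  intro x hx
  obtain ⟨hx1, hx2, hx3⟩ := hx
  set c : ℝ := (D.c0 : ℝ) + (D.c1 : ℝ) * x D.j with hc
  have hmap : D.map x D.i = x D.i + c := by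
    simp [map, hc]
  rw [hmap] at hx2 hx3
  set γ : ℝ → E3 := fun t => x + (stepT D.τ0 D.τ1 t * c) • (Pi.single D.i 1 : E3) with hγ
  have hγi : ∀ t, γ t D.i = x D.i + stepT D.τ0 D.τ1 t * c := by
    intro t; simp [hγ]
  have hγm : ∀ t m, m ≠ D.i → γ t m = x m := by
    intro t m hm; simp [hγ, Pi.single_eq_of_ne hm]
  have hin : ∀ t m, (D.lo m : ℝ) < γ t m ∧ γ t m < (D.hi m : ℝ) := by
    intro t m
    by_cases hm : m = D.i
    · rw [hm, hγi]
      have h0 := stepT_nonneg D.τ0 D.τ1 t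
      have h1 := stepT_le_one D.τ0 D.τ1 t
      have a1 := convex_pos h0 h1 (sub_pos.2 (hx1 D.i).1) (sub_pos.2 hx2)
      have a2 := convex_pos h0 h1 (sub_pos.2 (hx1 D.i).2) (sub_pos.2 hx3)
      constructor <;> nlinarith
    · rw [hγm t m hm]; exact hx1 m
  refine ⟨γ, fun t => ?_, fun t ht => ?_, fun t ht => ?_⟩
  · have hd : HasDerivAt γ ((bumpT D.τ0 D.τ1 t * c) • (Pi.single D.i 1 : E3)) t :=
      (((stepT_hasDerivAt D.τ0 D.τ1 t).mul_const c).smul_const (Pi.single D.i 1 : E3)).const_add x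
    have hU : D.field (t, γ t) = (bumpT D.τ0 D.τ1 t * c) • (Pi.single D.i 1 : E3) := by
      rw [field_eq]
      simp only [Pi.sub_apply, sepField]
      have p1 : ∏ m, D.g1 m (γ t m) = c := by
        rw [Finset.prod_eq_single D.j]
        · unfold g1
          rw [Function.update_self, hγm t D.j D.hij.symm]
          exact deriv_strm_eq D.hδ' (hx1 D.j).1 (hx1 D.j).2
        · intro m _ hm
          unfold g1
          rw [Function.update_of_ne hm]
          exact plateau_eq_one D.hδ' (hin t m).1.le (hin t m).2.le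
        · simp
      have p2 : ∏ m, D.g2 m (γ t m) = 0 := by
        refine Finset.prod_eq_zero (Finset.mem_univ D.i) ?_
        unfold g2
        rw [Function.update_of_ne D.hij, Function.update_self]
        exact deriv_plateau_eq_zero D.hδ' (hin t D.i).1 (hin t D.i).2
      rw [p1, p2]; simp
    rw [hU]; exact hd
  · simp [hγ, stepT_of_le D.hτ' ht]
  · simp [hγ, stepT_of_ge D.hτ' ht, map, hc]

/-- G2: constant curves -/
theorem carries_out (hlh : ∀ m, D.lo m ≤ D.hi m) : Carries D.field D.τ0 D.τ1 D.out id := by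
  intro x hx
  obtain ⟨m, hm⟩ := hx
  have hlh' : (D.lo m : ℝ) ≤ (D.hi m : ℝ) := by exact_mod_cast hlh m
  have hδ := D.hδ'
  have hout : x m ∉ Set.Icc (D.sa m) (D.sb m) := by
    intro h
    have e1 : D.sa m = (D.lo m : ℝ) - (D.δ : ℝ) := min_eq_left (by linarith)
    have e2 : D.sb m = (D.hi m : ℝ) + (D.δ : ℝ) := max_eq_right (by linarith)
    rw [e1, e2] at h
    rcases hm with hm | hm
    · linarith [h.1]
    · linarith [h.2]
  refine ⟨fun _ => x, fun t => ?_, fun _ _ => rfl, fun _ _ => rfl⟩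
  have hU : D.field (t, x) = 0 := by
    rw [field_eq]
    simp only [Pi.sub_apply, sepField]
    rw [Finset.prod_eq_zero (Finset.mem_univ m) (D.van_g1 m _ hout),
      Finset.prod_eq_zero (Finset.mem_univ m) (D.van_g2 m _ hout)]
    simp
  rw [hU]
  exact hasDerivAt_const t x

end ElemData

end Crest.Agent.BF
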