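import Crest.Agent.Lib_BF_Defs
import Crest.Agent.Lib_BF_RatComp

/-! # Package F (S0170): separable fields, mixed derivatives, effectiveness, `Good` is additive -/

set_option autoImplicit false
open scoped ContDiff
open Crest.AnalysisR.BoxFlow

namespace Crest.Agent.BF

theorem contDiff_mixedDeriv {U : Field} (hU : ContDiff ℝ ∞ U) (ds : List (Fin 4)) :
    ContDiff ℝ ∞ (mixedDeriv ds U) := by
  induction ds with
  | nil => exact hU
  | cons d ds ih =>
    show ContDiff ℝ ∞ (fun p => fderiv ℝ (mixedDeriv ds U) p (direction d))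
    have h : ContDiff ℝ ∞ (fderiv ℝ (mixedDeriv ds U)) := ih.fderiv_right (m := ∞) (by simp)
    exact h.clm_apply contDiff_const

theorem mixedDeriv_add {U V : Field} (hU : ContDiff ℝ ∞ U) (hV : ContDiff ℝ ∞ V)
    (ds : List (Fin 4)) : mixedDeriv ds (U + V) = mixedDeriv ds U + mixedDeriv ds V := by
  induction ds with
  | nil => rfl
  | cons d ds ih =>
    funext p
    show fderiv ℝ (mixedDeriv ds (U + V)) p (direction d) =
      fderiv ℝ (mixedDeriv ds U) p (direction d) + fderiv ℝ (mixedDeriv ds V) p (direction d)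
    rw [ih]
    have h1 : DifferentiableAt ℝ (mixedDeriv ds U) p :=
      ((contDiff_mixedDeriv hU ds).differentiable (by simp)).differentiableAt
    have h2 : DifferentiableAt ℝ (mixedDeriv ds V) p :=
      ((contDiff_mixedDeriv hV ds).differentiable (by simp)).differentiableAt
    rw [fderiv_add h1 h2]
    rfl

theorem mixedDeriv_neg {U : Field} (ds : List (Fin 4)) :
    mixedDeriv ds (-U) = - mixedDeriv ds U := by
  induction ds with
  | nil => rfl
  | cons d ds ih =>
    funext p
    show fderiv ℝ (mixedDeriv ds (-U)) p (direction d) =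
      - fderiv ℝ (mixedDeriv ds U) p (direction d)
    rw [ih, fderiv_neg]
    rfl

theorem sepField_contDiff {f0 : ℝ → ℝ} {g : Fin 3 → ℝ → ℝ} (h0 : ContDiff ℝ ∞ f0)
    (hg : ∀ m, ContDiff ℝ ∞ (g m)) (j : Fin 3) : ContDiff ℝ ∞ (sepField f0 g j) := by
  have h1 : ContDiff ℝ ∞ (fun p : ℝ × E3 => f0 p.1 * ∏ m, g m (p.2 m)) := by
    apply ContDiff.mul (h0.comp contDiff_fst)
    apply contDiff_prod
    intro m _
    exact (hg m).comp ((contDiff_apply ℝ ℝ m).comp contDiff_snd)
  exact h1.smul (contDiff_const (c := (Pi.single j 1 : E3)))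

/-- one derivative of a separable field, in the time direction -/
theorem fderiv_sepField_time {f0 : ℝ → ℝ} {g : Fin 3 → ℝ → ℝ} (h0 : ContDiff ℝ ∞ f0)
    (hg : ∀ m, ContDiff ℝ ∞ (g m)) (j : Fin 3) (p : ℝ × E3) :
    fderiv ℝ (sepField f0 g j) p (direction 0) = sepField (deriv f0) g j p := by
  have hd : DifferentiableAt ℝ (sepField f0 g j) p :=
    ((sepField_contDiff h0 hg j).differentiable (by simp)).differentiableAt
  rw [← hd.lineDeriv_eq_fderiv]
  have hdir : direction 0 = ((1 : ℝ), (0 : E3)) := by simp [direction]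
  rw [hdir]
  unfold lineDeriv
  have hf0 : HasDerivAt f0 (deriv f0 p.1) p.1 :=
    ((h0.differentiable (by simp)).differentiableAt).hasDerivAt
  have h1 : HasDerivAt (fun s : ℝ => f0 (p.1 + s)) (deriv f0 p.1) 0 := by
    have hf0' : HasDerivAt f0 (deriv f0 p.1) (p.1 + 0) := by simpa using hf0
    exact hf0'.comp_const_add p.1 0
  have h2 : HasDerivAt (fun s : ℝ => sepField f0 g j (p + s • ((1 : ℝ), (0 : E3))))
      ((deriv f0 p.1 * ∏ m, g m (p.2 m)) • (Pi.single j 1 : E3)) 0 := by
    have := (h1.mul_const (∏ m, g m (p.2 m))).smul_const (Pi.single j 1 : E3)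
    refine this.congr_of_eventuallyEq (Filter.Eventually.of_forall ?_)
    intro s
    simp [sepField]
  rw [h2.deriv]
  rfl

/-- one derivative of a separable field, in a space direction -/
theorem fderiv_sepField_space {f0 : ℝ → ℝ} {g : Fin 3 → ℝ → ℝ} (h0 : ContDiff ℝ ∞ f0)
    (hg : ∀ m, ContDiff ℝ ∞ (g m)) (j : Fin 3) (p : ℝ × E3) (l : Fin 3) :
    fderiv ℝ (sepField f0 g j) p (direction l.succ) =
      sepField f0 (Function.update g l (deriv (g l))) j p := by
  have hd : DifferentiableAt ℝ (sepField f0 g j) p :=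
    ((sepField_contDiff h0 hg j).differentiable (by simp)).differentiableAt
  rw [← hd.lineDeriv_eq_fderiv]
  have hdir : direction l.succ = ((0 : ℝ), (Pi.single l 1 : E3)) := by
    simp [direction, Fin.succ_ne_zero]
  rw [hdir]
  unfold lineDeriv
  have hgl : HasDerivAt (g l) (deriv (g l) (p.2 l)) (p.2 l) :=
    (((hg l).differentiable (by simp)).differentiableAt).hasDerivAt
  have h1 : HasDerivAt (fun s : ℝ => g l (p.2 l + s)) (deriv (g l) (p.2 l)) 0 := by
    have hgl' : HasDerivAt (g l) (deriv (g l) (p.2 l)) (p.2 l + 0) := by simpa using hgl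
    exact hgl'.comp_const_add (p.2 l) 0
  have hprod : ∀ (G : Fin 3 → ℝ), ∏ m, G m = G l * ∏ m ∈ Finset.univ.erase l, G m := by
    intro G
    rw [Finset.mul_prod_erase _ _ (Finset.mem_univ l)]
  have h2 : HasDerivAt (fun s : ℝ => sepField f0 g j (p + s • ((0 : ℝ), (Pi.single l 1 : E3))))
      ((f0 p.1 * (deriv (g l) (p.2 l) * ∏ m ∈ Finset.univ.erase l, g m (p.2 m))) •
        (Pi.single j 1 : E3)) 0 := by
    have := ((h1.mul_const (∏ m ∈ Finset.univ.erase l, g m (p.2 m))).const_mul (f0 p.1)).smul_const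
      (Pi.single j 1 : E3)
    refine this.congr_of_eventuallyEq (Filter.Eventually.of_forall ?_)
    intro s
    simp only [sepField]
    rw [hprod]
    congr 2
    · simp
    · congr 1
      · simp
      · apply Finset.prod_congr rfl
        intro m hm
        have : m ≠ l := Finset.ne_of_mem_erase hm
        simp [this]
  rw [h2.deriv]
  simp only [sepField]
  rw [hprod (fun m => Function.update g l (deriv (g l)) m (p.2 m))]
  congr 2
  congr 1
  · simp
  · apply Finset.prod_congr rfl
    intro m hm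
    have : m ≠ l := Finset.ne_of_mem_erase hm
    simp [Function.update_of_ne this]

theorem contDiff_iteratedDerivF {f : ℝ → ℝ} (h : ContDiff ℝ ∞ f) (k : ℕ) :
    ContDiff ℝ ∞ (iteratedDeriv k f) := by
  rw [iteratedDeriv_eq_iterate]
  exact ContDiff.iterate_deriv k h

/-- a mixed derivative of a separable field is separable -/
theorem mixedDeriv_sepField {f0 : ℝ → ℝ} {g : Fin 3 → ℝ → ℝ} (h0 : ContDiff ℝ ∞ f0)
    (hg : ∀ m, ContDiff ℝ ∞ (g m)) (j : Fin 3) (ds : List (Fin 4)) :
    mixedDeriv ds (sepField f0 g j) =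
      sepField (iteratedDeriv (ds.count 0) f0)
        (fun m => iteratedDeriv (ds.count m.succ) (g m)) j := by
  induction ds with
  | nil => simp [mixedDeriv]
  | cons d ds ih =>
    funext p
    show fderiv ℝ (mixedDeriv ds (sepField f0 g j)) p (direction d) = _
    rw [ih]
    have H0 := contDiff_iteratedDerivF h0 (ds.count 0)
    have HG : ∀ m : Fin 3, ContDiff ℝ ∞ (iteratedDeriv (ds.count m.succ) (g m)) :=
      fun m => contDiff_iteratedDerivF (hg m) _
    refine Fin.cases ?_ (fun l => ?_) d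
    · rw [fderiv_sepField_time H0 HG]
      have e0 : ((0 : Fin 4) :: ds).count 0 = ds.count 0 + 1 := List.count_cons_self
      have eg : (fun m : Fin 3 => iteratedDeriv (((0 : Fin 4) :: ds).count m.succ) (g m)) =
          fun m => iteratedDeriv (ds.count m.succ) (g m) := by
        funext m
        rw [List.count_cons_of_ne (Fin.succ_ne_zero m).symm]
      rw [e0, eg, iteratedDeriv_succ]
    · rw [fderiv_sepField_space H0 HG]
      have e0 : (l.succ :: ds).count 0 = ds.count 0 :=
        List.count_cons_of_ne (Fin.succ_ne_zero l)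
      have eg : (fun m : Fin 3 => iteratedDeriv ((l.succ :: ds).count m.succ) (g m)) =
          Function.update (fun m => iteratedDeriv (ds.count m.succ) (g m)) l
            (deriv (iteratedDeriv (ds.count l.succ) (g l))) := by
        funext m
        by_cases hm : m = l
        · subst hm
          rw [Function.update_self, List.count_cons_self, iteratedDeriv_succ]
        · rw [Function.update_of_ne hm, List.count_cons_of_ne]
          intro h
          exact hm (Fin.succ_injective _ h).symm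
      rw [e0, eg]

/-! ### effectiveness -/

/-- the argument type of the approximating functions -/
abbrev Arg : Type := List (Fin 4) × (ℚ × (Fin 3 → ℚ)) × ℕ

theorem Effective.neg {U : Field} (eU : Effective U) : Effective (-U) := by
  obtain ⟨E, b, hE, hb, h1, h2⟩ := eU
  refine ⟨fun a j => - E a j, b, ?_, hb, ?_, ?_⟩
  · apply comp_vec3
    intro j
    have h3 : Computable (fun a : Arg => E a j) := (comp_vec3_app j).comp hE
    have h4 := comp_rat_neg.comp h3
    exact h4
  · intro ds t q n j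
    rw [mixedDeriv_neg]
    have := h1 ds t q n j
    simp only [Pi.neg_apply, Rat.cast_neg]
    rw [← abs_neg]
    convert this using 2
    ring
  · intro ds p j
    rw [mixedDeriv_neg]
    simpa using h2 ds p j

theorem Effective.add {U V : Field} (hU : ContDiff ℝ ∞ U) (hV : ContDiff ℝ ∞ V)
    (eU : Effective U) (eV : Effective V) : Effective (U + V) := by
  obtain ⟨E, b, hE, hb, h1, h2⟩ := eU
  obtain ⟨E', b', hE', hb', h1', h2'⟩ := eV
  have hre : Computable (fun a : Arg => ((a.1, a.2.1, 2 * a.2.2 + 1) : Arg)) := by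
    have hn : Computable (fun a : Arg => 2 * a.2.2 + 1) :=
      (Primrec.nat_add.comp (Primrec.nat_mul.comp (Primrec.const 2)
        (Primrec.snd.comp Primrec.snd)) (Primrec.const 1)).to_comp
    exact Computable.pair Computable.fst
      (Computable.pair (Computable.fst.comp Computable.snd) hn)
  refine ⟨fun a j => E (a.1, a.2.1, 2 * a.2.2 + 1) j + E' (a.1, a.2.1, 2 * a.2.2 + 1) j,
    fun ds => b ds + b' ds, ?_, ?_, ?_, ?_⟩
  · apply comp_vec3
    intro j
    have h3 : Computable (fun a : Arg => E (a.1, a.2.1, 2 * a.2.2 + 1) j) :=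
      (comp_vec3_app j).comp (hE.comp hre)
    have h4 : Computable (fun a : Arg => E' (a.1, a.2.1, 2 * a.2.2 + 1) j) :=
      (comp_vec3_app j).comp (hE'.comp hre)
    have h5 := comp2 comp_rat_add h3 h4
    exact h5
  · have h5 := comp2 (Primrec.nat_add.to_comp : Computable₂ (fun a b : ℕ => a + b)) hb hb'
    exact h5
  · intro ds t q n j
    rw [mixedDeriv_add hU hV]
    have a1 := h1 ds t q (2 * n + 1) j
    have a2 := h1' ds t q (2 * n + 1) j
    have hc : (((2 * n + 1 : ℕ) : ℝ) + 1) = 2 * ((n : ℝ) + 1) := by push_cast; ring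
    rw [hc] at a1 a2
    simp only [Pi.add_apply, Rat.cast_add]
    have hsum : 1 / (2 * ((n : ℝ) + 1)) + 1 / (2 * ((n : ℝ) + 1)) = 1 / ((n : ℝ) + 1) := by
      have : (n : ℝ) + 1 ≠ 0 := by positivity
      field_simp
      ring
    rw [← hsum]
    refine le_trans ?_ (add_le_add a1 a2)
    refine le_trans (le_of_eq ?_) (abs_add_le _ _)
    congr 1
    ring
  · intro ds p j
    rw [mixedDeriv_add hU hV]
    simp only [Pi.add_apply, Nat.cast_add]
    exact le_trans (abs_add_le _ _) (add_le_add (h2 ds p j) (h2' ds p j))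

theorem Effective.sub {U V : Field} (hU : ContDiff ℝ ∞ U) (hV : ContDiff ℝ ∞ V)
    (eU : Effective U) (eV : Effective V) : Effective (U - V) := by
  rw [sub_eq_add_neg]
  exact Effective.add hU hV.neg eU (Effective.neg eV)

theorem mixedDeriv_zero (ds : List (Fin 4)) : mixedDeriv ds (0 : Field) = 0 := by
  induction ds with
  | nil => rfl
  | cons d ds ih =>
    funext p
    show fderiv ℝ (mixedDeriv ds (0 : Field)) p (direction d) = 0
    rw [ih]
    simp

theorem good_zero : Good (0 : Field) := by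
  refine ⟨contDiff_const, HasCompactSupport.zero, ?_, ?_⟩
  · refine ⟨fun _ _ => 0, fun _ => 0, Computable.const _, Computable.const _, ?_, ?_⟩
    · intro ds t q n j
      rw [mixedDeriv_zero]
      simp
      positivity
    · intro ds p j
      rw [mixedDeriv_zero]
      simp
  · intro p
    simp [spaceDiv]

theorem Good.add {U V : Field} (hU : Good U) (hV : Good V) : Good (U + V) := by
  refine ⟨hU.smooth.add hV.smooth, hU.cpt.add hV.cpt,
    Effective.add hU.smooth hV.smooth hU.eff hV.eff, ?_⟩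
  intro p
  have h1 : DifferentiableAt ℝ U p := (hU.smooth.differentiable (by simp)).differentiableAt
  have h2 : DifferentiableAt ℝ V p := (hV.smooth.differentiable (by simp)).differentiableAt
  have e1 := hU.div p
  have e2 := hV.div p
  unfold spaceDiv at e1 e2 ⊢
  rw [fderiv_add h1 h2]
  simp only [_root_.add_apply, Pi.add_apply, Finset.sum_add_distrib, e1, e2, add_zero]

theorem mul_approx (a e c f α γ ε1 ε2 : ℝ) (ha : |a| ≤ α) (hf : |f| ≤ γ) (h1 : |a - e| ≤ ε1)
    (h2 : |c - f| ≤ ε2) : |a * c - e * f| ≤ α * ε2 + γ * ε1 := by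
  have : a * c - e * f = a * (c - f) + f * (a - e) := by ring
  rw [this]
  refine le_trans (abs_add_le _ _) ?_
  rw [abs_mul, abs_mul]
  have hα : 0 ≤ α := le_trans (abs_nonneg _) ha
  have hγ : 0 ≤ γ := le_trans (abs_nonneg _) hf
  exact add_le_add (mul_le_mul ha h2 (abs_nonneg _) hα) (mul_le_mul hf h1 (abs_nonneg _) hγ)

theorem prod4_approx (a e β : Fin 4 → ℝ) (ε : ℝ) (hε : 0 ≤ ε) (hβ : ∀ i, 1 ≤ β i)
    (ha : ∀ i, |a i| ≤ β i) (he : ∀ i, |e i| ≤ β i) (hae : ∀ i, |a i - e i| ≤ ε) :
    |a 0 * (a 1 * a 2 * a 3) - e 0 * (e 1 * e 2 * e 3)| ≤ 4 * (β 0 * β 1 * β 2 * β 3) * ε := by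
  have p0 : 0 ≤ β 0 := le_trans zero_le_one (hβ 0)
  have p1 : 0 ≤ β 1 := le_trans zero_le_one (hβ 1)
  have p2 : 0 ≤ β 2 := le_trans zero_le_one (hβ 2)
  have p3 : 0 ≤ β 3 := le_trans zero_le_one (hβ 3)
  have s12 := mul_approx (a 1) (e 1) (a 2) (e 2) (β 1) (β 2) ε ε (ha 1) (he 2) (hae 1) (hae 2)
  have b12 : |a 1 * a 2| ≤ β 1 * β 2 := by
    rw [abs_mul]; exact mul_le_mul (ha 1) (ha 2) (abs_nonneg _) p1
  have s123 := mul_approx (a 1 * a 2) (e 1 * e 2) (a 3) (e 3) (β 1 * β 2) (β 3) _ ε b12 (he 3)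
    s12 (hae 3)
  have e123 : |e 1 * e 2 * e 3| ≤ β 1 * β 2 * β 3 := by
    rw [abs_mul, abs_mul]
    exact mul_le_mul (mul_le_mul (he 1) (he 2) (abs_nonneg _) p1) (he 3) (abs_nonneg _)
      (mul_nonneg p1 p2)
  have s := mul_approx (a 0) (e 0) (a 1 * a 2 * a 3) (e 1 * e 2 * e 3) (β 0) (β 1 * β 2 * β 3) ε _
    (ha 0) e123 (hae 0) s123
  refine le_trans s ?_
  have q1 : β 0 * (β 1 * β 2 * ε) ≤ β 0 * β 1 * β 2 * β 3 * ε := by
    have : β 0 * β 1 * β 2 * ε * 1 ≤ β 0 * β 1 * β 2 * ε * β 3 :=
      mul_le_mul_of_nonneg_left (hβ 3) (by positivity)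
    nlinarith
  have q2 : β 0 * (β 3 * (β 1 * ε)) ≤ β 0 * β 1 * β 2 * β 3 * ε := by
    have : β 0 * β 1 * β 3 * ε * 1 ≤ β 0 * β 1 * β 3 * ε * β 2 :=
      mul_le_mul_of_nonneg_left (hβ 2) (by positivity)
    nlinarith
  have q3 : β 0 * (β 3 * (β 2 * ε)) ≤ β 0 * β 1 * β 2 * β 3 * ε := by
    have : β 0 * β 2 * β 3 * ε * 1 ≤ β 0 * β 2 * β 3 * ε * β 1 :=
      mul_le_mul_of_nonneg_left (hβ 1) (by positivity)
    nlinarith
  have q4 : β 1 * β 2 * β 3 * ε ≤ β 0 * β 1 * β 2 * β 3 * ε := by
    have : β 1 * β 2 * β 3 * ε * 1 ≤ β 1 * β 2 * β 3 * ε * β 0 :=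
      mul_le_mul_of_nonneg_left (hβ 0) (by positivity)
    nlinarith
  nlinarith

theorem comp_nat_mulF {α : Type*} [Primcodable α] {f g : α → ℕ} (hf : Computable f)
    (hg : Computable g) : Computable (fun a => f a * g a) := by
  have h := comp2 (Primrec.nat_mul.to_comp : Computable₂ (fun a b : ℕ => a * b)) hf hg
  exact h

theorem comp_nat_succ' {α : Type*} [Primcodable α] {f : α → ℕ} (hf : Computable f) :
    Computable (fun a => f a + 1) := by
  have h := Computable.comp Computable.succ hf
  exact h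

theorem comp_rat_mul' {α : Type*} [Primcodable α] {f g : α → ℚ} (hf : Computable f)
    (hg : Computable g) : Computable (fun a => f a * g a) := by
  have h := comp2 comp_rat_mul hf hg
  exact h

theorem sepField_effective {f0 : ℝ → ℝ} {g : Fin 3 → ℝ → ℝ} (h0 : Eff1 f0)
    (hg : ∀ m, Eff1 (g m)) (j : Fin 3) : Effective (sepField f0 g j) := by
  obtain ⟨s0, E0, B0, cE0, cB0, a0, b0⟩ := h0
  have sg : ∀ m, ContDiff ℝ ∞ (g m) := fun m => (hg m).1
  choose Eg Bg cEg cBg ag bg using fun m => (hg m).2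
  have ck : ∀ d : Fin 4, Computable (fun a : Arg => a.1.count d) :=
    fun d => (comp_list_count d).comp Computable.fst
  -- the precision
  let P : List (Fin 4) → ℕ := fun ds => (B0 (ds.count 0) + 1) *
    ((Bg 0 (ds.count (0 : Fin 3).succ) + 1) * (Bg 1 (ds.count (1 : Fin 3).succ) + 1) *
      (Bg 2 (ds.count (2 : Fin 3).succ) + 1))
  let N : Arg → ℕ := fun a => 4 * (a.2.2 + 1) * P a.1
  have cB0' : Computable (fun a : Arg => B0 (a.1.count 0)) := cB0.comp (ck 0)
  have cBg' : ∀ m : Fin 3, Computable (fun a : Arg => Bg m (a.1.count m.succ)) :=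
    fun m => (cBg m).comp (ck m.succ)
  have cP : Computable (fun a : Arg => P a.1) :=
    comp_nat_mulF (comp_nat_succ' cB0')
      (comp_nat_mulF (comp_nat_mulF (comp_nat_succ' (cBg' 0)) (comp_nat_succ' (cBg' 1)))
        (comp_nat_succ' (cBg' 2)))
  have cn : Computable (fun a : Arg => a.2.2) := Computable.snd.comp Computable.snd
  have cN : Computable N :=
    comp_nat_mulF (comp_nat_mulF (Computable.const 4) (comp_nat_succ' cn)) cP
  have ct : Computable (fun a : Arg => a.2.1.1) :=
    Computable.fst.comp (Computable.fst.comp Computable.snd)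
  have cq : ∀ m : Fin 3, Computable (fun a : Arg => a.2.1.2 m) :=
    fun m => (comp_vec3_app m).comp (Computable.snd.comp (Computable.fst.comp Computable.snd))
  have ce0 : Computable (fun a : Arg => E0 (a.1.count 0, a.2.1.1, N a)) :=
    cE0.comp ((ck 0).pair (ct.pair cN))
  have ceg : ∀ m : Fin 3, Computable (fun a : Arg => Eg m (a.1.count m.succ, a.2.1.2 m, N a)) :=
    fun m => (cEg m).comp ((ck m.succ).pair ((cq m).pair cN))
  have cprod : Computable (fun a : Arg => E0 (a.1.count 0, a.2.1.1, N a) *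
      (Eg 0 (a.1.count (0 : Fin 3).succ, a.2.1.2 0, N a) *
        Eg 1 (a.1.count (1 : Fin 3).succ, a.2.1.2 1, N a) *
        Eg 2 (a.1.count (2 : Fin 3).succ, a.2.1.2 2, N a))) :=
    comp_rat_mul' ce0 (comp_rat_mul' (comp_rat_mul' (ceg 0) (ceg 1)) (ceg 2))
  refine ⟨fun a j' => if j' = j then E0 (a.1.count 0, a.2.1.1, N a) *
      (Eg 0 (a.1.count (0 : Fin 3).succ, a.2.1.2 0, N a) *
        Eg 1 (a.1.count (1 : Fin 3).succ, a.2.1.2 1, N a) *
        Eg 2 (a.1.count (2 : Fin 3).succ, a.2.1.2 2, N a)) else 0,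
    fun ds => B0 (ds.count 0) * (Bg 0 (ds.count (0 : Fin 3).succ) *
      Bg 1 (ds.count (1 : Fin 3).succ) * Bg 2 (ds.count (2 : Fin 3).succ)), ?_, ?_, ?_, ?_⟩
  · apply comp_vec3
    intro j'
    by_cases hj : j' = j
    · simp only [hj, if_true]
      exact cprod
    · simp only [hj, if_false]
      exact Computable.const 0
  · have ckl : ∀ d : Fin 4, Computable (fun l : List (Fin 4) => l.count d) := comp_list_count
    exact comp_nat_mulF (cB0.comp (ckl 0))
      (comp_nat_mulF (comp_nat_mulF ((cBg 0).comp (ckl _)) ((cBg 1).comp (ckl _)))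
        ((cBg 2).comp (ckl _)))
  · intro ds t q n j'
    rw [mixedDeriv_sepField s0 sg]
    by_cases hj : j' = j
    · subst hj
      simp only [sepField, if_true, Pi.smul_apply, Pi.single_eq_same, smul_eq_mul, mul_one,
        Fin.prod_univ_three, ratPoint]
      set NN : ℕ := N (ds, (t, q), n) with hNN
      have key := prod4_approx
        ![iteratedDeriv (ds.count 0) f0 t,
          iteratedDeriv (ds.count (0 : Fin 3).succ) (g 0) (q 0),
          iteratedDeriv (ds.count (1 : Fin 3).succ) (g 1) (q 1),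
          iteratedDeriv (ds.count (2 : Fin 3).succ) (g 2) (q 2)]
        ![(E0 (ds.count 0, t, NN) : ℝ),
          (Eg 0 (ds.count (0 : Fin 3).succ, q 0, NN) : ℝ),
          (Eg 1 (ds.count (1 : Fin 3).succ, q 1, NN) : ℝ),
          (Eg 2 (ds.count (2 : Fin 3).succ, q 2, NN) : ℝ)]
        ![(B0 (ds.count 0) : ℝ) + 1, (Bg 0 (ds.count (0 : Fin 3).succ) : ℝ) + 1,
          (Bg 1 (ds.count (1 : Fin 3).succ) : ℝ) + 1, (Bg 2 (ds.count (2 : Fin 3).succ) : ℝ) + 1]
        (1 / ((NN : ℝ) + 1)) (by positivity)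
        (by intro i; fin_cases i <;> simp)
        (by
          intro i
          fin_cases i
          · exact le_trans (b0 _ _) (by simp)
          · exact le_trans (bg 0 _ _) (by simp)
          · exact le_trans (bg 1 _ _) (by simp)
          · exact le_trans (bg 2 _ _) (by simp))
        (by
          have hle : 1 / ((NN : ℝ) + 1) ≤ 1 := by
            rw [div_le_one (by positivity)]
            have : (0 : ℝ) ≤ NN := Nat.cast_nonneg _
            linarith
          have aux : ∀ (x e B : ℝ), |x| ≤ B → |x - e| ≤ 1 / ((NN : ℝ) + 1) → |e| ≤ B + 1 := by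
            intro x e B h1 h2
            have : e = x - (x - e) := by ring
            rw [this]
            exact le_trans (abs_sub _ _) (add_le_add h1 (le_trans h2 hle))
          intro i
          fin_cases i
          · exact aux _ _ _ (b0 _ _) (a0 _ _ _)
          · exact aux _ _ _ (bg 0 _ _) (ag 0 _ _ _)
          · exact aux _ _ _ (bg 1 _ _) (ag 1 _ _ _)
          · exact aux _ _ _ (bg 2 _ _) (ag 2 _ _ _))
        (by
          intro i
          fin_cases i
          · exact a0 _ _ _
          · exact ag 0 _ _ _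
          · exact ag 1 _ _ _
          · exact ag 2 _ _ _)
      simp only [Matrix.cons_val_zero, Matrix.cons_val_one, Matrix.cons_val] at key
      push_cast
      refine le_trans key ?_
      have hP : ((B0 (ds.count 0) : ℝ) + 1) * ((Bg 0 (ds.count (0 : Fin 3).succ) : ℝ) + 1) *
          ((Bg 1 (ds.count (1 : Fin 3).succ) : ℝ) + 1) *
          ((Bg 2 (ds.count (2 : Fin 3).succ) : ℝ) + 1) = (P ds : ℝ) := by
        simp only [P]; push_cast; ring
      rw [hP]
      have hNv : (NN : ℝ) = 4 * ((n : ℝ) + 1) * (P ds : ℝ) := by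
        rw [hNN]; simp only [N]; push_cast; ring
      rw [hNv]
      have hPpos : (0 : ℝ) ≤ P ds := Nat.cast_nonneg _
      rw [mul_one_div, div_le_div_iff₀ (by positivity) (by positivity)]
      nlinarith
    · simp only [sepField, hj, if_false, Pi.smul_apply, smul_eq_mul, Rat.cast_zero, sub_zero]
      rw [Pi.single_eq_of_ne hj]
      simp
      positivity
  · intro ds p j'
    rw [mixedDeriv_sepField s0 sg]
    simp only [sepField, Pi.smul_apply, smul_eq_mul, Fin.prod_univ_three]
    have h1 : |(Pi.single j (1 : ℝ) : E3) j'| ≤ 1 := by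
      by_cases hj : j' = j
      · subst hj; simp
      · rw [Pi.single_eq_of_ne hj]; simp
    rw [abs_mul, abs_mul, abs_mul, abs_mul]
    simp only [Nat.cast_mul]
    have c0 := b0 (ds.count 0) p.1
    have c1 := bg 0 (ds.count (0 : Fin 3).succ) (p.2 0)
    have c2 := bg 1 (ds.count (1 : Fin 3).succ) (p.2 1)
    have c3 := bg 2 (ds.count (2 : Fin 3).succ) (p.2 2)
    calc _ ≤ ((B0 (ds.count 0) : ℝ) * ((Bg 0 (ds.count (0 : Fin 3).succ) : ℝ) *
          (Bg 1 (ds.count (1 : Fin 3).succ) : ℝ) * (Bg 2 (ds.count (2 : Fin 3).succ) : ℝ))) * 1 := by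
          apply mul_le_mul _ h1 (abs_nonneg _) (by positivity)
          apply mul_le_mul c0 _ (by positivity) (by positivity)
          apply mul_le_mul _ c3 (abs_nonneg _) (by positivity)
          exact mul_le_mul c1 c2 (abs_nonneg _) (by positivity)
      _ = _ := by ring

end Crest.Agent.BF
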