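import Crest.Agent.Lib_BF_H1

/-! # Package H1 (S0170): see `Lib_BF_H1` -/
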