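import Crest.Agent.Lib_BF_Defs

/-! # Package H1 (S0170): global flow of a smooth compactly supported field, uniqueness -/

set_option autoImplicit false
open scoped ContDiff NNReal Topology
open Crest.AnalysisR.BoxFlow Set Metric

namespace Crest.Agent.BF

/-- global existence for a bounded, globally Lipschitz, continuous time dependent field -/
theorem exists_global_solution {E : Type*} [NormedAddCommGroup E] [NormedSpace ℝ E]
    [CompleteSpace E] (v : ℝ → E → E) (K L : ℝ≥0) (hv : ∀ t, LipschitzWith K (v t))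
    (hcont : ∀ x, Continuous fun t => v t x) (hL : ∀ t x, ‖v t x‖ ≤ L) (x : E) :
    ∃ γ : ℝ → E, γ 0 = x ∧ ∀ t, HasDerivAt γ (v t (γ t)) t := by
  -- solutions on `[-N-1, N+1]`
  have h1 : ∀ N : ℕ, ∃ α : ℝ → E, α 0 = x ∧
      ∀ t ∈ Ioo (-((N : ℝ) + 1)) ((N : ℝ) + 1), HasDerivAt α (v t (α t)) t := by
    intro N
    have h0 : (0 : ℝ) ∈ Icc (-((N : ℝ) + 1)) ((N : ℝ) + 1) := by
      constructor <;> [linarith [(Nat.cast_nonneg N : (0 : ℝ) ≤ N)]; positivity]
    have hPL : IsPicardLindelof v (⟨0, h0⟩ : Icc (-((N : ℝ) + 1)) ((N : ℝ) + 1)) x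
        (L * ((N : ℝ≥0) + 1)) 0 L K :=
      { lipschitzOnWith := fun t _ => (hv t).lipschitzOnWith
        continuousOn := fun y _ => (hcont y).continuousOn
        norm_le := fun t _ y _ => hL t y
        mul_max_le := by
          simp }
    obtain ⟨α, hα0, hα⟩ := hPL.exists_eq_forall_mem_Icc_hasDerivWithinAt₀
    exact ⟨α, hα0, fun t ht => (hα t (Ioo_subset_Icc_self ht)).hasDerivAt (Icc_mem_nhds ht.1 ht.2)⟩
  choose α hα0 hα using h1
  have h2 : ∀ N M : ℕ, N ≤ M → EqOn (α N) (α M) (Ioo (-((N : ℝ) + 1)) ((N : ℝ) + 1)) := by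
    intro N M hNM
    have hNM' : (N : ℝ) ≤ M := by exact_mod_cast hNM
    refine ODE_solution_unique_of_mem_Ioo (v := v) (s := fun _ => univ) (K := K) (t₀ := 0)
      (fun t _ => (hv t).lipschitzOnWith) ?_ (fun t ht => ⟨hα N t ht, trivial⟩)
      (fun t ht => ⟨hα M t ⟨by linarith [ht.1], by linarith [ht.2]⟩, trivial⟩)
      ((hα0 N).trans (hα0 M).symm)
    constructor <;> [linarith [(Nat.cast_nonneg N : (0 : ℝ) ≤ N)]; positivity]
  refine ⟨fun t => α ⌈|t|⌉₊ t, by simpa using hα0 0, fun t => ?_⟩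
  set M : ℕ := ⌈|t|⌉₊ + 1 with hM
  have hmem : ∀ s : ℝ, s ∈ Ioo (-((⌈|s|⌉₊ : ℝ) + 1)) ((⌈|s|⌉₊ : ℝ) + 1) := by
    intro s
    have := Nat.le_ceil |s|
    constructor
    · linarith [neg_abs_le s]
    · linarith [le_abs_self s]
  have hev : (fun s => α ⌈|s|⌉₊ s) =ᶠ[𝓝 t] α M := by
    have hnb : Ioo (t - 1) (t + 1) ∈ 𝓝 t := Ioo_mem_nhds (by linarith) (by linarith)
    filter_upwards [hnb] with s hs
    refine h2 _ _ ?_ (hmem s)
    rw [hM, ← Nat.ceil_add_one (abs_nonneg t)]
    apply Nat.ceil_le_ceil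
    have : |s| ≤ |t| + |s - t| := by
      have := abs_add_le t (s - t)
      simpa using this
    have h3 : |s - t| ≤ 1 := abs_le.2 ⟨by linarith [hs.1], by linarith [hs.2]⟩
    linarith
  have hMt : t ∈ Ioo (-((M : ℝ) + 1)) ((M : ℝ) + 1) := by
    have := hmem t
    rw [hM]; push_cast
    exact ⟨by linarith [this.1], by linarith [this.2]⟩
  have := hα M t hMt
  rw [← hev.eq_of_nhds] at this
  exact this.congr_of_eventuallyEq hev

/-- Hint: `U` is bounded and globally Lipschitz in space (compact support + C¹), vanishes for `|t| ≥ T`.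
Existence on `[-T, T]` from `IsPicardLindelof` (no smallness needed), extension by constants;
uniqueness from `ODE_solution_unique_univ`. -/
theorem exists_flow (U : Field) (hs : ContDiff ℝ ∞ U) (hc : HasCompactSupport U) :
    ∃ Φ : ℝ → E3 → E3, IsFlow U Φ ∧
      ∀ γ : ℝ → E3, (∀ t, HasDerivAt γ (U (t, γ t)) t) → ∀ t, Φ t (γ 0) = γ t := by
  obtain ⟨K, hK⟩ := ContDiff.lipschitzWith_of_hasCompactSupport hc hs (by simp)
  obtain ⟨L, hL⟩ := hc.exists_bound_of_continuous hs.continuous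
  have hv : ∀ t : ℝ, LipschitzWith K (fun y : E3 => U (t, y)) := by
    intro t
    have := hK.comp (LipschitzWith.prodMk_left (β := E3) t)
    rw [mul_one] at this
    exact this
  have hL' : ∀ (t : ℝ) (y : E3), ‖U (t, y)‖ ≤ (L.toNNReal : ℝ≥0) := by
    intro t y
    exact (hL (t, y)).trans (Real.le_coe_toNNReal L)
  have hcont : ∀ y : E3, Continuous fun t : ℝ => U (t, y) := by
    intro y
    exact hs.continuous.comp (by fun_prop)
  have key := exists_global_solution (fun t y => U (t, y)) K L.toNNReal hv hcont hL'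
  choose Φ hΦ0 hΦ using key
  refine ⟨fun t x => Φ x t, ⟨hΦ0, fun t x => hΦ x t⟩, fun γ hγ t => ?_⟩
  have := ODE_solution_unique_univ (v := fun t y => U (t, y)) (s := fun _ => univ) (K := K)
    (f := Φ (γ 0)) (g := γ) (t₀ := 0) (fun t => (hv t).lipschitzOnWith)
    (fun t => ⟨hΦ (γ 0) t, trivial⟩) (fun t => ⟨hγ t, trivial⟩) (hΦ0 (γ 0))
  exact congrFun this t

end Crest.Agent.BF
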