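import Crest.Agent.Lib_BF_Defs
import Crest.Agent.Lib_BF_Sep

/-! # Package H2 (S0170): composition of moves -/

set_option autoImplicit false
open scoped ContDiff
open Crest.AnalysisR.BoxFlow

namespace Crest.Agent.BF

theorem TSupp.add {U V : Field} {τ0 τm τ1 : ℝ} (h0 : τ0 ≤ τm) (h1 : τm ≤ τ1)
    (hU : TSupp U τ0 τm) (hV : TSupp V τm τ1) : TSupp (U + V) τ0 τ1 := by
  intro p hp
  have h2 : p.1 ∉ Set.Ioo τ0 τm := fun h => hp ⟨h.1, lt_of_lt_of_le h.2 h1⟩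
  have h3 : p.1 ∉ Set.Ioo τm τ1 := fun h => hp ⟨lt_of_le_of_lt h0 h.1, h.2⟩
  simp [hU p h2, hV p h3]

/-- concatenation; the curve is `γ₁ + γ₂ - const (T₁ x)` -/
theorem Carries.comp {U V : Field} {τ0 τm τ1 : ℝ} {S S' : Set E3} {T T' : E3 → E3}
    (h0 : τ0 ≤ τm) (h1 : τm ≤ τ1)
    (hU : TSupp U τ0 τm) (hV : TSupp V τm τ1)
    (cU : Carries U τ0 τm S T) (cV : Carries V τm τ1 S' T') (hSS' : ∀ x ∈ S, T x ∈ S') :
    Carries (U + V) τ0 τ1 S (T' ∘ T) := by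
  intro x hx
  obtain ⟨γ₁, d₁, a₁, b₁⟩ := cU x hx
  obtain ⟨γ₂, d₂, a₂, b₂⟩ := cV (T x) (hSS' x hx)
  refine ⟨fun t => γ₁ t + γ₂ t - T x, ?_, ?_, ?_⟩
  · intro t
    have hd := ((d₁ t).add (d₂ t)).sub_const (T x)
    have he : (U + V) (t, γ₁ t + γ₂ t - T x) = U (t, γ₁ t) + V (t, γ₂ t) := by
      rcases le_total t τm with h | h
      · have e1 : γ₁ t + γ₂ t - T x = γ₁ t := by rw [a₂ t h]; abel
        have hv : ∀ y, V (t, y) = 0 := fun y => hV (t, y) (fun hh => absurd hh.1 (not_lt.mpr h))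
        rw [e1]; simp [hv]
      · have e1 : γ₁ t + γ₂ t - T x = γ₂ t := by rw [b₁ t h]; abel
        have hu : ∀ y, U (t, y) = 0 := fun y => hU (t, y) (fun hh => absurd hh.2 (not_lt.mpr h))
        rw [e1]; simp [hu]
    rw [he]
    exact hd
  · intro t ht
    simp only
    rw [a₁ t ht, a₂ t (ht.trans h0)]; abel
  · intro t ht
    simp only
    rw [b₁ t (h1.trans ht), b₂ t ht]; simp

theorem Carries.mono {U : Field} {τ0 τ1 : ℝ} {S S' : Set E3} {T : E3 → E3}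
    (c : Carries U τ0 τ1 S T) (h : S' ⊆ S) : Carries U τ0 τ1 S' T :=
  fun x hx => c x (h hx)

theorem Carries.congr {U : Field} {τ0 τ1 : ℝ} {S : Set E3} {T T' : E3 → E3}
    (c : Carries U τ0 τ1 S T) (h : ∀ x ∈ S, T x = T' x) : Carries U τ0 τ1 S T' := by
  intro x hx
  obtain ⟨γ, h1, h2, h3⟩ := c x hx
  exact ⟨γ, h1, h2, fun t ht => (h3 t ht).trans (h x hx)⟩

theorem affMap_self (c h : Fin 3 → ℚ) (hh : ∀ j, 0 < h j) (x : E3) : affMap c h c h x = x := by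
  funext j
  simp only [affMap]
  rw [div_self (hh j).ne']
  simp

theorem affMap_comp (c h c' h' c'' h'' : Fin 3 → ℚ) (hh' : ∀ j, 0 < h' j) (x : E3) :
    affMap c' h' c'' h'' (affMap c h c' h' x) = affMap c h c'' h'' x := by
  funext j
  simp only [affMap]
  have : (h' j : ℝ) ≠ 0 := by exact_mod_cast (hh' j).ne'
  push_cast
  field_simp
  ring

theorem affMap_continuous (c h c' h' : Fin 3 → ℚ) : Continuous (affMap c h c' h') := by
  unfold affMap
  fun_prop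

theorem affMap_box (c h c' h' : Fin 3 → ℚ) (hh : ∀ j, 0 < h j) (hh' : ∀ j, 0 < h' j) (x : E3)
    (hx : x ∈ box c h) : affMap c h c' h' x ∈ box c' h' := by
  intro j
  have h1 := hx j
  simp only [affMap]
  have p : (0 : ℝ) < h j := by exact_mod_cast hh j
  have p' : (0 : ℝ) < h' j := by exact_mod_cast hh' j
  push_cast
  rw [add_sub_cancel_left, abs_mul, abs_of_pos (div_pos p' p), div_mul_eq_mul_div,
    div_le_iff₀ p]
  exact mul_le_mul_of_nonneg_left h1 p'.le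

theorem Moves.refl {n : ℕ} (C : Cfg n) (hC : C.Pos) : Moves C C := by
  intro τ0 τ1 _
  refine ⟨0, good_zero, fun p _ => rfl, fun i => ⟨Set.univ, isOpen_univ, Set.subset_univ _, ?_⟩⟩
  intro x _
  refine ⟨fun _ => x, fun t => ?_, fun _ _ => rfl, fun _ _ => (affMap_self _ _ (hC i) x).symm⟩
  simpa using hasDerivAt_const t x

theorem Moves.trans {n : ℕ} {C C' C'' : Cfg n} (hC : C.Pos) (hC' : C'.Pos)
    (h : Moves C C') (h' : Moves C' C'') : Moves C C'' := by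
  intro τ0 τ1 hτ
  have hm0 : τ0 < (τ0 + τ1) / 2 := by linarith
  have hm1 : (τ0 + τ1) / 2 < τ1 := by linarith
  obtain ⟨U, gU, tU, cU⟩ := h τ0 ((τ0 + τ1) / 2) hm0
  obtain ⟨V, gV, tV, cV⟩ := h' ((τ0 + τ1) / 2) τ1 hm1
  have r0 : (τ0 : ℝ) ≤ (((τ0 + τ1) / 2 : ℚ) : ℝ) := by exact_mod_cast hm0.le
  have r1 : (((τ0 + τ1) / 2 : ℚ) : ℝ) ≤ (τ1 : ℝ) := by exact_mod_cast hm1.le
  refine ⟨U + V, gU.add gV, TSupp.add r0 r1 tU tV, fun i => ?_⟩
  obtain ⟨O, oO, bO, kO⟩ := cU i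
  obtain ⟨O', oO', bO', kO'⟩ := cV i
  refine ⟨O ∩ (affMap (C.c i) (C.h i) (C'.c i) (C'.h i)) ⁻¹' O',
    oO.inter (oO'.preimage (affMap_continuous _ _ _ _)),
    fun x hx => ⟨bO hx, bO' (affMap_box _ _ _ _ (hC i) (hC' i) x hx)⟩, ?_⟩
  have := Carries.comp r0 r1 tU tV (kO.mono Set.inter_subset_left) kO' (fun x hx => hx.2)
  exact this.congr (fun x _ => affMap_comp _ _ _ _ _ _ (hC' i) x)

theorem Step.pos {n : ℕ} {C C' : Cfg n} (h : Step C C') (hC : C.Pos) : C'.Pos := by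
  cases h with
  | trans i a d hfree => exact hC
  | scale i r hr hprod hfree =>
    intro i' j
    simp only
    by_cases hi : i' = i
    · subst hi
      simp only [Function.update_self]
      exact mul_pos (hr j) (hC i' j)
    · rw [Function.update_of_ne hi]
      exact hC i' j

end Crest.Agent.BF
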