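import Crest.Agent.Lib_BF_Defs
import Crest.Agent.Lib_BF_Sep
import Crest.Agent.Lib_BF_Elem
import Crest.Agent.Lib_BF_H2

/-! # Package H3 (S0170): translations -/

set_option autoImplicit false
open scoped ContDiff
open Crest.AnalysisR.BoxFlow

namespace Crest.Agent.BF

theorem ElemData.map_continuous (D : ElemData) : Continuous D.map := by
  unfold ElemData.map
  fun_prop

theorem ElemData.isOpen_dom (D : ElemData) : IsOpen D.dom := by
  have hm : Continuous fun x : E3 => D.map x D.i := (continuous_apply D.i).comp D.map_continuous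
  unfold ElemData.dom
  simp only [Set.ofPred_and, Set.ofPred_forall]
  refine IsOpen.inter (isOpen_iInter_of_finite fun m => ?_) ?_
  · exact (isOpen_lt continuous_const (continuous_apply m)).inter
      (isOpen_lt (continuous_apply m) continuous_const)
  · exact (isOpen_lt continuous_const hm).inter (isOpen_lt hm continuous_const)

theorem ElemData.isOpen_out (D : ElemData) : IsOpen D.out := by
  unfold ElemData.out
  simp only [Set.ofPred_exists, Set.ofPred_or]
  refine isOpen_iUnion fun m => ?_
  exact (isOpen_lt (continuous_apply m) continuous_const).union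
      (isOpen_lt continuous_const (continuous_apply m))

/-- a common positive margin for finitely many open conditions -/
theorem exists_pos_forall {ι : Type*} (s : Finset ι) (P : ι → ℚ → Prop)
    (hmono : ∀ i ε ε', 0 < ε' → ε' ≤ ε → P i ε → P i ε')
    (h : ∀ i ∈ s, ∃ ε, 0 < ε ∧ P i ε) : ∃ ε, 0 < ε ∧ ∀ i ∈ s, P i ε := by
  classical
  induction s using Finset.induction_on with
  | empty => exact ⟨1, one_pos, by simp⟩
  | insert a s ha ih =>
    obtain ⟨ε₁, p₁, h₁⟩ := ih (fun i hi => h i (Finset.mem_insert_of_mem hi))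
    obtain ⟨ε₂, p₂, h₂⟩ := h a (Finset.mem_insert_self a s)
    refine ⟨min ε₁ ε₂, lt_min p₁ p₂, fun i hi => ?_⟩
    rcases Finset.mem_insert.mp hi with rfl | hi
    · exact hmono _ _ _ (lt_min p₁ p₂) (min_le_right _ _) h₂
    · exact hmono _ _ _ (lt_min p₁ p₂) (min_le_left _ _) (h₁ i hi)

theorem moves_trans {n : ℕ} (C : Cfg n) (hC : C.Pos) (i : Fin n) (a : Fin 3) (d : ℚ)
    (hfree : ∀ i', i' ≠ i → SepQ (C.c i + Pi.single a (d / 2)) (C.h i + Pi.single a (|d| / 2))
      (C.c i') (C.h i')) :
    Moves C ⟨Function.update C.c i (C.c i + Pi.single a d), C.h⟩ := by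
  classical
  intro τ0 τ1 hτ
  set cs : Fin 3 → ℚ := C.c i + Pi.single a (d / 2) with hcs
  set hs : Fin 3 → ℚ := C.h i + Pi.single a (|d| / 2) with hhs
  obtain ⟨ε, hε, hsep⟩ : ∃ ε : ℚ, 0 < ε ∧ ∀ i' ∈ (Finset.univ.filter fun i' => i' ≠ i),
      ∃ j, hs j + C.h i' j + 2 * ε < |cs j - C.c i' j| := by
    apply exists_pos_forall
    · rintro i' ε ε' _ hle ⟨j, hj⟩
      exact ⟨j, by linarith⟩
    · intro i' hi'
      obtain ⟨j, hj⟩ := hfree i' (Finset.mem_filter.mp hi').2
      exact ⟨(|cs j - C.c i' j| - (hs j + C.h i' j)) / 4, by linarith, j, by linarith⟩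
  have haj : a ≠ a + 1 := by fin_cases a <;> decide
  let D : ElemData :=
    { i := a, j := a + 1, hij := haj, lo := fun m => cs m - hs m - ε, hi := fun m => cs m + hs m + ε,
      δ := ε, hδ := hε, c0 := d, c1 := 0, τ0 := τ0, τ1 := τ1, hτ := hτ }
  have hmap : ∀ x : E3, D.map x = x + (d : ℝ) • (Pi.single a 1 : E3) := by
    intro x
    simp [ElemData.map, D]
  refine ⟨D.field, D.good, D.tsupp, fun i' => ?_⟩
  by_cases hi : i' = i
  · subst hi
    refine ⟨D.dom, D.isOpen_dom, ?_, ?_⟩
    · intro x hx
      have key : ∀ m, ((cs m - hs m - ε : ℚ) : ℝ) < x m ∧ x m < ((cs m + hs m + ε : ℚ) : ℝ) ∧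
          ((cs m - hs m - ε : ℚ) : ℝ) < x m + 2 * ((Pi.single a (d / 2) : Fin 3 → ℚ) m : ℝ) ∧
          x m + 2 * ((Pi.single a (d / 2) : Fin 3 → ℚ) m : ℝ) < ((cs m + hs m + ε : ℚ) : ℝ) := by
        intro m
        have h1 := abs_le.mp (hx m)
        have hεr : (0 : ℝ) < ε := by exact_mod_cast hε
        by_cases hm : m = a
        · subst hm
          simp only [hcs, hhs, Pi.add_apply, Pi.single_eq_same]
          push_cast
          have := le_abs_self (d : ℝ)
          have := neg_abs_le (d : ℝ)
          refine ⟨?_, ?_, ?_, ?_⟩ <;> linarith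
        · simp only [hcs, hhs, Pi.add_apply, Pi.single_eq_of_ne hm]
          push_cast
          refine ⟨?_, ?_, ?_, ?_⟩ <;> linarith
      refine ⟨fun m => ⟨(key m).1, (key m).2.1⟩, ?_⟩
      have h2 : D.map x D.i = x a + 2 * ((Pi.single a (d / 2) : Fin 3 → ℚ) a : ℝ) := by
        rw [hmap]
        simp [D]
        ring
      rw [h2]
      exact (key a).2.2
    · refine D.carries_dom.congr fun x _ => ?_
      rw [hmap]
      funext m
      have hne : (C.h i' m : ℝ) ≠ 0 := by exact_mod_cast (hC i' m).ne'
      simp only [affMap, Function.update_self, Pi.add_apply, Pi.smul_apply, smul_eq_mul]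
      by_cases hm : m = a
      · subst hm
        simp only [Pi.single_eq_same]
        push_cast
        field_simp
        ring
      · simp only [Pi.single_eq_of_ne hm]
        push_cast
        field_simp
        ring
  · refine ⟨D.out, D.isOpen_out, ?_, ?_⟩
    · intro x hx
      obtain ⟨j, hj⟩ := hsep i' (Finset.mem_filter.mpr ⟨Finset.mem_univ _, hi⟩)
      have h1 := abs_le.mp (hx j)
      have hj' : (hs j : ℝ) + C.h i' j + 2 * ε < |(cs j : ℝ) - C.c i' j| := by exact_mod_cast hj
      refine ⟨j, ?_⟩
      simp only [D]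
      push_cast
      rcases le_total 0 ((cs j : ℝ) - C.c i' j) with h | h
      · rw [abs_of_nonneg h] at hj'
        left; linarith
      · rw [abs_of_nonpos h] at hj'
        right; linarith
    · have hlh : ∀ m, D.lo m ≤ D.hi m := by
        intro m
        have h0 : 0 ≤ hs m := by
          simp only [hhs, Pi.add_apply]
          have h1 := (hC i m).le
          have h2 : 0 ≤ (Pi.single a (|d| / 2) : Fin 3 → ℚ) m := by
            by_cases hm : m = a
            · subst hm
              simp only [Pi.single_eq_same]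
              positivity
            · simp only [Pi.single_eq_of_ne hm]
              exact le_refl _
          linarith
        show cs m - hs m - ε ≤ cs m + hs m + ε
        linarith
      refine (D.carries_out hlh).congr fun x _ => ?_
      simp only [Function.update_of_ne hi]
      exact (affMap_self _ _ (hC i') x).symm

end Crest.Agent.BF
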