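import Crest.Agent.Lib_BF_Defs
import Crest.Agent.Lib_BF_Sep
import Crest.Agent.Lib_BF_Elem
import Crest.Agent.Lib_BF_H2
import Crest.Agent.Lib_BF_H3

/-! # Package H4 (S0170): rescalings (8 shears) -/

set_option autoImplicit false
open scoped ContDiff
open Crest.AnalysisR.BoxFlow

namespace Crest.Agent.BF

/-- a shear `x_i += κ (x_j - c_j)` -/
structure Shear where
  i : Fin 3
  j : Fin 3
  hij : i ≠ j
  κ : ℚ

def Shear.map (c : Fin 3 → ℚ) (s : Shear) (x : E3) : E3 :=
  x + ((s.κ : ℝ) * (x s.j - (c s.j : ℝ))) • (Pi.single s.i 1 : E3)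

def chainMap (c : Fin 3 → ℚ) : List Shear → E3 → E3
  | [] => id
  | s :: L => chainMap c L ∘ s.map c

def chainFac : List Shear → ℚ
  | [] => 1
  | s :: L => (1 + |s.κ|) * chainFac L

theorem chainFac_ge_one (L : List Shear) : 1 ≤ chainFac L := by
  induction L with
  | nil => exact le_rfl
  | cons s L ih =>
    simp only [chainFac]
    have : 0 ≤ |s.κ| := abs_nonneg _
    nlinarith

theorem Shear.map_cube (c : Fin 3 → ℚ) (s : Shear) (H : ℝ) (x : E3)
    (hx : ∀ m, |x m - (c m : ℝ)| < H) (m : Fin 3) :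
    |s.map c x m - (c m : ℝ)| < H * (1 + |(s.κ : ℝ)|) := by
  have hH : 0 < H := lt_of_le_of_lt (abs_nonneg _) (hx m)
  have hk : 0 ≤ |(s.κ : ℝ)| := abs_nonneg _
  simp only [Shear.map, Pi.add_apply, Pi.smul_apply, smul_eq_mul]
  by_cases hm : m = s.i
  · subst hm
    simp only [Pi.single_eq_same, mul_one]
    have e : x s.i + (s.κ : ℝ) * (x s.j - (c s.j : ℝ)) - (c s.i : ℝ)
        = (x s.i - (c s.i : ℝ)) + (s.κ : ℝ) * (x s.j - (c s.j : ℝ)) := by ring
    rw [e]
    refine lt_of_le_of_lt (abs_add_le _ _) ?_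
    rw [abs_mul]
    have h1 := hx s.i
    have h2 : |(s.κ : ℝ)| * |x s.j - (c s.j : ℝ)| ≤ |(s.κ : ℝ)| * H :=
      mul_le_mul_of_nonneg_left (hx s.j).le hk
    nlinarith
  · simp only [Pi.single_eq_of_ne hm, mul_zero, add_zero]
    have h1 := hx m
    nlinarith

theorem shear_chain (c : Fin 3 → ℚ) (R : ℚ) (L : List Shear) :
    ∀ H : ℚ, 0 < H → H * chainFac L ≤ R - 2 → ∀ τ0 τ1 : ℚ, τ0 < τ1 →
      ∃ U : Field, Good U ∧ TSupp U τ0 τ1 ∧
        Carries U τ0 τ1 {x | ∀ m, |x m - (c m : ℝ)| < (H : ℝ)} (chainMap c L) ∧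
        Carries U τ0 τ1 {x | ∃ m, (R : ℝ) < |x m - (c m : ℝ)|} id := by
  induction L with
  | nil =>
    intro H _ _ τ0 τ1 _
    have hc : ∀ S : Set E3, Carries 0 τ0 τ1 S id := by
      intro S x _
      refine ⟨fun _ => x, fun t => ?_, fun _ _ => rfl, fun _ _ => rfl⟩
      simpa using hasDerivAt_const t x
    exact ⟨0, good_zero, fun p _ => rfl, hc _, hc _⟩
  | cons s L ih =>
    intro H hH hR τ0 τ1 hτ
    have hm0 : τ0 < (τ0 + τ1) / 2 := by linarith
    have hm1 : (τ0 + τ1) / 2 < τ1 := by linarith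
    have r0 : (τ0 : ℝ) ≤ (((τ0 + τ1) / 2 : ℚ) : ℝ) := by exact_mod_cast hm0.le
    have r1 : (((τ0 + τ1) / 2 : ℚ) : ℝ) ≤ (τ1 : ℝ) := by exact_mod_cast hm1.le
    have hk : 0 ≤ |s.κ| := abs_nonneg _
    have hH' : 0 < H * (1 + |s.κ|) := by positivity
    have hR' : H * (1 + |s.κ|) * chainFac L ≤ R - 2 := by
      simp only [chainFac] at hR
      linarith [mul_assoc H (1 + |s.κ|) (chainFac L)]
    have hR'' : H * (1 + |s.κ|) ≤ R - 2 := by
      have := chainFac_ge_one L
      nlinarith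
    have hHR : H ≤ R - 2 := by nlinarith
    obtain ⟨V, gV, tV, cV, oV⟩ := ih (H * (1 + |s.κ|)) hH' hR' ((τ0 + τ1) / 2) τ1 hm1
    let D : ElemData :=
      { i := s.i, j := s.j, hij := s.hij, lo := fun m => c m - (R - 1), hi := fun m => c m + (R - 1),
        δ := 1, hδ := one_pos, c0 := - s.κ * c s.j, c1 := s.κ, τ0 := τ0, τ1 := (τ0 + τ1) / 2,
        hτ := hm0 }
    have hmap : ∀ x : E3, D.map x = s.map c x := by
      intro x
      simp only [ElemData.map, Shear.map, D]
      congr 2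
      push_cast
      ring
    have hHRr : (H : ℝ) ≤ R - 2 := by exact_mod_cast hHR
    have hR''r : (H : ℝ) * (1 + |(s.κ : ℝ)|) ≤ R - 2 := by exact_mod_cast hR''
    refine ⟨D.field + V, D.good.add gV, TSupp.add r0 r1 D.tsupp tV, ?_, ?_⟩
    · have h1 : {x : E3 | ∀ m, |x m - (c m : ℝ)| < (H : ℝ)} ⊆ D.dom := by
        intro x hx
        refine ⟨fun m => ?_, ?_⟩
        · have := abs_lt.mp (hx m)
          simp only [D]
          push_cast
          constructor <;> linarith
        · have := abs_lt.mp (s.map_cube c H x hx s.i)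
          rw [hmap]
          simp only [D]
          push_cast
          constructor <;> linarith
      have := Carries.comp r0 r1 D.tsupp tV (D.carries_dom.mono h1) cV (fun x hx => by
        intro m
        rw [hmap]
        have := s.map_cube c H x hx m
        push_cast
        exact this)
      refine this.congr fun x _ => ?_
      simp only [chainMap, Function.comp, hmap]
    · have h1 : {x : E3 | ∃ m, (R : ℝ) < |x m - (c m : ℝ)|} ⊆ D.out := by
        rintro x ⟨m, hm⟩
        refine ⟨m, ?_⟩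
        simp only [D]
        push_cast
        rcases lt_abs.mp hm with h | h
        · right; linarith
        · left; linarith
      have hlh : ∀ m, D.lo m ≤ D.hi m := by
        intro m
        simp only [D]
        linarith
      exact Carries.comp r0 r1 D.tsupp tV ((D.carries_out hlh).mono h1) oV (fun x hx => hx)

/-- the four shears realising `diag(r, 1/r)` in the plane `(p, q)` -/
def fourShears (p q : Fin 3) (hpq : p ≠ q) (r : ℚ) : List Shear :=
  [⟨q, p, hpq.symm, -r⟩, ⟨p, q, hpq, r⁻¹ - 1⟩, ⟨q, p, hpq.symm, 1⟩, ⟨p, q, hpq, r - 1⟩]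

theorem chainMap_append (c : Fin 3 → ℚ) (L L' : List Shear) (x : E3) :
    chainMap c (L ++ L') x = chainMap c L' (chainMap c L x) := by
  induction L generalizing x with
  | nil => rfl
  | cons s L ih => simp only [List.cons_append, chainMap, Function.comp]; exact ih _

theorem chainFac_append (L L' : List Shear) :
    chainFac (L ++ L') = chainFac L * chainFac L' := by
  induction L with
  | nil => simp [chainFac]
  | cons s L ih => simp only [List.cons_append, chainFac, ih]; ring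

theorem chainFac_four (p q : Fin 3) (hpq : p ≠ q) (r : ℚ) (hr : 0 < r) :
    chainFac (fourShears p q hpq r) ≤ (2 + r + r⁻¹) ^ 4 := by
  have hi : 0 < r⁻¹ := inv_pos.mpr hr
  simp only [fourShears, chainFac, mul_one]
  have a1 : 1 + |-r| ≤ 2 + r + r⁻¹ := by rw [abs_neg, abs_of_pos hr]; linarith
  have a2 : 1 + |r⁻¹ - 1| ≤ 2 + r + r⁻¹ := by
    have : |r⁻¹ - 1| ≤ r⁻¹ + 1 := by rw [abs_le]; constructor <;> linarith
    linarith
  have a3 : 1 + |(1 : ℚ)| ≤ 2 + r + r⁻¹ := by rw [abs_one]; linarith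
  have a4 : 1 + |r - 1| ≤ 2 + r + r⁻¹ := by
    have : |r - 1| ≤ r + 1 := by rw [abs_le]; constructor <;> linarith
    linarith
  have e : (2 + r + r⁻¹) ^ 4
      = (2 + r + r⁻¹) * ((2 + r + r⁻¹) * ((2 + r + r⁻¹) * (2 + r + r⁻¹))) := by ring
  rw [e]
  gcongr

theorem chainMap_four (c : Fin 3 → ℚ) (p q : Fin 3) (hpq : p ≠ q) (r : ℚ) (hr : 0 < r) (x : E3) :
    chainMap c (fourShears p q hpq r) x =
      fun m => if m = p then (c p : ℝ) + (r : ℝ) * (x p - (c p : ℝ))
        else if m = q then (c q : ℝ) + (r : ℝ)⁻¹ * (x q - (c q : ℝ)) else x m := by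
  have hr' : (r : ℝ) ≠ 0 := by exact_mod_cast hr.ne'
  funext m
  simp only [fourShears, chainMap, Function.comp, Shear.map, id, Pi.add_apply, Pi.smul_apply,
    smul_eq_mul, Pi.single_eq_same, Pi.single_eq_of_ne hpq, Pi.single_eq_of_ne hpq.symm]
  by_cases hmp : m = p
  · subst hmp
    simp only [Pi.single_eq_same, Pi.single_eq_of_ne hpq, if_true]
    push_cast
    field_simp
    ring
  · by_cases hmq : m = q
    · subst hmq
      simp only [Pi.single_eq_same, Pi.single_eq_of_ne hmp, if_true, if_neg hmp]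
      push_cast
      field_simp
      ring
    · simp only [Pi.single_eq_of_ne hmp, Pi.single_eq_of_ne hmq, if_neg hmp, if_neg hmq]
      ring

theorem moves_scale {n : ℕ} (C : Cfg n) (hC : C.Pos) (i : Fin n) (r : Fin 3 → ℚ)
    (hr : ∀ j, 0 < r j) (hprod : ∏ j, r j = 1)
    (hfree : ∀ i', i' ≠ i → SepQ (C.c i) (fun _ => bigR (C.h i) r) (C.c i') (C.h i')) :
    Moves C ⟨C.c, Function.update C.h i (fun j => r j * C.h i j)⟩ := by
  intro τ0 τ1 hτ
  have h01 : (0 : Fin 3) ≠ 1 := by decide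
  have h12 : (1 : Fin 3) ≠ 2 := by decide
  have hr01 : 0 < r 0 * r 1 := mul_pos (hr 0) (hr 1)
  set L : List Shear := fourShears 0 1 h01 (r 0) ++ fourShears 1 2 h12 (r 0 * r 1) with hL
  set H : ℚ := C.h i 0 + C.h i 1 + C.h i 2 + 1 with hHdef
  have hH : 0 < H := by have := hC i 0; have := hC i 1; have := hC i 2; linarith
  have hfac : H * chainFac L ≤ bigR (C.h i) r - 2 := by
    rw [hL, chainFac_append]
    have b1 := chainFac_four 0 1 h01 (r 0) (hr 0)
    have b2 := chainFac_four 1 2 h12 (r 0 * r 1) hr01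
    have c1 := chainFac_ge_one (fourShears 0 1 h01 (r 0))
    have c2 := chainFac_ge_one (fourShears 1 2 h12 (r 0 * r 1))
    have : chainFac (fourShears 0 1 h01 (r 0)) * chainFac (fourShears 1 2 h12 (r 0 * r 1))
        ≤ (2 + r 0 + (r 0)⁻¹) ^ 4 * (2 + r 0 * r 1 + (r 0 * r 1)⁻¹) ^ 4 := by
      gcongr
    have h3 := mul_le_mul_of_nonneg_left this hH.le
    simp only [bigR]
    linarith [mul_assoc H ((2 + r 0 + (r 0)⁻¹) ^ 4) ((2 + r 0 * r 1 + (r 0 * r 1)⁻¹) ^ 4)]
  obtain ⟨U, gU, tU, cU, oU⟩ := shear_chain (C.c i) (bigR (C.h i) r) L H hH hfac τ0 τ1 hτ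
  refine ⟨U, gU, tU, fun i' => ?_⟩
  by_cases hi : i' = i
  · subst hi
    refine ⟨{x | ∀ m, |x m - (C.c i' m : ℝ)| < (H : ℝ)}, ?_, ?_, ?_⟩
    · simp only [Set.ofPred_forall]
      refine isOpen_iInter_of_finite fun m => ?_
      exact isOpen_lt (by fun_prop) continuous_const
    · intro x hx m
      refine lt_of_le_of_lt (hx m) ?_
      have : C.h i' m < H := by
        have := hC i' 0; have := hC i' 1; have := hC i' 2
        fin_cases m <;> simp only [hHdef] <;> simp <;> linarith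
      exact_mod_cast this
    · refine cU.congr fun x _ => ?_
      rw [hL, chainMap_append, chainMap_four _ _ _ _ _ (hr 0), chainMap_four _ _ _ _ _ hr01]
      have p0 : (r 0 : ℝ) ≠ 0 := by exact_mod_cast (hr 0).ne'
      have p1 : (r 1 : ℝ) ≠ 0 := by exact_mod_cast (hr 1).ne'
      have p2 : (r 2 : ℝ) ≠ 0 := by exact_mod_cast (hr 2).ne'
      have hp : (r 0 : ℝ) * r 1 * r 2 = 1 := by
        rw [Fin.prod_univ_three] at hprod
        exact_mod_cast hprod
      funext m
      have hne : C.h i' m ≠ 0 := (hC i' m).ne'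
      have hq : ((r m * C.h i' m / C.h i' m : ℚ) : ℝ) = (r m : ℝ) := by
        rw [mul_div_assoc, div_self hne, mul_one]
      simp only [affMap, Function.update_self, hq]
      fin_cases m
      · simp
      · simp
        field_simp
      · have h3 : ((r 1 : ℝ))⁻¹ * ((r 0 : ℝ))⁻¹ = r 2 := by
          field_simp
          linear_combination -hp
        simp [h3]
  · refine ⟨{x | ∃ m, (bigR (C.h i) r : ℝ) < |x m - (C.c i m : ℝ)|}, ?_, ?_, ?_⟩
    · simp only [Set.ofPred_exists]
      refine isOpen_iUnion fun m => ?_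
      exact isOpen_lt continuous_const (by fun_prop)
    · intro x hx
      obtain ⟨j, hj⟩ := hfree i' hi
      have hj' : (bigR (C.h i) r : ℝ) + C.h i' j < |(C.c i j : ℝ) - C.c i' j| := by
        exact_mod_cast hj
      refine ⟨j, ?_⟩
      have h1 := hx j
      have h2 : |(C.c i j : ℝ) - C.c i' j| ≤ |x j - (C.c i j : ℝ)| + |x j - (C.c i' j : ℝ)| := by
        have e : (C.c i j : ℝ) - C.c i' j = -(x j - (C.c i j : ℝ)) + (x j - (C.c i' j : ℝ)) := by
          ring
        rw [e]
        refine (abs_add_le _ _).trans ?_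
        rw [abs_neg]
      linarith
    · refine oU.congr fun x _ => ?_
      simp only [Function.update_of_ne hi]
      exact (affMap_self _ _ (hC i') x).symm

end Crest.Agent.BF
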