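import Crest.Agent.Lib_BF_Defs
import Crest.Agent.Lib_BF_H2
import Crest.Agent.Lib_BF_H3
import Crest.Agent.Lib_BF_H4

/-! # (S0170) macro moves are realisable -/

set_option autoImplicit false
open scoped ContDiff
open Crest.AnalysisR.BoxFlow

namespace Crest.Agent.BF

theorem Step.moves {n : ℕ} {C C' : Cfg n} (h : Step C C') (hC : C.Pos) : Moves C C' := by
  cases h with
  | trans i a d hfree => exact moves_trans C hC i a d hfree
  | scale i r hr hprod hfree => exact moves_scale C hC i r hr hprod hfree

theorem reach_moves {n : ℕ} {C C' : Cfg n} (h : Relation.ReflTransGen Step C C') (hC : C.Pos) :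
    C'.Pos ∧ Moves C C' := by
  induction h with
  | refl => exact ⟨hC, Moves.refl C hC⟩
  | tail _ hstep ih => exact ⟨hstep.pos ih.1, Moves.trans hC ih.1 ih.2 (hstep.moves ih.1)⟩

end Crest.Agent.BF
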