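import Crest.Agent.Lib_BF_Defs

/-! # Package I (S0170): the motion plan (pure rational combinatorics) -/

set_option autoImplicit false

namespace Crest.Agent.BF

namespace Plan

open Relation

variable {n : ℕ}

/-- translation step on the centres, the half widths `h` being fixed -/
def TS (h : Fin n → Fin 3 → ℚ) (c c' : Fin n → Fin 3 → ℚ) : Prop :=
  ∃ (i : Fin n) (a : Fin 3) (d : ℚ),
    (∀ i', i' ≠ i → SepQ (c i + Pi.single a (d / 2)) (h i + Pi.single a (|d| / 2)) (c i') (h i')) ∧
    c' = Function.update c i (c i + Pi.single a d)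

/-- reachability by translations -/
abbrev TR (h : Fin n → Fin 3 → ℚ) := ReflTransGen (TS h)

theorem TS.symm {h : Fin n → Fin 3 → ℚ} {c c' : Fin n → Fin 3 → ℚ} (H : TS h c c') :
    TS h c' c := by
  obtain ⟨i, a, d, hfree, rfl⟩ := H
  refine ⟨i, a, -d, ?_, ?_⟩
  · intro i' hi'
    have h1 : Function.update c i (c i + Pi.single a d) i + Pi.single a (-d / 2) =
        c i + Pi.single a (d / 2) := by
      rw [Function.update_self, add_assoc, ← Pi.single_add]
      congr 2
      ring
    rw [h1, abs_neg, Function.update_of_ne hi']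
    exact hfree i' hi'
  · rw [Function.update_self, Function.update_idem, add_assoc, ← Pi.single_add, add_neg_cancel,
      Pi.single_zero, add_zero, Function.update_eq_self]

theorem TR.symm {h : Fin n → Fin 3 → ℚ} {c c' : Fin n → Fin 3 → ℚ} (H : TR h c c') :
    TR h c' c := by
  induction H with
  | refl => exact ReflTransGen.refl
  | tail _ hstep ih => exact ih.head hstep.symm

theorem TR.reach {h : Fin n → Fin 3 → ℚ} {c c' : Fin n → Fin 3 → ℚ} (H : TR h c c') :
    ReflTransGen Step (⟨c, h⟩ : Cfg n) ⟨c', h⟩ := by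
  induction H with
  | refl => exact ReflTransGen.refl
  | tail _ hstep ih =>
    obtain ⟨i, a, d, hfree, rfl⟩ := hstep
    exact ih.tail (Step.trans ⟨_, h⟩ i a d hfree)

/-- separated in the coordinate `a` -/
def SepA (a : Fin 3) (h c : Fin n → Fin 3 → ℚ) : Prop :=
  ∀ i i', i ≠ i' → h i a + h i' a < |c i a - c i' a|

theorem SepA.congr {a : Fin 3} {h c c' : Fin n → Fin 3 → ℚ} (hs : SepA a h c)
    (hc : ∀ i, c' i a = c i a) : SepA a h c' := by
  intro i i' hii'
  rw [hc i, hc i']
  exact hs i i' hii'

/-- In an `a`-separated configuration every translation which does not change the `a`-coordinate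
is allowed. -/
theorem TS_of_sepA {a : Fin 3} {h c : Fin n → Fin 3 → ℚ} (hs : SepA a h c) (i : Fin n)
    (a' : Fin 3) (d : ℚ) (hd : a' = a → d = 0) :
    TS h c (Function.update c i (c i + Pi.single a' d)) := by
  refine ⟨i, a', d, fun i' hi' => ⟨a, ?_⟩, rfl⟩
  have h1 : (Pi.single a' (d / 2) : Fin 3 → ℚ) a = 0 := by
    by_cases h : a' = a
    · rw [hd h]; simp
    · exact Pi.single_eq_of_ne (Ne.symm h) _
  have h2 : (Pi.single a' (|d| / 2) : Fin 3 → ℚ) a = 0 := by
    by_cases h : a' = a
    · rw [hd h]; simp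
    · exact Pi.single_eq_of_ne (Ne.symm h) _
  rw [Pi.add_apply, Pi.add_apply, h1, h2, add_zero, add_zero]
  exact hs i i' (Ne.symm hi')

/-- Moving one box of an `a`-separated configuration inside its `a`-slab. -/
theorem TR_move_box {a : Fin 3} {h c : Fin n → Fin 3 → ℚ} (hs : SepA a h c) (i : Fin n)
    (w : Fin 3 → ℚ) (hw : w a = c i a) : TR h c (Function.update c i w) := by
  set v1 : Fin 3 → ℚ := c i + Pi.single 0 (w 0 - c i 0) with hv1
  set v2 : Fin 3 → ℚ := v1 + Pi.single 1 (w 1 - c i 1) with hv2
  set v3 : Fin 3 → ℚ := v2 + Pi.single 2 (w 2 - c i 2) with hv3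
  have hv3w : v3 = w := by
    ext j
    fin_cases j <;> simp [hv3, hv2, hv1]
  have hv1a : v1 a = c i a := by
    rw [hv1, Pi.add_apply]
    by_cases h0 : (0 : Fin 3) = a
    · rw [← h0] at hw ⊢; rw [hw]; simp
    · rw [Pi.single_eq_of_ne (Ne.symm h0), add_zero]
  have hv2a : v2 a = c i a := by
    rw [hv2, Pi.add_apply, hv1a]
    by_cases h0 : (1 : Fin 3) = a
    · rw [← h0] at hw ⊢; rw [hw]; simp
    · rw [Pi.single_eq_of_ne (Ne.symm h0), add_zero]
  have s1 : SepA a h (Function.update c i v1) := by
    apply hs.congr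
    intro i'
    by_cases hi : i' = i
    · subst hi; rw [Function.update_self, hv1a]
    · rw [Function.update_of_ne hi]
  have s2 : SepA a h (Function.update c i v2) := by
    apply hs.congr
    intro i'
    by_cases hi : i' = i
    · subst hi; rw [Function.update_self, hv2a]
    · rw [Function.update_of_ne hi]
  have t1 : TS h c (Function.update c i v1) :=
    TS_of_sepA hs i 0 _ (by intro h0; rw [← h0] at hw; linarith)
  have t2 : TS h (Function.update c i v1) (Function.update c i v2) := by
    have := TS_of_sepA s1 i 1 (w 1 - c i 1) (by intro h0; rw [← h0] at hw; linarith)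
    rwa [Function.update_self, Function.update_idem] at this
  have t3 : TS h (Function.update c i v2) (Function.update c i v3) := by
    have := TS_of_sepA s2 i 2 (w 2 - c i 2) (by intro h0; rw [← h0] at hw; linarith)
    rwa [Function.update_self, Function.update_idem] at this
  rw [← hv3w]
  exact ((ReflTransGen.single t1).tail t2).tail t3

/-- From an `a`-separated configuration every configuration with the same `a`-coordinates is
reachable. -/
theorem TR_of_sepA {a : Fin 3} {h c : Fin n → Fin 3 → ℚ} (hs : SepA a h c)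
    (c' : Fin n → Fin 3 → ℚ) (hc' : ∀ i, c' i a = c i a) : TR h c c' := by
  classical
  have key : ∀ S : Finset (Fin n), TR h c (fun i => if i ∈ S then c' i else c i) := by
    intro S
    induction S using Finset.induction_on with
    | empty => simpa using ReflTransGen.refl
    | insert i S hi ih =>
      refine ih.trans ?_
      have hsS : SepA a h (fun i => if i ∈ S then c' i else c i) := by
        apply hs.congr
        intro i'
        by_cases h' : i' ∈ S <;> simp [h', hc']
      have := TR_move_box hsS i (c' i) (by simp [hi, hc'])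
      convert this using 1
      ext i' j
      by_cases h1 : i' = i
      · subst h1; simp
      · simp [h1]
  simpa using key Finset.univ

/-- Lifting the boxes one at a time, the one with the highest top first. -/
theorem lift_aux (h : Fin n → Fin 3 → ℚ) (hh : ∀ i j, 0 < h i j) (Hs : ℚ)
    (hHs : ∀ i, h i 2 ≤ Hs) (Z : ℚ) :
    ∀ (m : ℕ) (U : Finset (Fin n)) (c : Fin n → Fin 3 → ℚ), U.card = m →
      (∀ i ∈ U, ∀ i' ∈ U, i ≠ i' → SepQ (c i) (h i) (c i') (h i')) →
      (∀ i ∈ U, c i 2 + h i 2 ≤ Z) →
      (∀ i, i ∉ U → Z + m * (2 * Hs + 1) + Hs < c i 2 - h i 2) →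
      (∀ i i', i ∉ U → i' ∉ U → i ≠ i' → h i 2 + h i' 2 < |c i 2 - c i' 2|) →
      ∃ c', TR h c c' ∧ SepA 2 h c' := by
  intro m
  induction m with
  | zero =>
    intro U c hU _ _ _ h4
    rw [Finset.card_eq_zero] at hU
    subst hU
    exact ⟨c, ReflTransGen.refl, fun i i' hii' => h4 i i' (by simp) (by simp) hii'⟩
  | succ m ih =>
    intro U c hU h1 h2 h3 h4
    have hne : U.Nonempty := by
      rw [← Finset.card_pos, hU]; omega
    obtain ⟨i0, hi0, hmax⟩ := Finset.exists_max_image U (fun i => c i 2 + h i 2) hne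
    have hHs0 : 0 < Hs := lt_of_lt_of_le (hh i0 2) (hHs i0)
    set G : ℚ := 2 * Hs + 1 with hG
    have hGpos : 0 < G := by rw [hG]; linarith
    push_cast at h3
    set d : ℚ := Z + ((m : ℚ) + 1) * G - c i0 2 with hd
    have hm0 : (0 : ℚ) ≤ m := Nat.cast_nonneg m
    have hd0 : 0 ≤ d := by
      have a1 := h2 i0 hi0
      have a2 := hh i0 2
      have a3 : 0 ≤ ((m : ℚ) + 1) * G := by positivity
      rw [hd]; linarith
    set c1 : Fin n → Fin 3 → ℚ := Function.update c i0 (c i0 + Pi.single 2 d) with hc1
    have hc1i0 : c1 i0 2 = Z + ((m : ℚ) + 1) * G := by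
      rw [hc1, Function.update_self, Pi.add_apply, Pi.single_eq_same, hd]; ring
    have hc1ne : ∀ i, i ≠ i0 → c1 i = c i := fun i hi => by
      rw [hc1, Function.update_of_ne hi]
    have hstep : TS h c c1 := by
      refine ⟨i0, 2, d, fun i' hi' => ?_, rfl⟩
      by_cases hiU : i' ∈ U
      · obtain ⟨j, hj⟩ := h1 i0 hi0 i' hiU (Ne.symm hi')
        by_cases hj2 : j = 2
        · subst hj2
          refine ⟨2, ?_⟩
          rw [Pi.add_apply, Pi.add_apply, Pi.single_eq_same, Pi.single_eq_same, abs_of_nonneg hd0]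
          have hm : c i' 2 + h i' 2 ≤ c i0 2 + h i0 2 := hmax i' hiU
          have hpos := hh i' 2
          rcases lt_abs.mp hj with hj | hj
          · exact lt_abs.mpr (Or.inl (by linarith))
          · exfalso; linarith
        · refine ⟨j, ?_⟩
          rw [Pi.add_apply, Pi.add_apply, Pi.single_eq_of_ne hj2, Pi.single_eq_of_ne hj2, add_zero,
            add_zero]
          exact hj
      · refine ⟨2, ?_⟩
        rw [Pi.add_apply, Pi.add_apply, Pi.single_eq_same, Pi.single_eq_same, abs_of_nonneg hd0]
        have a1 := h3 i' hiU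
        have a2 := hHs i0
        refine lt_abs.mpr (Or.inr ?_)
        have : c i0 2 + d = Z + ((m : ℚ) + 1) * G := by rw [hd]; ring
        linarith
    have hnotmem : ∀ i, i ∉ U.erase i0 → i = i0 ∨ i ∉ U := by
      intro i hi
      by_cases h0 : i = i0
      · exact Or.inl h0
      · exact Or.inr (fun hU' => hi (Finset.mem_erase.mpr ⟨h0, hU'⟩))
    have hlow : ∀ i, i ∉ U → c1 i0 2 + h i0 2 < c1 i 2 - h i 2 := by
      intro i hi
      have hne' : i ≠ i0 := fun h0 => hi (h0 ▸ hi0)
      rw [hc1i0, hc1ne i hne']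
      have a1 := h3 i hi
      have a2 := hHs i0
      linarith
    obtain ⟨c', hc', hsep⟩ := ih (U.erase i0) c1 (by rw [Finset.card_erase_of_mem hi0, hU]; rfl)
      (by
        intro i hi i' hi' hii'
        rw [hc1ne i (Finset.ne_of_mem_erase hi), hc1ne i' (Finset.ne_of_mem_erase hi')]
        exact h1 i (Finset.mem_of_mem_erase hi) i' (Finset.mem_of_mem_erase hi') hii')
      (by
        intro i hi
        rw [hc1ne i (Finset.ne_of_mem_erase hi)]
        exact h2 i (Finset.mem_of_mem_erase hi))
      (by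
        intro i hi
        rcases hnotmem i hi with rfl | hi
        · rw [hc1i0]
          have a2 := hHs i
          have : ((m : ℚ) + 1) * G = m * G + G := by ring
          rw [this, hG]
          rw [hG] at *
          linarith
        · have hne' : i ≠ i0 := fun h0 => hi (h0 ▸ hi0)
          rw [hc1ne i hne']
          have a1 := h3 i hi
          have : ((m : ℚ) + 1) * G = m * G + G := by ring
          rw [this] at a1
          linarith)
      (by
        intro i i' hi hi' hii'
        rcases hnotmem i hi with e1 | hiU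
        · rcases hnotmem i' hi' with e2 | hiU'
          · exact absurd (e1.trans e2.symm) hii'
          · have := hlow i' hiU'
            rw [e1]
            exact lt_abs.mpr (Or.inr (by linarith))
        · rcases hnotmem i' hi' with e2 | hiU'
          · have := hlow i hiU
            rw [e2]
            exact lt_abs.mpr (Or.inl (by linarith))
          · have hne1 : i ≠ i0 := fun h0 => hiU (h0 ▸ hi0)
            have hne2 : i' ≠ i0 := fun h0 => hiU' (h0 ▸ hi0)
            rw [hc1ne i hne1, hc1ne i' hne2]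
            exact h4 i i' hiU hiU' hii')
    exact ⟨c', hc'.head hstep, hsep⟩

/-- From a pairwise separated configuration one reaches a configuration separated in the last
coordinate. -/
theorem exists_lift (h c : Fin n → Fin 3 → ℚ) (hh : ∀ i j, 0 < h i j)
    (hsep : ∀ i i', i ≠ i' → SepQ (c i) (h i) (c i') (h i')) :
    ∃ c', TR h c c' ∧ SepA 2 h c' := by
  refine lift_aux h hh (∑ i, h i 2) (fun i => ?_) (∑ i, (|c i 2| + h i 2)) _ Finset.univ c rfl
    (fun i _ i' _ hii' => hsep i i' hii') (fun i _ => ?_) (fun i hi => absurd (Finset.mem_univ i) hi)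
    (fun i _ hi => absurd (Finset.mem_univ i) hi)
  · exact Finset.single_le_sum (f := fun i => h i 2) (fun i _ => (hh i 2).le) (Finset.mem_univ i)
  · have := Finset.single_le_sum (f := fun i => |c i 2| + h i 2)
      (fun i _ => add_nonneg (abs_nonneg _) (hh i 2).le) (Finset.mem_univ i)
    have h2 := le_abs_self (c i 2)
    linarith

/-- the canonical centres `(L i, 0, 0)` -/
def canon (L : ℚ) : Fin n → Fin 3 → ℚ := fun i => Pi.single 0 (L * ((i : ℕ) : ℚ))

theorem one_le_abs_cast_sub {i i' : Fin n} (hii' : i ≠ i') :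
    (1 : ℚ) ≤ |((i : ℕ) : ℚ) - ((i' : ℕ) : ℚ)| := by
  have h1 : ((i : ℕ) : ℤ) - ((i' : ℕ) : ℤ) ≠ 0 := by
    intro h0
    apply hii'
    apply Fin.ext
    omega
  have h2 := Int.one_le_abs h1
  exact_mod_cast h2

theorem lt_abs_canon {L x : ℚ} (hx0 : 0 ≤ x) (hx : x < L) {i i' : Fin n} (hii' : i ≠ i') :
    x < |L * ((i : ℕ) : ℚ) - L * ((i' : ℕ) : ℚ)| := by
  have hL : 0 < L := lt_of_le_of_lt hx0 hx
  rw [← mul_sub, abs_mul, abs_of_pos hL]
  have := one_le_abs_cast_sub hii'
  nlinarith

/-- Every pairwise separated configuration can be translated to the canonical one. -/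
theorem TR_canon (h c : Fin n → Fin 3 → ℚ) (hh : ∀ i j, 0 < h i j)
    (hsep : ∀ i i', i ≠ i' → SepQ (c i) (h i) (c i') (h i')) (L : ℚ)
    (hL : ∀ i i', h i 0 + h i' 0 < L) : TR h c (canon L) := by
  obtain ⟨c', hc', hs2⟩ := exists_lift h c hh hsep
  set c'' : Fin n → Fin 3 → ℚ := fun i => canon L i + Pi.single 2 (c' i 2) with hc''
  have e2 : ∀ i, c'' i 2 = c' i 2 := by
    intro i; simp [hc'', canon]
  have e0 : ∀ i, c'' i 0 = L * ((i : ℕ) : ℚ) := by
    intro i; simp [hc'', canon]
  have hs0 : SepA 0 h c'' := by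
    intro i i' hii'
    rw [e0, e0]
    exact lt_abs_canon (add_nonneg (hh i 0).le (hh i' 0).le) (hL i i') hii'
  have t1 : TR h c' c'' := TR_of_sepA hs2 c'' e2
  have t2 : TR h c'' (canon L) := TR_of_sepA hs0 (canon L) (by intro i; rw [e0]; simp [canon])
  exact (hc'.trans t1).trans t2

theorem bigR_nonneg (h r : Fin 3 → ℚ) (hh : ∀ j, 0 < h j) (hr : ∀ j, 0 < r j) : 0 ≤ bigR h r := by
  have h0 := hh 0
  have h1 := hh 1
  have h2 := hh 2
  have r0 := hr 0
  have r1 := hr 1
  unfold bigR
  positivity

/-- Rescaling all boxes at the canonical configuration. -/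
theorem scale_all (h k : Fin n → Fin 3 → ℚ) (hh : ∀ i j, 0 < h i j) (hk : ∀ i j, 0 < k i j)
    (hvol : ∀ i, ∏ j : Fin 3, k i j / h i j = 1) (L : ℚ)
    (hL1 : ∀ i i', bigR (h i) (fun j => k i j / h i j) + h i' 0 < L)
    (hL2 : ∀ i i', bigR (h i) (fun j => k i j / h i j) + k i' 0 < L) :
    ReflTransGen Step (⟨canon L, h⟩ : Cfg n) ⟨canon L, k⟩ := by
  classical
  have key : ∀ S : Finset (Fin n),
      ReflTransGen Step (⟨canon L, h⟩ : Cfg n) ⟨canon L, fun i => if i ∈ S then k i else h i⟩ := by
    intro S
    induction S using Finset.induction_on with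
    | empty => simpa using ReflTransGen.refl
    | insert i S hi ih =>
      refine ih.tail ?_
      have hr : ∀ j, 0 < k i j / h i j := fun j => div_pos (hk i j) (hh i j)
      have hstep := Step.scale (⟨canon L, fun i => if i ∈ S then k i else h i⟩ : Cfg n) i
        (fun j => k i j / h i j) hr (hvol i) (by
          intro i' hi'
          refine ⟨0, ?_⟩
          simp only [hi, if_false, canon, Pi.single_eq_same]
          have hR := bigR_nonneg (h i) (fun j => k i j / h i j) (hh i) hr
          by_cases h' : i' ∈ S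
          · simp only [h', if_true]
            exact lt_abs_canon (add_nonneg hR (hk i' 0).le) (hL2 i i') (Ne.symm hi')
          · simp only [h', if_false]
            exact lt_abs_canon (add_nonneg hR (hh i' 0).le) (hL1 i i') (Ne.symm hi'))
      convert hstep using 2
      ext i' j
      by_cases h1 : i' = i
      · subst h1
        simp only [Finset.mem_insert_self, if_true, Function.update_self, hi, if_false]
        rw [div_mul_cancel₀ _ (hh i' j).ne']
      · simp [h1]
  simpa using key Finset.univ

end Plan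

open Plan in
theorem reach_of_sep (n : ℕ) (a b h k : Fin n → Fin 3 → ℚ)
    (hh : ∀ i j, 0 < h i j) (hk : ∀ i j, 0 < k i j)
    (ha : ∀ i i', i ≠ i' → SepQ (a i) (h i) (a i') (h i'))
    (hb : ∀ i i', i ≠ i' → SepQ (b i) (k i) (b i') (k i'))
    (hvol : ∀ i, ∏ j : Fin 3, k i j / h i j = 1) :
    Relation.ReflTransGen Step (⟨a, h⟩ : Cfg n) ⟨b, k⟩ := by
  set A : ℚ := ∑ i, h i 0 with hA
  set B : ℚ := ∑ i, k i 0 with hB
  set R : ℚ := ∑ i, bigR (h i) (fun j => k i j / h i j) with hR
  have hr : ∀ i j, 0 < k i j / h i j := fun i j => div_pos (hk i j) (hh i j)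
  have hA1 : ∀ i, h i 0 ≤ A := fun i =>
    Finset.single_le_sum (f := fun i => h i 0) (fun i _ => (hh i 0).le) (Finset.mem_univ i)
  have hB1 : ∀ i, k i 0 ≤ B := fun i =>
    Finset.single_le_sum (f := fun i => k i 0) (fun i _ => (hk i 0).le) (Finset.mem_univ i)
  have hR1 : ∀ i, bigR (h i) (fun j => k i j / h i j) ≤ R := fun i =>
    Finset.single_le_sum (f := fun i => bigR (h i) (fun j => k i j / h i j))
      (fun i _ => bigR_nonneg _ _ (hh i) (hr i)) (Finset.mem_univ i)
  have hA0 : 0 ≤ A := Finset.sum_nonneg (fun i _ => (hh i 0).le)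
  have hB0 : 0 ≤ B := Finset.sum_nonneg (fun i _ => (hk i 0).le)
  have hR0 : 0 ≤ R := Finset.sum_nonneg (fun i _ => bigR_nonneg _ _ (hh i) (hr i))
  set L : ℚ := 2 * A + 2 * B + R + 1 with hL
  have t1 : TR h a (canon L) := TR_canon h a hh ha L (fun i i' => by
    have := hA1 i; have := hA1 i'; rw [hL]; linarith)
  have t2 : TR k b (canon L) := TR_canon k b hk hb L (fun i i' => by
    have := hB1 i; have := hB1 i'; rw [hL]; linarith)
  have t3 := scale_all h k hh hk hvol L
    (fun i i' => by have := hR1 i; have := hA1 i'; rw [hL]; linarith)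
    (fun i i' => by have := hR1 i; have := hB1 i'; rw [hL]; linarith)
  exact (t1.reach.trans t3).trans t2.symm.reach

end Crest.Agent.BF
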