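import Mathlib

/-!
Helper library for S0505: entries of a product of a list of square matrices as sums over
paths, and splitting a long product into blocks.
-/

set_option autoImplicit false

namespace Crest.Agent.LibIMM

open Finset

variable {R : Type*} [CommSemiring R] {n : ℕ}

/-- The path `i, c 0, …, c (m-1), j, j, …` read as a function on `ℕ`. -/
def ext {m : ℕ} (i : Fin n) (c : Fin m → Fin n) (j : Fin n) (q : ℕ) : Fin n :=
  if q = 0 then i else if h : q - 1 < m then c ⟨q - 1, h⟩ else j

theorem ext_cons {m : ℕ} (i k j : Fin n) (c : Fin m → Fin n) (q : ℕ) :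
    ext i (Fin.cons k c : Fin (m + 1) → Fin n) j (q + 1) = ext k c j q := by
  cases q with
  | zero => simp [ext]
  | succ q =>
    unfold ext
    simp only [Nat.add_eq_zero_iff, one_ne_zero, and_false, if_false, Nat.add_sub_cancel]
    by_cases h : q < m
    · have h' : q + 1 < m + 1 := by omega
      rw [dif_pos h, dif_pos h']
      exact Fin.cons_succ (α := fun _ => Fin n) k c ⟨q, h⟩
    · have h' : ¬ q + 1 < m + 1 := by omega
      rw [dif_neg h, dif_neg h']

/-- The ordered product `N 0 * N 1 * ⋯ * N (len - 1)`. -/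
def pr (N : ℕ → Matrix (Fin n) (Fin n) R) (len : ℕ) : Matrix (Fin n) (Fin n) R :=
  ((List.range len).map N).prod

theorem pr_succ' (N : ℕ → Matrix (Fin n) (Fin n) R) (len : ℕ) :
    pr N (len + 1) = N 0 * pr (fun k => N (k + 1)) len := by
  unfold pr
  rw [List.range_succ_eq_map, List.map_cons, List.prod_cons, List.map_map]
  rfl

theorem pr_add (N : ℕ → Matrix (Fin n) (Fin n) R) (a b : ℕ) :
    pr N (a + b) = pr N a * pr (fun k => N (a + k)) b := by
  unfold pr
  rw [List.range_add, List.map_append, List.prod_append, List.map_map]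
  rfl

theorem pr_one (N : ℕ → Matrix (Fin n) (Fin n) R) : pr N 1 = N 0 := by
  simp [pr]

theorem pr_succ (N : ℕ → Matrix (Fin n) (Fin n) R) (len : ℕ) :
    pr N (len + 1) = pr N len * N len := by
  rw [pr_add, pr_one]
  simp

theorem pr_blocks (N : ℕ → Matrix (Fin n) (Fin n) R) (len : ℕ → ℕ) (m : ℕ) :
    pr N (∑ q ∈ range m, len q) =
      pr (fun q => pr (fun k => N ((∑ q' ∈ range q, len q') + k)) (len q)) m := by
  induction m with
  | zero => simp [pr]
  | succ m ih => rw [Finset.sum_range_succ, pr_add, ih, pr_succ]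

theorem path_sum (m : ℕ) : ∀ (N : ℕ → Matrix (Fin n) (Fin n) R) (i j : Fin n),
    pr N (m + 1) i j =
      ∑ c : Fin m → Fin n, ∏ q ∈ Finset.range (m + 1), N q (ext i c j q) (ext i c j (q + 1)) := by
  induction m with
  | zero => intro N i j; simp [pr, ext]
  | succ m ih =>
    intro N i j
    rw [pr_succ', Matrix.mul_apply]
    simp_rw [ih]
    rw [← (Fin.consEquiv (fun _ => Fin n)).sum_comp]
    rw [Fintype.sum_prod_type]
    refine Finset.sum_congr rfl fun k _ => ?_
    rw [Finset.mul_sum]
    refine Finset.sum_congr rfl fun c _ => ?_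
    rw [Finset.prod_range_succ' _ (m + 1)]
    rw [mul_comm]
    congr 1
    refine Finset.prod_congr rfl fun q _ => ?_
    rw [show ((Fin.consEquiv fun _ => Fin n) (k, c)) = (Fin.cons k c : Fin (m + 1) → Fin n) from rfl,
      ext_cons, ext_cons]

end Crest.Agent.LibIMM
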