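import Mathlib
import Crest.Prelude.Def_SPSPS

/-!
Helper library for S0505: renaming the vertices of a depth-five circuit along bijections.
-/

set_option autoImplicit false
set_option linter.unusedSectionVars false

namespace Crest.Agent.LibIMM

open Crest.ArithCircuit

variable {K ι L B P S R L' B' P' S' R' : Type*}

/-- Rename the vertices of a circuit along bijections of the five index types. -/
def reindex (C : SPSPS K ι L B P S R) (eL : L ≃ L') (eB : B ≃ B') (eP : P ≃ P') (eS : S ≃ S')
    (eR : R ≃ R') : SPSPS K ι L' B' P' S' R' where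
  leaf l := C.leaf (eL.symm l)
  inB b := (C.inB (eB.symm b)).map eL.toEmbedding
  coefB b l := C.coefB (eB.symm b) (eL.symm l)
  inP p := (C.inP (eP.symm p)).map eB
  inS s := (C.inS (eS.symm s)).map eP.toEmbedding
  coefS s p := C.coefS (eS.symm s) (eP.symm p)
  inR r := (C.inR (eR.symm r)).map eS
  inOut := C.inOut.map eR.toEmbedding
  coefOut r := C.coefOut (eR.symm r)

variable [CommSemiring K] (C : SPSPS K ι L B P S R) (eL : L ≃ L') (eB : B ≃ B') (eP : P ≃ P')
  (eS : S ≃ S') (eR : R ≃ R')

theorem reindex_leafVal (l : L') :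
    (reindex C eL eB eP eS eR).leafVal l = C.leafVal (eL.symm l) := rfl

theorem reindex_valB (b : B') :
    (reindex C eL eB eP eS eR).valB b = C.valB (eB.symm b) := by
  unfold SPSPS.valB
  simp only [reindex_leafVal]
  simp [reindex, Finset.sum_map]

theorem reindex_valP (p : P') :
    (reindex C eL eB eP eS eR).valP p = C.valP (eP.symm p) := by
  unfold SPSPS.valP
  have : (reindex C eL eB eP eS eR).inP p = (C.inP (eP.symm p)).map eB := rfl
  rw [this, Multiset.map_map]
  congr 1
  refine Multiset.map_congr rfl fun b _ => ?_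
  simp [reindex_valB]

theorem reindex_valS (s : S') :
    (reindex C eL eB eP eS eR).valS s = C.valS (eS.symm s) := by
  unfold SPSPS.valS
  simp only [reindex_valP]
  simp [reindex, Finset.sum_map]

theorem reindex_valR (r : R') :
    (reindex C eL eB eP eS eR).valR r = C.valR (eR.symm r) := by
  unfold SPSPS.valR
  have : (reindex C eL eB eP eS eR).inR r = (C.inR (eR.symm r)).map eS := rfl
  rw [this, Multiset.map_map]
  congr 1
  refine Multiset.map_congr rfl fun b _ => ?_
  simp [reindex_valS]

theorem reindex_output :
    (reindex C eL eB eP eS eR).output = C.output := by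
  unfold SPSPS.output
  simp only [reindex_valR]
  simp [reindex, Finset.sum_map]

theorem reindex_leafDeg (l : L') :
    (reindex C eL eB eP eS eR).leafDeg l = C.leafDeg (eL.symm l) := rfl

theorem reindex_degB (b : B') :
    (reindex C eL eB eP eS eR).degB b = C.degB (eB.symm b) := by
  unfold SPSPS.degB
  have : (reindex C eL eB eP eS eR).inB b = (C.inB (eB.symm b)).map eL.toEmbedding := rfl
  rw [this, Finset.sup_map]
  refine Finset.sup_congr rfl fun l _ => ?_
  simp [reindex_leafDeg]

theorem reindex_degP (p : P') :
    (reindex C eL eB eP eS eR).degP p = C.degP (eP.symm p) := by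
  unfold SPSPS.degP
  have : (reindex C eL eB eP eS eR).inP p = (C.inP (eP.symm p)).map eB := rfl
  rw [this, Multiset.map_map]
  congr 1
  refine Multiset.map_congr rfl fun b _ => ?_
  simp [reindex_degB]

theorem reindex_degS (s : S') :
    (reindex C eL eB eP eS eR).degS s = C.degS (eS.symm s) := by
  unfold SPSPS.degS
  have : (reindex C eL eB eP eS eR).inS s = (C.inS (eS.symm s)).map eP.toEmbedding := rfl
  rw [this, Finset.sup_map]
  refine Finset.sup_congr rfl fun l _ => ?_
  simp [reindex_degP]

theorem reindex_degR (r : R') :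
    (reindex C eL eB eP eS eR).degR r = C.degR (eR.symm r) := by
  unfold SPSPS.degR
  have : (reindex C eL eB eP eS eR).inR r = (C.inR (eR.symm r)).map eS := rfl
  rw [this, Multiset.map_map]
  congr 1
  refine Multiset.map_congr rfl fun b _ => ?_
  simp [reindex_degS]

theorem reindex_degOut :
    (reindex C eL eB eP eS eR).degOut = C.degOut := by
  unfold SPSPS.degOut
  have : (reindex C eL eB eP eS eR).inOut = C.inOut.map eR.toEmbedding := rfl
  rw [this, Finset.sup_map]
  refine Finset.sup_congr rfl fun l _ => ?_
  simp [reindex_degR]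

theorem reindex_isHomogeneous (h : C.IsHomogeneous) :
    (reindex C eL eB eP eS eR).IsHomogeneous := by
  obtain ⟨h1, h2, h3⟩ := h
  refine ⟨fun b l hl => ?_, fun s p hp => ?_, fun r hr => ?_⟩
  · rw [reindex_leafDeg, reindex_degB]
    apply h1
    have : l ∈ (C.inB (eB.symm b)).map eL.toEmbedding := hl
    obtain ⟨l0, hl0, rfl⟩ := Finset.mem_map.1 this
    simpa using hl0
  · rw [reindex_degP, reindex_degS]
    apply h2
    have : p ∈ (C.inS (eS.symm s)).map eP.toEmbedding := hp
    obtain ⟨l0, hl0, rfl⟩ := Finset.mem_map.1 this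
    simpa using hl0
  · rw [reindex_degR, reindex_degOut]
    apply h3
    have : r ∈ C.inOut.map eR.toEmbedding := hr
    obtain ⟨l0, hl0, rfl⟩ := Finset.mem_map.1 this
    simpa using hl0

/-- Every circuit on finite index types can be renamed to initial segments of `ℕ`. -/
theorem exists_fin [Fintype L] [Fintype B] [Fintype P] [Fintype S] [Fintype R]
    (h : C.IsHomogeneous) :
    ∃ (l b p s r : ℕ) (C' : SPSPS K ι (Fin l) (Fin b) (Fin p) (Fin s) (Fin r)),
      C'.IsHomogeneous ∧ C'.output = C.output ∧ C'.size = C.size := by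
  refine ⟨Fintype.card L, Fintype.card B, Fintype.card P, Fintype.card S, Fintype.card R,
    reindex C (Fintype.equivFin L) (Fintype.equivFin B) (Fintype.equivFin P)
      (Fintype.equivFin S) (Fintype.equivFin R), reindex_isHomogeneous _ _ _ _ _ _ h,
    reindex_output _ _ _ _ _ _, ?_⟩
  simp [SPSPS.size]

end Crest.Agent.LibIMM
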