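import Mathlib
import Crest.Prelude.Def_SPSPS
import Crest.Agent.Lib_IMM_Path
import Crest.Agent.Lib_IMM_Reindex

/-!
Helper library for S0505: the block circuit for iterated matrix multiplication.
The `n` matrices are cut into `r' + 1` consecutive blocks, block `q` having `mq q + 1` matrices.
-/

set_option autoImplicit false
set_option linter.unusedSectionVars false

namespace Crest.Agent.LibIMM

open Crest.ArithCircuit MvPolynomial Finset

/-- Index of the first matrix of block `q`. -/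
def start (mq : ℕ → ℕ) (q : ℕ) : ℕ := ∑ q' ∈ range q, (mq q' + 1)

/-- Index type of the lower product gates: a block, its two end indices and the inner indices. -/
abbrev PIdx (n r' : ℕ) (mq : ℕ → ℕ) : Type :=
  Σ q : Fin (r' + 1), Fin n × Fin n × (Fin (mq q) → Fin n)

variable (K : Type*) [CommSemiring K] (n : ℕ) [NeZero n] (r' : ℕ) (mq : ℕ → ℕ)

/-- The block circuit. -/
def circ : SPSPS K (Fin n × Fin n × Fin n) (Fin n × Fin n × Fin n) (Fin n × Fin n × Fin n)
    (PIdx n r' mq) (Fin (r' + 1) × Fin n × Fin n) (Fin r' → Fin n) where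
  leaf l := Sum.inl l
  inB b := {b}
  coefB _ _ := 1
  inP p := (Multiset.range (mq p.1 + 1)).map fun a =>
    (Fin.ofNat n (start mq p.1 + a), ext p.2.1 p.2.2.2 p.2.2.1 a, ext p.2.1 p.2.2.2 p.2.2.1 (a + 1))
  inS s := Finset.univ.map
    ⟨fun c => (⟨s.1, s.2.1, s.2.2, c⟩ : PIdx n r' mq), fun c c' h => by simpa using h⟩
  coefS _ _ := 1
  inR c := (Multiset.range (r' + 1)).map fun q =>
    (Fin.ofNat (r' + 1) q, ext 0 c 0 q, ext 0 c 0 (q + 1))
  inOut := Finset.univ
  coefOut _ := 1

/-- The variable matrices indexed by `ℕ` (cyclically). -/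
noncomputable def M (k : ℕ) : Matrix (Fin n) (Fin n) (MvPolynomial (Fin n × Fin n × Fin n) K) :=
  varMatrix K n (Fin.ofNat n k)

theorem circ_valB (b : Fin n × Fin n × Fin n) : (circ K n r' mq).valB b = X b := by
  simp [SPSPS.valB, SPSPS.leafVal, circ]

theorem circ_valP (p : PIdx n r' mq) :
    (circ K n r' mq).valP p = ∏ a ∈ range (mq p.1 + 1),
      M K n (start mq p.1 + a) (ext p.2.1 p.2.2.2 p.2.2.1 a) (ext p.2.1 p.2.2.2 p.2.2.1 (a + 1)) := by
  unfold SPSPS.valP
  have : (circ K n r' mq).inP p = (Multiset.range (mq p.1 + 1)).map fun a =>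
    (Fin.ofNat n (start mq p.1 + a), ext p.2.1 p.2.2.2 p.2.2.1 a,
      ext p.2.1 p.2.2.2 p.2.2.1 (a + 1)) := rfl
  rw [this, Multiset.map_map]
  simp only [Function.comp_def, circ_valB]
  rfl

theorem circ_valS (s : Fin (r' + 1) × Fin n × Fin n) :
    (circ K n r' mq).valS s = pr (fun a => M K n (start mq s.1 + a)) (mq s.1 + 1) s.2.1 s.2.2 := by
  unfold SPSPS.valS
  have : (circ K n r' mq).inS s = Finset.univ.map
    ⟨fun c => (⟨s.1, s.2.1, s.2.2, c⟩ : PIdx n r' mq), fun c c' h => by simpa using h⟩ := rfl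
  rw [this, Finset.sum_map, path_sum]
  refine Finset.sum_congr rfl fun c _ => ?_
  rw [circ_valP]
  change (1 : K) • _ = _
  rw [one_smul]
  rfl

theorem circ_valR (c : Fin r' → Fin n) :
    (circ K n r' mq).valR c = ∏ q ∈ range (r' + 1),
      pr (fun a => M K n (start mq q + a)) (mq q + 1) (ext 0 c 0 q) (ext 0 c 0 (q + 1)) := by
  unfold SPSPS.valR
  have : (circ K n r' mq).inR c = (Multiset.range (r' + 1)).map fun q =>
    (Fin.ofNat (r' + 1) q, ext 0 c 0 q, ext 0 c 0 (q + 1)) := rfl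
  rw [this, Multiset.map_map]
  simp only [Function.comp_def, circ_valS]
  change ∏ q ∈ range (r' + 1), _ = _
  refine Finset.prod_congr rfl fun q hq => ?_
  have hq' : ((Fin.ofNat (r' + 1) q : Fin (r' + 1)) : ℕ) = q := by
    simp [Fin.ofNat, Nat.mod_eq_of_lt (Finset.mem_range.1 hq)]
  rw [hq']

theorem circ_output :
    (circ K n r' mq).output = pr (M K n) (∑ q ∈ range (r' + 1), (mq q + 1)) 0 0 := by
  unfold SPSPS.output
  rw [pr_blocks, path_sum]
  refine Finset.sum_congr rfl fun c _ => ?_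
  rw [circ_valR]
  simp [circ, start]

theorem imm_eq : imm K n = pr (M K n) n 0 0 := by
  have h : (List.ofFn (varMatrix K n)) = (List.range n).map (M K n) := by
    rw [List.ofFn_eq_map, ← List.map_coe_finRange_eq_range, List.map_map]
    refine List.map_congr_left fun k _ => ?_
    simp [M]
  unfold pr
  rw [← h]
  cases n with
  | zero => exact absurd rfl (NeZero.ne 0)
  | succ n => rfl

theorem circ_output_eq_imm (h : ∑ q ∈ range (r' + 1), (mq q + 1) = n) :
    (circ K n r' mq).output = imm K n := by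
  rw [circ_output, h, imm_eq]

theorem sup_eq_of_const {α : Type*} (F : Finset α) (f : α → ℕ) (d : ℕ) (h : ∀ a ∈ F, f a = d)
    (hne : F.Nonempty) : F.sup f = d := by
  obtain ⟨a, ha⟩ := hne
  exact le_antisymm (Finset.sup_le fun b hb => (h b hb).le) (h a ha ▸ Finset.le_sup ha)

theorem circ_degB (b : Fin n × Fin n × Fin n) : (circ K n r' mq).degB b = 1 := by
  simp [SPSPS.degB, SPSPS.leafDeg, circ]

theorem circ_degP (p : PIdx n r' mq) : (circ K n r' mq).degP p = mq p.1 + 1 := by
  unfold SPSPS.degP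
  have : (circ K n r' mq).inP p = (Multiset.range (mq p.1 + 1)).map fun a =>
    (Fin.ofNat n (start mq p.1 + a), ext p.2.1 p.2.2.2 p.2.2.1 a,
      ext p.2.1 p.2.2.2 p.2.2.1 (a + 1)) := rfl
  rw [this, Multiset.map_map]
  simp [circ_degB, add_comm]

theorem circ_mem_inS (s : Fin (r' + 1) × Fin n × Fin n) (p : PIdx n r' mq)
    (hp : p ∈ (circ K n r' mq).inS s) : p.1 = s.1 := by
  have : p ∈ Finset.univ.map
    ⟨fun c => (⟨s.1, s.2.1, s.2.2, c⟩ : PIdx n r' mq), fun c c' h => by simpa using h⟩ := hp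
  obtain ⟨c, _, rfl⟩ := Finset.mem_map.1 this
  rfl

theorem circ_inS_nonempty (s : Fin (r' + 1) × Fin n × Fin n) :
    ((circ K n r' mq).inS s).Nonempty := by
  have : (circ K n r' mq).inS s = Finset.univ.map
    ⟨fun c => (⟨s.1, s.2.1, s.2.2, c⟩ : PIdx n r' mq), fun c c' h => by simpa using h⟩ := rfl
  rw [this, Finset.map_nonempty]
  exact ⟨fun _ => 0, Finset.mem_univ _⟩

theorem circ_degS (s : Fin (r' + 1) × Fin n × Fin n) :
    (circ K n r' mq).degS s = mq s.1 + 1 := by
  unfold SPSPS.degS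
  refine sup_eq_of_const _ _ _ (fun p hp => ?_) (circ_inS_nonempty K n r' mq s)
  rw [circ_degP, circ_mem_inS K n r' mq s p hp]

theorem circ_degR (c : Fin r' → Fin n) :
    (circ K n r' mq).degR c =
      ((Multiset.range (r' + 1)).map fun q => mq (Fin.ofNat (r' + 1) q : Fin (r' + 1)) + 1).sum := by
  unfold SPSPS.degR
  have : (circ K n r' mq).inR c = (Multiset.range (r' + 1)).map fun q =>
    (Fin.ofNat (r' + 1) q, ext 0 c 0 q, ext 0 c 0 (q + 1)) := rfl
  rw [this, Multiset.map_map]
  simp only [Function.comp_def, circ_degS]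

theorem circ_isHomogeneous : (circ K n r' mq).IsHomogeneous := by
  refine ⟨fun b l _ => ?_, fun s p hp => ?_, fun c _ => ?_⟩
  · rw [circ_degB]; rfl
  · rw [circ_degS, circ_degP, circ_mem_inS K n r' mq s p hp]
  · unfold SPSPS.degOut
    change _ = Finset.univ.sup _
    rw [sup_eq_of_const _ _ _ (fun c' _ => circ_degR K n r' mq c') ⟨c, Finset.mem_univ _⟩,
      circ_degR]

theorem circ_size : (circ K n r' mq).size =
    n * (n * n) + n * (n * n) + (∑ q : Fin (r' + 1), n * (n * n ^ mq q)) + (r' + 1) * (n * n) +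
      n ^ r' + 1 := by
  simp [SPSPS.size, PIdx]

end Crest.Agent.LibIMM
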