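import Mathlib

/-!
Helper library for S0505: the arithmetic of the size bounds.
-/

set_option autoImplicit false

namespace Crest.Agent.LibIMM

open Finset

/-- Number of inner indices of block `q`, for `r` blocks of `t` matrices (the last one shorter). -/
def mqOf (n t r : ℕ) (q : ℕ) : ℕ := if q + 1 < r then t - 1 else n - (r - 1) * t - 1

theorem mqOf_sum (n t r : ℕ) (ht1 : 1 ≤ t) (hlt : (r - 1) * t < n) :
    ∑ q ∈ range (r - 1 + 1), (mqOf n t r q + 1) = n := by
  rw [Finset.sum_range_succ]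
  have h1 : ∀ q ∈ range (r - 1), mqOf n t r q + 1 = t := by
    intro q hq
    have : q + 1 < r := by have := Finset.mem_range.1 hq; omega
    simp only [mqOf, if_pos this]
    omega
  rw [Finset.sum_congr rfl h1]
  have h2 : ¬ (r - 1 + 1 < r) := by omega
  simp only [mqOf, if_neg h2, Finset.sum_const, Finset.card_range, smul_eq_mul]
  omega

theorem mqOf_le (n t r : ℕ) (hr1 : 1 ≤ r) (hle : n ≤ r * t) (q : ℕ) :
    mqOf n t r q ≤ t - 1 := by
  unfold mqOf
  split_ifs with h
  · exact le_rfl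
  · have : r * t = (r - 1) * t + t := by
      obtain ⟨r0, rfl⟩ : ∃ r0, r = r0 + 1 := ⟨r - 1, by omega⟩
      simp [Nat.succ_mul]
    omega

theorem size_le (n t r : ℕ) (hn : 1 ≤ n) (ht1 : 1 ≤ t) (hr1 : 1 ≤ r) (hle : n ≤ r * t) :
    n * (n * n) + n * (n * n) + (∑ q : Fin (r - 1 + 1), n * (n * n ^ mqOf n t r q)) +
        (r - 1 + 1) * (n * n) + n ^ (r - 1) + 1 ≤
      2 * n ^ 3 + r * n ^ 2 + r * n ^ (t + 1) + n ^ (r - 1) + 1 := by
  have hr : r - 1 + 1 = r := by omega
  have h1 : (∑ q : Fin (r - 1 + 1), n * (n * n ^ mqOf n t r q)) ≤ r * n ^ (t + 1) := by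
    calc (∑ q : Fin (r - 1 + 1), n * (n * n ^ mqOf n t r q))
        ≤ ∑ _q : Fin (r - 1 + 1), n ^ (t + 1) := by
          refine Finset.sum_le_sum fun q _ => ?_
          have h2 : n * (n * n ^ mqOf n t r q) = n ^ (mqOf n t r q + 2) := by ring
          rw [h2]
          refine Nat.pow_le_pow_right hn ?_
          have := mqOf_le n t r hr1 hle q
          omega
      _ = r * n ^ (t + 1) := by simp [hr]
  have h3 : n * (n * n) = n ^ 3 := by ring
  have h4 : (r - 1 + 1) * (n * n) = r * n ^ 2 := by rw [hr]; ring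
  rw [h3, h4]
  omega

theorem real_bound (n t r : ℕ) (hn : 2 ≤ n) (hr1 : 1 ≤ r)
    (hs1 : Real.sqrt n ≤ t) (hs2 : (t : ℝ) < Real.sqrt n + 1) (hlt : (r - 1) * t < n) :
    ((2 * n ^ 3 + r * n ^ 2 + r * n ^ (t + 1) + n ^ (r - 1) + 1 : ℕ) : ℝ) ≤
      (n : ℝ) ^ (Real.sqrt n + 4) := by
  have hx2 : (2 : ℝ) ≤ n := by exact_mod_cast hn
  have hx1 : (1 : ℝ) ≤ n := by linarith
  have hx0 : (0 : ℝ) < n := by linarith
  have hsq1 : 1 ≤ Real.sqrt n := by
    rw [show (1 : ℝ) = Real.sqrt 1 by simp]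
    exact Real.sqrt_le_sqrt hx1
  have ht1 : 1 ≤ t := by
    have : (1 : ℝ) ≤ t := le_trans hsq1 hs1
    exact_mod_cast this
  rcases Nat.lt_or_ge n 3 with h3 | h3
  · -- n = 2
    obtain rfl : n = 2 := by omega
    have hsq_lt : Real.sqrt ((2 : ℕ) : ℝ) < 2 := by
      rw [Real.sqrt_lt' (by norm_num)]; norm_num
    have hsq_gt : 1 < Real.sqrt ((2 : ℕ) : ℝ) := by
      rw [Real.lt_sqrt (by norm_num)]; norm_num
    have ht2 : t = 2 := by
      have h1 : (t : ℝ) < 3 := by linarith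
      have h2 : (1 : ℝ) < t := by linarith
      have h1' : t < 3 := by exact_mod_cast h1
      have h2' : 1 < t := by exact_mod_cast h2
      omega
    subst ht2
    have hr : r = 1 := by omega
    subst hr
    have : ((2 : ℕ) : ℝ) ^ ((5 : ℕ) : ℝ) ≤ ((2 : ℕ) : ℝ) ^ (Real.sqrt ((2 : ℕ) : ℝ) + 4) := by
      refine Real.rpow_le_rpow_of_exponent_le (by norm_num) ?_
      have h5 : ((5 : ℕ) : ℝ) = 5 := by norm_num
      rw [h5]
      linarith
    rw [Real.rpow_natCast] at this
    refine le_trans ?_ this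
    norm_num
  · have hx3 : (3 : ℝ) ≤ n := by exact_mod_cast h3
    have hrn : (r : ℝ) ≤ n := by
      have : r ≤ n := by
        have : r - 1 ≤ (r - 1) * t := Nat.le_mul_of_pos_right _ ht1
        omega
      exact_mod_cast this
    have h1 : (((r - 1) * t : ℕ) : ℝ) < n := by exact_mod_cast hlt
    set x : ℝ := (n : ℝ) with hx
    set Y : ℝ := x ^ (Real.sqrt x + 2) with hY
    have hYpos : 0 < Y := Real.rpow_pos_of_pos hx0 _
    have hr_lt : ((r - 1 : ℕ) : ℝ) < Real.sqrt x := by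
      push_cast at h1
      have h2 : ((r - 1 : ℕ) : ℝ) * Real.sqrt x ≤ ((r - 1 : ℕ) : ℝ) * t :=
        mul_le_mul_of_nonneg_left hs1 (Nat.cast_nonneg _)
      have h3 : Real.sqrt x * Real.sqrt x = x := Real.mul_self_sqrt hx0.le
      have hsq0 : 0 < Real.sqrt x := by linarith
      by_contra hcon
      push Not at hcon
      have : Real.sqrt x * Real.sqrt x ≤ ((r - 1 : ℕ) : ℝ) * Real.sqrt x :=
        mul_le_mul_of_nonneg_right hcon hsq0.le
      linarith
    have ha : x ^ (t + 1) ≤ Y := by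
      rw [← Real.rpow_natCast]
      refine Real.rpow_le_rpow_of_exponent_le hx1 ?_
      push_cast
      linarith
    have hb : x ^ (r - 1) ≤ Y := by
      rw [← Real.rpow_natCast]
      refine Real.rpow_le_rpow_of_exponent_le hx1 ?_
      linarith
    have hc : x ^ 3 ≤ Y := by
      rw [← Real.rpow_natCast]
      refine Real.rpow_le_rpow_of_exponent_le hx1 ?_
      push_cast
      linarith
    have hd : 1 ≤ Y := Real.one_le_rpow hx1 (by linarith)
    have he : x ^ (Real.sqrt x + 4) = Y * x ^ 2 := by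
      rw [hY, ← Real.rpow_natCast x 2, ← Real.rpow_add hx0]
      congr 1
      push_cast
      ring
    rw [he]
    push_cast
    have h1 : (r : ℝ) * x ^ 2 ≤ x ^ 3 := by
      have : (r : ℝ) * x ^ 2 ≤ x * x ^ 2 := mul_le_mul_of_nonneg_right hrn (by positivity)
      calc (r : ℝ) * x ^ 2 ≤ x * x ^ 2 := this
        _ = x ^ 3 := by ring
    have h2 : (r : ℝ) * x ^ (t + 1) ≤ x * Y :=
      mul_le_mul hrn ha (by positivity) hx0.le
    have h3' : (x + 5) * Y ≤ Y * x ^ 2 := by
      have : x + 5 ≤ x ^ 2 := by nlinarith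
      nlinarith
    nlinarith

end Crest.Agent.LibIMM
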