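import Crest.Agent.Lib_SN_Check

set_option autoImplicit false
set_option linter.all false
set_option maxRecDepth 1000000

namespace Crest.Agent.SN
open Cert

def a0e0 : Pos := ⟨329510287762989358691697063434341007948329749536956207605068577044420714242840626355117422631826461427798601630014987845021544588264928353297742257660910108672, 2026130649457353975018620626918420383746106298011651078293120937360288142390278374786336747669233355830077088286444065508291894745491925447718977770461240093613564760140762054656, 7⟩
def a0c0 : Cert := (move 492 (branch (move 491 (branch (move 490 (leaf 490 0)) (move 459 (branch (move 458 (leaf 458 3)) (move 460 (branch (move 495 (leaf 459 3)) (move 523 (branch (move 522 (leaf 490 1)) (move 428 (branch (move 396 (leaf 396 4)) (move 555 (leaf 427 6)))))))))))) (branch (move 527 (branch (move 491 (leaf 491 0)) (move 528 (leaf 492 3)))) (move 495 (branch (move 460 (branch (move 459 (leaf 459 3)) (move 557 (branch (move 589 (leaf 460 7)) (move 428 (branch (move 396 (leaf 396 4)) (move 461 (leaf 428 7)))))))) (move 528 (branch (move 527 (leaf 492 0)) (move 496 (branch (move 529 (leaf 493 0)) (move 497 (leaf 493 1)))))))))))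
theorem a0p0 : a0e0.Valid :=
  pos_of_chk [] forall_nil a0c0 a0e0 (by decide +kernel)

def a0e1 : Pos := ⟨329510287762989358691697063434341007948329749536956207605068577044420714242840626355117422631826461427798601630014987845021544588264928353297742257660910108672, 13053247318556325490083281525675621609852751874692712073064691637885067152293342487324675927897924733413505503616774857559194075444743955329783122625335574673490104252534060569544227815424, 7⟩
def a0c1 : Cert := (move 461 (branch (move 429 (branch (move 397 (leaf 397 4)) (move 428 (branch (move 396 (leaf 396 7)) (move 460 (branch (move 557 (leaf 428 7)) (move 430 (branch (move 398 (leaf 397 6)) (move 459 (branch (move 458 (leaf 458 0)) (move 431 (leaf 427 1)))))))))))) (branch (move 558 (branch (move 429 (leaf 429 4)) (move 590 (leaf 461 7)))) (move 557 (branch (move 589 (branch (move 621 (leaf 493 6)) (move 588 (branch (move 556 (leaf 460 5)) (move 620 (leaf 492 5)))))) (move 558 (branch (move 590 (leaf 461 4)) (move 460 (branch (move 428 (leaf 428 7)) (move 495 (branch (move 496 (leaf 460 3)) (move 459 (branch (move 458 (leaf 458 0)) (move 492 (leaf 459 3)))))))))))))))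
theorem a0p1 : a0e1.Valid :=
  pos_of_chk [] forall_nil a0c1 a0e1 (by decide +kernel)

def a0e2 : Pos := ⟨329510287762989358691697063434341007948329749536956207605068577044420714242840626355117422631826461427798601630014987845021544588264928353297742257660910108672, 4052261298678835295328087994923232248352426209977203162423361843743493906616520627369746735430688025167598397320009689157384905422554421641615422260411087828151408151004257976320, 7⟩
def a0c2 : Cert := (move 492 (branch (move 527 (branch (move 491 (leaf 491 0)) (move 528 (leaf 492 3)))) (branch (move 495 (branch (move 528 (branch (move 527 (leaf 492 0)) (move 496 (branch (move 529 (leaf 493 0)) (move 497 (leaf 493 1)))))) (branch (move 496 (branch (move 497 (leaf 493 1)) (move 464 (branch (move 463 (leaf 460 2)) (move 465 (leaf 461 2)))))) (move 527 (branch (move 528 (leaf 492 0)) (move 463 (branch (move 464 (leaf 460 2)) (move 558 (branch (move 431 (leaf 430 5)) (move 590 (leaf 462 6))))))))))) (move 491 (branch (move 490 (leaf 490 0)) (move 459 (branch (move 458 (leaf 458 3)) (move 495 (branch (move 460 (leaf 459 3)) (move 496 (branch (move 497 (leaf 493 1)) (move 464 (branch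 (move 463 (leaf 460 2)) (move 465 (leaf 461 2)))))))))))))))
theorem a0p2 : a0e2.Valid :=
  pos_of_chk [] forall_nil a0c2 a0e2 (by decide +kernel)

def a0e3 : Pos := ⟨329510287762989358691697063434341007948329749536956207605068577044420714242840626355117422631826461427798601630014987845021544588264928353297742257660910108672, 30457577067176149780061644205080627907871817750749912035666028774508040583333274493449694878352017731110179794270687822309285716319588452561853335865167149764218177268725585533986702098432, 7⟩
def a0c3 : Cert := (move 461 (branch (move 558 (branch (move 429 (leaf 429 4)) (move 590 (leaf 461 7)))) (branch (move 557 (branch (move 589 (branch (move 621 (leaf 493 6)) (move 588 (branch (move 556 (leaf 460 5)) (move 620 (leaf 492 5)))))) (branch (move 558 (branch (move 590 (leaf 461 4)) (move 556 (branch (move 588 (leaf 460 5)) (move 527 (branch (move 528 (leaf 524 1)) (move 555 (leaf 523 2)))))))) (move 590 (branch (move 558 (leaf 461 4)) (move 589 (branch (move 622 (leaf 493 4)) (move 621 (leaf 493 6))))))))) (move 429 (branch (move 397 (leaf 397 4)) (move 428 (branch (move 396 (leaf 396 7)) (move 557 (branch (move 460 (leaf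 428 7)) (move 589 (branch (move 621 (leaf 493 6)) (move 588 (branch (move 556 (leaf 460 5)) (move 620 (leaf 492 5)))))))))))))))
theorem a0p3 : a0e3.Valid :=
  pos_of_chk [] forall_nil a0c3 a0e3 (by decide +kernel)

def a0e4 : Pos := ⟨943490606534895625823378003938764286163571313052439856631007782666474617642457927264372307649532114517193555185489562854957634002502742746405286916155916268573258940416, 13053247322608586800084004095468333661177784143925689552474009885059600526625973258143713418610208983833577112943186346003203953767765214340088579398292191260885213190483175739667773390848, 10⟩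
def a0c4 : Cert := (move 495 (branch (move 496 (branch (move 497 (leaf 493 1)) (move 464 (branch (move 465 (leaf 461 2)) (move 463 (branch (move 492 (leaf 460 2)) (move 431 (branch (move 399 (leaf 398 5)) (move 528 (branch (move 529 (leaf 493 0)) (move 560 (leaf 431 7)))))))))))) (branch (move 496 (branch (move 497 (leaf 493 1)) (move 464 (branch (move 465 (leaf 461 2)) (move 463 (branch (move 492 (leaf 460 2)) (move 431 (branch (move 399 (leaf 398 5)) (move 527 (leaf 430 5)))))))))) (branch (move 527 (branch (move 463 (branch (move 431 (leaf 430 5)) (move 492 (branch (move 491 (leaf 491 0)) (move 464 (leaf 460 2)))))) (branch (move 528 (branch (move 529 (leaf 493 3)) (move 557 (branch (move 556 (leaf 524 1)) (move 463 (branch (move 431 (leaf 430 5)) (move 589 (branch (move 621 (leaf 493 6)) (move 560 (branch (move 561 (leaf 525 0)) (move 588 (branch (move 559 (leaf 556 1)) (move 620 (leaf 492 5)))))))))))))) (move 528 (branch (move 492 (leaf 492 0)) (move 529 (leaf 493 3))))))) (branch (move 496 (branch (move 497 (leaf 493 1)) (move 528 (branch (move 529 (leaf 493 0)) (move 527 (branch (move 492 (leaf 492 0)) (move 464 (branch (move 465 (leaf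 461 2)) (move 559 (branch (move 432 (leaf 431 5)) (move 591 (leaf 463 6)))))))))))) (branch (move 496 (branch (move 497 (leaf 493 1)) (move 528 (branch (move 529 (leaf 493 0)) (move 527 (branch (move 492 (leaf 492 0)) (move 557 (branch (move 556 (leaf 524 1)) (move 431 (branch (move 463 (leaf 430 5)) (move 589 (branch (move 621 (leaf 493 6)) (move 560 (branch (move 561 (leaf 525 0)) (move 588 (branch (move 559 (leaf 556 1)) (move 620 (leaf 492 5)))))))))))))))))) (move 527 (branch (move 496 (branch (move 497 (leaf 493 1)) (move 464 (branch (move 465 (leaf 461 2)) (move 559 (branch (move 591 (leaf 463 6)) (move 463 (branch (move 431 (leaf 430 5)) (move 432 (leaf 431 6)))))))))) (branch (move 528 (branch (move 529 (leaf 493 3)) (move 557 (branch (move 556 (leaf 524 1)) (move 463 (branch (move 431 (leaf 430 5)) (move 589 (branch (move 621 (leaf 493 6)) (move 560 (branch (move 561 (leaf 525 0)) (move 588 (branch (move 559 (leaf 556 1)) (move 620 (leaf 492 5)))))))))))))) (branch (move 528 (branch (move 529 (leaf 493 3)) (move 496 (branch (move 497 (leaf 493 1)) (move 464 (branch (move 465 (leaf 461 2)) (move 559 (branch (move 432 (leaf 431 5))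 (move 591 (leaf 463 6)))))))))) (move 528 (branch (move 529 (leaf 493 3)) (move 496 (branch (move 497 (leaf 493 1)) (move 431 (branch (move 463 (leaf 430 5)) (move 557 (branch (move 556 (leaf 524 1)) (move 464 (branch (move 465 (leaf 461 2)) (move 432 (branch (move 400 (leaf 399 5)) (move 399 (leaf 399 7))))))))))))))))))))))))
theorem a0p4 : a0e4.Valid :=
  pos_of_chk [] forall_nil a0c4 a0e4 (by decide +kernel)

def a0e5 : Pos := ⟨219673525175326239139706567948419895260313287626407871360895778083114828594879019660120542517667552527642048594904294154828562879507017294794859084857162596352, 943490606205385338367269014819201636991640130728955203404854007482587744070932922979184728918789878064368413535272013995201873706769326748034662104869551314862094680064, 9⟩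
def a0c5 : Cert := (move 431 (branch (move 430 (branch (move 399 (leaf 398 6)) (move 429 (branch (move 397 (leaf 397 7)) (move 461 (branch (move 558 (leaf 429 7)) (move 460 (branch (move 432 (leaf 428 1)) (move 459 (leaf 427 2)))))))))) (branch (move 463 (branch (move 558 (leaf 430 6)) (move 399 (branch (move 367 (leaf 366 5)) (move 495 (leaf 398 5)))))) (branch (move 399 (branch (move 430 (leaf 398 6)) (move 463 (branch (move 367 (leaf 366 5)) (move 495 (leaf 398 5)))))) (move 461 (branch (move 463 (branch (move 558 (leaf 430 6)) (move 460 (branch (move 432 (leaf 428 2)) (move 495 (branch (move 459 (leaf 459 0)) (move 496 (leaf 460 0)))))))) (branch (move 429 (branch (move 558 (leaf 429 7)) (move 397 (branch (move 365 (leaf 365 4)) (move 430 (leaf 397 7)))))) (move 460 (branch (move 463 (branch (move 432 (leaf 428 2)) (move 495 (branch (move 496 (leaf 460 0)) (move 428 (branch (move 427 (leaf 427 3)) (move 429 (branch (move 464 (leaf 428 3)) (move 397 (branch (move 365 (leaf 365 4)) (move 430 (leaf 397 7)))))))))))) (branch (move 463 (branch (move 432 (leaf 428 2)) (move 495 (branch (move 459 (leaf 459 0)) (move 496 (leaf 460 0)))))) (branch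 (move 459 (branch (move 495 (leaf 459 0)) (move 430 (leaf 427 2)))) (move 430 (branch (move 459 (leaf 427 2)) (move 432 (branch (move 429 (leaf 428 1)) (move 433 (leaf 429 1)))))))))))))))))
theorem a0p5 : a0e5.Valid :=
  pos_of_chk [] forall_nil a0c5 a0e5 (by decide +kernel)

def a0e6 : Pos := ⟨329510287737415994567508455074862963441864131160263691620357133376582500429589581070705902671800913831502475402273685625274981533505418536533012624431780986880, 8702164890265691019800014416940542803979544545894170716825560886768610319776678213675729495756118613392709308698770928124028892054596207024108132547063432959779644740957589700500038615040, 10⟩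
def a0c6 : Cert := (move 462 (branch (move 430 (branch (move 557 (leaf 429 5)) (move 399 (branch (move 431 (leaf 398 6)) (move 398 (branch (move 367 (leaf 366 6)) (move 397 (branch (move 365 (leaf 365 7)) (move 429 (leaf 397 7)))))))))) (branch (move 557 (branch (move 430 (leaf 429 5)) (move 589 (branch (move 558 (leaf 461 5)) (move 621 (leaf 493 6)))))) (branch (ref 0) (move 558 (branch (move 463 (branch (move 431 (leaf 430 6)) (move 495 (branch (move 590 (leaf 462 6)) (move 461 (branch (move 429 (leaf 429 7)) (move 496 (branch (move 460 (leaf 460 0)) (move 497 (leaf 493 1)))))))))) (move 557 (branch (move 589 (leaf 461 5)) (move 559 (branch (move 591 (leaf 462 4)) (move 560 (branch (move 561 (leaf 525 3)) (move 528 (branch (move 529 (leaf 525 2)) (move 556 (branch (move 527 (leaf 524 1)) (move 555 (branch (move 554 (leaf 522 2)) (move 587 (branch (move 586 (leaf 554 1)) (move 588 (leaf 555 1))))))))))))))))))))))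
theorem a0p6 : a0e6.Valid :=
  pos_of_chk [a0e5] (forall_cons a0p5 forall_nil) a0c6 a0e6 (by decide +kernel)

def a0e7 : Pos := ⟨943490606534895625797804639826484203462952491840734359522752332972613234028120732550773197788496188653617919164969750802110634040903712845642842158654217548427352342528, 2026130649339417646126329321370190947283297723305575790664548467037141139241469129481941968188996656555749465697165421785138752233868286352202635074131054712284509160676125573120, 6⟩
def a0c7 : Cert := (move 493 (branch (move 463 (branch (move 431 (leaf 430 6)) (move 492 (branch (move 491 (leaf 459 2)) (move 464 (branch (move 465 (leaf 461 1)) (move 495 (leaf 460 2)))))))) (branch (move 461 (branch (move 429 (leaf 429 4)) (move 557 (branch (move 589 (leaf 461 5)) (move 460 (branch (move 428 (leaf 428 7)) (move 459 (branch (move 458 (leaf 458 0)) (move 495 (leaf 459 0)))))))))) (move 461 (branch (move 429 (leaf 429 4)) (move 557 (branch (move 589 (leaf 461 5)) (move 463 (branch (move 431 (leaf 430 6)) (move 492 (branch (move 464 (leaf 460 1)) (move 491 (leaf 459 2)))))))))))))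
theorem a0p7 : a0e7.Valid :=
  pos_of_chk [] forall_nil a0c7 a0e7 (by decide +kernel)

def a0e8 : Pos := ⟨329510287737415994567508455074862963441864131160263691620357133376582500429589581070705902671800913831502475402273685625274981533505418536533012624431780986880, 43510824385732475270026989403662535199753910684835148003585569731894045977156041690218746097594803352716716396021897628515777118333900100651303810543086040625034756776628767888278005219328, 10⟩
def a0c8 : Cert := (move 462 (branch (move 430 (branch (move 557 (leaf 429 5)) (move 399 (branch (move 431 (leaf 398 6)) (move 398 (branch (move 367 (leaf 366 6)) (move 397 (branch (move 365 (leaf 365 7)) (move 429 (leaf 397 7)))))))))) (branch (move 557 (branch (move 430 (leaf 429 5)) (move 589 (branch (move 558 (leaf 461 5)) (move 621 (leaf 493 6)))))) (branch (ref 0) (move 558 (branch (move 463 (branch (move 431 (leaf 430 6)) (move 590 (branch (move 495 (leaf 462 6)) (move 591 (branch (move 559 (leaf 462 4)) (move 623 (leaf 494 4)))))))) (branch (move 461 (branch (move 429 (leaf 429 7)) (move 590 (branch (move 493 (leaf 461 7)) (move 591 (branch (move 559 (leaf 462 4)) (move 623 (leaf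 494 4)))))))) (ref 1))))))))
theorem a0p8 : a0e8.Valid :=
  pos_of_chk [a0e5, a0e7] (forall_cons a0p5 (forall_cons a0p7 forall_nil)) a0c8 a0e8 (by decide +kernel)

def a0e9 : Pos := ⟨329510287737415994567508455074862963441864131160263691620357133376582500429589581070705902671800913831502475402273685625274981533505418536533012624431780986880, 43510824387505339599520867121563126763980458300988518169031649263375255407066365473842968414579343175421055261292118687118837035599219980287136203984819169257629322583480761036908970115072, 10⟩
def a0c9 : Cert := (move 462 (branch (move 430 (branch (move 557 (leaf 429 5)) (move 399 (branch (move 431 (leaf 398 6)) (move 398 (branch (move 367 (leaf 366 6)) (move 397 (branch (move 365 (leaf 365 7)) (move 429 (leaf 397 7)))))))))) (branch (move 557 (branch (move 430 (leaf 429 5)) (move 589 (branch (move 558 (leaf 461 5)) (move 621 (leaf 493 6)))))) (branch (move 558 (branch (move 461 (branch (move 429 (leaf 429 7)) (move 590 (branch (move 493 (leaf 461 7)) (move 591 (branch (move 559 (leaf 462 4)) (move 623 (leaf 494 4)))))))) (branch (move 557 (branch (move 589 (leaf 461 5)) (move 559 (branch (move 591 (leaf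 462 4)) (move 560 (branch (move 561 (leaf 525 3)) (move 528 (branch (move 529 (leaf 525 2)) (move 556 (branch (move 527 (leaf 524 1)) (move 555 (branch (move 554 (leaf 522 2)) (move 587 (branch (move 586 (leaf 554 1)) (move 588 (leaf 555 1)))))))))))))))) (move 557 (branch (move 589 (leaf 461 5)) (move 461 (branch (move 429 (leaf 429 7)) (move 493 (branch (move 590 (leaf 461 4)) (move 463 (branch (move 431 (leaf 430 6)) (move 492 (branch (move 464 (leaf 460 1)) (move 491 (leaf 459 2))))))))))))))) (move 430 (branch (move 398 (branch (move 493 (leaf 397 5)) (move 399 (branch (move 367 (leaf 366 6)) (move 431 (leaf 398 6)))))) (branch (move 398 (branch (move 493 (leaf 397 5)) (move 397 (branch (move 365 (leaf 365 7)) (move 429 (leaf 397 7)))))) (move 431 (branch (move 399 (leaf 398 6)) (move 429 (branch (move 397 (leaf 397 7)) (move 558 (branch (move 463 (leaf 430 6)) (move 461 (leaf 429 7)))))))))))))))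
theorem a0p9 : a0e9.Valid :=
  pos_of_chk [] forall_nil a0c9 a0e9 (by decide +kernel)

def a0e10 : Pos := ⟨943490606534895625823378003938764286163571313052439856631007782666474617642457927264372307649532114517193555185489562854957634002502742746405286916155916268573258940416, 2026130649339417646126329321344617583171017640604956969452842969928885689547607745867604773475397546694713539833589785764618940181021286390603605173368609954782810440530218975232, 6⟩
def a0c10 : Cert := (move 462 (branch (move 463 (branch (move 431 (leaf 430 6)) (move 492 (branch (move 491 (leaf 459 2)) (move 464 (branch (move 465 (leaf 461 1)) (move 495 (leaf 460 2)))))))) (branch (move 461 (branch (move 429 (leaf 429 4)) (move 557 (branch (move 589 (leaf 461 5)) (move 460 (branch (move 428 (leaf 428 7)) (move 459 (branch (move 458 (leaf 458 0)) (move 495 (leaf 459 0)))))))))) (move 461 (branch (move 429 (leaf 429 4)) (move 557 (branch (move 589 (leaf 461 5)) (move 463 (branch (move 431 (leaf 430 6)) (move 492 (branch (move 464 (leaf 460 1)) (move 491 (leaf 459 2)))))))))))))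
theorem a0p10 : a0e10.Valid :=
  pos_of_chk [] forall_nil a0c10 a0e10 (by decide +kernel)

def a0e11 : Pos := ⟨329510287762989358691697063434341007948329749536956207605068577044420714242840626355117422631826461427798601630014987845021544588264928353297742257660910108672, 67441777791604331659009792322815912815976079706124293267257525960790724882487315709356682661088800468744231243186984316183406832377407717164029035983375976779404750779883544030711119872000, 12⟩
def a0c11 : Cert := (move 558 (branch (move 590 (branch (move 622 (leaf 493 7)) (move 589 (branch (move 621 (leaf 493 5)) (move 495 (branch (move 463 (leaf 462 6)) (move 496 (branch (move 497 (leaf 493 1)) (move 591 (branch (move 623 (leaf 494 4)) (move 464 (branch (move 465 (leaf 461 2)) (move 528 (branch (move 529 (leaf 493 0)) (move 559 (branch (move 560 (leaf 463 5)) (move 588 (branch (move 587 (leaf 555 2)) (move 620 (branch (move 619 (leaf 587 1)) (move 557 (leaf 492 5)))))))))))))))))))))) (branch (move 461 (branch (move 429 (leaf 429 4)) (move 590 (leaf 461 7)))) (ref 0))))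
theorem a0p11 : a0e11.Valid :=
  pos_of_chk [a0e10] (forall_cons a0p10 forall_nil) a0c11 a0e11 (by decide +kernel)

def a0e12 : Pos := ⟨329510287737415994579416980733722186736624252428700757911207193430083519529241516494081496768250825407278789577167987883422514687502483595796043537515003510784, 34808659509396432487550991162023305967083605636452759585516522264715622697384957134622257162602117162066872413555843991337826219847373199339696109042702814431103005282669895386577196023808, 11⟩
def a0c12 : Cert := (move 558 (branch (move 463 (branch (move 431 (leaf 430 6)) (move 495 (branch (move 590 (leaf 462 6)) (move 461 (branch (move 429 (leaf 429 7)) (move 496 (branch (move 460 (leaf 460 0)) (move 497 (leaf 493 1)))))))))) (branch (move 463 (branch (move 431 (leaf 430 6)) (move 590 (branch (move 495 (leaf 462 6)) (move 591 (branch (move 559 (leaf 462 4)) (move 623 (leaf 494 4)))))))) (branch (move 461 (branch (move 429 (leaf 429 7)) (move 590 (branch (move 493 (leaf 461 7)) (move 591 (branch (move 559 (leaf 462 4)) (move 623 (leaf 494 4)))))))) (move 496 (branch (move 461 (branch (move 429 (leaf 429 7)) (move 463 (branch (move 431 (leaf 430 6))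 (move 464 (branch (move 497 (leaf 461 0)) (move 493 (branch (move 492 (leaf 460 1)) (move 465 (leaf 461 1)))))))))) (branch (move 461 (branch (move 429 (leaf 429 7)) (move 463 (branch (move 431 (leaf 430 6)) (move 460 (branch (move 495 (leaf 460 0)) (move 492 (branch (move 491 (leaf 459 1)) (move 493 (branch (move 464 (leaf 460 1)) (move 428 (branch (move 427 (leaf 427 3)) (move 396 (leaf 396 4)))))))))))))) (branch (move 495 (branch (move 497 (leaf 493 1)) (move 461 (branch (move 429 (leaf 429 7)) (move 460 (branch (move 459 (leaf 459 0)) (move 493 (leaf 460 3)))))))) (branch (move 497 (branch (move 495 (leaf 493 1)) (move 463 (branch (move 431 (leaf 430 6)) (move 461 (branch (move 464 (leaf 461 0)) (move 429 (leaf 429 7)))))))) (move 497 (branch (move 495 (leaf 493 1)) (move 528 (branch (move 527 (leaf 493 2)) (move 559 (branch (move 591 (leaf 462 4)) (move 560 (branch (move 561 (leaf 525 3)) (move 529 (branch (move 557 (leaf 525 2)) (move 465 (branch (move 433 (leaf 432 5)) (move 463 (branch (move 431 (leaf 430 6)) (move 464 (branch (move 498 (leaf 462 0)) (move 493 (leaf 461 1)))))))))))))))))))))))))))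
theorem a0p12 : a0e12.Valid :=
  pos_of_chk [] forall_nil a0c12 a0e12 (by decide +kernel)

def a0e13 : Pos := ⟨329510287737415994579416980733722186736624252428700757911207193430083519529241516494081496768250825407278789577167987883422514687502483595796043537515003510784, 112126540679598223827677732953135535285641210717611681361950128232469436503238914342905365508065363672074223065919718469075972335799664260909435031695537099513815791409507455506875976135745682276352, 11⟩
def a0c13 : Cert := (move 558 (branch (move 463 (branch (move 431 (leaf 430 6)) (move 590 (branch (move 495 (leaf 462 6)) (move 591 (branch (move 559 (leaf 462 4)) (move 623 (leaf 494 4)))))))) (branch (move 591 (branch (move 559 (leaf 462 4)) (move 590 (branch (move 623 (leaf 494 4)) (move 622 (branch (move 493 (leaf 493 7)) (move 621 (branch (move 589 (leaf 493 5)) (move 653 (leaf 525 5)))))))))) (branch (move 557 (branch (move 589 (leaf 461 5)) (move 559 (branch (move 591 (leaf 462 4)) (move 560 (branch (move 561 (leaf 525 3)) (move 528 (branch (move 529 (leaf 525 2)) (move 527 (branch (move 556 (leaf 524 1)) (move 463 (branch (move 431 (leaf 430 6)) (move 493 (branch (move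 492 (leaf 492 3)) (move 464 (branch (move 465 (leaf 461 1)) (move 496 (branch (move 497 (leaf 493 2)) (move 432 (leaf 431 5)))))))))))))))))))) (move 557 (branch (move 589 (leaf 461 5)) (move 463 (branch (move 431 (leaf 430 6)) (move 590 (branch (move 495 (leaf 462 6)) (move 622 (branch (move 493 (leaf 493 7)) (move 654 (leaf 525 7))))))))))))))
theorem a0p13 : a0e13.Valid :=
  pos_of_chk [] forall_nil a0c13 a0e13 (by decide +kernel)

def a0e14 : Pos := ⟨329510287737415994579416980733722186736624252428700757911207193430083519529241516494081496768250825407278789577167987883422514687502483595796043537515003510784, 943490606205385338085962009537975190323134987092429947595983884137747631494741285548093921156079507404548391435412815212313973503503025821798308692658578089626510032896, 6⟩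
def a0c14 : Cert := (move 430 (branch (move 398 (branch (move 493 (leaf 397 5)) (move 399 (branch (move 367 (leaf 366 6)) (move 431 (leaf 398 6)))))) (branch (move 398 (branch (move 493 (leaf 397 5)) (move 397 (branch (move 365 (leaf 365 7)) (move 429 (leaf 397 7)))))) (move 431 (branch (move 399 (leaf 398 6)) (move 463 (branch (move 558 (leaf 430 6)) (move 429 (branch (move 397 (leaf 397 7)) (move 464 (branch (move 428 (leaf 428 0)) (move 465 (leaf 429 3)))))))))))))
theorem a0p14 : a0e14.Valid :=
  pos_of_chk [] forall_nil a0c14 a0e14 (by decide +kernel)

def a0e15 : Pos := ⟨329510287762989358691697063434341007948329749536956207605068577044420714242840626355117422631826461427798601630014987845021544588264928353297742257660910108672, 2358726518588892697627915654694133566082674817726877963840182578478199758410871659200256807595093355398702593944573870600817229376013304284613051689666769651906342027264, 8⟩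
def a0c15 : Cert := (move 492 (branch (move 527 (branch (move 491 (leaf 491 0)) (move 528 (leaf 492 3)))) (branch (move 495 (branch (move 528 (branch (move 527 (leaf 492 0)) (move 496 (branch (move 529 (leaf 493 0)) (move 497 (leaf 493 1)))))) (branch (move 496 (branch (move 497 (leaf 493 1)) (move 464 (branch (move 463 (leaf 460 2)) (move 465 (leaf 461 2)))))) (move 527 (branch (move 528 (leaf 492 0)) (move 463 (branch (move 464 (leaf 460 2)) (move 431 (branch (move 399 (leaf 398 5)) (move 430 (branch (move 398 (leaf 398 7)) (move 462 (branch (move 559 (leaf 430 4)) (move 557 (leaf 429 5))))))))))))))) (move 491 (branch (move 490 (leaf 490 0)) (move 462 (branch (move 463 (leaf 459 2)) (move 430 (branch (move 398 (leaf 397 5)) (move 557 (leaf 429 5)))))))))))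
theorem a0p15 : a0e15.Valid :=
  pos_of_chk [] forall_nil a0c15 a0e15 (by decide +kernel)

def a0e16 : Pos := ⟨329510287775776040753791367614080030201562558725302465597424298878339821149466148997323182611839235225946664743885638954894826115644683261680107074275474669568, 1886981215486200028575344638472354882366108875393646109639833837791596281435056767490924717912990716160679510135536704556281520149919757708045435920705213725611143462912, 9⟩
def a0c16 : Cert := (move 495 (branch (move 528 (branch (move 527 (leaf 492 0)) (move 496 (branch (move 529 (leaf 493 0)) (move 497 (leaf 493 1)))))) (branch (move 496 (branch (move 497 (leaf 493 1)) (move 464 (branch (move 463 (leaf 460 2)) (move 465 (leaf 461 2)))))) (move 527 (branch (move 528 (leaf 492 0)) (move 463 (branch (move 464 (leaf 460 2)) (move 431 (branch (move 399 (leaf 398 5)) (move 430 (branch (move 398 (leaf 398 7)) (move 462 (branch (move 559 (leaf 430 4)) (move 460 (branch (move 459 (leaf 459 3)) (move 432 (branch (move 461 (leaf 428 2)) (move 400 (leaf 399 6)))))))))))))))))))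
theorem a0p16 : a0e16.Valid :=
  pos_of_chk [] forall_nil a0c16 a0e16 (by decide +kernel)

def a0e17 : Pos := ⟨329510287762989358691697063434341007948329749536956207605068577044420714242840626355117422631826461427798601630014987845021544588264928353297742257660910108672, 13053247314504064191404446233862310017357532331760927482594515776642567713839538194501090917084309316711178532237137637625135147574442417192923759215802432336359304366511242623682049212416, 8⟩
def a0c17 : Cert := (move 557 (branch (move 462 (branch (move 430 (leaf 429 5)) (move 589 (leaf 461 6)))) (branch (move 589 (branch (move 621 (leaf 493 6)) (move 588 (branch (move 620 (leaf 492 5)) (move 461 (branch (move 556 (leaf 460 5)) (move 429 (branch (move 397 (leaf 397 4)) (move 428 (branch (move 396 (leaf 396 7)) (move 460 (leaf 428 7)))))))))))) (move 461 (branch (move 430 (branch (move 462 (leaf 429 5)) (move 429 (branch (move 397 (leaf 397 4)) (move 398 (leaf 397 6)))))) (branch (move 429 (branch (move 397 (leaf 397 4)) (move 428 (branch (move 396 (leaf 396 7)) (move 460 (leaf 428 7)))))) (move 462 (branch (move 430 (leaf 429 5)) (move 460 (branch (move 428 (leaf 428 7)) (move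 459 (branch (move 458 (leaf 458 0)) (move 491 (branch (move 490 (leaf 458 1)) (move 492 (branch (move 527 (leaf 491 0)) (move 463 (leaf 459 1))))))))))))))))))
theorem a0p17 : a0e17.Valid :=
  pos_of_chk [] forall_nil a0c17 a0e17 (by decide +kernel)

def a0e18 : Pos := ⟨329510287737415994567508455074862963441864131160263691620357133376582500429589581070705902671800913831502475402273685625274981533505418536533012624431780986880, 112126540679598223827677732953135535285641210717611681361970968152397394171256673607383275128875907703629918522608305575223819475467955925369976379474306533336026445328570132320519935754943435112448, 12⟩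
def a0c18 : Cert := (move 462 (branch (move 557 (branch (move 430 (leaf 429 5)) (move 589 (branch (move 558 (leaf 461 5)) (move 621 (leaf 493 6)))))) (branch (move 430 (branch (move 557 (leaf 429 5)) (move 398 (branch (move 493 (leaf 397 5)) (move 399 (branch (move 367 (leaf 366 6)) (move 431 (leaf 398 6)))))))) (branch (ref 0) (move 430 (branch (move 431 (branch (move 399 (leaf 398 6)) (move 527 (branch (move 559 (leaf 430 4)) (move 495 (branch (move 398 (leaf 398 4)) (move 463 (branch (move 558 (leaf 430 5)) (move 496 (branch (move 497 (leaf 493 1)) (move 432 (branch (move 400 (leaf 399 6)) (move 461 (branch (move 460 (leaf 460 0)) (move 433 (leaf 429 1)))))))))))))))) (branch (move 431 (branch (move 399 (leaf 398 6)) (move 558 (branch (move 463 (leaf 430 6)) (move 591 (branch (move 559 (leaf 462 4)) (move 590 (branch (move 623 (leaf 494 4)) (move 493 (branch (move 461 (leaf 461 7)) (move 622 (leaf 493 7)))))))))))) (branch (move 398 (branch (move 493 (leaf 397 5)) (move 367 (branch (move 399 (leaf 366 6)) (move 366 (branch (move 335 (leaf 334 6)) (move 365 (branch (move 333 (leaf 333 7)) (move 397 (leaf 365 7)))))))))) (move 398 (branch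 (move 493 (leaf 397 5)) (move 365 (branch (move 397 (leaf 365 7)) (move 366 (branch (move 333 (leaf 333 7)) (move 463 (branch (move 495 (leaf 366 4)) (move 431 (branch (move 334 (leaf 334 4)) (move 558 (leaf 430 6))))))))))))))))))))
theorem a0p18 : a0e18.Valid :=
  pos_of_chk [a0e13] (forall_cons a0p13 forall_nil) a0c18 a0e18 (by decide +kernel)

def a0e19 : Pos := ⟨329510287737415994567508455074862963441864131160263691620357133376582500429589581070705902671800913831502475402273685625274981533505418536533012624431780986880, 43510824387505339599520867121563126764063571734325889972217696306479454066230823051453561766326780433925569006326217794099086104107227793208761016879231334815168272249458632364252475686912, 10⟩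
def a0c19 : Cert := (move 462 (branch (move 557 (branch (move 430 (leaf 429 5)) (move 589 (branch (move 558 (leaf 461 5)) (move 621 (leaf 493 6)))))) (branch (move 430 (branch (move 557 (leaf 429 5)) (move 398 (branch (move 493 (leaf 397 5)) (move 397 (branch (move 365 (leaf 365 7)) (move 429 (leaf 397 7)))))))) (branch (move 558 (branch (move 461 (branch (move 429 (leaf 429 7)) (move 590 (branch (move 493 (leaf 461 7)) (move 591 (branch (move 559 (leaf 462 4)) (move 623 (leaf 494 4)))))))) (branch (move 557 (branch (move 589 (leaf 461 5)) (move 559 (branch (move 591 (leaf 462 4)) (move 560 (branch (move 561 (leaf 525 3)) (move 528 (branch (move 529 (leaf 525 2)) (move 556 (branch (move 527 (leaf 524 1)) (move 555 (branch (move 554 (leaf 522 2)) (move 587 (branch (move 586 (leaf 554 1)) (move 588 (leaf 555 1)))))))))))))))) (move 557 (branch (move 589 (leaf 461 5)) (move 461 (branch (move 429 (leaf 429 7)) (move 493 (branch (move 590 (leaf 461 4)) (move 460 (branch (move 428 (leaf 428 7)) (move 459 (branch (move 458 (leaf 458 0)) (move 495 (leaf 459 0))))))))))))))) (move 430 (branch (move 398 (branch (move 493 (leaf 397 5)) (move 367 (branch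 (move 399 (leaf 366 6)) (move 366 (branch (move 335 (leaf 334 6)) (move 365 (branch (move 333 (leaf 333 7)) (move 397 (leaf 365 7)))))))))) (branch (move 429 (branch (move 397 (leaf 397 7)) (move 558 (branch (move 461 (leaf 429 7)) (move 559 (branch (move 527 (leaf 430 4)) (move 591 (leaf 462 4)))))))) (move 398 (branch (move 493 (leaf 397 5)) (move 527 (branch (move 495 (leaf 398 4)) (move 559 (leaf 430 4)))))))))))))
theorem a0p19 : a0e19.Valid :=
  pos_of_chk [] forall_nil a0c19 a0e19 (by decide +kernel)

def a0e20 : Pos := ⟨943490606534895625797804639814575677804093268545974238254315266681763173974619713451121262365120594557168007589193436627216331782756179691645777099391186635344129818624, 37375513600476177366473842688124689826606866537813556043719475886335000182628546311877808784795094558559866662530723830353482730893344798021093511791638599374397825418746342865717623053413508972544, 7⟩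
def a0c20 : Cert := (move 590 (branch (move 591 (branch (move 623 (leaf 494 4)) (move 559 (branch (move 462 (leaf 462 4)) (move 589 (branch (move 621 (leaf 493 5)) (move 560 (branch (move 561 (leaf 557 1)) (move 588 (leaf 556 2)))))))))) (branch (move 495 (branch (move 463 (leaf 462 6)) (move 622 (branch (move 527 (leaf 494 6)) (move 621 (branch (move 589 (leaf 493 5)) (move 653 (leaf 525 5)))))))) (move 495 (branch (move 463 (leaf 462 6)) (move 527 (branch (move 622 (leaf 494 6)) (move 591 (branch (move 623 (leaf 494 4)) (move 559 (branch (move 462 (leaf 462 4)) (move 496 (branch (move 497 (leaf 493 1)) (move 464 (leaf 463 6)))))))))))))))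
theorem a0p20 : a0e20.Valid :=
  pos_of_chk [] forall_nil a0c20 a0e20 (by decide +kernel)

def a0e21 : Pos := ⟨943490606534895625797804639814575677804093268545974238254315266681763173974619713451121262365120594557168007589193436627216331782756179691645777099391186635344129818624, 37375513565667517860116606175290443094138605210965730621684213758092092337723459810770013010326695046603832749143495230790368945430011786412909256291650663461525656727566402405363296691379853328384, 9⟩
def a0c21 : Cert := (move 590 (branch (move 495 (branch (move 463 (leaf 462 6)) (move 622 (branch (move 527 (leaf 494 6)) (move 621 (branch (move 589 (leaf 493 5)) (move 653 (leaf 525 5)))))))) (branch (move 493 (branch (move 461 (leaf 461 7)) (move 495 (branch (move 463 (leaf 462 6)) (move 496 (branch (move 497 (leaf 493 1)) (move 528 (branch (move 529 (leaf 493 0)) (move 492 (branch (move 527 (leaf 492 0)) (move 491 (branch (move 490 (leaf 490 0)) (move 459 (branch (move 458 (leaf 458 3)) (move 460 (leaf 459 3)))))))))))))))) (move 493 (branch (move 461 (leaf 461 7)) (move 622 (leaf 493 7)))))))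
theorem a0p21 : a0e21.Valid :=
  pos_of_chk [] forall_nil a0c21 a0e21 (by decide +kernel)

def a0e22 : Pos := ⟨329510287737415994567508455074862963441864131160263691620357133376582500429589581070705902671800913831502475402273685625274981533505418536533012624431780986880, 37375513600476177367233641683278080007399746676416019400065928130419534819416010306900360519142479518572274483317589068892513027401752817372486390637225058222216521416535630447543999895716115775488, 10⟩
def a0c22 : Cert := (move 558 (branch (ref 0) (branch (ref 1) (branch (move 590 (branch (move 591 (branch (move 623 (leaf 494 4)) (move 559 (branch (move 462 (leaf 462 4)) (move 589 (branch (move 621 (leaf 493 5)) (move 560 (branch (move 561 (leaf 557 1)) (move 588 (leaf 556 2)))))))))) (move 493 (branch (move 461 (leaf 461 7)) (move 622 (leaf 493 7)))))) (branch (move 462 (branch (move 463 (branch (move 431 (leaf 430 6)) (move 495 (branch (move 590 (leaf 462 6)) (move 461 (branch (move 429 (leaf 429 7)) (move 496 (branch (move 460 (leaf 460 0)) (move 497 (leaf 493 1)))))))))) (branch (move 461 (branch (move 429 (leaf 429 7)) (move 590 (branch (move 493 (leaf 461 7)) (move 591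 (branch (move 559 (leaf 462 4)) (move 623 (leaf 494 4)))))))) (move 559 (branch (move 591 (leaf 462 4)) (move 430 (branch (move 527 (leaf 430 4)) (move 431 (branch (move 399 (leaf 398 6)) (move 463 (leaf 430 6))))))))))) (move 462 (branch (move 559 (branch (move 591 (leaf 462 4)) (move 430 (branch (move 527 (leaf 430 4)) (move 431 (branch (move 399 (leaf 398 6)) (move 463 (leaf 430 6)))))))) (branch (move 557 (branch (move 589 (leaf 461 5)) (move 559 (branch (move 591 (leaf 462 4)) (move 560 (branch (move 561 (leaf 525 3)) (move 528 (branch (move 529 (leaf 525 2)) (move 556 (branch (move 527 (leaf 524 1)) (move 555 (branch (move 554 (leaf 522 2)) (move 587 (branch (move 586 (leaf 554 1)) (move 588 (leaf 555 1)))))))))))))))) (ref 2)))))))))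
theorem a0p22 : a0e22.Valid :=
  pos_of_chk [a0e20, a0e21, a0e7] (forall_cons a0p20 (forall_cons a0p21 (forall_cons a0p7 forall_nil))) a0c22 a0e22 (by decide +kernel)

def a0e23 : Pos := ⟨943490606534895625797804639826484203462952491840734359522752332972613234028120732550773197788496188653617919164969750802110634040903712845642842158654217548427352342528, 8104522597357670587580746638210244800722995936254340713446642488376052845149503489859841303921297229479948498048114597596642291231933021001411041300396179399765814198339117252608, 11⟩
def a0c23 : Cert := (move 496 (branch (move 461 (branch (move 429 (leaf 429 7)) (move 463 (branch (move 431 (leaf 430 6)) (move 464 (branch (move 497 (leaf 461 0)) (move 493 (branch (move 492 (leaf 460 1)) (move 465 (leaf 461 1)))))))))) (branch (move 461 (branch (move 429 (leaf 429 7)) (move 463 (branch (move 431 (leaf 430 6)) (move 460 (branch (move 495 (leaf 460 0)) (move 492 (branch (move 491 (leaf 459 1)) (move 493 (branch (move 464 (leaf 460 1)) (move 428 (branch (move 427 (leaf 427 3)) (move 396 (leaf 396 4)))))))))))))) (branch (move 495 (branch (move 497 (leaf 493 1)) (move 461 (branch (move 429 (leaf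 429 7)) (move 460 (branch (move 459 (leaf 459 0)) (move 493 (leaf 460 3)))))))) (branch (move 497 (branch (move 495 (leaf 493 1)) (move 463 (branch (move 431 (leaf 430 6)) (move 461 (branch (move 464 (leaf 461 0)) (move 429 (leaf 429 7)))))))) (move 464 (branch (move 463 (branch (move 431 (leaf 430 6)) (move 465 (branch (move 493 (leaf 461 1)) (move 497 (branch (move 498 (leaf 462 0)) (move 433 (branch (move 434 (leaf 430 2)) (move 528 (branch (move 527 (leaf 493 2)) (move 401 (leaf 400 5)))))))))))) (branch (move 495 (branch (move 497 (leaf 493 1)) (move 559 (branch (move 591 (leaf 462 4)) (move 493 (branch (move 465 (leaf 461 2)) (move 528 (branch (move 529 (leaf 493 0)) (move 527 (branch (move 492 (leaf 492 0)) (move 432 (leaf 431 5)))))))))))) (branch (move 463 (branch (move 431 (leaf 430 6)) (move 493 (branch (move 465 (leaf 461 1)) (move 492 (branch (move 491 (leaf 459 2)) (move 495 (leaf 460 2)))))))) (branch (move 495 (branch (move 497 (leaf 493 1)) (move 463 (branch (move 431 (leaf 430 6)) (move 559 (branch (move 591 (leaf 462 4)) (move 432 (branch (move 527 (leaf 431 6)) (move 400 (branch (move 368 (leaf 367 5)) (move 493 (branch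 (move 492 (leaf 460 2)) (move 528 (branch (move 529 (leaf 493 0)) (move 401 (branch (move 369 (leaf 368 6)) (move 433 (leaf 400 6)))))))))))))))))) (move 497 (branch (move 495 (leaf 493 1)) (move 528 (branch (move 527 (leaf 493 2)) (move 463 (branch (move 431 (leaf 430 6)) (move 465 (branch (move 498 (leaf 462 0)) (move 433 (branch (move 434 (leaf 430 2)) (move 401 (leaf 400 5))))))))))))))))))))))
theorem a0p23 : a0e23.Valid :=
  pos_of_chk [] forall_nil a0c23 a0e23 (by decide +kernel)

def a0e24 : Pos := ⟨329510287737415994567508455074862963441864131160263691620357133376582500429589581070705902671800913831502475402273685625274981533505418536533012624431780986880, 37375513600476177366473842689068180435448334178230396529332914572253237395527184000650316004268034432374153968266502921800461258208812650647349494800487356775296553589260030596246913202058673782784, 13⟩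
def a0c24 : Cert := (move 558 (branch (ref 0) (branch (ref 1) (branch (move 590 (branch (move 591 (branch (move 623 (leaf 494 4)) (move 559 (branch (move 462 (leaf 462 4)) (move 589 (branch (move 621 (leaf 493 5)) (move 560 (branch (move 561 (leaf 557 1)) (move 588 (leaf 556 2)))))))))) (move 493 (branch (move 461 (leaf 461 7)) (move 622 (leaf 493 7)))))) (move 462 (branch (move 559 (branch (move 591 (leaf 462 4)) (move 430 (branch (move 527 (leaf 430 4)) (move 431 (branch (move 399 (leaf 398 6)) (move 463 (leaf 430 6)))))))) (branch (move 559 (branch (move 591 (leaf 462 4)) (move 430 (branch (move 527 (leaf 430 4)) (move 429 (branch (move 397 (leaf 397 7)) (move 461 (leaf 429 7)))))))) (branch (move 429 (branch (move 461 (leaf 429 7)) (move 430 (branch (move 397 (leaf 397 7)) (move 431 (branch (move 399 (leaf 398 6)) (move 463 (leaf 430 6)))))))) (ref 2)))))))))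
theorem a0p24 : a0e24.Valid :=
  pos_of_chk [a0e20, a0e21, a0e23] (forall_cons a0p20 (forall_cons a0p21 (forall_cons a0p23 forall_nil))) a0c24 a0e24 (by decide +kernel)

def a0e25 : Pos := ⟨329510287686269266319131238355906874428932894406878659650934246040906072803087490501882862751749818638910222946791081185781855423986398903003553357973522743296, 112126540686124847485183031379769312956608325818632743571817490705050751936849011589475690155929877805757864433904326482275956264433302552660879879257853123886317883811522399740551974139150615969792, 14⟩
def a0c25 : Cert := (move 494 (branch (move 493 (branch (ref 0) (branch (ref 1) (branch (ref 2) (branch (ref 3) (move 558 (branch (move 461 (branch (move 429 (leaf 429 4)) (move 590 (leaf 461 7)))) (ref 4)))))))) (branch (ref 5) (branch (ref 6) (branch (ref 7) (branch (move 493 (branch (ref 0) (branch (ref 2) (branch (ref 3) (branch (move 558 (branch (move 461 (branch (move 429 (leaf 429 4)) (move 590 (leaf 461 7)))) (ref 4))) (branch (ref 8) (move 558 (branch (move 590 (branch (move 622 (leaf 493 7)) (move 495 (branch (move 463 (leaf 462 6)) (move 496 (branch (move 497 (leaf 493 1)) (move 591 (branch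 (move 623 (leaf 494 4)) (move 559 (branch (move 462 (leaf 462 4)) (move 464 (branch (move 465 (leaf 461 2)) (move 527 (leaf 463 6)))))))))))))) (branch (move 461 (branch (move 429 (leaf 429 4)) (move 590 (leaf 461 7)))) (ref 9)))))))))) (branch (move 462 (branch (ref 10) (branch (move 430 (branch (move 557 (leaf 429 5)) (move 398 (branch (move 493 (leaf 397 5)) (move 399 (branch (move 367 (leaf 366 6)) (move 431 (leaf 398 6)))))))) (branch (move 430 (branch (move 557 (leaf 429 5)) (move 398 (branch (move 493 (leaf 397 5)) (move 397 (branch (move 365 (leaf 365 7)) (move 429 (leaf 397 7)))))))) (ref 11))))) (branch (move 462 (branch (move 430 (branch (move 557 (leaf 429 5)) (move 399 (branch (move 431 (leaf 398 6)) (move 398 (branch (move 367 (leaf 366 6)) (move 397 (branch (move 365 (leaf 365 7)) (move 429 (leaf 397 7)))))))))) (branch (move 557 (branch (move 430 (leaf 429 5)) (move 589 (branch (move 558 (leaf 461 5)) (move 621 (leaf 493 6)))))) (branch (ref 12) (ref 13))))) (branch (move 493 (branch (ref 0) (branch (ref 14) (branch (move 492 (branch (move 491 (branch (move 490 (leaf 490 0)) (move 459 (branch (move 458 (leaf 458 3)) (move 460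 (branch (move 495 (leaf 459 3)) (move 523 (branch (move 522 (leaf 490 1)) (move 428 (branch (move 396 (leaf 396 4)) (move 555 (leaf 427 6)))))))))))) (branch (move 527 (branch (move 491 (leaf 491 0)) (move 528 (leaf 492 3)))) (ref 15)))) (branch (move 557 (branch (move 462 (branch (move 430 (leaf 429 5)) (move 589 (leaf 461 6)))) (branch (move 461 (branch (move 430 (branch (move 462 (leaf 429 5)) (move 429 (branch (move 397 (leaf 397 4)) (move 398 (leaf 397 6)))))) (branch (move 462 (branch (move 430 (leaf 429 5)) (move 460 (branch (move 428 (leaf 428 7)) (move 495 (branch (move 459 (leaf 459 0)) (move 496 (leaf 460 3)))))))) (move 429 (branch (move 397 (leaf 397 4)) (move 428 (branch (move 396 (leaf 396 7)) (move 460 (leaf 428 7))))))))) (move 589 (branch (move 621 (leaf 493 6)) (move 588 (branch (move 620 (leaf 492 5)) (move 461 (branch (move 556 (leaf 460 5)) (move 429 (branch (move 397 (leaf 397 4)) (move 428 (branch (move 396 (leaf 396 7)) (move 460 (leaf 428 7))))))))))))))) (ref 16)))))) (branch (ref 17) (branch (move 493 (branch (ref 0) (branch (ref 1) (branch (ref 2) (move 461 (branch (move 558 (branch (move 429 (leaf 429 4)) (move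 590 (leaf 461 7)))) (branch (move 557 (branch (move 589 (branch (move 621 (leaf 493 6)) (move 588 (branch (move 556 (leaf 460 5)) (move 620 (leaf 492 5)))))) (branch (move 558 (branch (move 590 (leaf 461 4)) (move 556 (branch (move 588 (leaf 460 5)) (move 527 (branch (move 528 (leaf 524 1)) (move 555 (leaf 523 2)))))))) (move 590 (branch (move 558 (leaf 461 4)) (move 589 (branch (move 622 (leaf 493 4)) (move 621 (leaf 493 6))))))))) (move 429 (branch (move 397 (leaf 397 4)) (move 430 (branch (move 398 (leaf 397 6)) (move 462 (branch (move 557 (leaf 429 5)) (move 428 (branch (move 396 (leaf 396 7)) (move 463 (branch (move 427 (leaf 427 0)) (move 464 (leaf 428 3))))))))))))))))))) (branch (ref 18) (branch (ref 19) (ref 20))))))))))))))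
theorem a0p25 : a0e25.Valid :=
  pos_of_chk [a0e0, a0e1, a0e2, a0e3, a0e4, a0e6, a0e8, a0e9, a0e11, a0e10, a0e5, a0e12, a0e13, a0e14, a0e15, a0e16, a0e17, a0e18, a0e19, a0e22, a0e24] (forall_cons a0p0 (forall_cons a0p1 (forall_cons a0p2 (forall_cons a0p3 (forall_cons a0p4 (forall_cons a0p6 (forall_cons a0p8 (forall_cons a0p9 (forall_cons a0p11 (forall_cons a0p10 (forall_cons a0p5 (forall_cons a0p12 (forall_cons a0p13 (forall_cons a0p14 (forall_cons a0p15 (forall_cons a0p16 (forall_cons a0p17 (forall_cons a0p18 (forall_cons a0p19 (forall_cons a0p22 (forall_cons a0p24 forall_nil))))))))))))))))))))) a0c25 a0e25 (by decide +kernel)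

def a0e26 : Pos := ⟨768857337934628288077972889497116040334176753616050205852179907428780836540537477837726679754082910157457186875845856100157662655968264107008291168604886401024, 8702164889505892041393582498489987673018305102039738987146148810456941215930473072331694986465764808953295407950518748746331730311600734496673657249366447502898735238668293774301403807744, 14⟩
def a0c26 : Cert := (move 528 (branch (move 561 (branch (move 560 (leaf 525 0)) (move 529 (branch (move 562 (leaf 526 0)) (move 497 (branch (move 496 (leaf 493 2)) (move 498 (leaf 494 2)))))))) (branch (move 557 (branch (move 556 (leaf 524 1)) (move 529 (branch (move 558 (leaf 525 1)) (move 561 (branch (move 560 (leaf 525 0)) (move 562 (leaf 526 0)))))))) (branch (move 557 (branch (move 556 (leaf 524 1)) (move 529 (branch (move 558 (leaf 525 1)) (move 497 (branch (move 496 (leaf 493 2)) (move 498 (leaf 494 2)))))))) (move 496 (branch (move 497 (leaf 493 2)) (move 464 (branch (move 560 (branch (move 561 (leaf 525 0)) (move 431 (branch (move 463 (leaf 431 7)) (move 432 (branch (move 399 (leaf 399 7)) (move 433 (branch (move 401 (leaf 400 6)) (move 465 (leaf 432 6)))))))))) (branch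 (move 432 (branch (move 559 (leaf 431 5)) (move 400 (branch (move 495 (leaf 399 5)) (move 399 (branch (move 367 (leaf 367 7)) (move 431 (leaf 399 7)))))))) (branch (move 559 (branch (move 432 (leaf 431 5)) (move 591 (branch (move 560 (leaf 463 5)) (move 495 (leaf 463 6)))))) (move 494 (branch (move 557 (branch (move 556 (leaf 524 1)) (move 462 (branch (move 430 (leaf 429 5)) (move 589 (branch (move 558 (leaf 461 5)) (move 621 (leaf 493 6)))))))) (branch (move 560 (branch (move 561 (leaf 525 0)) (move 559 (branch (move 591 (leaf 463 5)) (move 557 (branch (move 556 (leaf 524 1)) (move 463 (branch (move 431 (leaf 431 7)) (move 589 (branch (move 621 (leaf 493 6)) (move 558 (branch (move 588 (leaf 556 1)) (move 495 (branch (move 590 (leaf 462 5)) (move 465 (branch (move 466 (leaf 462 1)) (move 433 (leaf 432 6)))))))))))))))))) (move 560 (branch (move 561 (leaf 525 0)) (move 559 (branch (move 591 (leaf 463 5)) (move 463 (branch (move 431 (leaf 431 7)) (move 462 (branch (move 430 (leaf 430 4)) (move 465 (branch (move 433 (leaf 432 6)) (move 466 (branch (move 495 (leaf 462 1)) (move 499 (branch (move 498 (leaf 463 0)) (move 467 (branch (move 500 (leaf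 464 0)) (move 435 (branch (move 434 (leaf 431 2)) (move 436 (leaf 432 2)))))))))))))))))))))))))))))))))
theorem a0p26 : a0e26.Valid :=
  pos_of_chk [] forall_nil a0c26 a0e26 (by decide +kernel)

def a0e27 : Pos := ⟨823775719215673165797828095889767186072332236017196649127335615102265182007718726254707156879374546597275557366977702964454638559965997257508883394933806858240, 63090695354449375586898494709429027020816517399236760946294323198958485218816112879910488070835031263130079938965233391711931463024751763241778751965157506486906898389122126903233862434816, 11⟩
def a0c27 : Cert := (move 492 (branch (move 491 (leaf 491 3)) (move 460 (branch (move 556 (branch (move 555 (leaf 523 1)) (move 557 (branch (move 428 (leaf 428 4)) (move 589 (leaf 460 4)))))) (branch (move 428 (branch (move 557 (leaf 428 4)) (move 429 (branch (move 397 (leaf 396 6)) (move 395 (branch (move 427 (leaf 395 7)) (move 396 (branch (move 363 (leaf 363 7)) (move 430 (branch (move 431 (leaf 395 3)) (move 559 (branch (move 560 (leaf 524 0)) (move 495 (branch (move 496 (leaf 492 2)) (move 462 (branch (move 494 (leaf 430 4)) (move 463 (leaf 430 7)))))))))))))))))) (branch (move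 556 (branch (move 555 (leaf 523 1)) (move 495 (branch (move 496 (leaf 492 2)) (move 559 (branch (move 560 (leaf 524 0)) (move 429 (branch (move 461 (leaf 428 6)) (move 428 (branch (move 397 (leaf 396 6)) (move 427 (branch (move 395 (leaf 395 7)) (move 459 (leaf 427 7)))))))))))))) (move 556 (branch (move 555 (leaf 523 1)) (move 589 (branch (move 557 (leaf 460 4)) (move 588 (branch (move 621 (leaf 492 4)) (move 559 (branch (move 560 (leaf 524 0)) (move 495 (branch (move 496 (leaf 492 2)) (move 587 (branch (move 619 (leaf 491 5)) (move 590 (branch (move 558 (leaf 555 2)) (move 622 (branch (move 623 (leaf 587 0)) (move 591 (leaf 494 5))))))))))))))))))))))))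
theorem a0p27 : a0e27.Valid :=
  pos_of_chk [] forall_nil a0c27 a0e27 (by decide +kernel)

def a0e28 : Pos := ⟨329510287686269266319131238355906874428932894406878659650934246040906072803087490501882862751749818638910222946791081185781855423986398903003553357973522743296, 63090695354449375609601237424403918647695503705421291482988898172350757714803491923774996274881662396132775439145862063753356177825173359065452594125452130712300476809126504421548663767040, 15⟩
def a0c28 : Cert := (move 527 (branch (ref 0) (branch (move 524 (branch (move 555 (branch (move 556 (leaf 523 1)) (move 523 (branch (move 554 (leaf 522 1)) (move 491 (branch (move 490 (leaf 490 3)) (move 492 (leaf 491 3)))))))) (branch (move 559 (branch (move 560 (leaf 524 0)) (move 523 (branch (move 558 (leaf 523 0)) (move 491 (branch (move 490 (leaf 490 3)) (move 492 (leaf 491 3)))))))) (branch (move 559 (branch (move 560 (leaf 524 0)) (move 523 (branch (move 558 (leaf 523 0)) (move 555 (branch (move 554 (leaf 522 1)) (move 556 (leaf 523 1)))))))) (ref 1))))) (branch (move 524 (branch (move 555 (branch (move 556 (leaf 523 1)) (move 523 (branch (move 554 (leaf 522 1)) (move 491 (branch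 (move 490 (leaf 490 3)) (move 492 (leaf 491 3)))))))) (branch (move 559 (branch (move 560 (leaf 524 0)) (move 523 (branch (move 558 (leaf 523 0)) (move 491 (branch (move 490 (leaf 490 3)) (move 492 (leaf 491 3)))))))) (move 556 (branch (move 555 (leaf 523 1)) (move 528 (branch (move 557 (leaf 524 1)) (move 560 (branch (move 559 (leaf 524 0)) (move 561 (leaf 525 0))))))))))) (branch (move 524 (branch (move 559 (branch (move 560 (leaf 524 0)) (move 523 (branch (move 558 (leaf 523 0)) (move 491 (branch (move 490 (leaf 490 3)) (move 492 (leaf 491 3)))))))) (branch (move 560 (branch (move 559 (leaf 524 0)) (move 528 (branch (move 561 (leaf 525 0)) (move 496 (branch (move 495 (leaf 492 2)) (move 497 (leaf 493 2)))))))) (move 495 (branch (move 496 (leaf 492 2)) (move 523 (branch (move 494 (leaf 491 2)) (move 491 (branch (move 490 (leaf 490 3)) (move 492 (leaf 491 3))))))))))) (move 524 (branch (move 555 (branch (move 556 (leaf 523 1)) (move 523 (branch (move 554 (leaf 522 1)) (move 491 (branch (move 490 (leaf 490 3)) (move 492 (leaf 491 3)))))))) (branch (move 556 (branch (move 555 (leaf 523 1)) (move 528 (branch (move 557 (leaf 524 1)) (move 496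 (branch (move 495 (leaf 492 2)) (move 497 (leaf 493 2)))))))) (move 495 (branch (move 496 (leaf 492 2)) (move 523 (branch (move 494 (leaf 491 2)) (move 491 (branch (move 490 (leaf 490 3)) (move 492 (leaf 491 3))))))))))))))))
theorem a0p28 : a0e28.Valid :=
  pos_of_chk [a0e26, a0e27] (forall_cons a0p26 (forall_cons a0p27 forall_nil)) a0c28 a0e28 (by decide +kernel)

def a0e29 : Pos := ⟨384428668967314144038986444748558020167088376808025102926089953714390418270268738918863339877041455078728593437922928050078831327984132053504145584302443200512, 23359695969840033800419750611576826157319470680966652790962558052354287981479638573876123747881483510480650243449067766465137623265919250207812641380204525976159943986788038883580000615423071485952, 12⟩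
def a0c29 : Cert := (move 523 (branch (move 554 (branch (move 555 (leaf 522 1)) (move 522 (branch (move 553 (leaf 521 1)) (move 490 (branch (move 489 (leaf 489 3)) (move 491 (leaf 490 3)))))))) (branch (move 558 (branch (move 559 (leaf 523 0)) (move 522 (branch (move 557 (leaf 522 0)) (move 490 (branch (move 489 (leaf 489 3)) (move 491 (leaf 490 3)))))))) (branch (move 558 (branch (move 559 (leaf 523 0)) (move 522 (branch (move 557 (leaf 522 0)) (move 554 (branch (move 553 (leaf 521 1)) (move 555 (leaf 522 1)))))))) (move 491 (branch (move 490 (leaf 490 3)) (move 459 (branch (move 427 (branch (move 556 (leaf 427 4)) (move 395 (branch (move 492 (leaf 395 4)) (move 396 (branch (move 364 (leaf 363 6)) (move 428 (leaf 395 6)))))))) (branch (move 555 (branch (move 554 (leaf 522 1)) (move 460 (branch (move 428 (leaf 427 6)) (move 587 (branch (move 492 (leaf 459 6)) (move 426 (branch (move 458 (leaf 426 7)) (move 427 (branch (move 394 (leaf 394 7)) (move 620 (branch (move 588 (leaf 491 4)) (move 619 (branch (move 652 (leaf 523 4)) (move 618 (branch (move 586 (leaf 490 5)) (move 650 (leaf 522 5)))))))))))))))))) (branch (move 555 (branch (move 554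 (leaf 522 1)) (move 556 (branch (move 588 (leaf 459 4)) (move 460 (branch (move 428 (leaf 427 6)) (move 492 (branch (move 587 (leaf 459 5)) (move 557 (branch (move 589 (leaf 460 4)) (move 558 (branch (move 559 (leaf 523 0)) (move 461 (branch (move 429 (leaf 428 6)) (move 590 (branch (move 591 (leaf 555 0)) (move 493 (leaf 461 4)))))))))))))))))) (move 555 (branch (move 554 (leaf 522 1)) (move 556 (branch (move 427 (leaf 427 4)) (move 588 (leaf 459 4))))))))))))))))
theorem a0p29 : a0e29.Valid :=
  pos_of_chk [] forall_nil a0c29 a0e29 (by decide +kernel)

def a0e30 : Pos := ⟨384428668967314144038986444748558020167088376808025102926089953714390418270268738918863339877041455078728593437922928050078831327984132053504145584302443200512, 14963171335915448430757370651986239906226069126779865509636503650635485608189037815516853603137641659242801931882038090903266460637742254120452240160624314536751404154880, 8⟩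
def a0c30 : Cert := (move 523 (branch (move 558 (branch (move 559 (leaf 523 0)) (move 522 (branch (move 557 (leaf 522 0)) (move 553 (branch (move 554 (leaf 521 1)) (move 521 (branch (move 552 (leaf 520 1)) (move 489 (branch (move 488 (leaf 488 3)) (move 490 (leaf 489 3)))))))))))) (branch (move 491 (branch (move 490 (leaf 490 3)) (move 527 (branch (move 492 (leaf 491 3)) (move 496 (branch (move 495 (leaf 492 2)) (move 528 (branch (move 497 (leaf 493 2)) (move 560 (branch (move 559 (leaf 524 0)) (move 561 (leaf 525 0)))))))))))) (branch (move 558 (branch (move 559 (leaf 523 0)) (move 522 (branch (move 557 (leaf 522 0)) (move 553 (branch (move 554 (leaf 521 1)) (move 521 (branch (move 552 (leaf 520 1)) (move 492 (branch (move 493 (leaf 489 2)) (move 491 (branch (move 520 (leaf 488 2)) (move 527 (leaf 491 3)))))))))))))) (move 491 (branch (move 490 (leaf 490 3)) (move 527 (branch (move 492 (leaf 491 3)) (move 496 (branch (move 495 (leaf 492 2)) (move 528 (branch (move 497 (leaf 493 2)) (move 557 (branch (move 556 (leaf 524 1)) (move 558 (branch (move 522 (leaf 522 0)) (move 529 (leaf 525 1))))))))))))))))))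
theorem a0p30 : a0e30.Valid :=
  pos_of_chk [] forall_nil a0c30 a0e30 (by decide +kernel)

def a0e31 : Pos := ⟨384428668967314144038986444748558020167088376808025102926089953714390418270268738918863339877041455078728593437922928050078831327984132053504145584302443200512, 15081107659930300998146664453531935689473758976801954286377290357035236459563983766429856956682286787968765016956554736285922172436349128622463323663718071173293459636224, 7⟩
def a0c31 : Cert := (move 523 (branch (move 558 (branch (move 559 (leaf 523 0)) (move 522 (branch (move 557 (leaf 522 0)) (move 553 (branch (move 554 (leaf 521 1)) (move 521 (branch (move 552 (leaf 520 1)) (move 489 (branch (move 488 (leaf 488 3)) (move 490 (leaf 489 3)))))))))))) (branch (move 555 (branch (move 554 (leaf 522 1)) (move 527 (branch (move 556 (leaf 523 1)) (move 496 (branch (move 495 (leaf 492 2)) (move 528 (branch (move 497 (leaf 493 2)) (move 560 (branch (move 559 (leaf 524 0)) (move 561 (leaf 525 0)))))))))))) (branch (move 554 (branch (move 555 (leaf 522 1)) (move 522 (branch (move 553 (leaf 521 1)) (move 557 (branch (move 558 (leaf 522 0)) (move 521 (branch (move 556 (leaf 521 0)) (move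 489 (branch (move 488 (leaf 488 3)) (move 490 (leaf 489 3)))))))))))) (move 559 (branch (move 558 (leaf 523 0)) (move 527 (branch (move 560 (leaf 524 0)) (move 556 (branch (move 555 (leaf 523 1)) (move 528 (branch (move 557 (leaf 524 1)) (move 496 (branch (move 495 (leaf 492 2)) (move 497 (leaf 493 2))))))))))))))))
theorem a0p31 : a0e31.Valid :=
  pos_of_chk [] forall_nil a0c31 a0e31 (by decide +kernel)

def a0e32 : Pos := ⟨329510287686269266319131238355906874428932894406878659650934246040906072803087490501882862751749818638910222946791081185781855423986398903003553357973522743296, 70079087955206466959474732879795930875642880659226746589228500285302979232363905286742116738068408101020623473208605004482141329508736700935108102182827515562014289568825248311157702917840600825856, 13⟩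
def a0c32 : Cert := (move 524 (branch (ref 0) (branch (move 523 (branch (move 554 (branch (move 555 (leaf 522 1)) (move 522 (branch (move 553 (leaf 521 1)) (move 490 (branch (move 489 (leaf 489 3)) (move 491 (leaf 490 3)))))))) (branch (move 558 (branch (move 559 (leaf 523 0)) (move 522 (branch (move 557 (leaf 522 0)) (move 554 (branch (move 553 (leaf 521 1)) (move 555 (leaf 522 1)))))))) (move 491 (branch (move 490 (leaf 490 3)) (move 527 (branch (move 492 (leaf 491 3)) (move 496 (branch (move 495 (leaf 492 2)) (move 528 (branch (move 497 (leaf 493 2)) (move 560 (branch (move 559 (leaf 524 0)) (move 561 (leaf 525 0))))))))))))))) (branch (move 527 (branch (move 492 (branch (move 491 (leaf 491 3)) (move 528 (branch (move 493 (leaf 492 3)) (move 560 (branch (move 559 (leaf 524 0)) (move 561 (leaf 525 0)))))))) (branch (move 556 (branch (move 555 (leaf 523 1)) (move 528 (branch (move 557 (leaf 524 1)) (move 560 (branch (move 559 (leaf 524 0)) (move 561 (leaf 525 0)))))))) (branch (move 556 (branch (move 555 (leaf 523 1)) (move 492 (branch (move 491 (leaf 491 3)) (move 528 (branch (move 557 (leaf 524 1)) (move 493 (leaf 492 3)))))))) (move 492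 (branch (move 491 (leaf 491 3)) (move 460 (branch (move 428 (branch (move 557 (leaf 428 4)) (move 396 (branch (move 493 (leaf 396 4)) (move 397 (branch (move 365 (leaf 364 6)) (move 429 (leaf 396 6)))))))) (branch (move 556 (branch (move 555 (leaf 523 1)) (move 461 (branch (move 429 (leaf 428 6)) (move 588 (branch (move 493 (leaf 460 6)) (move 427 (branch (move 459 (leaf 427 7)) (move 428 (branch (move 395 (leaf 395 7)) (move 621 (branch (move 589 (leaf 492 4)) (move 620 (branch (move 653 (leaf 524 4)) (move 619 (branch (move 587 (leaf 491 5)) (move 651 (leaf 523 5)))))))))))))))))) (move 556 (branch (move 555 (leaf 523 1)) (move 589 (branch (move 557 (leaf 460 4)) (move 588 (branch (move 621 (leaf 492 4)) (move 559 (branch (move 560 (leaf 524 0)) (move 495 (branch (move 496 (leaf 492 2)) (move 587 (branch (move 619 (leaf 491 5)) (move 590 (branch (move 558 (leaf 555 2)) (move 622 (branch (move 623 (leaf 587 0)) (move 591 (leaf 494 5))))))))))))))))))))))))))) (branch (move 523 (branch (move 554 (branch (move 555 (leaf 522 1)) (move 522 (branch (move 553 (leaf 521 1)) (move 490 (branch (move 489 (leaf 489 3)) (move 491 (leaf 490 3)))))))) (branch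 (move 491 (branch (move 490 (leaf 490 3)) (move 527 (branch (move 492 (leaf 491 3)) (move 496 (branch (move 495 (leaf 492 2)) (move 528 (branch (move 497 (leaf 493 2)) (move 560 (branch (move 559 (leaf 524 0)) (move 561 (leaf 525 0)))))))))))) (move 555 (branch (move 554 (leaf 522 1)) (move 527 (branch (move 556 (leaf 523 1)) (move 496 (branch (move 495 (leaf 492 2)) (move 528 (branch (move 497 (leaf 493 2)) (move 560 (branch (move 559 (leaf 524 0)) (move 561 (leaf 525 0))))))))))))))) (branch (ref 1) (branch (ref 2) (move 523 (branch (move 554 (branch (move 555 (leaf 522 1)) (move 522 (branch (move 553 (leaf 521 1)) (move 490 (branch (move 489 (leaf 489 3)) (move 491 (leaf 490 3)))))))) (branch (move 491 (branch (move 490 (leaf 490 3)) (move 527 (branch (move 492 (leaf 491 3)) (move 496 (branch (move 495 (leaf 492 2)) (move 528 (branch (move 497 (leaf 493 2)) (move 557 (branch (move 556 (leaf 524 1)) (move 558 (branch (move 522 (leaf 522 0)) (move 529 (leaf 525 1)))))))))))))) (branch (move 554 (branch (move 555 (leaf 522 1)) (move 522 (branch (move 553 (leaf 521 1)) (move 557 (branch (move 558 (leaf 522 0)) (move 521 (branch (move 556 (leaf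 521 0)) (move 489 (branch (move 488 (leaf 488 3)) (move 490 (leaf 489 3)))))))))))) (move 555 (branch (move 554 (leaf 522 1)) (move 527 (branch (move 556 (leaf 523 1)) (move 492 (branch (move 491 (leaf 491 3)) (move 528 (branch (move 493 (leaf 492 3)) (move 496 (branch (move 495 (leaf 492 2)) (move 497 (leaf 493 2)))))))))))))))))))))))
theorem a0p32 : a0e32.Valid :=
  pos_of_chk [a0e29, a0e30, a0e31] (forall_cons a0p29 (forall_cons a0p30 (forall_cons a0p31 forall_nil))) a0c32 a0e32 (by decide +kernel)

def a0e33 : Pos := ⟨384428668967314144038986444748558020167088376808025102926089953714390418270268738918863339877041455078728593437922928050078831327984132053504145584302443200512, 23359695969840033786236836066200902634435165432558084251962428077268142486127574552651992114328371067501456850209778105758393414335285946916115388033099598026950325677643652858042653392053523709952, 12⟩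
def a0c33 : Cert := (move 523 (branch (move 494 (branch (move 495 (leaf 491 2)) (move 522 (branch (move 493 (leaf 490 2)) (move 554 (branch (move 553 (leaf 521 1)) (move 555 (leaf 522 1)))))))) (branch (move 494 (branch (move 495 (leaf 491 2)) (move 522 (branch (move 493 (leaf 490 2)) (move 490 (branch (move 489 (leaf 489 3)) (move 491 (leaf 490 3)))))))) (move 491 (branch (move 490 (leaf 490 3)) (move 459 (branch (move 427 (branch (move 556 (leaf 427 4)) (move 395 (branch (move 492 (leaf 395 4)) (move 396 (branch (move 364 (leaf 363 6)) (move 428 (leaf 395 6)))))))) (branch (move 555 (branch (move 554 (leaf 522 1)) (move 460 (branch (move 428 (leaf 427 6)) (move 587 (branch (move 492 (leaf 459 6)) (move 426 (branch (move 458 (leaf 426 7)) (move 427 (branch (move 394 (leaf 394 7)) (move 620 (branch (move 588 (leaf 491 4)) (move 619 (branch (move 652 (leaf 523 4)) (move 618 (branch (move 586 (leaf 490 5)) (move 650 (leaf 522 5)))))))))))))))))) (branch (move 555 (branch (move 554 (leaf 522 1)) (move 556 (branch (move 427 (leaf 427 4)) (move 588 (leaf 459 4)))))) (move 555 (branch (move 554 (leaf 522 1)) (move 588 (branch (move 556 (leaf 459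 4)) (move 587 (branch (move 620 (leaf 491 4)) (move 492 (branch (move 460 (leaf 459 6)) (move 619 (leaf 491 6)))))))))))))))))))
theorem a0p33 : a0e33.Valid :=
  pos_of_chk [] forall_nil a0c33 a0e33 (by decide +kernel)

def a0e34 : Pos := ⟨384428668967314144038986444748558020167088376808025102926089953714390418270268738918863339877041455078728593437922928050078831327984132053504145584302443200512, 4052261304752556070180362592802783252478170936881589318664113247262463584330406207705395644959163407650802530626483485993402893945083074311297508853778374927866698282315970248704, 6⟩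
def a0c34 : Cert := (move 523 (branch (move 555 (branch (move 554 (leaf 522 1)) (move 527 (branch (move 556 (leaf 523 1)) (move 495 (branch (move 494 (leaf 491 2)) (move 496 (leaf 492 2)))))))) (branch (move 555 (branch (move 554 (leaf 522 1)) (move 527 (branch (move 556 (leaf 523 1)) (move 559 (branch (move 558 (leaf 523 0)) (move 560 (leaf 524 0)))))))) (move 494 (branch (move 495 (leaf 491 2)) (move 493 (branch (move 522 (leaf 490 2)) (move 558 (branch (move 559 (leaf 523 0)) (move 461 (branch (move 429 (leaf 429 4)) (move 590 (leaf 461 7)))))))))))))
theorem a0p34 : a0e34.Valid :=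
  pos_of_chk [] forall_nil a0c34 a0e34 (by decide +kernel)

def a0e35 : Pos := ⟨384428668967314144038986444748558020167088376808025102926089953714390418270268738918863339877041455078728593437922928050078831327984132053504145584302443200512, 7046695465577007579871645403104193196031647033179994350596878313633155786298176783042323523270374704827661251222692726784701519382298640767428008536444103155531967889408, 5⟩
def a0c35 : Cert := (move 523 (branch (move 554 (branch (move 555 (leaf 522 1)) (move 522 (branch (move 553 (leaf 521 1)) (move 490 (branch (move 489 (leaf 489 3)) (move 491 (leaf 490 3)))))))) (branch (move 555 (branch (move 554 (leaf 522 1)) (move 527 (branch (move 556 (leaf 523 1)) (move 559 (branch (move 558 (leaf 523 0)) (move 560 (leaf 524 0)))))))) (move 491 (branch (move 490 (leaf 490 3)) (move 527 (branch (move 492 (leaf 491 3)) (move 559 (branch (move 558 (leaf 523 0)) (move 560 (leaf 524 0)))))))))))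
theorem a0p35 : a0e35.Valid :=
  pos_of_chk [] forall_nil a0c35 a0e35 (by decide +kernel)

def a0e36 : Pos := ⟨384428668967314144038986444748558020167088376808025102926089953714390418270268738918863339877041455078728593437922928050078831327984132053504145584302443200512, 12156783907358393152540641135620559739615657360429697593737797140881183906968161735747586898957400077436718811007066955085409942982566426977964877752236637727648639485616014229504, 9⟩
def a0c36 : Cert := (move 527 (branch (move 492 (branch (move 491 (leaf 491 3)) (move 528 (branch (move 493 (leaf 492 3)) (move 560 (branch (move 559 (leaf 524 0)) (move 561 (leaf 525 0)))))))) (branch (move 560 (branch (move 559 (leaf 524 0)) (move 528 (branch (move 561 (leaf 525 0)) (move 496 (branch (move 495 (leaf 492 2)) (move 497 (leaf 493 2)))))))) (branch (move 492 (branch (move 491 (leaf 491 3)) (move 528 (branch (move 493 (leaf 492 3)) (move 496 (branch (move 495 (leaf 492 2)) (move 497 (leaf 493 2)))))))) (move 495 (branch (move 496 (leaf 492 2)) (move 463 (branch (move 431 (branch (move 558 (leaf 430 5)) (move 399 (branch (move 494 (leaf 398 5)) (move 398 (branch (move 366 (leaf 366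 7)) (move 430 (leaf 398 7)))))))) (branch (move 559 (branch (move 560 (leaf 524 0)) (move 462 (branch (move 430 (leaf 430 7)) (move 494 (branch (move 591 (leaf 462 7)) (move 492 (branch (move 491 (leaf 491 3)) (move 464 (branch (move 493 (leaf 460 2)) (move 432 (leaf 431 6)))))))))))) (move 559 (branch (move 560 (leaf 524 0)) (move 558 (branch (move 431 (leaf 430 5)) (move 590 (leaf 462 5)))))))))))))))
theorem a0p36 : a0e36.Valid :=
  pos_of_chk [] forall_nil a0c36 a0e36 (by decide +kernel)

def a0e37 : Pos := ⟨384428668967314144038986444748558020167088376808025102926089953714390418270268738918863339877041455078728593437922928050078831327984132053504145584302443200512, 8104522609505112140745153854572880648995328318511736657495314871332952271586902369125181708188595554220468401130008427065534381328089076672673849035540881909237542148934383697920, 6⟩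
def a0c37 : Cert := (move 527 (branch (move 556 (branch (move 555 (leaf 523 1)) (move 528 (branch (move 557 (leaf 524 1)) (move 560 (branch (move 559 (leaf 524 0)) (move 561 (leaf 525 0)))))))) (branch (move 556 (branch (move 555 (leaf 523 1)) (move 528 (branch (move 557 (leaf 524 1)) (move 496 (branch (move 495 (leaf 492 2)) (move 497 (leaf 493 2)))))))) (move 495 (branch (move 496 (leaf 492 2)) (move 494 (branch (move 523 (leaf 491 2)) (move 559 (branch (move 560 (leaf 524 0)) (move 462 (branch (move 430 (leaf 430 4)) (move 591 (leaf 462 7)))))))))))))
theorem a0p37 : a0e37.Valid :=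
  pos_of_chk [] forall_nil a0c37 a0e37 (by decide +kernel)

def a0e38 : Pos := ⟨384428668967314144038986444748558020167088376808025102926089953714390418270268738918863339877041455078728593437922928050078831327984132053504145584302443200512, 13208868488220895075046191519053905566287540010685942403901883858113676673285230511544761192778444574690598735015162557691181302634434381232368857476654702757009925603328, 5⟩
def a0c38 : Cert := (move 527 (branch (move 492 (branch (move 491 (leaf 491 3)) (move 528 (branch (move 493 (leaf 492 3)) (move 560 (branch (move 559 (leaf 524 0)) (move 561 (leaf 525 0)))))))) (branch (move 560 (branch (move 559 (leaf 524 0)) (move 528 (branch (move 561 (leaf 525 0)) (move 496 (branch (move 495 (leaf 492 2)) (move 497 (leaf 493 2)))))))) (move 495 (branch (move 496 (leaf 492 2)) (move 523 (branch (move 494 (leaf 491 2)) (move 491 (branch (move 490 (leaf 490 3)) (move 492 (leaf 491 3)))))))))))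
theorem a0p38 : a0e38.Valid :=
  pos_of_chk [] forall_nil a0c38 a0e38 (by decide +kernel)

def a0e39 : Pos := ⟨823775719215673165797828095889767186072332236017196649127335615102265182007718726254707156879374546597275557366977702964454638559965997257508883394933806858240, 46719391939680067572473672132342837105900116709204603128762967550449103980925082140438104552018621554147095086292767594168102475304438136014964752286096616518692409465928857418353976499570196086784, 11⟩
def a0c39 : Cert := (move 492 (branch (move 491 (leaf 491 3)) (move 460 (branch (move 428 (branch (move 557 (leaf 428 4)) (move 396 (branch (move 493 (leaf 396 4)) (move 397 (branch (move 365 (leaf 364 6)) (move 429 (leaf 396 6)))))))) (branch (move 556 (branch (move 555 (leaf 523 1)) (move 461 (branch (move 429 (leaf 428 6)) (move 588 (branch (move 493 (leaf 460 6)) (move 427 (branch (move 459 (leaf 427 7)) (move 428 (branch (move 395 (leaf 395 7)) (move 621 (branch (move 589 (leaf 492 4)) (move 620 (branch (move 653 (leaf 524 4)) (move 619 (branch (move 587 (leaf 491 5)) (move 651 (leaf 523 5)))))))))))))))))) (branch (move 556 (branch (move 555 (leaf 523 1)) (move 557 (branch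 (move 428 (leaf 428 4)) (move 589 (leaf 460 4)))))) (move 556 (branch (move 555 (leaf 523 1)) (move 589 (branch (move 557 (leaf 460 4)) (move 588 (branch (move 621 (leaf 492 4)) (move 493 (branch (move 461 (leaf 460 6)) (move 620 (leaf 492 6))))))))))))))))
theorem a0p39 : a0e39.Valid :=
  pos_of_chk [] forall_nil a0c39 a0e39 (by decide +kernel)

def a0e40 : Pos := ⟨329510287762989358691697063434341007948329749536956207605068577044420714242840626355117422631826461427798601630014987845021544588264928353297742257660910108672, 2026130649339417649201758673700088144967050849600038056978132259930790791123136679705483104336283055282798211307103213519585145172545441143876560228654306240063281622195143442432, 7⟩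
def a0c40 : Cert := (move 492 (branch (move 527 (branch (move 491 (leaf 491 0)) (move 528 (leaf 492 3)))) (branch (move 495 (branch (move 460 (branch (move 459 (leaf 459 3)) (move 557 (branch (move 589 (leaf 460 7)) (move 428 (branch (move 396 (leaf 396 4)) (move 461 (leaf 428 7)))))))) (move 528 (branch (move 527 (leaf 492 0)) (move 496 (branch (move 529 (leaf 493 0)) (move 497 (leaf 493 1)))))))) (move 491 (branch (move 490 (leaf 490 0)) (move 459 (branch (move 458 (leaf 458 3)) (move 495 (branch (move 460 (leaf 459 3)) (move 496 (branch (move 497 (leaf 493 1)) (move 464 (branch (move 463 (leaf 460 2)) (move 465 (leaf 461 2)))))))))))))))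
theorem a0p40 : a0e40.Valid :=
  pos_of_chk [] forall_nil a0c40 a0e40 (by decide +kernel)

def a0e41 : Pos := ⟨329510287762989358691697063434341007948329749536956207605068577044420714242840626355117422631826461427798601630014987845021544588264928353297742257660910108672, 13053247314504064191404446233477881348674721863578977971673753853563821028886544155532623545521272422251713128848432988601242302040334418147399109654317416524135737881925737157826334162944, 7⟩
def a0c41 : Cert := (move 557 (branch (move 462 (branch (move 430 (leaf 429 5)) (move 589 (leaf 461 6)))) (branch (move 461 (branch (move 556 (branch (move 588 (leaf 460 5)) (move 429 (branch (move 397 (leaf 397 4)) (move 524 (leaf 428 5)))))) (move 462 (branch (move 430 (leaf 429 5)) (move 460 (branch (move 428 (leaf 428 7)) (move 495 (branch (move 459 (leaf 459 0)) (move 496 (leaf 460 3)))))))))) (move 589 (branch (move 621 (leaf 493 6)) (move 588 (branch (move 620 (leaf 492 5)) (move 461 (branch (move 556 (leaf 460 5)) (move 429 (branch (move 397 (leaf 397 4)) (move 428 (branch (move 396 (leaf 396 7)) (move 460 (leaf 428 7)))))))))))))))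
theorem a0p41 : a0e41.Valid :=
  pos_of_chk [] forall_nil a0c41 a0e41 (by decide +kernel)

def a0e42 : Pos := ⟨329510287686269266319131238355906874428932894406878659650934246040906072803087490501882862751749818638910222946791081185781855423986398903003553357973522743296, 112126540686124847485183031379769312956622055413953004791247454506648914723283550460075976766748666732676235520271121794380201383714625461770834471880636085602392127787521833028177122195732846084096, 14⟩
def a0c42 : Cert := (move 494 (branch (ref 0) (branch (ref 1) (branch (ref 2) (branch (move 462 (branch (ref 3) (branch (move 430 (branch (move 557 (leaf 429 5)) (move 398 (branch (move 493 (leaf 397 5)) (move 399 (branch (move 367 (leaf 366 6)) (move 431 (leaf 398 6)))))))) (branch (move 430 (branch (move 557 (leaf 429 5)) (move 398 (branch (move 493 (leaf 397 5)) (move 397 (branch (move 365 (leaf 365 7)) (move 429 (leaf 397 7)))))))) (ref 4))))) (branch (move 462 (branch (move 430 (branch (move 557 (leaf 429 5)) (move 399 (branch (move 431 (leaf 398 6)) (move 398 (branch (move 367 (leaf 366 6)) (move 397 (branch (move 365 (leaf 365 7)) (move 429 (leaf 397 7)))))))))) (branch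 (move 557 (branch (move 430 (leaf 429 5)) (move 589 (branch (move 558 (leaf 461 5)) (move 621 (leaf 493 6)))))) (branch (ref 5) (ref 6))))) (branch (ref 7) (branch (ref 8) (branch (ref 9) (branch (ref 10) (branch (move 493 (branch (ref 11) (branch (ref 12) (branch (move 558 (branch (move 461 (branch (move 429 (leaf 429 4)) (move 590 (leaf 461 7)))) (ref 13))) (branch (ref 14) (branch (move 558 (branch (move 590 (branch (move 622 (leaf 493 7)) (move 495 (branch (move 463 (leaf 462 6)) (move 496 (branch (move 497 (leaf 493 1)) (move 591 (branch (move 623 (leaf 494 4)) (move 559 (branch (move 462 (leaf 462 4)) (move 464 (branch (move 465 (leaf 461 2)) (move 527 (leaf 463 6)))))))))))))) (branch (move 461 (branch (move 429 (leaf 429 4)) (move 590 (leaf 461 7)))) (ref 15)))) (ref 16))))))) (branch (move 493 (branch (ref 17) (branch (ref 18) (branch (ref 19) (branch (ref 16) (move 492 (branch (move 527 (branch (move 491 (leaf 491 0)) (move 528 (leaf 492 3)))) (branch (ref 20) (move 491 (branch (move 490 (leaf 490 0)) (move 459 (branch (move 458 (leaf 458 3)) (move 495 (branch (move 460 (leaf 459 3)) (move 496 (branch (move 497 (leaf 493 1)) (move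 464 (branch (move 463 (leaf 460 2)) (move 465 (leaf 461 2)))))))))))))))))))) (branch (move 493 (branch (move 557 (branch (move 589 (branch (move 621 (leaf 493 6)) (move 588 (branch (move 620 (leaf 492 5)) (move 556 (branch (move 461 (leaf 460 5)) (move 555 (branch (move 554 (leaf 522 2)) (move 590 (branch (move 591 (leaf 555 3)) (move 622 (leaf 493 4)))))))))))) (branch (move 462 (branch (move 430 (leaf 429 5)) (move 589 (leaf 461 6)))) (move 461 (branch (move 556 (branch (move 588 (leaf 460 5)) (move 429 (branch (move 397 (leaf 397 4)) (move 524 (leaf 428 5)))))) (branch (move 462 (branch (move 430 (leaf 429 5)) (move 556 (branch (move 588 (leaf 460 5)) (move 527 (branch (move 528 (leaf 524 1)) (move 555 (branch (move 524 (leaf 523 1)) (move 554 (leaf 522 2)))))))))) (move 430 (branch (move 462 (leaf 429 5)) (move 429 (branch (move 397 (leaf 397 4)) (move 398 (leaf 397 6)))))))))))) (branch (ref 17) (ref 11)))) (move 493 (branch (ref 21) (branch (ref 11) (branch (ref 12) (branch (move 558 (branch (move 461 (branch (move 429 (leaf 429 4)) (move 590 (leaf 461 7)))) (ref 13))) (ref 16)))))))))))))))))))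
theorem a0p42 : a0e42.Valid :=
  pos_of_chk [a0e6, a0e8, a0e9, a0e5, a0e12, a0e13, a0e14, a0e18, a0e19, a0e22, a0e24, a0e2, a0e3, a0e4, a0e11, a0e10, a0e40, a0e41, a0e15, a0e17, a0e16, a0e1] (forall_cons a0p6 (forall_cons a0p8 (forall_cons a0p9 (forall_cons a0p5 (forall_cons a0p12 (forall_cons a0p13 (forall_cons a0p14 (forall_cons a0p18 (forall_cons a0p19 (forall_cons a0p22 (forall_cons a0p24 (forall_cons a0p2 (forall_cons a0p3 (forall_cons a0p4 (forall_cons a0p11 (forall_cons a0p10 (forall_cons a0p40 (forall_cons a0p41 (forall_cons a0p15 (forall_cons a0p17 (forall_cons a0p16 (forall_cons a0p1 forall_nil)))))))))))))))))))))) a0c42 a0e42 (by decide +kernel)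

def a0e43 : Pos := ⟨823775719215673165797828095889767186072332236017196649127335615102265182007718726254707156879374546597275557366977702964454638559965997257508883394933806858240, 12156783899810468301579517279964019663568240050963591768780128509134146616109661186647399280592488106720991123901500886048912787278657374989773735319875945604272554523832560386048, 8⟩
def a0c43 : Cert := (move 495 (branch (move 496 (leaf 492 2)) (move 463 (branch (move 431 (branch (move 558 (leaf 430 5)) (move 399 (branch (move 494 (leaf 398 5)) (move 398 (branch (move 366 (leaf 366 7)) (move 430 (leaf 398 7)))))))) (branch (move 559 (branch (move 560 (leaf 524 0)) (move 558 (branch (move 431 (leaf 430 5)) (move 590 (leaf 462 5)))))) (move 559 (branch (move 560 (leaf 524 0)) (move 462 (branch (move 430 (leaf 430 7)) (move 494 (branch (move 591 (leaf 462 7)) (move 464 (branch (move 432 (leaf 431 6)) (move 465 (branch (move 493 (leaf 461 1)) (move 466 (leaf 462 1)))))))))))))))))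
theorem a0p43 : a0e43.Valid :=
  pos_of_chk [] forall_nil a0c43 a0e43 (by decide +kernel)

def a0e44 : Pos := ⟨384428668967314144038986444748558020167088376808025102926089953714390418270268738918863339877041455078728593437922928050078831327984132053504145584302443200512, 7518440768679700248889053043665632503216523163478816594955557843171503084763276282646463841275376290790332024303390144283302191351165958319118432909490825344373577744384, 5⟩
def a0c44 : Cert := (move 523 (branch (move 554 (branch (move 555 (leaf 522 1)) (move 522 (branch (move 553 (leaf 521 1)) (move 490 (branch (move 489 (leaf 489 3)) (move 491 (leaf 490 3)))))))) (branch (move 558 (branch (move 559 (leaf 523 0)) (move 522 (branch (move 557 (leaf 522 0)) (move 490 (branch (move 489 (leaf 489 3)) (move 491 (leaf 490 3)))))))) (move 555 (branch (move 554 (leaf 522 1)) (move 527 (branch (move 556 (leaf 523 1)) (move 559 (branch (move 558 (leaf 523 0)) (move 560 (leaf 524 0)))))))))))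
theorem a0p44 : a0e44.Valid :=
  pos_of_chk [] forall_nil a0c44 a0e44 (by decide +kernel)

def a0e45 : Pos := ⟨384428668967314144038986444748558020167088376808025102926089953714390418270268738918863339877041455078728593437922928050078831327984132053504145584302443200512, 66354007182568858968670273512916751157629041524759952682821686395004682684297017518825914192061551737506820156595865420648304054591209361002857475188620553912185866117833321873513360916480, 13⟩
def a0c45 : Cert := (move 523 (branch (move 554 (branch (move 555 (leaf 522 1)) (move 522 (branch (move 553 (leaf 521 1)) (move 490 (branch (move 489 (leaf 489 3)) (move 491 (leaf 490 3)))))))) (branch (move 558 (branch (move 559 (leaf 523 0)) (move 522 (branch (move 557 (leaf 522 0)) (move 490 (branch (move 489 (leaf 489 3)) (move 491 (leaf 490 3)))))))) (branch (move 558 (branch (move 559 (leaf 523 0)) (move 522 (branch (move 557 (leaf 522 0)) (move 554 (branch (move 553 (leaf 521 1)) (move 555 (leaf 522 1)))))))) (move 491 (branch (move 490 (leaf 490 3)) (move 459 (branch (move 555 (branch (move 554 (leaf 522 1)) (move 556 (branch (move 427 (leaf 427 4)) (move 588 (leaf 459 4))))))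 (branch (move 427 (branch (move 556 (leaf 427 4)) (move 428 (branch (move 396 (leaf 395 6)) (move 394 (branch (move 426 (leaf 394 7)) (move 395 (branch (move 362 (leaf 362 7)) (move 429 (branch (move 430 (leaf 394 3)) (move 558 (branch (move 559 (leaf 523 0)) (move 494 (branch (move 495 (leaf 491 2)) (move 461 (branch (move 493 (leaf 429 4)) (move 462 (leaf 429 7)))))))))))))))))) (branch (move 555 (branch (move 554 (leaf 522 1)) (move 494 (branch (move 495 (leaf 491 2)) (move 558 (branch (move 559 (leaf 523 0)) (move 428 (branch (move 460 (leaf 427 6)) (move 427 (branch (move 396 (leaf 395 6)) (move 426 (branch (move 394 (leaf 394 7)) (move 458 (leaf 426 7)))))))))))))) (move 555 (branch (move 554 (leaf 522 1)) (move 588 (branch (move 556 (leaf 459 4)) (move 587 (branch (move 620 (leaf 491 4)) (move 558 (branch (move 559 (leaf 523 0)) (move 494 (branch (move 495 (leaf 491 2)) (move 586 (branch (move 618 (leaf 490 5)) (move 589 (branch (move 557 (leaf 554 2)) (move 590 (branch (move 621 (leaf 493 5)) (move 623 (branch (move 622 (leaf 587 0)) (move 591 (leaf 494 4))))))))))))))))))))))))))))))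
theorem a0p45 : a0e45.Valid :=
  pos_of_chk [] forall_nil a0c45 a0e45 (by decide +kernel)

def a0e46 : Pos := ⟨384428668967314144038986444748558020167088376808025102926089953714390418270268738918863339877041455078728593437922928050078831327984132053504145584302443200512, 14565136234641136497740799272870906448176467239079132131548807517723104546609762590865681626106820095475047504402959527619797289893416711941910328407821438900822553395200, 5⟩
def a0c46 : Cert := (move 527 (branch (move 555 (branch (move 556 (leaf 523 1)) (move 523 (branch (move 554 (leaf 522 1)) (move 491 (branch (move 490 (leaf 490 3)) (move 492 (leaf 491 3)))))))) (branch (move 559 (branch (move 560 (leaf 524 0)) (move 523 (branch (move 558 (leaf 523 0)) (move 555 (branch (move 554 (leaf 522 1)) (move 556 (leaf 523 1)))))))) (move 492 (branch (move 491 (leaf 491 3)) (move 528 (branch (move 493 (leaf 492 3)) (move 560 (branch (move 559 (leaf 524 0)) (move 561 (leaf 525 0)))))))))))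
theorem a0p46 : a0e46.Valid :=
  pos_of_chk [] forall_nil a0c46 a0e46 (by decide +kernel)

def a0e47 : Pos := ⟨384428668967314144038986444748558020167088376808025102926089953714390418270268738918863339877041455078728593437922928050078831327984132053504145584302443200512, 7179373832084937089604102730915981594516234957071387893061543463568914269564188666519990131048958030213860621766106595301887122638856886500155835557132981618978987180032, 8⟩
def a0c47 : Cert := (move 523 (branch (move 558 (branch (move 559 (leaf 523 0)) (move 522 (branch (move 557 (leaf 522 0)) (move 553 (branch (move 554 (leaf 521 1)) (move 521 (branch (move 552 (leaf 520 1)) (move 489 (branch (move 488 (leaf 488 3)) (move 490 (leaf 489 3)))))))))))) (branch (move 558 (branch (move 559 (leaf 523 0)) (move 522 (branch (move 557 (leaf 522 0)) (move 553 (branch (move 554 (leaf 521 1)) (move 521 (branch (move 552 (leaf 520 1)) (move 492 (branch (move 493 (leaf 489 2)) (move 491 (branch (move 520 (leaf 488 2)) (move 527 (leaf 491 3)))))))))))))) (branch (move 491 (branch (move 490 (leaf 490 3)) (move 527 (branch (move 492 (leaf 491 3)) (move 559 (branch (move 558 (leaf 523 0))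 (move 560 (leaf 524 0)))))))) (move 490 (branch (move 491 (leaf 490 3)) (move 522 (branch (move 489 (leaf 489 3)) (move 493 (branch (move 494 (leaf 490 2)) (move 521 (branch (move 492 (leaf 489 2)) (move 553 (branch (move 552 (leaf 520 1)) (move 554 (leaf 521 1))))))))))))))))
theorem a0p47 : a0e47.Valid :=
  pos_of_chk [] forall_nil a0c47 a0e47 (by decide +kernel)

def a0e48 : Pos := ⟨384428668967314144038986444748558020167088376808025102926089953714390418270268738918863339877041455078728593437922928050078831327984132053504145584302443200512, 1872239173054906264681069340061420818547192126062621541425774793546299382246386099157075570413501742543006175138700218113998547402758200330580190727158941414714194788352, 7⟩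
def a0c48 : Cert := (move 523 (branch (move 555 (branch (move 554 (leaf 522 1)) (move 527 (branch (move 556 (leaf 523 1)) (move 491 (branch (move 490 (leaf 490 3)) (move 492 (leaf 491 3)))))))) (branch (move 554 (branch (move 555 (leaf 522 1)) (move 522 (branch (move 553 (leaf 521 1)) (move 557 (branch (move 558 (leaf 522 0)) (move 521 (branch (move 556 (leaf 521 0)) (move 489 (branch (move 488 (leaf 488 3)) (move 490 (leaf 489 3)))))))))))) (branch (move 490 (branch (move 491 (leaf 490 3)) (move 522 (branch (move 489 (leaf 489 3)) (move 493 (branch (move 494 (leaf 490 2)) (move 521 (branch (move 492 (leaf 489 2)) (move 553 (branch (move 552 (leaf 520 1)) (move 554 (leaf 521 1)))))))))))) (branch (move 555 (branch (move 554 (leaf 522 1)) (move 527 (branch (move 556 (leaf 523 1)) (move 492 (branch (move 491 (leaf 491 3)) (move 493 (branch (move 528 (leaf 492 3)) (move 522 (branch (move 521 (leaf 489 2)) (move 494 (leaf 490 2)))))))))))) (move 491 (branch (move 490 (leaf 490 3)) (move 527 (branch (move 492 (leaf 491 3)) (move 556 (branch (move 555 (leaf 523 1)) (move 557 (branch (move 528 (leaf 524 1)) (move 522 (branch (move 521 (leaf 521 0))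 (move 558 (leaf 522 0)))))))))))))))))
theorem a0p48 : a0e48.Valid :=
  pos_of_chk [] forall_nil a0c48 a0e48 (by decide +kernel)

def a0e49 : Pos := ⟨384428668967314144038986444748558020167088376808025102926089953714390418270268738918863339877041455078728593437922928050078831327984132053504145584302443200512, 15066365620965730052606359546942695963876239326497270352561665344354454265869102251501544864037354587396762606081523578153339638863850918987561850866456487432784745332736, 8⟩
def a0c49 : Cert := (move 523 (branch (move 554 (branch (move 555 (leaf 522 1)) (move 522 (branch (move 553 (leaf 521 1)) (move 557 (branch (move 558 (leaf 522 0)) (move 521 (branch (move 556 (leaf 521 0)) (move 489 (branch (move 488 (leaf 488 3)) (move 490 (leaf 489 3)))))))))))) (branch (move 555 (branch (move 554 (leaf 522 1)) (move 527 (branch (move 556 (leaf 523 1)) (move 559 (branch (move 558 (leaf 523 0)) (move 560 (leaf 524 0)))))))) (branch (move 555 (branch (move 554 (leaf 522 1)) (move 527 (branch (move 556 (leaf 523 1)) (move 560 (branch (move 559 (leaf 524 0)) (move 528 (branch (move 561 (leaf 525 0)) (move 493 (branch (move 492 (leaf 492 3)) (move 494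 (branch (move 522 (leaf 490 2)) (move 529 (leaf 493 3)))))))))))))) (move 558 (branch (move 559 (leaf 523 0)) (move 522 (branch (move 557 (leaf 522 0)) (move 493 (branch (move 494 (leaf 490 2)) (move 521 (branch (move 492 (leaf 489 2)) (move 489 (branch (move 488 (leaf 488 3)) (move 490 (leaf 489 3))))))))))))))))
theorem a0p49 : a0e49.Valid :=
  pos_of_chk [] forall_nil a0c49 a0e49 (by decide +kernel)

def a0e50 : Pos := ⟨384428668967314144038986444748558020167088376808025102926089953714390418270268738918863339877041455078728593437922928050078831327984132053504145584302443200512, 206388570587963879317428186925784956636897988772180349815392134208633646979980195834984513152040988059133035423875151319986868036758399942303056207193286074854375686144, 5⟩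
def a0c50 : Cert := (move 523 (branch (move 554 (branch (move 555 (leaf 522 1)) (move 522 (branch (move 553 (leaf 521 1)) (move 490 (branch (move 489 (leaf 489 3)) (move 491 (leaf 490 3)))))))) (branch (move 494 (branch (move 495 (leaf 491 2)) (move 522 (branch (move 493 (leaf 490 2)) (move 554 (branch (move 553 (leaf 521 1)) (move 555 (leaf 522 1)))))))) (move 491 (branch (move 490 (leaf 490 3)) (move 527 (branch (move 492 (leaf 491 3)) (move 495 (branch (move 494 (leaf 491 2)) (move 496 (leaf 492 2)))))))))))
theorem a0p50 : a0e50.Valid :=
  pos_of_chk [] forall_nil a0c50 a0e50 (by decide +kernel)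

def a0e51 : Pos := ⟨411887859607836582898914047944883593036166118008598324563667807551132591003859363127353578439687273298637778683488851482227319279982998628754441697466903429120, 6078391949905234150789758639991599843187788445710289471542867406237088206058896664057126741280389970261642752778361084463751670876000048729521430957508008272266679917378533326848, 8⟩
def a0c51 : Cert := (move 494 (branch (move 495 (leaf 491 2)) (move 462 (branch (move 430 (branch (move 557 (leaf 429 5)) (move 398 (branch (move 493 (leaf 397 5)) (move 397 (branch (move 365 (leaf 365 7)) (move 429 (leaf 397 7)))))))) (branch (move 558 (branch (move 559 (leaf 523 0)) (move 461 (branch (move 429 (leaf 429 7)) (move 493 (branch (move 590 (leaf 461 7)) (move 491 (branch (move 490 (leaf 490 3)) (move 463 (branch (move 492 (leaf 459 2)) (move 431 (leaf 430 6)))))))))))) (move 558 (branch (move 559 (leaf 523 0)) (move 557 (branch (move 430 (leaf 429 5)) (move 589 (leaf 461 5)))))))))))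
theorem a0p51 : a0e51.Valid :=
  pos_of_chk [] forall_nil a0c51 a0e51 (by decide +kernel)

def a0e52 : Pos := ⟨384428668967314144038986444748558020167088376808025102926089953714390418270268738918863339877041455078728593437922928050078831327984132053504145584302443200512, 1872239173054906264968769686458542662591320126760359748163565598374303123509566004556149829863131342093293585597031638176088197374907034696624676165762149788541897408512, 7⟩
def a0c52 : Cert := (move 523 (branch (move 494 (branch (move 495 (leaf 491 2)) (move 522 (branch (move 493 (leaf 490 2)) (move 554 (branch (move 553 (leaf 521 1)) (move 555 (leaf 522 1)))))))) (branch (move 555 (branch (move 554 (leaf 522 1)) (move 527 (branch (move 556 (leaf 523 1)) (move 495 (branch (move 494 (leaf 491 2)) (move 496 (leaf 492 2)))))))) (branch (move 554 (branch (move 555 (leaf 522 1)) (move 522 (branch (move 553 (leaf 521 1)) (move 557 (branch (move 558 (leaf 522 0)) (move 521 (branch (move 556 (leaf 521 0)) (move 489 (branch (move 488 (leaf 488 3)) (move 490 (leaf 489 3)))))))))))) (branch (move 494 (branch (move 495 (leaf 491 2)) (move 522 (branch (move 493 (leaf 490 2)) (move 557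 (branch (move 558 (leaf 522 0)) (move 521 (branch (move 556 (leaf 521 0)) (move 553 (branch (move 552 (leaf 520 1)) (move 554 (leaf 521 1)))))))))))) (move 494 (branch (move 495 (leaf 491 2)) (move 522 (branch (move 493 (leaf 490 2)) (move 557 (branch (move 558 (leaf 522 0)) (move 556 (branch (move 521 (leaf 521 0)) (move 527 (branch (move 555 (leaf 523 1)) (move 528 (leaf 524 1)))))))))))))))))
theorem a0p52 : a0e52.Valid :=
  pos_of_chk [] forall_nil a0c52 a0e52 (by decide +kernel)

def a0e53 : Pos := ⟨384428668967314144038986444748558020167088376808025102926089953714390418270268738918863339877041455078728593437922928050078831327984132053504145584302443200512, 1754302849036621299132211874289304160325026558835793478848823337916004462807980545068549232393459872948632188827083984109239362749112964926545146910459152835252810940416, 8⟩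
def a0c53 : Cert := (move 523 (branch (move 491 (branch (move 490 (leaf 490 3)) (move 527 (branch (move 492 (leaf 491 3)) (move 495 (branch (move 494 (leaf 491 2)) (move 496 (leaf 492 2)))))))) (branch (move 491 (branch (move 490 (leaf 490 3)) (move 527 (branch (move 492 (leaf 491 3)) (move 496 (branch (move 495 (leaf 492 2)) (move 528 (branch (move 497 (leaf 493 2)) (move 557 (branch (move 556 (leaf 524 1)) (move 558 (branch (move 522 (leaf 522 0)) (move 529 (leaf 525 1)))))))))))))) (branch (move 490 (branch (move 491 (leaf 490 3)) (move 522 (branch (move 489 (leaf 489 3)) (move 493 (branch (move 494 (leaf 490 2)) (move 521 (branch (move 492 (leaf 489 2)) (move 553 (branch (move 552 (leaf 520 1)) (move 554 (leaf 521 1)))))))))))) (move 494 (branch (move 495 (leaf 491 2)) (move 522 (branch (move 493 (leaf 490 2)) (move 557 (branch (move 558 (leaf 522 0)) (move 521 (branch (move 556 (leaf 521 0)) (move 553 (branch (move 552 (leaf 520 1)) (move 554 (leaf 521 1))))))))))))))))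
theorem a0p53 : a0e53.Valid :=
  pos_of_chk [] forall_nil a0c53 a0e53 (by decide +kernel)

def a0e54 : Pos := ⟨384428668967314144038986444748558020167088376808025102926089953714390418270268738918863339877041455078728593437922928050078831327984132053504145584302443200512, 7179373832081504691061737772455612488160822261160491382149262615692220779097775800327365562472526349943817304946949367208281032181987159872200462673829902978661132271616, 7⟩
def a0c54 : Cert := (move 523 (branch (move 558 (branch (move 559 (leaf 523 0)) (move 522 (branch (move 557 (leaf 522 0)) (move 553 (branch (move 554 (leaf 521 1)) (move 521 (branch (move 552 (leaf 520 1)) (move 489 (branch (move 488 (leaf 488 3)) (move 490 (leaf 489 3)))))))))))) (branch (move 559 (branch (move 558 (leaf 523 0)) (move 527 (branch (move 560 (leaf 524 0)) (move 495 (branch (move 494 (leaf 491 2)) (move 496 (leaf 492 2)))))))) (move 494 (branch (move 495 (leaf 491 2)) (move 522 (branch (move 493 (leaf 490 2)) (move 553 (branch (move 554 (leaf 521 1)) (move 521 (branch (move 552 (leaf 520 1)) (move 489 (branch (move 488 (leaf 488 3)) (move 490 (leaf 489 3)))))))))))))))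
theorem a0p54 : a0e54.Valid :=
  pos_of_chk [] forall_nil a0c54 a0e54 (by decide +kernel)

def a0e55 : Pos := ⟨384428668967314144038986444748558020167088376808025102926089953714390418270268738918863339877041455078728593437922928050078831327984132053504145584302443200512, 186877567758720270291667552847572822945446112070676621091038217313197864452525953815547626693927665222533927591495380119364552467539254491684566657782925137491884249567943246712350892220756061585408, 12⟩
def a0c55 : Cert := (move 523 (branch (move 558 (branch (move 559 (leaf 523 0)) (move 522 (branch (move 557 (leaf 522 0)) (move 554 (branch (move 553 (leaf 521 1)) (move 555 (leaf 522 1)))))))) (branch (move 494 (branch (move 495 (leaf 491 2)) (move 522 (branch (move 493 (leaf 490 2)) (move 554 (branch (move 553 (leaf 521 1)) (move 555 (leaf 522 1)))))))) (branch (move 558 (branch (move 559 (leaf 523 0)) (move 557 (branch (move 522 (leaf 522 0)) (move 494 (branch (move 495 (leaf 491 2)) (move 589 (branch (move 462 (leaf 461 5)) (move 621 (leaf 493 6)))))))))) (move 494 (branch (move 495 (leaf 491 2)) (move 462 (branch (move 430 (branch (move 557 (leaf 429 5)) (move 398 (branch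 (move 493 (leaf 397 5)) (move 397 (branch (move 365 (leaf 365 7)) (move 429 (leaf 397 7)))))))) (branch (move 558 (branch (move 559 (leaf 523 0)) (move 557 (branch (move 430 (leaf 429 5)) (move 589 (leaf 461 5)))))) (branch (move 558 (branch (move 559 (leaf 523 0)) (move 461 (branch (move 429 (leaf 429 7)) (move 590 (branch (move 493 (leaf 461 7)) (move 431 (branch (move 463 (leaf 430 6)) (move 430 (branch (move 399 (leaf 398 6)) (move 623 (branch (move 591 (leaf 494 4)) (move 622 (branch (move 655 (leaf 526 4)) (move 621 (branch (move 589 (leaf 493 5)) (move 653 (leaf 525 5)))))))))))))))))) (move 558 (branch (move 559 (leaf 523 0)) (move 557 (branch (move 589 (leaf 461 5)) (move 461 (branch (move 429 (leaf 429 7)) (move 493 (branch (move 590 (leaf 461 4)) (move 556 (branch (move 588 (leaf 460 5)) (move 555 (branch (move 554 (leaf 522 1)) (move 460 (branch (move 428 (leaf 428 7)) (move 587 (branch (move 586 (leaf 554 1)) (move 492 (leaf 459 5))))))))))))))))))))))))))))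
theorem a0p55 : a0e55.Valid :=
  pos_of_chk [] forall_nil a0c55 a0e55 (by decide +kernel)

def a0e56 : Pos := ⟨384428668967314144038986444748558020167088376808025102926089953714390418270268738918863339877041455078728593437922928050078831327984132053504145584302443200512, 8702164880388304094835447326986593416122035477575132668226937968903550043946694465802746347154996505143186871207316503255269764386485912044068340598590090250676509040057002189817877889024, 9⟩
def a0c56 : Cert := (move 523 (branch (move 558 (branch (move 559 (leaf 523 0)) (move 522 (branch (move 557 (leaf 522 0)) (move 490 (branch (move 489 (leaf 489 3)) (move 491 (leaf 490 3)))))))) (branch (move 494 (branch (move 495 (leaf 491 2)) (move 522 (branch (move 493 (leaf 490 2)) (move 490 (branch (move 489 (leaf 489 3)) (move 491 (leaf 490 3)))))))) (branch (move 558 (branch (move 559 (leaf 523 0)) (move 557 (branch (move 522 (leaf 522 0)) (move 494 (branch (move 495 (leaf 491 2)) (move 589 (branch (move 462 (leaf 461 5)) (move 621 (leaf 493 6)))))))))) (ref 0)))))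
theorem a0p56 : a0e56.Valid :=
  pos_of_chk [a0e51] (forall_cons a0p51 forall_nil) a0c56 a0e56 (by decide +kernel)

def a0e57 : Pos := ⟨329510287762989358691697063434341007948329749536956207605068577044420714242840626355117422631826461427798601630014987845021544588264928353297742257660910108672, 2026130653113380073680060142935112240200270437739005344273092226706433138629873271156228479548471889577344944215366561097693801996007148577730235882486218494411775576143199993856, 7⟩
def a0c57 : Cert := (move 495 (branch (move 496 (branch (move 497 (leaf 493 1)) (move 464 (branch (move 465 (leaf 461 2)) (move 463 (branch (move 492 (leaf 460 2)) (move 431 (branch (move 399 (leaf 398 5)) (move 528 (branch (move 529 (leaf 493 0)) (move 560 (leaf 431 7)))))))))))) (branch (move 524 (branch (move 496 (leaf 492 1)) (move 523 (leaf 491 2)))) (move 492 (branch (move 491 (branch (move 490 (leaf 490 0)) (move 459 (branch (move 458 (leaf 458 3)) (move 460 (leaf 459 3)))))) (branch (move 524 (branch (move 523 (leaf 491 1)) (move 460 (branch (move 459 (leaf 459 3)) (move 557 (branch (move 428 (leaf 428 4)) (move 589 (leaf 460 7)))))))) (move 523 (branch (move 524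 (leaf 491 1)) (move 491 (branch (move 490 (leaf 490 0)) (move 522 (leaf 490 1))))))))))))
theorem a0p57 : a0e57.Valid :=
  pos_of_chk [] forall_nil a0c57 a0e57 (by decide +kernel)

def a0e58 : Pos := ⟨329510287762989358697651326263770619595709810171174740750493607071171223792666594066805219680051417215686758717462138974095311165263460882929257714202521370624, 30457577067935948775332970707791164928703263652149273386096424134085618073378825002063194902408354594475119570677423798638662775186360431831779645605139095547498620947698124129129321201664, 9⟩
def a0c58 : Cert := (move 557 (branch (move 589 (branch (move 621 (leaf 493 6)) (move 588 (branch (move 556 (leaf 460 5)) (move 620 (leaf 492 5)))))) (branch (move 590 (branch (move 558 (leaf 461 4)) (move 589 (branch (move 622 (leaf 493 4)) (move 621 (leaf 493 6)))))) (move 558 (branch (move 590 (leaf 461 4)) (move 556 (branch (move 588 (leaf 460 5)) (move 555 (branch (move 554 (leaf 522 2)) (move 523 (branch (move 522 (leaf 522 3)) (move 524 (branch (move 559 (leaf 523 0)) (move 460 (branch (move 428 (leaf 428 7)) (move 587 (branch (move 586 (leaf 554 1)) (move 492 (leaf 459 5)))))))))))))))))))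
theorem a0p58 : a0e58.Valid :=
  pos_of_chk [] forall_nil a0c58 a0e58 (by decide +kernel)

def a0e59 : Pos := ⟨329510287762989358691697063434341007948329749536956207605068577044420714242840626355117422631826461427798601630014987845021544588264928353297742257660910108672, 6526623657252032099476185544265212305255366444988160567044155224692560907927724569105906136675022593660617449839272597372981402983209644138588568885234271837543049100693054118081484292096, 10⟩
def a0c59 : Cert := (move 495 (branch (move 496 (branch (move 497 (leaf 493 1)) (move 464 (branch (move 465 (leaf 461 2)) (move 463 (branch (move 492 (leaf 460 2)) (move 431 (branch (move 399 (leaf 398 5)) (move 528 (branch (move 529 (leaf 493 0)) (move 560 (leaf 431 7)))))))))))) (branch (move 524 (branch (move 496 (leaf 492 1)) (move 523 (leaf 491 2)))) (move 492 (branch (move 524 (branch (move 523 (leaf 491 1)) (move 460 (branch (move 459 (leaf 459 3)) (move 428 (branch (move 396 (leaf 396 4)) (move 429 (branch (move 397 (leaf 396 6)) (move 556 (branch (move 461 (leaf 428 5)) (move 588 (branch (move 620 (leaf 492 6)) (move 587 (branch (move 555 (leaf 459 5)) (move 619 (leaf 491 5))))))))))))))))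 (branch (move 491 (branch (move 490 (leaf 490 0)) (move 459 (branch (move 458 (leaf 458 3)) (move 460 (leaf 459 3)))))) (move 523 (branch (move 524 (leaf 491 1)) (move 491 (branch (move 490 (leaf 490 0)) (move 522 (leaf 490 1))))))))))))
theorem a0p59 : a0e59.Valid :=
  pos_of_chk [] forall_nil a0c59 a0e59 (by decide +kernel)

def a0e60 : Pos := ⟨329510287762989358691697063434341007948329749536956207605068577044420714242840626355117422631826461427798601630014987845021544588264928353297742257660910108672, 30457577067176149782007593579157301184425001171792496009206906846941513991660173394052565884477016809795416108463852402916604958133741555967649955730595892740943599325138295424948144963584, 8⟩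
def a0c60 : Cert := (move 461 (branch (move 558 (branch (move 429 (leaf 429 4)) (move 590 (leaf 461 7)))) (branch (move 557 (branch (move 589 (branch (move 621 (leaf 493 6)) (move 588 (branch (move 556 (leaf 460 5)) (move 620 (leaf 492 5)))))) (branch (move 590 (branch (move 558 (leaf 461 4)) (move 589 (branch (move 622 (leaf 493 4)) (move 621 (leaf 493 6)))))) (move 558 (branch (move 590 (leaf 461 4)) (move 556 (branch (move 588 (leaf 460 5)) (move 555 (branch (move 554 (leaf 522 2)) (move 523 (branch (move 522 (leaf 522 3)) (move 524 (branch (move 559 (leaf 523 0)) (move 495 (leaf 491 2))))))))))))))) (move 429 (branch (move 397 (leaf 397 4)) (move 524 (branch (move 556 (leaf 428 5)) (move 495 (branch (move 496 (leaf 492 1)) (move 523 (leaf 491 2)))))))))))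
theorem a0p60 : a0e60.Valid :=
  pos_of_chk [] forall_nil a0c60 a0e60 (by decide +kernel)

def a0e61 : Pos := ⟨329510287737415994579416980733722186736624252428700757911207193430083519529241516494081496768250825407278789577167987883422514687502483595796043537515003510784, 943490606205385338085962009381675791061005192701656411671166442260877157180427048897821580881164133315948131907619787753226160388207176593452046830936560749767867498496, 6⟩
def a0c61 : Cert := (move 430 (branch (move 398 (branch (move 493 (leaf 397 5)) (move 399 (branch (move 367 (leaf 366 6)) (move 431 (leaf 398 6)))))) (branch (move 398 (branch (move 493 (leaf 397 5)) (move 397 (branch (move 365 (leaf 365 7)) (move 429 (leaf 397 7)))))) (move 429 (branch (move 397 (leaf 397 7)) (move 461 (branch (move 558 (leaf 429 7)) (move 431 (branch (move 399 (leaf 398 6)) (move 460 (branch (move 432 (leaf 428 1)) (move 459 (leaf 427 2)))))))))))))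
theorem a0p61 : a0e61.Valid :=
  pos_of_chk [] forall_nil a0c61 a0e61 (by decide +kernel)

def a0e62 : Pos := ⟨943490606534895625797804639826484203462952491840734359522752332972613234028120732550773197788496188653617919164969750802110634040903712845642842158654217548427352342528, 82377572682374899450044661759593511643055892356437115814202257013183355698707596597170402685152643861962909234308448633795582878158734744610080113294101708800, 8⟩
def a0c62 : Cert := (move 496 (branch (move 461 (branch (move 429 (leaf 429 7)) (move 463 (branch (move 431 (leaf 430 6)) (move 464 (branch (move 497 (leaf 461 0)) (move 493 (branch (move 492 (leaf 460 1)) (move 465 (leaf 461 1)))))))))) (branch (move 461 (branch (move 429 (leaf 429 7)) (move 463 (branch (move 431 (leaf 430 6)) (move 460 (branch (move 495 (leaf 460 0)) (move 492 (branch (move 491 (leaf 459 1)) (move 493 (branch (move 464 (leaf 460 1)) (move 428 (branch (move 427 (leaf 427 3)) (move 396 (leaf 396 4)))))))))))))) (branch (move 497 (branch (move 495 (leaf 493 1)) (move 463 (branch (move 431 (leaf 430 6)) (move 461 (branch (move 464 (leaf 461 0)) (move 429 (leaf 429 7)))))))) (move 495 (branch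 (move 497 (leaf 493 1)) (move 524 (branch (move 493 (leaf 492 1)) (move 523 (leaf 491 2))))))))))
theorem a0p62 : a0e62.Valid :=
  pos_of_chk [] forall_nil a0c62 a0e62 (by decide +kernel)

def a0e63 : Pos := ⟨329510287737415994579416980733722186736624252428700757911207193430083519529241516494081496768250825407278789577167987883422514687502483595796043537515003510784, 34808659509396432475757358581462937460674274059922231321296445592680617549506830647660560441431817589358058737635090346404667340257459640156445866069973381887320657324919030922469137448960, 9⟩
def a0c63 : Cert := (move 495 (branch (move 524 (branch (move 523 (leaf 491 2)) (move 496 (branch (move 493 (leaf 492 1)) (move 497 (leaf 493 1)))))) (branch (move 461 (branch (move 429 (branch (move 558 (leaf 429 7)) (move 397 (branch (move 365 (leaf 365 4)) (move 430 (leaf 397 7)))))) (move 496 (branch (move 497 (leaf 493 1)) (move 460 (branch (move 459 (leaf 459 0)) (move 463 (leaf 460 0)))))))) (move 524 (branch (move 523 (leaf 491 2)) (move 558 (branch (move 429 (branch (move 461 (leaf 429 7)) (move 430 (branch (move 397 (leaf 397 7)) (move 398 (branch (move 493 (leaf 397 5)) (move 366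 (branch (move 463 (leaf 366 4)) (move 367 (branch (move 335 (leaf 334 6)) (move 399 (leaf 366 6)))))))))))) (branch (move 590 (branch (move 463 (leaf 462 6)) (move 591 (branch (move 559 (leaf 462 4)) (move 623 (leaf 494 4)))))) (move 461 (branch (move 429 (leaf 429 7)) (move 590 (branch (move 493 (leaf 461 7)) (move 591 (branch (move 559 (leaf 462 4)) (move 623 (leaf 494 4))))))))))))))))
theorem a0p63 : a0e63.Valid :=
  pos_of_chk [] forall_nil a0c63 a0e63 (by decide +kernel)

def a0e64 : Pos := ⟨329510287737415994579416980733722186736624252428700757911207193430083519529241516494081496768250825407278789577167987883422514687502483595796043537515003510784, 52212989258016256765617784933691851868475053286036838273361468122274679511198600610608827453172993738174306515921509191444515146209962723492376809920738662371969257520924629468294131220480, 7⟩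
def a0c64 : Cert := (move 430 (branch (move 431 (branch (move 399 (leaf 398 6)) (move 558 (branch (move 463 (leaf 430 6)) (move 591 (branch (move 559 (leaf 462 4)) (move 590 (branch (move 623 (leaf 494 4)) (move 493 (branch (move 461 (leaf 461 7)) (move 622 (leaf 493 7)))))))))))) (branch (move 398 (branch (move 493 (leaf 397 5)) (move 367 (branch (move 399 (leaf 366 6)) (move 366 (branch (move 335 (leaf 334 6)) (move 365 (branch (move 333 (leaf 333 7)) (move 397 (leaf 365 7)))))))))) (branch (move 398 (branch (move 493 (leaf 397 5)) (move 365 (branch (move 397 (leaf 365 7)) (move 366 (branch (move 333 (leaf 333 7)) (move 463 (branch (move 495 (leaf 366 4)) (move 431 (branch (move 334 (leaf 334 4)) (move 558 (leaf 430 6)))))))))))) (move 398 (branch (move 365 (branch (move 397 (leaf 365 7)) (move 366 (branch (move 333 (leaf 333 7)) (move 463 (branch (move 495 (leaf 366 4)) (move 431 (branch (move 334 (leaf 334 4)) (move 558 (leaf 430 6)))))))))) (branch (move 367 (branch (move 399 (leaf 366 6)) (move 366 (branch (move 335 (leaf 334 6)) (move 365 (branch (move 333 (leaf 333 7)) (move 397 (leaf 365 7)))))))) (move 399 (branch (move 367 (leaf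 366 6)) (move 431 (leaf 398 6)))))))))))
theorem a0p64 : a0e64.Valid :=
  pos_of_chk [] forall_nil a0c64 a0e64 (by decide +kernel)

def a0e65 : Pos := ⟨329510287737415994579416980733722186736624252428700757911207193430083519529241516494081496768250825407278789577167987883422514687502483595796043537515003510784, 34808659511422563128870738652410808134151759426496406487551043574477357684028722512525170601821310232951296316395459580955695234357797636505964855099177838884762409779830186272976707518464, 7⟩
def a0c65 : Cert := (move 558 (branch (move 557 (branch (move 589 (leaf 461 5)) (move 559 (branch (move 591 (leaf 462 4)) (move 524 (branch (move 523 (leaf 523 0)) (move 560 (leaf 524 3)))))))) (branch (move 463 (branch (move 431 (leaf 430 6)) (move 590 (branch (move 495 (leaf 462 6)) (move 591 (branch (move 559 (leaf 462 4)) (move 623 (leaf 494 4)))))))) (move 463 (branch (move 431 (leaf 430 6)) (move 495 (branch (move 590 (leaf 462 6)) (move 496 (branch (move 497 (leaf 493 1)) (move 493 (branch (move 524 (leaf 492 1)) (move 464 (branch (move 465 (leaf 461 1)) (move 492 (leaf 460 2)))))))))))))))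
theorem a0p65 : a0e65.Valid :=
  pos_of_chk [] forall_nil a0c65 a0e65 (by decide +kernel)

def a0e66 : Pos := ⟨329510287737415994579416980733722186736624252428700757911207193430083519529241516494081496768250825407278789577167987883422514687502483595796043537515003510784, 34808659511422563128870738652410808133525212005298230466321517042663494931156323674745332467881121386193222529740570544574424071655207407987946159460704717746446017918769214491927232118784, 7⟩
def a0c66 : Cert := (move 558 (branch (move 557 (branch (move 589 (leaf 461 5)) (move 559 (branch (move 591 (leaf 462 4)) (move 524 (branch (move 523 (leaf 523 0)) (move 560 (leaf 524 3)))))))) (branch (move 461 (branch (move 429 (leaf 429 7)) (move 590 (branch (move 493 (leaf 461 7)) (move 591 (branch (move 559 (leaf 462 4)) (move 623 (leaf 494 4)))))))) (move 557 (branch (move 589 (leaf 461 5)) (move 461 (branch (move 429 (leaf 429 7)) (move 493 (branch (move 590 (leaf 461 4)) (move 460 (branch (move 428 (leaf 428 7)) (move 459 (branch (move 458 (leaf 458 0)) (move 495 (leaf 459 0)))))))))))))))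
theorem a0p66 : a0e66.Valid :=
  pos_of_chk [] forall_nil a0c66 a0e66 (by decide +kernel)

def a0e67 : Pos := ⟨235872651880856622393166658562312606737072454197573373865163837485764667402638416733229067033743415003897820358359535584126483779355517452315203380414972681749052522496, 82377571921567316945597832213475237769713195978996071654311823106285548946000469520026095367640366989554946707479458465299701600092324803402217437214866931712, 10⟩
def a0c67 : Cert := (move 431 (branch (move 463 (branch (move 464 (leaf 460 2)) (move 399 (leaf 398 5)))) (branch (move 524 (branch (move 523 (leaf 491 1)) (move 429 (branch (move 461 (leaf 428 5)) (move 464 (branch (move 463 (leaf 460 2)) (move 432 (branch (move 465 (leaf 429 0)) (move 397 (branch (move 396 (leaf 396 3)) (move 433 (branch (move 398 (leaf 397 3)) (move 401 (branch (move 400 (leaf 397 2)) (move 402 (leaf 398 2)))))))))))))))) (branch (move 524 (branch (move 523 (leaf 491 1)) (move 429 (branch (move 461 (leaf 428 5)) (move 399 (branch (move 463 (leaf 398 5)) (move 400 (branch (move 428 (leaf 396 2)) (move 401 (branch (move 398 (leaf 397 1)) (move 402 (leaf 398 1)))))))))))) (move 429 (branch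 (move 461 (branch (move 397 (leaf 397 4)) (move 398 (leaf 397 6)))) (branch (move 524 (branch (move 523 (leaf 491 1)) (move 461 (leaf 428 5)))) (move 428 (branch (move 399 (branch (move 400 (leaf 396 2)) (move 427 (branch (move 398 (leaf 395 2)) (move 395 (branch (move 394 (leaf 394 3)) (move 396 (leaf 395 3)))))))) (branch (move 524 (branch (move 523 (leaf 491 1)) (move 399 (branch (move 400 (leaf 396 2)) (move 427 (branch (move 398 (leaf 395 2)) (move 458 (branch (move 459 (leaf 426 1)) (move 426 (branch (move 457 (leaf 425 1)) (move 394 (branch (move 393 (leaf 393 3)) (move 395 (leaf 394 3)))))))))))))) (branch (move 524 (branch (move 523 (leaf 491 1)) (move 396 (branch (move 395 (leaf 395 3)) (move 432 (branch (move 397 (leaf 396 3)) (move 465 (branch (move 464 (leaf 429 0)) (move 433 (branch (move 466 (leaf 430 0)) (move 401 (branch (move 400 (leaf 397 2)) (move 402 (leaf 398 2)))))))))))))) (branch (move 524 (branch (move 523 (leaf 491 1)) (move 400 (branch (move 399 (leaf 396 2)) (move 432 (branch (move 401 (leaf 397 2)) (move 465 (branch (move 464 (leaf 429 0)) (move 433 (branch (move 466 (leaf 430 0)) (move 397 (branch (move 396 (leaf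 396 3)) (move 398 (leaf 397 3)))))))))))))) (move 524 (branch (move 523 (leaf 491 1)) (move 395 (branch (move 396 (leaf 395 3)) (move 427 (branch (move 394 (leaf 394 3)) (move 458 (branch (move 459 (leaf 426 1)) (move 426 (branch (move 457 (leaf 425 1)) (move 398 (branch (move 397 (leaf 394 2)) (move 399 (leaf 395 2))))))))))))))))))))))))))
theorem a0p67 : a0e67.Valid :=
  pos_of_chk [] forall_nil a0c67 a0e67 (by decide +kernel)

def a0e68 : Pos := ⟨329510287762989358691697063434341007948329749536956207605068577044420714242840626355117422631826461427798601630014987845021544588264928353297742257660910108672, 30457577075280672378421773560093315433178893590631249237653408184484310445374520009259655572312027675663522460836635657008229916914127740221216071332423106691403648580055138013839794110464, 14⟩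
def a0c68 : Cert := (move 556 (branch (move 557 (branch (move 430 (branch (move 462 (leaf 429 5)) (move 461 (branch (move 588 (leaf 460 5)) (move 429 (branch (move 397 (leaf 397 4)) (move 398 (leaf 397 6)))))))) (branch (move 589 (branch (move 621 (leaf 493 6)) (move 588 (branch (move 461 (leaf 460 5)) (move 620 (leaf 492 5)))))) (move 589 (branch (move 462 (leaf 461 6)) (move 621 (leaf 493 6))))))) (branch (move 524 (branch (move 588 (branch (move 620 (leaf 492 6)) (move 492 (branch (move 461 (leaf 460 6)) (move 491 (branch (move 490 (leaf 490 0)) (move 459 (leaf 459 7)))))))) (move 523 (branch (move 522 (leaf 490 2)) (move 495 (leaf 491 2)))))) (branch (move 495 (branch (move 496 (branch (move 497 (leaf 493 1)) (move 464 (branch (move 465 (leaf 461 2)) (move 463 (branch (move 492 (leaf 460 2)) (move 431 (branch (move 399 (leaf 398 5)) (move 528 (branch (move 529 (leaf 493 0)) (move 560 (leaf 431 7)))))))))))) (branch (move 524 (branch (move 496 (leaf 492 1)) (move 523 (leaf 491 2)))) (move 524 (branch (move 523 (leaf 491 2)) (move 589 (branch (move 588 (branch (move 620 (leaf 492 6)) (move 492 (branch (move 621 (leaf 492 4)) (move 491 (branch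 (move 490 (leaf 490 0)) (move 459 (leaf 459 7)))))))) (branch (move 557 (branch (move 462 (leaf 461 6)) (move 621 (leaf 493 6)))) (move 557 (branch (move 462 (leaf 461 6)) (move 588 (branch (move 620 (leaf 492 5)) (move 555 (branch (move 554 (leaf 522 2)) (move 590 (branch (move 591 (leaf 555 3)) (move 622 (leaf 493 4)))))))))))))))))) (move 495 (branch (move 496 (branch (move 497 (leaf 493 1)) (move 464 (branch (move 465 (leaf 461 2)) (move 463 (branch (move 492 (leaf 460 2)) (move 431 (branch (move 399 (leaf 398 5)) (move 528 (branch (move 529 (leaf 493 0)) (move 560 (leaf 431 7)))))))))))) (branch (move 524 (branch (move 496 (leaf 492 1)) (move 523 (leaf 491 2)))) (move 492 (branch (move 491 (branch (move 490 (leaf 490 0)) (move 463 (branch (move 462 (leaf 459 2)) (move 464 (leaf 460 2)))))) (branch (move 523 (branch (move 524 (leaf 491 1)) (move 491 (branch (move 490 (leaf 490 0)) (move 522 (leaf 490 1)))))) (move 430 (branch (move 462 (branch (move 398 (leaf 397 5)) (move 557 (leaf 429 5)))) (branch (move 524 (branch (move 523 (leaf 491 1)) (move 462 (branch (move 557 (leaf 429 5)) (move 429 (branch (move 461 (leaf 428 5)) (move 397 (leaf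 397 7)))))))) (ref 0))))))))))))))
theorem a0p68 : a0e68.Valid :=
  pos_of_chk [a0e67] (forall_cons a0p67 forall_nil) a0c68 a0e68 (by decide +kernel)

def a0e69 : Pos := ⟨329510287737415994567508455074862963441864131160263691620357133376582500429589581070705902671800913831502475402273685625274981533505418536533012624431780986880, 32633118294364683076871244939888136093794717810160286737811806073027320214136626095094866404236428287724882939691252774731708584738385029435562569427748029353873034754870606669854223106048, 15⟩
def a0c69 : Cert := (move 493 (branch (move 557 (branch (move 589 (branch (move 621 (leaf 493 6)) (move 588 (branch (move 620 (leaf 492 5)) (move 556 (branch (move 461 (leaf 460 5)) (move 555 (branch (move 554 (leaf 522 2)) (move 590 (branch (move 591 (leaf 555 3)) (move 622 (leaf 493 4)))))))))))) (branch (move 462 (branch (move 430 (leaf 429 5)) (move 589 (leaf 461 6)))) (move 461 (branch (move 430 (branch (move 462 (leaf 429 5)) (move 429 (branch (move 397 (leaf 397 4)) (move 398 (leaf 397 6)))))) (branch (move 462 (branch (move 430 (leaf 429 5)) (move 460 (branch (move 428 (leaf 428 7)) (move 495 (branch (move 459 (leaf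 459 0)) (move 496 (leaf 460 3)))))))) (move 429 (branch (move 397 (leaf 397 4)) (move 428 (branch (move 396 (leaf 396 7)) (move 460 (leaf 428 7)))))))))))) (branch (ref 0) (branch (ref 1) (branch (move 557 (branch (move 589 (branch (move 621 (leaf 493 6)) (move 588 (branch (move 620 (leaf 492 5)) (move 556 (branch (move 461 (leaf 460 5)) (move 555 (branch (move 554 (leaf 522 2)) (move 590 (branch (move 591 (leaf 555 3)) (move 622 (leaf 493 4)))))))))))) (branch (move 462 (branch (move 430 (leaf 429 5)) (move 589 (leaf 461 6)))) (move 461 (branch (move 556 (branch (move 588 (leaf 460 5)) (move 429 (branch (move 397 (leaf 397 4)) (move 524 (leaf 428 5)))))) (move 462 (branch (move 430 (leaf 429 5)) (move 460 (branch (move 428 (leaf 428 7)) (move 459 (branch (move 458 (leaf 458 0)) (move 491 (branch (move 490 (leaf 458 1)) (move 463 (branch (move 492 (leaf 459 1)) (move 464 (branch (move 465 (leaf 461 1)) (move 432 (branch (move 431 (leaf 428 2)) (move 433 (leaf 429 2))))))))))))))))))))) (branch (move 495 (branch (move 496 (branch (move 497 (leaf 493 1)) (move 464 (branch (move 465 (leaf 461 2)) (move 463 (branch (move 492 (leaf 460 2)) (move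 431 (branch (move 399 (leaf 398 5)) (move 528 (branch (move 529 (leaf 493 0)) (move 560 (leaf 431 7)))))))))))) (branch (move 524 (branch (move 496 (leaf 492 1)) (move 523 (leaf 491 2)))) (move 492 (branch (move 491 (branch (move 490 (leaf 490 0)) (move 459 (branch (move 458 (leaf 458 3)) (move 460 (leaf 459 3)))))) (branch (move 523 (branch (move 524 (leaf 491 1)) (move 491 (branch (move 490 (leaf 490 0)) (move 522 (leaf 490 1)))))) (move 524 (branch (move 523 (leaf 491 1)) (move 460 (branch (move 459 (leaf 459 3)) (move 557 (branch (move 589 (leaf 460 7)) (move 462 (branch (move 430 (leaf 429 5)) (move 463 (branch (move 464 (leaf 460 2)) (move 431 (branch (move 399 (leaf 398 5)) (move 461 (branch (move 432 (leaf 428 2)) (move 556 (branch (move 429 (leaf 428 5)) (move 588 (leaf 460 5)))))))))))))))))))))))) (branch (move 557 (branch (move 589 (branch (move 621 (leaf 493 6)) (move 588 (branch (move 620 (leaf 492 5)) (move 556 (branch (move 461 (leaf 460 5)) (move 555 (branch (move 554 (leaf 522 2)) (move 590 (branch (move 591 (leaf 555 3)) (move 622 (leaf 493 4)))))))))))) (branch (move 462 (branch (move 430 (leaf 429 5)) (move 589 (leaf 461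 6)))) (move 461 (branch (move 556 (branch (move 588 (leaf 460 5)) (move 429 (branch (move 397 (leaf 397 4)) (move 524 (leaf 428 5)))))) (branch (move 430 (branch (move 462 (leaf 429 5)) (move 429 (branch (move 397 (leaf 397 4)) (move 398 (leaf 397 6)))))) (move 462 (branch (move 430 (leaf 429 5)) (move 460 (branch (move 428 (leaf 428 7)) (move 495 (branch (move 496 (leaf 460 3)) (move 524 (branch (move 523 (leaf 491 2)) (move 556 (branch (move 588 (leaf 460 5)) (move 555 (branch (move 554 (leaf 522 2)) (move 492 (branch (move 587 (leaf 459 5)) (move 463 (branch (move 491 (leaf 459 1)) (move 464 (leaf 460 1)))))))))))))))))))))))) (ref 2))))))))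
theorem a0p69 : a0e69.Valid :=
  pos_of_chk [a0e57, a0e59, a0e68] (forall_cons a0p57 (forall_cons a0p59 (forall_cons a0p68 forall_nil))) a0c69 a0e69 (by decide +kernel)

def a0e70 : Pos := ⟨329510287686269266319131238355906874428932894406878659650934246040906072803087490501882862751749818638910222946791081185781855423986398903003553357973522743296, 67441777791857597990531028506004830650223363760104604242996865042526230040652631264450013618486321907020469721042169336077270152499122238077008584882723215556919428473728228233585574805504, 16⟩
def a0c70 : Cert := (move 494 (branch (move 462 (branch (move 558 (branch (move 463 (branch (move 431 (leaf 430 6)) (move 495 (branch (move 590 (leaf 462 6)) (move 461 (branch (move 429 (leaf 429 7)) (move 496 (branch (move 460 (leaf 460 0)) (move 497 (leaf 493 1)))))))))) (move 557 (branch (move 589 (leaf 461 5)) (move 559 (branch (move 591 (leaf 462 4)) (move 524 (branch (move 523 (leaf 523 0)) (move 560 (leaf 524 3)))))))))) (branch (move 430 (branch (move 557 (leaf 429 5)) (move 399 (branch (move 431 (leaf 398 6)) (move 398 (branch (move 367 (leaf 366 6)) (move 397 (branch (move 365 (leaf 365 7)) (move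 429 (leaf 397 7)))))))))) (branch (move 557 (branch (move 430 (leaf 429 5)) (move 589 (branch (move 558 (leaf 461 5)) (move 621 (leaf 493 6)))))) (ref 0))))) (branch (ref 1) (branch (move 493 (branch (ref 2) (branch (ref 3) (branch (move 461 (branch (move 429 (branch (move 397 (leaf 397 4)) (move 428 (branch (move 396 (leaf 396 7)) (move 460 (branch (move 557 (leaf 428 7)) (move 430 (branch (move 398 (leaf 397 6)) (move 459 (branch (move 458 (leaf 458 0)) (move 431 (leaf 427 1)))))))))))) (branch (move 558 (branch (move 429 (leaf 429 4)) (move 590 (leaf 461 7)))) (ref 4)))) (branch (ref 5) (ref 6)))))) (branch (move 462 (branch (ref 0) (branch (ref 7) (branch (ref 8) (branch (move 430 (branch (move 399 (branch (move 431 (leaf 398 6)) (move 398 (branch (move 367 (leaf 366 6)) (move 397 (branch (move 365 (leaf 365 7)) (move 429 (leaf 397 7)))))))) (branch (move 398 (branch (move 493 (leaf 397 5)) (move 399 (branch (move 367 (leaf 366 6)) (move 431 (leaf 398 6)))))) (branch (move 398 (branch (move 493 (leaf 397 5)) (move 397 (branch (move 365 (leaf 365 7)) (move 429 (leaf 397 7)))))) (move 429 (branch (move 397 (leaf 397 7)) (move 428 (branch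 (move 427 (branch (move 463 (leaf 427 0)) (move 426 (branch (move 461 (leaf 426 0)) (move 458 (branch (move 457 (leaf 425 1)) (move 459 (leaf 426 1)))))))) (branch (move 431 (branch (move 399 (leaf 398 6)) (move 460 (branch (move 459 (leaf 427 1)) (move 461 (branch (move 432 (leaf 428 1)) (move 396 (branch (move 395 (leaf 395 3)) (move 493 (leaf 396 7)))))))))) (move 431 (branch (move 399 (leaf 398 6)) (move 463 (branch (move 427 (leaf 427 0)) (move 464 (leaf 428 0))))))))))))))) (branch (move 558 (branch (move 463 (branch (move 431 (leaf 430 6)) (move 590 (branch (move 495 (leaf 462 6)) (move 591 (branch (move 559 (leaf 462 4)) (move 623 (leaf 494 4)))))))) (branch (move 461 (branch (move 429 (leaf 429 7)) (move 590 (branch (move 493 (leaf 461 7)) (move 591 (branch (move 559 (leaf 462 4)) (move 623 (leaf 494 4)))))))) (ref 9)))) (branch (ref 10) (ref 11)))))))) (branch (move 462 (branch (move 430 (branch (move 557 (leaf 429 5)) (move 399 (branch (move 431 (leaf 398 6)) (move 398 (branch (move 367 (leaf 366 6)) (move 397 (branch (move 365 (leaf 365 7)) (move 429 (leaf 397 7)))))))))) (branch (move 557 (branch (move 430 (leaf 429 5)) (move 589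 (branch (move 558 (leaf 461 5)) (move 621 (leaf 493 6)))))) (branch (move 430 (branch (move 398 (branch (move 493 (leaf 397 5)) (move 399 (branch (move 367 (leaf 366 6)) (move 431 (leaf 398 6)))))) (branch (move 398 (branch (move 493 (leaf 397 5)) (move 397 (branch (move 365 (leaf 365 7)) (move 429 (leaf 397 7)))))) (move 431 (branch (move 399 (leaf 398 6)) (move 429 (branch (move 397 (leaf 397 7)) (move 558 (branch (move 463 (leaf 430 6)) (move 461 (leaf 429 7))))))))))) (move 558 (branch (move 557 (branch (move 589 (leaf 461 5)) (move 559 (branch (move 591 (leaf 462 4)) (move 524 (branch (move 523 (leaf 523 0)) (move 560 (leaf 524 3)))))))) (branch (move 461 (branch (move 429 (leaf 429 7)) (move 590 (branch (move 493 (leaf 461 7)) (move 591 (branch (move 559 (leaf 462 4)) (move 623 (leaf 494 4)))))))) (move 557 (branch (move 589 (leaf 461 5)) (move 461 (branch (move 429 (leaf 429 7)) (move 493 (branch (move 590 (leaf 461 4)) (move 463 (branch (move 431 (leaf 430 6)) (move 492 (branch (move 464 (leaf 460 1)) (move 491 (leaf 459 2))))))))))))))))))) (branch (move 493 (branch (ref 3) (branch (ref 12) (branch (ref 5) (branch (ref 6) (move 461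 (branch (move 558 (branch (move 429 (leaf 429 4)) (move 590 (leaf 461 7)))) (branch (move 429 (branch (move 397 (leaf 397 4)) (move 428 (branch (move 396 (leaf 396 7)) (move 557 (branch (move 460 (leaf 428 7)) (move 589 (branch (move 621 (leaf 493 6)) (move 588 (branch (move 556 (leaf 460 5)) (move 620 (leaf 492 5)))))))))))) (ref 4))))))))) (branch (move 462 (branch (move 430 (branch (move 557 (leaf 429 5)) (move 399 (branch (move 431 (leaf 398 6)) (move 398 (branch (move 367 (leaf 366 6)) (move 397 (branch (move 365 (leaf 365 7)) (move 429 (leaf 397 7)))))))))) (branch (move 557 (branch (move 430 (leaf 429 5)) (move 589 (branch (move 558 (leaf 461 5)) (move 621 (leaf 493 6)))))) (branch (ref 7) (ref 13))))) (branch (move 462 (branch (move 430 (branch (move 557 (leaf 429 5)) (move 399 (branch (move 431 (leaf 398 6)) (move 398 (branch (move 367 (leaf 366 6)) (move 397 (branch (move 365 (leaf 365 7)) (move 429 (leaf 397 7)))))))))) (branch (move 557 (branch (move 430 (leaf 429 5)) (move 589 (branch (move 558 (leaf 461 5)) (move 621 (leaf 493 6)))))) (branch (ref 0) (move 558 (branch (move 557 (branch (move 589 (leaf 461 5)) (move 559 (branch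 (move 591 (leaf 462 4)) (move 524 (branch (move 523 (leaf 523 0)) (move 560 (leaf 524 3)))))))) (branch (ref 14) (ref 9)))))))) (branch (move 462 (branch (move 557 (branch (move 430 (leaf 429 5)) (move 589 (branch (move 558 (leaf 461 5)) (move 621 (leaf 493 6)))))) (branch (move 430 (branch (move 557 (leaf 429 5)) (move 398 (branch (move 493 (leaf 397 5)) (move 399 (branch (move 367 (leaf 366 6)) (move 431 (leaf 398 6)))))))) (branch (ref 11) (ref 13))))) (branch (move 462 (branch (move 430 (branch (move 557 (leaf 429 5)) (move 399 (branch (move 431 (leaf 398 6)) (move 398 (branch (move 367 (leaf 366 6)) (move 397 (branch (move 365 (leaf 365 7)) (move 429 (leaf 397 7)))))))))) (branch (move 557 (branch (move 430 (leaf 429 5)) (move 589 (branch (move 558 (leaf 461 5)) (move 621 (leaf 493 6)))))) (branch (ref 8) (ref 15))))) (branch (move 462 (branch (move 557 (branch (move 430 (leaf 429 5)) (move 589 (branch (move 558 (leaf 461 5)) (move 621 (leaf 493 6)))))) (branch (move 430 (branch (move 557 (leaf 429 5)) (move 398 (branch (move 493 (leaf 397 5)) (move 397 (branch (move 365 (leaf 365 7)) (move 429 (leaf 397 7)))))))) (branch (ref 10) (ref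 15))))) (branch (move 462 (branch (move 557 (branch (move 430 (leaf 429 5)) (move 589 (branch (move 558 (leaf 461 5)) (move 621 (leaf 493 6)))))) (branch (move 430 (branch (move 557 (leaf 429 5)) (move 398 (branch (move 493 (leaf 397 5)) (move 399 (branch (move 367 (leaf 366 6)) (move 431 (leaf 398 6)))))))) (move 558 (branch (move 463 (branch (move 431 (leaf 430 6)) (move 590 (branch (move 495 (leaf 462 6)) (move 591 (branch (move 559 (leaf 462 4)) (move 623 (leaf 494 4)))))))) (branch (move 461 (branch (move 429 (leaf 429 7)) (move 590 (branch (move 493 (leaf 461 7)) (move 591 (branch (move 559 (leaf 462 4)) (move 623 (leaf 494 4)))))))) (ref 9))))))) (branch (move 462 (branch (move 557 (branch (move 430 (leaf 429 5)) (move 589 (branch (move 558 (leaf 461 5)) (move 621 (leaf 493 6)))))) (branch (move 430 (branch (move 557 (leaf 429 5)) (move 398 (branch (move 493 (leaf 397 5)) (move 397 (branch (move 365 (leaf 365 7)) (move 429 (leaf 397 7)))))))) (move 558 (branch (move 463 (branch (move 431 (leaf 430 6)) (move 590 (branch (move 495 (leaf 462 6)) (move 591 (branch (move 559 (leaf 462 4)) (move 623 (leaf 494 4)))))))) (branch (move 461 (branch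 (move 429 (leaf 429 7)) (move 590 (branch (move 493 (leaf 461 7)) (move 591 (branch (move 559 (leaf 462 4)) (move 623 (leaf 494 4)))))))) (ref 9))))))) (ref 16)))))))))))))))
theorem a0p70 : a0e70.Valid :=
  pos_of_chk [a0e5, a0e8, a0e1, a0e57, a0e58, a0e59, a0e60, a0e14, a0e61, a0e62, a0e63, a0e64, a0e11, a0e65, a0e7, a0e66, a0e69] (forall_cons a0p5 (forall_cons a0p8 (forall_cons a0p1 (forall_cons a0p57 (forall_cons a0p58 (forall_cons a0p59 (forall_cons a0p60 (forall_cons a0p14 (forall_cons a0p61 (forall_cons a0p62 (forall_cons a0p63 (forall_cons a0p64 (forall_cons a0p11 (forall_cons a0p65 (forall_cons a0p7 (forall_cons a0p66 (forall_cons a0p69 forall_nil))))))))))))))))) a0c70 a0e70 (by decide +kernel)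

def a0e71 : Pos := ⟨219673525124179510879420825570604582952621929604585773100622830693937381868724993667921908501166545759273481964527387457187903615990932602002368905315681828864, 294332169192572606346125599658272499776190850424815852669266991649070276952079343610972631254982524667260765352505355220576266612253058418234675315984024036194663282415363053590530026308321023098880, 17⟩
def a0c71 : Cert := (move 525 (branch (ref 0) (branch (ref 1) (branch (ref 2) (branch (move 524 (branch (ref 3) (branch (ref 4) (branch (ref 5) (ref 6))))) (branch (move 524 (branch (ref 3) (branch (ref 7) (branch (ref 8) (move 527 (branch (move 492 (branch (move 491 (leaf 491 3)) (move 528 (branch (move 493 (leaf 492 3)) (move 560 (branch (move 559 (leaf 524 0)) (move 561 (leaf 525 0)))))))) (branch (move 556 (branch (move 555 (leaf 523 1)) (move 528 (branch (move 557 (leaf 524 1)) (move 560 (branch (move 559 (leaf 524 0)) (move 561 (leaf 525 0)))))))) (ref 9)))))))) (branch (ref 10) (branch (move 524 (branch (ref 3) (branch (ref 4) (branch (ref 5) (branch (move 523 (branch (move 491 (branch (move 490 (leaf 490 3)) (move 527 (branch (move 492 (leaf 491 3)) (move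 495 (branch (move 494 (leaf 491 2)) (move 496 (leaf 492 2)))))))) (branch (move 494 (branch (move 495 (leaf 491 2)) (move 493 (branch (move 522 (leaf 490 2)) (move 558 (branch (move 559 (leaf 523 0)) (move 461 (branch (move 429 (leaf 429 4)) (move 590 (leaf 461 7)))))))))) (move 491 (branch (move 490 (leaf 490 3)) (move 527 (branch (move 492 (leaf 491 3)) (move 559 (branch (move 558 (leaf 523 0)) (move 560 (leaf 524 0))))))))))) (move 527 (branch (ref 11) (branch (ref 9) (ref 12))))))))) (branch (move 524 (branch (move 523 (branch (move 554 (branch (move 555 (leaf 522 1)) (move 522 (branch (move 553 (leaf 521 1)) (move 490 (branch (move 489 (leaf 489 3)) (move 491 (leaf 490 3)))))))) (branch (move 494 (branch (move 495 (leaf 491 2)) (move 522 (branch (move 493 (leaf 490 2)) (move 490 (branch (move 489 (leaf 489 3)) (move 491 (leaf 490 3)))))))) (move 555 (branch (move 554 (leaf 522 1)) (move 527 (branch (move 556 (leaf 523 1)) (move 495 (branch (move 494 (leaf 491 2)) (move 496 (leaf 492 2))))))))))) (branch (move 527 (branch (move 556 (branch (move 555 (leaf 523 1)) (move 528 (branch (move 557 (leaf 524 1)) (move 560 (branch (move 559 (leaf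 524 0)) (move 561 (leaf 525 0)))))))) (branch (move 556 (branch (move 555 (leaf 523 1)) (move 528 (branch (move 557 (leaf 524 1)) (move 496 (branch (move 495 (leaf 492 2)) (move 497 (leaf 493 2)))))))) (ref 12)))) (branch (ref 13) (branch (move 523 (branch (move 558 (branch (move 559 (leaf 523 0)) (move 522 (branch (move 557 (leaf 522 0)) (move 490 (branch (move 489 (leaf 489 3)) (move 491 (leaf 490 3)))))))) (branch (move 494 (branch (move 495 (leaf 491 2)) (move 522 (branch (move 493 (leaf 490 2)) (move 490 (branch (move 489 (leaf 489 3)) (move 491 (leaf 490 3)))))))) (move 559 (branch (move 558 (leaf 523 0)) (move 527 (branch (move 560 (leaf 524 0)) (move 495 (branch (move 494 (leaf 491 2)) (move 496 (leaf 492 2))))))))))) (ref 14)))))) (branch (move 524 (branch (ref 15) (branch (ref 16) (branch (move 527 (branch (move 492 (branch (move 491 (leaf 491 3)) (move 528 (branch (move 493 (leaf 492 3)) (move 560 (branch (move 559 (leaf 524 0)) (move 561 (leaf 525 0)))))))) (branch (move 556 (branch (move 555 (leaf 523 1)) (move 528 (branch (move 557 (leaf 524 1)) (move 560 (branch (move 559 (leaf 524 0)) (move 561 (leaf 525 0)))))))) (ref 9))))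 (branch (ref 13) (branch (ref 17) (branch (ref 18) (ref 19)))))))) (branch (move 524 (branch (ref 6) (branch (ref 20) (branch (move 523 (branch (move 554 (branch (move 555 (leaf 522 1)) (move 522 (branch (move 553 (leaf 521 1)) (move 490 (branch (move 489 (leaf 489 3)) (move 491 (leaf 490 3)))))))) (branch (move 558 (branch (move 559 (leaf 523 0)) (move 522 (branch (move 557 (leaf 522 0)) (move 554 (branch (move 553 (leaf 521 1)) (move 555 (leaf 522 1)))))))) (move 491 (branch (move 490 (leaf 490 3)) (move 527 (branch (move 492 (leaf 491 3)) (move 559 (branch (move 558 (leaf 523 0)) (move 560 (leaf 524 0))))))))))) (branch (move 523 (branch (move 558 (branch (move 559 (leaf 523 0)) (move 522 (branch (move 557 (leaf 522 0)) (move 554 (branch (move 553 (leaf 521 1)) (move 555 (leaf 522 1)))))))) (branch (move 494 (branch (move 495 (leaf 491 2)) (move 522 (branch (move 493 (leaf 490 2)) (move 554 (branch (move 553 (leaf 521 1)) (move 555 (leaf 522 1)))))))) (move 559 (branch (move 558 (leaf 523 0)) (move 527 (branch (move 560 (leaf 524 0)) (move 495 (branch (move 494 (leaf 491 2)) (move 496 (leaf 492 2))))))))))) (move 523 (branch (move 554 (branch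 (move 555 (leaf 522 1)) (move 522 (branch (move 553 (leaf 521 1)) (move 490 (branch (move 489 (leaf 489 3)) (move 491 (leaf 490 3)))))))) (branch (move 558 (branch (move 559 (leaf 523 0)) (move 522 (branch (move 557 (leaf 522 0)) (move 554 (branch (move 553 (leaf 521 1)) (move 555 (leaf 522 1)))))))) (ref 21))))))))) (branch (move 524 (branch (ref 3) (branch (ref 20) (branch (ref 18) (branch (move 523 (branch (move 554 (branch (move 555 (leaf 522 1)) (move 522 (branch (move 553 (leaf 521 1)) (move 490 (branch (move 489 (leaf 489 3)) (move 491 (leaf 490 3)))))))) (branch (move 491 (branch (move 490 (leaf 490 3)) (move 527 (branch (move 492 (leaf 491 3)) (move 495 (branch (move 494 (leaf 491 2)) (move 496 (leaf 492 2)))))))) (move 555 (branch (move 554 (leaf 522 1)) (move 527 (branch (move 556 (leaf 523 1)) (move 495 (branch (move 494 (leaf 491 2)) (move 496 (leaf 492 2))))))))))) (branch (ref 22) (branch (ref 23) (move 527 (branch (move 556 (branch (move 555 (leaf 523 1)) (move 528 (branch (move 557 (leaf 524 1)) (move 496 (branch (move 495 (leaf 492 2)) (move 497 (leaf 493 2)))))))) (branch (move 492 (branch (move 491 (leaf 491 3)) (move 528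 (branch (move 493 (leaf 492 3)) (move 496 (branch (move 495 (leaf 492 2)) (move 497 (leaf 493 2)))))))) (ref 9))))))))))) (branch (move 524 (branch (ref 24) (branch (ref 3) (branch (ref 16) (ref 6))))) (branch (move 524 (branch (ref 24) (branch (ref 4) (branch (ref 7) (branch (move 527 (branch (move 556 (branch (move 555 (leaf 523 1)) (move 528 (branch (move 557 (leaf 524 1)) (move 560 (branch (move 559 (leaf 524 0)) (move 561 (leaf 525 0)))))))) (branch (move 556 (branch (move 555 (leaf 523 1)) (move 528 (branch (move 557 (leaf 524 1)) (move 496 (branch (move 495 (leaf 492 2)) (move 497 (leaf 493 2)))))))) (ref 12)))) (branch (ref 19) (branch (ref 22) (branch (ref 25) (ref 26))))))))) (branch (move 524 (branch (ref 27) (branch (ref 6) (branch (ref 8) (branch (ref 17) (branch (ref 23) (branch (ref 25) (branch (move 523 (branch (move 558 (branch (move 559 (leaf 523 0)) (move 522 (branch (move 557 (leaf 522 0)) (move 490 (branch (move 489 (leaf 489 3)) (move 491 (leaf 490 3)))))))) (branch (move 491 (branch (move 490 (leaf 490 3)) (move 527 (branch (move 492 (leaf 491 3)) (move 495 (branch (move 494 (leaf 491 2)) (move 496 (leaf 492 2))))))))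 (move 558 (branch (move 559 (leaf 523 0)) (move 557 (branch (move 522 (leaf 522 0)) (move 494 (branch (move 495 (leaf 491 2)) (move 589 (branch (move 462 (leaf 461 5)) (move 621 (leaf 493 6))))))))))))) (ref 28))))))))) (branch (move 524 (branch (ref 6) (branch (ref 7) (branch (move 527 (branch (move 492 (branch (move 491 (leaf 491 3)) (move 528 (branch (move 493 (leaf 492 3)) (move 560 (branch (move 559 (leaf 524 0)) (move 561 (leaf 525 0)))))))) (branch (move 556 (branch (move 555 (leaf 523 1)) (move 528 (branch (move 557 (leaf 524 1)) (move 560 (branch (move 559 (leaf 524 0)) (move 561 (leaf 525 0)))))))) (ref 9)))) (branch (move 527 (branch (move 556 (branch (move 555 (leaf 523 1)) (move 528 (branch (move 557 (leaf 524 1)) (move 496 (branch (move 495 (leaf 492 2)) (move 497 (leaf 493 2)))))))) (branch (move 492 (branch (move 491 (leaf 491 3)) (move 528 (branch (move 493 (leaf 492 3)) (move 496 (branch (move 495 (leaf 492 2)) (move 497 (leaf 493 2)))))))) (ref 9)))) (ref 26)))))) (branch (move 524 (branch (ref 6) (branch (ref 7) (branch (move 527 (branch (move 492 (branch (move 491 (leaf 491 3)) (move 528 (branch (move 493 (leaf 492 3))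 (move 560 (branch (move 559 (leaf 524 0)) (move 561 (leaf 525 0)))))))) (branch (move 556 (branch (move 555 (leaf 523 1)) (move 528 (branch (move 557 (leaf 524 1)) (move 560 (branch (move 559 (leaf 524 0)) (move 561 (leaf 525 0)))))))) (ref 9)))) (branch (move 527 (branch (move 556 (branch (move 555 (leaf 523 1)) (move 528 (branch (move 557 (leaf 524 1)) (move 496 (branch (move 495 (leaf 492 2)) (move 497 (leaf 493 2)))))))) (branch (move 492 (branch (move 491 (leaf 491 3)) (move 528 (branch (move 493 (leaf 492 3)) (move 496 (branch (move 495 (leaf 492 2)) (move 497 (leaf 493 2)))))))) (ref 9)))) (ref 28)))))) (ref 29))))))))))))))))))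
theorem a0p71 : a0e71.Valid :=
  pos_of_chk [a0e25, a0e28, a0e32, a0e33, a0e34, a0e35, a0e36, a0e37, a0e38, a0e39, a0e42, a0e27, a0e43, a0e44, a0e45, a0e29, a0e46, a0e47, a0e48, a0e49, a0e50, a0e51, a0e52, a0e53, a0e31, a0e54, a0e55, a0e30, a0e56, a0e70] (forall_cons a0p25 (forall_cons a0p28 (forall_cons a0p32 (forall_cons a0p33 (forall_cons a0p34 (forall_cons a0p35 (forall_cons a0p36 (forall_cons a0p37 (forall_cons a0p38 (forall_cons a0p39 (forall_cons a0p42 (forall_cons a0p27 (forall_cons a0p43 (forall_cons a0p44 (forall_cons a0p45 (forall_cons a0p29 (forall_cons a0p46 (forall_cons a0p47 (forall_cons a0p48 (forall_cons a0p49 (forall_cons a0p50 (forall_cons a0p51 (forall_cons a0p52 (forall_cons a0p53 (forall_cons a0p31 (forall_cons a0p54 (forall_cons a0p55 (forall_cons a0p30 (forall_cons a0p56 (forall_cons a0p70 forall_nil)))))))))))))))))))))))))))))) a0c71 a0e71 (by decide +kernel)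

end Crest.Agent.SN
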