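import Crest.Agent.Lib_SN_Check

set_option autoImplicit false
set_option linter.all false
set_option maxRecDepth 1000000

namespace Crest.Agent.SN
open Cert

def a1e0 : Pos := ⟨329510287711842630449274109544814530582778573417789708781070719735494796166164503497982179760000322023094506261979534534602185055744441249399798447744263127040, 21755412192866237635190399190934124400848607038776619446453417652249455991120303701844401661110828727142717602184015677644841379501253976155592481142900729668482988659403579017203739000832, 5⟩
def a1c0 : Cert := (move 557 (branch (move 460 (branch (move 428 (leaf 428 7)) (move 589 (branch (move 492 (leaf 460 7)) (move 588 (branch (move 556 (leaf 460 5)) (move 620 (leaf 492 5)))))))) (branch (move 558 (branch (move 590 (leaf 461 4)) (move 556 (branch (move 588 (leaf 460 5)) (move 555 (branch (move 554 (leaf 522 2)) (move 527 (leaf 523 2)))))))) (move 590 (branch (move 558 (leaf 461 4)) (move 589 (branch (move 622 (leaf 493 4)) (move 460 (branch (move 428 (leaf 428 7)) (move 492 (leaf 460 7)))))))))))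
theorem a1p0 : a1e0.Valid :=
  pos_of_chk [] forall_nil a1c0 a1e0 (by decide +kernel)

def a1e1 : Pos := ⟨109836762587663119569853283974209947630156643813203935680447889041557414297439509830060271258833776263821024297452147077414281439753508647397429542428581298176, 471745303102692669052571016320024020435253278991959285016348807839869834698455878401560253106327300991824802166237597144073078118639439512238286912363720507396949278720, 8⟩
def a1c1 : Cert := (move 428 (branch (move 429 (branch (move 396 (leaf 396 7)) (move 430 (branch (move 398 (leaf 397 6)) (move 462 (branch (move 557 (leaf 429 6)) (move 463 (branch (move 427 (leaf 427 0)) (move 464 (leaf 428 3)))))))))) (branch (move 460 (branch (move 557 (leaf 428 7)) (move 396 (branch (move 364 (leaf 364 4)) (move 492 (leaf 396 4)))))) (branch (move 396 (branch (move 429 (leaf 396 7)) (move 460 (branch (move 364 (leaf 364 4)) (move 492 (leaf 396 4)))))) (move 462 (branch (move 460 (branch (move 557 (leaf 428 7)) (move 463 (branch (move 427 (leaf 427 3)) (move 492 (branch (move 491 (leaf 459 1)) (move 464 (leaf 460 1)))))))) (branch (move 430 (branch (move 557 (leaf 429 6)) (move 398 (branch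 (move 366 (leaf 365 5)) (move 429 (leaf 397 6)))))) (move 463 (branch (move 460 (branch (move 427 (leaf 427 3)) (move 491 (branch (move 492 (leaf 459 1)) (move 459 (branch (move 490 (leaf 458 1)) (move 431 (branch (move 430 (leaf 427 2)) (move 432 (leaf 428 2)))))))))) (branch (move 464 (branch (move 492 (leaf 460 1)) (move 429 (leaf 428 3)))) (move 429 (branch (move 464 (leaf 428 3)) (move 427 (branch (move 426 (leaf 426 0)) (move 430 (leaf 427 0))))))))))))))))
theorem a1p1 : a1e1.Valid :=
  pos_of_chk [] forall_nil a1c1 a1e1 (by decide +kernel)

def a1e2 : Pos := ⟨41679839806007281531660424439529732017975210187253566848781773981814579337574690515217099612130057903516366038989727707420608195791278833664, 738430889234058354272994157701315722877134242344308421272260708552442651448324431255897740382122129067717884355117755759593364002168585566659924721664, 8⟩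
def a1c2 : Cert := (move 460 (branch (move 427 (branch (move 428 (leaf 427 3)) (move 459 (branch (move 426 (leaf 426 3)) (move 491 (branch (move 490 (leaf 458 1)) (move 492 (leaf 459 1)))))))) (branch (move 495 (branch (move 496 (leaf 460 0)) (move 491 (branch (move 492 (leaf 459 1)) (move 459 (branch (move 490 (leaf 458 1)) (move 430 (branch (move 431 (leaf 427 2)) (move 458 (branch (move 429 (leaf 426 2)) (move 426 (branch (move 425 (leaf 425 3)) (move 427 (leaf 426 3)))))))))))))) (branch (move 491 (branch (move 492 (leaf 459 1)) (move 459 (branch (move 490 (leaf 458 1)) (move 430 (branch (move 431 (leaf 427 2)) (move 429 (branch (move 458 (leaf 426 2)) (move 464 (branch (move 428 (leaf 428 3)) (move 465 (leaf 429 3)))))))))))) (move 428 (branch (move 427 (leaf 427 3)) (move 464 (branch (move 429 (leaf 428 3)) (move 496 (branch (move 495 (leaf 460 0)) (move 497 (leaf 461 0))))))))))))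
theorem a1p2 : a1e2.Valid :=
  pos_of_chk [] forall_nil a1c2 a1e2 (by decide +kernel)

def a1e3 : Pos := ⟨41679839806007281531660424439529732017975210187253566848781773981814579337574690515217099612130057903516366038989727707420608195791278833664, 2886593475855693584323492303223974715345364354675823072313796996630176676391195336160197275762400350942043678219112982325248342174752100383289423953920, 7⟩
def a1c3 : Cert := (move 464 (branch (move 433 (branch (move 432 (leaf 429 2)) (move 465 (branch (move 434 (leaf 430 2)) (move 430 (branch (move 429 (leaf 429 3)) (move 466 (branch (move 431 (leaf 430 3)) (move 498 (branch (move 497 (leaf 462 0)) (move 499 (leaf 463 0)))))))))))) (branch (move 429 (branch (move 428 (leaf 428 3)) (move 465 (branch (move 430 (leaf 429 3)) (move 498 (branch (move 497 (leaf 462 0)) (move 466 (branch (move 499 (leaf 463 0)) (move 434 (branch (move 433 (leaf 430 2)) (move 435 (leaf 431 2)))))))))))) (branch (move 432 (branch (move 433 (leaf 429 2)) (move 460 (branch (move 431 (leaf 428 2)) (move 491 (branch (move 492 (leaf 459 1)) (move 459 (branch (move 490 (leaf 458 1)) (move 427 (branch (move 426 (leaf 426 3))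 (move 428 (leaf 427 3)))))))))))) (move 428 (branch (move 429 (leaf 428 3)) (move 460 (branch (move 427 (leaf 427 3)) (move 431 (branch (move 432 (leaf 428 2)) (move 459 (branch (move 430 (leaf 427 2)) (move 491 (branch (move 490 (leaf 458 1)) (move 492 (leaf 459 1))))))))))))))))
theorem a1p3 : a1e3.Valid :=
  pos_of_chk [] forall_nil a1c3 a1e3 (by decide +kernel)

def a1e4 : Pos := ⟨41679839806007281531660424439529732017975210187253566848781773981814579337574690515217099612130057903516366038989727707420608195791278833664, 1534401847597195940975314332554728746929388559081017565069280307468027262759430782334520705459526113418292545635566373895791589620289241959236800348160, 5⟩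
def a1c4 : Cert := (move 464 (branch (move 433 (branch (move 432 (leaf 429 2)) (move 465 (branch (move 434 (leaf 430 2)) (move 497 (branch (move 496 (leaf 461 0)) (move 498 (leaf 462 0)))))))) (branch (move 496 (branch (move 497 (leaf 461 0)) (move 460 (branch (move 495 (leaf 460 0)) (move 428 (branch (move 427 (leaf 427 3)) (move 429 (leaf 428 3)))))))) (move 432 (branch (move 433 (leaf 429 2)) (move 460 (branch (move 431 (leaf 428 2)) (move 428 (branch (move 427 (leaf 427 3)) (move 429 (leaf 428 3)))))))))))
theorem a1p4 : a1e4.Valid :=
  pos_of_chk [] forall_nil a1c4 a1e4 (by decide +kernel)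

def a1e5 : Pos := ⟨219673525124179510897283614058893417894762111507241372536897920774188910518202896802985299645841413122937953226868840844409203346986530190896915274940515614720, 2830471819055503067622998802870561538137612712502203778982594600636629476529705401644526022371297952069827328913387714980495590994482376361225558934914675795069646143488, 11⟩
def a1c5 : Cert := (move 463 (branch (move 460 (branch (move 427 (branch (move 428 (leaf 427 3)) (move 459 (branch (move 426 (leaf 426 3)) (move 491 (branch (move 490 (leaf 458 1)) (move 492 (leaf 459 1)))))))) (move 431 (branch (move 432 (leaf 428 2)) (move 495 (branch (move 496 (leaf 460 0)) (move 527 (branch (move 558 (leaf 430 5)) (move 430 (branch (move 398 (leaf 398 7)) (move 559 (leaf 430 7)))))))))))) (branch (ref 0) (branch (move 464 (branch (move 433 (branch (move 432 (leaf 429 2)) (move 465 (branch (move 434 (leaf 430 2)) (move 497 (branch (move 496 (leaf 461 0)) (move 498 (leaf 462 0)))))))) (branch (move 429 (branch (move 428 (leaf 428 3)) (move 465 (branch (move 430 (leaf 429 3)) (move 433 (branch (move 432 (leaf 429 2)) (move 434 (leaf 430 2)))))))) (move 496 (branch (move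 497 (leaf 461 0)) (move 460 (branch (move 495 (leaf 460 0)) (move 428 (branch (move 427 (leaf 427 3)) (move 429 (leaf 428 3))))))))))) (branch (move 464 (branch (move 433 (branch (move 432 (leaf 429 2)) (move 465 (branch (move 434 (leaf 430 2)) (move 497 (branch (move 496 (leaf 461 0)) (move 498 (leaf 462 0)))))))) (branch (move 496 (branch (move 497 (leaf 461 0)) (move 460 (branch (move 495 (leaf 460 0)) (move 491 (branch (move 492 (leaf 459 1)) (move 459 (branch (move 490 (leaf 458 1)) (move 430 (branch (move 431 (leaf 427 2)) (move 429 (branch (move 458 (leaf 426 2)) (move 465 (leaf 429 3)))))))))))))) (branch (move 433 (branch (move 432 (leaf 429 2)) (move 465 (branch (move 434 (leaf 430 2)) (move 430 (branch (move 429 (leaf 429 3)) (move 466 (branch (move 431 (leaf 430 3)) (move 498 (branch (move 497 (leaf 462 0)) (move 499 (leaf 463 0)))))))))))) (branch (move 432 (branch (move 433 (leaf 429 2)) (move 460 (branch (move 431 (leaf 428 2)) (move 496 (branch (move 495 (leaf 460 0)) (move 497 (leaf 461 0)))))))) (move 433 (branch (move 432 (leaf 429 2)) (move 465 (branch (move 434 (leaf 430 2)) (move 430 (branch (move 429 (leaf 429 3))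 (move 431 (branch (move 466 (leaf 430 3)) (move 460 (branch (move 459 (leaf 427 2)) (move 495 (branch (move 496 (leaf 460 0)) (move 527 (branch (move 558 (leaf 430 5)) (move 398 (leaf 398 7))))))))))))))))))))) (branch (ref 1) (branch (ref 2) (move 464 (branch (move 433 (branch (move 432 (leaf 429 2)) (move 465 (branch (move 434 (leaf 430 2)) (move 497 (branch (move 496 (leaf 461 0)) (move 498 (leaf 462 0)))))))) (branch (move 429 (branch (move 428 (leaf 428 3)) (move 465 (branch (move 430 (leaf 429 3)) (move 497 (branch (move 496 (leaf 461 0)) (move 498 (leaf 462 0)))))))) (branch (move 429 (branch (move 428 (leaf 428 3)) (move 465 (branch (move 430 (leaf 429 3)) (move 433 (branch (move 432 (leaf 429 2)) (move 434 (leaf 430 2)))))))) (move 432 (branch (move 433 (leaf 429 2)) (move 495 (branch (move 496 (branch (move 497 (leaf 461 0)) (move 400 (branch (move 368 (leaf 367 5)) (move 399 (branch (move 367 (leaf 367 7)) (move 401 (branch (move 369 (leaf 368 6)) (move 429 (branch (move 428 (leaf 428 3)) (move 430 (branch (move 398 (leaf 397 1)) (move 431 (leaf 397 2)))))))))))))) (branch (move 527 (branch (move 559 (leaf 431 6)) (move 496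 (branch (move 497 (leaf 461 0)) (move 431 (branch (move 558 (leaf 430 5)) (move 399 (branch (move 367 (leaf 367 4)) (move 398 (branch (move 366 (leaf 366 7)) (move 430 (leaf 398 7)))))))))))) (branch (move 527 (branch (move 559 (leaf 431 6)) (move 431 (branch (move 558 (leaf 430 5)) (move 400 (leaf 399 6)))))) (move 496 (branch (move 497 (leaf 461 0)) (move 527 (branch (move 400 (leaf 399 5)) (move 559 (leaf 431 6)))))))))))))))))))))))
theorem a1p5 : a1e5.Valid :=
  pos_of_chk [a1e2, a1e3, a1e4] (forall_cons a1p2 (forall_cons a1p3 (forall_cons a1p4 forall_nil))) a1c5 a1e5 (by decide +kernel)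

def a1e6 : Pos := ⟨329510287737415994585371243563151798384004313062919291056632223456834029079067484205769293816475781195166946664615139012496281264501016125427558994056614772736, 117936325803132358639298995380059547567394482786464536560074263326252837182627816919926712057095907227924473132391515746511907340228185113472118887791855953976202625024, 10⟩
def a1c6 : Cert := (move 460 (branch (move 463 (branch (move 428 (branch (move 427 (leaf 427 3)) (move 464 (branch (move 429 (leaf 428 3)) (move 432 (branch (move 431 (leaf 428 2)) (move 433 (leaf 429 2)))))))) (branch (move 496 (branch (move 495 (leaf 460 0)) (move 464 (branch (move 497 (leaf 461 0)) (move 428 (branch (move 427 (leaf 427 3)) (move 429 (leaf 428 3)))))))) (move 495 (branch (move 496 (leaf 460 0)) (move 431 (branch (move 432 (leaf 428 2)) (move 399 (leaf 398 5))))))))) (branch (move 459 (branch (move 495 (leaf 459 0)) (move 426 (branch (move 427 (leaf 426 3)) (move 458 (branch (move 425 (leaf 425 3)) (move 490 (branch (move 489 (leaf 457 1)) (move 491 (leaf 458 1)))))))))) (branch (move 495 (branch (move 459 (leaf 459 0)) (move 496 (branch (move 463 (leaf 460 0)) (move 497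 (leaf 493 1)))))) (move 491 (branch (move 463 (branch (move 492 (leaf 459 1)) (move 428 (branch (move 427 (leaf 427 3)) (move 464 (branch (move 429 (leaf 428 3)) (move 432 (branch (move 431 (leaf 428 2)) (move 433 (leaf 429 2)))))))))) (branch (move 459 (branch (move 490 (leaf 458 1)) (move 427 (branch (move 426 (leaf 426 3)) (move 428 (branch (move 463 (leaf 427 3)) (move 396 (branch (move 364 (leaf 363 5)) (move 523 (leaf 395 6)))))))))) (branch (move 492 (branch (move 463 (leaf 459 1)) (move 490 (branch (move 459 (leaf 458 1)) (move 489 (leaf 457 2)))))) (move 459 (branch (move 490 (leaf 458 1)) (move 428 (branch (move 396 (branch (move 364 (leaf 363 5)) (move 523 (branch (move 492 (leaf 395 5)) (move 555 (leaf 427 6)))))) (branch (move 426 (branch (move 427 (leaf 426 3)) (move 458 (branch (move 425 (leaf 425 3)) (move 457 (branch (move 429 (leaf 425 2)) (move 456 (branch (move 492 (leaf 456 0)) (move 488 (branch (move 487 (leaf 455 1)) (move 489 (leaf 456 1)))))))))))) (move 427 (branch (move 426 (leaf 426 3)) (move 396 (branch (move 364 (leaf 363 5)) (move 523 (leaf 395 6)))))))))))))))))))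
theorem a1p6 : a1e6.Valid :=
  pos_of_chk [] forall_nil a1c6 a1e6 (by decide +kernel)

def a1e7 : Pos := ⟨329510287737415994585371243563151798384004313062919291056632223456834029079067484205769293816475781195166946664615139012496281264501016125427558994056614772736, 43510824434359610854173012911133785959722148626592590335697055704234640580991953470193831433087945483767396435927351363141322317967623985676710341335515490020786508088577026912069196185600, 9⟩
def a1c7 : Cert := (move 558 (branch (move 589 (branch (move 557 (leaf 461 5)) (move 590 (branch (move 621 (leaf 493 5)) (move 591 (branch (move 559 (leaf 462 4)) (move 623 (leaf 494 4)))))))) (branch (move 463 (branch (move 431 (leaf 430 6)) (move 495 (branch (move 590 (leaf 462 6)) (move 496 (branch (move 460 (leaf 460 0)) (move 497 (leaf 493 1)))))))) (move 463 (branch (move 431 (leaf 430 6)) (move 559 (branch (move 591 (leaf 462 4)) (move 557 (branch (move 589 (leaf 461 5)) (move 560 (branch (move 561 (leaf 525 3)) (move 592 (branch (move 593 (leaf 557 0)) (move 495 (branch (move 527 (leaf 463 4)) (move 496 (branch (move 460 (leaf 460 0)) (move 497 (leaf 493 1)))))))))))))))))))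
theorem a1p7 : a1e7.Valid :=
  pos_of_chk [] forall_nil a1c7 a1e7 (by decide +kernel)

def a1e8 : Pos := ⟨329510287737415994585371243563151798384004313062919291056632223456834029079067484205769293816475781195166946664615139012496281264501016125427558994056614772736, 2830471819055503065145579153005607101853484670584449174477169445579991674464748481884514676323446849583403854095875526468161717896739439422817440599841390768127146459136, 6⟩
def a1c8 : Cert := (move 430 (branch (move 527 (branch (move 559 (leaf 430 4)) (move 495 (branch (move 398 (leaf 398 4)) (move 496 (branch (move 497 (leaf 493 1)) (move 460 (branch (move 459 (leaf 459 0)) (move 463 (leaf 460 0)))))))))) (branch (move 431 (branch (move 399 (leaf 398 6)) (move 463 (branch (move 558 (leaf 430 6)) (move 460 (branch (move 459 (leaf 427 2)) (move 432 (leaf 428 2)))))))) (move 527 (branch (move 559 (leaf 430 4)) (move 398 (branch (move 495 (leaf 398 4)) (move 399 (branch (move 367 (leaf 366 6)) (move 431 (leaf 398 6)))))))))))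
theorem a1p8 : a1e8.Valid :=
  pos_of_chk [] forall_nil a1c8 a1e8 (by decide +kernel)

def a1e9 : Pos := ⟨329510287686269266325085501185336486076312955041097192796359276067656582352913458213570659799974774426798380034238232314855622000984931432635068814515134005248, 43510824434359610854290949236936918320151583110936771427297276108061884554518505647953649497065485524502519007190016279998478341296586207494904367902542773034671385750813742099505237458944, 12⟩
def a1c9 : Cert := (move 462 (branch (ref 0) (branch (move 494 (branch (move 558 (branch (move 429 (leaf 429 7)) (move 589 (branch (move 557 (leaf 461 5)) (move 590 (branch (move 621 (leaf 493 5)) (move 591 (branch (move 559 (leaf 462 4)) (move 623 (leaf 494 4)))))))))) (branch (move 430 (branch (move 557 (leaf 429 5)) (move 527 (branch (move 559 (leaf 430 4)) (move 398 (branch (move 495 (leaf 398 4)) (move 399 (branch (move 367 (leaf 366 6)) (move 431 (leaf 398 6)))))))))) (move 429 (branch (move 558 (leaf 429 7)) (move 397 (branch (move 365 (leaf 365 4)) (move 430 (leaf 397 7))))))))) (branch (move 494 (branch (ref 1) (branch (move 558 (branch (move 429 (leaf 429 7)) (move 589 (branch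 (move 557 (leaf 461 5)) (move 590 (branch (move 621 (leaf 493 5)) (move 591 (branch (move 559 (leaf 462 4)) (move 623 (leaf 494 4)))))))))) (ref 2)))) (branch (move 494 (branch (move 430 (branch (move 557 (leaf 429 5)) (move 527 (branch (move 559 (leaf 430 4)) (move 398 (branch (move 495 (leaf 398 4)) (move 399 (branch (move 367 (leaf 366 6)) (move 431 (leaf 398 6)))))))))) (branch (ref 2) (branch (move 557 (branch (move 430 (leaf 429 5)) (move 589 (branch (move 558 (leaf 461 5)) (move 621 (leaf 493 6)))))) (ref 3))))) (branch (move 494 (branch (move 430 (branch (move 557 (leaf 429 5)) (move 429 (branch (move 397 (leaf 397 7)) (move 527 (branch (move 559 (leaf 430 4)) (move 495 (branch (move 398 (leaf 398 4)) (move 496 (branch (move 497 (leaf 493 1)) (move 460 (branch (move 459 (leaf 459 0)) (move 463 (leaf 460 0)))))))))))))) (branch (move 558 (branch (move 429 (leaf 429 7)) (move 589 (branch (move 557 (leaf 461 5)) (move 590 (branch (move 621 (leaf 493 5)) (move 591 (branch (move 559 (leaf 462 4)) (move 623 (leaf 494 4)))))))))) (branch (move 429 (branch (move 558 (leaf 429 7)) (move 397 (branch (move 365 (leaf 365 4)) (move 430 (leaf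 397 7)))))) (move 557 (branch (move 430 (leaf 429 5)) (move 589 (branch (move 558 (leaf 461 5)) (move 621 (leaf 493 6)))))))))) (branch (move 494 (branch (move 430 (branch (move 557 (leaf 429 5)) (move 431 (branch (move 399 (leaf 398 6)) (move 460 (branch (move 459 (leaf 427 2)) (move 432 (branch (move 433 (leaf 429 1)) (move 463 (leaf 428 2)))))))))) (branch (move 558 (branch (move 429 (leaf 429 7)) (move 589 (branch (move 557 (leaf 461 5)) (move 590 (branch (move 621 (leaf 493 5)) (move 591 (branch (move 559 (leaf 462 4)) (move 623 (leaf 494 4)))))))))) (move 429 (branch (move 558 (leaf 429 7)) (move 397 (branch (move 365 (leaf 365 4)) (move 430 (leaf 397 7))))))))) (branch (move 494 (branch (ref 1) (branch (move 430 (branch (move 557 (leaf 429 5)) (move 431 (branch (move 399 (leaf 398 6)) (move 460 (branch (move 459 (leaf 427 2)) (move 432 (branch (move 433 (leaf 429 1)) (move 463 (leaf 428 2)))))))))) (move 429 (branch (move 558 (leaf 429 7)) (move 397 (branch (move 365 (leaf 365 4)) (move 430 (leaf 397 7))))))))) (move 494 (branch (ref 1) (branch (move 430 (branch (move 557 (leaf 429 5)) (move 429 (branch (move 397 (leaf 397 7)) (move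 431 (branch (move 399 (leaf 398 6)) (move 432 (branch (move 460 (leaf 428 1)) (move 433 (leaf 429 1)))))))))) (branch (move 430 (branch (move 557 (leaf 429 5)) (move 429 (branch (move 397 (leaf 397 7)) (move 431 (branch (move 399 (leaf 398 6)) (move 432 (branch (move 433 (leaf 429 1)) (move 464 (branch (move 465 (leaf 429 0)) (move 463 (branch (move 428 (leaf 428 0)) (move 527 (branch (move 559 (leaf 430 4)) (move 495 (branch (move 398 (leaf 398 4)) (move 400 (leaf 399 6)))))))))))))))))) (branch (move 430 (branch (move 557 (leaf 429 5)) (move 431 (branch (move 399 (leaf 398 6)) (move 460 (branch (move 459 (leaf 427 2)) (move 432 (branch (move 433 (leaf 429 1)) (move 463 (leaf 428 2)))))))))) (move 430 (branch (move 557 (leaf 429 5)) (move 429 (branch (move 397 (leaf 397 7)) (move 527 (branch (move 559 (leaf 430 4)) (move 495 (branch (move 398 (leaf 398 4)) (move 496 (branch (move 497 (leaf 493 1)) (move 460 (branch (move 459 (leaf 459 0)) (move 463 (leaf 460 0)))))))))))))))))))))))))))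
theorem a1p9 : a1e9.Valid :=
  pos_of_chk [a1e5, a1e6, a1e7, a1e8] (forall_cons a1p5 (forall_cons a1p6 (forall_cons a1p7 (forall_cons a1p8 forall_nil)))) a1c9 a1e9 (by decide +kernel)

def a1e10 : Pos := ⟨329510287711842630449274109544814530582778573417789708781070719735494796166164503497982179760000322023094506261979534534602185055744441249399798447744263127040, 51146728622007209309680351285201086585386580817195225360311334403929604543860343198446252236942504503931138022379301165930384310197179759169082753024, 8⟩
def a1c10 : Cert := (move 429 (branch (move 397 (branch (move 494 (leaf 397 4)) (move 396 (branch (move 364 (leaf 364 7)) (move 428 (leaf 396 7)))))) (branch (move 396 (branch (move 428 (leaf 396 7)) (move 397 (branch (move 364 (leaf 364 7)) (move 398 (branch (move 366 (leaf 365 6)) (move 430 (leaf 397 6)))))))) (branch (move 397 (branch (move 494 (leaf 397 4)) (move 398 (branch (move 366 (leaf 365 6)) (move 430 (leaf 397 6)))))) (move 430 (branch (move 398 (leaf 397 6)) (move 431 (branch (move 432 (branch (move 460 (leaf 428 1)) (move 433 (branch (move 462 (leaf 429 1)) (move 465 (branch (move 464 (leaf 429 0)) (move 466 (leaf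 430 0)))))))) (branch (move 428 (branch (move 396 (leaf 396 7)) (move 463 (branch (move 464 (leaf 428 0)) (move 462 (branch (move 427 (leaf 427 0)) (move 399 (branch (move 400 (leaf 396 2)) (move 494 (leaf 398 6)))))))))) (move 428 (branch (move 396 (leaf 396 7)) (move 460 (branch (move 459 (leaf 427 1)) (move 432 (leaf 428 1)))))))))))))))
theorem a1p10 : a1e10.Valid :=
  pos_of_chk [] forall_nil a1c10 a1e10 (by decide +kernel)

def a1e11 : Pos := ⟨329510287711842630449274109544814530582778573417789708781070719735494796166164503497982179760000322023094506261979534534602185055744441249399798447744263127040, 74751027109579623529393105366793790338832184114633142772484443928005779692410705798374590538398897280454744317087831866277734413080054969271435045091585641957855587801782603632651050293931991367680, 6⟩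
def a1c11 : Cert := (move 557 (branch (move 460 (branch (move 428 (leaf 428 7)) (move 589 (branch (move 492 (leaf 460 7)) (move 588 (branch (move 556 (leaf 460 5)) (move 620 (leaf 492 5)))))))) (branch (move 428 (branch (move 460 (leaf 428 7)) (move 429 (branch (move 396 (leaf 396 7)) (move 397 (branch (move 494 (leaf 397 4)) (move 398 (branch (move 366 (leaf 365 6)) (move 430 (leaf 397 6)))))))))) (move 588 (branch (move 556 (leaf 460 5)) (move 589 (branch (move 620 (leaf 492 5)) (move 621 (branch (move 494 (leaf 493 6)) (move 622 (branch (move 590 (leaf 493 4)) (move 654 (leaf 525 4)))))))))))))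
theorem a1p11 : a1e11.Valid :=
  pos_of_chk [] forall_nil a1c11 a1e11 (by decide +kernel)

def a1e12 : Pos := ⟨329510287711842630449274109544814530582778573417789708781070719735494796166164503497982179760000322023094506261979534534602185055744441249399798447744263127040, 471745303102692669081341050955270507700784560305913401363030716045940981249127963493923528504657033642312517112150596947768940081371357493038419071476383494656948699136, 6⟩
def a1c12 : Cert := (move 429 (branch (move 397 (branch (move 494 (leaf 397 4)) (move 396 (branch (move 364 (leaf 364 7)) (move 428 (leaf 396 7)))))) (branch (move 397 (branch (move 494 (leaf 397 4)) (move 398 (branch (move 366 (leaf 365 6)) (move 430 (leaf 397 6)))))) (move 430 (branch (move 398 (leaf 397 6)) (move 462 (branch (move 557 (leaf 429 6)) (move 428 (branch (move 396 (leaf 396 7)) (move 463 (branch (move 427 (leaf 427 0)) (move 464 (leaf 428 3)))))))))))))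
theorem a1p12 : a1e12.Valid :=
  pos_of_chk [] forall_nil a1c12 a1e12 (by decide +kernel)

def a1e13 : Pos := ⟨329510287711842630449274109544814530582778573417789708781070719735494796166164503497982179760000322023094506261979534534602185055744441249399798447744263127040, 13053247314504064191404446233422962967150730026671888157326501600761541843724251993703530643901268770675293936272395521686727432801756414952911717671431469968542655870687743780004107911168, 7⟩
def a1c13 : Cert := (move 429 (branch (move 428 (branch (move 396 (leaf 396 7)) (move 557 (branch (move 460 (leaf 428 7)) (move 588 (branch (move 556 (leaf 460 5)) (move 589 (branch (move 620 (leaf 492 5)) (move 494 (branch (move 462 (leaf 461 6)) (move 621 (leaf 493 6)))))))))))) (branch (move 397 (branch (move 494 (leaf 397 4)) (move 366 (branch (move 398 (leaf 365 6)) (move 365 (branch (move 334 (leaf 333 6)) (move 364 (branch (move 332 (leaf 332 7)) (move 396 (leaf 364 7)))))))))) (branch (move 397 (branch (move 494 (leaf 397 4)) (move 366 (branch (move 398 (leaf 365 6)) (move 365 (branch (move 334 (leaf 333 6)) (move 460 (branch (move 492 (leaf 364 5)) (move 428 (branch (move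 333 (leaf 332 5)) (move 557 (leaf 428 7)))))))))))) (move 397 (branch (move 366 (branch (move 398 (leaf 365 6)) (move 365 (branch (move 334 (leaf 333 6)) (move 460 (branch (move 492 (leaf 364 5)) (move 428 (branch (move 333 (leaf 332 5)) (move 557 (leaf 428 7)))))))))) (branch (move 366 (branch (move 398 (leaf 365 6)) (move 365 (branch (move 334 (leaf 333 6)) (move 364 (branch (move 332 (leaf 332 7)) (move 396 (leaf 364 7)))))))) (move 396 (branch (move 364 (leaf 364 7)) (move 428 (leaf 396 7)))))))))))
theorem a1p13 : a1e13.Valid :=
  pos_of_chk [] forall_nil a1c13 a1e13 (by decide +kernel)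

def a1e14 : Pos := ⟨329510287711842630449274109544814530582778573417789708781070719735494796166164503497982179760000322023094506261979534534602185055744441249399798447744263127040, 4351082440194152046474233057706664027547505788701928951159582458364694911081279212090912258955110351770787594183901828414231932595139472859799558984858765280396894671036850507784176795648, 10⟩
def a1c14 : Cert := (move 557 (branch (move 460 (branch (move 428 (leaf 428 7)) (move 589 (branch (move 492 (leaf 460 7)) (move 588 (branch (move 556 (leaf 460 5)) (move 620 (leaf 492 5)))))))) (branch (move 462 (branch (move 430 (leaf 429 6)) (move 589 (branch (move 494 (leaf 461 6)) (move 588 (branch (move 556 (leaf 460 5)) (move 620 (leaf 492 5)))))))) (move 492 (branch (move 460 (branch (move 428 (leaf 428 7)) (move 462 (branch (move 430 (leaf 429 6)) (move 463 (branch (move 491 (leaf 459 1)) (move 464 (leaf 460 1)))))))) (branch (move 460 (branch (move 428 (leaf 428 7)) (move 491 (branch (move 490 (leaf 490 0)) (move 494 (branch (move 527 (leaf 491 0)) (move 459 (branch (move 458 (leaf 458 0)) (move 495 (leaf 459 3)))))))))) (branch (move 462 (branch (move 430 (leaf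 429 6)) (move 460 (branch (move 428 (leaf 428 7)) (move 463 (branch (move 464 (leaf 460 1)) (move 495 (branch (move 496 (leaf 460 0)) (move 459 (branch (move 494 (leaf 459 0)) (move 458 (branch (move 457 (leaf 457 0)) (move 426 (branch (move 425 (leaf 425 3)) (move 427 (leaf 426 3)))))))))))))))) (move 462 (branch (move 430 (leaf 429 6)) (move 491 (branch (move 490 (leaf 490 0)) (move 494 (branch (move 527 (leaf 491 0)) (move 463 (leaf 459 2)))))))))))))))
theorem a1p14 : a1e14.Valid :=
  pos_of_chk [] forall_nil a1c14 a1e14 (by decide +kernel)

def a1e15 : Pos := ⟨329510287711842630449274109544814530582778573417789708781070719735494796166164503497982179760000322023094506261979534534602185055744441249399798447744263127040, 4351082440194152046474233057706664027956679614783842748755352252027335531252505224572015128019764478961318315447821822935422691892943244658759043336496629139003499498382541874887573635072, 9⟩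
def a1c15 : Cert := (move 492 (branch (move 557 (branch (move 589 (branch (move 460 (leaf 460 7)) (move 588 (branch (move 556 (leaf 460 5)) (move 620 (leaf 492 5)))))) (branch (move 430 (branch (move 462 (leaf 429 6)) (move 429 (branch (move 398 (leaf 397 6)) (move 397 (branch (move 494 (leaf 397 4)) (move 365 (branch (move 460 (leaf 364 5)) (move 364 (branch (move 332 (leaf 332 7)) (move 396 (leaf 364 7)))))))))))) (move 462 (branch (move 430 (leaf 429 6)) (move 589 (branch (move 494 (leaf 461 6)) (move 588 (branch (move 556 (leaf 460 5)) (move 620 (leaf 492 5))))))))))) (branch (move 491 (branch (move 490 (leaf 490 0)) (move 494 (branch (move 527 (leaf 491 0)) (move 459 (branch (move 458 (leaf 458 3)) (move 495 (branch (move 460 (leaf 459 3)) (move 429 (branch (move 397 (leaf 397 4)) (move 496 (branch (move 497 (leaf 493 1)) (move 464 (branch (move 463 (leaf 460 2)) (move 465 (leaf 461 2)))))))))))))))) (branch (move 491 (branch (move 490 (leaf 490 0)) (move 494 (branch (move 527 (leaf 491 0)) (move 462 (branch (move 463 (leaf 459 2)) (move 430 (branch (move 398 (leaf 397 5)) (move 557 (leaf 429 5)))))))))) (move 462 (branch (move 430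 (branch (move 557 (leaf 429 6)) (move 398 (branch (move 366 (leaf 365 5)) (move 429 (leaf 397 6)))))) (move 491 (branch (move 490 (leaf 490 0)) (move 463 (branch (move 460 (leaf 459 1)) (move 464 (leaf 460 1))))))))))))
theorem a1p15 : a1e15.Valid :=
  pos_of_chk [] forall_nil a1c15 a1e15 (by decide +kernel)

def a1e16 : Pos := ⟨41679839806007281531660424439529732017975210187253566848781773981814579337574690515217099612130057903516366038989727707420608195791278833664, 1556778541207349538996001981418553321666483587648433736665072930721601499559575726745080401731092301929347984057442497147538185187570645189772514951168, 7⟩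
def a1c16 : Cert := (move 464 (branch (move 433 (branch (move 432 (leaf 429 2)) (move 465 (branch (move 434 (leaf 430 2)) (move 497 (branch (move 496 (leaf 461 0)) (move 498 (leaf 462 0)))))))) (branch (move 432 (branch (move 433 (leaf 429 2)) (move 460 (branch (move 431 (leaf 428 2)) (move 491 (branch (move 492 (leaf 459 1)) (move 459 (branch (move 490 (leaf 458 1)) (move 427 (branch (move 426 (leaf 426 3)) (move 428 (leaf 427 3)))))))))))) (move 496 (branch (move 497 (leaf 461 0)) (move 460 (branch (move 495 (leaf 460 0)) (move 491 (branch (move 492 (leaf 459 1)) (move 459 (branch (move 490 (leaf 458 1)) (move 427 (branch (move 426 (leaf 426 3)) (move 428 (leaf 427 3)))))))))))))))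
theorem a1p16 : a1e16.Valid :=
  pos_of_chk [] forall_nil a1c16 a1e16 (by decide +kernel)

def a1e17 : Pos := ⟨219673525124179510921100665376611864484282354044115505118598040881190948717506767649736487838741236274490581576657445360704269654980660309422977101106960662528, 2830471819055503065963926805001971055033687211128569309008752510502354672458191123981608493456239455681763272664951798447917678952598173170760321771570333116390799572992, 6⟩
def a1c17 : Cert := (move 432 (branch (move 464 (branch (move 433 (leaf 429 2)) (move 496 (branch (move 497 (leaf 461 0)) (move 495 (branch (move 460 (leaf 460 0)) (move 527 (branch (move 400 (leaf 399 5)) (move 559 (leaf 431 6)))))))))) (branch (move 433 (branch (move 464 (leaf 429 2)) (move 431 (branch (move 430 (leaf 429 1)) (move 434 (leaf 430 1)))))) (branch (move 431 (branch (move 460 (leaf 428 2)) (move 433 (branch (move 430 (leaf 429 1)) (move 434 (leaf 430 1)))))) (move 495 (branch (move 496 (branch (move 460 (leaf 460 0)) (move 497 (branch (move 464 (leaf 461 0)) (move 498 (leaf 462 3)))))) (branch (move 431 (branch (move 460 (leaf 428 2)) (move 527 (branch (move 558 (leaf 430 5)) (move 400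 (leaf 399 6)))))) (move 527 (branch (move 431 (branch (move 558 (leaf 430 5)) (move 400 (leaf 399 6)))) (move 559 (branch (move 464 (leaf 431 6)) (move 430 (leaf 430 7)))))))))))))
theorem a1p17 : a1e17.Valid :=
  pos_of_chk [] forall_nil a1c17 a1e17 (by decide +kernel)

def a1e18 : Pos := ⟨41679839806007281531660424439529732017975210187253566848781773981814579337574690515217099612130057903516366038989727707420608195791278833664, 1531205177083160930636523936912087703289791071663722292997234716908350454275164206785054854134796175701606681837695934092778675370805915556543385829376, 7⟩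
def a1c18 : Cert := (move 464 (branch (move 433 (branch (move 432 (leaf 429 2)) (move 465 (branch (move 434 (leaf 430 2)) (move 497 (branch (move 496 (leaf 461 0)) (move 498 (leaf 462 0)))))))) (branch (move 432 (branch (move 433 (leaf 429 2)) (move 460 (branch (move 431 (leaf 428 2)) (move 491 (branch (move 492 (leaf 459 1)) (move 459 (branch (move 490 (leaf 458 1)) (move 427 (branch (move 426 (leaf 426 3)) (move 428 (leaf 427 3)))))))))))) (move 493 (branch (move 492 (leaf 460 1)) (move 465 (branch (move 494 (leaf 461 1)) (move 497 (branch (move 496 (leaf 461 0)) (move 498 (leaf 462 0)))))))))))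
theorem a1p18 : a1e18.Valid :=
  pos_of_chk [] forall_nil a1c18 a1e18 (by decide +kernel)

def a1e19 : Pos := ⟨219673525124179510921100665376611864484282354044115505118598040881190948717506767649736487838741236274490581576657445360704269654980660309422977101106960662528, 4052261298678835292252658643261439188389283425753440400703121238172484536715363901613997230258394003185901313510663980916583352141090805945233587693740852985154590164584266465280, 10⟩
def a1c19 : Cert := (move 464 (branch (move 496 (branch (move 497 (leaf 461 0)) (move 460 (branch (move 495 (leaf 460 0)) (move 491 (branch (move 492 (leaf 459 1)) (move 459 (branch (move 490 (leaf 458 1)) (move 427 (branch (move 426 (leaf 426 3)) (move 428 (leaf 427 3)))))))))))) (branch (move 493 (branch (move 492 (leaf 460 1)) (move 494 (branch (move 465 (leaf 461 1)) (move 558 (branch (move 431 (leaf 430 6)) (move 590 (leaf 461 7)))))))) (move 496 (branch (move 497 (leaf 461 0)) (move 460 (branch (move 495 (leaf 460 0)) (move 427 (branch (move 428 (leaf 427 3)) (move 459 (branch (move 426 (leaf 426 3)) (move 431 (branch (move 430 (leaf 427 2)) (move 494 (branch (move 558 (leaf 430 6))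 (move 399 (branch (move 367 (leaf 367 4)) (move 493 (branch (move 458 (leaf 458 0)) (move 465 (leaf 461 1)))))))))))))))))))))
theorem a1p19 : a1e19.Valid :=
  pos_of_chk [] forall_nil a1c19 a1e19 (by decide +kernel)

def a1e20 : Pos := ⟨329510287686269266336994026844195709371073076309534259087209336121157601452565393636946253896424686002574694209132534573003155154981996491898099727598356529152, 12156783896036505877197322979220722275711296088600270369391785690923825089999851125427569347287636377129826493193714133993637295370895681868886781761891568299137407741025723613184, 12⟩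
def a1c20 : Cert := (move 463 (branch (move 460 (branch (move 427 (branch (move 428 (leaf 427 3)) (move 459 (branch (move 426 (leaf 426 3)) (move 491 (branch (move 490 (leaf 458 1)) (move 492 (leaf 459 1)))))))) (move 431 (branch (move 432 (leaf 428 2)) (move 495 (branch (move 496 (leaf 460 0)) (move 527 (branch (move 558 (leaf 430 5)) (move 430 (branch (move 398 (leaf 398 7)) (move 559 (leaf 430 7)))))))))))) (branch (ref 0) (branch (move 464 (branch (move 433 (branch (move 432 (leaf 429 2)) (move 465 (branch (move 434 (leaf 430 2)) (move 497 (branch (move 496 (leaf 461 0)) (move 498 (leaf 462 0)))))))) (branch (move 496 (branch (move 497 (leaf 461 0)) (move 460 (branch (move 495 (leaf 460 0)) (move 491 (branch (move 492 (leaf 459 1)) (move 459 (branch (move 490 (leaf 458 1)) (move 427 (branch (move 426 (leaf 426 3)) (move 428 (leaf 427 3)))))))))))) (move 493 (branch (move 492 (leaf 460 1)) (move 494 (branch (move 465 (leaf 461 1)) (move 558 (branch (move 590 (leaf 461 7)) (move 559 (branch (move 591 (leaf 462 4)) (move 430 (branch (move 527 (leaf 430 4)) (move 398 (leaf 397 5))))))))))))))) (branch (ref 1) (branch (move 464 (branch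 (move 432 (branch (move 433 (leaf 429 2)) (move 460 (branch (move 431 (leaf 428 2)) (move 492 (branch (move 491 (leaf 459 1)) (move 493 (leaf 460 1)))))))) (branch (move 493 (branch (move 492 (leaf 460 1)) (move 494 (branch (move 465 (leaf 461 1)) (move 558 (branch (move 590 (leaf 461 7)) (move 559 (branch (move 591 (leaf 462 4)) (move 430 (branch (move 527 (leaf 430 4)) (move 398 (leaf 397 5)))))))))))) (move 432 (branch (move 433 (leaf 429 2)) (move 431 (branch (move 460 (leaf 428 2)) (move 494 (branch (move 558 (leaf 430 6)) (move 399 (branch (move 367 (leaf 366 5)) (move 495 (leaf 398 5))))))))))))) (branch (ref 2) (move 464 (branch (move 433 (branch (move 432 (leaf 429 2)) (move 465 (branch (move 434 (leaf 430 2)) (move 497 (branch (move 496 (leaf 461 0)) (move 498 (leaf 462 0)))))))) (branch (move 493 (branch (move 492 (leaf 460 1)) (move 494 (branch (move 465 (leaf 461 1)) (move 558 (branch (move 431 (leaf 430 6)) (move 590 (leaf 461 7)))))))) (move 432 (branch (move 433 (leaf 429 2)) (move 495 (branch (move 527 (branch (move 559 (leaf 431 6)) (move 496 (branch (move 497 (leaf 461 0)) (move 431 (branch (move 558 (leaf 430 5)) (move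 399 (branch (move 367 (leaf 367 4)) (move 398 (branch (move 366 (leaf 366 7)) (move 430 (leaf 398 7)))))))))))) (branch (move 527 (branch (move 559 (leaf 431 6)) (move 431 (branch (move 558 (leaf 430 5)) (move 400 (leaf 399 6)))))) (branch (move 496 (branch (move 497 (leaf 461 0)) (move 527 (branch (move 400 (leaf 399 5)) (move 559 (leaf 431 6)))))) (move 496 (branch (move 497 (leaf 461 0)) (move 400 (branch (move 368 (leaf 367 5)) (move 399 (branch (move 367 (leaf 367 7)) (move 431 (branch (move 494 (leaf 398 5)) (move 398 (branch (move 366 (leaf 366 7)) (move 401 (branch (move 369 (leaf 368 6)) (move 402 (branch (move 430 (leaf 398 1)) (move 403 (leaf 399 1))))))))))))))))))))))))))))))))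
theorem a1p20 : a1e20.Valid :=
  pos_of_chk [a1e17, a1e18, a1e19] (forall_cons a1p17 (forall_cons a1p18 (forall_cons a1p19 forall_nil))) a1c20 a1e20 (by decide +kernel)

def a1e21 : Pos := ⟨329510287686269266336994026844195709371073076309534259087209336121157601452565393636946253896424686002574694209132534573003155154981996491898099727598356529152, 471745303542039720912051977986107677900751549680988224975344512736077294151403023279886183736646916051775703693577238597537827824843554033977488360698577127013271732224, 8⟩
def a1c21 : Cert := (move 463 (branch (ref 0) (branch (move 464 (branch (move 433 (branch (move 432 (leaf 429 2)) (move 465 (branch (move 434 (leaf 430 2)) (move 497 (branch (move 496 (leaf 461 0)) (move 498 (leaf 462 0)))))))) (move 493 (branch (move 492 (leaf 460 1)) (move 430 (branch (move 557 (leaf 429 6)) (move 398 (branch (move 366 (leaf 365 5)) (move 494 (leaf 397 5)))))))))) (branch (move 460 (branch (move 427 (branch (move 428 (leaf 427 3)) (move 459 (branch (move 426 (leaf 426 3)) (move 491 (branch (move 490 (leaf 458 1)) (move 492 (leaf 459 1)))))))) (branch (move 428 (branch (move 427 (leaf 427 3)) (move 493 (branch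 (move 557 (leaf 428 7)) (move 396 (branch (move 364 (leaf 364 4)) (move 492 (leaf 396 4)))))))) (move 431 (branch (move 432 (leaf 428 2)) (move 430 (branch (move 459 (leaf 427 2)) (move 494 (branch (move 557 (leaf 429 5)) (move 399 (leaf 398 6))))))))))) (branch (move 460 (branch (move 427 (branch (move 428 (leaf 427 3)) (move 459 (branch (move 426 (leaf 426 3)) (move 491 (branch (move 490 (leaf 458 1)) (move 492 (leaf 459 1)))))))) (branch (move 428 (branch (move 427 (leaf 427 3)) (move 493 (branch (move 557 (leaf 428 7)) (move 396 (branch (move 364 (leaf 364 4)) (move 492 (leaf 396 4)))))))) (move 495 (branch (move 496 (leaf 460 0)) (move 494 (branch (move 459 (leaf 459 0)) (move 430 (branch (move 557 (leaf 429 5)) (move 398 (branch (move 366 (leaf 366 4)) (move 527 (leaf 398 4))))))))))))) (move 460 (branch (move 495 (branch (move 496 (leaf 460 0)) (move 494 (branch (move 459 (leaf 459 0)) (move 431 (branch (move 432 (leaf 428 2)) (move 399 (leaf 398 5)))))))) (branch (move 431 (branch (move 432 (leaf 428 2)) (move 430 (branch (move 459 (leaf 427 2)) (move 494 (branch (move 557 (leaf 429 5)) (move 399 (leaf 398 6)))))))) (branch (move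 495 (branch (move 496 (leaf 460 0)) (move 494 (branch (move 459 (leaf 459 0)) (move 430 (branch (move 557 (leaf 429 5)) (move 398 (branch (move 366 (leaf 366 4)) (move 527 (leaf 398 4)))))))))) (branch (move 431 (branch (move 432 (leaf 428 2)) (move 430 (branch (move 459 (leaf 427 2)) (move 495 (branch (move 496 (leaf 460 0)) (move 398 (branch (move 366 (leaf 366 4)) (move 527 (leaf 398 7)))))))))) (move 495 (branch (move 496 (leaf 460 0)) (move 431 (branch (move 432 (leaf 428 2)) (move 494 (branch (move 399 (leaf 398 5)) (move 430 (branch (move 557 (leaf 429 5)) (move 398 (branch (move 366 (leaf 366 4)) (move 527 (leaf 398 4))))))))))))))))))))))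
theorem a1p21 : a1e21.Valid :=
  pos_of_chk [a1e16] (forall_cons a1p16 forall_nil) a1c21 a1e21 (by decide +kernel)

def a1e22 : Pos := ⟨329510287686269266360811078161914155960593318846408391668909456228159639651869264483697442089324509154127322558921139089298221462976126610424161553764801576960, 4052261299150580595355351313087604469375954623820462374036530591236126466426030537075767824343349949412189088018864699788701742904856789504613559270824801360046877424236971950080, 8⟩
def a1c22 : Cert := (move 464 (branch (move 433 (branch (move 432 (leaf 429 2)) (move 465 (branch (move 434 (leaf 430 2)) (move 497 (branch (move 496 (leaf 461 0)) (move 498 (leaf 462 0)))))))) (branch (move 432 (branch (move 433 (leaf 429 2)) (move 431 (branch (move 460 (leaf 428 2)) (move 494 (branch (move 558 (leaf 430 6)) (move 399 (branch (move 367 (leaf 366 5)) (move 495 (leaf 398 5)))))))))) (move 496 (branch (move 497 (leaf 461 0)) (move 460 (branch (move 495 (leaf 460 0)) (move 428 (branch (move 427 (leaf 427 3)) (move 493 (branch (move 557 (leaf 428 7)) (move 494 (branch (move 465 (leaf 461 1)) (move 558 (branch (move 431 (leaf 430 6)) (move 590 (leaf 461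 7)))))))))))))))))
theorem a1p22 : a1e22.Valid :=
  pos_of_chk [] forall_nil a1c22 a1e22 (by decide +kernel)

def a1e23 : Pos := ⟨329510287686269266336994026844195709371073076309534259087209336121157601452565393636946253896424686002574694209132534573003155154981996491898099727598356529152, 26106494638125716305013176363517264682445922224300444433907241778927870281410411913064034250822093210155658619801440627952779603424478130841175571000772294018752732848497363704359929511936, 10⟩
def a1c23 : Cert := (move 463 (branch (ref 0) (branch (ref 1) (branch (move 460 (branch (move 427 (branch (move 428 (leaf 427 3)) (move 459 (branch (move 426 (leaf 426 3)) (move 491 (branch (move 490 (leaf 458 1)) (move 492 (leaf 459 1)))))))) (branch (move 428 (branch (move 427 (leaf 427 3)) (move 493 (branch (move 557 (leaf 428 7)) (move 396 (branch (move 364 (leaf 364 4)) (move 492 (leaf 396 4)))))))) (branch (move 495 (branch (move 496 (leaf 460 0)) (move 494 (branch (move 459 (leaf 459 0)) (move 558 (branch (move 590 (leaf 462 6)) (move 557 (branch (move 589 (leaf 461 5)) (move 428 (branch (move 427 (leaf 427 3)) (move 493 (leaf 428 7)))))))))))) (move 495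 (branch (move 496 (leaf 460 0)) (move 494 (branch (move 459 (leaf 459 0)) (move 558 (branch (move 590 (leaf 462 6)) (move 492 (branch (move 491 (leaf 459 1)) (move 464 (branch (move 493 (leaf 460 1)) (move 559 (branch (move 591 (leaf 462 4)) (move 432 (branch (move 433 (leaf 429 2)) (move 527 (leaf 431 6)))))))))))))))))))) (branch (ref 2) (branch (move 460 (branch (move 428 (branch (move 427 (leaf 427 3)) (move 493 (branch (move 557 (leaf 428 7)) (move 396 (branch (move 364 (leaf 364 4)) (move 492 (leaf 396 4)))))))) (move 431 (branch (move 432 (leaf 428 2)) (move 494 (branch (move 558 (leaf 430 6)) (move 399 (branch (move 367 (leaf 366 5)) (move 495 (leaf 398 5)))))))))) (branch (move 460 (branch (move 428 (branch (move 427 (leaf 427 3)) (move 493 (branch (move 557 (leaf 428 7)) (move 396 (branch (move 364 (leaf 364 4)) (move 492 (leaf 396 4)))))))) (move 495 (branch (move 496 (leaf 460 0)) (move 494 (branch (move 459 (leaf 459 0)) (move 558 (branch (move 431 (leaf 430 6)) (move 590 (leaf 462 6)))))))))) (move 464 (branch (move 433 (branch (move 432 (leaf 429 2)) (move 465 (branch (move 434 (leaf 430 2)) (move 497 (branch (move 496 (leaf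 461 0)) (move 498 (leaf 462 0)))))))) (move 558 (branch (move 493 (branch (move 492 (leaf 460 1)) (move 590 (branch (move 557 (leaf 461 4)) (move 622 (leaf 493 7)))))) (branch (move 494 (branch (move 431 (leaf 430 6)) (move 590 (branch (move 495 (leaf 462 6)) (move 589 (branch (move 557 (leaf 461 5)) (move 621 (leaf 493 5)))))))) (branch (move 494 (branch (move 431 (leaf 430 6)) (move 493 (branch (move 492 (leaf 460 1)) (move 557 (branch (move 589 (leaf 461 5)) (move 556 (branch (move 588 (leaf 460 5)) (move 555 (branch (move 554 (leaf 522 2)) (move 527 (leaf 523 2)))))))))))) (move 494 (branch (move 431 (leaf 430 6)) (move 590 (branch (move 495 (leaf 462 6)) (move 493 (leaf 461 7)))))))))))))))))))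
theorem a1p23 : a1e23.Valid :=
  pos_of_chk [a1e16, a1e18, a1e22] (forall_cons a1p16 (forall_cons a1p18 (forall_cons a1p22 forall_nil))) a1c23 a1e23 (by decide +kernel)

def a1e24 : Pos := ⟨329510287686269266325085501185336486076312955041097192796359276067656582352913458213570659799974774426798380034238232314855622000984931432635068814515134005248, 65266236621147456541345159163249575347557622089483617832912990877724837314622354740758188914759862768867596608721147215922290382831162943310590952456732278079528011829177572197177673908224, 13⟩
def a1c24 : Cert := (move 462 (branch (move 463 (branch (move 460 (branch (move 427 (branch (move 428 (leaf 427 3)) (move 459 (branch (move 426 (leaf 426 3)) (move 491 (branch (move 490 (leaf 458 1)) (move 492 (leaf 459 1)))))))) (move 431 (branch (move 432 (leaf 428 2)) (move 495 (branch (move 496 (leaf 460 0)) (move 527 (branch (move 558 (leaf 430 5)) (move 430 (branch (move 398 (leaf 398 7)) (move 559 (leaf 430 7)))))))))))) (branch (move 464 (branch (move 433 (branch (move 432 (leaf 429 2)) (move 465 (branch (move 434 (leaf 430 2)) (move 497 (branch (move 496 (leaf 461 0)) (move 498 (leaf 462 0))))))))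 (move 493 (branch (move 492 (leaf 460 1)) (move 557 (branch (move 430 (leaf 429 6)) (move 558 (branch (move 590 (leaf 461 4)) (move 556 (branch (move 588 (leaf 460 5)) (move 555 (branch (move 554 (leaf 522 2)) (move 527 (leaf 523 2)))))))))))))) (branch (move 493 (branch (move 492 (branch (move 464 (leaf 460 1)) (move 491 (branch (move 490 (leaf 490 0)) (move 460 (leaf 459 1)))))) (move 557 (branch (move 430 (leaf 429 6)) (move 558 (branch (move 590 (leaf 461 4)) (move 556 (branch (move 588 (leaf 460 5)) (move 555 (branch (move 554 (leaf 522 2)) (move 527 (leaf 523 2)))))))))))) (branch (ref 0) (ref 1)))))) (branch (move 494 (branch (move 430 (branch (move 557 (leaf 429 5)) (move 527 (branch (move 559 (leaf 430 4)) (move 398 (branch (move 495 (leaf 398 4)) (move 399 (branch (move 367 (leaf 366 6)) (move 431 (leaf 398 6)))))))))) (branch (ref 2) (branch (move 557 (branch (move 430 (leaf 429 5)) (move 589 (branch (move 558 (leaf 461 5)) (move 621 (leaf 493 6)))))) (ref 3))))) (branch (ref 4) (branch (move 557 (branch (move 493 (branch (move 430 (leaf 429 6)) (move 558 (branch (move 590 (leaf 461 4)) (move 556 (branch (move 588 (leaf 460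 5)) (move 555 (branch (move 554 (leaf 522 2)) (move 527 (leaf 523 2)))))))))) (branch (move 494 (branch (move 430 (leaf 429 5)) (move 589 (branch (move 558 (leaf 461 5)) (move 621 (leaf 493 6)))))) (branch (move 430 (branch (move 494 (leaf 429 5)) (move 493 (leaf 429 6)))) (move 493 (branch (move 558 (branch (move 590 (leaf 461 4)) (move 556 (branch (move 588 (leaf 460 5)) (move 555 (branch (move 554 (leaf 522 2)) (move 527 (leaf 523 2)))))))) (branch (move 589 (branch (move 494 (leaf 461 6)) (move 588 (branch (move 556 (leaf 460 5)) (move 620 (leaf 492 5)))))) (move 589 (branch (move 494 (leaf 461 6)) (move 590 (branch (move 558 (leaf 461 4)) (move 622 (leaf 493 4))))))))))))) (branch (ref 5) (branch (move 463 (branch (ref 0) (branch (ref 6) (branch (ref 7) (branch (move 460 (branch (move 428 (branch (move 427 (leaf 427 3)) (move 493 (branch (move 557 (leaf 428 7)) (move 396 (branch (move 364 (leaf 364 4)) (move 492 (leaf 396 4)))))))) (move 431 (branch (move 432 (leaf 428 2)) (move 494 (branch (move 558 (leaf 430 6)) (move 399 (branch (move 367 (leaf 366 5)) (move 495 (leaf 398 5)))))))))) (move 464 (branch (move 433 (branch (move 432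 (leaf 429 2)) (move 465 (branch (move 434 (leaf 430 2)) (move 497 (branch (move 496 (leaf 461 0)) (move 498 (leaf 462 0)))))))) (move 493 (branch (move 492 (leaf 460 1)) (move 430 (branch (move 557 (leaf 429 6)) (move 398 (branch (move 366 (leaf 365 5)) (move 494 (leaf 397 5))))))))))))))) (ref 8))))))))
theorem a1p24 : a1e24.Valid :=
  pos_of_chk [a1e16, a1e17, a1e7, a1e8, a1e20, a1e21, a1e19, a1e22, a1e23] (forall_cons a1p16 (forall_cons a1p17 (forall_cons a1p7 (forall_cons a1p8 (forall_cons a1p20 (forall_cons a1p21 (forall_cons a1p19 (forall_cons a1p22 (forall_cons a1p23 forall_nil))))))))) a1c24 a1e24 (by decide +kernel)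

def a1e25 : Pos := ⟨329510287711842630449274109544814530582778573417789708781070719735494796166164503497982179760000322023094506261979534534602185055744441249399798447744263127040, 4351082444246413345329972838622832420570039826457044304067782330736642842373246409202756920682013556304300965158120331281749261589671940490935730332389194822444437644559374176579043196928, 7⟩
def a1c25 : Cert := (move 557 (branch (move 462 (branch (move 430 (leaf 429 6)) (move 589 (branch (move 494 (leaf 461 6)) (move 588 (branch (move 556 (leaf 460 5)) (move 620 (leaf 492 5)))))))) (branch (move 558 (branch (move 590 (leaf 461 4)) (move 556 (branch (move 588 (leaf 460 5)) (move 555 (branch (move 554 (leaf 522 2)) (move 527 (leaf 523 2)))))))) (move 558 (branch (move 590 (leaf 461 4)) (move 462 (branch (move 430 (leaf 429 6)) (move 494 (branch (move 589 (leaf 461 5)) (move 463 (branch (move 431 (leaf 430 6)) (move 492 (branch (move 464 (leaf 460 1)) (move 491 (leaf 459 2)))))))))))))))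
theorem a1p25 : a1e25.Valid :=
  pos_of_chk [] forall_nil a1c25 a1e25 (by decide +kernel)

def a1e26 : Pos := ⟨329510287686269266336994026844195709371073076309534259087209336121157601452565393636946253896424686002574694209132534573003155154981996491898099727598356529152, 439347053518552959501925695028355930704589984924493337477645866677098325689871614837113242302629928483731367678855236674843249948189533644990954566188762398720, 11⟩
def a1c26 : Cert := (move 463 (branch (ref 0) (branch (ref 1) (branch (ref 2) (branch (move 464 (branch (move 433 (branch (move 432 (leaf 429 2)) (move 465 (branch (move 434 (leaf 430 2)) (move 497 (branch (move 496 (leaf 461 0)) (move 498 (leaf 462 0)))))))) (branch (move 496 (branch (move 497 (leaf 461 0)) (move 460 (branch (move 495 (leaf 460 0)) (move 491 (branch (move 492 (leaf 459 1)) (move 459 (branch (move 490 (leaf 458 1)) (move 430 (branch (move 431 (leaf 427 2)) (move 429 (branch (move 458 (leaf 426 2)) (move 465 (leaf 429 3)))))))))))))) (move 432 (branch (move 433 (leaf 429 2)) (move 460 (branch (move 431 (leaf 428 2)) (move 492 (branch (move 491 (leaf 459 1)) (move 493 (leaf 460 1))))))))))) (branch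 (move 464 (branch (move 433 (branch (move 432 (leaf 429 2)) (move 465 (branch (move 434 (leaf 430 2)) (move 497 (branch (move 496 (leaf 461 0)) (move 498 (leaf 462 0)))))))) (branch (move 429 (branch (move 428 (leaf 428 3)) (move 465 (branch (move 430 (leaf 429 3)) (move 497 (branch (move 496 (leaf 461 0)) (move 498 (leaf 462 0)))))))) (branch (move 429 (branch (move 428 (leaf 428 3)) (move 465 (branch (move 430 (leaf 429 3)) (move 433 (branch (move 432 (leaf 429 2)) (move 434 (leaf 430 2)))))))) (move 493 (branch (move 492 (leaf 460 1)) (move 429 (branch (move 428 (leaf 428 3)) (move 397 (branch (move 494 (leaf 397 4)) (move 432 (branch (move 433 (leaf 429 2)) (move 496 (branch (move 497 (leaf 461 0)) (move 366 (branch (move 398 (leaf 365 6)) (move 365 (branch (move 334 (leaf 333 6)) (move 364 (branch (move 332 (leaf 332 7)) (move 396 (leaf 364 7)))))))))))))))))))))) (branch (move 460 (branch (move 495 (branch (move 496 (leaf 460 0)) (move 494 (branch (move 459 (leaf 459 0)) (move 431 (branch (move 432 (leaf 428 2)) (move 399 (leaf 398 5)))))))) (move 428 (branch (move 427 (leaf 427 3)) (move 492 (branch (move 491 (leaf 459 1)) (move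 493 (branch (move 464 (leaf 460 1)) (move 396 (leaf 396 4)))))))))) (move 460 (branch (move 427 (branch (move 428 (leaf 427 3)) (move 459 (branch (move 426 (leaf 426 3)) (move 491 (branch (move 490 (leaf 458 1)) (move 492 (leaf 459 1)))))))) (branch (move 495 (branch (move 496 (leaf 460 0)) (move 494 (branch (move 459 (leaf 459 0)) (move 431 (branch (move 432 (leaf 428 2)) (move 399 (leaf 398 5)))))))) (move 495 (branch (move 496 (leaf 460 0)) (move 431 (branch (move 432 (leaf 428 2)) (move 399 (branch (move 494 (leaf 398 5)) (move 398 (branch (move 366 (leaf 366 7)) (move 430 (branch (move 527 (leaf 398 7)) (move 429 (branch (move 493 (leaf 397 6)) (move 428 (branch (move 427 (leaf 427 0)) (move 400 (leaf 396 2))))))))))))))))))))))))))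
theorem a1p26 : a1e26.Valid :=
  pos_of_chk [a1e2, a1e3, a1e4] (forall_cons a1p2 (forall_cons a1p3 (forall_cons a1p4 forall_nil))) a1c26 a1e26 (by decide +kernel)

def a1e27 : Pos := ⟨329510287686269266336994026844195709371073076309534259087209336121157601452565393636946253896424686002574694209132534573003155154981996491898099727598356529152, 4052261298678835292252658644079786840386391661797025986631941169822648254228586892182980316360838032987048354260255293640780704776269483770148289329592738975386659047311931342848, 6⟩
def a1c27 : Cert := (move 463 (branch (ref 0) (branch (move 464 (branch (move 433 (branch (move 432 (leaf 429 2)) (move 465 (branch (move 434 (leaf 430 2)) (move 497 (branch (move 496 (leaf 461 0)) (move 498 (leaf 462 0)))))))) (move 493 (branch (move 492 (leaf 460 1)) (move 429 (branch (move 428 (leaf 428 3)) (move 558 (leaf 429 4)))))))) (branch (move 464 (branch (move 432 (branch (move 433 (leaf 429 2)) (move 460 (branch (move 431 (leaf 428 2)) (move 496 (branch (move 495 (leaf 460 0)) (move 497 (leaf 461 0)))))))) (branch (move 432 (branch (move 433 (leaf 429 2)) (move 460 (branch (move 431 (leaf 428 2)) (move 492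 (branch (move 491 (leaf 459 1)) (move 493 (leaf 460 1)))))))) (move 493 (branch (move 492 (leaf 460 1)) (move 465 (branch (move 494 (leaf 461 1)) (move 497 (branch (move 496 (leaf 461 0)) (move 498 (leaf 462 0))))))))))) (branch (move 460 (branch (move 427 (branch (move 428 (leaf 427 3)) (move 459 (branch (move 426 (leaf 426 3)) (move 491 (branch (move 490 (leaf 458 1)) (move 492 (leaf 459 1)))))))) (move 431 (branch (move 432 (leaf 428 2)) (move 494 (branch (move 558 (leaf 430 6)) (move 399 (branch (move 367 (leaf 366 5)) (move 495 (leaf 398 5)))))))))) (move 460 (branch (move 427 (branch (move 428 (leaf 427 3)) (move 459 (branch (move 426 (leaf 426 3)) (move 491 (branch (move 490 (leaf 458 1)) (move 492 (leaf 459 1)))))))) (branch (move 428 (branch (move 427 (leaf 427 3)) (move 464 (branch (move 429 (leaf 428 3)) (move 496 (branch (move 495 (leaf 460 0)) (move 497 (leaf 461 0)))))))) (move 495 (branch (move 496 (leaf 460 0)) (move 494 (branch (move 459 (leaf 459 0)) (move 558 (branch (move 431 (leaf 430 6)) (move 590 (leaf 462 6))))))))))))))))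
theorem a1p27 : a1e27.Valid :=
  pos_of_chk [a1e4] (forall_cons a1p4 forall_nil) a1c27 a1e27 (by decide +kernel)

def a1e28 : Pos := ⟨329510287686269266325085501185336486076312955041097192796359276067656582352913458213570659799974774426798380034238232314855622000984931432635068814515134005248, 12156783896036505877197322980857417579861811959897670424803859258848490551798334104666132133767070848566392339701100313091548804813042955053928209927434926332306748847613154426880, 13⟩
def a1c28 : Cert := (move 462 (branch (ref 0) (branch (ref 1) (branch (ref 2) (branch (ref 3) (branch (move 429 (branch (move 493 (branch (move 558 (leaf 429 4)) (move 430 (branch (move 398 (leaf 397 6)) (move 428 (branch (move 396 (leaf 396 7)) (move 463 (branch (move 427 (leaf 427 0)) (move 464 (leaf 428 3)))))))))) (branch (move 494 (branch (move 558 (leaf 429 7)) (move 397 (branch (move 365 (leaf 365 4)) (move 430 (leaf 397 7)))))) (branch (move 558 (branch (move 493 (leaf 429 4)) (move 494 (leaf 429 7)))) (move 493 (branch (move 397 (branch (move 494 (leaf 397 4)) (move 366 (branch (move 398 (leaf 365 6)) (move 365 (branch (move 334 (leaf 333 6)) (move 364 (branch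 (move 332 (leaf 332 7)) (move 396 (leaf 364 7)))))))))) (branch (move 430 (branch (move 398 (leaf 397 6)) (move 428 (branch (move 396 (leaf 396 7)) (move 463 (branch (move 427 (leaf 427 0)) (move 464 (leaf 428 3)))))))) (branch (move 494 (branch (move 397 (leaf 397 4)) (move 428 (branch (move 396 (leaf 396 7)) (move 463 (branch (move 464 (leaf 428 3)) (move 427 (branch (move 426 (leaf 426 0)) (move 430 (leaf 427 0)))))))))) (move 430 (branch (move 398 (leaf 397 6)) (move 494 (branch (move 397 (leaf 397 4)) (move 431 (branch (move 399 (leaf 398 6)) (move 432 (branch (move 433 (leaf 429 1)) (move 464 (branch (move 465 (leaf 429 0)) (move 463 (branch (move 428 (leaf 428 0)) (move 492 (leaf 460 1)))))))))))))))))))))) (branch (move 429 (branch (move 493 (branch (move 558 (leaf 429 4)) (move 428 (branch (move 396 (leaf 396 7)) (move 463 (branch (move 464 (leaf 428 3)) (move 427 (branch (move 426 (leaf 426 0)) (move 460 (leaf 427 3)))))))))) (branch (move 494 (branch (move 558 (leaf 429 7)) (move 397 (branch (move 365 (leaf 365 4)) (move 430 (leaf 397 7)))))) (move 493 (branch (move 428 (branch (move 396 (leaf 396 7)) (move 463 (branch (move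 464 (leaf 428 3)) (move 427 (branch (move 426 (leaf 426 0)) (move 460 (leaf 427 3)))))))) (branch (move 397 (branch (move 494 (leaf 397 4)) (move 366 (branch (move 398 (leaf 365 6)) (move 365 (branch (move 334 (leaf 333 6)) (move 364 (branch (move 332 (leaf 332 7)) (move 396 (leaf 364 7)))))))))) (move 430 (branch (move 398 (leaf 397 6)) (move 397 (branch (move 494 (leaf 397 4)) (move 365 (branch (move 333 (leaf 333 4)) (move 460 (branch (move 492 (leaf 364 5)) (move 459 (branch (move 458 (leaf 426 2)) (move 427 (branch (move 426 (leaf 426 3)) (move 463 (branch (move 428 (leaf 427 0)) (move 464 (branch (move 465 (leaf 429 3)) (move 496 (branch (move 495 (leaf 460 0)) (move 497 (leaf 461 0)))))))))))))))))))))))))) (branch (move 494 (branch (move 429 (branch (move 558 (leaf 429 7)) (move 397 (branch (move 365 (leaf 365 4)) (move 430 (leaf 397 7)))))) (branch (ref 4) (branch (move 558 (branch (move 429 (leaf 429 7)) (move 590 (branch (move 493 (leaf 461 7)) (move 463 (branch (move 431 (leaf 430 6)) (move 495 (leaf 462 6)))))))) (move 430 (branch (move 527 (branch (move 559 (leaf 430 4)) (move 495 (branch (move 398 (leaf 398 4)) (move 496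 (branch (move 497 (leaf 493 1)) (move 460 (branch (move 459 (leaf 459 0)) (move 463 (leaf 460 0)))))))))) (branch (move 527 (branch (move 559 (leaf 430 4)) (move 398 (branch (move 495 (leaf 398 4)) (move 399 (branch (move 367 (leaf 366 6)) (move 431 (leaf 398 6)))))))) (move 431 (branch (move 399 (leaf 398 6)) (move 460 (branch (move 459 (leaf 427 2)) (move 432 (branch (move 429 (leaf 428 1)) (move 433 (leaf 429 1))))))))))))))) (move 429 (branch (move 494 (branch (move 558 (leaf 429 7)) (move 397 (branch (move 365 (leaf 365 4)) (move 430 (leaf 397 7)))))) (branch (move 558 (branch (move 493 (leaf 429 4)) (move 494 (leaf 429 7)))) (branch (move 493 (branch (move 558 (leaf 429 4)) (move 430 (branch (move 398 (leaf 397 6)) (move 428 (branch (move 396 (leaf 396 7)) (move 427 (branch (move 426 (leaf 426 0)) (move 459 (branch (move 458 (leaf 426 1)) (move 431 (branch (move 460 (leaf 427 1)) (move 432 (branch (move 433 (leaf 429 1)) (move 400 (branch (move 399 (leaf 396 2)) (move 401 (leaf 397 2)))))))))))))))))) (move 493 (branch (move 430 (branch (move 398 (leaf 397 6)) (move 428 (branch (move 396 (leaf 396 7)) (move 427 (branch (move 426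 (leaf 426 0)) (move 459 (branch (move 458 (leaf 426 1)) (move 431 (branch (move 460 (leaf 427 1)) (move 432 (branch (move 433 (leaf 429 1)) (move 400 (branch (move 399 (leaf 396 2)) (move 401 (leaf 397 2)))))))))))))))) (branch (move 397 (branch (move 494 (leaf 397 4)) (move 396 (branch (move 364 (leaf 364 7)) (move 428 (leaf 396 7)))))) (move 430 (branch (move 398 (leaf 397 6)) (move 494 (branch (move 397 (leaf 397 4)) (move 431 (branch (move 399 (leaf 398 6)) (move 460 (branch (move 432 (leaf 428 1)) (move 459 (leaf 427 2)))))))))))))))))))))))))
theorem a1p28 : a1e28.Valid :=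
  pos_of_chk [a1e5, a1e20, a1e26, a1e27, a1e8] (forall_cons a1p5 (forall_cons a1p20 (forall_cons a1p26 (forall_cons a1p27 (forall_cons a1p8 forall_nil))))) a1c28 a1e28 (by decide +kernel)

def a1e29 : Pos := ⟨329510287686269266319131238355906874428932894406878659650934246040906072803087490501882862751749818638910222946791081185781855423986398903003553357973522743296, 74751027144388283084124211122464109358975283742490660209017125905055673729765794609620908000968726089083557133985926733891591811579721524230653366382545864067832913510295239962011165416967748190208, 14⟩
def a1c29 : Cert := (move 461 (branch (move 493 (branch (ref 0) (branch (move 429 (branch (move 558 (leaf 429 4)) (move 396 (branch (move 428 (leaf 396 7)) (move 397 (branch (move 364 (leaf 364 7)) (move 398 (branch (move 366 (leaf 365 6)) (move 430 (leaf 397 6)))))))))) (branch (move 558 (branch (move 429 (leaf 429 4)) (move 590 (branch (move 557 (leaf 461 4)) (move 622 (leaf 493 7)))))) (ref 1))))) (branch (ref 2) (branch (move 493 (branch (ref 1) (branch (ref 3) (branch (ref 4) (branch (ref 5) (branch (ref 6) (branch (ref 7) (ref 8)))))))) (branch (ref 9) (branch (move 493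 (branch (ref 0) (branch (move 429 (branch (move 558 (leaf 429 4)) (move 396 (branch (move 428 (leaf 396 7)) (move 397 (branch (move 364 (leaf 364 7)) (move 398 (branch (move 366 (leaf 365 6)) (move 430 (leaf 397 6)))))))))) (branch (move 558 (branch (move 429 (leaf 429 4)) (move 590 (branch (move 557 (leaf 461 4)) (move 622 (leaf 493 7)))))) (ref 4))))) (branch (move 493 (branch (move 429 (branch (move 558 (leaf 429 4)) (move 396 (branch (move 428 (leaf 396 7)) (move 397 (branch (move 364 (leaf 364 7)) (move 398 (branch (move 366 (leaf 365 6)) (move 430 (leaf 397 6)))))))))) (branch (move 558 (branch (move 429 (leaf 429 4)) (move 590 (branch (move 557 (leaf 461 4)) (move 622 (leaf 493 7)))))) (branch (ref 5) (ref 10))))) (branch (move 493 (branch (ref 0) (branch (move 558 (branch (move 429 (leaf 429 4)) (move 590 (branch (move 557 (leaf 461 4)) (move 622 (leaf 493 7)))))) (branch (ref 6) (move 429 (branch (move 558 (leaf 429 4)) (move 397 (branch (move 494 (leaf 397 4)) (move 396 (branch (move 364 (leaf 364 7)) (move 428 (leaf 396 7)))))))))))) (branch (move 493 (branch (move 429 (branch (move 558 (leaf 429 4)) (move 396 (branch (move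 428 (leaf 396 7)) (move 397 (branch (move 364 (leaf 364 7)) (move 398 (branch (move 366 (leaf 365 6)) (move 430 (leaf 397 6)))))))))) (branch (ref 6) (branch (ref 7) (ref 8))))) (branch (move 493 (branch (move 558 (branch (move 429 (leaf 429 4)) (move 590 (branch (move 557 (leaf 461 4)) (move 622 (leaf 493 7)))))) (branch (ref 8) (branch (move 429 (branch (move 558 (leaf 429 4)) (move 397 (branch (move 494 (leaf 397 4)) (move 398 (branch (move 366 (leaf 365 6)) (move 430 (leaf 397 6)))))))) (ref 10))))) (branch (move 493 (branch (move 558 (branch (move 429 (leaf 429 4)) (move 590 (branch (move 557 (leaf 461 4)) (move 622 (leaf 493 7)))))) (branch (ref 3) (move 557 (branch (move 462 (branch (move 430 (leaf 429 6)) (move 589 (branch (move 494 (leaf 461 6)) (move 588 (branch (move 556 (leaf 460 5)) (move 620 (leaf 492 5)))))))) (branch (move 558 (branch (move 590 (leaf 461 4)) (move 556 (branch (move 588 (leaf 460 5)) (move 555 (branch (move 554 (leaf 522 2)) (move 527 (leaf 523 2)))))))) (move 558 (branch (move 590 (leaf 461 4)) (move 462 (branch (move 430 (leaf 429 6)) (move 494 (branch (move 589 (leaf 461 5)) (move 460 (branch (move 428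 (leaf 428 7)) (move 495 (branch (move 459 (leaf 459 0)) (move 496 (leaf 460 3)))))))))))))))))) (branch (move 493 (branch (move 558 (branch (move 429 (leaf 429 4)) (move 590 (branch (move 557 (leaf 461 4)) (move 622 (leaf 493 7)))))) (branch (ref 7) (move 429 (branch (move 558 (leaf 429 4)) (move 397 (branch (move 494 (leaf 397 4)) (move 398 (branch (move 366 (leaf 365 6)) (move 430 (leaf 397 6))))))))))) (branch (move 493 (branch (move 558 (branch (move 429 (leaf 429 4)) (move 590 (branch (move 557 (leaf 461 4)) (move 622 (leaf 493 7)))))) (branch (ref 7) (move 429 (branch (move 558 (leaf 429 4)) (move 397 (branch (move 494 (leaf 397 4)) (move 396 (branch (move 364 (leaf 364 7)) (move 428 (leaf 396 7))))))))))) (branch (move 493 (branch (move 429 (branch (move 558 (leaf 429 4)) (move 396 (branch (move 428 (leaf 396 7)) (move 397 (branch (move 364 (leaf 364 7)) (move 398 (branch (move 366 (leaf 365 6)) (move 430 (leaf 397 6)))))))))) (branch (move 558 (branch (move 429 (leaf 429 4)) (move 590 (branch (move 557 (leaf 461 4)) (move 622 (leaf 493 7)))))) (branch (ref 1) (move 557 (branch (move 460 (branch (move 428 (leaf 428 7)) (move 589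 (branch (move 492 (leaf 460 7)) (move 588 (branch (move 556 (leaf 460 5)) (move 620 (leaf 492 5)))))))) (branch (move 462 (branch (move 430 (leaf 429 6)) (move 589 (branch (move 494 (leaf 461 6)) (move 588 (branch (move 556 (leaf 460 5)) (move 620 (leaf 492 5)))))))) (branch (move 462 (branch (move 430 (leaf 429 6)) (move 589 (branch (move 494 (leaf 461 6)) (move 460 (branch (move 428 (leaf 428 7)) (move 492 (leaf 460 7)))))))) (move 558 (branch (move 590 (leaf 461 4)) (move 462 (branch (move 430 (leaf 429 6)) (move 460 (branch (move 428 (leaf 428 7)) (move 556 (branch (move 588 (leaf 460 5)) (move 555 (branch (move 554 (leaf 522 2)) (move 587 (branch (move 586 (leaf 554 1)) (move 523 (branch (move 522 (leaf 522 3)) (move 491 (branch (move 492 (leaf 459 6)) (move 459 (branch (move 490 (leaf 458 1)) (move 494 (branch (move 458 (leaf 458 0)) (move 495 (leaf 459 0)))))))))))))))))))))))))))))) (ref 11)))))))))))))))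
theorem a1p29 : a1e29.Valid :=
  pos_of_chk [a1e0, a1e1, a1e9, a1e10, a1e11, a1e12, a1e13, a1e14, a1e15, a1e24, a1e25, a1e28] (forall_cons a1p0 (forall_cons a1p1 (forall_cons a1p9 (forall_cons a1p10 (forall_cons a1p11 (forall_cons a1p12 (forall_cons a1p13 (forall_cons a1p14 (forall_cons a1p15 (forall_cons a1p24 (forall_cons a1p25 (forall_cons a1p28 forall_nil)))))))))))) a1c29 a1e29 (by decide +kernel)

def a1e30 : Pos := ⟨384428668967314144038986444748558020167088376808025102926089953714390418270268738918863339877041455078728593437922928050078831327984132053504145584302443200512, 4351082438674554060029867370573823771413170509692639275903422608803980030467369607878794593057506293599855413531823505491962490486936301124901483910771018809618899001332714405001575792640, 6⟩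
def a1c30 : Cert := (move 491 (branch (move 523 (branch (move 490 (leaf 490 3)) (move 555 (branch (move 554 (leaf 522 1)) (move 556 (branch (move 527 (leaf 523 1)) (move 588 (branch (move 459 (leaf 459 4)) (move 620 (leaf 491 7)))))))))) (branch (move 492 (branch (move 527 (leaf 491 3)) (move 490 (branch (move 489 (leaf 489 0)) (move 493 (leaf 490 0)))))) (branch (move 490 (branch (move 523 (leaf 490 3)) (move 492 (branch (move 489 (leaf 489 0)) (move 493 (leaf 490 0)))))) (move 555 (branch (move 554 (branch (move 523 (leaf 522 1)) (move 556 (branch (move 553 (leaf 521 2)) (move 557 (leaf 522 2)))))) (branch (move 523 (branch (move 554 (leaf 522 1)) (move 492 (branch (move 527 (leaf 491 3)) (move 460 (branch (move 428 (leaf 427 5)) (move 587 (leaf 459 6)))))))) (move 527 (branch (move 556 (leaf 523 1)) (move 492 (leaf 491 3)))))))))))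
theorem a1p30 : a1e30.Valid :=
  pos_of_chk [] forall_nil a1c30 a1e30 (by decide +kernel)

def a1e31 : Pos := ⟨384428668967314144038986444748558020167088376808025102926089953714390418270268738918863339877041455078728593437922928050078831327984132053504145584302443200512, 23359695969840033786236836066200902634435165432558084251968940552239217458713956901400457842048251235944933438567588166230637182147089302963020872659014906777426827660284493417807825208560398106624, 12⟩
def a1c31 : Cert := (move 523 (branch (move 554 (branch (move 555 (leaf 522 1)) (move 522 (branch (move 553 (leaf 521 1)) (move 490 (branch (move 489 (leaf 489 3)) (move 491 (leaf 490 3)))))))) (branch (move 494 (branch (move 495 (leaf 491 2)) (move 522 (branch (move 493 (leaf 490 2)) (move 554 (branch (move 553 (leaf 521 1)) (move 555 (leaf 522 1)))))))) (branch (move 494 (branch (move 495 (leaf 491 2)) (move 522 (branch (move 493 (leaf 490 2)) (move 490 (branch (move 489 (leaf 489 3)) (move 491 (leaf 490 3)))))))) (move 491 (branch (move 490 (leaf 490 3)) (move 459 (branch (move 427 (branch (move 556 (leaf 427 4)) (move 395 (branch (move 492 (leaf 395 4)) (move 396 (branch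 (move 364 (leaf 363 6)) (move 428 (leaf 395 6)))))))) (branch (move 555 (branch (move 554 (leaf 522 1)) (move 460 (branch (move 428 (leaf 427 6)) (move 587 (branch (move 492 (leaf 459 6)) (move 426 (branch (move 458 (leaf 426 7)) (move 427 (branch (move 394 (leaf 394 7)) (move 620 (branch (move 588 (leaf 491 4)) (move 619 (branch (move 652 (leaf 523 4)) (move 618 (branch (move 586 (leaf 490 5)) (move 650 (leaf 522 5)))))))))))))))))) (branch (move 555 (branch (move 554 (leaf 522 1)) (move 556 (branch (move 427 (leaf 427 4)) (move 588 (leaf 459 4)))))) (move 555 (branch (move 554 (leaf 522 1)) (move 556 (branch (move 588 (leaf 459 4)) (move 460 (branch (move 428 (leaf 427 6)) (move 492 (branch (move 587 (leaf 459 5)) (move 461 (branch (move 429 (leaf 428 6)) (move 458 (branch (move 426 (leaf 426 7)) (move 457 (branch (move 456 (leaf 456 0)) (move 493 (leaf 457 0))))))))))))))))))))))))))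
theorem a1p31 : a1e31.Valid :=
  pos_of_chk [] forall_nil a1c31 a1e31 (by decide +kernel)

def a1e32 : Pos := ⟨384428668967314144038986444748558020167088376808025102926089953714390418270268738918863339877041455078728593437922928050078831327984132053504145584302443200512, 506532662423306656343873042161078719127202224135763454111676775712109393467867647541316838746158845015081377878675841241393222037800245922862348212899268948524768299609927712768, 6⟩
def a1c32 : Cert := (move 523 (branch (move 494 (branch (move 495 (leaf 491 2)) (move 522 (branch (move 493 (leaf 490 2)) (move 554 (branch (move 553 (leaf 521 1)) (move 555 (leaf 522 1)))))))) (branch (move 494 (branch (move 495 (leaf 491 2)) (move 522 (branch (move 493 (leaf 490 2)) (move 490 (branch (move 489 (leaf 489 3)) (move 491 (leaf 490 3)))))))) (move 491 (branch (move 490 (leaf 490 3)) (move 492 (branch (move 527 (leaf 491 3)) (move 555 (branch (move 554 (leaf 522 1)) (move 460 (branch (move 428 (leaf 427 5)) (move 587 (leaf 459 6)))))))))))))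
theorem a1p32 : a1e32.Valid :=
  pos_of_chk [] forall_nil a1c32 a1e32 (by decide +kernel)

def a1e33 : Pos := ⟨411887859607836582898914047944883593036166118008598324563667807551132591003859363127353578439687273298637778683488851482227319279982998628754441697466903429120, 928748565946800034217605401828526359390715945988334623450281622206853483011056655719060698448427258060562003915384318587046285089345849295128931690079546558910981734400, 6⟩
def a1c33 : Cert := (move 522 (branch (move 553 (branch (move 554 (leaf 521 1)) (move 521 (branch (move 552 (leaf 520 1)) (move 489 (branch (move 488 (leaf 488 3)) (move 490 (leaf 489 3)))))))) (branch (move 489 (branch (move 490 (leaf 489 3)) (move 521 (branch (move 488 (leaf 488 3)) (move 556 (branch (move 557 (leaf 521 0)) (move 555 (branch (move 520 (leaf 520 0)) (move 527 (leaf 523 1)))))))))) (move 554 (branch (move 553 (leaf 521 1)) (move 555 (leaf 522 1)))))))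
theorem a1p33 : a1e33.Valid :=
  pos_of_chk [] forall_nil a1c33 a1e33 (by decide +kernel)

def a1e34 : Pos := ⟨384428668967314144038986444748558020167088376808025102926089953714390418270268738918863339877041455078728593437922928050078831327984132053504145584302443200512, 928748565974259225241728302551283087979212186454396640301242583615102991865372035651417001923090296023591036079735397248731741817692783068520445516800787170512378789888, 8⟩
def a1c34 : Cert := (move 523 (branch (ref 0) (branch (move 494 (branch (move 495 (leaf 491 2)) (move 522 (branch (move 493 (leaf 490 2)) (move 553 (branch (move 554 (leaf 521 1)) (move 521 (branch (move 552 (leaf 520 1)) (move 489 (branch (move 488 (leaf 488 3)) (move 490 (leaf 489 3)))))))))))) (branch (move 494 (branch (move 495 (leaf 491 2)) (move 522 (branch (move 493 (leaf 490 2)) (move 489 (branch (move 490 (leaf 489 3)) (move 521 (branch (move 488 (leaf 488 3)) (move 556 (branch (move 557 (leaf 521 0)) (move 555 (branch (move 520 (leaf 520 0)) (move 527 (leaf 523 1)))))))))))))) (move 555 (branch (move 554 (leaf 522 1)) (move 527 (branch (move 556 (leaf 523 1)) (move 495 (branch (move 494 (leaf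 491 2)) (move 496 (leaf 492 2))))))))))))
theorem a1p34 : a1e34.Valid :=
  pos_of_chk [a1e33] (forall_cons a1p33 forall_nil) a1c34 a1e34 (by decide +kernel)

def a1e35 : Pos := ⟨235872651935775003507984669474941858790343640949581521958230512676152907531737935338902704526878532808408776114447459971899891809195693922278731510983418720259659530240, 30457577075787205036628856566744147440022442431109827140750663037001282593567412897397771550258091677440739662790199015688386205166286866664977675767448228338017555464139731418124275154944, 7⟩
def a1c35 : Cert := (move 492 (branch (move 588 (branch (move 620 (leaf 492 6)) (move 491 (branch (move 490 (leaf 490 0)) (move 459 (leaf 459 7)))))) (branch (move 588 (branch (move 620 (leaf 492 6)) (move 589 (branch (move 621 (leaf 492 4)) (move 557 (branch (move 460 (leaf 460 4)) (move 590 (branch (move 622 (leaf 493 4)) (move 555 (branch (move 554 (leaf 554 0)) (move 591 (leaf 555 3)))))))))))) (move 460 (branch (move 428 (branch (move 396 (leaf 396 4)) (move 427 (branch (move 395 (leaf 395 7)) (move 459 (leaf 427 7)))))) (move 557 (branch (move 589 (leaf 460 4)) (move 555 (branch (move 554 (leaf 522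 2)) (move 587 (leaf 459 5)))))))))))
theorem a1p35 : a1e35.Valid :=
  pos_of_chk [] forall_nil a1c35 a1e35 (by decide +kernel)

def a1e36 : Pos := ⟨235872651935775003482411305350753250430865596443115903581537996691441463863899721525651659242467012848383228518151333744158589589449130867519221694218689087030530408448, 112126540649140646769112638418319216167320131234239771377438308125531849965913976546195701049581815237963927941422994451555489481509482234677158187988384737829841514025509770851533350019998936989696, 9⟩
def a1c36 : Cert := (move 493 (branch (move 461 (branch (move 429 (leaf 428 5)) (move 588 (branch (move 557 (leaf 460 5)) (move 620 (leaf 492 6)))))) (branch (move 588 (branch (move 620 (leaf 492 6)) (move 492 (branch (move 461 (leaf 460 6)) (move 491 (branch (move 490 (leaf 490 0)) (move 459 (leaf 459 7)))))))) (branch (ref 0) (move 461 (branch (move 429 (leaf 428 5)) (move 557 (branch (move 460 (branch (move 428 (leaf 428 7)) (move 492 (branch (move 589 (leaf 460 4)) (move 555 (branch (move 554 (leaf 522 2)) (move 587 (leaf 459 5)))))))) (branch (move 462 (branch (move 430 (leaf 429 6)) (move 589 (branch (move 494 (leaf 461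 6)) (move 621 (branch (move 492 (leaf 492 7)) (move 653 (leaf 524 7)))))))) (branch (move 460 (branch (move 428 (leaf 428 7)) (move 462 (branch (move 430 (leaf 429 6)) (move 555 (branch (move 554 (leaf 522 2)) (move 492 (branch (move 587 (leaf 459 5)) (move 491 (branch (move 490 (leaf 490 0)) (move 463 (leaf 459 1)))))))))))) (move 462 (branch (move 430 (leaf 429 6)) (move 589 (branch (move 494 (leaf 461 6)) (move 555 (branch (move 554 (leaf 522 2)) (move 621 (branch (move 653 (leaf 524 7)) (move 622 (branch (move 590 (leaf 493 4)) (move 654 (leaf 525 4))))))))))))))))))))))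
theorem a1p36 : a1e36.Valid :=
  pos_of_chk [a1e35] (forall_cons a1p35 forall_nil) a1c36 a1e36 (by decide +kernel)

def a1e37 : Pos := ⟨235872651935775003482411305350753250430865596443115903581537996691441463863899721525651659242467012848383228518151333744158589589449130867519221694218689087030530408448, 200658260469931894926844531637543591830945859243966577131210631187811317019920653926852408211969505711504988708451619218011237568742028871594850192847036187222604946986732644126307360820016497048045314113536, 12⟩
def a1c37 : Cert := (move 588 (branch (move 620 (branch (move 493 (leaf 492 6)) (move 619 (branch (move 651 (leaf 523 5)) (move 621 (branch (move 653 (leaf 524 4)) (move 492 (branch (move 589 (leaf 492 4)) (move 587 (leaf 491 5)))))))))) (branch (move 527 (branch (move 555 (leaf 523 1)) (move 492 (branch (move 491 (leaf 491 3)) (move 621 (branch (move 589 (leaf 492 4)) (move 620 (branch (move 653 (leaf 524 4)) (move 619 (branch (move 587 (leaf 491 5)) (move 651 (leaf 523 5)))))))))))) (branch (move 620 (branch (move 493 (leaf 492 6)) (move 555 (branch (move 527 (leaf 523 1)) (move 651 (branch (move 619 (leaf 523 5)) (move 652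 (branch (move 683 (leaf 555 5)) (move 653 (branch (move 621 (leaf 524 4)) (move 685 (leaf 556 4)))))))))))) (move 527 (branch (move 555 (leaf 523 1)) (move 492 (branch (move 491 (leaf 491 3)) (move 461 (branch (move 493 (leaf 460 6)) (move 460 (branch (move 429 (leaf 428 6)) (move 427 (branch (move 459 (leaf 427 7)) (move 428 (branch (move 395 (leaf 395 7)) (move 495 (branch (move 496 (leaf 492 2)) (move 559 (branch (move 560 (leaf 524 0)) (move 462 (branch (move 463 (leaf 427 3)) (move 494 (branch (move 430 (leaf 430 4)) (move 591 (leaf 462 7))))))))))))))))))))))))))
theorem a1p37 : a1e37.Valid :=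
  pos_of_chk [] forall_nil a1c37 a1e37 (by decide +kernel)

def a1e38 : Pos := ⟨235872651935775003482411305350753250430865596443115903581537996691441463863899721525651659242467012848383228518151333744158589589449130867519221694218689087030530408448, 13053247314504064191168573582310963683021448719282755358449550756044275790499838226517349911993281535076842446764728606869049139783622847915966039674220411997124323576213393973592213946368, 8⟩
def a1c38 : Cert := (move 493 (branch (move 461 (branch (move 429 (leaf 428 5)) (move 588 (branch (move 557 (leaf 460 5)) (move 620 (leaf 492 6)))))) (branch (move 492 (branch (move 588 (branch (move 620 (leaf 492 6)) (move 589 (branch (move 621 (leaf 492 4)) (move 460 (branch (move 557 (leaf 460 4)) (move 428 (branch (move 396 (leaf 396 4)) (move 427 (branch (move 395 (leaf 395 7)) (move 459 (leaf 427 7)))))))))))) (move 491 (branch (move 490 (leaf 490 0)) (move 527 (leaf 491 3)))))) (branch (move 461 (branch (move 429 (leaf 428 5)) (move 492 (branch (move 588 (leaf 460 6)) (move 491 (branch (move 490 (leaf 490 0)) (move 527 (leaf 491 3)))))))) (move 492 (branch (move 491 (branch (move 490 (leaf 490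 0)) (move 527 (leaf 491 3)))) (move 460 (branch (move 428 (branch (move 396 (leaf 396 4)) (move 427 (branch (move 395 (leaf 395 7)) (move 459 (leaf 427 7)))))) (branch (move 557 (branch (move 428 (leaf 428 4)) (move 589 (leaf 460 4)))) (move 461 (branch (move 429 (leaf 428 5)) (move 557 (branch (move 589 (leaf 460 4)) (move 459 (branch (move 427 (leaf 427 7)) (move 494 (branch (move 458 (leaf 458 0)) (move 495 (leaf 459 3)))))))))))))))))))
theorem a1p38 : a1e38.Valid :=
  pos_of_chk [] forall_nil a1c38 a1e38 (by decide +kernel)

def a1e39 : Pos := ⟨384428668967314144038986444748558020167088376808025102926089953714390418270268738918863339877041455078728593437922928050078831327984132053504145584302443200512, 442261222139310213806951984113363153959727520541742258212212511989273713461651285277116388191233141070449261267001765398481227356382136427078636031143099944353333772288, 5⟩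
def a1c39 : Cert := (move 523 (branch (move 554 (branch (move 555 (leaf 522 1)) (move 522 (branch (move 553 (leaf 521 1)) (move 490 (branch (move 489 (leaf 489 3)) (move 491 (leaf 490 3)))))))) (branch (move 555 (branch (move 554 (leaf 522 1)) (move 527 (branch (move 556 (leaf 523 1)) (move 495 (branch (move 494 (leaf 491 2)) (move 496 (leaf 492 2)))))))) (move 491 (branch (move 490 (leaf 490 3)) (move 527 (branch (move 492 (leaf 491 3)) (move 495 (branch (move 494 (leaf 491 2)) (move 496 (leaf 492 2)))))))))))
theorem a1p39 : a1e39.Valid :=
  pos_of_chk [] forall_nil a1c39 a1e39 (by decide +kernel)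

def a1e40 : Pos := ⟨384428668967314144038986444748558020167088376808025102926089953714390418270268738918863339877041455078728593437922928050078831327984132053504145584302443200512, 160526608389026945683367741149261360191407354435409749370972304919933831547981004169887109534426141283701326747498172476800881957964150398817055367122254113235666370386147766324315300314072373930464439697408, 12⟩
def a1c40 : Cert := (move 527 (branch (move 495 (branch (move 496 (leaf 492 2)) (move 494 (branch (move 523 (leaf 491 2)) (move 559 (branch (move 560 (leaf 524 0)) (move 462 (branch (move 430 (leaf 430 4)) (move 591 (leaf 462 7)))))))))) (move 556 (branch (move 555 (leaf 523 1)) (move 588 (branch (move 620 (branch (move 493 (leaf 492 6)) (move 652 (branch (move 557 (leaf 524 6)) (move 653 (branch (move 621 (leaf 524 4)) (move 685 (leaf 556 4)))))))) (branch (move 492 (branch (move 491 (leaf 491 3)) (move 589 (branch (move 621 (leaf 492 4)) (move 460 (branch (move 557 (leaf 460 4)) (move 619 (branch (move 587 (leaf 491 5)) (move 620 (branch (move 651 (leaf 523 5)) (move 429 (branch (move 461 (leaf 428 6)) (move 428 (branch (move 397 (leaf 396 6)) (move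 427 (branch (move 395 (leaf 395 7)) (move 459 (leaf 427 7)))))))))))))))))) (branch (move 492 (branch (move 491 (leaf 491 3)) (move 493 (branch (move 461 (leaf 460 6)) (move 620 (leaf 492 6)))))) (move 492 (branch (move 491 (leaf 491 3)) (move 461 (branch (move 493 (leaf 460 6)) (move 460 (branch (move 429 (leaf 428 6)) (move 589 (branch (move 557 (leaf 460 4)) (move 621 (leaf 492 4))))))))))))))))))
theorem a1p40 : a1e40.Valid :=
  pos_of_chk [] forall_nil a1c40 a1e40 (by decide +kernel)

def a1e41 : Pos := ⟨411887859607836582898914047944883593036166118008598324563667807551132591003859363127353578439687273298637778683488851482227319279982998628754441697466903429120, 103194285517087863459518724454672604131726006908553111902198397001368223906490968498409806563534562590910505170922948413768748586106286252585260126916921157513652469760, 6⟩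
def a1c41 : Cert := (move 522 (branch (move 553 (branch (move 554 (leaf 521 1)) (move 521 (branch (move 552 (leaf 520 1)) (move 492 (branch (move 493 (leaf 489 2)) (move 491 (branch (move 520 (leaf 488 2)) (move 527 (leaf 491 3)))))))))) (branch (move 553 (branch (move 554 (leaf 521 1)) (move 521 (branch (move 552 (leaf 520 1)) (move 489 (branch (move 488 (leaf 488 3)) (move 490 (leaf 489 3)))))))) (move 490 (branch (move 489 (leaf 489 3)) (move 491 (leaf 490 3)))))))
theorem a1p41 : a1e41.Valid :=
  pos_of_chk [] forall_nil a1c41 a1e41 (by decide +kernel)

def a1e42 : Pos := ⟨411887859607836582898914047944883593036166118008598324563667807551132591003859363127353578439687273298637778683488851482227319279982998628754441697466903429120, 3039195975896107682053341303709520576764825666034774674737148121157533294586854731628683622915531946436824092901832367595527356968145178986831859312030296816166974907181179076608, 10⟩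
def a1c42 : Cert := (move 494 (branch (move 495 (leaf 491 2)) (move 462 (branch (move 430 (branch (move 557 (leaf 429 5)) (move 527 (branch (move 559 (leaf 430 4)) (move 397 (branch (move 429 (leaf 397 7)) (move 398 (branch (move 365 (leaf 365 7)) (move 399 (branch (move 367 (leaf 366 6)) (move 431 (leaf 398 6)))))))))))) (branch (move 493 (branch (move 522 (leaf 490 2)) (move 430 (branch (move 398 (leaf 397 5)) (move 429 (branch (move 397 (leaf 397 7)) (move 461 (branch (move 556 (leaf 428 5)) (move 428 (branch (move 396 (leaf 396 7)) (move 463 (branch (move 427 (leaf 427 0)) (move 464 (leaf 428 3)))))))))))))) (branch (move 493 (branch (move 522 (leaf 490 2)) (move 557 (branch (move 430 (leaf 429 5)) (move 589 (leaf 461 6)))))) (move 493 (branch (move 522 (leaf 490 2)) (move 461 (branch (move 557 (branch (move 589 (leaf 461 6)) (move 460 (branch (move 428 (leaf 428 7)) (move 556 (branch (move 588 (leaf 460 5)) (move 459 (branch (move 458 (leaf 458 0)) (move 427 (branch (move 426 (leaf 426 3)) (move 491 (leaf 427 4)))))))))))) (branch (move 429 (branch (move 397 (leaf 397 4)) (move 556 (leaf 428 5)))) (move 429 (branch (move 397 (leaf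 397 4)) (move 428 (branch (move 396 (leaf 396 7)) (move 557 (branch (move 589 (leaf 461 6)) (move 460 (leaf 428 7)))))))))))))))))))
theorem a1p42 : a1e42.Valid :=
  pos_of_chk [] forall_nil a1c42 a1e42 (by decide +kernel)

def a1e43 : Pos := ⟨411887859607836582898914047944883593036166118008598324563667807551132591003859363127353578439687273298637778683488851482227319279982998628754441697466903429120, 23359695969840033786236836069473635674668907037813661822746219054776858058326926445048232788724231919166677788721744681614502659251003896159400740430347569810530398286455683679180597287978318954496, 11⟩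
def a1c43 : Cert := (move 491 (branch (move 490 (leaf 490 3)) (move 459 (branch (move 427 (branch (move 556 (leaf 427 4)) (move 395 (branch (move 492 (leaf 395 4)) (move 396 (branch (move 364 (leaf 363 6)) (move 428 (leaf 395 6)))))))) (branch (move 555 (branch (move 554 (leaf 522 1)) (move 460 (branch (move 428 (leaf 427 6)) (move 587 (branch (move 492 (leaf 459 6)) (move 426 (branch (move 458 (leaf 426 7)) (move 427 (branch (move 394 (leaf 394 7)) (move 620 (branch (move 588 (leaf 491 4)) (move 619 (branch (move 652 (leaf 523 4)) (move 618 (branch (move 586 (leaf 490 5)) (move 650 (leaf 522 5)))))))))))))))))) (branch (move 555 (branch (move 554 (leaf 522 1)) (move 556 (branch (move 427 (leaf 427 4)) (move 588 (leaf 459 4)))))) (move 555 (branch (move 554 (leaf 522 1)) (move 556 (branch (move 588 (leaf 459 4)) (move 460 (branch (move 428 (leaf 427 6)) (move 587 (branch (move 492 (leaf 459 5)) (move 558 (branch (move 559 (leaf 523 0)) (move 586 (branch (move 557 (leaf 554 1)) (move 618 (leaf 490 5))))))))))))))))))))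
theorem a1p43 : a1e43.Valid :=
  pos_of_chk [] forall_nil a1c43 a1e43 (by decide +kernel)

def a1e44 : Pos := ⟨384428668967314144038986444748558020167088376808025102926089953714390418270268738918863339877041455078728593437922928050078831327984132053504145584302443200512, 23359695969840033786236836069503119756154014115590430961457843098304102242446700598844325015150312103919719599092381673297964196213891941893960868726209744039908577847818339110693154997642840768512, 12⟩
def a1c44 : Cert := (move 523 (branch (move 554 (branch (move 555 (leaf 522 1)) (move 522 (branch (move 553 (leaf 521 1)) (move 490 (branch (move 489 (leaf 489 3)) (move 491 (leaf 490 3)))))))) (branch (move 558 (branch (move 559 (leaf 523 0)) (move 522 (branch (move 557 (leaf 522 0)) (move 490 (branch (move 489 (leaf 489 3)) (move 491 (leaf 490 3)))))))) (branch (move 558 (branch (move 559 (leaf 523 0)) (move 522 (branch (move 557 (leaf 522 0)) (move 554 (branch (move 553 (leaf 521 1)) (move 555 (leaf 522 1)))))))) (ref 0)))))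
theorem a1p44 : a1e44.Valid :=
  pos_of_chk [a1e43] (forall_cons a1p43 forall_nil) a1c44 a1e44 (by decide +kernel)

def a1e45 : Pos := ⟨384428668967314144038986444748558020167088376808025102926089953714390418270268738918863339877041455078728593437922928050078831327984132053504145584302443200512, 8702164876336042800874065066200208514403464732368438342947840101669538949110373646292738024213610143963870566243133114445747523437842480568546160264751089216420068244894796447645165420544, 6⟩
def a1c45 : Cert := (move 523 (branch (move 491 (branch (move 490 (leaf 490 3)) (move 527 (branch (move 492 (leaf 491 3)) (move 559 (branch (move 558 (leaf 523 0)) (move 560 (leaf 524 0)))))))) (branch (move 491 (branch (move 490 (leaf 490 3)) (move 527 (branch (move 492 (leaf 491 3)) (move 495 (branch (move 494 (leaf 491 2)) (move 496 (leaf 492 2)))))))) (move 558 (branch (move 559 (leaf 523 0)) (move 494 (branch (move 495 (leaf 491 2)) (move 557 (branch (move 522 (leaf 522 0)) (move 589 (branch (move 462 (leaf 461 5)) (move 621 (leaf 493 6)))))))))))))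
theorem a1p45 : a1e45.Valid :=
  pos_of_chk [] forall_nil a1c45 a1e45 (by decide +kernel)

def a1e46 : Pos := ⟨823775719317966622294582529327679364098194709523966713066181389773618037260722907392353236719476736982460062277942911843440890779004036524567801927850323345408, 17404329760776608189670894653890809259967673211347365585877141351675238659193748742895733872386853994333851392539789849622598790458077231052257429306810139375375064421774896339037131374592, 6⟩
def a1c46 : Cert := (move 463 (branch (move 431 (branch (move 558 (leaf 430 5)) (move 398 (branch (move 430 (leaf 398 7)) (move 399 (branch (move 366 (leaf 366 7)) (move 400 (branch (move 368 (leaf 367 6)) (move 432 (leaf 399 6)))))))))) (branch (move 559 (branch (move 560 (leaf 524 0)) (move 430 (branch (move 462 (leaf 430 7)) (move 431 (branch (move 398 (leaf 398 7)) (move 432 (branch (move 400 (leaf 399 6)) (move 464 (leaf 431 6)))))))))) (branch (move 559 (branch (move 560 (leaf 524 0)) (move 462 (branch (move 430 (leaf 430 7)) (move 591 (branch (move 494 (leaf 462 7)) (move 590 (branch (move 558 (leaf 462 5)) (move 622 (leaf 494 5)))))))))) (move 559 (branch (move 560 (leaf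 524 0)) (move 558 (branch (move 431 (leaf 430 5)) (move 590 (leaf 462 5))))))))))
theorem a1p46 : a1e46.Valid :=
  pos_of_chk [] forall_nil a1c46 a1e46 (by decide +kernel)

def a1e47 : Pos := ⟨384428668967314144038986444748558020167088376808025102926089953714390418270268738918863339877041455078728593437922928050078831327984132053504145584302443200512, 321053216880836553637512496892290170993187499238386104272668293212308910658296231774631852213406567130835785162546844073846021514201199462884693460238444285431499479579563466972072148051327378155345549459456, 15⟩
def a1c47 : Cert := (move 527 (branch (move 492 (branch (move 491 (leaf 491 3)) (move 460 (branch (move 428 (branch (move 557 (leaf 428 4)) (move 397 (branch (move 429 (leaf 396 6)) (move 396 (branch (move 365 (leaf 364 6)) (move 395 (branch (move 363 (leaf 363 7)) (move 427 (leaf 395 7)))))))))) (branch (move 556 (branch (move 555 (leaf 523 1)) (move 429 (branch (move 461 (leaf 428 6)) (move 428 (branch (move 397 (leaf 396 6)) (move 427 (branch (move 395 (leaf 395 7)) (move 459 (leaf 427 7)))))))))) (move 556 (branch (move 555 (leaf 523 1)) (move 589 (branch (move 557 (leaf 460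 4)) (move 588 (branch (move 621 (leaf 492 4)) (move 619 (branch (move 587 (leaf 491 5)) (move 620 (branch (move 651 (leaf 523 5)) (move 559 (branch (move 560 (leaf 524 0)) (move 591 (branch (move 590 (leaf 587 1)) (move 623 (branch (move 494 (leaf 494 7)) (move 655 (branch (move 558 (leaf 526 7)) (move 654 (branch (move 622 (leaf 526 5)) (move 686 (leaf 558 5))))))))))))))))))))))))))) (branch (move 495 (branch (move 496 (leaf 492 2)) (ref 0))) (branch (move 492 (branch (move 491 (leaf 491 3)) (move 460 (branch (move 428 (branch (move 557 (leaf 428 4)) (move 397 (branch (move 429 (leaf 396 6)) (move 396 (branch (move 365 (leaf 364 6)) (move 395 (branch (move 363 (leaf 363 7)) (move 427 (leaf 395 7)))))))))) (branch (move 556 (branch (move 555 (leaf 523 1)) (move 429 (branch (move 461 (leaf 428 6)) (move 428 (branch (move 397 (leaf 396 6)) (move 427 (branch (move 395 (leaf 395 7)) (move 459 (leaf 427 7)))))))))) (move 556 (branch (move 555 (leaf 523 1)) (move 589 (branch (move 557 (leaf 460 4)) (move 588 (branch (move 621 (leaf 492 4)) (move 619 (branch (move 587 (leaf 491 5)) (move 620 (branch (move 651 (leaf 523 5)) (move 495 (branch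 (move 496 (leaf 492 2)) (move 590 (branch (move 591 (leaf 587 1)) (move 558 (branch (move 622 (leaf 494 6)) (move 463 (branch (move 431 (leaf 430 5)) (move 559 (leaf 462 5))))))))))))))))))))))))) (branch (move 492 (branch (move 491 (leaf 491 3)) (move 460 (branch (move 428 (branch (move 557 (leaf 428 4)) (move 397 (branch (move 429 (leaf 396 6)) (move 396 (branch (move 365 (leaf 364 6)) (move 395 (branch (move 363 (leaf 363 7)) (move 427 (leaf 395 7)))))))))) (branch (move 556 (branch (move 555 (leaf 523 1)) (move 429 (branch (move 461 (leaf 428 6)) (move 428 (branch (move 397 (leaf 396 6)) (move 427 (branch (move 395 (leaf 395 7)) (move 459 (leaf 427 7)))))))))) (branch (move 556 (branch (move 555 (leaf 523 1)) (move 589 (branch (move 557 (leaf 460 4)) (move 588 (branch (move 621 (leaf 492 4)) (move 559 (branch (move 560 (leaf 524 0)) (move 495 (branch (move 496 (leaf 492 2)) (move 619 (branch (move 587 (leaf 491 5)) (move 620 (branch (move 651 (leaf 523 5)) (move 461 (branch (move 429 (leaf 428 6)) (move 459 (branch (move 427 (leaf 427 7)) (move 462 (branch (move 494 (leaf 459 0)) (move 430 (branch (move 431 (leaf 427 2)) (move 463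 (leaf 430 7)))))))))))))))))))))))) (move 556 (branch (move 555 (leaf 523 1)) (move 557 (branch (move 428 (leaf 428 4)) (move 589 (leaf 460 4)))))))))))) (move 556 (branch (move 555 (leaf 523 1)) (move 492 (branch (move 491 (leaf 491 3)) (move 495 (branch (move 496 (leaf 492 2)) (move 460 (branch (move 429 (branch (move 461 (leaf 428 6)) (move 428 (branch (move 397 (leaf 396 6)) (move 427 (branch (move 395 (leaf 395 7)) (move 459 (leaf 427 7)))))))) (move 589 (branch (move 557 (leaf 460 4)) (move 588 (branch (move 621 (leaf 492 4)) (move 619 (branch (move 587 (leaf 491 5)) (move 620 (branch (move 651 (leaf 523 5)) (move 590 (branch (move 591 (leaf 587 1)) (move 558 (branch (move 622 (leaf 494 6)) (move 463 (branch (move 431 (leaf 430 5)) (move 494 (leaf 462 6)))))))))))))))))))))))))))))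
theorem a1p47 : a1e47.Valid :=
  pos_of_chk [a1e46] (forall_cons a1p46 forall_nil) a1c47 a1e47 (by decide +kernel)

def a1e48 : Pos := ⟨384428668967314144038986444748558020167088376808025102926089953714390418270268738918863339877041455078728593437922928050078831327984132053504145584302443200512, 7046695465577007579871645403104193196031647033179994350596878313633155786298176783042323523270374704827661251222692726784701519382298640767428008536444103155531967889408, 5⟩
def a1c48 : Cert := (move 523 (branch (move 554 (branch (move 555 (leaf 522 1)) (move 522 (branch (move 553 (leaf 521 1)) (move 490 (branch (move 489 (leaf 489 3)) (move 491 (leaf 490 3)))))))) (branch (move 491 (branch (move 490 (leaf 490 3)) (move 527 (branch (move 492 (leaf 491 3)) (move 559 (branch (move 558 (leaf 523 0)) (move 560 (leaf 524 0)))))))) (move 555 (branch (move 554 (leaf 522 1)) (move 527 (branch (move 556 (leaf 523 1)) (move 559 (branch (move 558 (leaf 523 0)) (move 560 (leaf 524 0)))))))))))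
theorem a1p48 : a1e48.Valid :=
  pos_of_chk [] forall_nil a1c48 a1e48 (by decide +kernel)

def a1e49 : Pos := ⟨384428668967314144038986444748558020167088376808025102926089953714390418270268738918863339877041455078728593437922928050078831327984132053504145584302443200512, 4052261304782040151624280884412583484648632920716053409646891741095612568173383597131378597360077910415960830067696826902961726661432114245746291858144182598838179154323948175360, 6⟩
def a1c49 : Cert := (move 523 (branch (move 555 (branch (move 554 (leaf 522 1)) (move 527 (branch (move 556 (leaf 523 1)) (move 559 (branch (move 558 (leaf 523 0)) (move 560 (leaf 524 0)))))))) (branch (move 494 (branch (move 495 (leaf 491 2)) (move 522 (branch (move 493 (leaf 490 2)) (move 554 (branch (move 553 (leaf 521 1)) (move 555 (leaf 522 1)))))))) (move 494 (branch (move 495 (leaf 491 2)) (move 558 (branch (move 559 (leaf 523 0)) (move 493 (branch (move 522 (leaf 490 2)) (move 461 (branch (move 429 (leaf 429 4)) (move 590 (leaf 461 7)))))))))))))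
theorem a1p49 : a1e49.Valid :=
  pos_of_chk [] forall_nil a1c49 a1e49 (by decide +kernel)

def a1e50 : Pos := ⟨235872652375122053730770327109594901572074762348359762790709542892687125251774485263101646578310829850716320036698297673213364503824938099501086898223426897661894066176, 1324344519183776636340757252323086581314447273763113048014249343586735111927944858563024585083013581864367386232791879215680704188999980976316894035211856410870149546983264258078702245974183248160717365313536, 11⟩
def a1c50 : Cert := (move 588 (branch (move 620 (branch (move 493 (leaf 492 6)) (move 621 (branch (move 653 (leaf 524 4)) (move 651 (branch (move 619 (leaf 523 5)) (move 652 (branch (move 683 (leaf 555 5)) (move 623 (branch (move 622 (leaf 619 1)) (move 559 (branch (move 560 (leaf 524 0)) (move 591 (branch (move 494 (leaf 494 7)) (move 655 (branch (move 558 (leaf 526 7)) (move 656 (branch (move 624 (leaf 527 4)) (move 688 (leaf 559 4)))))))))))))))))))) (branch (move 492 (branch (move 491 (leaf 491 3)) (move 621 (branch (move 589 (leaf 492 4)) (move 620 (branch (move 653 (leaf 524 4)) (move 619 (branch (move 587 (leaf 491 5)) (move 651 (leaf 523 5))))))))))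 (move 492 (branch (move 491 (leaf 491 3)) (move 461 (branch (move 493 (leaf 460 6)) (move 460 (branch (move 429 (leaf 428 6)) (move 427 (branch (move 459 (leaf 427 7)) (move 428 (branch (move 395 (leaf 395 7)) (move 559 (branch (move 560 (leaf 524 0)) (move 462 (branch (move 463 (leaf 427 3)) (move 494 (branch (move 430 (leaf 430 4)) (move 591 (branch (move 558 (leaf 462 4)) (move 623 (leaf 494 7)))))))))))))))))))))))
theorem a1p50 : a1e50.Valid :=
  pos_of_chk [] forall_nil a1c50 a1e50 (by decide +kernel)

def a1e51 : Pos := ⟨235872652375122053730770327109594901572074762348359762790709542892687125251774485263101646578310829850716320036698297673213364503824938099501086898223426897661894066176, 200658260469931894926844531629439069230639780514630083614630981236090071804949175216374760148979135887359026497674335967378319046617888181871296261553199521156326127952836992035013885186468606441351142178816, 12⟩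
def a1c51 : Cert := (move 588 (branch (move 492 (branch (move 491 (leaf 491 3)) (move 621 (branch (move 589 (leaf 492 4)) (move 620 (branch (move 653 (leaf 524 4)) (move 619 (branch (move 587 (leaf 491 5)) (move 651 (leaf 523 5)))))))))) (branch (move 620 (branch (move 493 (leaf 492 6)) (move 653 (branch (move 621 (leaf 524 4)) (move 652 (branch (move 685 (leaf 556 4)) (move 651 (branch (move 619 (leaf 523 5)) (move 683 (leaf 555 5)))))))))) (move 492 (branch (move 491 (leaf 491 3)) (move 461 (branch (move 493 (leaf 460 6)) (move 460 (branch (move 429 (leaf 428 6)) (move 427 (branch (move 459 (leaf 427 7)) (move 428 (branch (move 395 (leaf 395 7)) (move 495 (branch (move 496 (leaf 492 2)) (move 463 (branch (move 462 (leaf 427 3)) (move 431 (branch (move 558 (leaf 430 5)) (move 399 (branch (move 494 (leaf 398 5)) (move 398 (branch (move 366 (leaf 366 7)) (move 430 (leaf 398 7)))))))))))))))))))))))))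
theorem a1p51 : a1e51.Valid :=
  pos_of_chk [] forall_nil a1c51 a1e51 (by decide +kernel)

def a1e52 : Pos := ⟨384428668967314144038986444748558020167088376808025102926089953714390418270268738918863339877041455078728593437922928050078831327984132053504145584302443200512, 1484871127507396433314664414296476814364462297224069084906203287290273047072407330912822833670601548244604136129741809326399512913250875178951060077231164031505799275547560791392817516598447388454880083443712, 16⟩
def a1c52 : Cert := (move 527 (branch (move 495 (branch (move 496 (leaf 492 2)) (ref 0))) (branch (move 556 (branch (move 555 (leaf 523 1)) (ref 1))) (branch (move 556 (branch (move 555 (leaf 523 1)) (ref 2))) (branch (move 556 (branch (move 555 (leaf 523 1)) (move 588 (branch (move 492 (branch (move 491 (leaf 491 3)) (move 621 (branch (move 589 (leaf 492 4)) (move 620 (branch (move 653 (leaf 524 4)) (move 619 (branch (move 587 (leaf 491 5)) (move 651 (leaf 523 5)))))))))) (branch (move 620 (branch (move 493 (leaf 492 6)) (move 653 (branch (move 621 (leaf 524 4)) (move 652 (branch (move 685 (leaf 556 4)) (move 651 (branch (move 619 (leaf 523 5)) (move 683 (leaf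 555 5)))))))))) (move 492 (branch (move 491 (leaf 491 3)) (move 461 (branch (move 493 (leaf 460 6)) (move 460 (branch (move 429 (leaf 428 6)) (move 427 (branch (move 459 (leaf 427 7)) (move 428 (branch (move 395 (leaf 395 7)) (move 495 (branch (move 496 (leaf 492 2)) (move 559 (branch (move 560 (leaf 524 0)) (move 462 (branch (move 463 (leaf 427 3)) (move 494 (branch (move 430 (leaf 430 4)) (move 591 (leaf 462 7))))))))))))))))))))))))) (branch (move 556 (branch (move 555 (leaf 523 1)) (move 588 (branch (move 492 (branch (move 491 (leaf 491 3)) (move 493 (branch (move 461 (leaf 460 6)) (move 620 (leaf 492 6)))))) (branch (move 620 (branch (move 493 (leaf 492 6)) (move 621 (branch (move 653 (leaf 524 4)) (move 651 (branch (move 619 (leaf 523 5)) (move 652 (branch (move 683 (leaf 555 5)) (move 623 (branch (move 622 (leaf 619 1)) (move 559 (branch (move 560 (leaf 524 0)) (move 591 (branch (move 494 (leaf 494 7)) (move 655 (branch (move 558 (leaf 526 7)) (move 656 (branch (move 624 (leaf 527 4)) (move 688 (leaf 559 4)))))))))))))))))))) (branch (move 492 (branch (move 491 (leaf 491 3)) (move 621 (branch (move 589 (leaf 492 4)) (move 620 (branch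 (move 653 (leaf 524 4)) (move 619 (branch (move 587 (leaf 491 5)) (move 651 (leaf 523 5)))))))))) (move 492 (branch (move 491 (leaf 491 3)) (move 461 (branch (move 493 (leaf 460 6)) (move 460 (branch (move 429 (leaf 428 6)) (move 427 (branch (move 459 (leaf 427 7)) (move 428 (branch (move 395 (leaf 395 7)) (move 559 (branch (move 560 (leaf 524 0)) (move 495 (branch (move 496 (leaf 492 2)) (move 589 (branch (move 621 (leaf 492 4)) (move 587 (branch (move 619 (leaf 491 5)) (move 590 (branch (move 558 (leaf 555 2)) (move 591 (branch (move 622 (leaf 494 5)) (move 624 (branch (move 623 (leaf 588 0)) (move 592 (leaf 495 4)))))))))))))))))))))))))))))))) (move 495 (branch (move 496 (leaf 492 2)) (move 463 (branch (move 431 (branch (move 558 (leaf 430 5)) (move 398 (branch (move 430 (leaf 398 7)) (move 399 (branch (move 366 (leaf 366 7)) (move 400 (branch (move 368 (leaf 367 6)) (move 432 (leaf 399 6)))))))))) (branch (move 559 (branch (move 560 (leaf 524 0)) (move 430 (branch (move 462 (leaf 430 7)) (move 431 (branch (move 398 (leaf 398 7)) (move 432 (branch (move 400 (leaf 399 6)) (move 464 (leaf 431 6)))))))))) (move 559 (branch (move 560 (leaf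 524 0)) (move 590 (branch (move 558 (leaf 462 5)) (move 591 (branch (move 622 (leaf 494 5)) (move 624 (branch (move 592 (leaf 495 4)) (move 623 (branch (move 656 (leaf 527 4)) (move 556 (branch (move 555 (leaf 523 1)) (move 588 (branch (move 589 (leaf 588 0)) (move 492 (branch (move 491 (leaf 491 3)) (move 493 (branch (move 461 (leaf 460 6)) (move 620 (leaf 492 6)))))))))))))))))))))))))))))))
theorem a1p52 : a1e52.Valid :=
  pos_of_chk [a1e46, a1e50, a1e51] (forall_cons a1p46 (forall_cons a1p50 (forall_cons a1p51 forall_nil))) a1c52 a1e52 (by decide +kernel)

def a1e53 : Pos := ⟨2026130649339417646455839608934986733834649469917127464063458121843611031239057765866994850620807400988285852976383126582018212148044612396323155660410796832770212674100969603072, 149502054284425483664231154759358179506028970619535489100630961834290261847441008202149747365092401357527342389376166271817129010326448643201741725611281736822899324382470315714678439714187152195584, 7⟩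
def a1c53 : Cert := (move 590 (branch (move 622 (leaf 493 4)) (move 591 (branch (move 592 (branch (move 556 (leaf 556 3)) (move 593 (branch (move 558 (leaf 557 3)) (move 561 (branch (move 560 (leaf 557 2)) (move 562 (leaf 558 2)))))))) (branch (move 588 (branch (move 620 (leaf 492 5)) (move 559 (branch (move 560 (leaf 556 2)) (move 558 (branch (move 587 (leaf 555 2)) (move 623 (branch (move 624 (leaf 588 0)) (move 655 (leaf 526 7)))))))))) (move 588 (branch (move 620 (leaf 492 5)) (move 556 (branch (move 555 (leaf 555 3)) (move 592 (leaf 556 3)))))))))))
theorem a1p53 : a1e53.Valid :=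
  pos_of_chk [] forall_nil a1c53 a1e53 (by decide +kernel)

def a1e54 : Pos := ⟨2026130649339417646455839608909413369710460861557649419556992503466918515254346322199156636807556355703874333016357578985722085920303310176576592605651287016005483040871840481280, 401316520939863789855864604498729988309679183318841878235989572329324813640042153411647247624024865581342873330206194063288107703738177466513201758006543406197402716685745050193533133087960187438332930686976, 6⟩
def a1c54 : Cert := (move 621 (branch (move 653 (branch (move 558 (leaf 525 6)) (move 652 (branch (move 620 (leaf 524 5)) (move 684 (leaf 556 5)))))) (branch (move 653 (branch (move 558 (leaf 525 6)) (move 654 (branch (move 622 (leaf 525 4)) (move 686 (leaf 557 4)))))) (move 622 (branch (move 654 (leaf 525 4)) (move 590 (branch (move 493 (leaf 493 4)) (move 620 (branch (move 652 (leaf 524 5)) (move 591 (branch (move 592 (leaf 588 1)) (move 619 (leaf 587 2)))))))))))))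
theorem a1p54 : a1e54.Valid :=
  pos_of_chk [] forall_nil a1c54 a1e54 (by decide +kernel)

def a1e55 : Pos := ⟨2026130649339417646455839608909413369710460861557649419556992503466918515254346322199156636807556355703874333016357578985722085920303310176576592605651287016005483040871840481280, 1723641332781214160116211151632352456584844195374190601026573916423293226523127993246853496368245186679651358037470857046267288169382628268686924266551801931145967628193822116557060124471430545823922796093230372880384, 7⟩
def a1c55 : Cert := (move 493 (branch (move 588 (branch (move 620 (leaf 492 5)) (move 461 (branch (move 556 (leaf 460 5)) (move 460 (branch (move 428 (leaf 428 7)) (move 492 (leaf 460 7)))))))) (branch (move 460 (branch (move 492 (leaf 460 7)) (move 461 (branch (move 428 (leaf 428 7)) (move 429 (branch (move 558 (leaf 429 4)) (move 430 (branch (move 398 (leaf 397 6)) (move 462 (leaf 429 6)))))))))) (move 621 (branch (move 653 (branch (move 558 (leaf 525 6)) (move 686 (branch (move 654 (leaf 557 4)) (move 685 (branch (move 718 (leaf 589 4)) (move 684 (branch (move 652 (leaf 556 5)) (move 716 (leaf 588 5)))))))))) (branch (move 620 (branch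 (move 588 (leaf 492 5)) (move 652 (leaf 524 5)))) (move 653 (branch (move 558 (leaf 525 6)) (move 588 (branch (move 620 (leaf 492 5)) (move 685 (branch (move 556 (leaf 556 7)) (move 686 (branch (move 654 (leaf 557 4)) (move 718 (leaf 589 4))))))))))))))))
theorem a1p55 : a1e55.Valid :=
  pos_of_chk [] forall_nil a1c55 a1e55 (by decide +kernel)

def a1e56 : Pos := ⟨2026130649339417646236166083785233858831040035987044836604370573862332742153723491505219254938831362035952424515191033226448603955775922719388688989660354414003114135556158652416, 401316520902488276421817330370148793259181272337480956171882763495825693964612719458024073542880247504704523767278973272895766655156780332196308404687867435100126379927897316421919667488029066502359146823680, 8⟩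
def a1c56 : Cert := (move 620 (branch (move 621 (branch (move 652 (leaf 524 5)) (move 622 (branch (move 654 (leaf 525 4)) (move 590 (branch (move 493 (leaf 493 4)) (move 591 (branch (move 592 (leaf 588 1)) (move 619 (leaf 587 2)))))))))) (branch (move 588 (branch (move 493 (leaf 492 5)) (move 652 (branch (move 556 (leaf 524 6)) (move 684 (leaf 556 6)))))) (branch (move 652 (branch (move 621 (leaf 524 5)) (move 588 (branch (move 556 (leaf 524 6)) (move 684 (leaf 556 6)))))) (move 590 (branch (move 622 (branch (move 493 (leaf 493 4)) (move 654 (branch (move 621 (leaf 525 4)) (move 686 (leaf 557 7)))))) (branch (move 588 (branch (move 493 (leaf 492 5)) (move 591 (branch (move 619 (leaf 587 1)) (move 592 (branch (move 621 (leaf 588 1)) (move 556 (leaf 556 3)))))))) (branch (move 493 (branch (move 622 (leaf 493 4)) (move 588 (leaf 492 5)))) (move 591 (branch (move 588 (branch (move 619 (leaf 587 1)) (move 555 (branch (move 556 (leaf 555 3)) (move 587 (branch (move 554 (leaf 554 3)) (move 623 (branch (move 622 (leaf 587 0)) (move 624 (leaf 588 0)))))))))) (branch (move 592 (branch (move 621 (leaf 588 1)) (move 556 (leaf 556 3)))) (move 621 (branch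 (move 592 (leaf 588 1)) (move 619 (branch (move 588 (leaf 587 1)) (move 618 (leaf 586 2)))))))))))))))))
theorem a1p56 : a1e56.Valid :=
  pos_of_chk [] forall_nil a1c56 a1e56 (by decide +kernel)

def a1e57 : Pos := ⟨2026130649339417646455839608909413369710460861557649419556992503466918515254346322199156636807556355703874333016357578985722085920303310176576592605651287016005483040871840481280, 1723641332781214160116211151645405703900361324889321265476909577094212251423642977021469941439548469160218837334449088521329511354435839727667467001274099528323871696522764138243633027341989293949619697425367330455552, 9⟩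
def a1c57 : Cert := (move 621 (branch (move 653 (branch (move 558 (leaf 525 6)) (move 686 (branch (move 654 (leaf 557 4)) (move 685 (branch (move 718 (leaf 589 4)) (move 684 (branch (move 652 (leaf 556 5)) (move 716 (leaf 588 5)))))))))) (branch (move 622 (branch (move 654 (leaf 525 4)) (move 493 (branch (move 590 (leaf 493 4)) (move 460 (branch (move 492 (leaf 460 7)) (move 461 (branch (move 428 (leaf 428 7)) (move 588 (branch (move 556 (leaf 460 5)) (move 429 (branch (move 558 (leaf 429 4)) (move 430 (branch (move 398 (leaf 397 6)) (move 462 (leaf 429 6)))))))))))))))) (branch (move 524 (branch (move 492 (leaf 492 7)) (move 653 (branch (move 556 (leaf 524 7)) (move 654 (branch (move 622 (leaf 525 4)) (move 686 (leaf 557 4)))))))) (move 653 (branch (move 558 (leaf 525 6)) (move 524 (branch (move 492 (leaf 492 7)) (move 556 (leaf 524 7))))))))))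
theorem a1p57 : a1e57.Valid :=
  pos_of_chk [] forall_nil a1c57 a1e57 (by decide +kernel)

def a1e58 : Pos := ⟨471745303432202956716463588942664849720522026980987947953904447181637266339924679313853331149090208694433365517755703559262404264522454503056578184432640363429697159168, 1723641332781214160564717314371412993543462273872569163025730605076393392018969344294781608560393413173820749742796500998753163017858777334982465228559850328718782088966219287512564017149492017909658811173007473508352, 10⟩
def a1c58 : Cert := (move 589 (branch (move 621 (branch (move 653 (branch (move 558 (leaf 525 6)) (move 652 (branch (move 620 (leaf 524 5)) (move 684 (leaf 556 5)))))) (branch (move 652 (branch (move 620 (leaf 524 5)) (move 653 (branch (move 684 (leaf 556 5)) (move 654 (branch (move 622 (leaf 525 4)) (move 686 (leaf 557 4)))))))) (branch (move 653 (branch (move 558 (leaf 525 6)) (move 654 (branch (move 622 (leaf 525 4)) (move 686 (leaf 557 4)))))) (move 622 (branch (move 654 (leaf 525 4)) (move 623 (branch (move 624 (branch (move 588 (leaf 588 3)) (move 625 (branch (move 590 (leaf 589 3)) (move 593 (branch (move 592 (leaf 589 2)) (move 594 (leaf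 590 2)))))))) (branch (move 620 (branch (move 652 (leaf 524 5)) (move 591 (branch (move 592 (leaf 588 2)) (move 590 (branch (move 619 (leaf 587 2)) (move 655 (branch (move 656 (leaf 620 0)) (move 558 (leaf 526 4)))))))))) (move 620 (branch (move 652 (leaf 524 5)) (move 588 (branch (move 587 (leaf 587 3)) (move 624 (leaf 588 3))))))))))))))) (branch (move 493 (branch (move 588 (branch (move 620 (leaf 492 5)) (move 461 (branch (move 556 (leaf 460 5)) (move 460 (branch (move 428 (leaf 428 7)) (move 492 (leaf 460 7)))))))) (branch (move 590 (branch (move 622 (leaf 493 4)) (move 461 (branch (move 558 (leaf 461 4)) (move 460 (branch (move 428 (leaf 428 7)) (move 492 (leaf 460 7)))))))) (ref 0)))) (branch (ref 1) (branch (ref 2) (branch (ref 3) (ref 4)))))))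
theorem a1p58 : a1e58.Valid :=
  pos_of_chk [a1e53, a1e54, a1e55, a1e56, a1e57] (forall_cons a1p53 (forall_cons a1p54 (forall_cons a1p55 (forall_cons a1p56 (forall_cons a1p57 forall_nil))))) a1c58 a1e58 (by decide +kernel)

def a1e59 : Pos := ⟨1415235909637588294776852234189732072449752332085098055047956022243043306937961892335385012443504900579800459275446664784205050422003652661196936747290814374342045990912, 261628594837842316768320689305157892090448386736271889522265958562409024529875131006037905556967609540011626998055438336133039921471102240702508799135249369207586903168087578735329538022561730789376, 7⟩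
def a1c59 : Cert := (move 494 (branch (move 462 (branch (move 430 (leaf 429 5)) (move 463 (branch (move 431 (leaf 430 6)) (move 495 (branch (move 590 (leaf 462 6)) (move 461 (branch (move 429 (leaf 429 7)) (move 496 (branch (move 460 (leaf 460 0)) (move 497 (leaf 493 1)))))))))))) (branch (move 589 (branch (move 462 (leaf 461 5)) (move 621 (leaf 493 6)))) (move 590 (branch (move 589 (branch (move 621 (leaf 493 5)) (move 591 (branch (move 623 (leaf 494 4)) (move 556 (branch (move 555 (leaf 555 0)) (move 592 (leaf 556 3)))))))) (branch (move 621 (branch (move 589 (leaf 493 5)) (move 622 (branch (move 653 (leaf 525 5)) (move 654 (leaf 525 7)))))) (move 622 (branch (move 654 (leaf 525 7)) (move 623 (branch (move 591 (leaf 494 4)) (move 655 (leaf 526 4))))))))))))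
theorem a1p59 : a1e59.Valid :=
  pos_of_chk [] forall_nil a1c59 a1e59 (by decide +kernel)

def a1e60 : Pos := ⟨1415235909637588294776852234189732072449752332085098055047956022243043306937961892335385012443504900579800459275446664784205050422003652661196936747290814374342045990912, 261628594845456711067532817144468858917656820714497759299948536822833543351879693523641648417814865793258750347529243460646252034897708556807570059151833088784779604831502440785760076291117506625536, 10⟩
def a1c60 : Cert := (move 494 (branch (move 462 (branch (move 430 (leaf 429 5)) (move 463 (branch (move 431 (leaf 430 6)) (move 495 (branch (move 590 (leaf 462 6)) (move 461 (branch (move 429 (leaf 429 7)) (move 496 (branch (move 460 (leaf 460 0)) (move 497 (leaf 493 1)))))))))))) (branch (move 589 (branch (move 462 (leaf 461 5)) (move 621 (leaf 493 6)))) (move 590 (branch (move 589 (branch (move 621 (leaf 493 5)) (move 591 (branch (move 623 (leaf 494 4)) (move 592 (branch (move 593 (leaf 557 3)) (move 560 (branch (move 561 (leaf 557 2)) (move 588 (branch (move 559 (leaf 556 1)) (move 587 (branch (move 586 (leaf 554 2)) (move 619 (branch (move 618 (leaf 586 1))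 (move 620 (leaf 587 1)))))))))))))))) (branch (move 621 (branch (move 589 (leaf 493 5)) (move 622 (branch (move 653 (leaf 525 5)) (move 654 (leaf 525 7)))))) (move 622 (branch (move 654 (leaf 525 7)) (move 623 (branch (move 591 (leaf 494 4)) (move 655 (leaf 526 4))))))))))))
theorem a1p60 : a1e60.Valid :=
  pos_of_chk [] forall_nil a1c60 a1e60 (by decide +kernel)

def a1e61 : Pos := ⟨1415235909637588294776852234189732072449752332085098055047956022243043306937961892335385012443504900579800459275446664784205050422003652661196936747290814374342045990912, 56063270322394782161926579888489030834877137590736788739231022886929543402401879965425969901304197704618646947038703856156813794637338465064204318953370070989030584139321846384420809607149506265088, 8⟩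
def a1c61 : Cert := (move 559 (branch (move 560 (branch (move 561 (leaf 525 3)) (move 589 (branch (move 588 (leaf 556 1)) (move 621 (branch (move 494 (leaf 493 6)) (move 653 (leaf 525 6)))))))) (branch (move 524 (branch (move 523 (leaf 523 0)) (move 560 (leaf 524 3)))) (move 556 (branch (move 555 (branch (move 554 (leaf 522 2)) (move 587 (branch (move 586 (leaf 554 1)) (move 588 (leaf 555 1)))))) (branch (move 524 (branch (move 523 (leaf 523 0)) (move 588 (branch (move 587 (leaf 555 1)) (move 620 (branch (move 652 (leaf 524 6)) (move 621 (branch (move 653 (leaf 524 4)) (move 589 (branch (move 492 (leaf 492 4)) (move 494 (leaf 493 6)))))))))))) (move 523 (branch (move 524 (leaf 523 0)) (move 555 (branch (move 554 (leaf 522 2)) (move 522 (leaf 522 3))))))))))))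
theorem a1p61 : a1e61.Valid :=
  pos_of_chk [] forall_nil a1c61 a1e61 (by decide +kernel)

def a1e62 : Pos := ⟨471745303432202956716463588942664849720522026980987947953904447181637266339924679313853331149090208694433365517755703559262404264522454503056578184432640363429697159168, 401316521089365844116359134732269186234256045524930160566058111532737612681189906455899468044928773530798897144038893505253835864638728934389368011729274780117658674175655113751871534829673469619008811565056, 9⟩
def a1c62 : Cert := (move 589 (branch (move 493 (branch (move 588 (branch (move 620 (leaf 492 5)) (move 461 (branch (move 556 (leaf 460 5)) (move 460 (branch (move 428 (leaf 428 7)) (move 492 (leaf 460 7)))))))) (branch (move 590 (branch (move 622 (leaf 493 4)) (move 461 (branch (move 558 (leaf 461 4)) (move 460 (branch (move 428 (leaf 428 7)) (move 492 (leaf 460 7)))))))) (ref 0)))) (branch (move 621 (branch (move 494 (leaf 493 6)) (move 652 (branch (move 620 (leaf 524 5)) (move 653 (branch (move 684 (leaf 556 5)) (move 654 (branch (move 622 (leaf 525 4)) (move 686 (leaf 557 4)))))))))) (branch (move 621 (branch (move 494 (leaf 493 6)) (move 653 (branch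 (move 558 (leaf 525 6)) (move 652 (branch (move 620 (leaf 524 5)) (move 684 (leaf 556 5)))))))) (move 621 (branch (move 494 (leaf 493 6)) (move 653 (branch (move 558 (leaf 525 6)) (move 654 (branch (move 622 (leaf 525 4)) (move 686 (leaf 557 4))))))))))))
theorem a1p62 : a1e62.Valid :=
  pos_of_chk [a1e53] (forall_cons a1p53 forall_nil) a1c62 a1e62 (by decide +kernel)

def a1e63 : Pos := ⟨1415235909637588294776852234189732072449752332085098055047956022243043306937961892335385012443504900579800459275446664784205050422003652661196936747290814374342045990912, 4351082495659478572140791120071689312669714705984377867176209531906044947201669727929401879749429671759224067584650192185779125102109952740077585136593957171451585393386542329843192692736, 7⟩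
def a1c63 : Cert := (move 559 (branch (move 524 (branch (move 523 (leaf 523 0)) (move 560 (leaf 524 3)))) (branch (move 560 (branch (move 561 (leaf 525 3)) (move 592 (branch (move 593 (leaf 557 0)) (move 556 (branch (move 591 (leaf 556 0)) (move 555 (branch (move 554 (leaf 522 2)) (move 587 (branch (move 586 (leaf 554 1)) (move 588 (leaf 555 1)))))))))))) (move 556 (branch (move 555 (branch (move 554 (leaf 522 2)) (move 587 (branch (move 586 (leaf 554 1)) (move 588 (leaf 555 1)))))) (branch (move 523 (branch (move 524 (leaf 523 0)) (move 555 (branch (move 554 (leaf 522 2)) (move 522 (leaf 522 3)))))) (move 524 (branch (move 523 (leaf 523 0)) (move 588 (branch (move 587 (leaf 555 1)) (move 493 (branch (move 461 (leaf 460 5)) (move 620 (leaf 492 6))))))))))))))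
theorem a1p63 : a1e63.Valid :=
  pos_of_chk [] forall_nil a1c63 a1e63 (by decide +kernel)

def a1e64 : Pos := ⟨1415235909637588294776852234189732072449752332085098055047956022243043306937961892335385012443504900579800459275446664784205050422003652661196936747290814374342045990912, 224253081289579128644667123526168032316310041014752406015957684663802952947414710558878091366884205219433399065530161785166206769167267478203231074261732431163482238134930228987120336900775936524288, 7⟩
def a1c64 : Cert := (move 590 (branch (move 493 (branch (move 461 (leaf 461 4)) (move 622 (leaf 493 7)))) (branch (move 494 (branch (move 462 (branch (move 430 (leaf 429 5)) (move 463 (branch (move 431 (leaf 430 6)) (move 495 (leaf 462 6)))))) (branch (move 493 (branch (move 461 (leaf 461 4)) (move 495 (branch (move 463 (leaf 462 6)) (move 524 (branch (move 496 (leaf 492 1)) (move 523 (leaf 491 2)))))))) (move 461 (branch (move 493 (leaf 461 4)) (move 462 (branch (move 430 (leaf 429 5)) (move 429 (leaf 429 7))))))))) (move 622 (branch (move 654 (leaf 525 7)) (move 623 (branch (move 655 (leaf 526 4)) (move 494 (branch (move 591 (leaf 494 4)) (move 462 (branch (move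 430 (leaf 429 5)) (move 463 (branch (move 431 (leaf 430 6)) (move 495 (leaf 462 6)))))))))))))))
theorem a1p64 : a1e64.Valid :=
  pos_of_chk [] forall_nil a1c64 a1e64 (by decide +kernel)

def a1e65 : Pos := ⟨471745303432202956716463588942664849720522026980987947953904447181637266339924679313853331149090208694433365517755703559262404264522454503056578184432640363429697159168, 280316351611973910855220838988424689989877466024194877411977090424187877623030477943357558025525418678037750144136583856023313191509475208773719184020321221301812823229043318824448819840246479847424, 8⟩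
def a1c65 : Cert := (move 558 (branch (move 559 (branch (move 556 (branch (move 555 (branch (move 554 (leaf 522 2)) (move 587 (branch (move 586 (leaf 554 1)) (move 588 (leaf 555 1)))))) (move 591 (branch (move 592 (leaf 556 0)) (move 494 (branch (move 462 (leaf 462 4)) (move 623 (branch (move 590 (leaf 494 4)) (move 655 (leaf 526 7)))))))))) (move 524 (branch (move 523 (leaf 523 0)) (move 560 (leaf 524 3)))))) (branch (ref 0) (branch (ref 1) (move 493 (branch (move 590 (branch (move 461 (leaf 461 4)) (move 622 (leaf 493 7)))) (branch (move 589 (branch (move 621 (branch (move 653 (leaf 525 6)) (move 620 (branch (move 588 (leaf 492 5)) (move 652 (leaf 524 5)))))) (branch (move 590 (branch (move 622 (leaf 493 4)) (move 588 (branch (move 620 (leaf 492 5)) (move 559 (branch (move 560 (leaf 556 1)) (move 587 (leaf 555 2)))))))) (move 622 (branch (move 590 (leaf 493 4)) (move 621 (branch (move 654 (leaf 525 4)) (move 653 (leaf 525 6))))))))) (move 461 (branch (move 429 (leaf 429 4)) (move 462 (branch (move 430 (leaf 429 6)) (move 494 (branch (move 589 (leaf 461 5)) (move 460 (branch (move 428 (leaf 428 7)) (move 495 (branch (move 459 (leaf 459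 0)) (move 496 (leaf 460 3)))))))))))))))))))
theorem a1p65 : a1e65.Valid :=
  pos_of_chk [a1e63, a1e64] (forall_cons a1p63 (forall_cons a1p64 forall_nil)) a1c65 a1e65 (by decide +kernel)

def a1e66 : Pos := ⟨2026130649339417646455839608909413369710460861557649419556992503466918515254346322199156636807556355703874333016357578985722085920303310176576592605651287016005483040871840481280, 52212989306643392336790812605495814347429280592286678343496744328314111641471064001609783821315045769435808174309809390936379862491766431354398931485437331093436633307845374069871837446144, 9⟩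
def a1c66 : Cert := (move 493 (branch (move 590 (branch (move 622 (leaf 493 4)) (move 461 (branch (move 558 (leaf 461 4)) (move 460 (branch (move 428 (leaf 428 7)) (move 492 (leaf 460 7)))))))) (branch (move 494 (branch (move 462 (leaf 461 6)) (move 492 (branch (move 460 (leaf 460 7)) (move 491 (branch (move 490 (leaf 490 0)) (move 523 (branch (move 522 (leaf 490 1)) (move 495 (branch (move 524 (leaf 491 1)) (move 496 (branch (move 497 (leaf 493 1)) (move 464 (branch (move 463 (leaf 460 2)) (move 465 (leaf 461 2)))))))))))))))) (move 494 (branch (move 462 (leaf 461 6)) (move 590 (branch (move 622 (leaf 493 4)) (move 558 (branch (move 461 (leaf 461 4)) (move 591 (branch (move 623 (leaf 494 4)) (move 592 (branch (move 556 (leaf 556 3)) (move 593 (leaf 557 3)))))))))))))))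
theorem a1p66 : a1e66.Valid :=
  pos_of_chk [] forall_nil a1c66 a1e66 (by decide +kernel)

def a1e67 : Pos := ⟨471745303432202956716463588942664849720522026980987947953904447181637266339924679313853331149090208694433365517755703559262404264522454503056578184432640363429697159168, 280316351611973910855220838988424689989877466024207664094034719031244851269124645503355345780112669856425747259611995948737960483808165610403999722912846515463354744929149826532867197171497592422400, 9⟩
def a1c67 : Cert := (move 558 (branch (ref 0) (branch (ref 1) (branch (move 590 (branch (move 494 (branch (move 591 (branch (move 623 (leaf 494 4)) (move 556 (branch (move 555 (leaf 555 0)) (move 592 (branch (move 559 (leaf 556 0)) (move 593 (leaf 557 3)))))))) (move 462 (branch (move 430 (leaf 429 5)) (move 463 (branch (move 431 (leaf 430 6)) (move 495 (leaf 462 6)))))))) (move 622 (branch (move 493 (leaf 493 7)) (move 654 (leaf 525 7)))))) (move 590 (branch (move 622 (branch (move 654 (leaf 525 7)) (move 623 (branch (move 655 (leaf 526 4)) (move 591 (branch (move 494 (leaf 494 4)) (move 621 (branch (move 653 (leaf 525 5)) (move 592 (branch (move 593 (leaf 589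 1)) (move 620 (leaf 588 2)))))))))))) (branch (move 493 (branch (move 461 (leaf 461 4)) (move 622 (leaf 493 7)))) (move 494 (branch (move 462 (branch (move 430 (leaf 429 5)) (move 463 (branch (move 431 (leaf 430 6)) (move 495 (leaf 462 6)))))) (branch (move 493 (branch (move 461 (leaf 461 4)) (move 495 (branch (move 463 (leaf 462 6)) (move 524 (branch (move 496 (leaf 492 1)) (move 523 (leaf 491 2)))))))) (move 461 (branch (move 493 (leaf 461 4)) (move 462 (branch (move 430 (leaf 429 5)) (move 429 (leaf 429 7))))))))))))))))
theorem a1p67 : a1e67.Valid :=
  pos_of_chk [a1e61, a1e63] (forall_cons a1p61 (forall_cons a1p63 forall_nil)) a1c67 a1e67 (by decide +kernel)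

def a1e68 : Pos := ⟨1415235909637588294827998962438109289168708421098029291801341054212466194273638319961887103012327940499851554468038917239687654861496778770715956380820273640800304234496, 17404329752672085587595771038440942856988814575506284399640549095846300499604220749796112401156276123876992004417463496406790067116559077460290306439242358972374285017760794730256274554880, 6⟩
def a1c68 : Cert := (move 493 (branch (move 590 (branch (move 461 (leaf 461 4)) (move 622 (leaf 493 7)))) (branch (move 461 (branch (move 429 (leaf 429 4)) (move 460 (branch (move 428 (leaf 428 7)) (move 495 (branch (move 496 (leaf 460 3)) (move 459 (branch (move 458 (leaf 458 0)) (move 492 (leaf 459 3)))))))))) (move 590 (branch (move 622 (leaf 493 7)) (move 495 (branch (move 463 (leaf 462 6)) (move 524 (branch (move 496 (leaf 492 1)) (move 523 (leaf 491 2)))))))))))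
theorem a1p68 : a1e68.Valid :=
  pos_of_chk [] forall_nil a1c68 a1e68 (by decide +kernel)

def a1e69 : Pos := ⟨1415235909637588294776852234189732072449752332085098055047956022243043306937961892335385012443504900579800459275446664784205050422003652661196936747290814374342045990912, 17404329752672085587595771038440942857455528470927537335774511320003542056047276270850576279900146085490426191087367897672949025157472342259314924523847484457989358577020723122256696311808, 7⟩
def a1c69 : Cert := (move 494 (branch (move 462 (branch (move 430 (leaf 429 5)) (move 463 (branch (move 431 (leaf 430 6)) (move 495 (branch (move 590 (leaf 462 6)) (move 461 (branch (move 429 (leaf 429 7)) (move 496 (branch (move 460 (leaf 460 0)) (move 497 (leaf 493 1)))))))))))) (branch (ref 0) (branch (move 462 (branch (move 430 (leaf 429 5)) (move 463 (branch (move 431 (leaf 430 6)) (move 495 (branch (move 590 (leaf 462 6)) (move 524 (branch (move 523 (leaf 491 2)) (move 496 (branch (move 493 (leaf 492 1)) (move 497 (leaf 493 1)))))))))))) (branch (move 462 (branch (move 430 (leaf 429 5)) (move 461 (branch (move 429 (leaf 429 7)) (move 493 (branch (move 590 (leaf 461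 4)) (move 463 (branch (move 431 (leaf 430 6)) (move 492 (branch (move 464 (leaf 460 1)) (move 491 (leaf 459 2)))))))))))) (branch (move 462 (branch (move 430 (leaf 429 5)) (move 461 (branch (move 429 (leaf 429 7)) (move 493 (branch (move 590 (leaf 461 4)) (move 460 (branch (move 428 (leaf 428 7)) (move 495 (branch (move 459 (leaf 459 0)) (move 496 (leaf 460 3)))))))))))) (move 493 (branch (move 461 (branch (move 429 (leaf 429 4)) (move 460 (branch (move 428 (leaf 428 7)) (move 495 (branch (move 496 (leaf 460 3)) (move 459 (branch (move 458 (leaf 458 0)) (move 492 (leaf 459 3)))))))))) (branch (move 462 (branch (move 430 (leaf 429 5)) (move 463 (branch (move 431 (leaf 430 6)) (move 492 (branch (move 491 (leaf 459 2)) (move 464 (branch (move 465 (leaf 461 1)) (move 495 (leaf 460 2)))))))))) (branch (move 462 (branch (move 430 (leaf 429 5)) (move 461 (branch (move 429 (leaf 429 4)) (move 460 (branch (move 428 (leaf 428 7)) (move 495 (branch (move 459 (leaf 459 0)) (move 496 (leaf 460 3)))))))))) (move 462 (branch (move 430 (leaf 429 5)) (move 461 (branch (move 429 (leaf 429 4)) (move 463 (branch (move 431 (leaf 430 6)) (move 492 (branch (move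 464 (leaf 460 1)) (move 491 (leaf 459 2))))))))))))))))))))
theorem a1p69 : a1e69.Valid :=
  pos_of_chk [a1e68] (forall_cons a1p68 forall_nil) a1c69 a1e69 (by decide +kernel)

def a1e70 : Pos := ⟨329510287686269266319131238355906874428932894406878659650934246040906072803087490501882862751749818638910222946791081185781855423986398903003553357973522743296, 1723641332781214160564717314371412993543715540204149367371752441113685279657919924999130455751799717300107113166044715802975633136479919147791238029963812161028462972167836627953104097102655280422655331858226786336768, 13⟩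
def a1c70 : Cert := (move 557 (branch (ref 0) (branch (move 589 (branch (ref 1) (branch (move 621 (branch (move 494 (leaf 493 6)) (move 652 (branch (move 620 (leaf 524 5)) (move 653 (branch (move 684 (leaf 556 5)) (move 654 (branch (move 622 (leaf 525 4)) (move 686 (leaf 557 4)))))))))) (branch (move 494 (branch (move 621 (leaf 493 6)) (move 462 (branch (move 430 (leaf 429 5)) (move 493 (leaf 461 6)))))) (move 493 (branch (move 588 (branch (move 620 (leaf 492 5)) (move 556 (branch (move 461 (leaf 460 5)) (move 555 (branch (move 554 (leaf 522 2)) (move 590 (branch (move 591 (leaf 555 3)) (move 622 (leaf 493 4)))))))))) (move 494 (branch (move 462 (leaf 461 6)) (move 492 (branch (move 460 (leaf 460 7)) (move 491 (branch (move 490 (leaf 490 0)) (move 523 (branch (move 522 (leaf 490 1)) (move 495 (branch (move 524 (leaf 491 1)) (move 496 (branch (move 497 (leaf 493 1)) (move 464 (branch (move 463 (leaf 460 2)) (move 465 (leaf 461 2)))))))))))))))))))))) (branch (move 558 (branch (move 559 (branch (move 556 (branch (move 555 (branch (move 554 (leaf 522 2)) (move 587 (branch (move 586 (leaf 554 1)) (move 588 (leaf 555 1)))))) (move 591 (branch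 (move 592 (leaf 556 0)) (move 494 (branch (move 462 (leaf 462 4)) (move 623 (branch (move 590 (leaf 494 4)) (move 655 (leaf 526 7)))))))))) (move 524 (branch (move 523 (leaf 523 0)) (move 560 (leaf 524 3)))))) (branch (ref 2) (branch (ref 3) (branch (ref 4) (move 559 (branch (move 556 (branch (move 588 (branch (move 587 (leaf 555 1)) (move 589 (branch (move 560 (leaf 556 1)) (move 621 (branch (move 653 (leaf 525 6)) (move 620 (branch (move 652 (leaf 524 5)) (move 591 (branch (move 592 (leaf 556 0)) (move 590 (branch (move 619 (leaf 587 1)) (move 622 (branch (move 654 (leaf 525 4)) (move 623 (branch (move 624 (leaf 588 0)) (move 655 (leaf 526 4)))))))))))))))))) (branch (move 555 (branch (move 554 (leaf 522 2)) (move 587 (branch (move 586 (leaf 554 1)) (move 588 (leaf 555 1)))))) (move 555 (branch (move 554 (leaf 522 2)) (move 591 (branch (move 590 (leaf 555 0)) (move 592 (leaf 556 0))))))))) (branch (move 524 (branch (move 523 (leaf 523 0)) (move 560 (leaf 524 3)))) (move 556 (branch (move 555 (branch (move 554 (leaf 522 2)) (move 591 (branch (move 590 (leaf 555 0)) (move 592 (leaf 556 0)))))) (move 524 (branch (move 523 (leaf 523 0))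 (move 588 (branch (move 587 (leaf 555 1)) (move 620 (branch (move 652 (leaf 524 6)) (move 621 (branch (move 653 (leaf 524 4)) (move 492 (branch (move 589 (leaf 492 4)) (move 460 (branch (move 428 (leaf 428 4)) (move 459 (branch (move 427 (leaf 427 7)) (move 491 (leaf 459 7)))))))))))))))))))))))))) (branch (move 589 (branch (ref 5) (branch (move 621 (branch (move 494 (leaf 493 6)) (move 652 (branch (move 620 (leaf 524 5)) (move 653 (branch (move 684 (leaf 556 5)) (move 654 (branch (move 622 (leaf 525 4)) (move 686 (leaf 557 4)))))))))) (branch (move 494 (branch (move 621 (leaf 493 6)) (move 462 (branch (move 430 (leaf 429 5)) (move 493 (leaf 461 6)))))) (move 493 (branch (move 590 (branch (move 622 (leaf 493 4)) (move 461 (branch (move 558 (leaf 461 4)) (move 460 (branch (move 428 (leaf 428 7)) (move 492 (leaf 460 7)))))))) (branch (move 494 (branch (move 462 (leaf 461 6)) (move 492 (branch (move 460 (leaf 460 7)) (move 491 (branch (move 490 (leaf 490 0)) (move 523 (branch (move 522 (leaf 490 1)) (move 495 (branch (move 524 (leaf 491 1)) (move 496 (branch (move 497 (leaf 493 1)) (move 464 (branch (move 463 (leaf 460 2)) (move 465 (leaf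 461 2)))))))))))))))) (move 494 (branch (move 462 (leaf 461 6)) (move 590 (branch (move 622 (leaf 493 4)) (move 558 (branch (move 461 (leaf 461 4)) (move 588 (branch (move 620 (leaf 492 5)) (move 559 (branch (move 560 (leaf 556 1)) (move 587 (leaf 555 2))))))))))))))))))) (branch (ref 6) (branch (move 589 (branch (ref 1) (branch (move 621 (branch (move 494 (leaf 493 6)) (move 652 (branch (move 620 (leaf 524 5)) (move 653 (branch (move 684 (leaf 556 5)) (move 654 (branch (move 622 (leaf 525 4)) (move 686 (leaf 557 4)))))))))) (branch (move 494 (branch (move 621 (leaf 493 6)) (move 462 (branch (move 430 (leaf 429 5)) (move 493 (leaf 461 6)))))) (move 493 (branch (ref 7) (move 494 (branch (move 462 (leaf 461 6)) (move 492 (branch (move 460 (leaf 460 7)) (move 491 (branch (move 490 (leaf 490 0)) (move 523 (branch (move 522 (leaf 490 1)) (move 495 (branch (move 524 (leaf 491 1)) (move 496 (branch (move 497 (leaf 493 1)) (move 464 (branch (move 463 (leaf 460 2)) (move 465 (leaf 461 2)))))))))))))))))))))) (branch (ref 8) (branch (move 589 (branch (ref 9) (branch (move 494 (branch (move 621 (leaf 493 6)) (move 462 (branch (move 430 (leaf 429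 5)) (move 493 (leaf 461 6)))))) (branch (move 621 (branch (move 494 (leaf 493 6)) (move 653 (branch (move 558 (leaf 525 6)) (move 652 (branch (move 620 (leaf 524 5)) (move 684 (leaf 556 5)))))))) (move 493 (branch (move 588 (branch (move 620 (leaf 492 5)) (move 461 (branch (move 556 (leaf 460 5)) (move 460 (branch (move 428 (leaf 428 7)) (move 492 (leaf 460 7)))))))) (branch (move 494 (branch (move 462 (leaf 461 6)) (move 492 (branch (move 460 (leaf 460 7)) (move 491 (branch (move 490 (leaf 490 0)) (move 523 (branch (move 522 (leaf 490 1)) (move 495 (branch (move 524 (leaf 491 1)) (move 496 (branch (move 497 (leaf 493 1)) (move 464 (branch (move 463 (leaf 460 2)) (move 465 (leaf 461 2)))))))))))))))) (move 494 (branch (move 462 (leaf 461 6)) (move 588 (branch (move 620 (leaf 492 5)) (move 461 (branch (move 556 (leaf 460 5)) (move 429 (branch (move 397 (leaf 397 4)) (move 558 (leaf 429 4))))))))))))))))) (branch (move 589 (branch (ref 5) (branch (move 621 (branch (move 494 (leaf 493 6)) (move 652 (branch (move 620 (leaf 524 5)) (move 653 (branch (move 684 (leaf 556 5)) (move 654 (branch (move 622 (leaf 525 4)) (move 686 (leaf 557 4))))))))))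 (branch (move 494 (branch (move 621 (leaf 493 6)) (move 462 (branch (move 430 (leaf 429 5)) (move 493 (leaf 461 6)))))) (ref 10))))) (branch (ref 11) (branch (move 589 (branch (move 494 (branch (move 621 (leaf 493 6)) (move 462 (branch (move 430 (leaf 429 5)) (move 493 (leaf 461 6)))))) (branch (move 621 (branch (move 494 (leaf 493 6)) (move 653 (branch (move 558 (leaf 525 6)) (move 654 (branch (move 622 (leaf 525 4)) (move 686 (leaf 557 4)))))))) (branch (ref 12) (ref 10))))) (branch (move 589 (branch (move 493 (branch (move 588 (branch (move 620 (leaf 492 5)) (move 461 (branch (move 556 (leaf 460 5)) (move 460 (branch (move 428 (leaf 428 7)) (move 492 (leaf 460 7)))))))) (branch (move 590 (branch (move 622 (leaf 493 4)) (move 461 (branch (move 558 (leaf 461 4)) (move 460 (branch (move 428 (leaf 428 7)) (move 492 (leaf 460 7)))))))) (ref 7)))) (branch (move 494 (branch (move 621 (leaf 493 6)) (move 462 (branch (move 430 (leaf 429 5)) (move 493 (leaf 461 6)))))) (move 621 (branch (move 494 (leaf 493 6)) (move 653 (branch (move 558 (leaf 525 6)) (move 652 (branch (move 620 (leaf 524 5)) (move 684 (leaf 556 5))))))))))) (move 558 (branch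 (move 559 (branch (move 556 (branch (move 555 (branch (move 554 (leaf 522 2)) (move 587 (branch (move 586 (leaf 554 1)) (move 588 (leaf 555 1)))))) (move 591 (branch (move 592 (leaf 556 0)) (move 494 (branch (move 462 (leaf 462 4)) (move 623 (branch (move 590 (leaf 494 4)) (move 655 (leaf 526 7)))))))))) (move 524 (branch (move 523 (leaf 523 0)) (move 560 (leaf 524 3)))))) (branch (ref 13) (branch (move 590 (branch (move 494 (branch (move 591 (branch (move 623 (leaf 494 4)) (move 556 (branch (move 555 (leaf 555 0)) (move 592 (branch (move 559 (leaf 556 0)) (move 593 (leaf 557 3)))))))) (move 462 (branch (move 430 (leaf 429 5)) (move 463 (branch (move 431 (leaf 430 6)) (move 495 (leaf 462 6)))))))) (move 622 (branch (move 493 (leaf 493 7)) (move 654 (leaf 525 7)))))) (ref 14))))))))))))))))))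
theorem a1p70 : a1e70.Valid :=
  pos_of_chk [a1e58, a1e56, a1e59, a1e60, a1e61, a1e54, a1e62, a1e53, a1e65, a1e55, a1e66, a1e67, a1e57, a1e63, a1e69] (forall_cons a1p58 (forall_cons a1p56 (forall_cons a1p59 (forall_cons a1p60 (forall_cons a1p61 (forall_cons a1p54 (forall_cons a1p62 (forall_cons a1p53 (forall_cons a1p65 (forall_cons a1p55 (forall_cons a1p66 (forall_cons a1p67 (forall_cons a1p57 (forall_cons a1p63 (forall_cons a1p69 forall_nil))))))))))))))) a1c70 a1e70 (by decide +kernel)

def a1e71 : Pos := ⟨943490606534895625797804639826484203462952491840734359522752332972613234028120732550773197788496188653617919164969750802110634040903712845642842158654217548427352342528, 24313567799620936603598381610170005007493621739847916202132662731015546191878674667041038399202251263862995135718126035596902036369987644210037599568250364375330423914241179254784, 9⟩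
def a1c71 : Cert := (move 495 (branch (move 463 (branch (move 431 (leaf 430 6)) (move 559 (branch (move 591 (leaf 462 4)) (move 496 (branch (move 497 (leaf 493 1)) (move 560 (branch (move 561 (leaf 525 3)) (move 527 (branch (move 592 (leaf 463 4)) (move 464 (branch (move 432 (leaf 431 6)) (move 465 (branch (move 493 (leaf 461 1)) (move 466 (leaf 462 1)))))))))))))))) (branch (move 461 (branch (move 429 (leaf 429 7)) (move 496 (branch (move 497 (leaf 493 1)) (move 460 (branch (move 459 (leaf 459 0)) (move 493 (leaf 460 3)))))))) (branch (move 463 (branch (move 431 (leaf 430 6)) (move 461 (branch (move 429 (leaf 429 7)) (move 460 (branch (move 459 (leaf 459 0)) (move 492 (branch (move 491 (leaf 459 1)) (move 464 (branch (move 493 (leaf 460 1)) (move 559 (branch (move 591 (leaf 462 4)) (move 432 (branch (move 433 (leaf 429 2)) (move 527 (leaf 431 6)))))))))))))))) (move 463 (branch (move 431 (leaf 430 6)) (move 461 (branch (move 429 (leaf 429 7)) (move 496 (branch (move 460 (leaf 460 0)) (move 497 (leaf 493 1))))))))))))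
theorem a1p71 : a1e71.Valid :=
  pos_of_chk [] forall_nil a1c71 a1e71 (by decide +kernel)

def a1e72 : Pos := ⟨329510287737415994567508455074862963441864131160263691620357133376582500429589581070705902671800913831502475402273685625274981533505418536533012624431780986880, 37375513600476177382682887880009559177001345093462296322622465844197435765944652248284826569119066063167080916868692154026019178628387650632294669824831669425546192755460157524213904150791207256064, 11⟩
def a1c72 : Cert := (move 558 (branch (move 590 (branch (move 495 (branch (move 463 (leaf 462 6)) (move 622 (branch (move 527 (leaf 494 6)) (move 621 (branch (move 589 (leaf 493 5)) (move 653 (leaf 525 5)))))))) (branch (move 591 (branch (move 623 (leaf 494 4)) (move 462 (branch (move 559 (leaf 462 4)) (move 463 (branch (move 431 (leaf 430 6)) (move 495 (leaf 462 6)))))))) (move 591 (branch (move 623 (leaf 494 4)) (move 559 (branch (move 462 (leaf 462 4)) (move 589 (branch (move 621 (leaf 493 5)) (move 560 (branch (move 561 (leaf 557 1)) (move 588 (leaf 556 2))))))))))))) (branch (move 590 (branch (move 495 (branch (move 463 (leaf 462 6)) (move 622 (branch (move 527 (leaf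 494 6)) (move 621 (branch (move 589 (leaf 493 5)) (move 653 (leaf 525 5)))))))) (branch (move 493 (branch (move 461 (leaf 461 7)) (move 495 (branch (move 463 (leaf 462 6)) (move 496 (branch (move 497 (leaf 493 1)) (move 591 (branch (move 623 (leaf 494 4)) (move 589 (branch (move 621 (leaf 493 5)) (move 464 (branch (move 465 (leaf 461 2)) (move 559 (branch (move 527 (leaf 463 6)) (move 560 (branch (move 561 (leaf 557 1)) (move 588 (leaf 556 2)))))))))))))))))) (move 493 (branch (move 461 (leaf 461 7)) (move 622 (leaf 493 7))))))) (branch (move 590 (branch (move 591 (branch (move 623 (leaf 494 4)) (move 559 (branch (move 462 (leaf 462 4)) (move 589 (branch (move 621 (leaf 493 5)) (move 560 (branch (move 561 (leaf 557 1)) (move 588 (leaf 556 2)))))))))) (move 493 (branch (move 461 (leaf 461 7)) (move 622 (leaf 493 7)))))) (branch (move 590 (branch (move 495 (branch (move 463 (leaf 462 6)) (move 622 (branch (move 527 (leaf 494 6)) (move 621 (branch (move 589 (leaf 493 5)) (move 653 (leaf 525 5)))))))) (branch (move 493 (branch (move 461 (leaf 461 7)) (move 622 (leaf 493 7)))) (move 461 (branch (move 493 (leaf 461 7)) (move 462 (branch (move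 429 (leaf 429 7)) (move 463 (branch (move 431 (leaf 430 6)) (move 495 (leaf 462 6))))))))))) (move 462 (branch (move 559 (branch (move 591 (leaf 462 4)) (move 430 (branch (move 527 (leaf 430 4)) (move 431 (branch (move 399 (leaf 398 6)) (move 463 (leaf 430 6)))))))) (branch (move 559 (branch (move 591 (leaf 462 4)) (move 430 (branch (move 527 (leaf 430 4)) (move 429 (branch (move 397 (leaf 397 7)) (move 461 (leaf 429 7)))))))) (branch (move 429 (branch (move 461 (leaf 429 7)) (move 430 (branch (move 397 (leaf 397 7)) (move 431 (branch (move 399 (leaf 398 6)) (move 463 (leaf 430 6)))))))) (ref 0))))))))))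
theorem a1p72 : a1e72.Valid :=
  pos_of_chk [a1e71] (forall_cons a1p71 forall_nil) a1c72 a1e72 (by decide +kernel)

def a1e73 : Pos := ⟨219673525175326239139706567948419895260313287626407871360895778083114828594879019660120542517667552527642048594904294154828562879507017294794859084857162596352, 34808659509396432475757358581819906938361731661992109256745200057969048747470414757154478534041079428547999719588143337440630383071608848204671850879954400992133777345713493709993554214912, 5⟩
def a1c73 : Cert := (move 558 (branch (move 559 (branch (move 591 (leaf 462 4)) (move 430 (branch (move 527 (leaf 430 4)) (move 429 (branch (move 397 (leaf 397 7)) (move 461 (leaf 429 7)))))))) (branch (move 463 (branch (move 431 (leaf 430 6)) (move 590 (branch (move 495 (leaf 462 6)) (move 591 (branch (move 559 (leaf 462 4)) (move 623 (leaf 494 4)))))))) (move 429 (branch (move 461 (leaf 429 7)) (move 430 (branch (move 397 (leaf 397 7)) (move 431 (branch (move 399 (leaf 398 6)) (move 463 (leaf 430 6)))))))))))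
theorem a1p73 : a1e73.Valid :=
  pos_of_chk [] forall_nil a1c73 a1e73 (by decide +kernel)

def a1e74 : Pos := ⟨329510287737415994567508455074862963441864131160263691620357133376582500429589581070705902671800913831502475402273685625274981533505418536533012624431780986880, 43510824434359610854173012911133785959722148626610453124222775580052253482020405768084291764275387023577913319973647044552417125516040750452462057133876926563687983827341152547331104571392, 11⟩
def a1c74 : Cert := (move 462 (branch (move 558 (branch (move 463 (branch (move 431 (leaf 430 6)) (move 590 (branch (move 495 (leaf 462 6)) (move 591 (branch (move 559 (leaf 462 4)) (move 623 (leaf 494 4)))))))) (branch (move 557 (branch (move 589 (leaf 461 5)) (move 559 (branch (move 591 (leaf 462 4)) (move 560 (branch (move 561 (leaf 525 3)) (move 463 (branch (move 431 (leaf 430 6)) (move 461 (branch (move 429 (leaf 429 7)) (move 592 (branch (move 593 (leaf 557 0)) (move 495 (branch (move 527 (leaf 463 4)) (move 496 (branch (move 460 (leaf 460 0)) (move 497 (leaf 493 1)))))))))))))))))) (branch (move 589 (branch (move 557 (leaf 461 5)) (move 590 (branch (move 621 (leaf 493 5))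 (move 463 (branch (move 431 (leaf 430 6)) (move 495 (leaf 462 6)))))))) (move 589 (branch (move 557 (leaf 461 5)) (move 590 (branch (move 621 (leaf 493 5)) (move 591 (branch (move 559 (leaf 462 4)) (move 623 (leaf 494 4)))))))))))) (branch (ref 0) (branch (move 430 (branch (move 557 (leaf 429 5)) (move 431 (branch (move 399 (leaf 398 6)) (move 397 (branch (move 429 (leaf 397 7)) (move 398 (branch (move 365 (leaf 365 7)) (move 527 (branch (move 495 (leaf 398 4)) (move 559 (leaf 430 4)))))))))))) (branch (move 430 (branch (move 557 (leaf 429 5)) (move 431 (branch (move 399 (leaf 398 6)) (move 429 (branch (move 397 (leaf 397 7)) (move 558 (branch (move 463 (leaf 430 6)) (move 461 (leaf 429 7)))))))))) (branch (move 430 (branch (move 557 (leaf 429 5)) (move 429 (branch (move 397 (leaf 397 7)) (move 558 (branch (move 461 (leaf 429 7)) (move 559 (branch (move 527 (leaf 430 4)) (move 591 (leaf 462 4)))))))))) (move 430 (branch (move 557 (leaf 429 5)) (move 431 (branch (move 399 (leaf 398 6)) (move 463 (branch (move 558 (leaf 430 6)) (move 527 (branch (move 559 (leaf 430 4)) (move 495 (branch (move 398 (leaf 398 4)) (move 496 (branch (move 497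 (leaf 493 1)) (move 432 (branch (move 400 (leaf 399 6)) (move 461 (branch (move 460 (leaf 460 0)) (move 433 (leaf 429 1))))))))))))))))))))))))
theorem a1p74 : a1e74.Valid :=
  pos_of_chk [a1e73] (forall_cons a1p73 forall_nil) a1c74 a1e74 (by decide +kernel)

def a1e75 : Pos := ⟨219673525175326239139706567948419895260313287626407871360895778083114828594879019660120542517667552527642048594904294154828562879507017294794859084857162596352, 34808659509396432475757358581819906938285011569619543431666765924449651892340337209200344203037564787108246583734908777560553740282720469521447944220714711827855247895419304810306166849536, 5⟩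
def a1c75 : Cert := (move 558 (branch (move 559 (branch (move 591 (leaf 462 4)) (move 430 (branch (move 527 (leaf 430 4)) (move 431 (branch (move 399 (leaf 398 6)) (move 463 (leaf 430 6)))))))) (branch (move 461 (branch (move 429 (leaf 429 7)) (move 590 (branch (move 493 (leaf 461 7)) (move 591 (branch (move 559 (leaf 462 4)) (move 623 (leaf 494 4)))))))) (move 429 (branch (move 461 (leaf 429 7)) (move 430 (branch (move 397 (leaf 397 7)) (move 431 (branch (move 399 (leaf 398 6)) (move 463 (leaf 430 6)))))))))))
theorem a1p75 : a1e75.Valid :=
  pos_of_chk [] forall_nil a1c75 a1e75 (by decide +kernel)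

def a1e76 : Pos := ⟨329510287737415994579416980733722186736624252428700757911207193430083519529241516494081496768250825407278789577167987883422514687502483595796043537515003510784, 34808659525605477678020624600473624213288507777635045105050172333490429648176438483239252567811605992807520091477628766789094979762933583958954403520074142628571066766802613282501149327360, 10⟩
def a1c76 : Cert := (move 558 (branch (move 463 (branch (move 431 (leaf 430 6)) (move 590 (branch (move 495 (leaf 462 6)) (move 591 (branch (move 559 (leaf 462 4)) (move 623 (leaf 494 4)))))))) (branch (move 461 (branch (move 429 (leaf 429 7)) (move 590 (branch (move 493 (leaf 461 7)) (move 591 (branch (move 559 (leaf 462 4)) (move 623 (leaf 494 4)))))))) (branch (move 461 (branch (move 429 (leaf 429 7)) (move 590 (branch (move 493 (leaf 461 7)) (move 463 (branch (move 431 (leaf 430 6)) (move 495 (leaf 462 6)))))))) (ref 0)))))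
theorem a1p76 : a1e76.Valid :=
  pos_of_chk [a1e71] (forall_cons a1p71 forall_nil) a1c76 a1e76 (by decide +kernel)

def a1e77 : Pos := ⟨329510287737415994567508455074862963441864131160263691620357133376582500429589581070705902671800913831502475402273685625274981533505418536533012624431780986880, 34808659525605477678492369903576316882318702100270487242076419379033625106495181563074141474459527007778838470616487866190395217641647237594069892752385691474810014760704113040830784077824, 11⟩
def a1c77 : Cert := (move 462 (branch (ref 0) (branch (move 430 (branch (move 431 (branch (move 399 (leaf 398 6)) (move 558 (branch (move 463 (leaf 430 6)) (move 559 (branch (move 527 (leaf 430 4)) (move 591 (leaf 462 4)))))))) (branch (move 398 (branch (move 493 (leaf 397 5)) (move 527 (branch (move 495 (leaf 398 4)) (move 559 (leaf 430 4)))))) (move 398 (branch (move 493 (leaf 397 5)) (move 399 (branch (move 367 (leaf 366 6)) (move 431 (leaf 398 6))))))))) (branch (move 430 (branch (move 557 (leaf 429 5)) (move 431 (branch (move 399 (leaf 398 6)) (move 397 (branch (move 429 (leaf 397 7)) (move 398 (branch (move 365 (leaf 365 7)) (move 527 (branch (move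 495 (leaf 398 4)) (move 559 (leaf 430 4)))))))))))) (branch (move 430 (branch (move 557 (leaf 429 5)) (move 431 (branch (move 399 (leaf 398 6)) (move 429 (branch (move 397 (leaf 397 7)) (move 558 (branch (move 463 (leaf 430 6)) (move 461 (leaf 429 7)))))))))) (move 430 (branch (move 557 (leaf 429 5)) (move 429 (branch (move 397 (leaf 397 7)) (move 558 (branch (move 461 (leaf 429 7)) (move 559 (branch (move 527 (leaf 430 4)) (move 591 (leaf 462 4)))))))))))))))
theorem a1p77 : a1e77.Valid :=
  pos_of_chk [a1e76] (forall_cons a1p76 forall_nil) a1c77 a1e77 (by decide +kernel)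

def a1e78 : Pos := ⟨329510287762989358691697063434341007948329749536956207605068577044420714242840626355117422631826461427798601630014987845021544588264928353297742257660910108672, 65266236621907255527122611442240356386013370461684572594441421999589615726245821534668249104274157514772567511787351131147192470383770622840576963208401265474492537227370678259287895048192, 7⟩
def a1c78 : Cert := (move 557 (branch (move 589 (branch (move 621 (leaf 493 6)) (move 588 (branch (move 620 (leaf 492 5)) (move 556 (branch (move 461 (leaf 460 5)) (move 590 (branch (move 622 (leaf 493 4)) (move 555 (branch (move 554 (leaf 554 0)) (move 591 (leaf 555 3)))))))))))) (branch (move 558 (branch (move 461 (branch (move 429 (leaf 429 4)) (move 556 (branch (move 588 (leaf 460 5)) (move 555 (branch (move 554 (leaf 522 2)) (move 527 (leaf 523 2)))))))) (branch (move 590 (branch (move 461 (leaf 461 4)) (move 622 (leaf 493 7)))) (move 590 (branch (move 622 (leaf 493 7)) (move 591 (branch (move 623 (leaf 494 4)) (move 556 (branch (move 555 (leaf 555 0)) (move 592 (branch (move 559 (leaf 556 0)) (move 593 (leaf 557 3))))))))))))) (branch (move 589 (branch (move 621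 (leaf 493 6)) (move 588 (branch (move 620 (leaf 492 5)) (move 461 (branch (move 556 (leaf 460 5)) (move 429 (branch (move 397 (leaf 397 4)) (move 558 (leaf 429 4)))))))))) (branch (move 589 (branch (move 621 (leaf 493 6)) (move 590 (branch (move 622 (leaf 493 4)) (move 558 (branch (move 461 (leaf 461 4)) (move 588 (branch (move 620 (leaf 492 5)) (move 559 (branch (move 560 (leaf 556 1)) (move 587 (leaf 555 2)))))))))))) (branch (move 589 (branch (move 621 (leaf 493 6)) (move 590 (branch (move 622 (leaf 493 4)) (move 558 (branch (move 461 (leaf 461 4)) (move 591 (branch (move 623 (leaf 494 4)) (move 556 (branch (move 555 (leaf 555 0)) (move 592 (leaf 556 3)))))))))))) (move 558 (branch (move 590 (branch (move 622 (leaf 493 7)) (move 591 (branch (move 623 (leaf 494 4)) (move 556 (branch (move 555 (leaf 555 0)) (move 592 (branch (move 559 (leaf 556 0)) (move 593 (leaf 557 3)))))))))) (branch (move 589 (branch (move 621 (leaf 493 6)) (move 588 (branch (move 620 (leaf 492 5)) (move 559 (branch (move 560 (leaf 556 1)) (move 587 (branch (move 556 (leaf 555 1)) (move 586 (leaf 554 2)))))))))) (branch (move 590 (branch (move 622 (leaf 493 7)) (move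 589 (branch (move 621 (leaf 493 5)) (move 588 (branch (move 620 (leaf 492 5)) (move 559 (branch (move 560 (leaf 556 1)) (move 587 (leaf 555 2)))))))))) (move 590 (branch (move 622 (leaf 493 7)) (move 589 (branch (move 621 (leaf 493 5)) (move 591 (branch (move 623 (leaf 494 4)) (move 556 (branch (move 555 (leaf 555 0)) (move 592 (leaf 556 3))))))))))))))))))))
theorem a1p78 : a1e78.Valid :=
  pos_of_chk [] forall_nil a1c78 a1e78 (by decide +kernel)

def a1e79 : Pos := ⟨943490606534895625797804639826484203462952491840734359522752332972613234028120732550773197788496188653617919164969750802110634040903712845642842158654217548427352342528, 2026130649339417646126329321370190947283297723305575790664548467037141139241469129481941968188996656555749465697165421785138752233868286352202635074131054712284509160676125573120, 6⟩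
def a1c79 : Cert := (move 493 (branch (move 463 (branch (move 431 (leaf 430 6)) (move 492 (branch (move 491 (leaf 459 2)) (move 464 (branch (move 465 (leaf 461 1)) (move 495 (leaf 460 2)))))))) (branch (move 461 (branch (move 429 (leaf 429 4)) (move 557 (branch (move 589 (leaf 461 5)) (move 460 (branch (move 428 (leaf 428 7)) (move 459 (branch (move 458 (leaf 458 0)) (move 495 (leaf 459 0)))))))))) (move 461 (branch (move 429 (leaf 429 4)) (move 557 (branch (move 589 (leaf 461 5)) (move 463 (branch (move 431 (leaf 430 6)) (move 492 (branch (move 464 (leaf 460 1)) (move 491 (leaf 459 2)))))))))))))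
theorem a1p79 : a1e79.Valid :=
  pos_of_chk [] forall_nil a1c79 a1e79 (by decide +kernel)

def a1e80 : Pos := ⟨329510287737415994579416980733722186736624252428700757911207193430083519529241516494081496768250825407278789577167987883422514687502483595796043537515003510784, 224253081289579128646693254176450940568559378101877817830003757835040900031518068357309122494841199169836297424728555439129816153791753460049354549274956091755641307127481798339255666537241405030400, 7⟩
def a1c80 : Cert := (move 558 (branch (move 461 (branch (move 429 (leaf 429 7)) (move 590 (branch (move 493 (leaf 461 7)) (move 463 (branch (move 431 (leaf 430 6)) (move 495 (leaf 462 6)))))))) (branch (move 557 (branch (move 589 (leaf 461 5)) (move 463 (branch (move 431 (leaf 430 6)) (move 590 (branch (move 495 (leaf 462 6)) (move 622 (branch (move 654 (leaf 525 7)) (move 623 (branch (move 591 (leaf 494 4)) (move 655 (leaf 526 4)))))))))))) (branch (ref 0) (branch (move 557 (branch (move 589 (leaf 461 5)) (move 461 (branch (move 429 (leaf 429 7)) (move 493 (branch (move 590 (leaf 461 4)) (move 460 (branch (move 428 (leaf 428 7)) (move 459 (branch (move 458 (leaf 458 0))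 (move 495 (leaf 459 0)))))))))))) (move 557 (branch (move 589 (leaf 461 5)) (move 461 (branch (move 429 (leaf 429 7)) (move 493 (branch (move 590 (leaf 461 4)) (move 463 (branch (move 431 (leaf 430 6)) (move 492 (branch (move 464 (leaf 460 1)) (move 491 (leaf 459 2)))))))))))))))))
theorem a1p80 : a1e80.Valid :=
  pos_of_chk [a1e79] (forall_cons a1p79 forall_nil) a1c80 a1e80 (by decide +kernel)

def a1e81 : Pos := ⟨329510287737415994567508455074862963441864131160263691620357133376582500429589581070705902671800913831502475402273685625274981533505418536533012624431780986880, 261628594837842316752111644115277940278240352023426074422160102497033086854557460274627583188535072207175891179751007416240705033877283098980562150778300848128808615751983362766573528388136580677632, 8⟩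
def a1c81 : Cert := (move 462 (branch (move 558 (branch (move 429 (branch (move 461 (leaf 429 7)) (move 430 (branch (move 397 (leaf 397 7)) (move 431 (branch (move 399 (leaf 398 6)) (move 463 (leaf 430 6)))))))) (branch (move 463 (branch (move 431 (leaf 430 6)) (move 590 (branch (move 495 (leaf 462 6)) (move 622 (branch (move 493 (leaf 493 7)) (move 623 (branch (move 591 (leaf 494 4)) (move 655 (leaf 526 4)))))))))) (move 461 (branch (move 429 (leaf 429 7)) (move 590 (branch (move 493 (leaf 461 7)) (move 623 (branch (move 591 (leaf 494 4)) (move 622 (branch (move 655 (leaf 526 4)) (move 621 (branch (move 589 (leaf 493 5)) (move 653 (leaf 525 5))))))))))))))) (branch (move 430 (branch (move 557 (leaf 429 5)) (move 431 (branch (move 399 (leaf 398 6)) (move 429 (branch (move 397 (leaf 397 7)) (move 558 (branch (move 463 (leaf 430 6)) (move 461 (leaf 429 7)))))))))) (branch (move 557 (branch (move 430 (leaf 429 5)) (move 589 (branch (move 493 (leaf 461 6)) (move 621 (leaf 493 6)))))) (ref 0)))))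
theorem a1p81 : a1e81.Valid :=
  pos_of_chk [a1e80] (forall_cons a1p80 forall_nil) a1c81 a1e81 (by decide +kernel)

def a1e82 : Pos := ⟨329510287737415994567508455074862963441864131160263691620357133376582500429589581070705902671800913831502475402273685625274981533505418536533012624431780986880, 43510824385732475281348876678621424687784211391037934659977571491667105101636606420870724214555318245503182136114876077613680550911932156479889950007243894542361150346519467845125746458624, 6⟩
def a1c82 : Cert := (move 462 (branch (move 430 (branch (move 431 (branch (move 399 (leaf 398 6)) (move 558 (branch (move 463 (leaf 430 6)) (move 559 (branch (move 527 (leaf 430 4)) (move 591 (leaf 462 4)))))))) (branch (move 398 (branch (move 493 (leaf 397 5)) (move 527 (branch (move 495 (leaf 398 4)) (move 559 (leaf 430 4)))))) (move 398 (branch (move 493 (leaf 397 5)) (move 399 (branch (move 367 (leaf 366 6)) (move 431 (leaf 398 6))))))))) (branch (move 557 (branch (move 430 (leaf 429 5)) (move 589 (branch (move 493 (leaf 461 6)) (move 621 (leaf 493 6)))))) (move 558 (branch (move 463 (branch (move 431 (leaf 430 6)) (move 590 (branch (move 495 (leaf 462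 6)) (move 591 (branch (move 559 (leaf 462 4)) (move 623 (leaf 494 4)))))))) (branch (move 589 (branch (move 557 (leaf 461 5)) (move 590 (branch (move 621 (leaf 493 5)) (move 463 (branch (move 431 (leaf 430 6)) (move 495 (leaf 462 6)))))))) (move 557 (branch (move 589 (leaf 461 5)) (move 559 (branch (move 591 (leaf 462 4)) (move 560 (branch (move 524 (leaf 524 3)) (move 561 (leaf 525 3))))))))))))))
theorem a1p82 : a1e82.Valid :=
  pos_of_chk [] forall_nil a1c82 a1e82 (by decide +kernel)

def a1e83 : Pos := ⟨329510287737415994579416980736494856430745067288279172095350277133519956604617333069251976348865446715084415200207962289526654265599874806757447109343977668608, 25573364207176146563888652846644358654313535650380634763140887659044673794901397810021840625402433872200398132199710642397307540893268993196756566016, 7⟩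
def a1c83 : Cert := (move 429 (branch (move 397 (leaf 397 7)) (move 428 (branch (move 427 (branch (move 463 (leaf 427 0)) (move 426 (branch (move 461 (leaf 426 0)) (move 458 (branch (move 457 (leaf 425 1)) (move 459 (leaf 426 1)))))))) (branch (move 431 (branch (move 399 (leaf 398 6)) (move 460 (branch (move 459 (leaf 427 1)) (move 461 (branch (move 432 (leaf 428 1)) (move 396 (branch (move 395 (leaf 395 3)) (move 493 (leaf 396 7)))))))))) (move 431 (branch (move 399 (leaf 398 6)) (move 463 (branch (move 427 (leaf 427 0)) (move 464 (leaf 428 0)))))))))))
theorem a1p83 : a1e83.Valid :=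
  pos_of_chk [] forall_nil a1c83 a1e83 (by decide +kernel)

def a1e84 : Pos := ⟨329510287737415994567508455074862963441864131160263691620357133376582500429589581070705902671800913831502475402273685625274981533505418536533012624431780986880, 8702164880388304094835447327384751680967429846151431363758159641083741949821643891758224003826440366780274104567870095189269436345158394649743738644103359484879310072236305257973793423360, 10⟩
def a1c84 : Cert := (move 462 (branch (move 430 (branch (move 398 (branch (move 493 (leaf 397 5)) (move 527 (branch (move 495 (leaf 398 4)) (move 559 (leaf 430 4)))))) (branch (move 431 (branch (move 399 (leaf 398 6)) (move 397 (branch (move 429 (leaf 397 7)) (move 398 (branch (move 365 (leaf 365 7)) (move 527 (branch (move 495 (leaf 398 4)) (move 559 (leaf 430 4)))))))))) (ref 0)))) (branch (move 430 (branch (move 557 (leaf 429 5)) (move 431 (branch (move 399 (leaf 398 6)) (move 463 (branch (move 558 (leaf 430 6)) (move 527 (branch (move 559 (leaf 430 4)) (move 495 (branch (move 398 (leaf 398 4)) (move 496 (branch (move 497 (leaf 493 1)) (move 432 (branch (move 400 (leaf 399 6)) (move 461 (branch (move 460 (leaf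 460 0)) (move 433 (leaf 429 1)))))))))))))))))) (branch (move 557 (branch (move 430 (leaf 429 5)) (move 589 (branch (move 493 (leaf 461 6)) (move 621 (leaf 493 6)))))) (move 558 (branch (move 461 (branch (move 429 (leaf 429 7)) (move 590 (branch (move 493 (leaf 461 7)) (move 463 (branch (move 431 (leaf 430 6)) (move 495 (leaf 462 6)))))))) (branch (move 589 (branch (move 557 (leaf 461 5)) (move 590 (branch (move 621 (leaf 493 5)) (move 463 (branch (move 431 (leaf 430 6)) (move 495 (leaf 462 6)))))))) (branch (ref 1) (branch (move 557 (branch (move 589 (leaf 461 5)) (move 461 (branch (move 429 (leaf 429 7)) (move 493 (branch (move 590 (leaf 461 4)) (move 460 (branch (move 428 (leaf 428 7)) (move 459 (branch (move 458 (leaf 458 0)) (move 495 (leaf 459 0)))))))))))) (move 557 (branch (move 589 (leaf 461 5)) (move 461 (branch (move 429 (leaf 429 7)) (move 493 (branch (move 590 (leaf 461 4)) (move 463 (branch (move 431 (leaf 430 6)) (move 492 (branch (move 464 (leaf 460 1)) (move 491 (leaf 459 2)))))))))))))))))))))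
theorem a1p84 : a1e84.Valid :=
  pos_of_chk [a1e83, a1e79] (forall_cons a1p83 (forall_cons a1p79 forall_nil)) a1c84 a1e84 (by decide +kernel)

def a1e85 : Pos := ⟨329510287878069497250545801051992208227425032232072529536270073549692676402470330134969262451941425611131169654850847833881078334682722528739025607191991156736, 1886981212850117726369136312632560352064186365154540520885082973394858058264104512112014984608911260862592623340644607937853812884733081875434469980147416466566013779968, 11⟩
def a1c85 : Cert := (move 462 (branch (move 463 (branch (move 464 (leaf 460 2)) (move 460 (branch (move 459 (leaf 459 3)) (move 431 (branch (move 399 (leaf 398 5)) (move 461 (branch (move 432 (leaf 428 2)) (move 428 (branch (move 427 (leaf 427 3)) (move 396 (leaf 396 4)))))))))))) (branch (move 430 (branch (move 398 (leaf 397 5)) (move 460 (branch (move 459 (leaf 459 3)) (move 429 (branch (move 397 (leaf 397 7)) (move 428 (branch (move 396 (leaf 396 4)) (move 431 (branch (move 399 (leaf 398 6)) (move 432 (branch (move 461 (leaf 428 1)) (move 465 (branch (move 464 (leaf 429 0)) (move 433 (branch (move 466 (leaf 430 0)) (move 401 (branch (move 400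 (leaf 397 2)) (move 402 (leaf 398 2)))))))))))))))))))) (branch (move 430 (branch (move 398 (leaf 397 5)) (move 463 (branch (move 464 (leaf 460 2)) (move 431 (branch (move 399 (leaf 398 5)) (move 527 (branch (move 559 (leaf 430 4)) (move 429 (branch (move 397 (leaf 397 7)) (move 432 (branch (move 400 (leaf 399 6)) (move 433 (branch (move 461 (leaf 429 1)) (move 434 (leaf 430 1)))))))))))))))) (branch (move 430 (branch (move 398 (leaf 397 5)) (move 460 (branch (move 459 (leaf 459 3)) (move 429 (branch (move 397 (leaf 397 7)) (move 428 (branch (move 396 (leaf 396 4)) (move 431 (branch (move 399 (leaf 398 6)) (move 432 (branch (move 461 (leaf 428 1)) (move 527 (branch (move 559 (leaf 430 4)) (move 463 (branch (move 427 (leaf 427 0)) (move 400 (leaf 399 6)))))))))))))))))) (move 430 (branch (move 398 (leaf 397 5)) (move 463 (branch (move 464 (leaf 460 2)) (move 527 (branch (move 559 (leaf 430 4)) (move 460 (branch (move 459 (leaf 459 3)) (move 428 (branch (move 396 (leaf 396 4)) (move 429 (branch (move 427 (leaf 427 0)) (move 397 (leaf 397 7)))))))))))))))))))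
theorem a1p85 : a1e85.Valid :=
  pos_of_chk [] forall_nil a1c85 a1e85 (by decide +kernel)

def a1e86 : Pos := ⟨329510287737415994567508455074862963441864131160263691620357133376582500429589581070705902671800913831502475402273685625274981533505418536533012624431780986880, 30457577075280672376534792345444620719881110897179808730085956308298438683586875734049793633643932128872120605601386844940449068744127652149766022517860870432371342564191264860008836235264, 14⟩
def a1c86 : Cert := (move 493 (branch (move 492 (branch (move 491 (branch (move 490 (leaf 490 0)) (move 527 (leaf 491 0)))) (move 460 (branch (move 557 (branch (move 589 (leaf 460 7)) (move 428 (branch (move 396 (leaf 396 4)) (move 461 (leaf 428 7)))))) (move 495 (branch (move 459 (leaf 459 3)) (move 496 (branch (move 497 (leaf 493 1)) (move 464 (branch (move 463 (leaf 460 2)) (move 465 (leaf 461 2)))))))))))) (branch (move 557 (branch (move 589 (branch (move 621 (leaf 493 6)) (move 588 (branch (move 620 (leaf 492 5)) (move 556 (branch (move 461 (leaf 460 5)) (move 590 (branch (move 622 (leaf 493 4)) (move 555 (branch (move 554 (leaf 554 0)) (move 591 (leaf 555 3)))))))))))) (branch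 (move 462 (branch (move 430 (leaf 429 5)) (move 589 (leaf 461 6)))) (move 461 (branch (move 429 (branch (move 397 (leaf 397 4)) (move 428 (branch (move 396 (leaf 396 7)) (move 460 (leaf 428 7)))))) (branch (move 430 (branch (move 462 (leaf 429 5)) (move 429 (branch (move 397 (leaf 397 4)) (move 398 (leaf 397 6)))))) (move 462 (branch (move 430 (leaf 429 5)) (move 460 (branch (move 428 (leaf 428 7)) (move 495 (branch (move 459 (leaf 459 0)) (move 496 (leaf 460 3)))))))))))))) (branch (move 557 (branch (move 589 (branch (move 492 (branch (move 460 (leaf 460 7)) (move 491 (branch (move 490 (leaf 490 0)) (move 527 (leaf 491 0)))))) (move 588 (branch (move 620 (leaf 492 5)) (move 556 (branch (move 461 (leaf 460 5)) (move 590 (branch (move 622 (leaf 493 4)) (move 555 (branch (move 554 (leaf 554 0)) (move 591 (leaf 555 3)))))))))))) (branch (move 462 (branch (move 430 (leaf 429 5)) (move 589 (leaf 461 6)))) (move 461 (branch (move 429 (branch (move 397 (leaf 397 4)) (move 428 (branch (move 396 (leaf 396 7)) (move 460 (leaf 428 7)))))) (branch (move 430 (branch (move 462 (leaf 429 5)) (move 429 (branch (move 397 (leaf 397 4)) (move 398 (leaf 397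 6)))))) (move 462 (branch (move 430 (leaf 429 5)) (move 460 (branch (move 428 (leaf 428 7)) (move 459 (branch (move 458 (leaf 458 0)) (move 491 (branch (move 490 (leaf 458 1)) (move 492 (branch (move 527 (leaf 491 0)) (move 463 (leaf 459 1)))))))))))))))))) (branch (move 492 (branch (move 491 (branch (move 490 (leaf 490 0)) (move 527 (leaf 491 0)))) (branch (move 495 (branch (move 496 (branch (move 497 (leaf 493 1)) (move 464 (branch (move 463 (leaf 460 2)) (move 465 (leaf 461 2)))))) (branch (move 496 (branch (move 497 (leaf 493 1)) (move 460 (branch (move 459 (leaf 459 3)) (move 461 (leaf 460 3)))))) (ref 0)))) (move 491 (branch (move 490 (leaf 490 0)) (move 462 (branch (move 463 (leaf 459 2)) (move 430 (branch (move 398 (leaf 397 5)) (move 459 (branch (move 458 (leaf 458 3)) (move 460 (branch (move 495 (leaf 459 3)) (move 431 (branch (move 461 (leaf 427 2)) (move 399 (leaf 398 6))))))))))))))))) (branch (move 495 (branch (move 492 (branch (move 491 (branch (move 490 (leaf 490 0)) (move 527 (leaf 491 0)))) (branch (move 491 (branch (move 490 (leaf 490 0)) (move 459 (branch (move 458 (leaf 458 3)) (move 460 (leaf 459 3)))))) (move 460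 (branch (move 459 (leaf 459 3)) (move 557 (branch (move 589 (leaf 460 7)) (move 430 (branch (move 462 (leaf 429 5)) (move 463 (branch (move 464 (leaf 460 2)) (move 431 (branch (move 399 (leaf 398 5)) (move 398 (branch (move 527 (leaf 398 7)) (move 396 (branch (move 428 (leaf 396 4)) (move 397 (branch (move 395 (leaf 395 0)) (move 432 (branch (move 429 (leaf 396 3)) (move 433 (leaf 397 3))))))))))))))))))))))) (move 496 (branch (move 524 (leaf 492 1)) (move 497 (leaf 493 1)))))) (move 495 (branch (move 496 (branch (move 497 (leaf 493 1)) (move 464 (branch (move 465 (leaf 461 2)) (move 492 (branch (move 463 (leaf 460 2)) (move 491 (branch (move 490 (leaf 490 0)) (move 527 (leaf 491 0)))))))))) (branch (move 496 (branch (move 524 (leaf 492 1)) (move 497 (leaf 493 1)))) (move 557 (branch (move 462 (branch (move 430 (leaf 429 5)) (move 589 (leaf 461 6)))) (branch (move 589 (branch (move 621 (leaf 493 6)) (move 588 (branch (move 620 (leaf 492 5)) (move 556 (branch (move 461 (leaf 460 5)) (move 555 (branch (move 554 (leaf 522 2)) (move 590 (branch (move 591 (leaf 555 3)) (move 622 (leaf 493 4)))))))))))) (move 461 (branch (move 430 (branch (move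 462 (leaf 429 5)) (move 429 (branch (move 397 (leaf 397 4)) (move 398 (leaf 397 6)))))) (branch (move 429 (branch (move 397 (leaf 397 4)) (move 556 (branch (move 524 (leaf 428 5)) (move 588 (leaf 460 5)))))) (move 430 (branch (move 462 (leaf 429 5)) (move 556 (branch (move 588 (leaf 460 5)) (move 555 (branch (move 554 (leaf 522 2)) (move 527 (branch (move 524 (leaf 523 1)) (move 492 (branch (move 491 (leaf 491 0)) (move 463 (branch (move 464 (leaf 460 2)) (move 431 (branch (move 399 (leaf 398 5)) (move 398 (leaf 398 7)))))))))))))))))))))))))))))))
theorem a1p86 : a1e86.Valid :=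
  pos_of_chk [a1e85] (forall_cons a1p85 forall_nil) a1c86 a1e86 (by decide +kernel)

def a1e87 : Pos := ⟨329510287686269266319131238355906874428932894406878659650934246040906072803087490501882862751749818638910222946791081185781855423986398903003553357973522743296, 261628594842193399239666600091948042026615652992254096142347439637456705429804799908747264059448219403108001356531635971997556435298609430860385430914818659140465596637614697821014314645390725480448, 15⟩
def a1c87 : Cert := (move 494 (branch (ref 0) (branch (ref 1) (branch (move 462 (branch (ref 2) (branch (move 430 (branch (move 557 (leaf 429 5)) (move 429 (branch (move 397 (leaf 397 7)) (move 558 (branch (move 461 (leaf 429 7)) (move 559 (branch (move 527 (leaf 430 4)) (move 591 (leaf 462 4)))))))))) (branch (move 430 (branch (move 557 (leaf 429 5)) (move 398 (branch (move 493 (leaf 397 5)) (move 399 (branch (move 367 (leaf 366 6)) (move 431 (leaf 398 6)))))))) (move 558 (branch (move 461 (branch (move 429 (leaf 429 7)) (move 590 (branch (move 493 (leaf 461 7)) (move 591 (branch (move 559 (leaf 462 4)) (move 623 (leaf 494 4)))))))) (branch (move 589 (branch (move 557 (leaf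 461 5)) (move 590 (branch (move 621 (leaf 493 5)) (move 591 (branch (move 559 (leaf 462 4)) (move 623 (leaf 494 4)))))))) (branch (move 557 (branch (move 589 (leaf 461 5)) (move 461 (branch (move 429 (leaf 429 7)) (move 493 (branch (move 590 (leaf 461 4)) (move 463 (branch (move 431 (leaf 430 6)) (move 492 (branch (move 464 (leaf 460 1)) (move 491 (leaf 459 2)))))))))))) (move 557 (branch (move 589 (leaf 461 5)) (move 556 (branch (move 559 (branch (move 591 (leaf 462 4)) (move 461 (branch (move 429 (leaf 429 7)) (move 588 (branch (move 587 (leaf 555 1)) (move 493 (leaf 460 5)))))))) (move 555 (branch (move 554 (leaf 522 2)) (move 527 (leaf 523 2)))))))))))))))) (branch (ref 3) (branch (move 493 (branch (move 492 (branch (move 491 (branch (move 490 (leaf 490 0)) (move 527 (leaf 491 0)))) (move 460 (branch (move 557 (branch (move 589 (leaf 460 7)) (move 428 (branch (move 396 (leaf 396 4)) (move 461 (leaf 428 7)))))) (move 495 (branch (move 459 (leaf 459 3)) (move 496 (branch (move 497 (leaf 493 1)) (move 464 (branch (move 463 (leaf 460 2)) (move 465 (leaf 461 2)))))))))))) (branch (ref 4) (branch (move 461 (branch (move 558 (branch (move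 429 (leaf 429 4)) (move 590 (leaf 461 7)))) (move 557 (branch (move 589 (branch (move 621 (leaf 493 6)) (move 588 (branch (move 556 (leaf 460 5)) (move 620 (leaf 492 5)))))) (move 460 (branch (move 428 (leaf 428 7)) (move 495 (branch (move 496 (leaf 460 3)) (move 459 (branch (move 458 (leaf 458 0)) (move 492 (leaf 459 3)))))))))))) (move 495 (branch (move 492 (branch (move 463 (branch (move 464 (leaf 460 2)) (move 558 (branch (move 590 (leaf 462 6)) (move 431 (branch (move 399 (leaf 398 5)) (move 527 (leaf 430 5)))))))) (move 491 (branch (move 490 (leaf 490 0)) (move 459 (branch (move 458 (leaf 458 3)) (move 460 (leaf 459 3)))))))) (move 496 (branch (move 524 (leaf 492 1)) (move 497 (leaf 493 1)))))))))) (branch (move 462 (branch (move 430 (branch (move 431 (branch (move 399 (leaf 398 6)) (move 558 (branch (move 463 (leaf 430 6)) (move 559 (branch (move 527 (leaf 430 4)) (move 591 (leaf 462 4)))))))) (branch (move 398 (branch (move 493 (leaf 397 5)) (move 527 (branch (move 495 (leaf 398 4)) (move 559 (leaf 430 4)))))) (move 398 (branch (move 493 (leaf 397 5)) (move 399 (branch (move 367 (leaf 366 6)) (move 431 (leaf 398 6))))))))) (branch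 (move 430 (branch (move 557 (leaf 429 5)) (move 431 (branch (move 399 (leaf 398 6)) (move 397 (branch (move 429 (leaf 397 7)) (move 398 (branch (move 365 (leaf 365 7)) (move 527 (branch (move 495 (leaf 398 4)) (move 559 (leaf 430 4)))))))))))) (branch (move 430 (branch (move 557 (leaf 429 5)) (move 431 (branch (move 399 (leaf 398 6)) (move 429 (branch (move 397 (leaf 397 7)) (move 558 (branch (move 463 (leaf 430 6)) (move 461 (leaf 429 7)))))))))) (branch (move 430 (branch (move 557 (leaf 429 5)) (move 429 (branch (move 397 (leaf 397 7)) (move 558 (branch (move 461 (leaf 429 7)) (move 559 (branch (move 527 (leaf 430 4)) (move 591 (leaf 462 4)))))))))) (move 558 (branch (ref 5) (branch (ref 6) (move 557 (branch (move 589 (leaf 461 5)) (move 559 (branch (move 591 (leaf 462 4)) (move 560 (branch (move 524 (leaf 524 3)) (move 561 (leaf 525 3)))))))))))))))) (branch (ref 7) (branch (ref 8) (branch (move 557 (branch (move 589 (branch (move 621 (leaf 493 6)) (move 493 (branch (move 492 (branch (move 460 (leaf 460 7)) (move 491 (branch (move 490 (leaf 490 0)) (move 527 (leaf 491 0)))))) (move 588 (branch (move 620 (leaf 492 5)) (move 556 (branch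 (move 461 (leaf 460 5)) (move 590 (branch (move 622 (leaf 493 4)) (move 555 (branch (move 554 (leaf 554 0)) (move 591 (leaf 555 3)))))))))))))) (branch (move 462 (branch (move 430 (leaf 429 5)) (move 589 (branch (move 558 (leaf 461 5)) (move 621 (leaf 493 6)))))) (move 558 (branch (move 590 (branch (move 591 (branch (move 623 (leaf 494 4)) (move 556 (branch (move 555 (leaf 555 0)) (move 592 (branch (move 559 (leaf 556 0)) (move 593 (leaf 557 3)))))))) (move 493 (branch (move 461 (leaf 461 4)) (move 622 (leaf 493 7)))))) (branch (move 462 (branch (move 430 (leaf 429 5)) (move 461 (branch (move 429 (leaf 429 7)) (move 493 (branch (move 590 (leaf 461 4)) (move 460 (branch (move 428 (leaf 428 7)) (move 495 (branch (move 459 (leaf 459 0)) (move 496 (leaf 460 3)))))))))))) (move 462 (branch (move 430 (leaf 429 5)) (move 559 (branch (move 591 (leaf 462 4)) (move 560 (branch (move 524 (leaf 524 3)) (move 561 (leaf 525 3)))))))))))))) (branch (ref 9) (ref 10))))))))))))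
theorem a1p87 : a1e87.Valid :=
  pos_of_chk [a1e72, a1e74, a1e75, a1e77, a1e78, a1e71, a1e79, a1e81, a1e82, a1e84, a1e86] (forall_cons a1p72 (forall_cons a1p74 (forall_cons a1p75 (forall_cons a1p77 (forall_cons a1p78 (forall_cons a1p71 (forall_cons a1p79 (forall_cons a1p81 (forall_cons a1p82 (forall_cons a1p84 (forall_cons a1p86 forall_nil))))))))))) a1c87 a1e87 (by decide +kernel)

def a1e88 : Pos := ⟨384428668967314144038986444748558020167088376808025102926089953714390418270268738918863339877041455078728593437922928050078831327984132053504145584302443200512, 23359695969840033800419750611576826157319470680966652790962558052354287981479638573876123747881483510480650243449067766465137623265919250207812641380204525976159943986788038883580000615423071485952, 12⟩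
def a1c88 : Cert := (move 523 (branch (move 554 (branch (move 555 (leaf 522 1)) (move 522 (branch (move 553 (leaf 521 1)) (move 490 (branch (move 489 (leaf 489 3)) (move 491 (leaf 490 3)))))))) (branch (move 558 (branch (move 559 (leaf 523 0)) (move 522 (branch (move 557 (leaf 522 0)) (move 490 (branch (move 489 (leaf 489 3)) (move 491 (leaf 490 3)))))))) (branch (move 558 (branch (move 559 (leaf 523 0)) (move 522 (branch (move 557 (leaf 522 0)) (move 554 (branch (move 553 (leaf 521 1)) (move 555 (leaf 522 1)))))))) (move 491 (branch (move 490 (leaf 490 3)) (move 459 (branch (move 427 (branch (move 556 (leaf 427 4)) (move 395 (branch (move 492 (leaf 395 4)) (move 396 (branch (move 364 (leaf 363 6)) (move 428 (leaf 395 6)))))))) (branch (move 555 (branch (move 554 (leaf 522 1)) (move 460 (branch (move 428 (leaf 427 6)) (move 587 (branch (move 492 (leaf 459 6)) (move 426 (branch (move 458 (leaf 426 7)) (move 427 (branch (move 394 (leaf 394 7)) (move 620 (branch (move 588 (leaf 491 4)) (move 619 (branch (move 652 (leaf 523 4)) (move 618 (branch (move 586 (leaf 490 5)) (move 650 (leaf 522 5)))))))))))))))))) (branch (move 555 (branch (move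 554 (leaf 522 1)) (move 556 (branch (move 588 (leaf 459 4)) (move 460 (branch (move 428 (leaf 427 6)) (move 492 (branch (move 587 (leaf 459 5)) (move 557 (branch (move 589 (leaf 460 4)) (move 558 (branch (move 559 (leaf 523 0)) (move 461 (branch (move 429 (leaf 428 6)) (move 590 (branch (move 591 (leaf 555 0)) (move 493 (leaf 461 4)))))))))))))))))) (move 555 (branch (move 554 (leaf 522 1)) (move 556 (branch (move 427 (leaf 427 4)) (move 588 (leaf 459 4))))))))))))))))
theorem a1p88 : a1e88.Valid :=
  pos_of_chk [] forall_nil a1c88 a1e88 (by decide +kernel)

def a1e89 : Pos := ⟨384428668967314144038986444748558020167088376808025102926089953714390418270268738918863339877041455078728593437922928050078831327984132053504145584302443200512, 4351082438168021400643421103447800217828000173482595698775369422399929421874514782767808926364189344894186507454362870989601172887632507541156635125592559969227851976935970753888573718528, 6⟩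
def a1c89 : Cert := (move 523 (branch (move 558 (branch (move 559 (leaf 523 0)) (move 522 (branch (move 557 (leaf 522 0)) (move 490 (branch (move 489 (leaf 489 3)) (move 491 (leaf 490 3)))))))) (branch (move 558 (branch (move 559 (leaf 523 0)) (move 522 (branch (move 557 (leaf 522 0)) (move 554 (branch (move 553 (leaf 521 1)) (move 555 (leaf 522 1)))))))) (move 555 (branch (move 554 (leaf 522 1)) (move 556 (branch (move 527 (leaf 523 1)) (move 491 (branch (move 490 (leaf 490 3)) (move 588 (branch (move 459 (leaf 459 4)) (move 620 (leaf 491 7)))))))))))))
theorem a1p89 : a1e89.Valid :=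
  pos_of_chk [] forall_nil a1c89 a1e89 (by decide +kernel)

def a1e90 : Pos := ⟨384428668967314144038986444748558020167088376808025102926089953714390418270268738918863339877041455078728593437922928050078831327984132053504145584302443200512, 7179373832084937089552956002667604377797278868058456656308158431599491382228512238893488040480134990293809526573514342846404518199363760390636815923603522352520728936448, 8⟩
def a1c90 : Cert := (move 523 (branch (move 558 (branch (move 559 (leaf 523 0)) (move 522 (branch (move 557 (leaf 522 0)) (move 553 (branch (move 554 (leaf 521 1)) (move 521 (branch (move 552 (leaf 520 1)) (move 489 (branch (move 488 (leaf 488 3)) (move 490 (leaf 489 3)))))))))))) (branch (move 558 (branch (move 559 (leaf 523 0)) (move 522 (branch (move 557 (leaf 522 0)) (move 553 (branch (move 554 (leaf 521 1)) (move 521 (branch (move 552 (leaf 520 1)) (move 492 (branch (move 493 (leaf 489 2)) (move 491 (branch (move 520 (leaf 488 2)) (move 527 (leaf 491 3)))))))))))))) (branch (move 491 (branch (move 490 (leaf 490 3)) (move 527 (branch (move 492 (leaf 491 3)) (move 559 (branch (move 558 (leaf 523 0)) (move 560 (leaf 524 0))))))))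 (ref 0)))))
theorem a1p90 : a1e90.Valid :=
  pos_of_chk [a1e41] (forall_cons a1p41 forall_nil) a1c90 a1e90 (by decide +kernel)

def a1e91 : Pos := ⟨411887859607836582898914047944883593036166118008598324563667807551132591003859363127353578439687273298637778683488851482227319279982998628754441697466903429120, 56063270343062423742464882520468012286606656966810178973402535193502051718079035110903331720989851314692457887288700993987821844363331548296478186649964834084881686708288687002281298612327714652160, 10⟩
def a1c91 : Cert := (move 558 (branch (move 559 (leaf 523 0)) (move 557 (branch (move 522 (leaf 522 0)) (move 493 (branch (move 461 (branch (move 429 (leaf 429 4)) (move 556 (branch (move 588 (leaf 460 5)) (move 555 (branch (move 527 (leaf 523 1)) (move 460 (branch (move 428 (leaf 428 7)) (move 492 (branch (move 589 (leaf 460 4)) (move 587 (leaf 459 5)))))))))))) (branch (move 590 (branch (move 461 (leaf 461 4)) (move 622 (leaf 493 7)))) (move 589 (branch (move 590 (branch (move 622 (leaf 493 4)) (move 588 (branch (move 620 (leaf 492 5)) (move 492 (branch (move 460 (leaf 460 7)) (move 587 (branch (move 586 (leaf 554 2)) (move 619 (branch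 (move 618 (leaf 586 1)) (move 556 (leaf 491 5)))))))))))) (branch (move 621 (branch (move 653 (leaf 525 6)) (move 492 (leaf 492 7)))) (move 590 (branch (move 622 (leaf 493 4)) (move 621 (branch (move 653 (leaf 525 6)) (move 620 (branch (move 588 (leaf 492 5)) (move 652 (leaf 524 5))))))))))))))))))
theorem a1p91 : a1e91.Valid :=
  pos_of_chk [] forall_nil a1c91 a1e91 (by decide +kernel)

def a1e92 : Pos := ⟨384428668967314144038986444748558020167088376808025102926089953714390418270268738918863339877041455078728593437922928050078831327984132053504145584302443200512, 56063270343062423742464882524345168996519668727538401089299268774378565988047008830413639579881141940102877156329393521249696316844655537796054387758685075218054716991623807284913049201290652942336, 11⟩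
def a1c92 : Cert := (move 523 (branch (move 558 (branch (move 559 (leaf 523 0)) (move 522 (branch (move 557 (leaf 522 0)) (move 553 (branch (move 554 (leaf 521 1)) (move 521 (branch (move 552 (leaf 520 1)) (move 489 (branch (move 488 (leaf 488 3)) (move 490 (leaf 489 3)))))))))))) (branch (ref 0) (branch (move 555 (branch (move 554 (leaf 522 1)) (move 527 (branch (move 556 (leaf 523 1)) (move 559 (branch (move 558 (leaf 523 0)) (move 560 (leaf 524 0)))))))) (ref 1)))))
theorem a1p92 : a1e92.Valid :=
  pos_of_chk [a1e33, a1e91] (forall_cons a1p33 (forall_cons a1p91 forall_nil)) a1c92 a1e92 (by decide +kernel)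

def a1e93 : Pos := ⟨411887859607836582898914047944883593036166118008598324563667807551132591003859363127353578439687273298637778683488851482227319279982998628754441697466903429120, 936119586307779607210361401934682878618738813397485961801264315238610115819606086347332077800295012779705554092194722507845018536438095833339902648272868294253338427392, 6⟩
def a1c93 : Cert := (move 522 (branch (move 553 (branch (move 554 (leaf 521 1)) (move 521 (branch (move 552 (leaf 520 1)) (move 492 (branch (move 493 (leaf 489 2)) (move 491 (branch (move 520 (leaf 488 2)) (move 527 (leaf 491 3)))))))))) (branch (move 554 (branch (move 553 (leaf 521 1)) (move 555 (leaf 522 1)))) (branch (move 555 (branch (move 554 (leaf 522 1)) (move 556 (branch (move 527 (leaf 523 1)) (move 521 (branch (move 520 (leaf 520 0)) (move 557 (leaf 521 0)))))))) (move 521 (branch (move 492 (branch (move 493 (leaf 489 2)) (move 491 (branch (move 520 (leaf 488 2)) (move 527 (leaf 491 3)))))) (branch (move 556 (branch (move 557 (leaf 521 0)) (move 492 (branch (move 493 (leaf 489 2)) (move 527 (branch (move 555 (leaf 523 1)) (move 491 (leaf 491 3)))))))) (move 556 (branch (move 557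 (leaf 521 0)) (move 520 (branch (move 555 (leaf 520 0)) (move 552 (branch (move 551 (leaf 519 1)) (move 553 (leaf 520 1)))))))))))))))
theorem a1p93 : a1e93.Valid :=
  pos_of_chk [] forall_nil a1c93 a1e93 (by decide +kernel)

def a1e94 : Pos := ⟨384428668967314144038986444748558020167088376808025102926089953714390418270268738918863339877041455078728593437922928050078831327984132053504145584302443200512, 56063270343062423742464882524352540016880648300492797043219142381067371788696461741199583498935831407409669266237788332674946791623760766578420602337871855335527118947695513517959276486789315952640, 11⟩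
def a1c94 : Cert := (move 523 (branch (move 558 (branch (move 559 (leaf 523 0)) (move 522 (branch (move 557 (leaf 522 0)) (move 554 (branch (move 553 (leaf 521 1)) (move 555 (leaf 522 1)))))))) (branch (move 558 (branch (move 559 (leaf 523 0)) (move 522 (branch (move 557 (leaf 522 0)) (move 553 (branch (move 554 (leaf 521 1)) (move 521 (branch (move 552 (leaf 520 1)) (move 492 (branch (move 493 (leaf 489 2)) (move 491 (branch (move 520 (leaf 488 2)) (move 527 (leaf 491 3)))))))))))))) (branch (move 555 (branch (move 554 (leaf 522 1)) (move 527 (branch (move 556 (leaf 523 1)) (move 559 (branch (move 558 (leaf 523 0)) (move 560 (leaf 524 0)))))))) (branch (ref 0) (ref 1))))))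
theorem a1p94 : a1e94.Valid :=
  pos_of_chk [a1e93, a1e91] (forall_cons a1p93 (forall_cons a1p91 forall_nil)) a1c94 a1e94 (by decide +kernel)

def a1e95 : Pos := ⟨384428668967314144038986444748558020167088376808025102926089953714390418270268738918863339877041455078728593437922928050078831327984132053504145584302443200512, 56063270343062423742464882520468012286634116157461889759068283878563352922043301677159709853430114568103496460587467419508060382118121610200214669594909361821200755088256646156144218250643943456768, 11⟩
def a1c95 : Cert := (move 523 (branch (move 558 (branch (move 559 (leaf 523 0)) (move 522 (branch (move 557 (leaf 522 0)) (move 490 (branch (move 489 (leaf 489 3)) (move 491 (leaf 490 3)))))))) (branch (move 491 (branch (move 490 (leaf 490 3)) (move 556 (branch (move 588 (branch (move 620 (leaf 491 7)) (move 459 (branch (move 427 (leaf 427 4)) (move 492 (leaf 459 7)))))) (branch (move 527 (branch (move 555 (leaf 523 1)) (move 492 (leaf 491 3)))) (move 588 (branch (move 620 (leaf 491 7)) (move 555 (branch (move 527 (leaf 523 1)) (move 459 (leaf 459 4))))))))))) (ref 0))))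
theorem a1p95 : a1e95.Valid :=
  pos_of_chk [a1e91] (forall_cons a1p91 forall_nil) a1c95 a1e95 (by decide +kernel)

def a1e96 : Pos := ⟨329510287686269266319131238355906874428932894406878659650934246040906072803087490501882862751749818638910222946791081185781855423986398903003553357973522743296, 200658260549354861216903806365863198075897767585112084871695613406300353543805385518014836720634604593400568668305190599852461753837961337597756140223385872292355392415492121402352347416999824439903080415232, 15⟩
def a1c96 : Cert := (move 524 (branch (ref 0) (branch (ref 1) (branch (ref 2) (branch (ref 3) (branch (ref 4) (branch (move 523 (branch (ref 5) (branch (move 491 (branch (move 490 (leaf 490 3)) (move 527 (branch (move 492 (leaf 491 3)) (move 495 (branch (move 494 (leaf 491 2)) (move 496 (leaf 492 2)))))))) (move 494 (branch (move 495 (leaf 491 2)) (move 522 (branch (move 493 (leaf 490 2)) (move 557 (branch (move 558 (leaf 522 0)) (move 521 (branch (move 556 (leaf 521 0)) (move 553 (branch (move 552 (leaf 520 1)) (move 554 (leaf 521 1))))))))))))))) (branch (move 523 (branch (ref 6) (branch (move 494 (branch (move 495 (leaf 491 2)) (move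 522 (branch (move 493 (leaf 490 2)) (move 554 (branch (move 553 (leaf 521 1)) (move 555 (leaf 522 1)))))))) (branch (move 555 (branch (move 554 (leaf 522 1)) (move 527 (branch (move 556 (leaf 523 1)) (move 495 (branch (move 494 (leaf 491 2)) (move 496 (leaf 492 2)))))))) (branch (move 494 (branch (move 495 (leaf 491 2)) (move 522 (branch (move 493 (leaf 490 2)) (move 557 (branch (move 558 (leaf 522 0)) (move 521 (branch (move 556 (leaf 521 0)) (move 553 (branch (move 552 (leaf 520 1)) (move 554 (leaf 521 1)))))))))))) (move 494 (branch (move 495 (leaf 491 2)) (move 522 (branch (move 493 (leaf 490 2)) (move 557 (branch (move 558 (leaf 522 0)) (move 556 (branch (move 521 (leaf 521 0)) (move 589 (branch (move 621 (leaf 493 6)) (move 492 (branch (move 460 (leaf 460 4)) (move 527 (branch (move 555 (leaf 523 1)) (move 491 (leaf 491 3))))))))))))))))))))) (branch (move 523 (branch (move 491 (branch (move 490 (leaf 490 3)) (move 556 (branch (move 588 (branch (move 620 (leaf 491 7)) (move 459 (branch (move 427 (leaf 427 4)) (move 492 (leaf 459 7)))))) (branch (move 527 (branch (move 555 (leaf 523 1)) (move 492 (leaf 491 3)))) (move 588 (branch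 (move 620 (leaf 491 7)) (move 555 (branch (move 527 (leaf 523 1)) (move 459 (leaf 459 4))))))))))) (branch (move 494 (branch (move 495 (leaf 491 2)) (move 522 (branch (move 493 (leaf 490 2)) (move 490 (branch (move 489 (leaf 489 3)) (move 491 (leaf 490 3)))))))) (branch (move 494 (branch (move 495 (leaf 491 2)) (move 522 (branch (move 493 (leaf 490 2)) (move 489 (branch (move 490 (leaf 489 3)) (move 521 (branch (move 488 (leaf 488 3)) (move 556 (branch (move 557 (leaf 521 0)) (move 555 (branch (move 520 (leaf 520 0)) (move 527 (leaf 523 1)))))))))))))) (move 494 (branch (move 495 (leaf 491 2)) (move 522 (branch (move 493 (leaf 490 2)) (move 557 (branch (move 558 (leaf 522 0)) (move 556 (branch (move 521 (leaf 521 0)) (move 589 (branch (move 621 (leaf 493 6)) (move 492 (branch (move 460 (leaf 460 4)) (move 527 (branch (move 555 (leaf 523 1)) (move 491 (leaf 491 3)))))))))))))))))))) (move 556 (branch (move 555 (branch (move 527 (leaf 523 1)) (move 554 (branch (move 553 (leaf 521 2)) (move 557 (leaf 522 2)))))) (branch (ref 7) (branch (ref 8) (move 527 (branch (move 555 (leaf 523 1)) (ref 9))))))))))))))))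
theorem a1p96 : a1e96.Valid :=
  pos_of_chk [a1e30, a1e31, a1e32, a1e34, a1e39, a1e41, a1e93, a1e36, a1e38, a1e51] (forall_cons a1p30 (forall_cons a1p31 (forall_cons a1p32 (forall_cons a1p34 (forall_cons a1p39 (forall_cons a1p41 (forall_cons a1p93 (forall_cons a1p36 (forall_cons a1p38 (forall_cons a1p51 forall_nil)))))))))) a1c96 a1e96 (by decide +kernel)

def a1e97 : Pos := ⟨823775719215673165797828095889767186072332236017196649127335615102265182007718726254707156879374546597275557366977702964454638559965997257508883394933806858240, 160526608389026945683367741141156837596880155669053781859013985883732953597790652549291495960318325756062079471183421983832418227841773702615125719134246093885103138854840348950835093558661011641044278706176, 8⟩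
def a1c97 : Cert := (move 556 (branch (move 555 (leaf 523 1)) (move 588 (branch (move 620 (branch (move 493 (leaf 492 6)) (move 652 (branch (move 557 (leaf 524 6)) (move 653 (branch (move 621 (leaf 524 4)) (move 685 (leaf 556 4)))))))) (branch (move 492 (branch (move 491 (leaf 491 3)) (move 589 (branch (move 621 (leaf 492 4)) (move 557 (branch (move 460 (leaf 460 4)) (move 559 (branch (move 560 (leaf 524 0)) (move 587 (branch (move 558 (leaf 555 1)) (move 619 (leaf 491 5)))))))))))) (move 492 (branch (move 491 (leaf 491 3)) (move 620 (branch (move 493 (leaf 492 6)) (move 619 (branch (move 587 (leaf 491 5)) (move 651 (leaf 523 5)))))))))))))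
theorem a1p97 : a1e97.Valid :=
  pos_of_chk [] forall_nil a1c97 a1e97 (by decide +kernel)

def a1e98 : Pos := ⟨384428668967314144038986444748558020167088376808025102926089953714390418270268738918863339877041455078728593437922928050078831327984132053504145584302443200512, 200658260469931894979057520903917637522051881579205953392724607798278220291796006830813619816883504312362693199356207881826124985953038233556227441632222508592597303254527509563097640607177560766852657840128, 15⟩
def a1c98 : Cert := (move 556 (branch (move 555 (branch (move 527 (leaf 523 1)) (move 554 (branch (move 553 (leaf 521 2)) (move 557 (leaf 522 2)))))) (branch (ref 0) (branch (move 493 (branch (move 461 (branch (move 429 (leaf 428 5)) (move 588 (branch (move 557 (leaf 460 5)) (move 620 (leaf 492 6)))))) (branch (move 588 (branch (move 620 (leaf 492 6)) (move 492 (branch (move 461 (leaf 460 6)) (move 491 (branch (move 490 (leaf 490 0)) (move 459 (leaf 459 7)))))))) (branch (ref 1) (move 557 (branch (move 589 (branch (move 492 (branch (move 460 (leaf 460 4)) (move 621 (leaf 492 7)))) (move 590 (branch (move 622 (leaf 493 4)) (move 555 (branch (move 554 (leaf 554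 0)) (move 591 (branch (move 558 (leaf 555 0)) (move 592 (leaf 556 3)))))))))) (branch (move 461 (branch (move 429 (leaf 428 5)) (move 558 (branch (move 590 (leaf 461 4)) (move 555 (branch (move 554 (leaf 522 2)) (move 460 (branch (move 428 (leaf 428 7)) (move 587 (branch (move 586 (leaf 554 1)) (move 492 (leaf 459 5)))))))))))) (branch (move 461 (branch (move 429 (leaf 428 5)) (move 590 (branch (move 558 (leaf 461 4)) (move 589 (branch (move 622 (leaf 493 4)) (move 621 (branch (move 494 (leaf 493 6)) (move 653 (leaf 524 7)))))))))) (move 461 (branch (move 429 (leaf 428 5)) (move 460 (branch (move 428 (leaf 428 7)) (move 492 (branch (move 589 (leaf 460 4)) (move 555 (branch (move 554 (leaf 522 2)) (move 587 (leaf 459 5)))))))))))))))))) (move 588 (branch (move 527 (branch (move 555 (leaf 523 1)) (move 492 (branch (move 491 (leaf 491 3)) (move 621 (branch (move 589 (leaf 492 4)) (move 620 (branch (move 653 (leaf 524 4)) (move 619 (branch (move 587 (leaf 491 5)) (move 651 (leaf 523 5)))))))))))) (branch (move 620 (branch (move 493 (leaf 492 6)) (move 555 (branch (move 527 (leaf 523 1)) (move 651 (branch (move 619 (leaf 523 5)) (move 652 (branch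 (move 683 (leaf 555 5)) (move 653 (branch (move 621 (leaf 524 4)) (move 685 (leaf 556 4)))))))))))) (branch (move 527 (branch (move 555 (leaf 523 1)) (move 492 (branch (move 491 (leaf 491 3)) (move 461 (branch (move 493 (leaf 460 6)) (move 460 (branch (move 429 (leaf 428 6)) (move 495 (branch (move 496 (leaf 492 2)) (move 559 (branch (move 560 (leaf 524 0)) (move 427 (branch (move 459 (leaf 427 7)) (move 428 (branch (move 395 (leaf 395 7)) (move 589 (branch (move 621 (leaf 492 4)) (move 587 (branch (move 619 (leaf 491 5)) (move 590 (branch (move 558 (leaf 555 2)) (move 622 (branch (move 623 (leaf 587 0)) (move 591 (leaf 494 5)))))))))))))))))))))))))) (move 493 (branch (move 620 (leaf 492 6)) (move 461 (branch (move 429 (leaf 428 5)) (move 492 (leaf 460 6))))))))))))))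
theorem a1p98 : a1e98.Valid :=
  pos_of_chk [a1e38, a1e35] (forall_cons a1p38 (forall_cons a1p35 forall_nil)) a1c98 a1e98 (by decide +kernel)

def a1e99 : Pos := ⟨471745303432202956716463588942664849720522026980987947953904447181637266339924679313853331149090208694433365517755703559262404264522454503056578184432640363429697159168, 224253081293930211132222079503781624670849538535433889093221183694631039817236682807703559563538574035245593975553290460624718461909634003646041210274765327543734725851300536491717252778841931251712, 9⟩
def a1c99 : Cert := (move 558 (branch (move 559 (branch (move 556 (branch (move 555 (branch (move 554 (leaf 522 2)) (move 587 (branch (move 586 (leaf 554 1)) (move 588 (leaf 555 1)))))) (move 591 (branch (move 592 (leaf 556 0)) (move 494 (branch (move 462 (leaf 462 4)) (move 623 (branch (move 590 (leaf 494 4)) (move 655 (leaf 526 7)))))))))) (move 524 (branch (move 523 (leaf 523 0)) (move 560 (leaf 524 3)))))) (branch (ref 0) (branch (move 590 (branch (move 494 (branch (move 591 (branch (move 623 (leaf 494 4)) (move 556 (branch (move 555 (leaf 555 0)) (move 592 (branch (move 559 (leaf 556 0)) (move 593 (leaf 557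 3)))))))) (move 462 (branch (move 430 (leaf 429 5)) (move 463 (branch (move 431 (leaf 430 6)) (move 495 (leaf 462 6)))))))) (move 622 (branch (move 493 (leaf 493 7)) (move 654 (leaf 525 7)))))) (branch (ref 1) (move 494 (branch (move 462 (branch (move 430 (leaf 429 5)) (move 463 (branch (move 431 (leaf 430 6)) (move 495 (branch (move 590 (leaf 462 6)) (move 461 (branch (move 429 (leaf 429 7)) (move 496 (branch (move 460 (leaf 460 0)) (move 497 (leaf 493 1)))))))))))) (branch (ref 2) (branch (move 462 (branch (move 430 (leaf 429 5)) (move 463 (branch (move 431 (leaf 430 6)) (move 495 (branch (move 590 (leaf 462 6)) (move 524 (branch (move 523 (leaf 491 2)) (move 496 (branch (move 493 (leaf 492 1)) (move 497 (leaf 493 1)))))))))))) (branch (move 462 (branch (move 430 (leaf 429 5)) (move 461 (branch (move 429 (leaf 429 7)) (move 493 (branch (move 590 (leaf 461 4)) (move 556 (branch (move 588 (leaf 460 5)) (move 555 (branch (move 554 (leaf 522 2)) (move 527 (leaf 523 2)))))))))))) (move 556 (branch (move 555 (branch (move 554 (leaf 522 2)) (move 527 (leaf 523 2)))) (move 462 (branch (move 430 (leaf 429 5)) (move 461 (branch (move 429 (leaf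 429 7)) (move 493 (branch (move 588 (leaf 460 5)) (move 460 (branch (move 428 (leaf 428 7)) (move 495 (branch (move 459 (leaf 459 0)) (move 496 (leaf 460 3))))))))))))))))))))))))
theorem a1p99 : a1e99.Valid :=
  pos_of_chk [a1e63, a1e64, a1e68] (forall_cons a1p63 (forall_cons a1p64 (forall_cons a1p68 forall_nil))) a1c99 a1e99 (by decide +kernel)

def a1e100 : Pos := ⟨3538089773599705305412726685995633323590520518569345796009572066131206898283545621633831295355937957321876420230251327540326004276336348517012743513721705898894830862336, 2373345110316887986041811068017061146726976939143507508013584209253611153868825213991417336090781807306723449506362770773397501889296030920265136399003771206124120134494540423159494378257889223507968, 11⟩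
def a1c100 : Cert := (move 590 (branch (move 591 (branch (move 592 (leaf 556 0)) (move 588 (branch (move 587 (leaf 555 1)) (move 623 (branch (move 655 (leaf 526 7)) (move 589 (branch (move 624 (leaf 588 0)) (move 620 (branch (move 619 (leaf 587 1)) (move 652 (leaf 524 6)))))))))))) (branch (move 622 (branch (move 654 (leaf 525 7)) (move 588 (branch (move 587 (leaf 555 1)) (move 621 (branch (move 653 (leaf 525 5)) (move 620 (branch (move 652 (leaf 524 6)) (move 623 (branch (move 655 (leaf 526 4)) (move 624 (branch (move 589 (leaf 588 3)) (move 593 (branch (move 592 (leaf 589 2)) (move 625 (branch (move 594 (leaf 590 2)) (move 657 (branch (move 656 (leaf 621 0)) (move 658 (leaf 622 0)))))))))))))))))))) (branch (move 622 (branch (move 654 (leaf 525 7)) (move 591 (branch (move 592 (leaf 556 0)) (move 623 (branch (move 655 (leaf 526 4)) (move 527 (branch (move 495 (leaf 494 5)) (move 621 (branch (move 653 (leaf 525 5)) (move 624 (branch (move 656 (leaf 527 4)) (move 625 (branch (move 589 (leaf 589 3)) (move 626 (leaf 590 3)))))))))))))))) (branch (move 622 (branch (move 654 (leaf 525 7)) (move 588 (branch (move 587 (leaf 555 1)) (move 621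 (branch (move 653 (leaf 525 5)) (move 620 (branch (move 652 (leaf 524 6)) (move 623 (branch (move 655 (leaf 526 4)) (move 624 (branch (move 589 (leaf 588 3)) (move 527 (branch (move 495 (leaf 494 6)) (move 591 (branch (move 619 (leaf 587 2)) (move 656 (leaf 527 4)))))))))))))))))) (move 622 (branch (move 654 (leaf 525 7)) (move 591 (branch (move 592 (leaf 556 0)) (move 527 (branch (move 495 (leaf 494 5)) (move 588 (branch (move 587 (leaf 555 1)) (move 620 (branch (move 652 (leaf 524 6)) (move 621 (branch (move 619 (leaf 587 2)) (move 653 (leaf 525 5)))))))))))))))))))
theorem a1p100 : a1e100.Valid :=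
  pos_of_chk [] forall_nil a1c100 a1e100 (by decide +kernel)

def a1e101 : Pos := ⟨471745303432202956716463588942664849720522026980987947953904447181637266339924679313853331149090208694433365517755703559262404264522454503056578184432640363429697159168, 401316520939863789855864604502275716950858553556887279028230306435382510352940295866177719501072942907878226524666631473716078857357698932140312344087103734588200786291670074452841226753836914792103405420544, 12⟩
def a1c101 : Cert := (move 589 (branch (ref 0) (branch (move 621 (branch (move 494 (leaf 493 6)) (move 652 (branch (move 620 (leaf 524 5)) (move 653 (branch (move 684 (leaf 556 5)) (move 654 (branch (move 622 (leaf 525 4)) (move 686 (leaf 557 4)))))))))) (branch (move 494 (branch (move 621 (leaf 493 6)) (move 462 (branch (move 430 (leaf 429 5)) (move 493 (leaf 461 6)))))) (move 493 (branch (move 590 (branch (move 622 (leaf 493 4)) (move 461 (branch (move 558 (leaf 461 4)) (move 460 (branch (move 428 (leaf 428 7)) (move 492 (leaf 460 7)))))))) (branch (move 494 (branch (move 462 (leaf 461 6)) (move 590 (branch (move 622 (leaf 493 4)) (move 558 (branch (move 461 (leaf 461 4)) (move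 588 (branch (move 620 (leaf 492 5)) (move 559 (branch (move 560 (leaf 556 1)) (move 587 (leaf 555 2)))))))))))) (branch (move 462 (branch (move 494 (leaf 461 6)) (move 461 (branch (move 430 (leaf 429 6)) (move 460 (branch (move 428 (leaf 428 7)) (move 492 (leaf 460 7)))))))) (move 558 (branch (move 590 (branch (move 622 (leaf 493 4)) (move 588 (branch (move 620 (leaf 492 5)) (move 559 (branch (move 560 (leaf 556 1)) (move 587 (leaf 555 2)))))))) (branch (move 494 (branch (move 462 (leaf 461 5)) (move 588 (branch (move 620 (leaf 492 5)) (move 559 (branch (move 560 (leaf 556 1)) (move 524 (branch (move 523 (leaf 523 0)) (move 495 (branch (move 496 (leaf 492 1)) (move 492 (branch (move 460 (leaf 460 7)) (move 463 (branch (move 464 (leaf 460 2)) (move 431 (branch (move 399 (leaf 398 5)) (move 527 (leaf 430 5)))))))))))))))))) (move 494 (branch (move 462 (leaf 461 5)) (move 590 (branch (move 622 (leaf 493 4)) (move 495 (branch (move 463 (leaf 462 6)) (move 524 (branch (move 496 (leaf 492 1)) (move 523 (leaf 491 2)))))))))))))))))))))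
theorem a1p101 : a1e101.Valid :=
  pos_of_chk [a1e54] (forall_cons a1p54 forall_nil) a1c101 a1e101 (by decide +kernel)

def a1e102 : Pos := ⟨2026130649339417646455839608909413369710460861557649419556992503466918515254346322199156636807556355703874333016357578985722085920303310176576592605651287016005483040871840481280, 242940838135503582960833093596404276640896281919601259279853436500457406467492596468712853141067279683272223406670003526395480054265175546542356743208018519449538248336456722180643747203572425555968, 11⟩
def a1c102 : Cert := (move 558 (branch (move 556 (branch (move 555 (branch (move 554 (leaf 522 2)) (move 527 (leaf 523 2)))) (move 559 (branch (move 560 (branch (move 561 (leaf 525 3)) (move 592 (branch (move 591 (leaf 556 0)) (move 593 (leaf 557 0)))))) (branch (move 588 (branch (move 587 (leaf 555 1)) (move 591 (branch (move 592 (leaf 556 0)) (move 620 (branch (move 652 (leaf 524 6)) (move 590 (branch (move 619 (leaf 587 1)) (move 623 (branch (move 624 (leaf 588 0)) (move 655 (leaf 526 7)))))))))))) (move 588 (branch (move 587 (leaf 555 1)) (move 560 (leaf 556 1))))))))) (branch (move 556 (branch (move 555 (branch (move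 554 (leaf 522 2)) (move 527 (leaf 523 2)))) (branch (move 555 (branch (move 554 (leaf 522 2)) (move 587 (branch (move 586 (leaf 554 1)) (move 559 (branch (move 588 (leaf 555 1)) (move 494 (branch (move 462 (leaf 461 5)) (move 523 (branch (move 522 (leaf 522 3)) (move 560 (branch (move 561 (leaf 525 3)) (move 592 (branch (move 591 (leaf 556 0)) (move 593 (leaf 557 0)))))))))))))))) (move 559 (branch (move 560 (branch (move 561 (leaf 525 3)) (move 592 (branch (move 591 (leaf 556 0)) (move 593 (leaf 557 0)))))) (branch (move 588 (branch (move 587 (leaf 555 1)) (move 560 (leaf 556 1)))) (move 494 (branch (move 462 (leaf 461 5)) (move 588 (branch (move 587 (leaf 555 1)) (move 591 (branch (move 592 (leaf 556 0)) (move 623 (branch (move 527 (leaf 494 7)) (move 655 (leaf 526 7)))))))))))))))) (branch (move 494 (branch (move 462 (leaf 461 5)) (move 590 (branch (move 622 (branch (move 654 (leaf 525 7)) (move 495 (branch (move 463 (leaf 462 6)) (move 527 (leaf 494 6)))))) (move 591 (branch (move 623 (leaf 494 4)) (move 556 (branch (move 555 (leaf 555 0)) (move 592 (leaf 556 3)))))))))) (branch (move 559 (branch (move 560 (branch (move 588 (leaf 556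 1)) (move 561 (leaf 525 3)))) (branch (move 494 (branch (move 462 (leaf 461 5)) (move 560 (branch (move 561 (leaf 525 3)) (move 592 (branch (move 593 (leaf 557 0)) (move 591 (branch (move 556 (leaf 556 0)) (move 623 (branch (move 590 (leaf 494 4)) (move 655 (leaf 526 7)))))))))))) (move 556 (branch (move 588 (branch (move 587 (leaf 555 1)) (move 591 (branch (move 592 (leaf 556 0)) (move 620 (branch (move 652 (leaf 524 6)) (move 590 (branch (move 619 (leaf 587 1)) (move 623 (branch (move 624 (leaf 588 0)) (move 655 (leaf 526 7)))))))))))) (branch (move 555 (branch (move 554 (leaf 522 2)) (move 587 (branch (move 586 (leaf 554 1)) (move 588 (leaf 555 1)))))) (move 591 (branch (move 592 (leaf 556 0)) (move 555 (branch (move 590 (leaf 555 0)) (move 554 (leaf 522 2)))))))))))) (move 493 (branch (move 590 (branch (move 622 (leaf 493 4)) (move 588 (branch (move 620 (leaf 492 5)) (move 559 (branch (move 560 (leaf 556 1)) (move 587 (leaf 555 2)))))))) (branch (move 494 (branch (move 462 (leaf 461 5)) (move 588 (branch (move 620 (leaf 492 5)) (move 559 (branch (move 560 (leaf 556 1)) (move 524 (branch (move 523 (leaf 523 0)) (move 495 (branch (move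 496 (leaf 492 1)) (move 492 (branch (move 460 (leaf 460 7)) (move 463 (branch (move 464 (leaf 460 2)) (move 431 (branch (move 399 (leaf 398 5)) (move 527 (leaf 430 5)))))))))))))))))) (move 494 (branch (move 462 (leaf 461 5)) (move 590 (branch (move 622 (leaf 493 4)) (move 495 (branch (move 463 (leaf 462 6)) (move 524 (branch (move 496 (leaf 492 1)) (move 523 (leaf 491 2))))))))))))))))))
theorem a1p102 : a1e102.Valid :=
  pos_of_chk [] forall_nil a1c102 a1e102 (by decide +kernel)

def a1e103 : Pos := ⟨471745303432202956716463588942664849720522026980987947953904447181637266339924679313853331149090208694433365517755703559262404264522454503056578184432640363429697159168, 224253081302632375975380232909162507086127646669560463775880088388775863146660494427507082494525254144547115755806433657620940098058616594185793967468406131041258092632038009511776620772763631616000, 9⟩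
def a1c103 : Cert := (move 494 (branch (move 462 (branch (move 430 (leaf 429 5)) (move 589 (branch (move 558 (leaf 461 5)) (move 621 (leaf 493 6)))))) (branch (move 462 (branch (move 430 (leaf 429 5)) (move 589 (branch (move 493 (leaf 461 6)) (move 621 (leaf 493 6)))))) (branch (move 558 (branch (move 462 (branch (move 430 (leaf 429 5)) (move 463 (branch (move 431 (leaf 430 6)) (move 590 (branch (move 495 (leaf 462 6)) (move 622 (branch (move 654 (leaf 525 7)) (move 623 (branch (move 591 (leaf 494 4)) (move 655 (leaf 526 4)))))))))))) (branch (ref 0) (branch (move 462 (branch (move 430 (leaf 429 5)) (move 461 (branch (move 429 (leaf 429 7)) (move 493 (branch (move 590 (leaf 461 4)) (move 556 (branch (move 588 (leaf 460 5)) (move 555 (branch (move 554 (leaf 522 2)) (move 527 (leaf 523 2)))))))))))) (move 556 (branch (move 555 (branch (move 554 (leaf 522 2)) (move 527 (leaf 523 2)))) (move 462 (branch (move 430 (leaf 429 5)) (move 461 (branch (move 429 (leaf 429 7)) (move 493 (branch (move 588 (leaf 460 5)) (move 460 (branch (move 428 (leaf 428 7)) (move 495 (branch (move 459 (leaf 459 0)) (move 496 (leaf 460 3)))))))))))))))))) (move 590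 (branch (move 558 (branch (move 622 (branch (move 654 (leaf 525 7)) (move 495 (branch (move 463 (leaf 462 6)) (move 527 (leaf 494 6)))))) (branch (move 493 (branch (move 461 (leaf 461 4)) (move 622 (leaf 493 7)))) (move 493 (branch (move 461 (leaf 461 4)) (move 495 (branch (move 463 (leaf 462 6)) (move 524 (branch (move 496 (leaf 492 1)) (move 523 (leaf 491 2))))))))))) (branch (move 589 (branch (move 621 (leaf 493 6)) (move 493 (branch (move 622 (leaf 493 4)) (move 588 (branch (move 620 (leaf 492 5)) (move 556 (branch (move 461 (leaf 460 5)) (move 555 (branch (move 554 (leaf 554 0)) (move 591 (leaf 555 3)))))))))))) (branch (move 558 (branch (move 589 (branch (move 621 (leaf 493 5)) (move 591 (branch (move 623 (leaf 494 4)) (move 556 (branch (move 555 (leaf 555 0)) (move 592 (leaf 556 3)))))))) (move 493 (branch (move 461 (leaf 461 4)) (move 495 (branch (move 463 (leaf 462 6)) (move 524 (branch (move 496 (leaf 492 1)) (move 523 (leaf 491 2)))))))))) (move 558 (branch (move 622 (branch (move 654 (leaf 525 7)) (move 495 (branch (move 463 (leaf 462 6)) (move 527 (leaf 494 6)))))) (move 589 (branch (move 621 (leaf 493 5)) (move 591 (branch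 (move 623 (leaf 494 4)) (move 556 (branch (move 555 (leaf 555 0)) (move 592 (leaf 556 3))))))))))))))))))
theorem a1p103 : a1e103.Valid :=
  pos_of_chk [a1e68] (forall_cons a1p68 forall_nil) a1c103 a1e103 (by decide +kernel)

def a1e104 : Pos := ⟨471745303432202956716463588942664849720522026980987947953904447181637266339924679313853331149090208694433365517755703559262404264522454503056578184432640363429697159168, 13053247327420647084245450849718885696071187842176082153296904633884003560076827574311385955937936427564555368182908838049750851491434499248799999502942855941473886037906793336471531028480, 9⟩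
def a1c104 : Cert := (move 494 (branch (move 462 (branch (move 430 (leaf 429 5)) (move 558 (branch (move 463 (branch (move 431 (leaf 430 6)) (move 495 (branch (move 590 (leaf 462 6)) (move 461 (branch (move 429 (leaf 429 7)) (move 496 (branch (move 460 (leaf 460 0)) (move 497 (leaf 493 1)))))))))) (move 559 (branch (move 591 (leaf 462 4)) (move 524 (branch (move 523 (leaf 523 0)) (move 560 (leaf 524 3)))))))))) (branch (move 462 (branch (move 430 (leaf 429 5)) (move 589 (branch (move 493 (leaf 461 6)) (move 621 (leaf 493 6)))))) (move 493 (branch (move 589 (branch (move 621 (leaf 493 6)) (move 588 (branch (move 620 (leaf 492 5)) (move 461 (branch (move 556 (leaf 460 5)) (move 429 (branch (move 397 (leaf 397 4)) (move 428 (branch (move 396 (leaf 396 7)) (move 460 (leaf 428 7)))))))))))) (branch (move 461 (branch (move 460 (branch (move 428 (leaf 428 7)) (move 495 (branch (move 496 (leaf 460 3)) (move 459 (branch (move 458 (leaf 458 0)) (move 492 (leaf 459 3)))))))) (move 558 (branch (move 429 (leaf 429 4)) (move 590 (leaf 461 4)))))) (branch (move 589 (branch (move 621 (leaf 493 6)) (move 588 (branch (move 620 (leaf 492 5)) (move 556 (branch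 (move 461 (leaf 460 5)) (move 555 (branch (move 554 (leaf 522 2)) (move 558 (branch (move 527 (leaf 523 2)) (move 587 (branch (move 586 (leaf 554 1)) (move 559 (leaf 555 1)))))))))))))) (move 495 (branch (move 589 (branch (move 621 (leaf 493 6)) (move 492 (branch (move 460 (leaf 460 7)) (move 463 (branch (move 464 (leaf 460 2)) (move 558 (branch (move 590 (leaf 462 6)) (move 431 (branch (move 399 (leaf 398 5)) (move 527 (leaf 430 5)))))))))))) (move 524 (branch (move 496 (leaf 492 1)) (move 523 (leaf 491 2)))))))))))))
theorem a1p104 : a1e104.Valid :=
  pos_of_chk [] forall_nil a1c104 a1e104 (by decide +kernel)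

def a1e105 : Pos := ⟨471745303432202956716463588942664849720522026980987947953904447181637266339924679313853331149090208694433365517755703559262404264522454503056578184432640363429697159168, 60915154150561344754484820599730513205241475764436987699564170593433633331977411451812658010573678000846153340107437678625984470155616252775952150493436381661359928915738871342703568748544, 9⟩
def a1c105 : Cert := (move 494 (branch (move 462 (branch (move 430 (leaf 429 5)) (move 558 (branch (move 463 (branch (move 431 (leaf 430 6)) (move 495 (branch (move 590 (leaf 462 6)) (move 461 (branch (move 429 (leaf 429 7)) (move 496 (branch (move 460 (leaf 460 0)) (move 497 (leaf 493 1)))))))))) (move 559 (branch (move 591 (leaf 462 4)) (move 524 (branch (move 523 (leaf 523 0)) (move 560 (leaf 524 3)))))))))) (branch (move 462 (branch (move 430 (leaf 429 5)) (move 589 (branch (move 493 (leaf 461 6)) (move 621 (leaf 493 6)))))) (move 493 (branch (move 589 (branch (move 621 (leaf 493 6)) (move 590 (branch (move 622 (leaf 493 4)) (move 558 (branch (move 461 (leaf 461 4)) (move 591 (branch (move 623 (leaf 494 4)) (move 556 (branch (move 555 (leaf 555 0)) (move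 592 (leaf 556 3)))))))))))) (branch (move 461 (branch (move 460 (branch (move 428 (leaf 428 7)) (move 495 (branch (move 496 (leaf 460 3)) (move 459 (branch (move 458 (leaf 458 0)) (move 492 (leaf 459 3)))))))) (move 558 (branch (move 429 (leaf 429 4)) (move 590 (leaf 461 4)))))) (branch (move 495 (branch (move 589 (branch (move 621 (leaf 493 6)) (move 492 (branch (move 460 (leaf 460 7)) (move 463 (branch (move 464 (leaf 460 2)) (move 558 (branch (move 590 (leaf 462 6)) (move 431 (branch (move 399 (leaf 398 5)) (move 527 (leaf 430 5)))))))))))) (move 524 (branch (move 496 (leaf 492 1)) (move 523 (leaf 491 2)))))) (move 589 (branch (move 621 (leaf 493 6)) (move 460 (branch (move 492 (leaf 460 7)) (move 461 (branch (move 428 (leaf 428 7)) (move 495 (branch (move 496 (leaf 460 3)) (move 429 (branch (move 397 (leaf 397 4)) (move 524 (branch (move 523 (leaf 491 2)) (move 556 (leaf 428 5)))))))))))))))))))))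
theorem a1p105 : a1e105.Valid :=
  pos_of_chk [] forall_nil a1c105 a1e105 (by decide +kernel)

def a1e106 : Pos := ⟨471745303432202956716463588942664849720522026980987947953904447181637266339924679313853331149090208694433365517755703559262404264522454503056578184432640363429697159168, 1723641332781214160116211151649756786336249949312081924976960255202580421758060325333910146251642640948409349556804203239072757319608450767756046361504117469867813998296909453925908446703204740986704766024769794473984, 13⟩
def a1c106 : Cert := (move 589 (branch (ref 0) (branch (move 621 (branch (move 494 (leaf 493 6)) (move 652 (branch (move 620 (leaf 524 5)) (move 653 (branch (move 684 (leaf 556 5)) (move 654 (branch (move 622 (leaf 525 4)) (move 686 (leaf 557 4)))))))))) (branch (move 494 (branch (move 621 (leaf 493 6)) (move 462 (branch (move 430 (leaf 429 5)) (move 493 (leaf 461 6)))))) (move 493 (branch (move 460 (branch (move 492 (leaf 460 7)) (move 461 (branch (move 428 (leaf 428 7)) (move 556 (branch (move 588 (leaf 460 5)) (move 555 (branch (move 554 (leaf 522 2)) (move 524 (branch (move 527 (leaf 523 1)) (move 429 (leaf 428 5)))))))))))) (branch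 (move 460 (branch (move 492 (leaf 460 7)) (move 461 (branch (move 428 (leaf 428 7)) (move 429 (branch (move 558 (leaf 429 4)) (move 430 (branch (move 398 (leaf 397 6)) (move 462 (leaf 429 6)))))))))) (branch (move 494 (branch (move 462 (leaf 461 6)) (move 588 (branch (move 620 (leaf 492 5)) (move 461 (branch (move 556 (leaf 460 5)) (move 429 (branch (move 397 (leaf 397 4)) (move 558 (leaf 429 4)))))))))) (move 494 (branch (move 462 (leaf 461 6)) (move 492 (branch (move 460 (leaf 460 7)) (move 495 (branch (move 496 (branch (move 497 (leaf 493 1)) (move 464 (branch (move 463 (leaf 460 2)) (move 465 (leaf 461 2)))))) (branch (move 524 (branch (move 523 (leaf 491 1)) (move 588 (branch (move 620 (leaf 492 5)) (move 463 (branch (move 464 (leaf 460 2)) (move 431 (branch (move 399 (leaf 398 5)) (move 558 (branch (move 527 (leaf 430 5)) (move 559 (branch (move 560 (leaf 556 1)) (move 587 (branch (move 556 (leaf 555 1)) (move 586 (leaf 554 2)))))))))))))))) (move 524 (branch (move 523 (leaf 491 1)) (move 496 (leaf 492 1)))))))))))))))))))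
theorem a1p106 : a1e106.Valid :=
  pos_of_chk [a1e55] (forall_cons a1p55 forall_nil) a1c106 a1e106 (by decide +kernel)

def a1e107 : Pos := ⟨329510287686269266319131238355906874428932894406878659650934246040906072803087490501882862751749818638910222946791081185781855423986398903003553357973522743296, 1723641332781214162358741964548811384614839662948961942618388200555551506837630073990808066545245192770759514259261900565050536835643435718346972895313917706123158346477421475781563988702233585009719914542300502425600, 15⟩
def a1c107 : Cert := (move 557 (branch (ref 0) (branch (ref 1) (branch (ref 2) (branch (ref 3) (branch (ref 4) (branch (move 558 (branch (move 559 (branch (move 556 (branch (move 555 (branch (move 554 (leaf 522 2)) (move 587 (branch (move 586 (leaf 554 1)) (move 588 (leaf 555 1)))))) (move 591 (branch (move 592 (leaf 556 0)) (move 494 (branch (move 462 (leaf 462 4)) (move 623 (branch (move 590 (leaf 494 4)) (move 655 (leaf 526 7)))))))))) (move 524 (branch (move 523 (leaf 523 0)) (move 560 (leaf 524 3)))))) (branch (ref 5) (branch (ref 6) (branch (ref 7) (move 556 (branch (move 555 (branch (move 554 (leaf 522 2)) (move 527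 (leaf 523 2)))) (branch (move 555 (branch (move 554 (leaf 522 2)) (move 523 (branch (move 522 (leaf 522 3)) (move 587 (branch (move 586 (leaf 554 1)) (move 590 (branch (move 591 (leaf 555 0)) (move 622 (branch (move 654 (leaf 525 7)) (move 621 (branch (move 653 (leaf 525 5)) (move 623 (branch (move 655 (leaf 526 4)) (move 588 (branch (move 589 (leaf 587 0)) (move 620 (leaf 587 3)))))))))))))))))) (move 559 (branch (move 560 (branch (move 561 (leaf 525 3)) (move 592 (branch (move 591 (leaf 556 0)) (move 593 (leaf 557 0)))))) (branch (move 560 (branch (move 561 (leaf 525 3)) (move 588 (branch (move 587 (leaf 555 1)) (move 589 (leaf 556 1)))))) (ref 8)))))))))))) (branch (ref 9) (branch (move 589 (branch (ref 10) (branch (move 621 (branch (move 494 (leaf 493 6)) (move 652 (branch (move 620 (leaf 524 5)) (move 653 (branch (move 684 (leaf 556 5)) (move 654 (branch (move 622 (leaf 525 4)) (move 686 (leaf 557 4)))))))))) (branch (move 494 (branch (move 621 (leaf 493 6)) (move 462 (branch (move 430 (leaf 429 5)) (move 493 (leaf 461 6)))))) (move 493 (branch (move 588 (branch (move 620 (leaf 492 5)) (move 556 (branch (move 461 (leaf 460 5)) (move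 555 (branch (move 554 (leaf 522 2)) (move 590 (branch (move 591 (leaf 555 3)) (move 622 (leaf 493 4)))))))))) (branch (move 462 (branch (move 494 (leaf 461 6)) (move 461 (branch (move 430 (leaf 429 6)) (move 460 (branch (move 428 (leaf 428 7)) (move 492 (leaf 460 7)))))))) (move 556 (branch (move 588 (branch (move 620 (leaf 492 5)) (move 590 (branch (move 622 (leaf 493 4)) (move 591 (branch (move 555 (leaf 555 3)) (move 592 (leaf 556 3)))))))) (branch (move 588 (branch (move 620 (leaf 492 5)) (move 494 (branch (move 462 (leaf 461 6)) (move 492 (branch (move 460 (leaf 460 7)) (move 590 (branch (move 622 (leaf 493 4)) (move 591 (branch (move 592 (leaf 556 3)) (move 559 (branch (move 560 (leaf 556 2)) (move 623 (branch (move 624 (leaf 588 0)) (move 527 (leaf 494 7)))))))))))))))) (move 555 (branch (move 554 (leaf 522 2)) (move 524 (branch (move 527 (leaf 523 1)) (move 492 (branch (move 460 (leaf 460 4)) (move 494 (branch (move 462 (leaf 461 6)) (move 523 (branch (move 495 (leaf 491 1)) (move 522 (leaf 490 2)))))))))))))))))))))) (branch (move 589 (branch (ref 10) (branch (move 621 (branch (move 494 (leaf 493 6)) (move 652 (branch (move 620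 (leaf 524 5)) (move 653 (branch (move 684 (leaf 556 5)) (move 654 (branch (move 622 (leaf 525 4)) (move 686 (leaf 557 4)))))))))) (branch (move 494 (branch (move 621 (leaf 493 6)) (move 462 (branch (move 430 (leaf 429 5)) (move 493 (leaf 461 6)))))) (ref 11))))) (branch (ref 12) (branch (ref 13) (branch (ref 14) (ref 15))))))))))))))
theorem a1p107 : a1e107.Valid :=
  pos_of_chk [a1e58, a1e62, a1e65, a1e67, a1e99, a1e59, a1e60, a1e61, a1e100, a1e101, a1e56, a1e102, a1e103, a1e104, a1e105, a1e106] (forall_cons a1p58 (forall_cons a1p62 (forall_cons a1p65 (forall_cons a1p67 (forall_cons a1p99 (forall_cons a1p59 (forall_cons a1p60 (forall_cons a1p61 (forall_cons a1p100 (forall_cons a1p101 (forall_cons a1p56 (forall_cons a1p102 (forall_cons a1p103 (forall_cons a1p104 (forall_cons a1p105 (forall_cons a1p106 forall_nil)))))))))))))))) a1c107 a1e107 (by decide +kernel)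

def a1e108 : Pos := ⟨384428668967314144038986444748558020167088376808025102926089953714390418270268738918863339877041455078728593437922928050078831327984132053504145584302443200512, 66354007182568858968670273512916751157629041524753998419997802122747480940790821608941612319473846214529882136518644587762191600879788474122359026522941970387105572855494791333597346267136, 13⟩
def a1c108 : Cert := (move 523 (branch (move 554 (branch (move 555 (leaf 522 1)) (move 522 (branch (move 553 (leaf 521 1)) (move 490 (branch (move 489 (leaf 489 3)) (move 491 (leaf 490 3)))))))) (branch (move 558 (branch (move 559 (leaf 523 0)) (move 522 (branch (move 557 (leaf 522 0)) (move 490 (branch (move 489 (leaf 489 3)) (move 491 (leaf 490 3)))))))) (branch (move 558 (branch (move 559 (leaf 523 0)) (move 522 (branch (move 557 (leaf 522 0)) (move 554 (branch (move 553 (leaf 521 1)) (move 555 (leaf 522 1)))))))) (move 491 (branch (move 490 (leaf 490 3)) (move 459 (branch (move 555 (branch (move 554 (leaf 522 1)) (move 556 (branch (move 427 (leaf 427 4)) (move 588 (leaf 459 4)))))) (branch (move 427 (branch (move 556 (leaf 427 4)) (move 428 (branch (move 396 (leaf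 395 6)) (move 394 (branch (move 426 (leaf 394 7)) (move 395 (branch (move 362 (leaf 362 7)) (move 430 (branch (move 429 (leaf 394 3)) (move 494 (branch (move 495 (leaf 491 2)) (move 462 (branch (move 557 (leaf 429 5)) (move 398 (branch (move 493 (leaf 397 5)) (move 399 (branch (move 367 (leaf 366 6)) (move 431 (leaf 398 6)))))))))))))))))))) (branch (move 555 (branch (move 554 (leaf 522 1)) (move 494 (branch (move 495 (leaf 491 2)) (move 558 (branch (move 559 (leaf 523 0)) (move 428 (branch (move 460 (leaf 427 6)) (move 427 (branch (move 396 (leaf 395 6)) (move 426 (branch (move 394 (leaf 394 7)) (move 458 (leaf 426 7)))))))))))))) (move 555 (branch (move 554 (leaf 522 1)) (move 588 (branch (move 556 (leaf 459 4)) (move 587 (branch (move 620 (leaf 491 4)) (move 558 (branch (move 559 (leaf 523 0)) (move 494 (branch (move 495 (leaf 491 2)) (move 586 (branch (move 618 (leaf 490 5)) (move 589 (branch (move 557 (leaf 554 2)) (move 590 (branch (move 621 (leaf 493 5)) (move 623 (branch (move 622 (leaf 587 0)) (move 591 (leaf 494 4))))))))))))))))))))))))))))))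
theorem a1p108 : a1e108.Valid :=
  pos_of_chk [] forall_nil a1c108 a1e108 (by decide +kernel)

def a1e109 : Pos := ⟨1886981212795199345190384891029875323644930808401171064502898316987747809581817699566336282645338803487877832979295020798773429244027479863302888446279412139043657351168, 52212989258016256775524436298848397918057987332894575420959675794996079365160935589481011789545291439621198824587943204641952851724501075905639011321755678868358695376952049295027613990912, 7⟩
def a1c109 : Cert := (move 558 (branch (move 560 (branch (move 557 (leaf 524 3)) (move 561 (leaf 525 3)))) (move 494 (branch (move 462 (branch (move 591 (leaf 462 4)) (move 429 (branch (move 461 (leaf 429 7)) (move 430 (branch (move 397 (leaf 397 7)) (move 431 (branch (move 399 (leaf 398 6)) (move 463 (leaf 430 6)))))))))) (branch (move 591 (branch (move 462 (leaf 462 4)) (move 590 (branch (move 623 (leaf 494 4)) (move 493 (branch (move 461 (leaf 461 7)) (move 622 (leaf 493 7)))))))) (branch (move 590 (branch (move 463 (leaf 462 6)) (move 493 (branch (move 461 (leaf 461 7)) (move 622 (leaf 493 7)))))) (move 590 (branch (move 463 (leaf 462 6)) (move 591 (branch (move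 462 (leaf 462 4)) (move 623 (leaf 494 4))))))))))))
theorem a1p109 : a1e109.Valid :=
  pos_of_chk [] forall_nil a1c109 a1e109 (by decide +kernel)

def a1e110 : Pos := ⟨1886981213234546395438743912788716974786139974306414923712069863188993470969692463303786269981182620490210924497841984727828204158403287095284753650284149949675021008896, 373755135517440540579789377052492071581090255808679869885851656752697944542008340243485983619374727514220950808040897268647128098125251123404286085574098090586445576451491835859029777984535576707072, 7⟩
def a1c110 : Cert := (move 463 (branch (move 430 (branch (move 462 (leaf 430 7)) (move 431 (branch (move 398 (leaf 398 7)) (move 432 (branch (move 400 (leaf 399 6)) (move 464 (leaf 431 6)))))))) (branch (move 556 (branch (move 555 (leaf 523 1)) (move 432 (branch (move 464 (leaf 431 6)) (move 431 (branch (move 400 (leaf 399 6)) (move 399 (branch (move 494 (leaf 398 5)) (move 398 (branch (move 366 (leaf 366 7)) (move 430 (leaf 398 7)))))))))))) (branch (move 432 (branch (move 464 (leaf 431 6)) (move 431 (branch (move 400 (leaf 399 6)) (move 494 (branch (move 399 (leaf 398 5)) (move 591 (branch (move 462 (leaf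 462 7)) (move 623 (leaf 494 7)))))))))) (move 462 (branch (move 430 (leaf 430 7)) (move 591 (branch (move 494 (leaf 462 7)) (move 622 (branch (move 590 (leaf 494 5)) (move 623 (branch (move 654 (leaf 526 5)) (move 624 (branch (move 592 (leaf 495 4)) (move 656 (leaf 527 4))))))))))))))))
theorem a1p110 : a1e110.Valid :=
  pos_of_chk [] forall_nil a1c110 a1e110 (by decide +kernel)

def a1e111 : Pos := ⟨1886981213069791251595609279629151355608186537091948476508630533363526347949239426902242524730241189114336015178386873254432663565512359383291554198782373270688259637248, 373755135517440540579789377053081753209968621644967612789131073766903713482697763497950093819915394784475138386452577625438177930992267759691982507812004972758606579021627848767060535751368564015104, 7⟩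
def a1c111 : Cert := (move 463 (branch (move 432 (branch (move 464 (leaf 431 6)) (move 431 (branch (move 400 (leaf 399 6)) (move 494 (branch (move 399 (leaf 398 5)) (move 591 (branch (move 462 (leaf 462 7)) (move 623 (leaf 494 7)))))))))) (branch (move 462 (branch (move 430 (leaf 430 7)) (move 591 (branch (move 494 (leaf 462 7)) (move 622 (branch (move 590 (leaf 494 5)) (move 623 (branch (move 654 (leaf 526 5)) (move 624 (branch (move 592 (leaf 495 4)) (move 656 (leaf 527 4)))))))))))) (move 558 (branch (move 431 (leaf 430 5)) (move 590 (leaf 462 5)))))))
theorem a1p111 : a1e111.Valid :=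
  pos_of_chk [] forall_nil a1c111 a1e111 (by decide +kernel)

def a1e112 : Pos := ⟨1886981213234546395438743912788716974786139974306414923712069863188993470969692463303786269981182620490210924497841984727828204158403287095284753650284149949675021008896, 321053217170496783623498957406428880053256345741256287203268292299973283905197805637640474142678662553372751191272796602143223146264879577682159930800582950235016321711483089763976603552989694646178308685824, 10⟩
def a1c112 : Cert := (move 463 (branch (move 430 (branch (move 462 (leaf 430 7)) (move 431 (branch (move 398 (leaf 398 7)) (move 432 (branch (move 400 (leaf 399 6)) (move 464 (leaf 431 6)))))))) (branch (move 556 (branch (move 555 (leaf 523 1)) (move 432 (branch (move 464 (leaf 431 6)) (move 431 (branch (move 400 (leaf 399 6)) (move 399 (branch (move 494 (leaf 398 5)) (move 398 (branch (move 366 (leaf 366 7)) (move 430 (leaf 398 7)))))))))))) (branch (move 432 (branch (move 464 (leaf 431 6)) (move 431 (branch (move 400 (leaf 399 6)) (move 494 (branch (move 399 (leaf 398 5)) (move 591 (branch (move 462 (leaf 462 7)) (move 623 (leaf 494 7)))))))))) (branch (move 462 (branch (move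 430 (leaf 430 7)) (move 591 (branch (move 494 (leaf 462 7)) (move 556 (branch (move 555 (leaf 523 1)) (move 464 (branch (move 432 (leaf 431 6)) (move 624 (branch (move 592 (leaf 495 4)) (move 623 (branch (move 656 (leaf 527 4)) (move 654 (branch (move 622 (leaf 526 5)) (move 655 (branch (move 686 (leaf 558 5)) (move 558 (leaf 526 7)))))))))))))))))) (move 462 (branch (move 430 (leaf 430 7)) (move 494 (branch (move 591 (leaf 462 7)) (move 431 (branch (move 399 (leaf 398 5)) (move 558 (leaf 430 5)))))))))))))
theorem a1p112 : a1e112.Valid :=
  pos_of_chk [] forall_nil a1c112 a1e112 (by decide +kernel)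

def a1e113 : Pos := ⟨1886981212795199345190384891029875323644930808401171064502898316987747809581817699566336282645338803487877832979295020798773429244027479863302888446279412139043657351168, 481579825550179850919800901525283381456206852948611729071179143119372205803469134359294245789392219064122384943715553909209681079662572706557126995630428503781056799054582363837972978296134572298730463035392, 12⟩
def a1c113 : Cert := (move 527 (branch (ref 0) (branch (ref 1) (branch (move 591 (branch (move 622 (branch (move 590 (leaf 494 5)) (move 623 (branch (move 654 (leaf 526 5)) (move 624 (branch (move 592 (leaf 495 4)) (move 656 (leaf 527 4)))))))) (branch (move 494 (branch (move 462 (leaf 462 7)) (move 590 (branch (move 622 (leaf 494 5)) (move 556 (branch (move 555 (leaf 523 1)) (move 592 (branch (move 624 (leaf 495 4)) (move 557 (branch (move 558 (leaf 556 0)) (move 589 (leaf 556 3)))))))))))) (move 494 (branch (move 462 (leaf 462 7)) (move 623 (leaf 494 7))))))) (branch (move 463 (branch (move 430 (branch (move 462 (leaf 430 7)) (move 431 (branch (move 398 (leaf 398 7)) (move 432 (branch (move 400 (leaf 399 6)) (move 464 (leaf 431 6))))))))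 (move 590 (branch (move 558 (leaf 462 5)) (move 591 (branch (move 622 (leaf 494 5)) (move 624 (branch (move 592 (leaf 495 4)) (move 623 (branch (move 656 (leaf 527 4)) (move 556 (branch (move 555 (leaf 523 1)) (move 588 (branch (move 589 (leaf 588 0)) (move 620 (branch (move 493 (leaf 492 6)) (move 652 (branch (move 557 (leaf 524 6)) (move 653 (branch (move 621 (leaf 524 4)) (move 685 (leaf 556 4)))))))))))))))))))))) (branch (move 463 (branch (move 556 (branch (move 555 (leaf 523 1)) (move 432 (branch (move 464 (leaf 431 6)) (move 431 (branch (move 400 (leaf 399 6)) (move 399 (branch (move 494 (leaf 398 5)) (move 398 (branch (move 366 (leaf 366 7)) (move 430 (leaf 398 7)))))))))))) (branch (move 558 (branch (move 431 (leaf 430 5)) (move 590 (leaf 462 5)))) (move 590 (branch (move 558 (leaf 462 5)) (move 591 (branch (move 622 (leaf 494 5)) (move 624 (branch (move 592 (leaf 495 4)) (move 623 (branch (move 656 (leaf 527 4)) (move 556 (branch (move 555 (leaf 523 1)) (move 588 (branch (move 589 (leaf 588 0)) (move 620 (branch (move 493 (leaf 492 6)) (move 652 (branch (move 557 (leaf 524 6)) (move 653 (branch (move 621 (leaf 524 4)) (move 685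 (leaf 556 4))))))))))))))))))))))) (branch (ref 2) (move 463 (branch (move 556 (branch (move 555 (leaf 523 1)) (move 432 (branch (move 464 (leaf 431 6)) (move 431 (branch (move 400 (leaf 399 6)) (move 399 (branch (move 494 (leaf 398 5)) (move 398 (branch (move 366 (leaf 366 7)) (move 430 (leaf 398 7)))))))))))) (branch (move 558 (branch (move 431 (leaf 430 5)) (move 590 (leaf 462 5)))) (move 493 (branch (move 462 (branch (move 430 (leaf 430 7)) (move 556 (branch (move 555 (leaf 523 1)) (move 461 (branch (move 429 (leaf 428 5)) (move 588 (branch (move 557 (leaf 460 5)) (move 620 (leaf 492 6)))))))))) (branch (move 558 (branch (move 590 (leaf 462 5)) (move 556 (branch (move 555 (leaf 523 1)) (move 461 (branch (move 429 (leaf 429 4)) (move 588 (branch (move 557 (leaf 460 5)) (move 620 (leaf 492 6)))))))))) (branch (move 558 (branch (move 590 (leaf 462 5)) (move 556 (branch (move 555 (leaf 523 1)) (move 462 (branch (move 430 (leaf 430 7)) (move 588 (branch (move 620 (leaf 492 6)) (move 557 (branch (move 587 (leaf 555 1)) (move 494 (branch (move 589 (leaf 461 5)) (move 464 (branch (move 465 (leaf 461 1)) (move 432 (leaf 431 6))))))))))))))))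 (move 558 (branch (move 590 (leaf 462 5)) (move 462 (branch (move 430 (leaf 430 7)) (move 461 (branch (move 429 (leaf 429 4)) (move 464 (branch (move 432 (leaf 431 6)) (move 465 (branch (move 494 (leaf 461 1)) (move 498 (branch (move 497 (leaf 462 0)) (move 466 (branch (move 499 (leaf 463 0)) (move 434 (branch (move 433 (leaf 430 2)) (move 435 (leaf 431 2))))))))))))))))))))))))))))))))
theorem a1p113 : a1e113.Valid :=
  pos_of_chk [a1e110, a1e111, a1e112] (forall_cons a1p110 (forall_cons a1p111 (forall_cons a1p112 forall_nil))) a1c113 a1e113 (by decide +kernel)

def a1e114 : Pos := ⟨384428668967314144038986444748558020167088376808025102926089953714390418270268738918863339877041455078728593437922928050078831327984132053504145584302443200512, 481579825550179850919800901525283381469415721435487123804331464522321410221992095164829697490464613397273503927304973540787206444700428460144197241700124123104613822556035940139738840149841752734725664931840, 14⟩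
def a1c114 : Cert := (move 495 (branch (move 496 (branch (move 527 (leaf 492 2)) (move 494 (branch (move 493 (leaf 492 1)) (move 497 (leaf 493 1)))))) (branch (move 494 (branch (move 496 (branch (move 493 (leaf 492 1)) (move 497 (leaf 493 1)))) (move 558 (branch (move 559 (branch (move 560 (branch (move 557 (leaf 524 3)) (move 561 (leaf 525 3)))) (move 462 (branch (move 591 (leaf 462 4)) (move 429 (branch (move 461 (leaf 429 7)) (move 430 (branch (move 397 (leaf 397 7)) (move 431 (branch (move 399 (leaf 398 6)) (move 463 (leaf 430 6)))))))))))) (branch (move 590 (branch (move 463 (leaf 462 6)) (move 621 (branch (move 589 (leaf 493 5)) (move 622 (branch (move 653 (leaf 525 5)) (move 623 (branch (move 591 (leaf 494 4)) (move 655 (leaf 526 4)))))))))) (branch (move 463 (branch (move 590 (leaf 462 6)) (move 462 (branch (move 431 (leaf 430 6)) (move 557 (branch (move 430 (leaf 429 5)) (move 589 (leaf 461 5)))))))) (move 559 (branch (move 560 (branch (move 557 (leaf 524 3)) (move 561 (leaf 525 3)))) (move 591 (branch (move 462 (leaf 462 4)) (move 623 (branch (move 590 (leaf 494 4)) (move 655 (leaf 526 7)))))))))))))) (branch (move 527 (branch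 (move 496 (leaf 492 2)) (move 463 (branch (move 431 (branch (move 558 (leaf 430 5)) (move 398 (branch (move 430 (leaf 398 7)) (move 399 (branch (move 366 (leaf 366 7)) (move 400 (branch (move 368 (leaf 367 6)) (move 432 (leaf 399 6)))))))))) (branch (move 559 (branch (move 560 (leaf 524 0)) (move 430 (branch (move 462 (leaf 430 7)) (move 431 (branch (move 398 (leaf 398 7)) (move 432 (branch (move 400 (leaf 399 6)) (move 464 (leaf 431 6)))))))))) (move 559 (branch (move 560 (leaf 524 0)) (move 590 (branch (move 558 (leaf 462 5)) (move 591 (branch (move 622 (leaf 494 5)) (move 624 (branch (move 592 (leaf 495 4)) (move 623 (branch (move 656 (leaf 527 4)) (move 556 (branch (move 555 (leaf 523 1)) (move 588 (branch (move 589 (leaf 588 0)) (move 620 (branch (move 493 (leaf 492 6)) (move 652 (branch (move 557 (leaf 524 6)) (move 653 (branch (move 621 (leaf 524 4)) (move 685 (leaf 556 4))))))))))))))))))))))))))) (branch (move 527 (branch (move 496 (leaf 492 2)) (ref 0))) (move 559 (branch (ref 1) (branch (move 527 (branch (move 560 (leaf 524 0)) (ref 2))) (branch (move 560 (branch (move 527 (leaf 524 0)) (move 558 (branch (move 557 (leaf 524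 3)) (move 561 (leaf 525 3)))))) (ref 3))))))))))
theorem a1p114 : a1e114.Valid :=
  pos_of_chk [a1e46, a1e109, a1e110, a1e113] (forall_cons a1p46 (forall_cons a1p109 (forall_cons a1p110 (forall_cons a1p113 forall_nil)))) a1c114 a1e114 (by decide +kernel)

def a1e115 : Pos := ⟨329510287737415994567508455074862963441864131160263691620357133376582500429589581070705902671800913831502475402273685625274981533505418536533012624431780986880, 34808659511422563128870738652850155183690457593731608839938311058455680535972830089002906916562745083742783469407927734751303978678713093826566349147299374778216515574145746853666494611456, 8⟩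
def a1c115 : Cert := (move 462 (branch (ref 0) (branch (move 430 (branch (move 557 (leaf 429 5)) (move 429 (branch (move 397 (leaf 397 7)) (move 558 (branch (move 461 (leaf 429 7)) (move 559 (branch (move 527 (leaf 430 4)) (move 591 (leaf 462 4)))))))))) (branch (move 430 (branch (move 557 (leaf 429 5)) (move 398 (branch (move 493 (leaf 397 5)) (move 399 (branch (move 367 (leaf 366 6)) (move 431 (leaf 398 6)))))))) (move 558 (branch (move 461 (branch (move 429 (leaf 429 7)) (move 590 (branch (move 493 (leaf 461 7)) (move 591 (branch (move 559 (leaf 462 4)) (move 623 (leaf 494 4)))))))) (branch (move 557 (branch (move 589 (leaf 461 5)) (move 461 (branch (move 429 (leaf 429 7)) (move 493 (branch (move 590 (leaf 461 4)) (move 463 (branch (move 431 (leaf 430 6)) (move 492 (branch (move 464 (leaf 460 1)) (move 491 (leaf 459 2)))))))))))) (move 559 (branch (move 591 (leaf 462 4)) (move 557 (branch (move 589 (leaf 461 5)) (move 524 (branch (move 523 (leaf 523 0)) (move 560 (leaf 524 3)))))))))))))))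
theorem a1p115 : a1e115.Valid :=
  pos_of_chk [a1e75] (forall_cons a1p75 forall_nil) a1c115 a1e115 (by decide +kernel)

def a1e116 : Pos := ⟨329510287737415994579416980733722186736624252428700757911207193430083519529241516494081496768250825407278789577167987883422514687502483595796043537515003510784, 34808659511422563128870738652410808133525212005298230466321517042663494931156323674745332467881121386193222529740570544574424071655207407987946159460704717746446017918769214491927232118784, 7⟩
def a1c116 : Cert := (move 558 (branch (move 461 (branch (move 429 (leaf 429 7)) (move 590 (branch (move 493 (leaf 461 7)) (move 591 (branch (move 559 (leaf 462 4)) (move 623 (leaf 494 4)))))))) (branch (move 557 (branch (move 589 (leaf 461 5)) (move 461 (branch (move 429 (leaf 429 7)) (move 493 (branch (move 590 (leaf 461 4)) (move 460 (branch (move 428 (leaf 428 7)) (move 459 (branch (move 458 (leaf 458 0)) (move 495 (leaf 459 0)))))))))))) (move 559 (branch (move 591 (leaf 462 4)) (move 557 (branch (move 589 (leaf 461 5)) (move 524 (branch (move 523 (leaf 523 0)) (move 560 (leaf 524 3)))))))))))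
theorem a1p116 : a1e116.Valid :=
  pos_of_chk [] forall_nil a1c116 a1e116 (by decide +kernel)

def a1e117 : Pos := ⟨329510287839709451064262888512775141467726604667033755559202908047935355682593762208351982511903104216686980313238894504261233752543457803591931157348297474048, 2026130649339417646565676372133213922040690834841465249287262071690831526484340066188661015856447983711531612748828366961066164987177058782218729430050737178561378006763575443456, 11⟩
def a1c117 : Cert := (move 493 (branch (move 496 (branch (move 497 (leaf 493 1)) (move 461 (branch (move 460 (leaf 460 3)) (move 429 (branch (move 397 (leaf 397 4)) (move 464 (branch (move 465 (leaf 461 2)) (move 430 (branch (move 398 (leaf 397 6)) (move 428 (branch (move 396 (leaf 396 7)) (move 431 (branch (move 463 (leaf 428 0)) (move 400 (branch (move 399 (leaf 396 2)) (move 432 (branch (move 401 (leaf 397 2)) (move 527 (leaf 399 5)))))))))))))))))))) (branch (move 492 (branch (move 491 (branch (move 490 (leaf 490 0)) (move 527 (leaf 491 0)))) (move 460 (branch (move 459 (leaf 459 3)) (move 557 (branch (move 589 (leaf 460 7)) (move 428 (branch (move 396 (leaf 396 4)) (move 461 (leaf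 428 7)))))))))) (branch (move 496 (branch (move 497 (leaf 493 1)) (move 464 (branch (move 465 (leaf 461 2)) (move 492 (branch (move 463 (leaf 460 2)) (move 491 (branch (move 490 (leaf 490 0)) (move 527 (leaf 491 0)))))))))) (move 496 (branch (move 497 (leaf 493 1)) (move 461 (branch (move 460 (leaf 460 3)) (move 429 (branch (move 397 (leaf 397 4)) (move 464 (branch (move 465 (leaf 461 2)) (move 463 (branch (move 492 (leaf 460 2)) (move 431 (branch (move 399 (leaf 398 5)) (move 430 (branch (move 428 (leaf 428 0)) (move 398 (leaf 397 6))))))))))))))))))))
theorem a1p117 : a1e117.Valid :=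
  pos_of_chk [] forall_nil a1c117 a1e117 (by decide +kernel)

def a1e118 : Pos := ⟨329510287852496133138265718351373387015719535123817079842408689935355481688871220273933336588365789590611357602003847872282048433920277771237326887046084558848, 1886981212850117726394709676744840434764805186366246017993338423088719441878441706825614094469947186726168259361164419990700812846332111776196914737649115186711920377856, 11⟩
def a1c118 : Cert := (move 493 (branch (move 463 (branch (move 464 (leaf 460 2)) (move 460 (branch (move 459 (leaf 459 3)) (move 431 (branch (move 399 (leaf 398 5)) (move 461 (branch (move 432 (leaf 428 2)) (move 428 (branch (move 427 (leaf 427 3)) (move 396 (leaf 396 4)))))))))))) (branch (move 430 (branch (move 398 (leaf 397 5)) (move 460 (branch (move 459 (leaf 459 3)) (move 429 (branch (move 397 (leaf 397 7)) (move 428 (branch (move 396 (leaf 396 4)) (move 431 (branch (move 399 (leaf 398 6)) (move 432 (branch (move 461 (leaf 428 1)) (move 465 (branch (move 464 (leaf 429 0)) (move 433 (branch (move 466 (leaf 430 0)) (move 401 (branch (move 400 (leaf 397 2)) (move 402 (leaf 398 2)))))))))))))))))))) (branch (move 430 (branch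 (move 398 (leaf 397 5)) (move 463 (branch (move 464 (leaf 460 2)) (move 431 (branch (move 399 (leaf 398 5)) (move 527 (branch (move 559 (leaf 430 4)) (move 429 (branch (move 397 (leaf 397 7)) (move 432 (branch (move 400 (leaf 399 6)) (move 433 (branch (move 461 (leaf 429 1)) (move 434 (leaf 430 1)))))))))))))))) (branch (move 430 (branch (move 398 (leaf 397 5)) (move 460 (branch (move 459 (leaf 459 3)) (move 429 (branch (move 397 (leaf 397 7)) (move 428 (branch (move 396 (leaf 396 4)) (move 431 (branch (move 399 (leaf 398 6)) (move 432 (branch (move 461 (leaf 428 1)) (move 527 (branch (move 559 (leaf 430 4)) (move 463 (branch (move 427 (leaf 427 0)) (move 400 (leaf 399 6)))))))))))))))))) (move 430 (branch (move 398 (leaf 397 5)) (move 463 (branch (move 464 (leaf 460 2)) (move 527 (branch (move 559 (leaf 430 4)) (move 460 (branch (move 459 (leaf 459 3)) (move 428 (branch (move 396 (leaf 396 4)) (move 429 (branch (move 427 (leaf 427 0)) (move 397 (leaf 397 7)))))))))))))))))))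
theorem a1p118 : a1e118.Valid :=
  pos_of_chk [] forall_nil a1c118 a1e118 (by decide +kernel)

def a1e119 : Pos := ⟨329510287737415994567508455074862963441864131160263691620357133376582500429589581070705902671800913831502475402273685625274981533505418536533012624431780986880, 10130653250471050655974912581291205689873260397859742999241033048287559350746793971475742471549239585795864805526407326029914700595046481241179043104457425847651283607717083611136, 14⟩
def a1c119 : Cert := (move 495 (branch (ref 0) (branch (move 496 (branch (move 497 (leaf 493 1)) (move 524 (branch (move 523 (leaf 491 2)) (move 527 (leaf 492 2)))))) (branch (move 496 (branch (move 497 (leaf 493 1)) (move 524 (branch (move 493 (leaf 492 1)) (move 523 (leaf 491 2)))))) (move 492 (branch (move 524 (branch (move 523 (leaf 491 2)) (move 527 (branch (move 491 (leaf 491 3)) (move 559 (branch (move 560 (leaf 524 0)) (move 462 (branch (move 430 (leaf 430 4)) (move 591 (leaf 462 7)))))))))) (branch (move 493 (branch (move 491 (branch (move 490 (leaf 490 0)) (move 527 (leaf 491 0)))) (move 460 (branch (move 459 (leaf 459 3)) (move 557 (branch (move 589 (leaf 460 7)) (move 428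 (branch (move 396 (leaf 396 4)) (move 461 (leaf 428 7)))))))))) (branch (move 493 (branch (move 460 (branch (move 459 (leaf 459 3)) (move 557 (branch (move 589 (leaf 460 7)) (move 428 (branch (move 396 (leaf 396 4)) (move 461 (leaf 428 7)))))))) (move 491 (branch (move 490 (leaf 490 0)) (move 463 (branch (move 462 (leaf 459 2)) (move 464 (leaf 460 2)))))))) (move 462 (branch (move 430 (branch (move 557 (leaf 429 5)) (move 527 (branch (move 398 (leaf 398 4)) (move 559 (leaf 430 4)))))) (branch (ref 1) (move 460 (branch (move 459 (branch (move 461 (leaf 459 0)) (move 493 (leaf 459 3)))) (branch (move 524 (branch (move 523 (leaf 491 2)) (move 428 (branch (move 557 (leaf 428 4)) (move 461 (branch (move 459 (leaf 459 0)) (move 427 (branch (move 463 (leaf 427 3)) (move 395 (leaf 395 7)))))))))) (move 524 (branch (move 523 (leaf 491 2)) (move 428 (branch (move 557 (leaf 428 4)) (move 396 (branch (move 493 (leaf 396 4)) (move 397 (branch (move 365 (leaf 364 6)) (move 429 (leaf 396 6))))))))))))))))))))))))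
theorem a1p119 : a1e119.Valid :=
  pos_of_chk [a1e117, a1e118] (forall_cons a1p117 (forall_cons a1p118 forall_nil)) a1c119 a1e119 (by decide +kernel)

def a1e120 : Pos := ⟨329510287737415994567508455074862963441864131160263691620357133376582500429589581070705902671800913831502475402273685625274981533505418536533012624431780986880, 52212989260042387426279089854804529869228924903480811476526404215862033108678057587233972507209692698572697998108286936239703199779445981085833155446414205391139865855911869340052893990912, 11⟩
def a1c120 : Cert := (move 495 (branch (move 496 (branch (move 497 (leaf 493 1)) (move 524 (branch (move 523 (leaf 491 2)) (move 527 (leaf 492 2)))))) (branch (move 496 (branch (move 497 (leaf 493 1)) (move 524 (branch (move 493 (leaf 492 1)) (move 523 (leaf 491 2)))))) (branch (move 493 (branch (move 492 (branch (move 463 (branch (move 464 (leaf 460 2)) (move 558 (branch (move 590 (leaf 462 6)) (move 431 (branch (move 399 (leaf 398 5)) (move 527 (leaf 430 5)))))))) (move 491 (branch (move 490 (leaf 490 0)) (move 459 (branch (move 458 (leaf 458 3)) (move 460 (leaf 459 3)))))))) (branch (move 496 (branch (move 497 (leaf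 493 1)) (move 464 (branch (move 465 (leaf 461 2)) (move 492 (branch (move 463 (leaf 460 2)) (move 491 (branch (move 490 (leaf 490 0)) (move 527 (leaf 491 0)))))))))) (move 496 (branch (move 497 (leaf 493 1)) (move 461 (branch (move 460 (leaf 460 3)) (move 429 (branch (move 397 (leaf 397 4)) (move 558 (leaf 429 4))))))))))) (move 524 (branch (move 523 (leaf 491 2)) (move 558 (branch (move 463 (branch (move 590 (leaf 462 6)) (move 431 (branch (move 399 (leaf 398 5)) (move 527 (leaf 430 5)))))) (branch (move 559 (branch (move 560 (branch (move 557 (leaf 524 3)) (move 561 (leaf 525 3)))) (move 591 (branch (move 462 (leaf 462 4)) (move 590 (branch (move 623 (leaf 494 4)) (move 493 (branch (move 461 (leaf 461 7)) (move 622 (leaf 493 7)))))))))) (move 559 (branch (move 560 (branch (move 527 (leaf 524 0)) (move 561 (leaf 525 3)))) (move 462 (branch (move 591 (leaf 462 4)) (move 463 (branch (move 431 (leaf 430 6)) (move 461 (branch (move 429 (leaf 429 7)) (move 460 (branch (move 459 (leaf 459 0)) (move 492 (branch (move 491 (leaf 459 1)) (move 557 (branch (move 428 (leaf 428 4)) (move 589 (leaf 461 5)))))))))))))))))))))))))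
theorem a1p120 : a1e120.Valid :=
  pos_of_chk [] forall_nil a1c120 a1e120 (by decide +kernel)

def a1e121 : Pos := ⟨329510287737415994567508455074862963441864131160263691620357133376582500429589581070705902671800913831502475402273685625274981533505418536533012624431780986880, 52212989260042387418731165005175176760066076960921584687792049985192166270697272170251435571311363410184455911784477152499935993436179573461380410241088508249121961636643102080490006380544, 12⟩
def a1c121 : Cert := (move 495 (branch (ref 0) (branch (move 496 (branch (move 497 (leaf 493 1)) (move 524 (branch (move 523 (leaf 491 2)) (move 527 (leaf 492 2)))))) (branch (move 496 (branch (move 497 (leaf 493 1)) (move 524 (branch (move 493 (leaf 492 1)) (move 523 (leaf 491 2)))))) (move 492 (branch (move 493 (branch (move 491 (branch (move 490 (leaf 490 0)) (move 527 (leaf 491 0)))) (move 460 (branch (move 459 (leaf 459 3)) (move 557 (branch (move 589 (leaf 460 7)) (move 428 (branch (move 396 (leaf 396 4)) (move 461 (leaf 428 7)))))))))) (branch (move 524 (branch (move 523 (leaf 491 2)) (move 527 (branch (move 491 (leaf 491 3)) (move 559 (branch (move 560 (leaf 524 0))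 (move 591 (branch (move 623 (leaf 494 7)) (move 590 (branch (move 622 (leaf 494 5)) (move 463 (branch (move 558 (leaf 462 5)) (move 431 (branch (move 399 (leaf 398 5)) (move 432 (branch (move 400 (leaf 399 6)) (move 464 (leaf 431 6)))))))))))))))))) (branch (move 493 (branch (move 460 (branch (move 459 (leaf 459 3)) (move 557 (branch (move 589 (leaf 460 7)) (move 461 (branch (move 428 (leaf 428 7)) (move 558 (branch (move 429 (leaf 429 4)) (move 590 (leaf 461 4)))))))))) (move 523 (branch (move 524 (leaf 491 1)) (move 491 (branch (move 490 (leaf 490 0)) (move 522 (leaf 490 1)))))))) (move 493 (branch (move 463 (branch (move 464 (leaf 460 2)) (move 558 (branch (move 590 (leaf 462 6)) (move 431 (branch (move 399 (leaf 398 5)) (move 527 (leaf 430 5)))))))) (move 460 (branch (move 459 (leaf 459 3)) (move 557 (branch (move 589 (leaf 460 7)) (move 428 (branch (move 396 (leaf 396 4)) (move 461 (leaf 428 7))))))))))))))))))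
theorem a1p121 : a1e121.Valid :=
  pos_of_chk [a1e117] (forall_cons a1p117 forall_nil) a1c121 a1e121 (by decide +kernel)

def a1e122 : Pos := ⟨329510287686269266319131238355906874428932894406878659650934246040906072803087490501882862751749818638910222946791081185781855423986398903003553357973522743296, 261628594837842316801751845025744781169730298953157076780133970113018386378271660677996994479768735926597503042675421776384609982504289296686721042156622009211714118995829709230115950431014542639104, 15⟩
def a1c122 : Cert := (move 494 (branch (ref 0) (branch (ref 1) (branch (ref 2) (branch (ref 3) (branch (ref 4) (branch (ref 5) (branch (ref 6) (branch (move 462 (branch (move 558 (branch (move 559 (branch (move 591 (leaf 462 4)) (move 430 (branch (move 527 (leaf 430 4)) (move 429 (branch (move 397 (leaf 397 7)) (move 461 (leaf 429 7)))))))) (branch (move 559 (branch (move 591 (leaf 462 4)) (move 430 (branch (move 527 (leaf 430 4)) (move 398 (branch (move 493 (leaf 397 5)) (move 397 (branch (move 365 (leaf 365 7)) (move 429 (leaf 397 7)))))))))) (branch (move 461 (branch (move 429 (leaf 429 7)) (move 590 (branch (move 493 (leaf 461 7)) (move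 623 (branch (move 591 (leaf 494 4)) (move 622 (branch (move 655 (leaf 526 4)) (move 621 (branch (move 589 (leaf 493 5)) (move 653 (leaf 525 5)))))))))))) (branch (move 559 (branch (move 591 (leaf 462 4)) (move 430 (branch (move 527 (leaf 430 4)) (move 493 (branch (move 398 (leaf 397 5)) (move 590 (branch (move 461 (leaf 461 7)) (move 622 (leaf 493 7)))))))))) (move 461 (branch (move 429 (leaf 429 7)) (move 590 (branch (move 493 (leaf 461 7)) (move 621 (branch (move 589 (leaf 493 5)) (move 622 (branch (move 653 (leaf 525 5)) (move 527 (branch (move 495 (leaf 494 6)) (move 559 (branch (move 430 (leaf 430 4)) (move 654 (leaf 526 6))))))))))))))))))) (branch (move 430 (branch (move 557 (leaf 429 5)) (move 429 (branch (move 397 (leaf 397 7)) (move 558 (branch (move 461 (leaf 429 7)) (move 559 (branch (move 527 (leaf 430 4)) (move 591 (leaf 462 4)))))))))) (branch (move 557 (branch (move 430 (leaf 429 5)) (move 589 (branch (move 493 (leaf 461 6)) (move 621 (leaf 493 6)))))) (ref 7))))) (branch (ref 8) (branch (ref 9) (ref 10))))))))))))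
theorem a1p122 : a1e122.Valid :=
  pos_of_chk [a1e72, a1e74, a1e77, a1e81, a1e82, a1e84, a1e115, a1e116, a1e119, a1e120, a1e121] (forall_cons a1p72 (forall_cons a1p74 (forall_cons a1p77 (forall_cons a1p81 (forall_cons a1p82 (forall_cons a1p84 (forall_cons a1p115 (forall_cons a1p116 (forall_cons a1p119 (forall_cons a1p120 (forall_cons a1p121 forall_nil))))))))))) a1c122 a1e122 (by decide +kernel)

def a1e123 : Pos := ⟨1886981212795199345190384891029875323644930808401171064502898316987747809581817699566336282645338803487877832979295020798773429244027479863302888446279412139043657351168, 321053217170496783623498957410481141351463435730845600226977498593119001215960899225501367817732113471638982011884191035705183635603946963668501170700560577720364002494484471266629857117353861849599281463296, 13⟩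
def a1c123 : Cert := (move 527 (branch (ref 0) (branch (ref 1) (branch (ref 2) (branch (move 591 (branch (move 622 (branch (move 590 (leaf 494 5)) (move 623 (branch (move 654 (leaf 526 5)) (move 624 (branch (move 592 (leaf 495 4)) (move 656 (leaf 527 4)))))))) (branch (move 494 (branch (move 462 (leaf 462 7)) (move 623 (leaf 494 7)))) (move 494 (branch (move 462 (leaf 462 7)) (move 492 (branch (move 491 (leaf 491 3)) (move 556 (branch (move 555 (leaf 523 1)) (move 590 (branch (move 622 (leaf 494 5)) (move 592 (branch (move 624 (leaf 495 4)) (move 557 (branch (move 558 (leaf 556 0)) (move 460 (branch (move 428 (leaf 428 4)) (move 459 (branch (move 493 (leaf 459 3)) (move 427 (leaf 427 7))))))))))))))))))))) (branch (move 463 (branch (move 556 (branch (move 555 (leaf 523 1)) (move 432 (branch (move 464 (leaf 431 6)) (move 431 (branch (move 400 (leaf 399 6)) (move 399 (branch (move 494 (leaf 398 5)) (move 398 (branch (move 366 (leaf 366 7)) (move 430 (leaf 398 7)))))))))))) (branch (move 558 (branch (move 431 (leaf 430 5)) (move 590 (leaf 462 5)))) (move 558 (branch (move 590 (leaf 462 5)) (move 556 (branch (move 555 (leaf 523 1)) (move 492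 (branch (move 491 (leaf 491 3)) (move 462 (branch (move 430 (leaf 430 7)) (move 464 (branch (move 432 (leaf 431 6)) (move 493 (branch (move 461 (leaf 460 1)) (move 494 (leaf 460 2))))))))))))))))) (branch (move 463 (branch (move 430 (branch (move 462 (leaf 430 7)) (move 431 (branch (move 398 (leaf 398 7)) (move 432 (branch (move 400 (leaf 399 6)) (move 464 (leaf 431 6)))))))) (branch (move 558 (branch (move 431 (leaf 430 5)) (move 590 (leaf 462 5)))) (move 590 (branch (move 558 (leaf 462 5)) (move 591 (branch (move 622 (leaf 494 5)) (move 556 (branch (move 555 (leaf 523 1)) (move 492 (branch (move 491 (leaf 491 3)) (move 624 (branch (move 592 (leaf 495 4)) (move 623 (branch (move 656 (leaf 527 4)) (move 464 (branch (move 432 (leaf 431 6)) (move 462 (branch (move 430 (leaf 430 7)) (move 461 (branch (move 493 (leaf 460 1)) (move 429 (branch (move 428 (leaf 428 3)) (move 460 (leaf 428 6))))))))))))))))))))))))) (move 463 (branch (move 556 (branch (move 555 (leaf 523 1)) (move 432 (branch (move 464 (leaf 431 6)) (move 431 (branch (move 400 (leaf 399 6)) (move 399 (branch (move 494 (leaf 398 5)) (move 398 (branch (move 366 (leaf 366 7)) (move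 430 (leaf 398 7)))))))))))) (branch (move 558 (branch (move 431 (leaf 430 5)) (move 590 (leaf 462 5)))) (move 590 (branch (move 558 (leaf 462 5)) (move 591 (branch (move 622 (leaf 494 5)) (move 492 (branch (move 491 (leaf 491 3)) (move 556 (branch (move 555 (leaf 523 1)) (move 623 (branch (move 494 (leaf 494 7)) (move 624 (branch (move 592 (leaf 495 4)) (move 656 (leaf 527 4))))))))))))))))))))))))
theorem a1p123 : a1e123.Valid :=
  pos_of_chk [a1e110, a1e111, a1e112] (forall_cons a1p110 (forall_cons a1p111 (forall_cons a1p112 forall_nil))) a1c123 a1e123 (by decide +kernel)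

def a1e124 : Pos := ⟨384428668967314144038986444748558020167088376808025102926089953714390418270268738918863339877041455078728593437922928050078831327984132053504145584302443200512, 481579825531492094145669307469028457864483794980355272699783811176795245268026782121482212638897681202813033898372037152701023237522340358331606016384679704646131756609666778926203230506708607537799539720192, 15⟩
def a1c124 : Cert := (move 495 (branch (move 496 (branch (move 527 (leaf 492 2)) (move 494 (branch (move 493 (leaf 492 1)) (move 497 (leaf 493 1)))))) (branch (move 527 (branch (move 496 (leaf 492 2)) (ref 0))) (branch (move 494 (branch (move 496 (branch (move 493 (leaf 492 1)) (move 497 (leaf 493 1)))) (move 558 (branch (move 559 (branch (move 560 (branch (move 557 (leaf 524 3)) (move 561 (leaf 525 3)))) (move 462 (branch (move 591 (leaf 462 4)) (move 429 (branch (move 461 (leaf 429 7)) (move 430 (branch (move 397 (leaf 397 7)) (move 431 (branch (move 399 (leaf 398 6)) (move 463 (leaf 430 6)))))))))))) (branch (move 559 (branch (move 560 (branch (move 557 (leaf 524 3)) (move 561 (leaf 525 3)))) (move 591 (branch (move 462 (leaf 462 4)) (move 623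 (branch (move 590 (leaf 494 4)) (move 655 (leaf 526 7)))))))) (branch (move 590 (branch (move 463 (leaf 462 6)) (move 623 (branch (move 591 (leaf 494 4)) (move 622 (branch (move 655 (leaf 526 4)) (move 653 (branch (move 621 (leaf 525 5)) (move 654 (branch (move 685 (leaf 557 5)) (move 557 (leaf 525 7)))))))))))) (move 463 (branch (move 590 (leaf 462 6)) (move 431 (branch (move 399 (leaf 398 5)) (move 462 (leaf 430 6)))))))))))) (branch (move 527 (branch (move 496 (leaf 492 2)) (move 463 (branch (move 431 (branch (move 558 (leaf 430 5)) (move 398 (branch (move 430 (leaf 398 7)) (move 399 (branch (move 366 (leaf 366 7)) (move 400 (branch (move 368 (leaf 367 6)) (move 432 (leaf 399 6)))))))))) (branch (move 559 (branch (move 560 (leaf 524 0)) (move 430 (branch (move 462 (leaf 430 7)) (move 431 (branch (move 398 (leaf 398 7)) (move 432 (branch (move 400 (leaf 399 6)) (move 464 (leaf 431 6)))))))))) (branch (move 559 (branch (move 560 (leaf 524 0)) (move 558 (branch (move 431 (leaf 430 5)) (move 590 (leaf 462 5)))))) (move 559 (branch (move 560 (leaf 524 0)) (move 590 (branch (move 558 (leaf 462 5)) (move 591 (branch (move 622 (leaf 494 5))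 (move 556 (branch (move 555 (leaf 523 1)) (move 492 (branch (move 491 (leaf 491 3)) (move 624 (branch (move 592 (leaf 495 4)) (move 623 (branch (move 656 (leaf 527 4)) (move 464 (branch (move 432 (leaf 431 6)) (move 462 (branch (move 430 (leaf 430 7)) (move 461 (branch (move 493 (leaf 460 1)) (move 429 (branch (move 428 (leaf 428 3)) (move 460 (leaf 428 6)))))))))))))))))))))))))))))) (move 559 (branch (ref 1) (branch (move 527 (branch (move 560 (leaf 524 0)) (ref 2))) (branch (move 560 (branch (move 527 (leaf 524 0)) (move 558 (branch (move 557 (leaf 524 3)) (move 561 (leaf 525 3)))))) (ref 3))))))))))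
theorem a1p124 : a1e124.Valid :=
  pos_of_chk [a1e46, a1e109, a1e110, a1e123] (forall_cons a1p46 (forall_cons a1p109 (forall_cons a1p110 (forall_cons a1p123 forall_nil)))) a1c124 a1e124 (by decide +kernel)

def a1e125 : Pos := ⟨235872651935775003482411305350753250430865596443115903581537996691441463863899721525651659242467012848383228518151333744158589589449130867519221694218689087030530408448, 37375513554789811764949819017630666845349385571539737946580022009253967313890926355515977312214324701677180717218931145184331651027553034048932064994314466614409530504648938816243971779666875777024, 9⟩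
def a1c125 : Cert := (move 493 (branch (move 461 (branch (move 429 (leaf 428 5)) (move 588 (branch (move 557 (leaf 460 5)) (move 620 (leaf 492 6)))))) (branch (move 588 (branch (move 620 (leaf 492 6)) (move 492 (branch (move 461 (leaf 460 6)) (move 491 (branch (move 490 (leaf 490 0)) (move 459 (leaf 459 7)))))))) (branch (move 492 (branch (move 588 (branch (move 620 (leaf 492 6)) (move 491 (branch (move 490 (leaf 490 0)) (move 459 (leaf 459 7)))))) (branch (move 460 (branch (move 428 (branch (move 396 (leaf 396 4)) (move 427 (branch (move 395 (leaf 395 7)) (move 459 (leaf 427 7)))))) (move 557 (branch (move 589 (leaf 460 4)) (move 555 (branch (move 554 (leaf 522 2)) (move 587 (leaf 459 5)))))))) (move 588 (branch (move 620 (leaf 492 6)) (move 589 (branch (move 621 (leaf 492 4)) (move 557 (branch (move 460 (leaf 460 4)) (move 587 (branch (move 619 (leaf 491 5)) (move 558 (branch (move 559 (leaf 555 1)) (move 586 (leaf 554 2))))))))))))))) (move 461 (branch (move 429 (leaf 428 5)) (move 557 (branch (move 460 (branch (move 428 (leaf 428 7)) (move 492 (branch (move 589 (leaf 460 4)) (move 555 (branch (move 554 (leaf 522 2)) (move 587 (leaf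 459 5)))))))) (branch (move 462 (branch (move 430 (leaf 429 6)) (move 589 (branch (move 494 (leaf 461 6)) (move 621 (branch (move 492 (leaf 492 7)) (move 653 (leaf 524 7)))))))) (branch (move 460 (branch (move 428 (leaf 428 7)) (move 462 (branch (move 430 (leaf 429 6)) (move 555 (branch (move 554 (leaf 522 2)) (move 492 (branch (move 587 (leaf 459 5)) (move 491 (branch (move 490 (leaf 490 0)) (move 463 (leaf 459 1)))))))))))) (move 462 (branch (move 430 (leaf 429 6)) (move 494 (branch (move 589 (leaf 461 6)) (move 495 (branch (move 496 (leaf 492 1)) (move 460 (branch (move 459 (leaf 459 0)) (move 428 (leaf 428 7))))))))))))))))))))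
theorem a1p125 : a1e125.Valid :=
  pos_of_chk [] forall_nil a1c125 a1e125 (by decide +kernel)

def a1e126 : Pos := ⟨329510287737415994579416980733722186736624252428700757911207193430083519529241516494081496768250825407278789577167987883422514687502483595796043537515003510784, 74751027131335035722259343006524738072212103027458271586214935190907834854183575810484892279959838265265724279624982828707828072286482953472160154877975957510707618779854273572423434443765730770944, 7⟩
def a1c126 : Cert := (move 558 (branch (move 557 (branch (move 589 (leaf 461 5)) (move 591 (branch (move 559 (leaf 462 4)) (move 590 (branch (move 623 (leaf 494 4)) (move 622 (branch (move 654 (leaf 525 7)) (move 495 (branch (move 463 (leaf 462 6)) (move 527 (leaf 494 6)))))))))))) (branch (move 559 (branch (move 591 (leaf 462 4)) (move 557 (branch (move 589 (leaf 461 5)) (move 524 (branch (move 523 (leaf 523 0)) (move 560 (leaf 524 3)))))))) (move 463 (branch (move 431 (leaf 430 6)) (move 495 (branch (move 590 (leaf 462 6)) (move 496 (branch (move 497 (leaf 493 1)) (move 524 (branch (move 523 (leaf 491 2)) (move 527 (leaf 492 2)))))))))))))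
theorem a1p126 : a1e126.Valid :=
  pos_of_chk [] forall_nil a1c126 a1e126 (by decide +kernel)

def a1e127 : Pos := ⟨329510287737415994579416980733722186736624252428700757911207193430083519529241516494081496768250825407278789577167987883422514687502483595796043537515003510784, 8104522598301161191150049673329190901198124671308388490244741245994283396576074638487551666526696252586667934484702269759809832053104942563181755430147908863841443525603931193344, 6⟩
def a1c127 : Cert := (move 430 (branch (move 398 (branch (move 493 (leaf 397 5)) (move 527 (branch (move 495 (leaf 398 4)) (move 559 (leaf 430 4)))))) (branch (move 429 (branch (move 397 (leaf 397 7)) (move 558 (branch (move 461 (leaf 429 7)) (move 559 (branch (move 527 (leaf 430 4)) (move 591 (leaf 462 4)))))))) (move 398 (branch (move 493 (leaf 397 5)) (move 367 (branch (move 399 (leaf 366 6)) (move 366 (branch (move 335 (leaf 334 6)) (move 365 (branch (move 333 (leaf 333 7)) (move 397 (leaf 365 7)))))))))))))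
theorem a1p127 : a1e127.Valid :=
  pos_of_chk [] forall_nil a1c127 a1e127 (by decide +kernel)

def a1e128 : Pos := ⟨329510287686269266319131238355906874428932894406878659650934246040906072803087490501882862751749818638910222946791081185781855423986398903003553357973522743296, 224253081289579128662902299380837060451710666604940245966632666587057537046994715963789284661709428086325106878093906050221287810988679863203871711683667861441782765356294732910258167596522219241472, 15⟩
def a1c128 : Cert := (move 494 (branch (ref 0) (branch (move 495 (branch (ref 1) (branch (move 496 (branch (move 497 (leaf 493 1)) (move 524 (branch (move 523 (leaf 491 2)) (move 527 (leaf 492 2)))))) (branch (move 496 (branch (move 497 (leaf 493 1)) (move 524 (branch (move 493 (leaf 492 1)) (move 523 (leaf 491 2)))))) (move 492 (branch (move 524 (branch (move 523 (leaf 491 2)) (move 527 (branch (move 491 (leaf 491 3)) (move 559 (branch (move 560 (leaf 524 0)) (move 462 (branch (move 430 (leaf 430 4)) (move 591 (leaf 462 7)))))))))) (branch (move 493 (branch (move 491 (branch (move 490 (leaf 490 0)) (move 527 (leaf 491 0)))) (move 460 (branch (move 459 (leaf 459 3))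 (move 557 (branch (move 589 (leaf 460 7)) (move 428 (branch (move 396 (leaf 396 4)) (move 461 (leaf 428 7)))))))))) (branch (move 493 (branch (move 460 (branch (move 459 (leaf 459 3)) (move 557 (branch (move 589 (leaf 460 7)) (move 428 (branch (move 396 (leaf 396 4)) (move 461 (leaf 428 7)))))))) (move 491 (branch (move 490 (leaf 490 0)) (move 463 (branch (move 462 (leaf 459 2)) (move 464 (leaf 460 2)))))))) (move 462 (branch (move 430 (branch (move 557 (leaf 429 5)) (move 527 (branch (move 398 (leaf 398 4)) (move 559 (leaf 430 4)))))) (branch (ref 2) (move 460 (branch (move 524 (branch (move 523 (leaf 491 2)) (move 428 (branch (move 557 (leaf 428 4)) (move 461 (branch (move 459 (leaf 459 0)) (move 429 (branch (move 397 (leaf 396 6)) (move 556 (leaf 428 6)))))))))) (branch (move 524 (branch (move 523 (leaf 491 2)) (move 557 (branch (move 428 (leaf 428 4)) (move 589 (branch (move 556 (leaf 460 4)) (move 493 (leaf 461 6)))))))) (move 459 (branch (move 461 (leaf 459 0)) (move 493 (leaf 459 3)))))))))))))))))) (branch (ref 3) (branch (ref 4) (branch (move 462 (branch (ref 5) (branch (move 430 (branch (move 557 (leaf 429 5)) (move 431 (branch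 (move 399 (leaf 398 6)) (move 397 (branch (move 429 (leaf 397 7)) (move 398 (branch (move 365 (leaf 365 7)) (move 527 (branch (move 495 (leaf 398 4)) (move 559 (leaf 430 4)))))))))))) (branch (move 430 (branch (move 557 (leaf 429 5)) (move 431 (branch (move 399 (leaf 398 6)) (move 429 (branch (move 397 (leaf 397 7)) (move 558 (branch (move 463 (leaf 430 6)) (move 461 (leaf 429 7)))))))))) (branch (move 430 (branch (move 557 (leaf 429 5)) (move 429 (branch (move 397 (leaf 397 7)) (move 558 (branch (move 461 (leaf 429 7)) (move 559 (branch (move 527 (leaf 430 4)) (move 591 (leaf 462 4)))))))))) (ref 6)))))) (branch (move 462 (branch (move 430 (branch (move 431 (branch (move 399 (leaf 398 6)) (move 558 (branch (move 463 (leaf 430 6)) (move 559 (branch (move 527 (leaf 430 4)) (move 591 (leaf 462 4)))))))) (branch (move 398 (branch (move 493 (leaf 397 5)) (move 527 (branch (move 495 (leaf 398 4)) (move 559 (leaf 430 4)))))) (move 398 (branch (move 493 (leaf 397 5)) (move 399 (branch (move 367 (leaf 366 6)) (move 431 (leaf 398 6))))))))) (branch (move 430 (branch (move 557 (leaf 429 5)) (move 398 (branch (move 493 (leaf 397 5)) (move 399 (branch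 (move 367 (leaf 366 6)) (move 431 (leaf 398 6)))))))) (branch (ref 6) (move 430 (branch (move 557 (leaf 429 5)) (move 398 (branch (move 493 (leaf 397 5)) (move 527 (branch (move 495 (leaf 398 4)) (move 559 (leaf 430 4)))))))))))) (branch (move 462 (branch (move 430 (branch (move 557 (leaf 429 5)) (move 431 (branch (move 399 (leaf 398 6)) (move 429 (branch (move 397 (leaf 397 7)) (move 558 (branch (move 463 (leaf 430 6)) (move 461 (leaf 429 7)))))))))) (branch (move 430 (branch (move 557 (leaf 429 5)) (move 398 (branch (move 493 (leaf 397 5)) (move 399 (branch (move 367 (leaf 366 6)) (move 431 (leaf 398 6)))))))) (branch (move 430 (branch (move 398 (branch (move 493 (leaf 397 5)) (move 399 (branch (move 367 (leaf 366 6)) (move 431 (leaf 398 6)))))) (branch (ref 7) (branch (move 399 (branch (move 431 (leaf 398 6)) (move 398 (branch (move 367 (leaf 366 6)) (move 397 (branch (move 365 (leaf 365 7)) (move 429 (leaf 397 7)))))))) (move 398 (branch (move 493 (leaf 397 5)) (move 397 (branch (move 365 (leaf 365 7)) (move 429 (leaf 397 7)))))))))) (branch (ref 8) (move 430 (branch (move 557 (leaf 429 5)) (move 398 (branch (move 493 (leaf 397 5))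 (move 397 (branch (move 365 (leaf 365 7)) (move 429 (leaf 397 7))))))))))))) (branch (move 462 (branch (move 430 (branch (move 557 (leaf 429 5)) (move 429 (branch (move 397 (leaf 397 7)) (move 558 (branch (move 461 (leaf 429 7)) (move 559 (branch (move 527 (leaf 430 4)) (move 591 (leaf 462 4)))))))))) (branch (ref 9) (branch (move 430 (branch (move 557 (leaf 429 5)) (move 398 (branch (move 493 (leaf 397 5)) (move 527 (branch (move 495 (leaf 398 4)) (move 559 (leaf 430 4)))))))) (branch (move 430 (branch (move 557 (leaf 429 5)) (move 398 (branch (move 493 (leaf 397 5)) (move 397 (branch (move 365 (leaf 365 7)) (move 429 (leaf 397 7)))))))) (ref 10)))))) (branch (move 462 (branch (move 430 (branch (move 398 (branch (move 493 (leaf 397 5)) (move 527 (branch (move 495 (leaf 398 4)) (move 559 (leaf 430 4)))))) (branch (move 431 (branch (move 399 (leaf 398 6)) (move 397 (branch (move 429 (leaf 397 7)) (move 398 (branch (move 365 (leaf 365 7)) (move 527 (branch (move 495 (leaf 398 4)) (move 559 (leaf 430 4)))))))))) (ref 7)))) (branch (move 430 (branch (move 557 (leaf 429 5)) (move 431 (branch (move 399 (leaf 398 6)) (move 429 (branch (move 397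 (leaf 397 7)) (move 558 (branch (move 463 (leaf 430 6)) (move 461 (leaf 429 7)))))))))) (branch (move 430 (branch (move 557 (leaf 429 5)) (move 398 (branch (move 493 (leaf 397 5)) (move 527 (branch (move 495 (leaf 398 4)) (move 559 (leaf 430 4)))))))) (move 558 (branch (ref 11) (branch (move 557 (branch (move 589 (leaf 461 5)) (move 461 (branch (move 429 (leaf 429 7)) (move 493 (branch (move 590 (leaf 461 4)) (move 460 (branch (move 428 (leaf 428 7)) (move 459 (branch (move 458 (leaf 458 0)) (move 495 (leaf 459 0)))))))))))) (branch (move 557 (branch (move 589 (leaf 461 5)) (move 461 (branch (move 429 (leaf 429 7)) (move 493 (branch (move 590 (leaf 461 4)) (move 463 (branch (move 431 (leaf 430 6)) (move 492 (branch (move 464 (leaf 460 1)) (move 491 (leaf 459 2)))))))))))) (move 463 (branch (move 431 (leaf 430 6)) (move 495 (branch (move 590 (leaf 462 6)) (move 496 (branch (move 497 (leaf 493 1)) (move 524 (branch (move 523 (leaf 491 2)) (move 527 (leaf 492 2)))))))))))))))))) (branch (move 462 (branch (move 430 (branch (move 557 (leaf 429 5)) (move 429 (branch (move 397 (leaf 397 7)) (move 558 (branch (move 461 (leaf 429 7)) (move 559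 (branch (move 527 (leaf 430 4)) (move 591 (leaf 462 4)))))))))) (branch (move 558 (branch (move 463 (branch (move 431 (leaf 430 6)) (move 590 (branch (move 495 (leaf 462 6)) (move 591 (branch (move 559 (leaf 462 4)) (move 623 (leaf 494 4)))))))) (branch (move 461 (branch (move 429 (leaf 429 7)) (move 590 (branch (move 493 (leaf 461 7)) (move 591 (branch (move 559 (leaf 462 4)) (move 623 (leaf 494 4)))))))) (move 495 (branch (move 463 (branch (move 431 (leaf 430 6)) (move 461 (branch (move 429 (leaf 429 7)) (move 496 (branch (move 460 (leaf 460 0)) (move 497 (leaf 493 1)))))))) (branch (move 524 (branch (move 523 (leaf 491 2)) (move 496 (branch (move 493 (leaf 492 1)) (move 497 (leaf 493 1)))))) (move 461 (branch (move 429 (leaf 429 7)) (move 463 (branch (move 431 (leaf 430 6)) (move 460 (branch (move 459 (leaf 459 0)) (move 492 (branch (move 491 (leaf 459 1)) (move 464 (branch (move 493 (leaf 460 1)) (move 465 (branch (move 466 (leaf 462 1)) (move 433 (branch (move 432 (leaf 429 2)) (move 434 (leaf 430 2)))))))))))))))))))))) (branch (ref 8) (move 430 (branch (move 557 (leaf 429 5)) (move 398 (branch (move 493 (leaf 397 5)) (move 527 (branch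 (move 495 (leaf 398 4)) (move 559 (leaf 430 4)))))))))))) (move 462 (branch (ref 12) (branch (ref 5) (branch (move 430 (branch (move 431 (branch (move 399 (leaf 398 6)) (move 558 (branch (move 463 (leaf 430 6)) (move 559 (branch (move 527 (leaf 430 4)) (move 591 (leaf 462 4)))))))) (branch (move 398 (branch (move 493 (leaf 397 5)) (move 527 (branch (move 495 (leaf 398 4)) (move 559 (leaf 430 4)))))) (move 398 (branch (move 493 (leaf 397 5)) (move 399 (branch (move 367 (leaf 366 6)) (move 431 (leaf 398 6))))))))) (branch (move 430 (branch (move 398 (branch (move 493 (leaf 397 5)) (move 399 (branch (move 367 (leaf 366 6)) (move 431 (leaf 398 6)))))) (branch (ref 7) (branch (move 399 (branch (move 431 (leaf 398 6)) (move 398 (branch (move 367 (leaf 366 6)) (move 397 (branch (move 365 (leaf 365 7)) (move 429 (leaf 397 7)))))))) (move 398 (branch (move 493 (leaf 397 5)) (move 397 (branch (move 365 (leaf 365 7)) (move 429 (leaf 397 7)))))))))) (ref 10)))))))))))))))))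
theorem a1p128 : a1e128.Valid :=
  pos_of_chk [a1e115, a1e117, a1e118, a1e120, a1e121, a1e73, a1e126, a1e83, a1e80, a1e116, a1e127, a1e79, a1e76] (forall_cons a1p115 (forall_cons a1p117 (forall_cons a1p118 (forall_cons a1p120 (forall_cons a1p121 (forall_cons a1p73 (forall_cons a1p126 (forall_cons a1p83 (forall_cons a1p80 (forall_cons a1p116 (forall_cons a1p127 (forall_cons a1p79 (forall_cons a1p76 forall_nil))))))))))))) a1c128 a1e128 (by decide +kernel)

def a1e129 : Pos := ⟨235872651935775003482411305350753250430865596443115903581537996691441463863899721525651659242467012848383228518151333744158589589449130867519221694218689087030530408448, 13053247318556325495508352511795934353983508982376681412443548545613977168130129505647420040580269324166534923613471821525586298522985686982599571514505273173576912254627686314656944619520, 14⟩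
def a1c129 : Cert := (move 493 (branch (move 461 (branch (move 429 (leaf 428 5)) (move 588 (branch (move 557 (leaf 460 5)) (move 620 (leaf 492 6)))))) (branch (move 492 (branch (move 588 (branch (move 620 (leaf 492 6)) (move 589 (branch (move 621 (leaf 492 4)) (move 460 (branch (move 557 (leaf 460 4)) (move 428 (branch (move 396 (leaf 396 4)) (move 427 (branch (move 395 (leaf 395 7)) (move 459 (leaf 427 7)))))))))))) (move 491 (branch (move 490 (leaf 490 0)) (move 527 (leaf 491 3)))))) (branch (move 461 (branch (move 429 (leaf 428 5)) (move 492 (branch (move 588 (leaf 460 6)) (move 491 (branch (move 490 (leaf 490 0)) (move 527 (leaf 491 3)))))))) (move 492 (branch (move 491 (branch (move 490 (leaf 490 0)) (move 527 (leaf 491 3)))) (branch (move 460 (branch (move 428 (branch (move 396 (leaf 396 4)) (move 427 (branch (move 395 (leaf 395 7)) (move 459 (leaf 427 7)))))) (branch (move 461 (branch (move 429 (leaf 428 5)) (move 557 (branch (move 589 (leaf 460 4)) (move 558 (branch (move 590 (leaf 461 4)) (move 559 (branch (move 560 (leaf 524 3)) (move 462 (branch (move 430 (leaf 429 6)) (move 463 (branch (move 464 (leaf 460 1)) (move 459 (branch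 (move 427 (leaf 427 7)) (move 458 (branch (move 457 (leaf 457 0)) (move 495 (branch (move 496 (leaf 460 0)) (move 431 (branch (move 432 (leaf 428 2)) (move 527 (leaf 430 5)))))))))))))))))))))) (move 557 (branch (move 428 (leaf 428 4)) (move 589 (leaf 460 4))))))) (move 460 (branch (move 428 (branch (move 396 (leaf 396 4)) (move 427 (branch (move 395 (leaf 395 7)) (move 459 (leaf 427 7)))))) (move 461 (branch (move 429 (leaf 428 5)) (move 557 (branch (move 589 (leaf 460 4)) (move 491 (branch (move 490 (leaf 490 0)) (move 462 (branch (move 463 (leaf 459 1)) (move 430 (leaf 429 6)))))))))))))))))))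
theorem a1p129 : a1e129.Valid :=
  pos_of_chk [] forall_nil a1c129 a1e129 (by decide +kernel)

def a1e130 : Pos := ⟨235872651935775003482411305350753250430865596443115903581537996691441463863899721525651659242467012848383228518151333744158589589449130867519221694218689087030530408448, 200658260469931894926844531633491330534154005164124689164833973543274415002259446027485698786143722532635696833698952525494236926933222754496932385784007756893023151286716579547836673297160930009444092215296, 12⟩
def a1c130 : Cert := (move 588 (branch (move 620 (branch (move 493 (leaf 492 6)) (move 619 (branch (move 651 (leaf 523 5)) (move 621 (branch (move 653 (leaf 524 4)) (move 492 (branch (move 589 (leaf 492 4)) (move 587 (leaf 491 5)))))))))) (branch (move 527 (branch (move 555 (leaf 523 1)) (move 492 (branch (move 491 (leaf 491 3)) (move 461 (branch (move 493 (leaf 460 6)) (move 460 (branch (move 429 (leaf 428 6)) (move 427 (branch (move 459 (leaf 427 7)) (move 428 (branch (move 395 (leaf 395 7)) (move 495 (branch (move 496 (leaf 492 2)) (move 463 (branch (move 462 (leaf 427 3)) (move 559 (branch (move 560 (leaf 524 0)) (move 558 (branch (move 431 (leaf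 430 5)) (move 590 (leaf 462 5)))))))))))))))))))))) (branch (move 527 (branch (move 555 (leaf 523 1)) (move 492 (branch (move 491 (leaf 491 3)) (move 621 (branch (move 589 (leaf 492 4)) (move 620 (branch (move 653 (leaf 524 4)) (move 619 (branch (move 587 (leaf 491 5)) (move 651 (leaf 523 5)))))))))))) (move 620 (branch (move 493 (leaf 492 6)) (move 555 (branch (move 527 (leaf 523 1)) (move 651 (branch (move 619 (leaf 523 5)) (move 652 (branch (move 683 (leaf 555 5)) (move 653 (branch (move 621 (leaf 524 4)) (move 685 (leaf 556 4))))))))))))))))
theorem a1p130 : a1e130.Valid :=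
  pos_of_chk [] forall_nil a1c130 a1e130 (by decide +kernel)

def a1e131 : Pos := ⟨329510287686269266319131238355906874428932894406878659650934246040906072803087490501882862751749818638910222946791081185781855423986398903003553357973522743296, 481579825550179850923064213353402864854983575724944543590228554634048782963910882785224073433276274841824544941582737361360879568796636192440086237828458759811782986187815159862919413850753896364933302452224, 15⟩
def a1c131 : Cert := (move 524 (branch (ref 0) (branch (ref 1) (branch (ref 2) (branch (ref 3) (move 523 (branch (move 554 (branch (move 555 (leaf 522 1)) (move 522 (branch (move 553 (leaf 521 1)) (move 490 (branch (move 489 (leaf 489 3)) (move 491 (leaf 490 3)))))))) (branch (move 558 (branch (move 559 (leaf 523 0)) (move 522 (branch (move 557 (leaf 522 0)) (move 490 (branch (move 489 (leaf 489 3)) (move 491 (leaf 490 3)))))))) (branch (move 558 (branch (move 559 (leaf 523 0)) (move 522 (branch (move 557 (leaf 522 0)) (move 554 (branch (move 553 (leaf 521 1)) (move 555 (leaf 522 1)))))))) (move 494 (branch (move 495 (leaf 491 2)) (move 557 (branch (move 589 (branch (move 621 (leaf 493 6))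 (move 462 (branch (move 430 (leaf 429 5)) (move 493 (leaf 461 6)))))) (branch (move 558 (branch (move 559 (leaf 523 0)) (move 462 (branch (move 430 (leaf 429 5)) (move 461 (branch (move 429 (leaf 429 7)) (move 590 (branch (move 493 (leaf 461 4)) (move 622 (branch (move 654 (leaf 525 7)) (move 623 (branch (move 591 (leaf 494 4)) (move 655 (leaf 526 4)))))))))))))) (branch (move 558 (branch (move 559 (leaf 523 0)) (move 589 (branch (move 462 (leaf 461 5)) (move 621 (leaf 493 6)))))) (move 492 (branch (move 555 (branch (move 554 (leaf 522 1)) (move 460 (branch (move 428 (leaf 428 4)) (move 587 (branch (move 556 (leaf 459 5)) (move 491 (leaf 459 6)))))))) (branch (move 589 (branch (move 621 (leaf 493 6)) (move 558 (branch (move 559 (leaf 523 0)) (move 555 (branch (move 554 (leaf 522 1)) (move 587 (branch (move 619 (leaf 491 6)) (move 586 (branch (move 556 (leaf 554 1)) (move 588 (leaf 554 2)))))))))))) (move 589 (branch (move 621 (leaf 493 6)) (move 460 (branch (move 428 (leaf 428 4)) (move 493 (leaf 460 7))))))))))))))))))))))))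
theorem a1p131 : a1e131.Valid :=
  pos_of_chk [a1e94, a1e32, a1e45, a1e114] (forall_cons a1p94 (forall_cons a1p32 (forall_cons a1p45 (forall_cons a1p114 forall_nil)))) a1c131 a1e131 (by decide +kernel)

def a1e132 : Pos := ⟨13053247313490998866970610062295573309983209234125808026541625326490759018158575085837222639360263423941995731182864012026174070263412256061140483798158081865315216936035972154081727741952, 40131652173175748315479593472161445789973325640440185548707383878155844118081004764703013847338118322443361207733570887340850056714987704147738753831225294313793053469038973843337834413777868440369142693888, 12⟩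
def a1c132 : Cert := (move 619 (branch (move 461 (branch (move 429 (leaf 428 5)) (move 555 (branch (move 554 (leaf 522 2)) (move 587 (branch (move 651 (leaf 523 6)) (move 586 (branch (move 558 (leaf 554 1)) (move 585 (branch (move 584 (leaf 584 0)) (move 618 (leaf 585 3)))))))))))) (branch (move 622 (branch (move 654 (leaf 525 4)) (move 555 (branch (move 554 (leaf 522 2)) (move 587 (branch (move 586 (leaf 586 3)) (move 651 (leaf 523 6)))))))) (branch (move 622 (branch (move 654 (leaf 525 4)) (move 461 (branch (move 429 (leaf 428 5)) (move 586 (branch (move 587 (leaf 586 3)) (move 618 (branch (move 585 (leaf 585 3)) (move 650 (branch (move 649 (leaf 617 1)) (move 651 (leaf 618 1)))))))))))) (branch (move 461 (branch (move 429 (leaf 428 5)) (move 622 (branch (move 654 (leaf 525 4)) (move 555 (branch (move 554 (leaf 522 2)) (move 651 (branch (move 650 (leaf 618 1)) (move 587 (leaf 523 6)))))))))) (branch (move 461 (branch (move 429 (leaf 428 5)) (move 622 (branch (move 654 (leaf 525 4)) (move 586 (branch (move 587 (leaf 586 3)) (move 554 (branch (move 555 (leaf 522 2)) (move 618 (branch (move 585 (leaf 585 3)) (move 649 (branch (move 650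 (leaf 617 1)) (move 617 (branch (move 648 (leaf 616 1)) (move 522 (leaf 521 5)))))))))))))))) (move 618 (branch (move 622 (branch (move 654 (leaf 525 4)) (move 650 (branch (move 649 (leaf 617 1)) (move 651 (leaf 618 1)))))) (branch (move 461 (branch (move 429 (leaf 428 5)) (move 554 (branch (move 555 (leaf 522 2)) (move 586 (branch (move 585 (leaf 585 3)) (move 650 (branch (move 649 (leaf 617 1)) (move 651 (branch (move 522 (leaf 522 4)) (move 683 (leaf 554 4)))))))))))) (branch (move 461 (branch (move 429 (leaf 428 5)) (move 554 (branch (move 555 (leaf 522 2)) (move 586 (branch (move 585 (leaf 585 3)) (move 522 (branch (move 651 (leaf 522 4)) (move 622 (branch (move 654 (leaf 525 4)) (move 489 (branch (move 521 (leaf 489 7)) (move 490 (branch (move 457 (leaf 457 7)) (move 459 (branch (move 491 (leaf 458 6)) (move 458 (branch (move 460 (leaf 457 1)) (move 427 (leaf 426 6)))))))))))))))))))) (move 461 (branch (move 429 (leaf 428 5)) (move 622 (branch (move 654 (leaf 525 4)) (move 554 (branch (move 555 (leaf 522 2)) (move 649 (branch (move 650 (leaf 617 1)) (move 617 (branch (move 648 (leaf 616 1)) (move 585 (branch (move 584 (leaf 584 3))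 (move 586 (leaf 585 3))))))))))))))))))))))))
theorem a1p132 : a1e132.Valid :=
  pos_of_chk [] forall_nil a1c132 a1e132 (by decide +kernel)

def a1e133 : Pos := ⟨235872651935775003507984669474941858790343640949581521958230512676152907531737935338902704526878532808408776114447459971899891809195693922278731510983418720259659530240, 40131652229239018637874375660680990431700655653418888882966996482610791992658145730223647037673446948685302238695018191445914603802989369233835203814482183421706422063945861243231868287341789453357934444544, 16⟩
def a1c133 : Cert := (move 557 (branch (move 461 (branch (move 429 (leaf 428 5)) (move 460 (branch (move 428 (leaf 428 7)) (move 492 (branch (move 589 (leaf 460 4)) (move 491 (branch (move 490 (leaf 490 0)) (move 462 (branch (move 463 (leaf 459 1)) (move 430 (leaf 429 6)))))))))))) (branch (move 589 (branch (move 492 (branch (move 460 (leaf 460 4)) (move 621 (leaf 492 7)))) (move 590 (branch (move 622 (leaf 493 4)) (move 555 (branch (move 554 (leaf 554 0)) (move 591 (branch (move 558 (leaf 555 0)) (move 592 (leaf 556 3)))))))))) (branch (move 461 (branch (move 429 (leaf 428 5)) (move 558 (branch (move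 590 (leaf 461 4)) (move 555 (branch (move 554 (leaf 522 2)) (move 460 (branch (move 428 (leaf 428 7)) (move 587 (branch (move 586 (leaf 554 1)) (move 492 (leaf 459 5)))))))))))) (branch (move 461 (branch (move 429 (leaf 428 5)) (move 590 (branch (move 558 (leaf 461 4)) (move 589 (branch (move 622 (leaf 493 4)) (move 621 (branch (move 492 (leaf 492 7)) (move 653 (leaf 524 7)))))))))) (move 589 (branch (move 461 (branch (move 429 (leaf 428 5)) (move 590 (branch (move 558 (leaf 461 4)) (move 622 (leaf 493 4)))))) (branch (move 555 (branch (move 554 (leaf 522 2)) (move 619 (branch (move 621 (branch (move 653 (leaf 524 7)) (move 620 (branch (move 652 (leaf 524 5)) (move 590 (branch (move 618 (leaf 586 2)) (move 591 (branch (move 558 (leaf 555 0)) (move 592 (leaf 588 1)))))))))) (branch (move 461 (branch (move 429 (leaf 428 5)) (move 558 (branch (move 590 (leaf 461 4)) (move 587 (branch (move 586 (leaf 554 1)) (move 651 (leaf 523 6)))))))) (branch (move 461 (branch (move 429 (leaf 428 5)) (move 621 (branch (move 653 (leaf 524 7)) (move 620 (branch (move 652 (leaf 524 5)) (move 618 (branch (move 590 (leaf 586 2)) (move 585 (branch (move 586 (leaf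 585 3)) (move 617 (branch (move 584 (leaf 584 3)) (move 649 (branch (move 648 (leaf 616 1)) (move 650 (leaf 617 1)))))))))))))))) (move 461 (branch (move 429 (leaf 428 5)) (move 621 (branch (move 653 (leaf 524 7)) (move 587 (branch (move 651 (leaf 523 6)) (move 586 (branch (move 558 (leaf 554 1)) (move 585 (branch (move 584 (leaf 552 2)) (move 620 (branch (move 618 (leaf 585 3)) (move 652 (leaf 524 5)))))))))))))))))))) (branch (move 555 (branch (move 554 (leaf 522 2)) (move 621 (branch (move 653 (leaf 524 7)) (move 622 (branch (move 590 (leaf 493 4)) (move 654 (leaf 525 4)))))))) (move 621 (branch (move 653 (leaf 524 7)) (move 620 (branch (move 652 (leaf 524 5)) (ref 0))))))))))))))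
theorem a1p133 : a1e133.Valid :=
  pos_of_chk [a1e132] (forall_cons a1p132 forall_nil) a1c133 a1e133 (by decide +kernel)

def a1e134 : Pos := ⟨219673525124179510879420825570604582952621929604585773100622830693937381868724993667921908501166545759273481964527387457187903615990932602002368905315681828864, 1723641334105558681046125061555758585672569725300414192241158139302106088885377204508818088792346269572716387162779122996372555442686457427887638258266188123962721677525877920464420508928785844272414513328755528695808, 20⟩
def a1c134 : Cert := (move 525 (branch (ref 0) (branch (move 524 (branch (ref 1) (branch (ref 2) (branch (ref 3) (branch (ref 4) (branch (move 556 (branch (move 555 (branch (move 527 (leaf 523 1)) (move 554 (branch (move 553 (leaf 521 2)) (move 557 (leaf 522 2)))))) (branch (ref 5) (branch (ref 6) (ref 7))))) (branch (ref 8) (branch (ref 9) (move 523 (branch (ref 10) (branch (move 494 (branch (move 495 (leaf 491 2)) (move 522 (branch (move 493 (leaf 490 2)) (move 553 (branch (move 554 (leaf 521 1)) (move 521 (branch (move 552 (leaf 520 1)) (move 489 (branch (move 488 (leaf 488 3)) (move 490 (leaf 489 3)))))))))))) (branch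 (move 491 (branch (move 490 (leaf 490 3)) (move 527 (branch (move 492 (leaf 491 3)) (move 495 (branch (move 494 (leaf 491 2)) (move 496 (leaf 492 2)))))))) (ref 11))))))))))))) (branch (move 524 (branch (ref 8) (branch (ref 12) (branch (ref 13) (branch (move 523 (branch (move 555 (branch (move 554 (leaf 522 1)) (move 527 (branch (move 556 (leaf 523 1)) (move 559 (branch (move 558 (leaf 523 0)) (move 560 (leaf 524 0)))))))) (branch (move 555 (branch (move 554 (leaf 522 1)) (move 527 (branch (move 556 (leaf 523 1)) (move 495 (branch (move 494 (leaf 491 2)) (move 496 (leaf 492 2)))))))) (move 558 (branch (move 559 (leaf 523 0)) (move 494 (branch (move 495 (leaf 491 2)) (move 557 (branch (move 522 (leaf 522 0)) (move 589 (branch (move 462 (leaf 461 5)) (move 621 (leaf 493 6))))))))))))) (ref 14)))))) (branch (move 524 (branch (ref 15) (branch (ref 2) (branch (move 523 (branch (move 491 (branch (move 490 (leaf 490 3)) (move 527 (branch (move 492 (leaf 491 3)) (move 559 (branch (move 558 (leaf 523 0)) (move 560 (leaf 524 0)))))))) (branch (move 494 (branch (move 495 (leaf 491 2)) (move 522 (branch (move 493 (leaf 490 2)) (move 553 (branch (move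 554 (leaf 521 1)) (move 521 (branch (move 552 (leaf 520 1)) (move 489 (branch (move 488 (leaf 488 3)) (move 490 (leaf 489 3)))))))))))) (move 494 (branch (move 495 (leaf 491 2)) (move 558 (branch (move 559 (leaf 523 0)) (move 493 (branch (move 522 (leaf 490 2)) (move 461 (branch (move 429 (leaf 429 4)) (move 590 (leaf 461 7))))))))))))) (branch (ref 16) (ref 17)))))) (branch (ref 18) (branch (ref 19) (branch (move 524 (branch (ref 20) (branch (ref 21) (branch (ref 22) (branch (ref 1) (branch (ref 23) (branch (ref 15) (branch (ref 24) (branch (ref 25) (move 556 (branch (move 555 (branch (move 527 (leaf 523 1)) (move 554 (branch (move 553 (leaf 521 2)) (move 557 (leaf 522 2)))))) (branch (ref 5) (branch (move 527 (branch (move 555 (leaf 523 1)) (ref 26))) (move 493 (branch (move 461 (branch (move 429 (leaf 428 5)) (move 588 (branch (move 557 (leaf 460 5)) (move 620 (leaf 492 6)))))) (branch (move 492 (branch (move 588 (branch (move 620 (leaf 492 6)) (move 589 (branch (move 621 (leaf 492 4)) (move 460 (branch (move 557 (leaf 460 4)) (move 428 (branch (move 396 (leaf 396 4)) (move 427 (branch (move 395 (leaf 395 7)) (move 459 (leaf 427 7))))))))))))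 (move 491 (branch (move 490 (leaf 490 0)) (move 527 (leaf 491 3)))))) (branch (move 461 (branch (move 429 (leaf 428 5)) (move 492 (branch (move 588 (leaf 460 6)) (move 491 (branch (move 490 (leaf 490 0)) (move 527 (leaf 491 3)))))))) (move 461 (branch (move 429 (leaf 428 5)) (move 557 (branch (move 460 (branch (move 428 (leaf 428 7)) (move 492 (branch (move 589 (leaf 460 4)) (move 491 (branch (move 490 (leaf 490 0)) (move 527 (leaf 491 3)))))))) (move 558 (branch (move 590 (leaf 461 4)) (move 559 (branch (move 560 (leaf 524 3)) (move 462 (branch (move 430 (leaf 429 6)) (move 591 (branch (move 592 (leaf 556 0)) (move 494 (leaf 462 4))))))))))))))))))))))))))))))) (branch (ref 27) (branch (move 524 (branch (ref 15) (branch (ref 4) (branch (ref 12) (branch (ref 13) (move 527 (branch (move 495 (branch (move 496 (leaf 492 2)) (ref 28))) (branch (ref 29) (move 556 (branch (move 555 (leaf 523 1)) (move 588 (branch (move 620 (branch (move 493 (leaf 492 6)) (move 652 (branch (move 557 (leaf 524 6)) (move 653 (branch (move 621 (leaf 524 4)) (move 685 (leaf 556 4)))))))) (branch (move 492 (branch (move 491 (leaf 491 3)) (move 621 (branch (move 589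 (leaf 492 4)) (move 620 (branch (move 653 (leaf 524 4)) (move 619 (branch (move 587 (leaf 491 5)) (move 651 (leaf 523 5)))))))))) (branch (move 492 (branch (move 491 (leaf 491 3)) (move 620 (branch (move 493 (leaf 492 6)) (move 619 (branch (move 587 (leaf 491 5)) (move 651 (leaf 523 5)))))))) (move 492 (branch (move 491 (leaf 491 3)) (move 589 (branch (move 621 (leaf 492 4)) (move 460 (branch (move 557 (leaf 460 4)) (move 495 (branch (move 496 (leaf 492 2)) (move 587 (branch (move 619 (leaf 491 5)) (move 427 (branch (move 459 (leaf 427 7)) (move 428 (branch (move 395 (leaf 395 7)) (move 396 (branch (move 493 (leaf 396 4)) (move 397 (branch (move 365 (leaf 364 6)) (move 429 (leaf 396 6)))))))))))))))))))))))))))))))))) (branch (move 524 (branch (ref 20) (branch (ref 21) (branch (ref 22) (branch (ref 1) (branch (ref 23) (branch (ref 15) (branch (ref 24) (branch (ref 25) (ref 30)))))))))) (branch (ref 31) (branch (move 524 (branch (ref 21) (branch (ref 4) (branch (ref 32) (branch (move 523 (branch (move 490 (branch (move 491 (leaf 490 3)) (move 522 (branch (move 489 (leaf 489 3)) (move 557 (branch (move 558 (leaf 522 0)) (move 521 (branch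 (move 556 (leaf 521 0)) (move 553 (branch (move 552 (leaf 520 1)) (move 554 (leaf 521 1)))))))))))) (branch (ref 11) (move 559 (branch (move 558 (leaf 523 0)) (move 527 (branch (move 560 (leaf 524 0)) (move 495 (branch (move 494 (leaf 491 2)) (move 496 (leaf 492 2))))))))))) (branch (move 523 (branch (move 554 (branch (move 555 (leaf 522 1)) (move 522 (branch (move 553 (leaf 521 1)) (move 490 (branch (move 489 (leaf 489 3)) (move 491 (leaf 490 3)))))))) (move 559 (branch (move 558 (leaf 523 0)) (move 527 (branch (move 560 (leaf 524 0)) (move 495 (branch (move 494 (leaf 491 2)) (move 496 (leaf 492 2)))))))))) (ref 33))))))) (branch (ref 34) (branch (move 524 (branch (ref 22) (branch (ref 2) (branch (move 523 (branch (move 491 (branch (move 490 (leaf 490 3)) (move 527 (branch (move 492 (leaf 491 3)) (move 559 (branch (move 558 (leaf 523 0)) (move 560 (leaf 524 0)))))))) (branch (move 555 (branch (move 554 (leaf 522 1)) (move 556 (branch (move 527 (leaf 523 1)) (move 491 (branch (move 490 (leaf 490 3)) (move 588 (branch (move 459 (leaf 459 4)) (move 620 (leaf 491 7)))))))))) (branch (move 555 (branch (move 554 (leaf 522 1)) (move 527 (branch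 (move 556 (leaf 523 1)) (move 559 (branch (move 558 (leaf 523 0)) (move 560 (leaf 524 0)))))))) (ref 35))))) (branch (ref 16) (ref 36)))))) (branch (move 524 (branch (ref 22) (branch (ref 15) (branch (ref 2) (branch (ref 4) (branch (ref 9) (move 556 (branch (move 555 (branch (move 527 (leaf 523 1)) (move 554 (branch (move 553 (leaf 521 2)) (move 557 (leaf 522 2)))))) (branch (ref 6) (branch (ref 7) (ref 37))))))))))) (branch (move 524 (branch (ref 15) (branch (ref 4) (branch (ref 12) (branch (ref 13) (move 527 (branch (move 495 (branch (move 496 (leaf 492 2)) (ref 28))) (branch (ref 29) (branch (move 556 (branch (move 555 (leaf 523 1)) (move 588 (branch (move 620 (branch (move 493 (leaf 492 6)) (move 652 (branch (move 557 (leaf 524 6)) (move 653 (branch (move 621 (leaf 524 4)) (move 685 (leaf 556 4)))))))) (branch (move 492 (branch (move 491 (leaf 491 3)) (move 493 (branch (move 461 (leaf 460 6)) (move 620 (leaf 492 6)))))) (branch (move 492 (branch (move 491 (leaf 491 3)) (move 621 (branch (move 589 (leaf 492 4)) (move 620 (branch (move 653 (leaf 524 4)) (move 619 (branch (move 587 (leaf 491 5)) (move 651 (leaf 523 5)))))))))) (move 492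 (branch (move 491 (leaf 491 3)) (move 589 (branch (move 621 (leaf 492 4)) (move 557 (branch (move 460 (leaf 460 4)) (move 493 (branch (move 461 (leaf 460 5)) (move 494 (branch (move 462 (leaf 461 6)) (move 495 (branch (move 496 (leaf 492 1)) (move 590 (branch (move 622 (leaf 493 4)) (move 463 (branch (move 464 (leaf 460 2)) (move 558 (leaf 462 6)))))))))))))))))))))))) (move 559 (branch (move 560 (leaf 524 0)) (move 495 (branch (move 496 (leaf 492 2)) (ref 38)))))))))))))) (branch (ref 39) (branch (move 524 (branch (ref 15) (branch (ref 4) (branch (ref 13) (branch (ref 33) (move 523 (branch (move 554 (branch (move 555 (leaf 522 1)) (move 522 (branch (move 553 (leaf 521 1)) (move 490 (branch (move 489 (leaf 489 3)) (move 491 (leaf 490 3)))))))) (branch (move 558 (branch (move 559 (leaf 523 0)) (move 522 (branch (move 557 (leaf 522 0)) (move 490 (branch (move 489 (leaf 489 3)) (move 491 (leaf 490 3)))))))) (branch (move 558 (branch (move 559 (leaf 523 0)) (move 522 (branch (move 557 (leaf 522 0)) (move 554 (branch (move 553 (leaf 521 1)) (move 555 (leaf 522 1)))))))) (move 491 (branch (move 490 (leaf 490 3)) (move 459 (branch (move 555 (branch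 (move 554 (leaf 522 1)) (move 588 (branch (move 556 (leaf 459 4)) (move 587 (branch (move 620 (leaf 491 4)) (move 558 (branch (move 559 (leaf 523 0)) (move 494 (branch (move 495 (leaf 491 2)) (move 586 (branch (move 618 (leaf 490 5)) (move 589 (branch (move 557 (leaf 554 2)) (move 590 (branch (move 621 (leaf 493 5)) (move 623 (branch (move 622 (leaf 587 0)) (move 591 (leaf 494 4)))))))))))))))))))) (branch (move 555 (branch (move 554 (leaf 522 1)) (move 494 (branch (move 495 (leaf 491 2)) (move 558 (branch (move 559 (leaf 523 0)) (move 458 (branch (move 426 (leaf 426 7)) (move 493 (branch (move 492 (leaf 458 3)) (move 461 (branch (move 460 (leaf 458 0)) (move 429 (leaf 429 4)))))))))))))) (move 556 (branch (move 427 (leaf 427 4)) (move 588 (branch (move 492 (leaf 459 7)) (move 620 (leaf 491 7)))))))))))))))))))) (branch (move 524 (branch (ref 15) (branch (ref 4) (branch (ref 13) (branch (ref 33) (move 523 (branch (move 554 (branch (move 555 (leaf 522 1)) (move 522 (branch (move 553 (leaf 521 1)) (move 490 (branch (move 489 (leaf 489 3)) (move 491 (leaf 490 3)))))))) (branch (move 558 (branch (move 559 (leaf 523 0)) (move 522 (branch (move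 557 (leaf 522 0)) (move 490 (branch (move 489 (leaf 489 3)) (move 491 (leaf 490 3)))))))) (branch (move 558 (branch (move 559 (leaf 523 0)) (move 522 (branch (move 557 (leaf 522 0)) (move 554 (branch (move 553 (leaf 521 1)) (move 555 (leaf 522 1)))))))) (move 491 (branch (move 490 (leaf 490 3)) (move 459 (branch (move 427 (branch (move 556 (leaf 427 4)) (move 395 (branch (move 492 (leaf 395 4)) (move 396 (branch (move 364 (leaf 363 6)) (move 428 (leaf 395 6)))))))) (branch (move 555 (branch (move 554 (leaf 522 1)) (move 588 (branch (move 556 (leaf 459 4)) (move 587 (branch (move 620 (leaf 491 4)) (move 558 (branch (move 559 (leaf 523 0)) (move 494 (branch (move 495 (leaf 491 2)) (move 586 (branch (move 618 (leaf 490 5)) (move 589 (branch (move 557 (leaf 554 2)) (move 590 (branch (move 621 (leaf 493 5)) (move 623 (branch (move 622 (leaf 587 0)) (move 591 (leaf 494 4)))))))))))))))))))) (move 555 (branch (move 554 (leaf 522 1)) (move 494 (branch (move 495 (leaf 491 2)) (move 558 (branch (move 559 (leaf 523 0)) (move 458 (branch (move 426 (leaf 426 7)) (move 493 (branch (move 492 (leaf 458 3)) (move 590 (branch (move 461 (leaf 461 7)) (move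 622 (leaf 493 7)))))))))))))))))))))))))))) (branch (move 524 (branch (ref 21) (branch (ref 22) (branch (ref 23) (branch (ref 24) (branch (ref 25) (branch (ref 2) (move 556 (branch (ref 40) (branch (move 555 (branch (move 527 (leaf 523 1)) (move 554 (branch (move 553 (leaf 521 2)) (move 557 (leaf 522 2)))))) (branch (ref 41) (ref 37)))))))))))) (branch (ref 42) (move 524 (branch (ref 20) (branch (ref 21) (branch (ref 22) (branch (ref 1) (branch (ref 23) (branch (ref 15) (branch (ref 24) (branch (ref 25) (move 556 (branch (ref 40) (branch (move 555 (branch (move 527 (leaf 523 1)) (move 554 (branch (move 553 (leaf 521 2)) (move 557 (leaf 522 2)))))) (branch (ref 41) (move 493 (branch (move 461 (branch (move 429 (leaf 428 5)) (move 588 (branch (move 557 (leaf 460 5)) (move 620 (leaf 492 6)))))) (branch (move 588 (branch (move 620 (leaf 492 6)) (move 492 (branch (move 461 (leaf 460 6)) (move 491 (branch (move 490 (leaf 490 0)) (move 459 (leaf 459 7)))))))) (branch (ref 43) (branch (move 461 (branch (move 429 (leaf 428 5)) (move 557 (branch (move 588 (leaf 460 5)) (move 460 (branch (move 428 (leaf 428 7)) (move 492 (branch (move 589 (leaf 460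 4)) (move 555 (branch (move 554 (leaf 522 2)) (move 587 (leaf 459 5)))))))))))) (ref 44)))))))))))))))))))))))))))))))))))))))))
theorem a1p134 : a1e134.Valid :=
  pos_of_chk [a1e29, a1e30, a1e31, a1e32, a1e34, a1e36, a1e37, a1e38, a1e39, a1e40, a1e41, a1e42, a1e44, a1e45, a1e47, a1e48, a1e49, a1e52, a1e70, a1e87, a1e88, a1e89, a1e90, a1e92, a1e94, a1e95, a1e50, a1e96, a1e46, a1e97, a1e98, a1e107, a1e108, a1e114, a1e122, a1e43, a1e124, a1e125, a1e110, a1e128, a1e129, a1e130, a1e131, a1e35, a1e133] (forall_cons a1p29 (forall_cons a1p30 (forall_cons a1p31 (forall_cons a1p32 (forall_cons a1p34 (forall_cons a1p36 (forall_cons a1p37 (forall_cons a1p38 (forall_cons a1p39 (forall_cons a1p40 (forall_cons a1p41 (forall_cons a1p42 (forall_cons a1p44 (forall_cons a1p45 (forall_cons a1p47 (forall_cons a1p48 (forall_cons a1p49 (forall_cons a1p52 (forall_cons a1p70 (forall_cons a1p87 (forall_cons a1p88 (forall_cons a1p89 (forall_cons a1p90 (forall_cons a1p92 (forall_cons a1p94 (forall_cons a1p95 (forall_cons a1p50 (forall_cons a1p96 (forall_cons a1p46 (forall_cons a1p97 (forall_cons a1p98 (forall_cons a1p107 (forall_cons a1p108 (forall_cons a1p114 (forall_cons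 a1p122 (forall_cons a1p43 (forall_cons a1p124 (forall_cons a1p125 (forall_cons a1p110 (forall_cons a1p128 (forall_cons a1p129 (forall_cons a1p130 (forall_cons a1p131 (forall_cons a1p35 (forall_cons a1p133 forall_nil))))))))))))))))))))))))))))))))))))))))))))) a1c134 a1e134 (by decide +kernel)

end Crest.Agent.SN
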