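import Crest.Agent.Lib_SN_Check

set_option autoImplicit false
set_option linter.all false
set_option maxRecDepth 1000000

namespace Crest.Agent.SN
open Cert

def a2e0 : Pos := ⟨384428668967314144038986444748558020167088376808025102926089953714390418270268738918863339877041455078728593437922928050078831327984132053504145584302443200512, 3545728636432433125519637428496520105916401164531572160447578107081036889220590872155071283715187982722761083483718806088031282755838296737785727717592406146827461645385294938112, 9⟩
def a2c0 : Cert := (move 555 (branch (move 523 (branch (move 554 (leaf 522 1)) (move 491 (branch (move 490 (leaf 490 3)) (move 492 (branch (move 527 (leaf 491 3)) (move 460 (branch (move 428 (leaf 427 5)) (move 587 (leaf 459 6)))))))))) (branch (move 556 (branch (move 527 (leaf 523 1)) (move 554 (branch (move 553 (leaf 521 2)) (move 557 (leaf 522 2)))))) (branch (move 554 (branch (move 523 (leaf 522 1)) (move 556 (branch (move 553 (leaf 521 2)) (move 557 (leaf 522 2)))))) (move 492 (branch (move 556 (branch (move 527 (leaf 523 1)) (move 460 (branch (move 587 (leaf 459 5)) (move 557 (branch (move 428 (leaf 428 4)) (move 589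 (leaf 460 4)))))))) (branch (move 491 (branch (move 527 (leaf 491 3)) (move 490 (branch (move 489 (leaf 489 0)) (move 523 (leaf 490 3)))))) (move 460 (branch (move 556 (branch (move 587 (leaf 459 5)) (move 557 (branch (move 589 (leaf 460 4)) (move 459 (branch (move 427 (leaf 427 7)) (move 491 (branch (move 588 (leaf 459 7)) (move 490 (branch (move 489 (leaf 489 0)) (move 523 (leaf 490 3)))))))))))) (branch (move 556 (branch (move 587 (leaf 459 5)) (move 557 (branch (move 428 (leaf 428 4)) (move 589 (leaf 460 4)))))) (branch (move 428 (branch (move 557 (leaf 428 4)) (move 523 (leaf 427 5)))) (move 523 (branch (move 428 (leaf 427 5)) (move 587 (branch (move 556 (leaf 459 5)) (move 491 (leaf 459 6)))))))))))))))))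
theorem a2p0 : a2e0.Valid :=
  pos_of_chk [] forall_nil a2c0 a2e0 (by decide +kernel)

def a2e1 : Pos := ⟨384428669018460872287363661467514109180019613561410134895512841050066845896770829487686379797092550271320845893405532489571957437503151687033604850760701444096, 13053247314504064204790219212078485589986727433292026145744642118386473023665792278503842100817685707234304668518752280763272063703032612417875282432496292721198956783292579149308323954688, 8⟩
def a2c1 : Cert := (move 527 (branch (move 556 (branch (move 555 (leaf 523 1)) (move 528 (branch (move 557 (leaf 524 1)) (move 560 (branch (move 559 (leaf 524 0)) (move 561 (leaf 525 0)))))))) (branch (move 559 (branch (move 560 (leaf 524 0)) (move 462 (branch (move 430 (leaf 430 4)) (move 555 (branch (move 556 (leaf 523 1)) (move 523 (branch (move 554 (leaf 522 1)) (move 522 (branch (move 493 (leaf 490 2)) (move 490 (branch (move 489 (leaf 489 3)) (move 491 (leaf 490 3)))))))))))))) (branch (move 560 (branch (move 559 (leaf 524 0)) (move 528 (branch (move 561 (leaf 525 0)) (move 497 (branch (move 496 (leaf 493 2)) (move 529 (branch (move 498 (leaf 494 2)) (move 493 (leaf 493 3))))))))))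 (move 556 (branch (move 555 (leaf 523 1)) (move 557 (branch (move 528 (leaf 524 1)) (move 589 (branch (move 621 (leaf 493 6)) (move 493 (branch (move 462 (leaf 461 6)) (move 588 (branch (move 461 (leaf 460 5)) (move 620 (leaf 492 5))))))))))))))))
theorem a2p1 : a2e1.Valid :=
  pos_of_chk [] forall_nil a2c1 a2e1 (by decide +kernel)

def a2e2 : Pos := ⟨384428669018460872287363661467514109180019613561410134895512841050066845896770829487686379797092550271320845893405532489571957437503151687033604850760701444096, 506532662423306656343873042007638534382070573978895187072883065451954297559598985534287555866652573308612258118522555663616464671352432604382969884342210047936390500235152982016, 6⟩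
def a2c2 : Cert := (move 523 (branch (move 522 (branch (move 493 (leaf 490 2)) (move 554 (branch (move 553 (leaf 521 1)) (move 555 (leaf 522 1)))))) (branch (move 522 (branch (move 493 (leaf 490 2)) (move 490 (branch (move 489 (leaf 489 3)) (move 491 (leaf 490 3)))))) (move 491 (branch (move 490 (leaf 490 3)) (move 492 (branch (move 527 (leaf 491 3)) (move 555 (branch (move 554 (leaf 522 1)) (move 460 (branch (move 428 (leaf 427 5)) (move 587 (leaf 459 6)))))))))))))
theorem a2p2 : a2e2.Valid :=
  pos_of_chk [] forall_nil a2c2 a2e2 (by decide +kernel)

def a2e3 : Pos := ⟨384428669018460872287363661467514109180019613561410134895512841050066845896770829487686379797092550271320845893405532489571957437503151687033604850760701444096, 14137617055485736259232083050886727900182737852506115446787644945888657039049325713898671352720403364972384005248692933897749857542105799435123274094519800138480201236480, 7⟩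
def a2c3 : Cert := (move 523 (branch (move 555 (branch (move 554 (leaf 522 1)) (move 527 (branch (move 556 (leaf 523 1)) (move 560 (branch (move 559 (leaf 524 0)) (move 528 (branch (move 561 (leaf 525 0)) (move 493 (branch (move 492 (leaf 492 3)) (move 529 (leaf 493 3)))))))))))) (branch (move 522 (branch (move 493 (leaf 490 2)) (move 553 (branch (move 554 (leaf 521 1)) (move 521 (branch (move 552 (leaf 520 1)) (move 489 (branch (move 488 (leaf 488 3)) (move 490 (leaf 489 3)))))))))) (branch (move 522 (branch (move 493 (leaf 490 2)) (move 489 (branch (move 490 (leaf 489 3)) (move 521 (branch (move 488 (leaf 488 3)) (move 556 (branch (move 557 (leaf 521 0)) (move 555 (branch (move 520 (leaf 520 0)) (move 527 (leaf 523 1)))))))))))) (move 522 (branch (move 489 (branch (move 490 (leaf 489 3)) (move 521 (branch (move 488 (leaf 488 3)) (move 556 (branch (move 557 (leaf 521 0)) (move 555 (branch (move 520 (leaf 520 0)) (move 527 (leaf 523 1)))))))))) (branch (move 553 (branch (move 554 (leaf 521 1)) (move 521 (branch (move 552 (leaf 520 1)) (move 489 (branch (move 488 (leaf 488 3)) (move 490 (leaf 489 3)))))))) (move 554 (branch (move 553 (leaf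 521 1)) (move 555 (leaf 522 1)))))))))))
theorem a2p3 : a2e3.Valid :=
  pos_of_chk [] forall_nil a2c3 a2e3 (by decide +kernel)

def a2e4 : Pos := ⟨823775719266819894046205312608723275085263472770581681096758502437941609634220816823530196799425641789867809822460307403947764669485016891038342661392065101824, 28031635169899555956919433235394443839137452743514501653121014957087600802403045517260992557661651306458928338205867302895191940748119035277150148865301704584703550529110992900685987565060218683392, 9⟩
def a2c4 : Cert := (move 557 (branch (move 462 (branch (move 430 (leaf 429 5)) (move 589 (branch (move 493 (leaf 461 6)) (move 621 (leaf 493 6)))))) (branch (move 492 (branch (move 491 (leaf 491 3)) (move 556 (branch (move 555 (leaf 523 1)) (move 460 (branch (move 428 (leaf 428 4)) (move 461 (branch (move 429 (leaf 428 6)) (move 588 (branch (move 493 (leaf 460 5)) (move 620 (branch (move 652 (leaf 524 6)) (move 619 (branch (move 587 (leaf 491 5)) (move 651 (leaf 523 5)))))))))))))))) (move 492 (branch (move 491 (leaf 491 3)) (move 589 (branch (move 621 (leaf 493 6)) (move 556 (branch (move 555 (leaf 523 1)) (move 460 (leaf 460 4)))))))))))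
theorem a2p4 : a2e4.Valid :=
  pos_of_chk [] forall_nil a2c4 a2e4 (by decide +kernel)

def a2e5 : Pos := ⟨471745303487121338048655194910897272832129261732074667108435922426215861349085452407536670134893725739776097150166326505876855568312556516573330968462691856216875859968, 13547935424846549823124834593858857801068759996040571728238463079588209549467560350127035750367646934708120470110380848983330442078993661141664404263677692130181022482432, 7⟩
def a2c5 : Cert := (move 527 (branch (move 491 (branch (move 492 (leaf 491 3)) (move 523 (branch (move 490 (leaf 490 3)) (move 522 (branch (move 493 (leaf 490 2)) (move 521 (branch (move 556 (leaf 521 0)) (move 553 (branch (move 552 (leaf 520 1)) (move 554 (leaf 521 1)))))))))))) (branch (move 528 (branch (move 556 (leaf 524 1)) (move 560 (branch (move 559 (leaf 524 0)) (move 561 (leaf 525 0)))))) (move 492 (branch (move 491 (leaf 491 3)) (move 528 (branch (move 493 (leaf 492 3)) (move 560 (branch (move 559 (leaf 524 0)) (move 561 (leaf 525 0)))))))))))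
theorem a2p5 : a2e5.Valid :=
  pos_of_chk [] forall_nil a2c5 a2e5 (by decide +kernel)

def a2e6 : Pos := ⟨329510287737415994567508455074862963441864131160263691620357133376582500429589581070705902671800913831502475402273685625274981533505418536533012624431780986880, 28031635169899555956919433248706506614248395214618537861906926247928022689219253565722342066764173285764085776085646393710633904707050821274099357676480835660443515588485614073221596368850565201920, 11⟩
def a2c6 : Cert := (move 524 (branch (ref 0) (branch (move 523 (branch (move 554 (branch (move 555 (leaf 522 1)) (move 522 (branch (move 553 (leaf 521 1)) (move 490 (branch (move 489 (leaf 489 3)) (move 491 (leaf 490 3)))))))) (branch (move 522 (branch (move 493 (leaf 490 2)) (move 554 (branch (move 553 (leaf 521 1)) (move 555 (leaf 522 1)))))) (branch (move 522 (branch (move 493 (leaf 490 2)) (move 490 (branch (move 489 (leaf 489 3)) (move 491 (leaf 490 3)))))) (move 491 (branch (move 490 (leaf 490 3)) (move 459 (branch (move 427 (branch (move 556 (leaf 427 4)) (move 395 (branch (move 492 (leaf 395 4)) (move 396 (branch (move 364 (leaf 363 6)) (move 428 (leaf 395 6))))))))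 (branch (move 555 (branch (move 554 (leaf 522 1)) (move 460 (branch (move 428 (leaf 427 6)) (move 492 (branch (move 587 (leaf 459 6)) (move 458 (branch (move 493 (leaf 458 3)) (move 426 (leaf 426 7)))))))))) (move 555 (branch (move 554 (leaf 522 1)) (move 556 (branch (move 427 (leaf 427 4)) (move 588 (leaf 459 4))))))))))))))) (branch (ref 1) (branch (ref 2) (branch (ref 3) (branch (move 527 (branch (move 556 (branch (move 555 (leaf 523 1)) (move 528 (branch (move 557 (leaf 524 1)) (move 560 (branch (move 559 (leaf 524 0)) (move 561 (leaf 525 0)))))))) (branch (move 492 (branch (move 491 (leaf 491 3)) (move 528 (branch (move 493 (leaf 492 3)) (move 560 (branch (move 559 (leaf 524 0)) (move 561 (leaf 525 0)))))))) (ref 4)))) (move 557 (branch (move 462 (branch (move 430 (leaf 429 5)) (move 589 (branch (move 493 (leaf 461 6)) (move 621 (leaf 493 6)))))) (branch (ref 5) (move 430 (branch (move 462 (leaf 429 5)) (move 492 (branch (move 491 (branch (move 527 (leaf 491 3)) (move 490 (branch (move 489 (leaf 489 0)) (move 523 (leaf 490 3)))))) (move 589 (branch (move 621 (leaf 493 6)) (move 460 (branch (move 428 (leaf 428 4)) (move 556 (leaf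 460 4))))))))))))))))))))
theorem a2p6 : a2e6.Valid :=
  pos_of_chk [a2e0, a2e1, a2e2, a2e3, a2e4, a2e5] (forall_cons a2p0 (forall_cons a2p1 (forall_cons a2p2 (forall_cons a2p3 (forall_cons a2p4 (forall_cons a2p5 forall_nil)))))) a2c6 a2e6 (by decide +kernel)

def a2e7 : Pos := ⟨329510287737415994567508455074862963441864131160263691620357133376582500429589581070705902671800913831502475402273685625274981533505418536533012624431780986880, 28031635222112545231144735202435198473509751887599585621857177165873941792664293096928176980768598859585202543006141242358503725281314831608559888572984207046340902999506185129942267185179048017920, 11⟩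
def a2c7 : Cert := (move 557 (branch (move 589 (branch (move 621 (leaf 493 6)) (move 493 (branch (move 588 (branch (move 620 (leaf 492 5)) (move 556 (branch (move 461 (leaf 460 5)) (move 555 (branch (move 554 (leaf 522 2)) (move 590 (branch (move 591 (leaf 555 3)) (move 622 (leaf 493 4)))))))))) (move 492 (branch (move 460 (leaf 460 7)) (move 491 (branch (move 490 (leaf 490 0)) (move 523 (branch (move 522 (leaf 490 1)) (move 495 (branch (move 524 (leaf 491 1)) (move 496 (branch (move 497 (leaf 493 1)) (move 464 (branch (move 463 (leaf 460 2)) (move 465 (leaf 461 2)))))))))))))))))) (branch (move 589 (branch (move 621 (leaf 493 6)) (move 493 (branch (move 588 (branch (move 620 (leaf 492 5)) (move 556 (branch (move 461 (leaf 460 5)) (move 555 (branch (move 554 (leaf 522 2)) (move 590 (branch (move 591 (leaf 555 3)) (move 622 (leaf 493 4)))))))))) (move 492 (branch (move 460 (leaf 460 7)) (move 491 (branch (move 490 (leaf 490 0)) (move 527 (leaf 491 0)))))))))) (branch (move 524 (branch (move 523 (branch (move 495 (leaf 491 2)) (move 522 (branch (move 493 (leaf 490 2)) (move 554 (branch (move 553 (leaf 521 1)) (move 555 (leaf 522 1))))))))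 (branch (move 495 (branch (move 523 (leaf 491 2)) (move 496 (branch (move 497 (leaf 493 1)) (move 527 (leaf 492 2)))))) (branch (move 527 (branch (move 492 (branch (move 491 (leaf 491 3)) (move 589 (branch (move 621 (leaf 493 6)) (move 460 (branch (move 428 (leaf 428 4)) (move 493 (leaf 460 7)))))))) (move 496 (branch (move 495 (leaf 492 2)) (move 528 (branch (move 497 (leaf 493 2)) (move 560 (branch (move 559 (leaf 524 0)) (move 561 (leaf 525 0)))))))))) (move 492 (branch (move 491 (branch (move 527 (leaf 491 3)) (move 490 (branch (move 489 (leaf 489 0)) (move 493 (leaf 490 0)))))) (branch (move 589 (branch (move 621 (leaf 493 6)) (move 460 (branch (move 428 (leaf 428 4)) (move 493 (leaf 460 7)))))) (move 589 (branch (move 621 (leaf 493 6)) (move 491 (branch (move 527 (leaf 491 3)) (move 490 (branch (move 489 (leaf 489 0)) (move 523 (leaf 490 3))))))))))))))) (branch (move 524 (branch (move 523 (branch (move 495 (leaf 491 2)) (move 522 (branch (move 493 (leaf 490 2)) (move 554 (branch (move 553 (leaf 521 1)) (move 555 (leaf 522 1)))))))) (branch (move 495 (branch (move 523 (leaf 491 2)) (move 496 (branch (move 497 (leaf 493 1)) (move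 527 (leaf 492 2)))))) (move 527 (branch (move 589 (branch (move 621 (leaf 493 6)) (move 560 (branch (move 559 (leaf 524 0)) (move 528 (branch (move 561 (leaf 525 0)) (move 497 (branch (move 496 (leaf 493 2)) (move 529 (branch (move 498 (leaf 494 2)) (move 493 (leaf 493 3)))))))))))) (branch (move 556 (branch (move 555 (leaf 523 1)) (move 528 (leaf 524 1)))) (move 556 (branch (move 555 (leaf 523 1)) (move 589 (branch (move 621 (leaf 493 6)) (move 559 (branch (move 560 (leaf 524 0)) (move 591 (branch (move 623 (leaf 494 7)) (move 590 (branch (move 592 (leaf 556 3)) (move 493 (branch (move 622 (leaf 493 4)) (move 588 (branch (move 461 (leaf 460 5)) (move 620 (leaf 492 5)))))))))))))))))))))) (branch (move 524 (branch (move 495 (branch (move 523 (leaf 491 2)) (move 496 (branch (move 497 (leaf 493 1)) (move 527 (leaf 492 2)))))) (branch (ref 0) (branch (move 527 (branch (move 492 (branch (move 491 (leaf 491 3)) (move 589 (branch (move 621 (leaf 493 6)) (move 460 (branch (move 428 (leaf 428 4)) (move 493 (leaf 460 7)))))))) (move 496 (branch (move 495 (leaf 492 2)) (move 528 (branch (move 497 (leaf 493 2)) (move 560 (branch (move 559 (leaf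 524 0)) (move 561 (leaf 525 0)))))))))) (move 523 (branch (move 495 (leaf 491 2)) (move 522 (branch (move 493 (leaf 490 2)) (move 490 (branch (move 489 (leaf 489 3)) (move 491 (leaf 490 3)))))))))))) (branch (move 524 (branch (move 495 (branch (move 523 (leaf 491 2)) (move 496 (branch (move 497 (leaf 493 1)) (move 527 (leaf 492 2)))))) (branch (move 527 (branch (move 492 (branch (move 491 (leaf 491 3)) (move 556 (branch (move 555 (leaf 523 1)) (move 460 (branch (move 428 (leaf 428 4)) (move 461 (branch (move 429 (leaf 428 6)) (move 588 (branch (move 493 (leaf 460 5)) (move 620 (branch (move 652 (leaf 524 6)) (move 619 (branch (move 587 (leaf 491 5)) (move 651 (leaf 523 5)))))))))))))))) (branch (move 528 (branch (move 556 (leaf 524 1)) (move 560 (branch (move 559 (leaf 524 0)) (move 561 (leaf 525 0)))))) (move 492 (branch (move 491 (leaf 491 3)) (move 528 (branch (move 493 (leaf 492 3)) (move 560 (branch (move 559 (leaf 524 0)) (move 561 (leaf 525 0))))))))))) (move 523 (branch (move 495 (leaf 491 2)) (move 522 (branch (move 493 (leaf 490 2)) (move 490 (branch (move 489 (leaf 489 3)) (move 491 (leaf 490 3))))))))))) (move 524 (branch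 (move 495 (branch (move 523 (leaf 491 2)) (move 496 (branch (move 497 (leaf 493 1)) (move 527 (leaf 492 2)))))) (branch (move 523 (branch (move 495 (leaf 491 2)) (move 490 (branch (move 491 (leaf 490 3)) (move 522 (branch (move 489 (leaf 489 3)) (move 554 (branch (move 553 (leaf 521 1)) (move 555 (leaf 522 1)))))))))) (branch (move 527 (branch (move 492 (branch (move 491 (leaf 491 3)) (move 589 (branch (move 621 (leaf 493 6)) (move 556 (branch (move 555 (leaf 523 1)) (move 460 (leaf 460 4)))))))) (move 496 (branch (move 495 (leaf 492 2)) (move 528 (branch (move 497 (leaf 493 2)) (move 560 (branch (move 559 (leaf 524 0)) (move 561 (leaf 525 0)))))))))) (move 492 (branch (move 589 (branch (move 621 (leaf 493 6)) (move 491 (branch (move 527 (leaf 491 3)) (move 490 (branch (move 489 (leaf 489 0)) (move 523 (leaf 490 3)))))))) (branch (move 527 (branch (move 491 (leaf 491 3)) (move 556 (branch (move 555 (leaf 523 1)) (move 528 (leaf 524 1)))))) (move 589 (branch (move 621 (leaf 493 6)) (move 460 (branch (move 428 (leaf 428 4)) (move 556 (leaf 460 4))))))))))))))))))))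
theorem a2p7 : a2e7.Valid :=
  pos_of_chk [a2e5] (forall_cons a2p5 forall_nil) a2c7 a2e7 (by decide +kernel)

def a2e8 : Pos := ⟨329510287737415994567508455074862963441864131160263691620357133376582500429589581070705902671800913831502475402273685625274981533505418536533012624431780986880, 30457577075280672376534792348025784640090220149822467019931921928889345563081224597704696776590132850424715701486470690091869742908223539308525533007085791597741365429218952711801902465024, 11⟩
def a2c8 : Cert := (move 493 (branch (move 557 (branch (move 589 (branch (move 621 (leaf 493 6)) (move 588 (branch (move 620 (leaf 492 5)) (move 556 (branch (move 461 (leaf 460 5)) (move 590 (branch (move 622 (leaf 493 4)) (move 555 (branch (move 554 (leaf 554 0)) (move 591 (leaf 555 3)))))))))))) (branch (move 462 (branch (move 430 (leaf 429 5)) (move 589 (leaf 461 6)))) (move 461 (branch (move 429 (branch (move 397 (leaf 397 4)) (move 428 (branch (move 396 (leaf 396 7)) (move 460 (leaf 428 7)))))) (branch (move 462 (branch (move 430 (leaf 429 5)) (move 460 (branch (move 428 (leaf 428 7)) (move 495 (branch (move 459 (leaf 459 0)) (move 496 (leaf 460 3))))))))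 (move 430 (branch (move 462 (leaf 429 5)) (move 429 (branch (move 397 (leaf 397 4)) (move 398 (leaf 397 6)))))))))))) (branch (move 557 (branch (move 589 (branch (move 621 (leaf 493 6)) (move 588 (branch (move 620 (leaf 492 5)) (move 556 (branch (move 461 (leaf 460 5)) (move 590 (branch (move 622 (leaf 493 4)) (move 555 (branch (move 554 (leaf 554 0)) (move 591 (leaf 555 3)))))))))))) (branch (move 462 (branch (move 430 (leaf 429 5)) (move 589 (leaf 461 6)))) (move 461 (branch (move 429 (branch (move 397 (leaf 397 4)) (move 428 (branch (move 396 (leaf 396 7)) (move 460 (leaf 428 7)))))) (branch (move 430 (branch (move 462 (leaf 429 5)) (move 429 (branch (move 397 (leaf 397 4)) (move 398 (leaf 397 6)))))) (move 462 (branch (move 430 (leaf 429 5)) (move 460 (branch (move 428 (leaf 428 7)) (move 459 (branch (move 458 (leaf 458 0)) (move 491 (branch (move 490 (leaf 458 1)) (move 492 (branch (move 527 (leaf 491 0)) (move 463 (leaf 459 1)))))))))))))))))) (branch (move 492 (branch (move 527 (branch (move 491 (leaf 491 0)) (move 528 (leaf 492 3)))) (branch (move 491 (branch (move 490 (leaf 490 0)) (move 462 (branch (move 463 (leaf 459 2)) (move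 430 (branch (move 398 (leaf 397 5)) (move 557 (leaf 429 5)))))))) (move 495 (branch (move 528 (branch (move 527 (leaf 492 0)) (move 496 (branch (move 529 (leaf 493 0)) (move 497 (leaf 493 1)))))) (branch (move 496 (branch (move 497 (leaf 493 1)) (move 464 (branch (move 463 (leaf 460 2)) (move 465 (leaf 461 2)))))) (move 527 (branch (move 528 (leaf 492 0)) (move 463 (branch (move 464 (leaf 460 2)) (move 431 (branch (move 399 (leaf 398 5)) (move 430 (branch (move 398 (leaf 398 7)) (move 462 (branch (move 559 (leaf 430 4)) (move 557 (leaf 429 5)))))))))))))))))) (branch (move 492 (branch (move 491 (branch (move 490 (leaf 490 0)) (move 527 (leaf 491 0)))) (move 495 (branch (move 496 (branch (move 497 (leaf 493 1)) (move 464 (branch (move 463 (leaf 460 2)) (move 465 (leaf 461 2)))))) (move 460 (branch (move 459 (leaf 459 3)) (move 557 (branch (move 589 (leaf 460 7)) (move 428 (branch (move 396 (leaf 396 4)) (move 461 (leaf 428 7)))))))))))) (move 492 (branch (move 527 (branch (move 491 (leaf 491 0)) (move 528 (leaf 492 3)))) (branch (move 495 (branch (move 460 (branch (move 459 (leaf 459 3)) (move 496 (branch (move 497 (leaf 493 1)) (move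 461 (leaf 460 3)))))) (branch (move 528 (branch (move 527 (leaf 492 0)) (move 496 (branch (move 529 (leaf 493 0)) (move 497 (leaf 493 1)))))) (move 527 (branch (move 528 (leaf 492 0)) (move 463 (branch (move 464 (leaf 460 2)) (move 431 (branch (move 399 (leaf 398 5)) (move 430 (branch (move 398 (leaf 398 7)) (move 462 (branch (move 559 (leaf 430 4)) (move 460 (branch (move 459 (leaf 459 3)) (move 432 (branch (move 461 (leaf 428 2)) (move 400 (leaf 399 6))))))))))))))))))) (move 491 (branch (move 490 (leaf 490 0)) (move 459 (branch (move 458 (leaf 458 3)) (move 495 (branch (move 460 (leaf 459 3)) (move 496 (branch (move 497 (leaf 493 1)) (move 464 (branch (move 463 (leaf 460 2)) (move 465 (leaf 461 2))))))))))))))))))))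
theorem a2p8 : a2e8.Valid :=
  pos_of_chk [] forall_nil a2c8 a2e8 (by decide +kernel)

def a2e9 : Pos := ⟨384428669018460872287363661467514109180019613561410134895512841050066845896770829487686379797092550271320845893405532489571957437503151687033604850760701444096, 13053247322608586800201940419486618627039116152441379198338944168940826398772650631021376242421063271018741826174840315731197109500581713955657888500156413644892541538028245494503305117696, 7⟩
def a2c9 : Cert := (move 527 (branch (move 556 (branch (move 555 (leaf 523 1)) (move 528 (branch (move 557 (leaf 524 1)) (move 560 (branch (move 559 (leaf 524 0)) (move 561 (leaf 525 0)))))))) (branch (move 495 (branch (move 496 (leaf 492 2)) (move 559 (branch (move 560 (leaf 524 0)) (move 462 (branch (move 430 (leaf 430 4)) (move 591 (leaf 462 7)))))))) (move 556 (branch (move 555 (leaf 523 1)) (move 557 (branch (move 528 (leaf 524 1)) (move 589 (branch (move 621 (leaf 493 6)) (move 493 (branch (move 462 (leaf 461 6)) (move 588 (branch (move 461 (leaf 460 5)) (move 620 (leaf 492 5)))))))))))))))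
theorem a2p9 : a2e9.Valid :=
  pos_of_chk [] forall_nil a2c9 a2e9 (by decide +kernel)

def a2e10 : Pos := ⟨384428669018460872287363661467514109180019613561410134895512841050066845896770829487686379797092550271320845893405532489571957437503151687033604850760701444096, 10130653258018975506414311813937095081921947329910324265717199346054428896027549889766958555031517518137228045763181385882512941004759762720973760064265302382025404404510039736320, 7⟩
def a2c10 : Cert := (move 527 (branch (move 492 (branch (move 491 (leaf 491 3)) (move 528 (branch (move 493 (leaf 492 3)) (move 560 (branch (move 559 (leaf 524 0)) (move 561 (leaf 525 0)))))))) (branch (move 495 (branch (move 496 (leaf 492 2)) (move 559 (branch (move 560 (leaf 524 0)) (move 462 (branch (move 430 (leaf 430 4)) (move 591 (leaf 462 7)))))))) (move 495 (branch (move 496 (leaf 492 2)) (move 492 (branch (move 491 (leaf 491 3)) (move 493 (branch (move 528 (leaf 492 0)) (move 460 (branch (move 459 (leaf 459 3)) (move 557 (branch (move 428 (leaf 428 4)) (move 589 (leaf 460 7)))))))))))))))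
theorem a2p10 : a2e10.Valid :=
  pos_of_chk [] forall_nil a2c10 a2e10 (by decide +kernel)

def a2e11 : Pos := ⟨329510287762989358691697063434341007948329749536956207605068577044420714242840626355117422631826461427798601630014987845021544588264928353297742257660910108672, 3545728636402949043705020063749535896536344821620943787310014030014451660362854358537952166193319684715898158148900027942878831538215832684467262655171895221706411928185590513664, 9⟩
def a2c11 : Cert := (move 492 (branch (move 495 (branch (move 496 (branch (move 497 (leaf 493 1)) (move 464 (branch (move 463 (leaf 460 2)) (move 465 (leaf 461 2)))))) (move 460 (branch (move 459 (leaf 459 3)) (move 557 (branch (move 589 (leaf 460 7)) (move 428 (branch (move 396 (leaf 396 4)) (move 461 (leaf 428 7)))))))))) (branch (move 460 (branch (move 557 (branch (move 589 (leaf 460 7)) (move 428 (branch (move 396 (leaf 396 4)) (move 524 (leaf 428 4)))))) (branch (move 491 (branch (move 490 (leaf 490 0)) (move 459 (branch (move 458 (leaf 458 3)) (move 523 (branch (move 522 (leaf 490 1)) (move 555 (branch (move 587 (leaf 459 6)) (move 524 (branch (move 554 (leaf 522 1)) (move 556 (branch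 (move 427 (leaf 427 4)) (move 588 (leaf 459 4)))))))))))))) (move 491 (branch (move 490 (leaf 490 0)) (move 459 (branch (move 458 (leaf 458 3)) (move 428 (branch (move 396 (leaf 396 4)) (move 557 (branch (move 461 (leaf 428 7)) (move 589 (leaf 460 7))))))))))))) (branch (move 491 (branch (move 490 (leaf 490 0)) (move 523 (branch (move 522 (leaf 490 1)) (move 524 (branch (move 495 (leaf 491 1)) (move 459 (branch (move 458 (leaf 458 3)) (move 556 (branch (move 427 (leaf 427 4)) (move 588 (leaf 459 7)))))))))))) (move 491 (branch (move 490 (leaf 490 0)) (move 523 (branch (move 522 (leaf 490 1)) (move 524 (branch (move 495 (leaf 491 1)) (move 555 (branch (move 554 (leaf 522 1)) (move 460 (branch (move 428 (leaf 427 5)) (move 587 (leaf 459 6))))))))))))))))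
theorem a2p11 : a2e11.Valid :=
  pos_of_chk [] forall_nil a2c11 a2e11 (by decide +kernel)

def a2e12 : Pos := ⟨219673525315979741810835388270848921292295289719147264262173283757878641081171558163764027572280084693202867107147115714443335893833343044179946512277611479040, 82377571921567316939643569382659291275272727914988331416815251227816820858486593520753058529108100547763976808512320133173865234045096668290000194758768590848, 9⟩
def a2c12 : Cert := (move 431 (branch (move 463 (branch (move 464 (leaf 460 2)) (move 399 (leaf 398 5)))) (branch (move 524 (branch (move 523 (leaf 491 1)) (move 464 (branch (move 463 (leaf 460 2)) (move 432 (branch (move 465 (leaf 429 0)) (move 397 (branch (move 396 (leaf 396 3)) (move 433 (branch (move 398 (leaf 397 3)) (move 401 (branch (move 400 (leaf 397 2)) (move 402 (leaf 398 2)))))))))))))) (branch (move 524 (branch (move 523 (leaf 491 1)) (move 399 (branch (move 463 (leaf 398 5)) (move 400 (branch (move 428 (leaf 396 2)) (move 401 (branch (move 398 (leaf 397 1)) (move 402 (leaf 398 1)))))))))) (move 428 (branch (move 399 (branch (move 400 (leaf 396 2)) (move 427 (branch (move 398 (leaf 395 2)) (move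 395 (branch (move 394 (leaf 394 3)) (move 396 (leaf 395 3)))))))) (branch (move 524 (branch (move 523 (leaf 491 1)) (move 399 (branch (move 400 (leaf 396 2)) (move 427 (branch (move 398 (leaf 395 2)) (move 458 (branch (move 459 (leaf 426 1)) (move 426 (branch (move 457 (leaf 425 1)) (move 394 (branch (move 393 (leaf 393 3)) (move 395 (leaf 394 3)))))))))))))) (branch (move 524 (branch (move 523 (leaf 491 1)) (move 396 (branch (move 395 (leaf 395 3)) (move 432 (branch (move 397 (leaf 396 3)) (move 465 (branch (move 464 (leaf 429 0)) (move 433 (branch (move 466 (leaf 430 0)) (move 401 (branch (move 400 (leaf 397 2)) (move 402 (leaf 398 2)))))))))))))) (branch (move 524 (branch (move 523 (leaf 491 1)) (move 400 (branch (move 399 (leaf 396 2)) (move 432 (branch (move 401 (leaf 397 2)) (move 465 (branch (move 464 (leaf 429 0)) (move 433 (branch (move 466 (leaf 430 0)) (move 397 (branch (move 396 (leaf 396 3)) (move 398 (leaf 397 3)))))))))))))) (move 524 (branch (move 523 (leaf 491 1)) (move 395 (branch (move 396 (leaf 395 3)) (move 427 (branch (move 394 (leaf 394 3)) (move 458 (branch (move 459 (leaf 426 1)) (move 426 (branch (move 457 (leaf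 425 1)) (move 398 (branch (move 397 (leaf 394 2)) (move 399 (leaf 395 2)))))))))))))))))))))))
theorem a2p12 : a2e12.Valid :=
  pos_of_chk [] forall_nil a2c12 a2e12 (by decide +kernel)

def a2e13 : Pos := ⟨329510287737415994567508455074862963441864131160263691620357133376582500429589581070705902671800913831502475402273685625274981533505418536533012624431780986880, 32633118294364683076871244939888136093794717810160286737811806073027320214136626095094866404236428287724882939691252774731708584738385029435562569427748029353873034754870606669854223106048, 14⟩
def a2c13 : Cert := (move 493 (branch (move 557 (branch (move 462 (branch (move 430 (leaf 429 5)) (move 589 (leaf 461 6)))) (branch (move 461 (branch (move 429 (branch (move 397 (leaf 397 4)) (move 428 (branch (move 396 (leaf 396 7)) (move 460 (leaf 428 7)))))) (branch (move 462 (branch (move 430 (leaf 429 5)) (move 460 (branch (move 428 (leaf 428 7)) (move 495 (branch (move 459 (leaf 459 0)) (move 496 (leaf 460 3)))))))) (move 430 (branch (move 462 (leaf 429 5)) (move 429 (branch (move 397 (leaf 397 4)) (move 398 (leaf 397 6))))))))) (move 589 (branch (move 621 (leaf 493 6)) (move 588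 (branch (move 620 (leaf 492 5)) (move 461 (branch (move 556 (leaf 460 5)) (move 429 (branch (move 397 (leaf 397 4)) (move 428 (branch (move 396 (leaf 396 7)) (move 460 (leaf 428 7))))))))))))))) (branch (move 557 (branch (move 589 (branch (move 621 (leaf 493 6)) (move 588 (branch (move 620 (leaf 492 5)) (move 556 (branch (move 461 (leaf 460 5)) (move 590 (branch (move 622 (leaf 493 4)) (move 555 (branch (move 554 (leaf 554 0)) (move 591 (leaf 555 3)))))))))))) (branch (move 462 (branch (move 430 (leaf 429 5)) (move 589 (leaf 461 6)))) (move 461 (branch (move 429 (branch (move 397 (leaf 397 4)) (move 428 (branch (move 396 (leaf 396 7)) (move 460 (leaf 428 7)))))) (branch (move 430 (branch (move 462 (leaf 429 5)) (move 429 (branch (move 397 (leaf 397 4)) (move 398 (leaf 397 6)))))) (move 462 (branch (move 430 (leaf 429 5)) (move 460 (branch (move 428 (leaf 428 7)) (move 459 (branch (move 458 (leaf 458 0)) (move 491 (branch (move 490 (leaf 458 1)) (move 463 (branch (move 492 (leaf 459 1)) (move 464 (branch (move 465 (leaf 461 1)) (move 432 (branch (move 431 (leaf 428 2)) (move 433 (leaf 429 2)))))))))))))))))))))) (branch (ref 0) (branch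 (move 495 (branch (move 496 (branch (move 497 (leaf 493 1)) (move 464 (branch (move 465 (leaf 461 2)) (move 463 (branch (move 492 (leaf 460 2)) (move 528 (branch (move 529 (leaf 493 0)) (move 431 (branch (move 399 (leaf 399 4)) (move 560 (leaf 431 7)))))))))))) (branch (move 524 (branch (move 496 (leaf 492 1)) (move 523 (leaf 491 2)))) (move 492 (branch (move 491 (branch (move 490 (leaf 490 0)) (move 463 (branch (move 462 (leaf 459 2)) (move 464 (leaf 460 2)))))) (move 524 (branch (move 523 (leaf 491 1)) (move 460 (branch (move 459 (leaf 459 3)) (move 428 (branch (move 396 (leaf 396 4)) (move 429 (branch (move 397 (leaf 396 6)) (move 556 (branch (move 461 (leaf 428 5)) (move 588 (branch (move 620 (leaf 492 6)) (move 587 (branch (move 555 (leaf 459 5)) (move 619 (leaf 491 5))))))))))))))))))))) (branch (move 492 (branch (move 491 (branch (move 490 (leaf 490 0)) (move 459 (branch (move 458 (leaf 458 3)) (move 460 (branch (move 495 (leaf 459 3)) (move 523 (branch (move 522 (leaf 490 1)) (move 428 (branch (move 396 (leaf 396 4)) (move 555 (leaf 427 6)))))))))))) (branch (move 491 (branch (move 490 (leaf 490 0)) (move 462 (branch (move 463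 (leaf 459 2)) (move 430 (branch (move 398 (leaf 397 5)) (move 557 (leaf 429 5)))))))) (move 495 (branch (move 496 (branch (move 497 (leaf 493 1)) (move 464 (branch (move 463 (leaf 460 2)) (move 465 (leaf 461 2)))))) (move 524 (branch (move 523 (leaf 491 1)) (move 460 (branch (move 459 (leaf 459 3)) (move 557 (branch (move 428 (leaf 428 4)) (move 589 (leaf 460 7))))))))))))) (branch (move 495 (branch (move 496 (branch (move 497 (leaf 493 1)) (move 464 (branch (move 465 (leaf 461 2)) (move 463 (branch (move 492 (leaf 460 2)) (move 528 (branch (move 529 (leaf 493 0)) (move 431 (branch (move 399 (leaf 399 4)) (move 560 (leaf 431 7)))))))))))) (branch (move 524 (branch (move 496 (leaf 492 1)) (move 523 (leaf 491 2)))) (move 492 (branch (move 491 (branch (move 490 (leaf 490 0)) (move 463 (branch (move 462 (leaf 459 2)) (move 464 (leaf 460 2)))))) (branch (move 524 (branch (move 523 (leaf 491 1)) (move 460 (branch (move 459 (leaf 459 3)) (move 557 (branch (move 589 (leaf 460 7)) (move 462 (branch (move 430 (leaf 429 5)) (move 463 (branch (move 464 (leaf 460 2)) (move 431 (branch (move 399 (leaf 398 5)) (move 461 (branch (move 432 (leaf 428 2))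 (move 556 (branch (move 429 (leaf 428 5)) (move 588 (leaf 460 5)))))))))))))))))) (move 524 (branch (move 523 (leaf 491 1)) (move 491 (branch (move 490 (leaf 490 0)) (move 459 (branch (move 458 (leaf 458 3)) (move 460 (leaf 459 3)))))))))))))) (branch (move 557 (branch (move 589 (branch (move 621 (leaf 493 6)) (move 588 (branch (move 620 (leaf 492 5)) (move 556 (branch (move 461 (leaf 460 5)) (move 590 (branch (move 622 (leaf 493 4)) (move 555 (branch (move 554 (leaf 554 0)) (move 591 (leaf 555 3)))))))))))) (branch (move 462 (branch (move 430 (leaf 429 5)) (move 589 (leaf 461 6)))) (move 461 (branch (move 429 (branch (move 397 (leaf 397 4)) (move 428 (branch (move 396 (leaf 396 7)) (move 460 (leaf 428 7)))))) (branch (move 430 (branch (move 462 (leaf 429 5)) (move 429 (branch (move 397 (leaf 397 4)) (move 398 (leaf 397 6)))))) (move 462 (branch (move 430 (leaf 429 5)) (move 460 (branch (move 428 (leaf 428 7)) (move 495 (branch (move 496 (leaf 460 3)) (move 524 (branch (move 523 (leaf 491 2)) (move 556 (branch (move 588 (leaf 460 5)) (move 555 (branch (move 554 (leaf 522 2)) (move 492 (branch (move 587 (leaf 459 5)) (move 463 (branch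 (move 491 (leaf 459 1)) (move 464 (leaf 460 1)))))))))))))))))))))))) (move 492 (branch (move 491 (branch (move 490 (leaf 490 0)) (move 462 (branch (move 463 (leaf 459 2)) (move 430 (branch (move 398 (leaf 397 5)) (move 557 (leaf 429 5)))))))) (branch (move 491 (branch (move 490 (leaf 490 0)) (move 523 (branch (move 522 (leaf 490 1)) (move 524 (branch (move 495 (leaf 491 1)) (move 459 (branch (move 458 (leaf 458 3)) (move 556 (branch (move 427 (leaf 427 4)) (move 588 (leaf 459 7)))))))))))) (move 495 (branch (move 496 (branch (move 497 (leaf 493 1)) (move 464 (branch (move 463 (leaf 460 2)) (move 465 (leaf 461 2)))))) (branch (move 524 (branch (move 523 (leaf 491 1)) (move 496 (leaf 492 1)))) (move 430 (branch (move 462 (branch (move 398 (leaf 397 5)) (move 557 (leaf 429 5)))) (branch (move 524 (branch (move 523 (leaf 491 1)) (move 557 (branch (move 462 (leaf 429 5)) (move 589 (branch (move 621 (leaf 493 6)) (move 588 (branch (move 620 (leaf 492 5)) (move 556 (branch (move 461 (leaf 460 5)) (move 555 (branch (move 554 (leaf 522 2)) (move 590 (branch (move 591 (leaf 555 3)) (move 622 (leaf 493 4)))))))))))))))) (move 429 (branch (move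 461 (branch (move 397 (leaf 397 4)) (move 398 (leaf 397 6)))) (branch (move 524 (branch (move 523 (leaf 491 1)) (move 461 (branch (move 556 (leaf 428 5)) (move 398 (leaf 397 6)))))) (branch (move 524 (branch (move 523 (leaf 491 1)) (move 461 (branch (move 397 (leaf 397 4)) (move 556 (leaf 428 5)))))) (ref 1))))))))))))))))))))))
theorem a2p13 : a2e13.Valid :=
  pos_of_chk [a2e11, a2e12] (forall_cons a2p11 (forall_cons a2p12 forall_nil)) a2c13 a2e13 (by decide +kernel)

def a2e14 : Pos := ⟨219673525175326239127798042289560671965553166357970805070045718029613809495227084236744948421217640951865734420009991896681029725509952235531828171773940072448, 28031635291729864225624032361876903882868188970336968976705837586898152723950109767004746513498099839315817494764848909020180690628051771574615047610458276185005042085699710529875215421251262611456, 15⟩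
def a2c14 : Cert := (move 525 (branch (move 524 (branch (move 527 (branch (move 556 (branch (move 555 (leaf 523 1)) (move 557 (branch (move 528 (leaf 524 1)) (move 492 (branch (move 491 (leaf 491 3)) (move 589 (branch (move 460 (leaf 460 4)) (move 621 (leaf 493 6)))))))))) (move 495 (branch (move 496 (leaf 492 2)) (move 559 (branch (move 560 (leaf 524 0)) (move 462 (branch (move 430 (leaf 430 4)) (move 591 (leaf 462 7)))))))))) (branch (move 523 (branch (move 495 (leaf 491 2)) (move 554 (branch (move 555 (leaf 522 1)) (move 522 (branch (move 553 (leaf 521 1)) (move 490 (branch (move 489 (leaf 489 3)) (move 491 (leaf 490 3)))))))))) (branch (move 495 (branch (move 523 (leaf 491 2)) (move 496 (branch (move 497 (leaf 493 1)) (move 527 (leaf 492 2)))))) (ref 0))))) (branch (move 524 (branch (move 523 (branch (move 495 (leaf 491 2)) (move 554 (branch (move 555 (leaf 522 1)) (move 522 (branch (move 553 (leaf 521 1)) (move 490 (branch (move 489 (leaf 489 3)) (move 491 (leaf 490 3)))))))))) (branch (move 495 (branch (move 523 (leaf 491 2)) (move 496 (branch (move 497 (leaf 493 1)) (move 527 (leaf 492 2)))))) (branch (move 523 (branch (move 522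 (branch (move 493 (leaf 490 2)) (move 554 (branch (move 553 (leaf 521 1)) (move 555 (leaf 522 1)))))) (branch (move 522 (branch (move 493 (leaf 490 2)) (move 490 (branch (move 489 (leaf 489 3)) (move 491 (leaf 490 3)))))) (move 491 (branch (move 490 (leaf 490 3)) (move 527 (branch (move 492 (leaf 491 3)) (move 555 (branch (move 554 (leaf 522 1)) (move 556 (leaf 523 1))))))))))) (move 527 (branch (move 492 (branch (move 491 (leaf 491 3)) (move 528 (branch (move 493 (leaf 492 3)) (move 560 (branch (move 559 (leaf 524 0)) (move 561 (leaf 525 0)))))))) (branch (move 495 (branch (move 496 (leaf 492 2)) (move 559 (branch (move 560 (leaf 524 0)) (move 462 (branch (move 430 (leaf 430 4)) (move 591 (leaf 462 7)))))))) (move 495 (branch (move 496 (leaf 492 2)) (move 492 (branch (move 491 (leaf 491 3)) (move 493 (branch (move 528 (leaf 492 0)) (move 556 (branch (move 555 (leaf 523 1)) (move 461 (branch (move 429 (leaf 428 5)) (move 588 (leaf 460 6))))))))))))))))))) (branch (ref 1) (branch (ref 2) (branch (move 524 (branch (move 523 (branch (move 495 (leaf 491 2)) (move 554 (branch (move 555 (leaf 522 1)) (move 522 (branch (move 553 (leaf 521 1))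 (move 490 (branch (move 489 (leaf 489 3)) (move 491 (leaf 490 3)))))))))) (branch (ref 3) (branch (move 527 (branch (move 556 (branch (move 555 (leaf 523 1)) (move 528 (branch (move 557 (leaf 524 1)) (move 560 (branch (move 559 (leaf 524 0)) (move 561 (leaf 525 0)))))))) (branch (move 492 (branch (move 491 (leaf 491 3)) (move 528 (branch (move 493 (leaf 492 3)) (move 560 (branch (move 559 (leaf 524 0)) (move 561 (leaf 525 0)))))))) (ref 4)))) (move 557 (branch (move 462 (branch (move 430 (leaf 429 5)) (move 589 (branch (move 493 (leaf 461 6)) (move 621 (leaf 493 6)))))) (branch (ref 5) (move 430 (branch (move 462 (leaf 429 5)) (move 492 (branch (move 491 (branch (move 527 (leaf 491 3)) (move 490 (branch (move 489 (leaf 489 0)) (move 523 (leaf 490 3)))))) (move 589 (branch (move 621 (leaf 493 6)) (move 460 (branch (move 428 (leaf 428 4)) (move 556 (leaf 460 4))))))))))))))))) (branch (ref 6) (branch (move 524 (branch (move 523 (branch (move 495 (leaf 491 2)) (move 554 (branch (move 555 (leaf 522 1)) (move 522 (branch (move 553 (leaf 521 1)) (move 490 (branch (move 489 (leaf 489 3)) (move 491 (leaf 490 3)))))))))) (branch (move 495 (branch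 (move 523 (leaf 491 2)) (move 496 (branch (move 497 (leaf 493 1)) (move 527 (leaf 492 2)))))) (branch (ref 7) (ref 8))))) (branch (move 524 (branch (move 523 (branch (move 495 (leaf 491 2)) (move 554 (branch (move 555 (leaf 522 1)) (move 522 (branch (move 553 (leaf 521 1)) (move 490 (branch (move 489 (leaf 489 3)) (move 491 (leaf 490 3)))))))))) (branch (move 495 (branch (move 523 (leaf 491 2)) (move 496 (branch (move 497 (leaf 493 1)) (move 527 (leaf 492 2)))))) (branch (ref 0) (move 527 (branch (move 495 (branch (move 496 (leaf 492 2)) (move 559 (branch (move 560 (leaf 524 0)) (move 462 (branch (move 430 (leaf 430 4)) (move 591 (leaf 462 7)))))))) (branch (ref 4) (move 495 (branch (move 496 (leaf 492 2)) (move 492 (branch (move 491 (leaf 491 3)) (move 556 (branch (move 555 (leaf 523 1)) (move 559 (branch (move 560 (leaf 524 0)) (move 591 (branch (move 623 (leaf 494 7)) (move 590 (branch (move 622 (leaf 494 5)) (move 592 (branch (move 624 (leaf 495 4)) (move 589 (branch (move 557 (leaf 556 3)) (move 588 (branch (move 621 (leaf 492 4)) (move 493 (branch (move 461 (leaf 460 6)) (move 620 (leaf 492 6))))))))))))))))))))))))))))) (branch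 (move 524 (branch (move 495 (branch (move 523 (leaf 491 2)) (move 496 (branch (move 497 (leaf 493 1)) (move 527 (leaf 492 2)))))) (branch (ref 3) (branch (ref 8) (move 523 (branch (move 495 (leaf 491 2)) (move 522 (branch (move 493 (leaf 490 2)) (move 554 (branch (move 553 (leaf 521 1)) (move 555 (leaf 522 1)))))))))))) (branch (move 524 (branch (move 523 (branch (move 495 (leaf 491 2)) (move 554 (branch (move 555 (leaf 522 1)) (move 522 (branch (move 553 (leaf 521 1)) (move 490 (branch (move 489 (leaf 489 3)) (move 491 (leaf 490 3)))))))))) (branch (move 495 (branch (move 523 (leaf 491 2)) (move 496 (branch (move 497 (leaf 493 1)) (move 527 (leaf 492 2)))))) (branch (ref 9) (ref 10))))) (branch (move 524 (branch (move 495 (branch (move 523 (leaf 491 2)) (move 496 (branch (move 497 (leaf 493 1)) (move 527 (leaf 492 2)))))) (branch (move 557 (branch (move 462 (branch (move 430 (leaf 429 5)) (move 589 (branch (move 493 (leaf 461 6)) (move 621 (leaf 493 6)))))) (branch (ref 5) (move 430 (branch (move 462 (leaf 429 5)) (move 492 (branch (move 491 (branch (move 527 (leaf 491 3)) (move 490 (branch (move 489 (leaf 489 0)) (move 523 (leaf 490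 3)))))) (move 589 (branch (move 621 (leaf 493 6)) (move 460 (branch (move 428 (leaf 428 4)) (move 556 (leaf 460 4))))))))))))) (branch (ref 10) (move 523 (branch (move 495 (leaf 491 2)) (move 522 (branch (move 493 (leaf 490 2)) (move 490 (branch (move 489 (leaf 489 3)) (move 491 (leaf 490 3)))))))))))) (branch (move 524 (branch (move 495 (branch (move 523 (leaf 491 2)) (move 496 (branch (move 497 (leaf 493 1)) (move 527 (leaf 492 2)))))) (branch (move 527 (branch (move 556 (branch (move 555 (leaf 523 1)) (move 528 (branch (move 557 (leaf 524 1)) (move 560 (branch (move 559 (leaf 524 0)) (move 561 (leaf 525 0)))))))) (branch (move 492 (branch (move 491 (leaf 491 3)) (move 528 (branch (move 493 (leaf 492 3)) (move 560 (branch (move 559 (leaf 524 0)) (move 561 (leaf 525 0)))))))) (ref 4)))) (move 523 (branch (move 495 (leaf 491 2)) (move 522 (branch (move 493 (leaf 490 2)) (move 554 (branch (move 553 (leaf 521 1)) (move 555 (leaf 522 1))))))))))) (branch (move 524 (branch (move 495 (branch (move 523 (leaf 491 2)) (move 496 (branch (move 497 (leaf 493 1)) (move 527 (leaf 492 2)))))) (branch (move 527 (branch (move 556 (branch (move 555 (leaf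 523 1)) (move 528 (branch (move 557 (leaf 524 1)) (move 560 (branch (move 559 (leaf 524 0)) (move 561 (leaf 525 0)))))))) (branch (move 492 (branch (move 491 (leaf 491 3)) (move 528 (branch (move 493 (leaf 492 3)) (move 560 (branch (move 559 (leaf 524 0)) (move 561 (leaf 525 0)))))))) (ref 4)))) (move 523 (branch (move 495 (leaf 491 2)) (move 522 (branch (move 493 (leaf 490 2)) (move 490 (branch (move 489 (leaf 489 3)) (move 491 (leaf 490 3))))))))))) (ref 11)))))))))))))))
theorem a2p14 : a2e14.Valid :=
  pos_of_chk [a2e0, a2e6, a2e7, a2e3, a2e4, a2e5, a2e8, a2e1, a2e9, a2e2, a2e10, a2e13] (forall_cons a2p0 (forall_cons a2p6 (forall_cons a2p7 (forall_cons a2p3 (forall_cons a2p4 (forall_cons a2p5 (forall_cons a2p8 (forall_cons a2p1 (forall_cons a2p9 (forall_cons a2p2 (forall_cons a2p10 (forall_cons a2p13 forall_nil)))))))))))) a2c14 a2e14 (by decide +kernel)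

def a2e15 : Pos := ⟨4052261298678835292472332167621614445910457288693045762221672384478050516276869870346114937504164814640727888950433161645489460367034449878270504088839728461535687537570575548416, 80263304180497655306771540647513259770403268477690854704352291626936768641238792232779525699381148077353899607763853697701624187805998755487297956715957192162249546710770856551665942899875405429215632293888, 8⟩
def a2c15 : Cert := (move 589 (branch (move 621 (leaf 493 5)) (move 588 (branch (move 587 (branch (move 559 (leaf 555 2)) (move 586 (branch (move 557 (leaf 554 2)) (move 554 (branch (move 553 (leaf 553 3)) (move 555 (leaf 554 3)))))))) (branch (move 591 (branch (move 623 (leaf 494 4)) (move 556 (branch (move 555 (leaf 555 3)) (move 557 (branch (move 592 (leaf 556 3)) (move 620 (branch (move 619 (leaf 587 1)) (move 652 (branch (move 525 (leaf 524 6)) (move 684 (leaf 556 6)))))))))))) (move 591 (branch (move 623 (leaf 494 4)) (move 559 (branch (move 587 (leaf 555 2)) (move 560 (leaf 556 2)))))))))))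
theorem a2p15 : a2e15.Valid :=
  pos_of_chk [] forall_nil a2c15 a2e15 (by decide +kernel)

def a2e16 : Pos := ⟨943490606425058863235714884374865265018790977069663273452022380131451758627651022516758765531159640306584734709556695644952638054162227883650310798390002182686288904192, 34808659509396432474813867975614521600301343016756950559674828976159698761644800248383922553496543234626119973717104239651713200889694201154623506980620735987990483842118350612164427907072, 5⟩
def a2c16 : Cert := (move 462 (branch (move 431 (branch (move 463 (leaf 430 6)) (move 430 (branch (move 399 (leaf 398 6)) (move 429 (branch (move 397 (leaf 397 7)) (move 461 (leaf 429 7)))))))) (branch (move 559 (branch (move 591 (leaf 462 4)) (move 430 (branch (move 527 (leaf 430 4)) (move 429 (branch (move 397 (leaf 397 7)) (move 461 (leaf 429 7)))))))) (move 463 (branch (move 431 (leaf 430 6)) (move 590 (branch (move 495 (leaf 462 6)) (move 591 (branch (move 559 (leaf 462 4)) (move 623 (leaf 494 4)))))))))))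
theorem a2p16 : a2e16.Valid :=
  pos_of_chk [] forall_nil a2c16 a2e16 (by decide +kernel)

def a2e17 : Pos := ⟨943490606425058863235714884374865265018790977069663273452022380131451758627651022516758765531159640306584734709556695644952638054162227883650310798390002182686288904192, 8702164880388304092004975508439085378441480517744757362614616185520351265777192586807436767640335620612377564701258948199825033606042523055839012826119367496266225976007760703648451002368, 5⟩
def a2c17 : Cert := (move 462 (branch (move 431 (branch (move 463 (leaf 430 6)) (move 430 (branch (move 399 (leaf 398 6)) (move 429 (branch (move 397 (leaf 397 7)) (move 461 (leaf 429 7)))))))) (branch (move 463 (branch (move 431 (leaf 430 6)) (move 590 (branch (move 495 (leaf 462 6)) (move 589 (branch (move 557 (leaf 461 5)) (move 621 (leaf 493 5)))))))) (move 557 (branch (move 589 (leaf 461 5)) (move 430 (branch (move 525 (leaf 429 5)) (move 429 (branch (move 397 (leaf 397 7)) (move 461 (leaf 429 7)))))))))))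
theorem a2p17 : a2e17.Valid :=
  pos_of_chk [] forall_nil a2c17 a2e17 (by decide +kernel)

def a2e18 : Pos := ⟨943490606425058863235714884374865265018790977069663273452022380131451758627651022516758765531159640306584734709556695644952638054162227883650310798390002182686288904192, 43510824385732475269083498798006333674152337059907110140600390609034565789565491656392424460344049832423809572024566497851696004153626052203042822227316771792031549074262808159609136611328, 5⟩
def a2c18 : Cert := (move 462 (branch (move 559 (branch (move 591 (leaf 462 4)) (move 430 (branch (move 527 (leaf 430 4)) (move 429 (branch (move 397 (leaf 397 7)) (move 461 (leaf 429 7)))))))) (branch (move 591 (branch (move 559 (leaf 462 4)) (move 590 (branch (move 623 (leaf 494 4)) (move 589 (branch (move 557 (leaf 461 5)) (move 621 (leaf 493 5)))))))) (move 557 (branch (move 589 (leaf 461 5)) (move 430 (branch (move 525 (leaf 429 5)) (move 429 (branch (move 397 (leaf 397 7)) (move 461 (leaf 429 7)))))))))))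
theorem a2p18 : a2e18.Valid :=
  pos_of_chk [] forall_nil a2c18 a2e18 (by decide +kernel)

def a2e19 : Pos := ⟨943490606425058863235714884386773790677650200364423394720459446422301818681152041616410700954535234403034646285333009819846940312309761037647375857653033095769511428096, 125366833912780617161583475823621311496582463219988843470966747867930771439647859857951094635488012953258484383550384194826658947922747834385066102841624299792191206752873317662720, 12⟩
def a2c19 : Cert := (move 557 (branch (move 589 (leaf 461 5)) (move 556 (branch (move 555 (branch (move 527 (leaf 523 2)) (move 554 (branch (move 525 (leaf 522 2)) (move 522 (branch (move 521 (leaf 521 3)) (move 523 (leaf 522 3)))))))) (branch (move 559 (branch (move 591 (leaf 462 4)) (move 524 (branch (move 523 (leaf 523 3)) (move 560 (branch (move 525 (leaf 524 3)) (move 587 (branch (move 588 (leaf 555 1)) (move 555 (branch (move 586 (leaf 554 1)) (move 529 (branch (move 528 (leaf 525 2)) (move 561 (branch (move 530 (leaf 526 2)) (move 593 (branch (move 592 (leaf 557 0)) (move 594 (leaf 558 0)))))))))))))))))) (move 559 (branch (move 591 (leaf 462 4)) (move 528 (branch (move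 527 (leaf 524 2)) (move 560 (branch (move 529 (leaf 525 2)) (move 463 (branch (move 431 (leaf 430 6)) (move 461 (branch (move 429 (leaf 429 7)) (move 592 (branch (move 593 (leaf 557 0)) (move 496 (branch (move 495 (leaf 463 7)) (move 464 (branch (move 497 (leaf 461 0)) (move 433 (branch (move 432 (leaf 429 2)) (move 465 (leaf 432 6)))))))))))))))))))))))))
theorem a2p19 : a2e19.Valid :=
  pos_of_chk [] forall_nil a2c19 a2e19 (by decide +kernel)

def a2e20 : Pos := ⟨943490606425058863235714884374865265018790977069663273452022380131451758627651022516758765531159640306584734709556695644952638054162227883650310798390002182686288904192, 80263304367375223021980986555727734327482972183676059646000886590805611128655651043503630090220682304265863602337128568984699721962801011797811539180707158676312855698724698598905318347546027789523217285120, 9⟩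
def a2c20 : Cert := (move 590 (branch (move 623 (branch (move 591 (leaf 494 4)) (move 622 (branch (move 655 (leaf 526 4)) (move 621 (branch (move 589 (leaf 493 5)) (move 653 (leaf 525 5)))))))) (branch (ref 0) (branch (move 493 (branch (move 461 (leaf 461 7)) (move 622 (branch (move 525 (leaf 493 7)) (move 623 (branch (move 591 (leaf 494 4)) (move 655 (leaf 526 4)))))))) (move 493 (branch (move 461 (leaf 461 7)) (move 622 (branch (move 525 (leaf 493 7)) (move 621 (branch (move 589 (leaf 493 5)) (move 653 (leaf 525 5))))))))))))
theorem a2p20 : a2e20.Valid :=
  pos_of_chk [a2e15] (forall_cons a2p15 forall_nil) a2c20 a2e20 (by decide +kernel)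

def a2e21 : Pos := ⟨943490606425058863235714884374865265018790977069663273452022380131451758627651022516758765531159640306584734709556695644952638054162227883650310798390002182686288904192, 6078391947074762332283439388215886807673276066741534718284432184743179545966797822488187099532087680202172732040128841949379540332512716532167966064797857583972160180599966924800, 6⟩
def a2c21 : Cert := (move 462 (branch (move 557 (branch (move 589 (leaf 461 5)) (move 430 (branch (move 525 (leaf 429 5)) (move 429 (branch (move 397 (leaf 397 7)) (move 461 (leaf 429 7)))))))) (branch (move 557 (branch (move 589 (leaf 461 5)) (move 430 (branch (move 525 (leaf 429 5)) (move 431 (branch (move 399 (leaf 398 6)) (move 463 (leaf 430 6)))))))) (move 461 (branch (move 429 (leaf 429 7)) (move 493 (branch (move 590 (leaf 461 7)) (move 463 (branch (move 431 (leaf 430 6)) (move 492 (branch (move 464 (leaf 460 1)) (move 491 (leaf 459 2)))))))))))))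
theorem a2p21 : a2e21.Valid :=
  pos_of_chk [] forall_nil a2c21 a2e21 (by decide +kernel)

def a2e22 : Pos := ⟨943490606425058863235714884386773790677650200364423394720459446422301818681152041616410700954535234403034646285333009819846940312309761037647375857653033095769511428096, 125366833912780617161583475822905257300932508563829795776446936979527156525188538850776031534179081281316043756352233135318429286475944360600513082692988409004524476991230850367488, 11⟩
def a2c22 : Cert := (move 557 (branch (move 589 (leaf 461 5)) (move 556 (branch (move 555 (branch (move 527 (leaf 523 2)) (move 554 (branch (move 525 (leaf 522 2)) (move 522 (branch (move 521 (leaf 521 3)) (move 523 (leaf 522 3)))))))) (branch (move 559 (branch (move 591 (leaf 462 4)) (move 524 (branch (move 523 (leaf 523 3)) (move 560 (branch (move 525 (leaf 524 3)) (move 587 (branch (move 588 (leaf 555 1)) (move 555 (branch (move 586 (leaf 554 1)) (move 529 (branch (move 528 (leaf 525 2)) (move 561 (branch (move 530 (leaf 526 2)) (move 593 (branch (move 592 (leaf 557 0)) (move 594 (leaf 558 0)))))))))))))))))) (branch (move 559 (branch (move 591 (leaf 462 4)) (move 527 (branch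 (move 555 (leaf 523 2)) (move 528 (leaf 524 2)))))) (move 559 (branch (move 591 (leaf 462 4)) (move 528 (branch (move 527 (leaf 524 2)) (move 560 (branch (move 529 (leaf 525 2)) (move 525 (branch (move 524 (leaf 524 3)) (move 561 (leaf 525 3))))))))))))))))
theorem a2p22 : a2e22.Valid :=
  pos_of_chk [] forall_nil a2c22 a2e22 (by decide +kernel)

def a2e23 : Pos := ⟨943490606425058863235714884374865265018790977069663273452022380131451758627651022516758765531159640306584734709556695644952638054162227883650310798390002182686288904192, 186877567766334664572897771175706534888362404994302126268107327542212380280310479811967707078110021802230240125760646199630562938304813154972737575855824829931173963717155006039732049669007387656192, 13⟩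
def a2c23 : Cert := (move 590 (branch (move 623 (branch (move 591 (leaf 494 4)) (move 622 (branch (move 655 (leaf 526 4)) (move 621 (branch (move 589 (leaf 493 5)) (move 653 (leaf 525 5)))))))) (branch (move 495 (branch (move 463 (leaf 462 6)) (move 622 (branch (move 527 (leaf 494 6)) (move 623 (branch (move 591 (leaf 494 4)) (move 655 (leaf 526 4)))))))) (branch (move 495 (branch (move 463 (leaf 462 6)) (move 622 (branch (move 527 (leaf 494 6)) (move 621 (branch (move 589 (leaf 493 5)) (move 653 (leaf 525 5)))))))) (move 589 (branch (move 621 (leaf 493 5)) (move 588 (branch (move 587 (branch (move 559 (leaf 555 2)) (move 586 (branch (move 557 (leaf 554 2)) (move 554 (branch (move 553 (leaf 553 3)) (move 555 (leaf 554 3)))))))) (branch (move 591 (branch (move 623 (leaf 494 4)) (move 559 (branch (move 587 (leaf 555 2)) (move 560 (leaf 556 2)))))) (branch (move 591 (branch (move 623 (leaf 494 4)) (move 556 (branch (move 555 (leaf 555 3)) (move 592 (branch (move 557 (leaf 556 3)) (move 619 (branch (move 620 (leaf 587 1)) (move 587 (branch (move 618 (leaf 586 1)) (move 493 (branch (move 461 (leaf 461 7)) (move 492 (branch (move 524 (leaf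 491 5)) (move 495 (branch (move 463 (leaf 462 6)) (move 527 (branch (move 491 (leaf 491 0)) (move 528 (leaf 492 0)))))))))))))))))))) (move 591 (branch (move 623 (leaf 494 4)) (move 556 (branch (move 555 (leaf 555 3)) (move 592 (branch (move 557 (leaf 556 3)) (move 560 (branch (move 559 (leaf 556 2)) (move 561 (leaf 557 2))))))))))))))))))))
theorem a2p23 : a2e23.Valid :=
  pos_of_chk [] forall_nil a2c23 a2e23 (by decide +kernel)

def a2e24 : Pos := ⟨943490606425058863235714884374865265018790977069663273452022380131451758627651022516758765531159640306584734709556695644952638054162227883650310798390002182686288904192, 186877567758720270289894688526540876605423657872808885508690990096837911424583024492982144668249195789668051174334854963989101908324773731886424515279761424318716575947969596318178646392738399911936, 5⟩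
def a2c24 : Cert := (move 590 (branch (move 623 (branch (move 591 (leaf 494 4)) (move 622 (branch (move 655 (leaf 526 4)) (move 621 (branch (move 589 (leaf 493 5)) (move 653 (leaf 525 5)))))))) (branch (move 495 (branch (move 463 (leaf 462 6)) (move 622 (branch (move 527 (leaf 494 6)) (move 623 (branch (move 591 (leaf 494 4)) (move 655 (leaf 526 4)))))))) (move 589 (branch (move 621 (leaf 493 5)) (move 462 (branch (move 557 (leaf 461 5)) (move 463 (branch (move 431 (leaf 430 6)) (move 495 (leaf 462 6)))))))))))
theorem a2p24 : a2e24.Valid :=
  pos_of_chk [] forall_nil a2c24 a2e24 (by decide +kernel)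

def a2e25 : Pos := ⟨943490606425058863235714884374865265018790977069663273452022380131451758627651022516758765531159640306584734709556695644952638054162227883650310798390002182686288904192, 186877567758720270289894688528427857817395081498604583685035854277584280895883282588638975503504138162837330010938173575391033804697501385768998185420466620063685966769848234384259415976876051529728, 5⟩
def a2c25 : Cert := (move 590 (branch (move 623 (branch (move 591 (leaf 494 4)) (move 622 (branch (move 655 (leaf 526 4)) (move 621 (branch (move 589 (leaf 493 5)) (move 653 (leaf 525 5)))))))) (branch (move 589 (branch (move 621 (leaf 493 5)) (move 462 (branch (move 557 (leaf 461 5)) (move 461 (branch (move 429 (leaf 429 7)) (move 493 (leaf 461 7)))))))) (move 591 (branch (move 623 (leaf 494 4)) (move 462 (branch (move 559 (leaf 462 4)) (move 461 (branch (move 429 (leaf 429 7)) (move 493 (leaf 461 7)))))))))))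
theorem a2p25 : a2e25.Valid :=
  pos_of_chk [] forall_nil a2c25 a2e25 (by decide +kernel)

def a2e26 : Pos := ⟨943490606425058863235714884374865265018790977069663273452022380131451758627651022516758765531159640306584734709556695644952638054162227883650310798390002182686288904192, 8702164880388304092004975508329248615904964126429235558188791938550505919351592216241836795961205143491266113151709513909267308322701908301316621317271978743030269491771305884219739209728, 5⟩
def a2c26 : Cert := (move 462 (branch (move 431 (branch (move 463 (leaf 430 6)) (move 430 (branch (move 399 (leaf 398 6)) (move 429 (branch (move 397 (leaf 397 7)) (move 461 (leaf 429 7)))))))) (branch (move 463 (branch (move 431 (leaf 430 6)) (move 590 (branch (move 495 (leaf 462 6)) (move 589 (branch (move 557 (leaf 461 5)) (move 621 (leaf 493 5)))))))) (move 461 (branch (move 429 (leaf 429 7)) (move 590 (branch (move 493 (leaf 461 7)) (move 589 (branch (move 557 (leaf 461 5)) (move 621 (leaf 493 5)))))))))))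
theorem a2p26 : a2e26.Valid :=
  pos_of_chk [] forall_nil a2c26 a2e26 (by decide +kernel)

def a2e27 : Pos := ⟨943490606425058863235714884386773790677650200364423394720459446422301818681152041616410700954535234403034646285333009819846940312309761037647375857653033095769511428096, 60657286307021406852991519577561529559330810549143846704424040123340539281347108690692203701178817909643400835742296842683399511455502000888711760551610854980678404139323393835008, 12⟩
def a2c27 : Cert := (move 557 (branch (move 589 (leaf 461 5)) (move 556 (branch (move 559 (branch (move 591 (leaf 462 4)) (move 527 (branch (move 555 (leaf 523 2)) (move 528 (leaf 524 2)))))) (branch (move 555 (branch (move 527 (leaf 523 2)) (move 523 (branch (move 522 (leaf 522 3)) (move 586 (branch (move 587 (leaf 554 1)) (move 554 (branch (move 585 (leaf 553 1)) (move 491 (branch (move 459 (leaf 458 5)) (move 463 (branch (move 431 (leaf 430 6)) (move 461 (branch (move 429 (leaf 429 7)) (move 492 (branch (move 460 (leaf 459 1)) (move 493 (leaf 459 2)))))))))))))))))) (branch (move 559 (branch (move 591 (leaf 462 4)) (move 461 (branch (move 429 (leaf 429 7)) (move 463 (branch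 (move 431 (leaf 430 6)) (move 523 (branch (move 524 (leaf 523 3)) (move 555 (branch (move 522 (leaf 522 3)) (move 587 (branch (move 586 (leaf 554 1)) (move 588 (leaf 555 1)))))))))))))) (move 559 (branch (move 591 (leaf 462 4)) (move 528 (branch (move 527 (leaf 524 2)) (move 560 (branch (move 529 (leaf 525 2)) (move 463 (branch (move 431 (leaf 430 6)) (move 461 (branch (move 429 (leaf 429 7)) (move 592 (branch (move 593 (leaf 557 0)) (move 496 (branch (move 495 (leaf 463 7)) (move 464 (branch (move 497 (leaf 461 0)) (move 433 (branch (move 432 (leaf 429 2)) (move 465 (leaf 432 6))))))))))))))))))))))))))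
theorem a2p27 : a2e27.Valid :=
  pos_of_chk [] forall_nil a2c27 a2e27 (by decide +kernel)

def a2e28 : Pos := ⟨4052261298678835292472332167749481266531400330490435984754000476361513096200427088685306006570420041062785488750560899626970091505740960977003319362637277545359335703716221157376, 50037448038932246065163396022053660402965840536858035967453342280015925413831576699476613430284156418114067033830541767383107146591302332276118126326777768728229736337048252347222088220672, 10⟩
def a2c28 : Cert := (move 496 (branch (move 591 (branch (move 623 (leaf 494 4)) (move 589 (branch (move 621 (leaf 493 5)) (move 529 (branch (move 528 (leaf 493 0)) (move 497 (branch (move 530 (leaf 494 0)) (move 465 (branch (move 464 (leaf 461 2)) (move 466 (leaf 462 2)))))))))))) (branch (move 524 (branch (move 525 (leaf 492 1)) (move 492 (branch (move 523 (leaf 491 1)) (move 589 (branch (move 621 (leaf 493 5)) (move 591 (branch (move 623 (leaf 494 4)) (move 460 (branch (move 459 (leaf 459 3)) (move 556 (branch (move 557 (leaf 460 4)) (move 588 (branch (move 555 (leaf 555 3)) (move 619 (branch (move 620 (leaf 587 1)) (move 587 (leaf 491 5)))))))))))))))))) (move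 525 (branch (move 524 (leaf 492 1)) (move 497 (leaf 493 1)))))))
theorem a2p28 : a2e28.Valid :=
  pos_of_chk [] forall_nil a2c28 a2e28 (by decide +kernel)

def a2e29 : Pos := ⟨943490606425058863338008340871619698456703155095525746958792444070297533299003877769762946668805720146686925094741200555917846933148480102688350065448920715602805391360, 802633041879727579707378126566383412498095793784120311290976445534019835651227273216833299230447508738762335734295051555834661116473213816271181273378328528033435201928861997469987787374100737605716364230656, 10⟩
def a2c29 : Cert := (move 590 (branch (move 621 (branch (move 589 (leaf 493 5)) (move 622 (branch (move 653 (leaf 525 5)) (move 623 (branch (move 591 (leaf 494 4)) (move 655 (leaf 526 4)))))))) (branch (move 623 (branch (move 591 (leaf 494 4)) (move 622 (branch (move 655 (leaf 526 4)) (move 525 (branch (move 493 (leaf 493 7)) (move 524 (branch (move 523 (leaf 491 2)) (move 653 (branch (move 621 (leaf 525 5)) (move 654 (branch (move 685 (leaf 557 5)) (move 557 (leaf 525 7)))))))))))))) (branch (move 621 (branch (move 589 (leaf 493 5)) (move 622 (branch (move 653 (leaf 525 5)) (move 525 (branch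 (move 493 (leaf 493 7)) (move 524 (branch (move 523 (leaf 491 2)) (move 654 (branch (move 557 (leaf 525 7)) (move 655 (branch (move 623 (leaf 526 4)) (move 687 (leaf 558 4)))))))))))))) (branch (move 591 (branch (move 623 (leaf 494 4)) (move 462 (branch (move 559 (leaf 462 4)) (move 557 (branch (move 589 (leaf 461 5)) (move 525 (branch (move 430 (leaf 429 5)) (move 622 (branch (move 493 (leaf 493 7)) (move 654 (leaf 525 7)))))))))))) (branch (move 621 (branch (move 589 (leaf 493 5)) (move 622 (branch (move 653 (leaf 525 5)) (move 525 (branch (move 493 (leaf 493 7)) (move 557 (branch (move 654 (leaf 525 7)) (move 524 (branch (move 523 (leaf 491 2)) (move 559 (branch (move 560 (leaf 524 3)) (move 591 (branch (move 462 (leaf 462 4)) (move 592 (branch (move 556 (leaf 556 0)) (move 593 (leaf 589 1)))))))))))))))))) (move 589 (branch (move 621 (leaf 493 5)) (move 591 (branch (move 623 (leaf 494 4)) (move 557 (branch (move 462 (leaf 461 5)) (move 556 (branch (move 555 (leaf 555 0)) (move 592 (leaf 556 3))))))))))))))))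
theorem a2p29 : a2e29.Valid :=
  pos_of_chk [] forall_nil a2c29 a2e29 (by decide +kernel)

def a2e30 : Pos := ⟨943490606425058863338008340871619698456703155095525746958792444070297533299003877769762946668805720146686925094741200555917846933148480102688350065448920715602805391360, 2026130649339417646318543656346135278537866540177492716092423487783813290829508622763370561380081683777399750444636526379435923851245132002009768914695300590362019522048864288768, 6⟩
def a2c30 : Cert := (move 462 (branch (move 461 (branch (move 429 (leaf 429 7)) (move 496 (branch (move 497 (leaf 461 3)) (move 460 (branch (move 459 (leaf 459 0)) (move 493 (leaf 460 3)))))))) (branch (move 557 (branch (move 589 (leaf 461 5)) (move 525 (branch (move 430 (leaf 429 5)) (move 524 (branch (move 523 (leaf 491 2)) (move 496 (branch (move 493 (leaf 492 1)) (move 497 (leaf 493 1)))))))))) (move 557 (branch (move 589 (leaf 461 5)) (move 430 (branch (move 525 (leaf 429 5)) (move 429 (branch (move 397 (leaf 397 7)) (move 461 (leaf 429 7)))))))))))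
theorem a2p30 : a2e30.Valid :=
  pos_of_chk [] forall_nil a2c30 a2e30 (by decide +kernel)

def a2e31 : Pos := ⟨943490606425058863338008340871619698456703155095525746958792444070297533299003877769762946668805720146686925094741200555917846933148480102688350065448920715602805391360, 1284212867168278835930746890530882177010393407697344640913163343521694640388332343665622366984269261362242728033934813409273891125581189746747536561332933401441947134909886630147442432129260496276314828832768, 14⟩
def a2c31 : Cert := (move 591 (branch (move 559 (branch (move 462 (leaf 462 4)) (move 623 (branch (move 590 (leaf 494 4)) (move 655 (leaf 526 7)))))) (branch (move 462 (branch (move 559 (leaf 462 4)) (move 557 (branch (move 589 (leaf 461 5)) (move 430 (branch (move 525 (leaf 429 5)) (move 429 (branch (move 397 (leaf 397 7)) (move 461 (leaf 429 7)))))))))) (branch (move 590 (branch (move 623 (leaf 494 4)) (move 589 (branch (move 621 (leaf 493 5)) (move 557 (branch (move 462 (leaf 461 5)) (move 556 (branch (move 555 (leaf 555 0)) (move 592 (leaf 556 3)))))))))) (move 590 (branch (move 623 (leaf 494 4)) (move 557 (branch (move 556 (branch (move 555 (leaf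 555 0)) (move 592 (branch (move 559 (leaf 556 0)) (move 593 (leaf 557 3)))))) (branch (move 589 (branch (move 621 (leaf 493 5)) (move 592 (branch (move 593 (leaf 557 3)) (move 560 (branch (move 561 (leaf 557 2)) (move 559 (branch (move 588 (leaf 556 1)) (move 525 (branch (move 524 (leaf 524 3)) (move 654 (branch (move 622 (leaf 525 7)) (move 624 (branch (move 625 (leaf 589 0)) (move 656 (branch (move 688 (leaf 559 7)) (move 528 (branch (move 529 (leaf 525 2)) (move 496 (branch (move 497 (leaf 493 1)) (move 464 (leaf 463 5)))))))))))))))))))))) (branch (move 621 (branch (move 589 (leaf 493 5)) (move 622 (branch (move 653 (leaf 525 5)) (move 525 (branch (move 654 (leaf 525 7)) (move 524 (branch (move 523 (leaf 491 2)) (move 556 (branch (move 555 (leaf 555 0)) (move 559 (branch (move 560 (leaf 524 3)) (move 588 (branch (move 587 (leaf 555 1)) (move 620 (branch (move 619 (leaf 587 2)) (move 652 (leaf 524 6)))))))))))))))))) (move 589 (branch (move 621 (leaf 493 5)) (move 556 (branch (move 555 (leaf 555 0)) (move 592 (leaf 556 3))))))))))))))))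
theorem a2p31 : a2e31.Valid :=
  pos_of_chk [] forall_nil a2c31 a2e31 (by decide +kernel)

def a2e32 : Pos := ⟨358027097738640517032692623090518657273695223785960211349734993385514633981761279440357666348145767188378231076451882766633137434706214865207807705088, 48627135584146023520212315217240976325006695424077312036838645332553245418049372945296685410038360994645437630875173837737419307917578945025903781598066724007828223434106660192256, 9⟩
def a2c32 : Cert := (move 465 (branch (move 497 (branch (move 466 (leaf 462 2)) (move 529 (branch (move 530 (leaf 494 0)) (move 528 (branch (move 493 (leaf 493 0)) (move 560 (branch (move 433 (leaf 432 5)) (move 592 (leaf 464 6)))))))))) (branch (move 466 (branch (move 497 (leaf 462 2)) (move 464 (branch (move 463 (leaf 462 1)) (move 467 (leaf 463 1)))))) (branch (move 464 (branch (move 493 (leaf 461 2)) (move 466 (branch (move 463 (leaf 462 1)) (move 467 (leaf 463 1)))))) (move 528 (branch (move 529 (branch (move 493 (leaf 493 0)) (move 530 (branch (move 497 (leaf 494 0)) (move 531 (leaf 495 3)))))) (branch (move 464 (branch (move 493 (leaf 461 2)) (move 560 (branch (move 433 (leaf 432 6)) (move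 463 (branch (move 431 (leaf 431 7)) (move 592 (leaf 463 7)))))))) (move 560 (branch (move 464 (branch (move 433 (leaf 432 6)) (move 463 (branch (move 431 (leaf 431 7)) (move 561 (branch (move 593 (leaf 464 4)) (move 529 (branch (move 432 (leaf 432 4)) (move 530 (branch (move 497 (leaf 494 0)) (move 531 (leaf 495 3)))))))))))) (branch (move 592 (branch (move 497 (leaf 464 6)) (move 463 (leaf 463 7)))) (branch (move 464 (branch (move 433 (leaf 432 6)) (move 463 (branch (move 431 (leaf 431 7)) (move 592 (leaf 463 7)))))) (move 497 (branch (move 592 (leaf 464 6)) (move 433 (branch (move 401 (leaf 400 5)) (move 529 (leaf 432 5)))))))))))))))))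
theorem a2p32 : a2e32.Valid :=
  pos_of_chk [] forall_nil a2c32 a2e32 (by decide +kernel)

def a2e33 : Pos := ⟨943490606425058863338008340883528224115562378390285868227229510361147593352504896869414882092181314243136836670517514730812149191296013256685415124711951628686027915264, 23817051327422790521202563189250700780761173010772503388418452993973354073424589738672400675282090463991285302765368564578730214187899813888, 6⟩
def a2c33 : Cert := (move 430 (branch (move 397 (branch (move 429 (leaf 397 7)) (move 398 (branch (move 365 (leaf 365 7)) (move 366 (branch (move 463 (leaf 366 4)) (move 367 (branch (move 335 (leaf 334 6)) (move 399 (leaf 366 6)))))))))) (branch (move 399 (branch (move 431 (leaf 398 6)) (move 398 (branch (move 367 (leaf 366 6)) (move 397 (branch (move 365 (leaf 365 7)) (move 429 (leaf 397 7)))))))) (branch (move 463 (branch (move 431 (leaf 430 6)) (move 398 (branch (move 366 (leaf 366 4)) (move 397 (branch (move 365 (leaf 365 7)) (move 429 (leaf 397 7)))))))) (move 431 (branch (move 399 (leaf 398 6)) (move 463 (leaf 430 6))))))))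
theorem a2p33 : a2e33.Valid :=
  pos_of_chk [] forall_nil a2c33 a2e33 (by decide +kernel)

def a2e34 : Pos := ⟨943490606425058863338008340871619698456703155095525746958792444070297533299003877769762946668805720146686925094741200555917846933148480102688350065448920715602805391360, 26339698448960354252113660516997127811776806798651262659490266262066973218695521584786227695609529511983338167645870102442579859292199207867278322508399850265630979578915675176960, 9⟩
def a2c34 : Cert := (move 462 (branch (move 557 (branch (move 589 (leaf 461 5)) (move 525 (branch (move 430 (leaf 429 5)) (move 524 (branch (move 523 (leaf 491 2)) (move 496 (branch (move 493 (leaf 492 1)) (move 497 (leaf 493 1)))))))))) (branch (ref 0) (move 525 (branch (move 559 (branch (move 591 (leaf 462 4)) (move 524 (branch (move 523 (leaf 523 0)) (move 560 (branch (move 557 (leaf 524 3)) (move 561 (leaf 525 3)))))))) (branch (move 557 (branch (move 589 (leaf 461 5)) (move 463 (branch (move 431 (leaf 430 6)) (move 496 (branch (move 497 (leaf 493 1)) (move 559 (branch (move 591 (leaf 462 4)) (move 560 (branch (move 561 (leaf 525 3)) (move 528 (branch (move 529 (leaf 525 2))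 (move 592 (leaf 463 7)))))))))))))) (move 524 (branch (move 523 (leaf 491 2)) (move 496 (branch (move 493 (leaf 492 1)) (move 497 (leaf 493 1))))))))))))
theorem a2p34 : a2e34.Valid :=
  pos_of_chk [a2e33] (forall_cons a2p33 forall_nil) a2c34 a2e34 (by decide +kernel)

def a2e35 : Pos := ⟨219673525277619695624552475727472849991415639864740869008891492700966664748231265374391028261319831337050239330975200775667281944547991502590746704690456559616, 186877567758720270338521824113517371936783229250942352189676993412372209074341955155451816632902346947514869479547805914051024450444820424041652494936720808926308114825156413709660829452590454407168, 13⟩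
def a2c35 : Cert := (move 558 (branch (move 462 (branch (move 461 (branch (move 429 (leaf 429 7)) (move 496 (branch (move 497 (leaf 461 3)) (move 460 (branch (move 459 (leaf 459 0)) (move 493 (leaf 460 3)))))))) (move 591 (branch (move 559 (leaf 462 4)) (move 590 (branch (move 623 (leaf 494 4)) (move 589 (branch (move 557 (leaf 461 5)) (move 621 (leaf 493 5)))))))))) (branch (move 590 (branch (move 463 (leaf 462 6)) (move 623 (branch (move 591 (leaf 494 4)) (move 622 (branch (move 655 (leaf 526 4)) (move 621 (branch (move 589 (leaf 493 5)) (move 653 (leaf 525 5)))))))))) (branch (move 463 (branch (move 590 (leaf 462 6)) (move 431 (branch (move 399 (leaf 398 5)) (move 462 (leaf 430 6)))))) (move 462 (branch (move 461 (branch (move 429 (leaf 429 7)) (move 496 (branch (move 497 (leaf 461 3)) (move 460 (branch (move 459 (leaf 459 0)) (move 493 (leaf 460 3)))))))) (branch (ref 0) (move 496 (branch (move 497 (branch (move 461 (leaf 461 3)) (move 529 (branch (move 530 (leaf 494 0)) (move 465 (branch (move 466 (leaf 462 2)) (move 528 (branch (move 493 (leaf 493 0)) (move 560 (branch (move 433 (leaf 432 5)) (move 592 (leaf 464 6)))))))))))) (branch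 (move 463 (branch (move 431 (leaf 430 6)) (move 497 (branch (move 461 (leaf 461 3)) (move 498 (leaf 462 3)))))) (move 557 (branch (move 589 (leaf 461 5)) (move 528 (branch (move 559 (branch (move 591 (leaf 462 4)) (move 529 (branch (move 493 (leaf 493 0)) (move 560 (leaf 525 2)))))) (branch (move 463 (branch (move 431 (leaf 430 6)) (move 560 (branch (move 592 (leaf 463 7)) (move 559 (branch (move 529 (leaf 525 2)) (move 591 (leaf 462 4)))))))) (branch (move 463 (branch (move 431 (leaf 430 6)) (move 493 (branch (move 529 (leaf 493 0)) (move 464 (branch (move 465 (leaf 461 1)) (move 492 (leaf 460 2)))))))) (move 431 (branch (move 463 (leaf 430 6)) (move 399 (branch (move 430 (leaf 398 6)) (move 464 (branch (move 432 (leaf 399 7)) (move 559 (branch (move 591 (leaf 462 4)) (move 465 (branch (move 493 (leaf 461 2)) (move 560 (branch (move 433 (leaf 432 6)) (move 593 (branch (move 592 (leaf 557 0)) (move 561 (leaf 464 4))))))))))))))))))))))))))))))))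
theorem a2p35 : a2e35.Valid :=
  pos_of_chk [a2e33] (forall_cons a2p33 forall_nil) a2c35 a2e35 (by decide +kernel)

def a2e36 : Pos := ⟨219673525175326239127798042289560671965553166357970805070045718029613809495227084236744948421217640951865734420009991896681029725509952235531828171773940072448, 2086845908786377820800282700296526809816259353578860874546632546998515116206743569624698985273348465001555741121982504448239219879203379799426895049688843822731727522754126782581891750250882048622145709277184, 16⟩
def a2c36 : Cert := (move 495 (branch (move 558 (branch (move 462 (branch (move 461 (branch (move 429 (leaf 429 7)) (move 496 (branch (move 497 (leaf 461 3)) (move 460 (branch (move 459 (leaf 459 0)) (move 493 (leaf 460 3)))))))) (move 591 (branch (move 559 (leaf 462 4)) (move 590 (branch (move 623 (leaf 494 4)) (move 589 (branch (move 557 (leaf 461 5)) (move 621 (leaf 493 5)))))))))) (branch (move 590 (branch (move 621 (branch (move 589 (leaf 493 5)) (move 622 (branch (move 653 (leaf 525 5)) (move 623 (branch (move 591 (leaf 494 4)) (move 655 (leaf 526 4)))))))) (branch (move 493 (branch (move 461 (leaf 461 7)) (move 525 (branch (move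 622 (leaf 493 7)) (move 524 (branch (move 496 (leaf 492 1)) (move 523 (leaf 491 2)))))))) (move 493 (branch (move 461 (leaf 461 7)) (ref 0)))))) (branch (ref 1) (branch (move 591 (branch (move 462 (branch (move 559 (leaf 462 4)) (move 461 (branch (move 429 (leaf 429 7)) (move 496 (branch (move 497 (leaf 461 3)) (move 460 (branch (move 459 (leaf 459 0)) (move 493 (leaf 460 3)))))))))) (branch (move 590 (branch (move 623 (leaf 494 4)) (move 493 (branch (move 461 (leaf 461 7)) (move 525 (branch (move 622 (leaf 493 7)) (move 524 (branch (move 496 (leaf 492 1)) (move 523 (leaf 491 2)))))))))) (move 559 (branch (move 462 (leaf 462 4)) (move 623 (branch (move 590 (leaf 494 4)) (move 655 (leaf 526 7))))))))) (branch (ref 2) (ref 3))))))) (branch (move 558 (branch (move 590 (branch (move 463 (leaf 462 6)) (move 623 (branch (move 591 (leaf 494 4)) (move 622 (branch (move 655 (leaf 526 4)) (move 621 (branch (move 589 (leaf 493 5)) (move 653 (leaf 525 5)))))))))) (branch (move 463 (branch (move 590 (leaf 462 6)) (move 431 (branch (move 399 (leaf 398 5)) (move 462 (leaf 430 6)))))) (branch (ref 1) (move 462 (branch (move 557 (branch (move 589 (leaf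 461 5)) (move 525 (branch (move 430 (leaf 429 5)) (move 524 (branch (move 523 (leaf 491 2)) (move 559 (branch (move 560 (leaf 524 3)) (move 591 (leaf 462 4)))))))))) (move 463 (branch (move 431 (leaf 430 6)) (move 461 (branch (move 429 (leaf 429 7)) (move 460 (branch (move 459 (leaf 459 0)) (move 492 (branch (move 491 (leaf 459 1)) (move 464 (branch (move 493 (leaf 460 1)) (move 465 (branch (move 466 (leaf 462 1)) (move 433 (branch (move 432 (leaf 429 2)) (move 434 (leaf 430 2)))))))))))))))))))))) (branch (move 496 (branch (move 497 (branch (move 525 (leaf 493 1)) (move 466 (branch (move 465 (leaf 462 2)) (move 498 (branch (move 467 (leaf 463 2)) (move 530 (branch (move 529 (leaf 494 0)) (move 531 (leaf 495 0)))))))))) (branch (move 525 (branch (move 497 (leaf 493 1)) (move 524 (branch (move 493 (leaf 492 1)) (move 523 (leaf 491 2)))))) (branch (ref 4) (move 493 (branch (move 464 (branch (move 465 (leaf 461 2)) (move 463 (branch (move 492 (leaf 460 2)) (move 528 (branch (move 529 (leaf 493 0)) (move 431 (branch (move 399 (leaf 399 4)) (move 560 (leaf 431 7)))))))))) (move 525 (branch (move 524 (leaf 492 1)) (move 461 (branch (move 460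 (leaf 460 3)) (move 429 (branch (move 397 (leaf 397 4)) (move 430 (branch (move 398 (leaf 397 6)) (move 557 (branch (move 462 (leaf 429 5)) (move 589 (branch (move 621 (leaf 493 6)) (move 588 (branch (move 556 (leaf 460 5)) (move 620 (leaf 492 5)))))))))))))))))))))) (branch (move 496 (branch (move 497 (branch (move 525 (leaf 493 1)) (move 466 (branch (move 465 (leaf 462 2)) (move 498 (branch (move 467 (leaf 463 2)) (move 530 (branch (move 529 (leaf 494 0)) (move 531 (leaf 495 0)))))))))) (branch (move 525 (branch (move 497 (leaf 493 1)) (move 524 (branch (move 493 (leaf 492 1)) (move 523 (leaf 491 2)))))) (branch (move 493 (branch (move 464 (branch (move 465 (leaf 461 2)) (move 463 (branch (move 492 (leaf 460 2)) (move 528 (branch (move 529 (leaf 493 0)) (move 431 (branch (move 399 (leaf 399 4)) (move 560 (leaf 431 7)))))))))) (move 525 (branch (move 524 (leaf 492 1)) (move 461 (branch (move 460 (leaf 460 3)) (move 558 (branch (move 429 (leaf 429 4)) (move 590 (leaf 461 7)))))))))) (ref 4))))) (branch (move 558 (branch (move 590 (branch (move 463 (leaf 462 6)) (move 623 (branch (move 591 (leaf 494 4)) (move 622 (branch (move 655 (leaf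 526 4)) (move 621 (branch (move 589 (leaf 493 5)) (move 653 (leaf 525 5)))))))))) (branch (move 463 (branch (move 590 (leaf 462 6)) (move 431 (branch (move 399 (leaf 398 5)) (move 462 (leaf 430 6)))))) (branch (ref 3) (move 462 (branch (move 557 (branch (move 589 (leaf 461 5)) (move 525 (branch (move 430 (leaf 429 5)) (move 524 (branch (move 523 (leaf 491 2)) (move 559 (branch (move 560 (leaf 524 3)) (move 591 (leaf 462 4)))))))))) (move 461 (branch (move 429 (leaf 429 7)) (move 463 (branch (move 431 (leaf 430 6)) (move 496 (branch (move 460 (leaf 460 0)) (move 497 (leaf 461 3)))))))))))))) (branch (move 558 (branch (move 590 (branch (move 463 (leaf 462 6)) (move 623 (branch (move 591 (leaf 494 4)) (move 622 (branch (move 655 (leaf 526 4)) (move 621 (branch (move 589 (leaf 493 5)) (move 653 (leaf 525 5)))))))))) (branch (move 463 (branch (move 590 (leaf 462 6)) (move 431 (branch (move 399 (leaf 398 5)) (move 462 (leaf 430 6)))))) (branch (ref 1) (ref 5))))) (branch (move 496 (branch (move 497 (branch (move 525 (leaf 493 1)) (move 466 (branch (move 465 (leaf 462 2)) (move 498 (branch (move 467 (leaf 463 2)) (move 530 (branch (move 529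 (leaf 494 0)) (move 531 (leaf 495 0)))))))))) (branch (move 525 (branch (move 497 (leaf 493 1)) (move 524 (branch (move 493 (leaf 492 1)) (move 523 (leaf 491 2)))))) (branch (ref 4) (move 493 (branch (move 464 (branch (move 465 (leaf 461 2)) (move 463 (branch (move 492 (leaf 460 2)) (move 528 (branch (move 529 (leaf 493 0)) (move 431 (branch (move 399 (leaf 399 4)) (move 560 (leaf 431 7)))))))))) (branch (move 524 (branch (move 525 (leaf 492 1)) (move 492 (branch (move 523 (leaf 491 1)) (move 460 (branch (move 459 (leaf 459 3)) (move 461 (leaf 460 3)))))))) (move 463 (branch (move 431 (branch (move 399 (leaf 398 5)) (move 558 (branch (move 462 (leaf 430 6)) (move 590 (leaf 462 6)))))) (branch (move 525 (branch (move 524 (leaf 492 1)) (move 558 (branch (move 590 (leaf 462 6)) (move 528 (branch (move 529 (leaf 493 0)) (move 560 (branch (move 592 (leaf 463 7)) (move 559 (branch (move 561 (leaf 525 3)) (move 462 (branch (move 591 (leaf 462 4)) (move 557 (branch (move 430 (leaf 429 5)) (move 589 (leaf 461 5)))))))))))))))) (move 464 (branch (move 465 (leaf 461 2)) (move 528 (branch (move 529 (leaf 493 0)) (move 431 (branch (move 399 (leaf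 399 4)) (move 560 (leaf 431 7)))))))))))))))))) (branch (move 558 (branch (move 590 (branch (move 463 (leaf 462 6)) (move 623 (branch (move 591 (leaf 494 4)) (move 622 (branch (move 655 (leaf 526 4)) (move 621 (branch (move 589 (leaf 493 5)) (move 653 (leaf 525 5)))))))))) (branch (move 463 (branch (move 590 (leaf 462 6)) (move 431 (branch (move 399 (leaf 398 5)) (move 462 (leaf 430 6)))))) (ref 2)))) (ref 6))))))))))
theorem a2p36 : a2e36.Valid :=
  pos_of_chk [a2e28, a2e29, a2e30, a2e31, a2e32, a2e34, a2e35] (forall_cons a2p28 (forall_cons a2p29 (forall_cons a2p30 (forall_cons a2p31 (forall_cons a2p32 (forall_cons a2p34 (forall_cons a2p35 forall_nil))))))) a2c36 a2e36 (by decide +kernel)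

def a2e37 : Pos := ⟨943490606425058863235714884374865265018790977069663273452022380131451758627651022516758765531159640306584734709556695644952638054162227883650310798390002182686288904192, 186877567765246893947146720622243099728478212394965087979006291590767040881260656379923926669110368981023660946586900607307585108728955834111336395979990023624388736534483146374308592877243998404608, 13⟩
def a2c37 : Cert := (move 590 (branch (move 623 (branch (move 591 (leaf 494 4)) (move 622 (branch (move 655 (leaf 526 4)) (move 621 (branch (move 589 (leaf 493 5)) (move 653 (leaf 525 5)))))))) (branch (move 495 (branch (move 463 (leaf 462 6)) (move 622 (branch (move 527 (leaf 494 6)) (move 623 (branch (move 591 (leaf 494 4)) (move 655 (leaf 526 4)))))))) (branch (move 495 (branch (move 463 (leaf 462 6)) (move 622 (branch (move 527 (leaf 494 6)) (move 621 (branch (move 589 (leaf 493 5)) (move 653 (leaf 525 5)))))))) (move 493 (branch (move 461 (leaf 461 7)) (move 495 (branch (move 463 (leaf 462 6)) (ref 0)))))))))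
theorem a2p37 : a2e37.Valid :=
  pos_of_chk [a2e28] (forall_cons a2p28 forall_nil) a2c37 a2e37 (by decide +kernel)

def a2e38 : Pos := ⟨943490606425058863235714884374865265018790977069663273452022380131451758627651022516758765531159640306584734709556695644952638054162227883650310798390002182686288904192, 149502054210457082182450167940261440464827962752143671652665731867027308855676590659025564266037823278691685536506872250621091745436423877747311293434816457519783608651001760081079934395081614688256, 9⟩
def a2c38 : Cert := (move 590 (branch (move 495 (branch (move 463 (leaf 462 6)) (move 622 (branch (move 527 (leaf 494 6)) (move 623 (branch (move 591 (leaf 494 4)) (move 655 (leaf 526 4)))))))) (branch (move 493 (branch (move 461 (leaf 461 7)) (move 622 (branch (move 525 (leaf 493 7)) (move 623 (branch (move 591 (leaf 494 4)) (move 655 (leaf 526 4)))))))) (branch (move 495 (branch (move 463 (leaf 462 6)) (move 493 (branch (move 461 (leaf 461 7)) (move 622 (branch (move 527 (leaf 494 6)) (move 525 (leaf 493 7)))))))) (move 493 (branch (move 461 (leaf 461 7)) (move 495 (branch (move 463 (leaf 462 6)) (move 496 (branch (move 525 (branch (move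 524 (leaf 492 1)) (move 497 (leaf 493 1)))) (move 528 (branch (move 529 (leaf 493 0)) (move 527 (branch (move 492 (leaf 492 0)) (move 591 (branch (move 623 (leaf 494 4)) (move 464 (branch (move 465 (leaf 461 2)) (move 559 (leaf 463 6))))))))))))))))))))
theorem a2p38 : a2e38.Valid :=
  pos_of_chk [] forall_nil a2c38 a2e38 (by decide +kernel)

def a2e39 : Pos := ⟨943490606425058863235714884374865265018790977069663273452022380131451758627651022516758765531159640306584734709556695644952638054162227883650310798390002182686288904192, 37375513570018600298284627586105872295463624199156034123123606447995512131849750170821493314476320744097193823747041371170519671864113194409879812993356832130122567520926607777109169415608160223232, 12⟩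
def a2c39 : Cert := (move 590 (branch (move 495 (branch (move 463 (leaf 462 6)) (move 622 (branch (move 527 (leaf 494 6)) (move 621 (branch (move 589 (leaf 493 5)) (move 653 (leaf 525 5)))))))) (branch (move 493 (branch (move 461 (leaf 461 7)) (move 622 (branch (move 525 (leaf 493 7)) (move 621 (branch (move 589 (leaf 493 5)) (move 653 (leaf 525 5)))))))) (branch (move 495 (branch (move 463 (leaf 462 6)) (move 493 (branch (move 461 (leaf 461 7)) (move 622 (branch (move 527 (leaf 494 6)) (move 525 (leaf 493 7)))))))) (move 493 (branch (move 461 (leaf 461 7)) (move 495 (branch (move 463 (leaf 462 6)) (move 496 (branch (move 525 (branch (move 524 (leaf 492 1)) (move 497 (leaf 493 1)))) (branch (move 528 (branch (move 529 (leaf 493 0)) (move 492 (branch (move 527 (leaf 492 0)) (move 465 (branch (move 464 (leaf 461 2)) (move 497 (branch (move 466 (leaf 462 2)) (move 523 (branch (move 524 (leaf 491 1)) (move 491 (branch (move 522 (leaf 490 1)) (move 459 (branch (move 458 (leaf 458 3)) (move 460 (leaf 459 3)))))))))))))))) (branch (move 525 (branch (move 524 (leaf 492 1)) (move 528 (branch (move 529 (leaf 493 0)) (move 527 (branch (move 492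 (leaf 492 0)) (move 557 (branch (move 556 (leaf 524 1)) (move 589 (branch (move 621 (leaf 493 5)) (move 560 (branch (move 561 (leaf 525 0)) (move 588 (branch (move 559 (leaf 556 1)) (move 620 (leaf 492 5)))))))))))))))) (move 528 (branch (move 529 (leaf 493 0)) (move 527 (branch (move 492 (leaf 492 0)) (move 497 (branch (move 525 (leaf 493 1)) (move 498 (leaf 494 1))))))))))))))))))))
theorem a2p39 : a2e39.Valid :=
  pos_of_chk [] forall_nil a2c39 a2e39 (by decide +kernel)

def a2e40 : Pos := ⟨943490606425058863235714884386773790677650200364423394720459446422301818681152041616410700954535234403034646285333009819846940312309761037647375857653033095769511428096, 24313567792073011755026207341490413618611789186598977547582547334123884032652291341220791881279837441875108930485880881375734098119282291063182027429302658182514831344593834868736, 11⟩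
def a2c40 : Cert := (move 461 (branch (move 429 (leaf 429 7)) (move 460 (branch (move 459 (branch (move 495 (leaf 459 0)) (move 458 (branch (move 493 (leaf 458 0)) (move 490 (branch (move 489 (leaf 457 1)) (move 491 (leaf 458 1)))))))) (branch (move 463 (branch (move 431 (leaf 430 6)) (move 492 (branch (move 491 (leaf 459 1)) (move 464 (branch (move 493 (leaf 460 1)) (move 427 (branch (move 428 (leaf 427 3)) (move 459 (branch (move 426 (leaf 426 3)) (move 497 (branch (move 496 (leaf 461 0)) (move 465 (branch (move 498 (leaf 462 0)) (move 433 (branch (move 432 (leaf 429 2)) (move 434 (leaf 430 2)))))))))))))))))) (branch (move 463 (branch (move 431 (leaf 430 6)) (move 495 (branch (move 496 (leaf 460 0)) (move 492 (branch (move 491 (leaf 459 1)) (move 493 (branch (move 464 (leaf 460 1)) (move 527 (branch (move 528 (leaf 492 0)) (move 559 (branch (move 591 (leaf 462 4)) (move 524 (branch (move 523 (leaf 491 1)) (move 560 (branch (move 525 (leaf 524 0)) (move 592 (leaf 463 4)))))))))))))))))) (move 463 (branch (move 431 (leaf 430 6)) (move 495 (branch (move 459 (leaf 459 0)) (move 496 (leaf 460 0))))))))))))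
theorem a2p40 : a2e40.Valid :=
  pos_of_chk [] forall_nil a2c40 a2e40 (by decide +kernel)

def a2e41 : Pos := ⟨943490606425058863235714884386773790677650200364423394720459446422301818681152041616410700954535234403034646285333009819846940312309761037647375857653033095769511428096, 2026130649339417646236166085369184099450855568367205334850926833234211317498287957806184867817558090020200590880258788345435157886785677124867032879046693601728503061324868091904, 11⟩
def a2c41 : Cert := (move 461 (branch (move 429 (leaf 429 7)) (move 460 (branch (move 459 (branch (move 495 (leaf 459 0)) (move 458 (branch (move 493 (leaf 458 0)) (move 490 (branch (move 489 (leaf 457 1)) (move 491 (leaf 458 1)))))))) (branch (move 463 (branch (move 431 (leaf 430 6)) (move 492 (branch (move 491 (leaf 459 1)) (move 464 (branch (move 493 (leaf 460 1)) (move 427 (branch (move 428 (leaf 427 3)) (move 459 (branch (move 426 (leaf 426 3)) (move 497 (branch (move 496 (leaf 461 0)) (move 465 (branch (move 498 (leaf 462 0)) (move 433 (branch (move 432 (leaf 429 2)) (move 434 (leaf 430 2)))))))))))))))))) (branch (move 463 (branch (move 431 (leaf 430 6)) (move 495 (branch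 (move 459 (leaf 459 0)) (move 496 (leaf 460 0)))))) (move 463 (branch (move 431 (leaf 430 6)) (move 495 (branch (move 496 (leaf 460 0)) (move 492 (branch (move 491 (leaf 459 1)) (move 493 (branch (move 464 (leaf 460 1)) (move 557 (branch (move 589 (leaf 461 5)) (move 428 (branch (move 427 (leaf 427 3)) (move 525 (leaf 428 7))))))))))))))))))))
theorem a2p41 : a2e41.Valid :=
  pos_of_chk [] forall_nil a2c41 a2e41 (by decide +kernel)

def a2e42 : Pos := ⟨219673525175326239139706567948419895260313287626407871360895778083114828594879019660120542517667552527642048594904294154828562879507017294794859084857162596352, 1886981215486200028006337287269603335256754740091788291670331679827336752620948187822942161981363773327702717789831885792076406903255013405115874354521057412740619960320, 13⟩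
def a2c42 : Cert := (move 430 (branch (move 399 (branch (move 431 (leaf 398 6)) (move 398 (branch (move 367 (leaf 366 6)) (move 397 (branch (move 365 (leaf 365 7)) (move 429 (leaf 397 7)))))))) (branch (move 527 (branch (move 559 (leaf 430 4)) (move 398 (branch (move 495 (leaf 398 4)) (move 397 (branch (move 365 (leaf 365 7)) (move 429 (leaf 397 7)))))))) (branch (move 527 (branch (move 559 (leaf 430 4)) (move 398 (branch (move 495 (leaf 398 4)) (move 399 (branch (move 367 (leaf 366 6)) (move 431 (leaf 398 6)))))))) (move 492 (branch (move 527 (branch (move 559 (leaf 430 4)) (move 493 (branch (move 491 (leaf 491 0)) (move 528 (branch (move 495 (leaf 492 0)) (move 529 (leaf 493 3)))))))) (move 431 (branch (move 399 (leaf 398 6)) (move 432 (branch (move 433 (branch (move 461 (leaf 429 1)) (move 434 (branch (move 463 (leaf 430 1)) (move 466 (branch (move 465 (leaf 430 0)) (move 467 (leaf 431 0)))))))) (branch (move 429 (branch (move 397 (leaf 397 7)) (move 464 (branch (move 465 (leaf 429 0)) (move 428 (branch (move 463 (leaf 428 0)) (move 401 (branch (move 400 (leaf 397 2)) (move 433 (branch (move 402 (leaf 398 2)) (move 395 (branch (move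 396 (leaf 395 3)) (move 427 (branch (move 394 (leaf 394 3)) (move 459 (branch (move 458 (leaf 426 1)) (move 460 (leaf 427 1)))))))))))))))))) (branch (move 429 (branch (move 397 (leaf 397 7)) (move 460 (branch (move 461 (leaf 428 1)) (move 428 (branch (move 459 (leaf 427 1)) (move 463 (branch (move 427 (leaf 427 0)) (move 464 (leaf 428 0)))))))))) (move 429 (branch (move 397 (leaf 397 7)) (move 461 (branch (move 460 (leaf 428 1)) (move 433 (leaf 429 1))))))))))))))))))
theorem a2p42 : a2e42.Valid :=
  pos_of_chk [] forall_nil a2c42 a2e42 (by decide +kernel)

def a2e43 : Pos := ⟨219673525175326239139706567948419895260313287626407871360895778083114828594879019660120542517667552527642048594904294154828562879507017294794859084857162596352, 471745303212529431617857442270420170716578766569776754333108117876195947222027692043617548223827592669936277710138609550924753088314149796834570631885482808618042523648, 9⟩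
def a2c43 : Cert := (move 430 (branch (move 399 (branch (move 431 (leaf 398 6)) (move 398 (branch (move 367 (leaf 366 6)) (move 397 (branch (move 365 (leaf 365 7)) (move 429 (leaf 397 7)))))))) (branch (move 525 (branch (move 557 (leaf 429 5)) (move 398 (branch (move 493 (leaf 397 5)) (move 399 (branch (move 367 (leaf 366 6)) (move 431 (leaf 398 6)))))))) (branch (move 525 (branch (move 557 (leaf 429 5)) (move 398 (branch (move 493 (leaf 397 5)) (move 397 (branch (move 365 (leaf 365 7)) (move 429 (leaf 397 7)))))))) (move 429 (branch (move 397 (leaf 397 7)) (move 428 (branch (move 427 (branch (move 463 (leaf 427 0)) (move 426 (branch (move 461 (leaf 426 0)) (move 458 (branch (move 457 (leaf 425 1)) (move 459 (leaf 426 1)))))))) (branch (move 431 (branch (move 399 (leaf 398 6)) (move 463 (branch (move 427 (leaf 427 0)) (move 464 (leaf 428 0)))))) (move 431 (branch (move 399 (leaf 398 6)) (move 460 (branch (move 459 (leaf 427 1)) (move 461 (branch (move 432 (leaf 428 1)) (move 525 (branch (move 557 (leaf 429 5)) (move 396 (branch (move 395 (leaf 395 3)) (move 493 (leaf 396 7)))))))))))))))))))))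
theorem a2p43 : a2e43.Valid :=
  pos_of_chk [] forall_nil a2c43 a2e43 (by decide +kernel)

def a2e44 : Pos := ⟨219673525175326239139706567951192564954434102485986285545038861786551265670254836235291022098282173835447674217944268560932702457604408505756262656686136754176, 4351082438168021399611478253954109249009543185101876755350671354790084051423191160425027777292167475669588538084547234367035615837620879922973649625873967831721046581868581870702132461568, 8⟩
def a2c44 : Cert := (move 525 (branch (move 557 (leaf 429 5)) (move 524 (branch (move 523 (branch (move 495 (leaf 491 2)) (move 522 (branch (move 493 (leaf 490 2)) (move 490 (branch (move 489 (leaf 489 3)) (move 491 (leaf 490 3)))))))) (branch (move 527 (branch (move 559 (leaf 430 4)) (move 492 (branch (move 491 (leaf 491 3)) (move 493 (branch (move 528 (leaf 492 3)) (move 556 (branch (move 555 (leaf 523 1)) (move 588 (branch (move 461 (leaf 460 6)) (move 620 (leaf 492 6)))))))))))) (move 527 (branch (move 559 (leaf 430 4)) (move 495 (branch (move 523 (leaf 491 2)) (move 496 (leaf 492 2)))))))))))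
theorem a2p44 : a2e44.Valid :=
  pos_of_chk [] forall_nil a2c44 a2e44 (by decide +kernel)

def a2e45 : Pos := ⟨219673525175326239139706567948419895260313287626407871360895778083114828594879019660120542517667552527642048594904294154828562879507017294794859084857162596352, 2771503657252304511457815764696037524259380204357237422273977140349136698048520335942248171682999484073818736930945064881639193042887518092698068027935722828765933338624, 13⟩
def a2c45 : Cert := (move 430 (branch (move 399 (branch (move 431 (leaf 398 6)) (move 398 (branch (move 367 (leaf 366 6)) (move 397 (branch (move 365 (leaf 365 7)) (move 429 (leaf 397 7)))))))) (branch (move 527 (branch (move 559 (leaf 430 4)) (move 398 (branch (move 495 (leaf 398 4)) (move 397 (branch (move 365 (leaf 365 7)) (move 429 (leaf 397 7)))))))) (branch (move 527 (branch (move 559 (leaf 430 4)) (move 398 (branch (move 495 (leaf 398 4)) (move 399 (branch (move 367 (leaf 366 6)) (move 431 (leaf 398 6)))))))) (move 525 (branch (move 557 (leaf 429 5)) (move 524 (branch (move 523 (branch (move 495 (leaf 491 2)) (move 522 (branch (move 493 (leaf 490 2)) (move 490 (branch (move 489 (leaf 489 3))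 (move 491 (leaf 490 3)))))))) (branch (move 527 (branch (move 559 (leaf 430 4)) (move 495 (branch (move 523 (leaf 491 2)) (move 496 (leaf 492 2)))))) (branch (move 527 (branch (move 559 (leaf 430 4)) (move 492 (branch (move 491 (leaf 491 3)) (move 528 (branch (move 493 (leaf 492 3)) (move 555 (branch (move 556 (leaf 523 1)) (move 523 (branch (move 554 (leaf 522 1)) (move 429 (branch (move 397 (leaf 397 7)) (move 428 (branch (move 460 (leaf 427 5)) (move 431 (branch (move 399 (leaf 398 6)) (move 463 (branch (move 427 (leaf 427 0)) (move 464 (leaf 428 0)))))))))))))))))))) (move 527 (branch (move 559 (leaf 430 4)) (move 495 (branch (move 496 (leaf 492 2)) (move 492 (branch (move 491 (leaf 491 3)) (move 493 (branch (move 528 (leaf 492 0)) (move 463 (branch (move 464 (leaf 460 2)) (move 431 (branch (move 399 (leaf 398 5)) (move 429 (branch (move 397 (leaf 397 7)) (move 428 (branch (move 427 (leaf 427 0)) (move 460 (branch (move 459 (leaf 427 1)) (move 396 (leaf 396 4))))))))))))))))))))))))))))))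
theorem a2p45 : a2e45.Valid :=
  pos_of_chk [] forall_nil a2c45 a2e45 (by decide +kernel)

def a2e46 : Pos := ⟨943490606425058863235714884374865265018790977069663273452022380131451758627651022516758765531159640306584734709556695644952638054162227883650310798390002182686288904192, 186877567758720270290907753863711835960708178262720607109910295609595538900388271586789191137246245698264296654721632540590751351776962361733624431750927651588531540977967008910627609735118232485888, 6⟩
def a2c46 : Cert := (move 590 (branch (move 495 (branch (move 463 (leaf 462 6)) (move 622 (branch (move 527 (leaf 494 6)) (move 623 (branch (move 591 (leaf 494 4)) (move 655 (leaf 526 4)))))))) (branch (move 495 (branch (move 463 (leaf 462 6)) (move 622 (branch (move 527 (leaf 494 6)) (move 621 (branch (move 589 (leaf 493 5)) (move 653 (leaf 525 5)))))))) (move 591 (branch (move 623 (leaf 494 4)) (move 559 (branch (move 462 (leaf 462 4)) (move 589 (branch (move 621 (leaf 493 5)) (move 560 (branch (move 561 (leaf 557 1)) (move 588 (leaf 556 2)))))))))))))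
theorem a2p46 : a2e46.Valid :=
  pos_of_chk [] forall_nil a2c46 a2e46 (by decide +kernel)

def a2e47 : Pos := ⟨943490606425058863235714884374865265018790977069663273452022380131451758627651022516758765531159640306584734709556695644952638054162227883650310798390002182686288904192, 80263304442126250101103033017944689915276545251166062559111944971664743163667067115334326662815280881884343022342881278479098692102926849747037041459922073491214445623333672217645271231135979442297842434048, 9⟩
def a2c47 : Cert := (move 590 (branch (move 623 (branch (move 591 (leaf 494 4)) (move 622 (branch (move 655 (leaf 526 4)) (move 621 (branch (move 589 (leaf 493 5)) (move 653 (leaf 525 5)))))))) (branch (ref 0) (branch (move 623 (branch (move 591 (leaf 494 4)) (move 622 (branch (move 655 (leaf 526 4)) (move 525 (branch (move 493 (leaf 493 7)) (move 527 (branch (move 495 (leaf 494 6)) (move 654 (branch (move 559 (leaf 526 6)) (move 557 (leaf 525 7)))))))))))) (move 621 (branch (move 589 (leaf 493 5)) (move 622 (branch (move 653 (leaf 525 5)) (move 525 (branch (move 493 (leaf 493 7)) (move 527 (branch (move 495 (leaf 494 6)) (move 654 (branch (move 559 (leaf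 526 6)) (move 557 (leaf 525 7))))))))))))))))
theorem a2p47 : a2e47.Valid :=
  pos_of_chk [a2e15] (forall_cons a2p15 forall_nil) a2c47 a2e47 (by decide +kernel)

def a2e48 : Pos := ⟨943490606425058863235714884374865265018790977069663273452022380131451758627651022516758765531159640306584734709556695644952638054162227883650310798390002182686288904192, 26106494629008128383752383073600495085146724111671161255784241870537904690530552534023604147534030603505299215892157112281577064606735491629252443333283087505299965156432034866272864829440, 7⟩
def a2c48 : Cert := (move 462 (branch (move 463 (branch (move 431 (leaf 430 6)) (move 590 (branch (move 495 (leaf 462 6)) (move 589 (branch (move 557 (leaf 461 5)) (move 621 (leaf 493 5)))))))) (branch (move 557 (branch (move 589 (leaf 461 5)) (move 430 (branch (move 525 (leaf 429 5)) (move 431 (branch (move 399 (leaf 398 6)) (move 463 (leaf 430 6)))))))) (branch (move 431 (branch (move 463 (leaf 430 6)) (move 430 (branch (move 399 (leaf 398 6)) (move 527 (branch (move 559 (leaf 430 4)) (move 398 (branch (move 495 (leaf 398 4)) (move 397 (branch (move 365 (leaf 365 7)) (move 429 (leaf 397 7))))))))))))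 (branch (move 557 (branch (move 589 (leaf 461 5)) (move 430 (branch (move 525 (leaf 429 5)) (move 527 (branch (move 559 (leaf 430 4)) (move 398 (branch (move 495 (leaf 398 4)) (move 399 (branch (move 367 (leaf 366 6)) (move 431 (leaf 398 6)))))))))))) (move 557 (branch (move 589 (leaf 461 5)) (move 430 (branch (move 525 (leaf 429 5)) (move 527 (branch (move 559 (leaf 430 4)) (move 495 (branch (move 398 (leaf 398 4)) (move 590 (branch (move 463 (leaf 462 6)) (move 622 (leaf 494 6)))))))))))))))))
theorem a2p48 : a2e48.Valid :=
  pos_of_chk [] forall_nil a2c48 a2e48 (by decide +kernel)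

def a2e49 : Pos := ⟨219673525175326239127798042289560671965553166357970805070045718029613809495227084236744948421217640951865734420009991896681029725509952235531828171773940072448, 882896346060225234970638842880843593874338688443169439664392582258085249359292751249288360130462540938176098461943073889353635907799818204034175345570888416922768158164695622079428716226635722340902792855552, 13⟩
def a2c49 : Cert := (move 558 (branch (ref 0) (branch (ref 1) (branch (move 495 (branch (move 590 (branch (move 463 (leaf 462 6)) (move 623 (branch (move 591 (leaf 494 4)) (move 622 (branch (move 655 (leaf 526 4)) (move 621 (branch (move 589 (leaf 493 5)) (move 653 (leaf 525 5)))))))))) (branch (move 463 (branch (move 590 (leaf 462 6)) (move 431 (branch (move 399 (leaf 398 5)) (move 462 (leaf 430 6)))))) (branch (ref 2) (ref 3))))) (branch (ref 4) (branch (move 462 (branch (move 463 (branch (move 431 (leaf 430 6)) (move 590 (branch (move 495 (leaf 462 6)) (move 591 (branch (move 559 (leaf 462 4)) (move 623 (leaf 494 4)))))))) (branch (move 463 (branch (move 431 (leaf 430 6)) (move 590 (branch (move 495 (leaf 462 6)) (move 623 (branch (move 591 (leaf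 494 4)) (move 622 (branch (move 655 (leaf 526 4)) (move 525 (branch (move 493 (leaf 493 7)) (move 557 (branch (move 430 (leaf 429 5)) (move 654 (leaf 525 7)))))))))))))) (branch (move 431 (branch (move 463 (leaf 430 6)) (move 430 (branch (move 399 (leaf 398 6)) (move 525 (branch (move 557 (leaf 429 5)) (move 527 (branch (move 559 (leaf 430 4)) (move 398 (branch (move 495 (leaf 398 4)) (move 493 (leaf 397 5)))))))))))) (move 559 (branch (move 591 (leaf 462 4)) (move 430 (branch (move 527 (leaf 430 4)) (move 525 (branch (move 557 (leaf 429 5)) (move 398 (branch (move 493 (leaf 397 5)) (move 397 (branch (move 365 (leaf 365 7)) (move 429 (leaf 397 7)))))))))))))))) (branch (ref 5) (move 462 (branch (move 559 (branch (move 591 (leaf 462 4)) (move 430 (branch (move 527 (leaf 430 4)) (move 431 (branch (move 399 (leaf 398 6)) (move 463 (leaf 430 6)))))))) (branch (move 557 (branch (move 589 (leaf 461 5)) (move 430 (branch (move 525 (leaf 429 5)) (move 431 (branch (move 399 (leaf 398 6)) (move 463 (leaf 430 6)))))))) (ref 6)))))))))))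
theorem a2p49 : a2e49.Valid :=
  pos_of_chk [a2e24, a2e46, a2e29, a2e34, a2e47, a2e48, a2e22] (forall_cons a2p24 (forall_cons a2p46 (forall_cons a2p29 (forall_cons a2p34 (forall_cons a2p47 (forall_cons a2p48 (forall_cons a2p22 forall_nil))))))) a2c49 a2e49 (by decide +kernel)

def a2e50 : Pos := ⟨943490606425058863235714884374865265018790977069663273452022380131451758627651022516758765531159640306584734709556695644952638054162227883650310798390002182686288904192, 186877567758720270289894688526540876605094147585045896149981430244911122577151373339253165239931637496988224275829472709636165375177350471133253003952845021477317522261562983559544252407709194780672, 5⟩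
def a2c50 : Cert := (move 590 (branch (move 623 (branch (move 591 (leaf 494 4)) (move 622 (branch (move 655 (leaf 526 4)) (move 621 (branch (move 589 (leaf 493 5)) (move 653 (leaf 525 5)))))))) (branch (move 493 (branch (move 461 (leaf 461 7)) (move 622 (branch (move 525 (leaf 493 7)) (move 623 (branch (move 591 (leaf 494 4)) (move 655 (leaf 526 4)))))))) (move 589 (branch (move 621 (leaf 493 5)) (move 462 (branch (move 557 (leaf 461 5)) (move 461 (branch (move 429 (leaf 429 7)) (move 493 (leaf 461 7)))))))))))
theorem a2p50 : a2e50.Valid :=
  pos_of_chk [] forall_nil a2c50 a2e50 (by decide +kernel)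

def a2e51 : Pos := ⟨943490606425058863235714884374865265018790977069663273452022380131451758627651022516758765531159640306584734709556695644952638054162227883650310798390002182686288904192, 186877567758720270289894688527956112514402225592136479117852031079004968034807538499894242602523746557885280095361770231577787413005401111769789445790258990713539319498773521403831513424077718028288, 5⟩
def a2c51 : Cert := (move 590 (branch (move 623 (branch (move 591 (leaf 494 4)) (move 622 (branch (move 655 (leaf 526 4)) (move 621 (branch (move 589 (leaf 493 5)) (move 653 (leaf 525 5)))))))) (branch (move 493 (branch (move 461 (leaf 461 7)) (move 622 (branch (move 525 (leaf 493 7)) (move 621 (branch (move 589 (leaf 493 5)) (move 653 (leaf 525 5)))))))) (move 591 (branch (move 623 (leaf 494 4)) (move 462 (branch (move 559 (leaf 462 4)) (move 461 (branch (move 429 (leaf 429 7)) (move 493 (leaf 461 7)))))))))))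
theorem a2p51 : a2e51.Valid :=
  pos_of_chk [] forall_nil a2c51 a2e51 (by decide +kernel)

def a2e52 : Pos := ⟨943490606425058863235714884374865265018790977069663273452022380131451758627651022516758765531159640306584734709556695644952638054162227883650310798390002182686288904192, 112126540644789564322333561765442742674176478879312906329691722395548017589422685577773827548145111259418238225370631253324114826487885442848561917877056397367485704475950910429590621680032672645120, 8⟩
def a2c52 : Cert := (move 462 (branch (move 461 (branch (move 429 (leaf 429 7)) (move 590 (branch (move 493 (leaf 461 7)) (move 589 (branch (move 557 (leaf 461 5)) (move 621 (leaf 493 5)))))))) (branch (move 557 (branch (move 589 (leaf 461 5)) (move 430 (branch (move 525 (leaf 429 5)) (move 527 (branch (move 559 (leaf 430 4)) (move 398 (branch (move 495 (leaf 398 4)) (move 399 (branch (move 367 (leaf 366 6)) (move 431 (leaf 398 6)))))))))))) (branch (move 429 (branch (move 461 (leaf 429 7)) (move 430 (branch (move 397 (leaf 397 7)) (move 525 (branch (move 557 (leaf 429 5)) (move 398 (branch (move 493 (leaf 397 5)) (move 399 (branch (move 367 (leaf 366 6)) (move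 431 (leaf 398 6)))))))))))) (move 461 (branch (move 429 (leaf 429 7)) (move 590 (branch (move 493 (leaf 461 7)) (move 621 (branch (move 589 (leaf 493 5)) (move 622 (branch (move 653 (leaf 525 5)) (move 527 (branch (move 495 (leaf 494 6)) (move 559 (branch (move 430 (leaf 430 4)) (move 654 (leaf 526 6))))))))))))))))))
theorem a2p52 : a2e52.Valid :=
  pos_of_chk [] forall_nil a2c52 a2e52 (by decide +kernel)

def a2e53 : Pos := ⟨943490606425058863235714884374865265018790977069663273452022380131451758627651022516758765531159640306584734709556695644952638054162227883650310798390002182686288904192, 24313567792073011755026207341490413618623697712260609440573042176425703830995819434460231219876321259994173268858464576357153942680977093474077228507197200597386705311988998733824, 12⟩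
def a2c53 : Cert := (move 462 (branch (move 431 (branch (move 463 (leaf 430 6)) (move 430 (branch (move 399 (leaf 398 6)) (move 429 (branch (move 397 (leaf 397 7)) (move 461 (leaf 429 7)))))))) (branch (move 559 (branch (move 591 (leaf 462 4)) (move 430 (branch (move 527 (leaf 430 4)) (move 429 (branch (move 397 (leaf 397 7)) (move 461 (leaf 429 7)))))))) (branch (move 559 (branch (move 591 (leaf 462 4)) (move 430 (branch (move 527 (leaf 430 4)) (move 431 (branch (move 399 (leaf 398 6)) (move 463 (leaf 430 6)))))))) (ref 0)))))
theorem a2p53 : a2e53.Valid :=
  pos_of_chk [a2e40] (forall_cons a2p40 forall_nil) a2c53 a2e53 (by decide +kernel)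

def a2e54 : Pos := ⟨943490606425058863235714884374865265018790977069663273452022380131451758627651022516758765531159640306584734709556695644952638054162227883650310798390002182686288904192, 37375513565667517860116606175290443091612359671401528813988381176778163264008579968559492169798796200424762704980531807273105409291750642254286314565498796023137345500894697913552368471856673456128, 5⟩
def a2c54 : Cert := (move 590 (branch (move 495 (branch (move 463 (leaf 462 6)) (move 622 (branch (move 527 (leaf 494 6)) (move 621 (branch (move 589 (leaf 493 5)) (move 653 (leaf 525 5)))))))) (branch (move 493 (branch (move 461 (leaf 461 7)) (move 622 (branch (move 525 (leaf 493 7)) (move 621 (branch (move 589 (leaf 493 5)) (move 653 (leaf 525 5)))))))) (move 463 (branch (move 495 (leaf 462 6)) (move 462 (branch (move 431 (leaf 430 6)) (move 461 (branch (move 429 (leaf 429 7)) (move 493 (leaf 461 7)))))))))))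
theorem a2p54 : a2e54.Valid :=
  pos_of_chk [] forall_nil a2c54 a2e54 (by decide +kernel)

def a2e55 : Pos := ⟨943490606425058863235714884374865265018790977069663273452022380131451758627651022516758765531159640306584734709556695644952638054162227883650310798390002182686288904192, 2026130649339417646236166085369184099462764094028837227841421675536031115841816051045624206414041908139264929252842483326855002448480479535762233956941236016600377028720031956992, 12⟩
def a2c55 : Cert := (move 462 (branch (move 431 (branch (move 463 (leaf 430 6)) (move 430 (branch (move 399 (leaf 398 6)) (move 429 (branch (move 397 (leaf 397 7)) (move 461 (leaf 429 7)))))))) (branch (move 557 (branch (move 589 (leaf 461 5)) (move 430 (branch (move 525 (leaf 429 5)) (move 429 (branch (move 397 (leaf 397 7)) (move 461 (leaf 429 7)))))))) (branch (move 557 (branch (move 589 (leaf 461 5)) (move 430 (branch (move 525 (leaf 429 5)) (move 431 (branch (move 399 (leaf 398 6)) (move 463 (leaf 430 6)))))))) (ref 0)))))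
theorem a2p55 : a2e55.Valid :=
  pos_of_chk [a2e41] (forall_cons a2p41 forall_nil) a2c55 a2e55 (by decide +kernel)

def a2e56 : Pos := ⟨219673525175326239127798042289560671965553166357970805070045718029613809495227084236744948421217640951865734420009991896681029725509952235531828171773940072448, 39159741963773499068256164956579757816534729761525301898755010578342585686432390326153445607665345934990552695496156139283975011028557969004710184999807405808794340752345111146366549098496, 14⟩
def a2c56 : Cert := (move 462 (branch (ref 0) (branch (ref 1) (branch (move 430 (branch (move 527 (branch (move 559 (leaf 430 4)) (move 398 (branch (move 495 (leaf 398 4)) (move 399 (branch (move 367 (leaf 366 6)) (move 431 (leaf 398 6)))))))) (branch (move 525 (branch (move 557 (leaf 429 5)) (move 398 (branch (move 493 (leaf 397 5)) (move 399 (branch (move 367 (leaf 366 6)) (move 431 (leaf 398 6)))))))) (ref 2)))) (branch (move 430 (branch (move 527 (branch (move 559 (leaf 430 4)) (move 398 (branch (move 495 (leaf 398 4)) (move 397 (branch (move 365 (leaf 365 7)) (move 429 (leaf 397 7)))))))) (branch (move 525 (branch (move 557 (leaf 429 5)) (move 398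 (branch (move 493 (leaf 397 5)) (move 397 (branch (move 365 (leaf 365 7)) (move 429 (leaf 397 7)))))))) (ref 2)))) (branch (ref 3) (branch (move 558 (branch (move 461 (branch (move 429 (leaf 429 7)) (move 590 (branch (move 493 (leaf 461 7)) (move 591 (branch (move 559 (leaf 462 4)) (move 623 (leaf 494 4)))))))) (branch (move 463 (branch (move 431 (leaf 430 6)) (move 590 (branch (move 495 (leaf 462 6)) (move 591 (branch (move 559 (leaf 462 4)) (move 623 (leaf 494 4)))))))) (branch (move 463 (branch (move 431 (leaf 430 6)) (move 461 (branch (move 429 (leaf 429 7)) (move 590 (branch (move 495 (leaf 462 6)) (move 493 (leaf 461 7)))))))) (ref 4))))) (move 430 (branch (move 399 (branch (move 431 (leaf 398 6)) (move 398 (branch (move 367 (leaf 366 6)) (move 397 (branch (move 365 (leaf 365 7)) (move 429 (leaf 397 7)))))))) (branch (move 527 (branch (move 559 (leaf 430 4)) (move 398 (branch (move 495 (leaf 398 4)) (move 397 (branch (move 365 (leaf 365 7)) (move 429 (leaf 397 7)))))))) (branch (move 527 (branch (move 559 (leaf 430 4)) (move 398 (branch (move 495 (leaf 398 4)) (move 399 (branch (move 367 (leaf 366 6)) (move 431 (leaf 398 6))))))))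 (move 429 (branch (move 397 (leaf 397 7)) (move 428 (branch (move 427 (branch (move 463 (leaf 427 0)) (move 426 (branch (move 461 (leaf 426 0)) (move 458 (branch (move 457 (leaf 425 1)) (move 459 (leaf 426 1)))))))) (branch (move 431 (branch (move 399 (leaf 398 6)) (move 460 (branch (move 459 (leaf 427 1)) (move 432 (branch (move 461 (leaf 428 1)) (move 395 (branch (move 396 (leaf 395 3)) (move 427 (branch (move 394 (leaf 394 3)) (move 525 (branch (move 557 (leaf 429 5)) (move 524 (branch (move 492 (leaf 395 7)) (move 527 (branch (move 559 (leaf 430 4)) (move 495 (branch (move 523 (leaf 491 2)) (move 496 (leaf 492 2)))))))))))))))))))) (branch (move 431 (branch (move 399 (leaf 398 6)) (move 463 (branch (move 464 (leaf 428 0)) (move 460 (branch (move 459 (leaf 427 1)) (move 432 (branch (move 461 (leaf 428 1)) (move 527 (branch (move 559 (leaf 430 4)) (move 400 (branch (move 401 (leaf 397 2)) (move 495 (leaf 399 6)))))))))))))) (move 431 (branch (move 399 (leaf 398 6)) (move 463 (branch (move 427 (leaf 427 0)) (move 464 (leaf 428 0)))))))))))))))))))))))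
theorem a2p56 : a2e56.Valid :=
  pos_of_chk [a2e42, a2e43, a2e44, a2e45, a2e40] (forall_cons a2p42 (forall_cons a2p43 (forall_cons a2p44 (forall_cons a2p45 (forall_cons a2p40 forall_nil))))) a2c56 a2e56 (by decide +kernel)

def a2e57 : Pos := ⟨89506774434660129258173155772629664318423805946490052837433748346378658495440319860089416587036441797094557769112970691658284358676553716301951926272, 1519597987004563234697718955928004020807563699149755454806800390187742402052312585986244568275447887392776146787235819457282000384183778252829496980032210856174819924288135495680, 9⟩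
def a2c57 : Cert := (move 459 (branch (move 491 (branch (move 458 (leaf 458 3)) (move 523 (branch (move 522 (leaf 490 1)) (move 524 (branch (move 495 (leaf 491 1)) (move 556 (branch (move 427 (leaf 427 4)) (move 588 (leaf 459 7)))))))))) (branch (move 460 (branch (move 495 (leaf 459 3)) (move 458 (branch (move 457 (leaf 457 0)) (move 461 (leaf 458 0)))))) (branch (move 458 (branch (move 491 (leaf 458 3)) (move 460 (branch (move 457 (leaf 457 0)) (move 461 (leaf 458 0)))))) (move 524 (branch (move 523 (branch (move 495 (leaf 491 1)) (move 522 (branch (move 491 (leaf 490 1)) (move 521 (leaf 489 2)))))) (branch (move 460 (branch (move 495 (leaf 459 3)) (move 556 (branch (move 427 (leaf 427 7)) (move 461 (branch (move 429 (leaf 428 6)) (move 588 (leaf 460 6)))))))) (move 556 (branch (move 460 (branch (move 427 (leaf 427 7)) (move 461 (branch (move 429 (leaf 428 6)) (move 555 (branch (move 587 (leaf 459 5)) (move 523 (branch (move 428 (leaf 427 5)) (move 522 (branch (move 491 (leaf 490 1)) (move 521 (leaf 489 2)))))))))))) (branch (move 460 (branch (move 427 (leaf 427 7)) (move 461 (branch (move 429 (leaf 428 6)) (move 588 (leaf 460 6))))))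 (branch (move 588 (branch (move 461 (leaf 460 6)) (move 491 (leaf 459 7)))) (move 491 (branch (move 588 (leaf 459 7)) (move 427 (branch (move 395 (leaf 395 4)) (move 523 (leaf 427 4)))))))))))))))))
theorem a2p57 : a2e57.Valid :=
  pos_of_chk [] forall_nil a2c57 a2e57 (by decide +kernel)

def a2e58 : Pos := ⟨329510287762989358691697063434341007948329749536956207605068577044420714242840626355117422631826461427798601630014987845021544588264928353297742257660910108672, 30457577067176149780061644205080627907871817750749912035666028774508040583333274493449694878352017731110179794270687822309285716319588452561853335865167149764218177268725585533986702098432, 7⟩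
def a2c58 : Cert := (move 461 (branch (move 558 (branch (move 429 (leaf 429 4)) (move 590 (leaf 461 7)))) (branch (move 557 (branch (move 589 (branch (move 621 (leaf 493 6)) (move 588 (branch (move 556 (leaf 460 5)) (move 620 (leaf 492 5)))))) (branch (move 558 (branch (move 590 (leaf 461 4)) (move 556 (branch (move 588 (leaf 460 5)) (move 527 (branch (move 528 (leaf 524 1)) (move 555 (leaf 523 2)))))))) (move 590 (branch (move 558 (leaf 461 4)) (move 589 (branch (move 622 (leaf 493 4)) (move 621 (leaf 493 6))))))))) (move 429 (branch (move 397 (leaf 397 4)) (move 428 (branch (move 396 (leaf 396 7)) (move 557 (branch (move 460 (leaf 428 7)) (move 589 (branch (move 621 (leaf 493 6)) (move 588 (branch (move 556 (leaf 460 5)) (move 620 (leaf 492 5)))))))))))))))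
theorem a2p58 : a2e58.Valid :=
  pos_of_chk [] forall_nil a2c58 a2e58 (by decide +kernel)

def a2e59 : Pos := ⟨384428669044034236411552269826992153686485231938102650880224284717905059710021874772097899757118097867616972121146834709318520492262661503798334483989830565888, 52212989258016256776939672211231905277526417556211554336183016259125053808646891421303058360521272226474530262555850715253361982044197337104069388158202324612786296346458217304300556648448, 9⟩
def a2c59 : Cert := (move 527 (branch (move 528 (branch (move 529 (leaf 493 3)) (move 560 (branch (move 559 (leaf 524 0)) (move 561 (leaf 525 0)))))) (branch (move 496 (branch (move 495 (leaf 492 1)) (move 528 (branch (move 497 (leaf 493 2)) (move 529 (leaf 493 3)))))) (move 495 (branch (move 496 (leaf 492 1)) (move 559 (branch (move 560 (leaf 524 0)) (move 591 (branch (move 623 (leaf 494 7)) (move 590 (branch (move 622 (leaf 494 5)) (move 463 (branch (move 558 (leaf 462 5)) (move 431 (branch (move 399 (leaf 398 5)) (move 432 (branch (move 400 (leaf 399 6)) (move 464 (leaf 431 6)))))))))))))))))))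
theorem a2p59 : a2e59.Valid :=
  pos_of_chk [] forall_nil a2c59 a2e59 (by decide +kernel)

def a2e60 : Pos := ⟨384428669044034236411552269826992153686485231938102650880224284717905059710021874772097899757118097867616972121146834709318520492262661503798334483989830565888, 52212989258016256776939672211231905277526417556169874496360372959424795120232760841295740769355395519361999030433769423162853574647335512320674222026116653075292014626115332919576311627776, 7⟩
def a2c60 : Cert := (move 527 (branch (move 528 (branch (move 529 (leaf 493 3)) (move 560 (branch (move 559 (leaf 524 0)) (move 561 (leaf 525 0)))))) (branch (move 496 (branch (move 495 (leaf 492 1)) (move 528 (branch (move 497 (leaf 493 2)) (move 529 (leaf 493 3)))))) (move 495 (branch (move 496 (leaf 492 1)) (move 559 (branch (move 560 (leaf 524 0)) (move 591 (branch (move 623 (leaf 494 7)) (move 590 (branch (move 622 (leaf 494 5)) (move 558 (branch (move 463 (leaf 462 5)) (move 461 (leaf 461 7)))))))))))))))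
theorem a2p60 : a2e60.Valid :=
  pos_of_chk [] forall_nil a2c60 a2e60 (by decide +kernel)

def a2e61 : Pos := ⟨219673525200899603251986650649038716472018784734663321054757161697452023308478129521156468381243188548161860647751294116427592780269462052296557805003069194240, 65266236572520320968521022933524321925313045346549102414714178656449968194368034445343845250610982888186144350351191537555151496303501729300805986470954453022435601967706393037266527191040, 11⟩
def a2c61 : Cert := (move 525 (branch (ref 0) (branch (move 524 (branch (move 495 (branch (move 496 (leaf 492 1)) (move 523 (leaf 491 2)))) (move 527 (branch (move 528 (branch (move 529 (leaf 493 3)) (move 560 (branch (move 559 (leaf 524 0)) (move 561 (leaf 525 0)))))) (move 556 (branch (move 555 (leaf 523 1)) (move 461 (branch (move 429 (leaf 428 5)) (move 588 (branch (move 557 (leaf 460 5)) (move 620 (leaf 492 6)))))))))))) (branch (move 524 (branch (move 523 (branch (move 522 (leaf 490 2)) (move 555 (branch (move 554 (leaf 522 1)) (move 556 (branch (move 527 (leaf 523 1)) (move 491 (branch (move 490 (leaf 490 3)) (move 588 (branch (move 459 (leaf 459 4)) (move 620 (leaf 492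 6)))))))))))) (branch (move 495 (branch (move 496 (leaf 492 1)) (move 523 (leaf 491 2)))) (ref 1)))) (branch (move 524 (branch (move 495 (branch (move 496 (leaf 492 1)) (move 523 (leaf 491 2)))) (branch (ref 2) (move 523 (branch (move 522 (leaf 490 2)) (move 558 (branch (move 559 (leaf 523 0)) (move 590 (branch (move 461 (leaf 461 7)) (move 622 (leaf 493 7))))))))))) (move 461 (branch (move 429 (branch (move 397 (leaf 397 4)) (move 428 (branch (move 396 (leaf 396 7)) (move 460 (branch (move 557 (leaf 428 7)) (move 430 (branch (move 398 (leaf 397 6)) (move 459 (branch (move 458 (leaf 458 0)) (move 431 (leaf 427 1)))))))))))) (branch (move 558 (branch (move 429 (leaf 429 4)) (move 590 (leaf 461 7)))) (move 557 (branch (move 589 (branch (move 621 (leaf 493 6)) (move 588 (branch (move 556 (leaf 460 5)) (move 620 (leaf 492 5)))))) (branch (move 590 (branch (move 558 (leaf 461 4)) (move 589 (branch (move 622 (leaf 493 4)) (move 621 (leaf 493 6)))))) (move 558 (branch (move 590 (leaf 461 4)) (move 556 (branch (move 588 (leaf 460 5)) (move 555 (branch (move 554 (leaf 522 2)) (move 523 (branch (move 522 (leaf 522 3)) (move 524 (branch (move 559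 (leaf 523 0)) (move 495 (leaf 491 2)))))))))))))))))))))))
theorem a2p61 : a2e61.Valid :=
  pos_of_chk [a2e58, a2e59, a2e60] (forall_cons a2p58 (forall_cons a2p59 (forall_cons a2p60 forall_nil))) a2c61 a2e61 (by decide +kernel)

def a2e62 : Pos := ⟨219673525315979741810835388266689916751114067429779642985958658202723985468107833301008308201358152731494428672587154105287126526687256227737841154534150242304, 3039195974009126469381708316318373227188358771103384761770812407303210235036099781822299768708109125403053938105094153870559280280213521907966130586369438565174123618820390125568, 9⟩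
def a2c62 : Cert := (move 461 (branch (move 460 (branch (move 459 (leaf 459 3)) (move 429 (branch (move 397 (leaf 397 4)) (move 524 (branch (move 523 (leaf 491 1)) (move 556 (leaf 428 6)))))))) (branch (move 524 (branch (move 523 (leaf 491 1)) (move 429 (branch (move 397 (leaf 397 4)) (move 556 (branch (move 525 (leaf 428 5)) (move 588 (leaf 460 6)))))))) (branch (move 460 (branch (move 459 (leaf 459 3)) (move 429 (branch (move 397 (leaf 397 4)) (move 463 (branch (move 464 (leaf 460 2)) (move 431 (branch (move 399 (leaf 398 5)) (move 430 (branch (move 432 (leaf 428 1)) (move 525 (branch (move 398 (leaf 397 6)) (move 428 (branch (move 396 (leaf 396 4)) (move 557 (leaf 428 7)))))))))))))))) (move 524 (branch (move 523 (leaf 491 1)) (move 460 (branch (move 459 (leaf 459 3)) (move 556 (branch (move 588 (leaf 460 6)) (move 557 (branch (move 589 (leaf 460 4)) (move 428 (branch (move 525 (leaf 428 4)) (move 396 (branch (move 364 (leaf 364 4)) (move 395 (branch (move 363 (leaf 363 7)) (move 427 (leaf 395 7))))))))))))))))))))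
theorem a2p62 : a2e62.Valid :=
  pos_of_chk [] forall_nil a2c62 a2e62 (by decide +kernel)

def a2e63 : Pos := ⟨219673525213686285314080954828777738725251593923009579047112883531371130215103652163362228361255962346309923761621945226300874307649216960678922621617633755136, 6308749050385674535270102198585199527507052273717626490019271905115594975294495107232482125449322203232196584868413999002502610138371846037196259606591912804352, 6⟩
def a2c63 : Cert := (move 495 (branch (move 459 (branch (move 460 (leaf 459 3)) (move 491 (branch (move 458 (leaf 458 3)) (move 490 (branch (move 525 (leaf 490 0)) (move 522 (branch (move 521 (leaf 489 1)) (move 523 (leaf 490 1)))))))))) (branch (move 464 (branch (move 463 (leaf 460 2)) (move 496 (branch (move 465 (leaf 461 2)) (move 497 (branch (move 525 (leaf 493 1)) (move 529 (branch (move 528 (leaf 493 0)) (move 530 (leaf 494 0)))))))))) (move 460 (branch (move 459 (leaf 459 3)) (move 496 (branch (move 461 (leaf 460 3)) (move 464 (branch (move 463 (leaf 460 2)) (move 465 (leaf 461 2)))))))))))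
theorem a2p63 : a2e63.Valid :=
  pos_of_chk [] forall_nil a2c63 a2e63 (by decide +kernel)

def a2e64 : Pos := ⟨219673525213686285314080954828777738725251593923009579047112883531371130215103652163362228361255962346309923761621945226300874307649216960678922621617633755136, 1013065324669708823275973388187504420906033887933332945822663257617410062950188307460302208683005931281855204974095987932174441314898343725672153908095547346120415322566742245376, 6⟩
def a2c64 : Cert := (move 491 (branch (move 490 (branch (move 525 (leaf 490 0)) (move 458 (branch (move 457 (leaf 457 3)) (move 459 (leaf 458 3)))))) (branch (move 490 (branch (move 525 (leaf 490 0)) (move 522 (branch (move 521 (leaf 489 1)) (move 523 (leaf 490 1)))))) (move 523 (branch (move 522 (leaf 490 1)) (move 524 (branch (move 495 (leaf 491 1)) (move 459 (branch (move 458 (leaf 458 3)) (move 556 (branch (move 427 (leaf 427 4)) (move 588 (leaf 459 7)))))))))))))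
theorem a2p64 : a2e64.Valid :=
  pos_of_chk [] forall_nil a2c64 a2e64 (by decide +kernel)

def a2e65 : Pos := ⟨219673525213686285314080954828777738725251593923009579047112883531371130215103652163362228361255962346309923761621945226300874307649216960678922621617633755136, 4052261298678835298592299282304148821028499998747277291114479932521352345299799204792678796262346664674263035332286955753101166832882122652343959255216428948557452275826162663424, 9⟩
def a2c65 : Cert := (move 495 (branch (move 459 (branch (move 460 (leaf 459 3)) (move 491 (branch (move 458 (leaf 458 3)) (move 525 (branch (move 490 (leaf 490 0)) (move 496 (branch (move 524 (leaf 492 1)) (move 497 (leaf 493 1)))))))))) (branch (move 464 (branch (move 463 (leaf 460 2)) (move 496 (branch (move 465 (leaf 461 2)) (move 497 (branch (move 525 (leaf 493 1)) (move 529 (branch (move 528 (leaf 493 0)) (move 530 (leaf 494 0)))))))))) (branch (move 460 (branch (move 459 (leaf 459 3)) (move 496 (branch (move 461 (leaf 460 3)) (move 464 (branch (move 463 (leaf 460 2)) (move 465 (leaf 461 2)))))))) (move 491 (branch (move 490 (branch (move 525 (leaf 490 0)) (move 463 (branch (move 464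 (leaf 460 2)) (move 558 (branch (move 590 (leaf 462 6)) (move 521 (branch (move 522 (leaf 489 1)) (move 489 (branch (move 520 (leaf 488 1)) (move 457 (branch (move 456 (leaf 456 3)) (move 458 (leaf 457 3)))))))))))))) (branch (move 459 (branch (move 458 (leaf 458 3)) (move 460 (leaf 459 3)))) (move 463 (branch (move 464 (leaf 460 2)) (move 490 (branch (move 525 (leaf 490 0)) (move 460 (branch (move 459 (leaf 459 3)) (move 489 (branch (move 461 (leaf 457 2)) (move 521 (branch (move 520 (leaf 488 1)) (move 522 (leaf 489 1)))))))))))))))))))
theorem a2p65 : a2e65.Valid :=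
  pos_of_chk [] forall_nil a2c65 a2e65 (by decide +kernel)

def a2e66 : Pos := ⟨219673525213686285314080954828777738725251593923009579047112883531371130215103652163362228361255962346309923761621945226300874307649216960678922621617633755136, 30457577067682682442337530452619141231993445529348287832818001847738273139778603132134789457749254178116554161970987865702131704800862007255323741683420809941556249113354649650201389694976, 11⟩
def a2c66 : Cert := (move 523 (branch (move 524 (branch (move 495 (leaf 491 1)) (move 522 (branch (move 491 (leaf 490 1)) (move 521 (leaf 489 2)))))) (branch (move 522 (branch (move 491 (leaf 490 1)) (move 524 (branch (move 521 (leaf 489 2)) (move 525 (leaf 490 2)))))) (branch (move 495 (branch (move 524 (leaf 491 1)) (move 464 (branch (move 463 (leaf 460 2)) (move 496 (branch (move 465 (leaf 461 2)) (move 461 (branch (move 460 (leaf 460 3)) (move 525 (branch (move 497 (leaf 493 1)) (move 558 (branch (move 429 (leaf 429 4)) (move 590 (leaf 461 7)))))))))))))) (move 491 (branch (move 522 (leaf 490 1)) (move 525 (branch (move 490 (leaf 490 0)) (move 461 (branch (move 429 (branch (move 397 (leaf 397 4)) (move 428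 (branch (move 396 (leaf 396 7)) (move 557 (branch (move 460 (leaf 428 7)) (move 589 (branch (move 621 (leaf 493 6)) (move 588 (branch (move 556 (leaf 460 5)) (move 620 (leaf 492 5)))))))))))) (branch (move 558 (branch (move 429 (leaf 429 4)) (move 590 (leaf 461 7)))) (move 557 (branch (move 590 (branch (move 558 (leaf 461 4)) (move 589 (branch (move 622 (leaf 493 4)) (move 621 (leaf 493 6)))))) (branch (move 558 (branch (move 590 (leaf 461 4)) (move 460 (branch (move 428 (leaf 428 7)) (move 495 (branch (move 496 (leaf 460 3)) (move 556 (branch (move 588 (leaf 460 5)) (move 555 (branch (move 554 (leaf 522 2)) (move 587 (leaf 459 6)))))))))))) (move 460 (branch (move 428 (leaf 428 7)) (move 589 (leaf 460 7))))))))))))))))))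
theorem a2p66 : a2e66.Valid :=
  pos_of_chk [] forall_nil a2c66 a2e66 (by decide +kernel)

def a2e67 : Pos := ⟨219673525200899603251986650649038716472018784734663321054757161697452023308478129521156468381243188548161860647751294116427592780269462052296557805003069194240, 6078391948018252945182002445597297427169836519049422315396378218580874922042352158024294569730223170571922365217653573132984108503675033224021074695461910565431850414300706373632, 8⟩
def a2c67 : Cert := (move 492 (branch (move 491 (branch (move 527 (leaf 491 0)) (move 458 (branch (move 459 (leaf 458 3)) (move 490 (branch (move 457 (leaf 457 3)) (move 522 (branch (move 521 (leaf 489 1)) (move 523 (leaf 490 1)))))))))) (branch (move 527 (branch (move 491 (leaf 491 0)) (move 528 (branch (move 495 (leaf 492 0)) (move 529 (leaf 493 3)))))) (branch (move 495 (branch (move 459 (branch (move 460 (leaf 459 3)) (move 491 (branch (move 458 (leaf 458 3)) (move 490 (branch (move 525 (leaf 490 0)) (move 522 (branch (move 521 (leaf 489 1)) (move 523 (leaf 490 1)))))))))) (branch (move 459 (branch (move 460 (leaf 459 3)) (move 491 (branch (move 458 (leaf 458 3)) (move 525 (branch (move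 490 (leaf 490 0)) (move 496 (branch (move 524 (leaf 492 1)) (move 497 (leaf 493 1)))))))))) (branch (move 523 (branch (move 524 (leaf 491 1)) (move 491 (branch (move 522 (leaf 490 1)) (move 459 (branch (move 458 (leaf 458 3)) (move 460 (leaf 459 3)))))))) (move 524 (branch (move 523 (leaf 491 1)) (move 496 (branch (move 525 (leaf 492 1)) (move 529 (branch (move 528 (leaf 493 0)) (move 497 (branch (move 530 (leaf 494 0)) (move 465 (branch (move 464 (leaf 461 2)) (move 466 (leaf 462 2)))))))))))))))) (move 495 (branch (move 463 (branch (move 464 (leaf 460 2)) (move 527 (branch (move 528 (leaf 492 0)) (move 558 (branch (move 431 (leaf 430 5)) (move 590 (leaf 462 6)))))))) (branch (move 524 (branch (move 523 (leaf 491 1)) (move 496 (branch (move 525 (leaf 492 1)) (move 464 (branch (move 463 (leaf 460 2)) (move 465 (leaf 461 2)))))))) (move 527 (branch (move 528 (leaf 492 0)) (move 524 (branch (move 523 (leaf 491 1)) (move 525 (branch (move 496 (leaf 492 1)) (move 460 (branch (move 459 (leaf 459 3)) (move 557 (branch (move 428 (leaf 428 4)) (move 589 (leaf 460 7)))))))))))))))))))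
theorem a2p67 : a2e67.Valid :=
  pos_of_chk [] forall_nil a2c67 a2e67 (by decide +kernel)

def a2e68 : Pos := ⟨329510287762989358691697063434341007948329749536956207605068577044420714242840626355117422631826461427798601630014987845021544588264928353297742257660910108672, 13053247318556325490083281525675621609852751874692712073064691637885067152293342487324675927897924733413505503616774857559194075444743955329783122625335574673490104252534060569544227815424, 7⟩
def a2c68 : Cert := (move 461 (branch (move 429 (branch (move 397 (leaf 397 4)) (move 428 (branch (move 396 (leaf 396 7)) (move 460 (branch (move 557 (leaf 428 7)) (move 430 (branch (move 398 (leaf 397 6)) (move 459 (branch (move 458 (leaf 458 0)) (move 431 (leaf 427 1)))))))))))) (branch (move 558 (branch (move 429 (leaf 429 4)) (move 590 (leaf 461 7)))) (move 557 (branch (move 589 (branch (move 621 (leaf 493 6)) (move 588 (branch (move 556 (leaf 460 5)) (move 620 (leaf 492 5)))))) (move 558 (branch (move 590 (leaf 461 4)) (move 460 (branch (move 428 (leaf 428 7)) (move 495 (branch (move 496 (leaf 460 3)) (move 459 (branch (move 458 (leaf 458 0)) (move 492 (leaf 459 3)))))))))))))))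
theorem a2p68 : a2e68.Valid :=
  pos_of_chk [] forall_nil a2c68 a2e68 (by decide +kernel)

def a2e69 : Pos := ⟨219673525213686285314080954828777738725251593923009579047112883531371130215103652163362228361255962346309923761621945226300874307649216960678922621617633755136, 4052261298678835293680536557287856875127350433362173835733897296738596384888239982600087472208787078883219464734252601211952856978563304540257465974742552323363427219867198029824, 6⟩
def a2c69 : Cert := (move 495 (branch (move 463 (branch (move 464 (leaf 460 2)) (move 527 (branch (move 528 (leaf 492 0)) (move 558 (branch (move 431 (leaf 430 5)) (move 590 (leaf 462 6)))))))) (branch (move 460 (branch (move 459 (leaf 459 3)) (move 496 (branch (move 461 (leaf 460 3)) (move 464 (branch (move 463 (leaf 460 2)) (move 465 (leaf 461 2)))))))) (move 527 (branch (move 528 (leaf 492 0)) (move 460 (branch (move 459 (leaf 459 3)) (move 496 (branch (move 461 (leaf 460 3)) (move 497 (branch (move 525 (leaf 493 1)) (move 498 (leaf 494 1)))))))))))))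
theorem a2p69 : a2e69.Valid :=
  pos_of_chk [] forall_nil a2c69 a2e69 (by decide +kernel)

def a2e70 : Pos := ⟨329510287762989358691697063434341007948329749536956207605068577044420714242840626355117422631826461427798601630014987845021544588264928353297742257660910108672, 8702164938133027599298773517894636526838030986733404422998770174504235562356187625939993638798853233589184173680685038827952309915120829739144598231621008002516338088639738864761334398976, 10⟩
def a2c70 : Cert := (move 461 (branch (move 429 (branch (move 397 (leaf 397 4)) (move 428 (branch (move 396 (leaf 396 7)) (move 460 (branch (move 557 (leaf 428 7)) (move 430 (branch (move 398 (leaf 397 6)) (move 459 (branch (move 458 (leaf 458 0)) (move 431 (leaf 427 1)))))))))))) (branch (move 558 (branch (move 429 (leaf 429 4)) (move 590 (leaf 461 7)))) (move 558 (branch (move 590 (leaf 461 7)) (move 557 (branch (move 556 (branch (move 588 (leaf 460 5)) (move 555 (branch (move 554 (leaf 522 2)) (move 523 (branch (move 522 (leaf 522 3)) (move 559 (branch (move 524 (leaf 523 0)) (move 560 (branch (move 561 (leaf 525 3)) (move 592 (branch (move 591 (leaf 556 0)) (move 593 (leaf 557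 0)))))))))))))) (move 589 (branch (move 621 (leaf 493 6)) (move 460 (branch (move 428 (leaf 428 7)) (move 492 (leaf 460 7)))))))))))))
theorem a2p70 : a2e70.Valid :=
  pos_of_chk [] forall_nil a2c70 a2e70 (by decide +kernel)

def a2e71 : Pos := ⟨329510287762989358691697063434341007948329749536956207605068577044420714242840626355117422631826461427798601630014987845021544588264928353297742257660910108672, 21755412190840106999059850034415379281212476646958063884752863521901162986915839646939041944902306654043141955757821418424963797159558073821835025136353638897478408045071309844766473060352, 7⟩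
def a2c71 : Cert := (move 524 (branch (move 523 (branch (move 522 (leaf 490 2)) (move 555 (branch (move 554 (leaf 522 1)) (move 556 (branch (move 527 (leaf 523 1)) (move 491 (branch (move 490 (leaf 490 3)) (move 588 (branch (move 459 (leaf 459 4)) (move 620 (leaf 492 6)))))))))))) (branch (move 523 (branch (move 522 (leaf 490 2)) (move 558 (branch (move 559 (leaf 523 0)) (move 590 (branch (move 461 (leaf 461 7)) (move 622 (leaf 493 7)))))))) (move 527 (branch (move 528 (branch (move 529 (leaf 493 3)) (move 560 (branch (move 559 (leaf 524 0)) (move 561 (leaf 525 0)))))) (move 492 (branch (move 491 (leaf 491 0)) (move 556 (branch (move 555 (leaf 523 1)) (move 461 (branch (move 429 (leaf 428 5)) (move 588 (leaf 460 6)))))))))))))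
theorem a2p71 : a2e71.Valid :=
  pos_of_chk [] forall_nil a2c71 a2e71 (by decide +kernel)

def a2e72 : Pos := ⟨329510287762989358691697063434341007948329749536956207605068577044420714242840626355117422631826461427798601630014987845021544588264928353297742257660910108672, 15228788533588074896635256346733139062995373154361844980004801767281508847999645135317881345835381357659876742517549369421022989131378679193792618752447844164099817049626231816545638547456, 10⟩
def a2c72 : Cert := (move 492 (branch (move 527 (branch (move 491 (leaf 491 0)) (move 528 (leaf 492 3)))) (branch (move 524 (branch (move 523 (branch (move 522 (leaf 490 2)) (move 555 (branch (move 554 (leaf 522 1)) (move 460 (branch (move 428 (leaf 427 5)) (move 557 (branch (move 589 (leaf 460 7)) (move 587 (branch (move 556 (leaf 459 5)) (move 619 (leaf 491 6)))))))))))) (branch (move 527 (branch (move 528 (leaf 492 3)) (move 556 (branch (move 555 (leaf 523 1)) (move 588 (branch (move 620 (leaf 492 6)) (move 589 (branch (move 621 (leaf 492 4)) (move 460 (branch (move 557 (leaf 460 4)) (move 428 (branch (move 396 (leaf 396 4)) (move 427 (branch (move 395 (leaf 395 7)) (move 459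 (leaf 427 7)))))))))))))))) (move 523 (branch (move 522 (leaf 490 2)) (move 527 (branch (move 528 (leaf 492 3)) (move 559 (branch (move 558 (leaf 523 0)) (move 560 (leaf 524 0))))))))))) (move 460 (branch (move 557 (branch (move 589 (leaf 460 7)) (move 428 (branch (move 396 (leaf 396 4)) (move 524 (leaf 428 4)))))) (branch (move 491 (branch (move 490 (leaf 490 0)) (move 459 (branch (move 458 (leaf 458 3)) (move 523 (branch (move 522 (leaf 490 1)) (move 555 (branch (move 587 (leaf 459 6)) (move 524 (branch (move 554 (leaf 522 1)) (move 556 (branch (move 427 (leaf 427 4)) (move 588 (leaf 459 4)))))))))))))) (move 491 (branch (move 490 (leaf 490 0)) (move 523 (branch (move 522 (leaf 490 1)) (move 428 (branch (move 396 (leaf 396 4)) (move 459 (branch (move 458 (leaf 458 3)) (move 555 (leaf 427 6))))))))))))))))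
theorem a2p72 : a2e72.Valid :=
  pos_of_chk [] forall_nil a2c72 a2e72 (by decide +kernel)

def a2e73 : Pos := ⟨329510287762989358691697063434341007948329749536956207605068577044420714242840626355117422631826461427798601630014987845021544588264928353297742257660910108672, 13053247318556325495744225164308352360584437770087730600274092001156794884315283044660330069984309140011196001656877565978613204062791406008688453106004871109957323248928399866595788193792, 11⟩
def a2c73 : Cert := (move 461 (branch (move 429 (branch (move 397 (leaf 397 4)) (move 428 (branch (move 396 (leaf 396 7)) (move 460 (branch (move 557 (leaf 428 7)) (move 430 (branch (move 398 (leaf 397 6)) (move 459 (branch (move 458 (leaf 458 0)) (move 431 (leaf 427 1)))))))))))) (branch (move 558 (branch (move 429 (leaf 429 4)) (move 590 (leaf 461 7)))) (move 557 (branch (move 589 (branch (move 621 (leaf 493 6)) (move 588 (branch (move 556 (leaf 460 5)) (move 620 (leaf 492 5)))))) (branch (move 558 (branch (move 590 (leaf 461 4)) (move 460 (branch (move 428 (leaf 428 7)) (move 492 (branch (move 589 (leaf 460 7)) (move 491 (branch (move 490 (leaf 490 0)) (move 527 (leaf 491 0))))))))))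 (move 558 (branch (move 590 (leaf 461 4)) (move 556 (branch (move 588 (leaf 460 5)) (move 527 (branch (move 528 (leaf 524 1)) (move 492 (branch (move 491 (leaf 491 0)) (move 460 (branch (move 428 (leaf 428 7)) (move 459 (branch (move 458 (leaf 458 0)) (move 524 (branch (move 427 (leaf 427 7)) (move 559 (branch (move 523 (leaf 523 0)) (move 560 (leaf 524 0))))))))))))))))))))))))
theorem a2p73 : a2e73.Valid :=
  pos_of_chk [] forall_nil a2c73 a2e73 (by decide +kernel)

def a2e74 : Pos := ⟨219673525213686285314080954828777738725251593923009579047112883531371130215103652163362228361255962346309923761621945226300874307649216960678922621617633755136, 4351082442220282695931587030679574950935050166513008073866003650134995323080289329879356487244655087040606581987300282490488999235718515313209937873200980217257636094725434415077291720704, 7⟩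
def a2c74 : Cert := (move 495 (branch (move 463 (branch (move 464 (leaf 460 2)) (move 527 (branch (move 528 (leaf 492 0)) (move 558 (branch (move 431 (leaf 430 5)) (move 590 (leaf 462 6)))))))) (branch (move 524 (branch (move 523 (leaf 491 1)) (move 496 (branch (move 525 (leaf 492 1)) (move 464 (branch (move 463 (leaf 460 2)) (move 465 (leaf 461 2)))))))) (move 527 (branch (move 528 (leaf 492 0)) (move 524 (branch (move 523 (leaf 491 1)) (move 525 (branch (move 496 (leaf 492 1)) (move 556 (branch (move 555 (leaf 523 1)) (move 588 (branch (move 461 (leaf 460 6)) (move 620 (leaf 492 6)))))))))))))))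
theorem a2p74 : a2e74.Valid :=
  pos_of_chk [] forall_nil a2c74 a2e74 (by decide +kernel)

def a2e75 : Pos := ⟨471745303899009197682065141939954191965920510922086464127945296120020142594806766774473046258346621187713873832988388504554160399360205428314371943613378643454519672832, 23359695969840033790289097364614381193665100257853753829282340017543892290877171632165915098439903441491822012189121076616785127221611357651120783570506195253740081966532403378084991244248004165632, 10⟩
def a2c75 : Cert := (move 459 (branch (move 460 (branch (move 458 (leaf 458 0)) (move 428 (leaf 428 7)))) (branch (move 558 (branch (move 590 (leaf 461 4)) (move 491 (branch (move 492 (leaf 491 0)) (move 428 (branch (move 460 (leaf 428 7)) (move 427 (branch (move 396 (leaf 395 6)) (move 522 (branch (move 554 (leaf 426 5)) (move 395 (branch (move 490 (leaf 394 5)) (move 394 (branch (move 362 (leaf 362 7)) (move 426 (leaf 394 7)))))))))))))))) (branch (move 558 (branch (move 590 (leaf 461 4)) (move 491 (branch (move 492 (leaf 491 0)) (move 458 (branch (move 460 (leaf 458 0)) (move 426 (branch (move 555 (leaf 426 7)) (move 394 (branch (move 362 (leaf 362 4)) (move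 490 (leaf 394 4)))))))))))) (move 491 (branch (move 492 (leaf 491 0)) (move 555 (branch (move 554 (branch (move 586 (leaf 458 5)) (move 427 (branch (move 522 (leaf 426 5)) (move 426 (branch (move 394 (leaf 394 7)) (move 458 (leaf 426 7)))))))) (branch (move 558 (branch (move 590 (leaf 461 4)) (move 554 (branch (move 586 (leaf 458 5)) (move 427 (branch (move 522 (leaf 426 5)) (move 396 (branch (move 428 (leaf 395 6)) (move 395 (branch (move 364 (leaf 363 6)) (move 394 (branch (move 362 (leaf 362 7)) (move 426 (leaf 394 7)))))))))))))) (branch (move 558 (branch (move 590 (leaf 461 4)) (move 458 (branch (move 426 (leaf 426 7)) (move 587 (branch (move 490 (leaf 458 7)) (move 620 (branch (move 588 (leaf 491 4)) (move 619 (branch (move 652 (leaf 523 4)) (move 618 (branch (move 586 (leaf 490 5)) (move 650 (leaf 522 5)))))))))))))) (branch (move 558 (branch (move 590 (leaf 461 4)) (move 586 (branch (move 554 (leaf 458 5)) (move 587 (branch (move 618 (leaf 490 5)) (move 620 (branch (move 588 (leaf 491 4)) (move 619 (branch (move 652 (leaf 523 4)) (move 490 (branch (move 458 (leaf 458 7)) (move 522 (leaf 490 7)))))))))))))) (move 558 (branch (move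 590 (leaf 461 4)) (move 426 (branch (move 458 (leaf 426 7)) (move 427 (branch (move 394 (leaf 394 7)) (move 396 (branch (move 428 (leaf 395 6)) (move 395 (branch (move 364 (leaf 363 6)) (move 522 (branch (move 490 (leaf 394 5)) (move 554 (leaf 426 5)))))))))))))))))))))))))
theorem a2p75 : a2e75.Valid :=
  pos_of_chk [] forall_nil a2c75 a2e75 (by decide +kernel)

def a2e76 : Pos := ⟨219673525200899603251986650649038716472018784734663321054757161697452023308478129521156468381243188548161860647751294116427592780269462052296557805003069194240, 23359696030755187969216271210204857819237162525852336438186002850439370086127049080331613417152560507517932918348112582643592825093599456632117157996052252581542214319984440834400837019173698666496, 15⟩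
def a2c76 : Cert := (move 525 (branch (ref 0) (branch (ref 1) (branch (ref 2) (branch (move 557 (branch (move 589 (branch (move 621 (leaf 493 6)) (move 492 (branch (move 460 (leaf 460 7)) (move 527 (branch (move 491 (leaf 491 0)) (move 528 (leaf 492 3)))))))) (branch (move 589 (branch (move 621 (leaf 493 6)) (move 588 (branch (move 620 (leaf 492 5)) (move 461 (branch (move 556 (leaf 460 5)) (move 429 (branch (move 397 (leaf 397 4)) (move 428 (branch (move 396 (leaf 396 7)) (move 460 (leaf 428 7)))))))))))) (branch (move 461 (branch (move 429 (branch (move 397 (leaf 397 4)) (move 428 (branch (move 396 (leaf 396 7)) (move 460 (leaf 428 7)))))) (move 556 (branch (move 588 (leaf 460 5)) (move 527 (branch (move 528 (leaf 524 1)) (move 555 (branch (move 524 (leaf 523 1)) (move 554 (leaf 522 2)))))))))) (move 589 (branch (move 621 (leaf 493 6)) (move 588 (branch (move 620 (leaf 492 5)) (move 556 (branch (move 461 (leaf 460 5)) (move 527 (branch (move 528 (leaf 524 1)) (move 555 (branch (move 524 (leaf 523 1)) (move 554 (leaf 522 2)))))))))))))))) (branch (ref 3) (branch (ref 4) (branch (move 492 (branch (move 527 (branch (move 491 (leaf 491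 0)) (move 528 (leaf 492 3)))) (branch (move 460 (branch (move 557 (branch (move 589 (leaf 460 7)) (move 428 (branch (move 396 (leaf 396 4)) (move 524 (leaf 428 4)))))) (branch (move 491 (branch (move 490 (leaf 490 0)) (move 459 (branch (move 458 (leaf 458 3)) (move 428 (branch (move 396 (leaf 396 4)) (move 557 (branch (move 461 (leaf 428 7)) (move 589 (leaf 460 7)))))))))) (move 491 (branch (move 490 (leaf 490 0)) (move 523 (branch (move 522 (leaf 490 1)) (move 459 (branch (move 458 (leaf 458 3)) (move 555 (branch (move 587 (leaf 459 6)) (move 554 (branch (move 524 (leaf 522 1)) (move 586 (leaf 458 5))))))))))))))) (move 524 (branch (move 523 (branch (move 522 (leaf 490 2)) (move 555 (branch (move 554 (leaf 522 1)) (move 460 (branch (move 428 (leaf 427 5)) (move 557 (branch (move 589 (leaf 460 7)) (move 587 (branch (move 556 (leaf 459 5)) (move 619 (leaf 491 6)))))))))))) (branch (move 523 (branch (move 522 (leaf 490 2)) (move 527 (branch (move 528 (leaf 492 3)) (move 559 (branch (move 558 (leaf 523 0)) (move 560 (leaf 524 0)))))))) (move 527 (branch (move 528 (leaf 492 3)) (move 556 (branch (move 555 (leaf 523 1)) (move 461 (branch (move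 429 (leaf 428 5)) (move 558 (branch (move 590 (leaf 461 7)) (move 559 (branch (move 560 (leaf 524 0)) (move 591 (branch (move 623 (leaf 494 7)) (move 557 (branch (move 592 (leaf 556 0)) (move 460 (branch (move 428 (leaf 428 4)) (move 589 (leaf 460 4)))))))))))))))))))))))) (move 527 (branch (move 528 (branch (move 529 (leaf 493 3)) (move 560 (branch (move 561 (leaf 525 0)) (move 559 (branch (move 524 (leaf 524 0)) (move 496 (branch (move 497 (leaf 493 2)) (move 591 (branch (move 464 (leaf 463 5)) (move 623 (leaf 495 6)))))))))))) (branch (move 492 (branch (move 491 (leaf 491 0)) (move 528 (leaf 492 3)))) (move 523 (branch (move 524 (branch (move 522 (leaf 490 2)) (move 559 (branch (move 558 (leaf 523 0)) (move 560 (leaf 524 0)))))) (branch (move 491 (branch (move 492 (leaf 491 0)) (move 524 (branch (move 490 (leaf 490 3)) (move 559 (branch (move 558 (leaf 523 0)) (move 560 (leaf 524 0)))))))) (branch (move 491 (branch (move 492 (leaf 491 0)) (move 524 (branch (move 522 (leaf 490 2)) (move 490 (leaf 490 3)))))) (move 461 (branch (move 491 (branch (move 492 (leaf 491 0)) (move 429 (branch (move 397 (leaf 397 4)) (move 428 (branch (move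 396 (leaf 396 7)) (move 460 (branch (move 557 (leaf 428 7)) (move 459 (branch (move 458 (leaf 458 0)) (move 555 (leaf 427 6)))))))))))) (branch (move 558 (branch (move 429 (leaf 429 4)) (move 590 (leaf 461 7)))) (move 557 (branch (move 492 (branch (move 491 (leaf 491 0)) (move 460 (branch (move 428 (leaf 428 7)) (move 589 (leaf 460 7)))))) (branch (move 590 (branch (move 558 (leaf 461 4)) (move 589 (branch (move 622 (leaf 493 4)) (move 621 (leaf 493 6)))))) (ref 5))))))))))))))))))))))
theorem a2p76 : a2e76.Valid :=
  pos_of_chk [a2e58, a2e70, a2e71, a2e72, a2e73, a2e75] (forall_cons a2p58 (forall_cons a2p70 (forall_cons a2p71 (forall_cons a2p72 (forall_cons a2p73 (forall_cons a2p75 forall_nil)))))) a2c76 a2e76 (by decide +kernel)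

def a2e77 : Pos := ⟨219673525175326239127798042289560671965553166357970805070045718029613809495227084236744948421217640951865734420009991896681029725509952235531828171773940072448, 23359696030755187969216271210204857822762236125277217334992129087372510038251847755960651637566188936942570881295444476428910095624767759800981807738397132921709819205238055164478698087329713618944, 16⟩
def a2c77 : Cert := (move 493 (branch (move 492 (branch (move 495 (branch (move 527 (branch (move 528 (leaf 492 0)) (move 460 (branch (move 459 (leaf 459 3)) (move 461 (branch (move 496 (leaf 460 3)) (move 524 (branch (move 523 (leaf 491 1)) (move 429 (branch (move 397 (leaf 397 4)) (move 556 (leaf 428 6)))))))))))) (branch (move 463 (branch (move 464 (leaf 460 2)) (move 460 (branch (move 459 (leaf 459 3)) (move 461 (branch (move 496 (leaf 460 3)) (move 558 (branch (move 590 (leaf 462 6)) (move 524 (branch (move 523 (leaf 491 1)) (move 429 (branch (move 397 (leaf 397 4)) (move 556 (leaf 428 6)))))))))))))) (move 463 (branch (move 464 (leaf 460 2)) (move 527 (branch (move 528 (leaf 492 0)) (move 558 (branch (move 431 (leaf 430 5)) (move 590 (leaf 462 6)))))))))))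 (branch (move 491 (branch (move 527 (leaf 491 0)) (move 458 (branch (move 459 (leaf 458 3)) (move 490 (branch (move 457 (leaf 457 3)) (move 522 (branch (move 521 (leaf 489 1)) (move 523 (leaf 490 1)))))))))) (branch (move 527 (branch (move 491 (leaf 491 0)) (move 528 (branch (move 495 (leaf 492 0)) (move 529 (leaf 493 3)))))) (ref 0))))) (branch (ref 1) (branch (move 492 (branch (ref 0) (branch (move 495 (branch (move 460 (branch (move 459 (leaf 459 3)) (move 461 (branch (move 496 (leaf 460 3)) (move 524 (branch (move 523 (leaf 491 1)) (move 429 (branch (move 397 (leaf 397 4)) (move 556 (leaf 428 6)))))))))) (branch (move 464 (branch (move 463 (leaf 460 2)) (move 496 (branch (move 465 (leaf 461 2)) (move 497 (branch (move 525 (leaf 493 1)) (move 529 (branch (move 528 (leaf 493 0)) (move 530 (leaf 494 0)))))))))) (ref 2)))) (branch (ref 3) (branch (ref 4) (branch (move 491 (branch (move 490 (branch (move 525 (leaf 490 0)) (move 458 (branch (move 457 (leaf 457 3)) (move 459 (leaf 458 3)))))) (branch (move 458 (branch (move 459 (leaf 458 3)) (move 490 (branch (move 457 (leaf 457 3)) (move 522 (branch (move 521 (leaf 489 1)) (move 523 (leaf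 490 1)))))))) (branch (move 490 (branch (move 525 (leaf 490 0)) (move 522 (branch (move 521 (leaf 489 1)) (move 523 (leaf 490 1)))))) (move 523 (branch (move 522 (leaf 490 1)) (move 459 (branch (move 458 (leaf 458 3)) (move 555 (branch (move 556 (branch (move 588 (leaf 459 4)) (move 524 (branch (move 427 (leaf 427 4)) (move 554 (branch (move 525 (leaf 522 1)) (move 586 (leaf 458 5)))))))) (move 460 (branch (move 428 (leaf 427 6)) (move 587 (leaf 459 6)))))))))))))) (branch (ref 5) (ref 6)))))))) (branch (ref 7) (branch (move 492 (branch (move 491 (branch (move 527 (leaf 491 0)) (move 458 (branch (move 459 (leaf 458 3)) (move 490 (branch (move 457 (leaf 457 3)) (move 522 (branch (move 521 (leaf 489 1)) (move 523 (leaf 490 1)))))))))) (branch (move 527 (branch (move 491 (leaf 491 0)) (move 528 (branch (move 495 (leaf 492 0)) (move 529 (leaf 493 3)))))) (branch (ref 0) (move 495 (branch (move 460 (branch (move 459 (leaf 459 3)) (move 461 (branch (move 496 (leaf 460 3)) (move 524 (branch (move 523 (leaf 491 1)) (move 429 (branch (move 397 (leaf 397 4)) (move 556 (leaf 428 6)))))))))) (branch (move 464 (branch (move 463 (leaf 460 2)) (move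 496 (branch (move 465 (leaf 461 2)) (move 497 (branch (move 525 (leaf 493 1)) (move 529 (branch (move 528 (leaf 493 0)) (move 530 (leaf 494 0)))))))))) (move 527 (branch (move 528 (leaf 492 0)) (move 524 (branch (move 523 (leaf 491 1)) (move 460 (branch (move 459 (leaf 459 3)) (move 463 (branch (move 464 (leaf 460 2)) (move 431 (branch (move 399 (leaf 398 5)) (move 432 (branch (move 400 (leaf 399 6)) (move 430 (branch (move 398 (leaf 398 7)) (move 429 (branch (move 461 (leaf 428 1)) (move 428 (branch (move 397 (leaf 396 6)) (move 525 (branch (move 396 (leaf 396 4)) (move 557 (leaf 428 4))))))))))))))))))))))))))))) (branch (move 492 (branch (ref 0) (branch (ref 6) (branch (move 491 (branch (move 527 (leaf 491 0)) (move 490 (branch (move 525 (leaf 490 0)) (move 458 (branch (move 457 (leaf 457 3)) (move 459 (leaf 458 3)))))))) (move 495 (branch (move 460 (branch (move 459 (leaf 459 3)) (move 461 (branch (move 496 (leaf 460 3)) (move 524 (branch (move 523 (leaf 491 1)) (move 429 (branch (move 397 (leaf 397 4)) (move 556 (leaf 428 6)))))))))) (branch (move 460 (branch (move 459 (leaf 459 3)) (move 496 (branch (move 461 (leaf 460 3)) (move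 464 (branch (move 463 (leaf 460 2)) (move 465 (leaf 461 2)))))))) (branch (move 524 (branch (move 523 (leaf 491 1)) (move 496 (branch (move 525 (leaf 492 1)) (move 464 (branch (move 463 (leaf 460 2)) (move 465 (leaf 461 2)))))))) (ref 2))))))))) (branch (move 525 (branch (ref 8) (branch (ref 9) (branch (move 524 (branch (move 495 (branch (move 496 (leaf 492 1)) (move 523 (leaf 491 2)))) (move 527 (branch (move 528 (branch (move 529 (leaf 493 3)) (move 560 (branch (move 559 (leaf 524 0)) (move 561 (leaf 525 0)))))) (move 556 (branch (move 555 (leaf 523 1)) (move 461 (branch (move 429 (leaf 428 5)) (move 588 (branch (move 557 (leaf 460 5)) (move 620 (leaf 492 6)))))))))))) (branch (move 524 (branch (move 495 (branch (move 496 (leaf 492 1)) (move 523 (leaf 491 2)))) (branch (ref 10) (move 523 (branch (move 522 (leaf 490 2)) (move 558 (branch (move 559 (leaf 523 0)) (move 590 (branch (move 461 (leaf 461 7)) (move 622 (leaf 493 7))))))))))) (move 524 (branch (move 495 (branch (move 496 (leaf 492 1)) (move 523 (leaf 491 2)))) (branch (move 523 (branch (move 522 (leaf 490 2)) (move 555 (branch (move 554 (leaf 522 1)) (move 527 (branch (move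 556 (leaf 523 1)) (move 528 (branch (move 529 (leaf 493 3)) (move 560 (branch (move 559 (leaf 524 0)) (move 561 (leaf 525 0)))))))))))) (ref 11))))))))) (branch (move 492 (branch (move 491 (branch (move 527 (leaf 491 0)) (move 458 (branch (move 459 (leaf 458 3)) (move 490 (branch (move 457 (leaf 457 3)) (move 522 (branch (move 521 (leaf 489 1)) (move 523 (leaf 490 1)))))))))) (branch (move 527 (branch (move 491 (leaf 491 0)) (move 528 (branch (move 495 (leaf 492 0)) (move 529 (leaf 493 3)))))) (branch (ref 3) (ref 12))))) (branch (move 525 (branch (ref 9) (branch (move 524 (branch (move 523 (branch (move 522 (leaf 490 2)) (move 495 (leaf 491 2)))) (move 527 (branch (move 528 (branch (move 529 (leaf 493 3)) (move 560 (branch (move 559 (leaf 524 0)) (move 561 (leaf 525 0)))))) (move 556 (branch (move 555 (leaf 523 1)) (move 461 (branch (move 429 (leaf 428 5)) (move 588 (branch (move 557 (leaf 460 5)) (move 620 (leaf 492 6)))))))))))) (branch (ref 13) (branch (ref 14) (branch (ref 15) (branch (ref 16) (move 492 (branch (move 491 (branch (move 490 (leaf 490 0)) (move 459 (branch (move 458 (leaf 458 3)) (move 460 (branch (move 495 (leaf 459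 3)) (move 523 (branch (move 522 (leaf 490 1)) (move 428 (branch (move 396 (leaf 396 4)) (move 555 (leaf 427 6)))))))))))) (branch (move 527 (branch (move 491 (leaf 491 0)) (move 528 (leaf 492 3)))) (move 495 (branch (move 460 (branch (move 459 (leaf 459 3)) (move 557 (branch (move 589 (leaf 460 7)) (move 428 (branch (move 396 (leaf 396 4)) (move 461 (leaf 428 7)))))))) (move 527 (branch (move 528 (leaf 492 0)) (move 463 (branch (move 464 (leaf 460 2)) (move 558 (branch (move 431 (leaf 430 5)) (move 590 (leaf 462 6)))))))))))))))))))) (branch (move 492 (branch (move 527 (branch (move 491 (leaf 491 0)) (move 528 (branch (move 495 (leaf 492 0)) (move 529 (leaf 493 3)))))) (branch (ref 5) (branch (move 491 (branch (move 527 (leaf 491 0)) (move 490 (branch (move 525 (leaf 490 0)) (move 458 (branch (move 457 (leaf 457 3)) (move 459 (leaf 458 3)))))))) (ref 12))))) (branch (move 492 (branch (move 491 (branch (move 527 (leaf 491 0)) (move 458 (branch (move 459 (leaf 458 3)) (move 490 (branch (move 457 (leaf 457 3)) (move 522 (branch (move 521 (leaf 489 1)) (move 523 (leaf 490 1)))))))))) (branch (move 527 (branch (move 491 (leaf 491 0)) (move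 528 (branch (move 495 (leaf 492 0)) (move 529 (leaf 493 3)))))) (branch (ref 4) (ref 17))))) (branch (move 525 (branch (move 492 (branch (move 491 (branch (move 490 (leaf 490 0)) (move 459 (branch (move 458 (leaf 458 3)) (move 460 (branch (move 495 (leaf 459 3)) (move 523 (branch (move 522 (leaf 490 1)) (move 428 (branch (move 396 (leaf 396 4)) (move 555 (leaf 427 6)))))))))))) (branch (move 527 (branch (move 491 (leaf 491 0)) (move 528 (leaf 492 3)))) (move 495 (branch (move 460 (branch (move 459 (leaf 459 3)) (move 496 (branch (move 497 (leaf 493 1)) (move 461 (leaf 460 3)))))) (branch (move 527 (branch (move 528 (leaf 492 0)) (move 460 (branch (move 459 (leaf 459 3)) (move 557 (branch (move 589 (leaf 460 7)) (move 428 (branch (move 396 (leaf 396 4)) (move 461 (leaf 428 7)))))))))) (move 528 (branch (move 527 (leaf 492 0)) (move 496 (branch (move 529 (leaf 493 0)) (move 497 (leaf 493 1)))))))))))) (branch (ref 8) (branch (move 524 (branch (move 495 (branch (move 496 (leaf 492 1)) (move 523 (leaf 491 2)))) (move 527 (branch (move 528 (branch (move 529 (leaf 493 3)) (move 560 (branch (move 559 (leaf 524 0)) (move 561 (leaf 525 0))))))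 (move 556 (branch (move 555 (leaf 523 1)) (move 461 (branch (move 429 (leaf 428 5)) (move 588 (branch (move 557 (leaf 460 5)) (move 620 (leaf 492 6)))))))))))) (branch (ref 14) (ref 15)))))) (branch (move 492 (branch (move 527 (branch (move 491 (leaf 491 0)) (move 528 (branch (move 495 (leaf 492 0)) (move 529 (leaf 493 3)))))) (branch (move 527 (branch (move 491 (leaf 491 0)) (move 528 (branch (move 525 (leaf 492 3)) (move 529 (leaf 493 3)))))) (branch (ref 6) (ref 17))))) (branch (move 525 (branch (ref 8) (branch (move 492 (branch (move 527 (branch (move 491 (leaf 491 0)) (move 528 (leaf 492 3)))) (branch (move 495 (branch (move 528 (branch (move 527 (leaf 492 0)) (move 496 (branch (move 529 (leaf 493 0)) (move 497 (leaf 493 1)))))) (branch (move 496 (branch (move 497 (leaf 493 1)) (move 464 (branch (move 463 (leaf 460 2)) (move 465 (leaf 461 2)))))) (move 527 (branch (move 528 (leaf 492 0)) (move 463 (branch (move 464 (leaf 460 2)) (move 558 (branch (move 431 (leaf 430 5)) (move 590 (leaf 462 6))))))))))) (move 491 (branch (move 490 (leaf 490 0)) (move 459 (branch (move 458 (leaf 458 3)) (move 495 (branch (move 460 (leaf 459 3)) (move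 496 (branch (move 497 (leaf 493 1)) (move 464 (branch (move 463 (leaf 460 2)) (move 465 (leaf 461 2))))))))))))))) (branch (ref 9) (move 524 (branch (move 495 (branch (move 496 (leaf 492 1)) (move 523 (leaf 491 2)))) (move 527 (branch (move 528 (branch (move 529 (leaf 493 3)) (move 560 (branch (move 559 (leaf 524 0)) (move 561 (leaf 525 0)))))) (move 556 (branch (move 555 (leaf 523 1)) (move 461 (branch (move 429 (leaf 428 5)) (move 588 (branch (move 557 (leaf 460 5)) (move 620 (leaf 492 6)))))))))))))))) (branch (move 525 (branch (move 492 (branch (move 491 (branch (move 490 (leaf 490 0)) (move 527 (leaf 491 0)))) (move 495 (branch (move 496 (branch (move 497 (leaf 493 1)) (move 464 (branch (move 463 (leaf 460 2)) (move 465 (leaf 461 2)))))) (move 460 (branch (move 459 (leaf 459 3)) (move 557 (branch (move 589 (leaf 460 7)) (move 428 (branch (move 396 (leaf 396 4)) (move 461 (leaf 428 7)))))))))))) (branch (move 524 (branch (move 495 (branch (move 496 (leaf 492 1)) (move 523 (leaf 491 2)))) (move 527 (branch (move 528 (branch (move 529 (leaf 493 3)) (move 560 (branch (move 559 (leaf 524 0)) (move 561 (leaf 525 0)))))) (move 556 (branch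 (move 555 (leaf 523 1)) (move 461 (branch (move 429 (leaf 428 5)) (move 588 (branch (move 557 (leaf 460 5)) (move 620 (leaf 492 6)))))))))))) (branch (move 524 (branch (move 523 (branch (move 522 (leaf 490 2)) (move 555 (branch (move 554 (leaf 522 1)) (move 556 (branch (move 527 (leaf 523 1)) (move 491 (branch (move 490 (leaf 490 3)) (move 588 (branch (move 459 (leaf 459 4)) (move 620 (leaf 492 6)))))))))))) (branch (move 495 (branch (move 496 (leaf 492 1)) (move 523 (leaf 491 2)))) (ref 10)))) (branch (ref 15) (ref 18)))))) (ref 19)))))))))))))))))
theorem a2p77 : a2e77.Valid :=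
  pos_of_chk [a2e57, a2e61, a2e62, a2e63, a2e64, a2e65, a2e66, a2e67, a2e68, a2e58, a2e60, a2e59, a2e69, a2e70, a2e71, a2e72, a2e73, a2e74, a2e11, a2e76] (forall_cons a2p57 (forall_cons a2p61 (forall_cons a2p62 (forall_cons a2p63 (forall_cons a2p64 (forall_cons a2p65 (forall_cons a2p66 (forall_cons a2p67 (forall_cons a2p68 (forall_cons a2p58 (forall_cons a2p60 (forall_cons a2p59 (forall_cons a2p69 (forall_cons a2p70 (forall_cons a2p71 (forall_cons a2p72 (forall_cons a2p73 (forall_cons a2p74 (forall_cons a2p11 (forall_cons a2p76 forall_nil)))))))))))))))))))) a2c77 a2e77 (by decide +kernel)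

def a2e78 : Pos := ⟨219673525124179510879420825570604582952621929604585773100622830693937381868724993667921908501166545759273481964527387457187903615990932602002368905315681828864, 2167109212962203536865659435659261771548110568529019372784445893325607606264397247994672564019448781988671054007747562861036523585647542770331333328368295665430734324925494730651165171471957644673121509179392, 17⟩
def a2c78 : Cert := (move 494 (branch (ref 0) (branch (move 558 (branch (move 590 (branch (move 495 (branch (move 463 (leaf 462 6)) (move 622 (branch (move 527 (leaf 494 6)) (move 623 (branch (move 591 (leaf 494 4)) (move 655 (leaf 526 4)))))))) (branch (move 495 (branch (move 463 (leaf 462 6)) (move 622 (branch (move 527 (leaf 494 6)) (move 621 (branch (move 589 (leaf 493 5)) (move 653 (leaf 525 5)))))))) (ref 1)))) (branch (ref 2) (branch (ref 3) (branch (ref 4) (move 462 (branch (move 431 (branch (move 463 (leaf 430 6)) (move 430 (branch (move 399 (leaf 398 6)) (move 429 (branch (move 397 (leaf 397 7)) (move 461 (leaf 429 7)))))))) (branch (move 559 (branch (move 591 (leaf 462 4)) (move 430 (branch (move 527 (leaf 430 4)) (move 429 (branch (move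 397 (leaf 397 7)) (move 461 (leaf 429 7)))))))) (branch (move 559 (branch (move 591 (leaf 462 4)) (move 430 (branch (move 527 (leaf 430 4)) (move 431 (branch (move 399 (leaf 398 6)) (move 463 (leaf 430 6)))))))) (ref 5)))))))))) (branch (move 558 (branch (ref 6) (branch (move 462 (branch (move 431 (branch (move 463 (leaf 430 6)) (move 430 (branch (move 399 (leaf 398 6)) (move 429 (branch (move 397 (leaf 397 7)) (move 461 (leaf 429 7)))))))) (branch (move 559 (branch (move 591 (leaf 462 4)) (move 430 (branch (move 527 (leaf 430 4)) (move 431 (branch (move 399 (leaf 398 6)) (move 463 (leaf 430 6)))))))) (move 461 (branch (move 429 (leaf 429 7)) (move 590 (branch (move 493 (leaf 461 7)) (move 591 (branch (move 559 (leaf 462 4)) (move 623 (leaf 494 4))))))))))) (branch (ref 7) (branch (move 462 (branch (move 559 (branch (move 591 (leaf 462 4)) (move 430 (branch (move 527 (leaf 430 4)) (move 431 (branch (move 399 (leaf 398 6)) (move 463 (leaf 430 6)))))))) (branch (move 591 (branch (move 559 (leaf 462 4)) (move 590 (branch (move 623 (leaf 494 4)) (move 589 (branch (move 557 (leaf 461 5)) (move 621 (leaf 493 5)))))))) (move 557 (branch (move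 589 (leaf 461 5)) (move 430 (branch (move 525 (leaf 429 5)) (move 431 (branch (move 399 (leaf 398 6)) (move 463 (leaf 430 6))))))))))) (move 462 (branch (move 431 (branch (move 463 (leaf 430 6)) (move 430 (branch (move 399 (leaf 398 6)) (move 429 (branch (move 397 (leaf 397 7)) (move 461 (leaf 429 7)))))))) (ref 8)))))))) (branch (move 558 (branch (ref 9) (branch (ref 10) (branch (ref 2) (branch (ref 11) (branch (ref 12) (move 462 (branch (move 431 (branch (move 463 (leaf 430 6)) (move 430 (branch (move 399 (leaf 398 6)) (move 429 (branch (move 397 (leaf 397 7)) (move 461 (leaf 429 7)))))))) (branch (move 559 (branch (move 591 (leaf 462 4)) (move 430 (branch (move 527 (leaf 430 4)) (move 429 (branch (move 397 (leaf 397 7)) (move 461 (leaf 429 7)))))))) (branch (move 559 (branch (move 591 (leaf 462 4)) (move 430 (branch (move 527 (leaf 430 4)) (move 431 (branch (move 399 (leaf 398 6)) (move 463 (leaf 430 6)))))))) (ref 13))))))))))) (branch (ref 14) (branch (move 558 (branch (move 590 (branch (move 495 (branch (move 463 (leaf 462 6)) (move 622 (branch (move 527 (leaf 494 6)) (move 623 (branch (move 591 (leaf 494 4)) (move 655 (leaf 526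 4)))))))) (branch (move 495 (branch (move 463 (leaf 462 6)) (move 622 (branch (move 527 (leaf 494 6)) (move 621 (branch (move 589 (leaf 493 5)) (move 653 (leaf 525 5)))))))) (ref 1)))) (branch (ref 6) (branch (ref 9) (branch (ref 15) (branch (ref 16) (branch (ref 17) (move 462 (branch (ref 18) (branch (ref 8) (branch (ref 13) (ref 19)))))))))))) (branch (move 462 (branch (ref 20) (branch (ref 21) (branch (move 558 (branch (ref 18) (branch (ref 8) (branch (ref 13) (ref 19))))) (branch (move 558 (branch (move 431 (branch (move 463 (leaf 430 6)) (move 430 (branch (move 399 (leaf 398 6)) (move 429 (branch (move 397 (leaf 397 7)) (move 461 (leaf 429 7)))))))) (branch (move 559 (branch (move 591 (leaf 462 4)) (move 430 (branch (move 527 (leaf 430 4)) (move 429 (branch (move 397 (leaf 397 7)) (move 461 (leaf 429 7)))))))) (branch (move 559 (branch (move 591 (leaf 462 4)) (move 430 (branch (move 527 (leaf 430 4)) (move 431 (branch (move 399 (leaf 398 6)) (move 463 (leaf 430 6)))))))) (ref 5))))) (branch (move 430 (branch (move 527 (branch (move 559 (leaf 430 4)) (move 398 (branch (move 495 (leaf 398 4)) (move 399 (branch (move 367 (leaf 366 6))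 (move 431 (leaf 398 6)))))))) (branch (move 525 (branch (move 557 (leaf 429 5)) (move 398 (branch (move 493 (leaf 397 5)) (move 399 (branch (move 367 (leaf 366 6)) (move 431 (leaf 398 6)))))))) (ref 22)))) (branch (move 430 (branch (move 527 (branch (move 559 (leaf 430 4)) (move 398 (branch (move 495 (leaf 398 4)) (move 397 (branch (move 365 (leaf 365 7)) (move 429 (leaf 397 7)))))))) (branch (move 525 (branch (move 557 (leaf 429 5)) (move 398 (branch (move 493 (leaf 397 5)) (move 397 (branch (move 365 (leaf 365 7)) (move 429 (leaf 397 7)))))))) (ref 22)))) (ref 23)))))))) (branch (ref 24) (branch (move 558 (branch (ref 25) (branch (ref 11) (branch (ref 26) (branch (ref 27) (branch (move 462 (branch (move 559 (branch (move 591 (leaf 462 4)) (move 430 (branch (move 527 (leaf 430 4)) (move 429 (branch (move 397 (leaf 397 7)) (move 461 (leaf 429 7)))))))) (branch (move 461 (branch (move 429 (leaf 429 7)) (move 590 (branch (move 493 (leaf 461 7)) (move 591 (branch (move 559 (leaf 462 4)) (move 623 (leaf 494 4)))))))) (branch (move 559 (branch (move 591 (leaf 462 4)) (move 430 (branch (move 527 (leaf 430 4)) (move 525 (branch (move 557 (leaf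 429 5)) (move 398 (branch (move 493 (leaf 397 5)) (move 399 (branch (move 367 (leaf 366 6)) (move 431 (leaf 398 6)))))))))))) (move 429 (branch (move 461 (leaf 429 7)) (move 430 (branch (move 397 (leaf 397 7)) (move 525 (branch (move 557 (leaf 429 5)) (move 398 (branch (move 493 (leaf 397 5)) (move 399 (branch (move 367 (leaf 366 6)) (move 431 (leaf 398 6)))))))))))))))) (branch (ref 28) (move 462 (branch (move 559 (branch (move 591 (leaf 462 4)) (move 430 (branch (move 527 (leaf 430 4)) (move 429 (branch (move 397 (leaf 397 7)) (move 461 (leaf 429 7)))))))) (branch (move 557 (branch (move 589 (leaf 461 5)) (move 430 (branch (move 525 (leaf 429 5)) (move 429 (branch (move 397 (leaf 397 7)) (move 461 (leaf 429 7)))))))) (ref 8))))))))))) (branch (move 558 (branch (ref 29) (branch (ref 16) (branch (ref 30) (branch (ref 27) (ref 31)))))) (branch (move 558 (branch (ref 15) (branch (ref 10) (branch (ref 25) (branch (move 590 (branch (move 495 (branch (move 463 (leaf 462 6)) (move 622 (branch (move 527 (leaf 494 6)) (move 623 (branch (move 591 (leaf 494 4)) (move 655 (leaf 526 4)))))))) (branch (move 493 (branch (move 461 (leaf 461 7)) (move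 622 (branch (move 525 (leaf 493 7)) (move 623 (branch (move 591 (leaf 494 4)) (move 655 (leaf 526 4)))))))) (move 463 (branch (move 495 (leaf 462 6)) (move 462 (branch (move 431 (leaf 430 6)) (move 461 (branch (move 429 (leaf 429 7)) (move 493 (leaf 461 7))))))))))) (ref 32)))))) (branch (move 558 (branch (ref 6) (branch (ref 9) (branch (ref 15) (branch (ref 16) (branch (ref 17) (move 462 (branch (move 559 (branch (move 591 (leaf 462 4)) (move 430 (branch (move 527 (leaf 430 4)) (move 431 (branch (move 399 (leaf 398 6)) (move 463 (leaf 430 6)))))))) (branch (move 557 (branch (move 589 (leaf 461 5)) (move 430 (branch (move 525 (leaf 429 5)) (move 431 (branch (move 399 (leaf 398 6)) (move 463 (leaf 430 6)))))))) (ref 8)))))))))) (branch (move 558 (branch (move 590 (branch (move 495 (branch (move 463 (leaf 462 6)) (move 622 (branch (move 527 (leaf 494 6)) (move 623 (branch (move 591 (leaf 494 4)) (move 655 (leaf 526 4)))))))) (branch (move 495 (branch (move 463 (leaf 462 6)) (move 622 (branch (move 527 (leaf 494 6)) (move 621 (branch (move 589 (leaf 493 5)) (move 653 (leaf 525 5)))))))) (ref 1)))) (branch (ref 6) (branch (ref 9) (branch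 (ref 15) (branch (ref 16) (branch (ref 17) (move 462 (branch (move 559 (branch (move 591 (leaf 462 4)) (move 430 (branch (move 527 (leaf 430 4)) (move 429 (branch (move 397 (leaf 397 7)) (move 461 (leaf 429 7)))))))) (branch (move 557 (branch (move 589 (leaf 461 5)) (move 430 (branch (move 525 (leaf 429 5)) (move 429 (branch (move 397 (leaf 397 7)) (move 461 (leaf 429 7)))))))) (ref 8))))))))))) (branch (move 558 (branch (ref 6) (branch (ref 10) (branch (ref 2) (ref 32))))) (branch (ref 33) (branch (move 558 (branch (ref 17) (branch (ref 7) (branch (ref 12) (branch (ref 34) (branch (ref 28) (branch (ref 31) (branch (ref 32) (move 462 (branch (move 431 (branch (move 463 (leaf 430 6)) (move 430 (branch (move 399 (leaf 398 6)) (move 429 (branch (move 397 (leaf 397 7)) (move 461 (leaf 429 7)))))))) (branch (move 463 (branch (move 431 (leaf 430 6)) (move 461 (branch (move 429 (leaf 429 7)) (move 590 (branch (move 495 (leaf 462 6)) (move 493 (leaf 461 7)))))))) (branch (move 431 (branch (move 463 (leaf 430 6)) (move 430 (branch (move 399 (leaf 398 6)) (move 525 (branch (move 557 (leaf 429 5)) (move 527 (branch (move 559 (leaf 430 4)) (move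 398 (branch (move 495 (leaf 398 4)) (move 493 (leaf 397 5)))))))))))) (branch (move 429 (branch (move 461 (leaf 429 7)) (move 430 (branch (move 397 (leaf 397 7)) (move 525 (branch (move 557 (leaf 429 5)) (move 398 (branch (move 493 (leaf 397 5)) (move 399 (branch (move 367 (leaf 366 6)) (move 431 (leaf 398 6)))))))))))) (move 461 (branch (move 429 (leaf 429 7)) (move 590 (branch (move 493 (leaf 461 7)) (move 495 (branch (move 463 (leaf 462 6)) (move 527 (branch (move 622 (leaf 494 6)) (move 430 (branch (move 398 (leaf 398 4)) (move 559 (leaf 430 4))))))))))))))))))))))))) (branch (move 558 (branch (ref 29) (branch (ref 16) (branch (ref 10) (branch (ref 3) (ref 4)))))) (ref 35)))))))))))))))))))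
theorem a2p78 : a2e78.Valid :=
  pos_of_chk [a2e14, a2e15, a2e16, a2e17, a2e18, a2e19, a2e20, a2e21, a2e22, a2e23, a2e24, a2e25, a2e26, a2e27, a2e36, a2e37, a2e38, a2e39, a2e40, a2e41, a2e42, a2e43, a2e44, a2e45, a2e49, a2e50, a2e47, a2e51, a2e52, a2e53, a2e46, a2e54, a2e55, a2e56, a2e48, a2e77] (forall_cons a2p14 (forall_cons a2p15 (forall_cons a2p16 (forall_cons a2p17 (forall_cons a2p18 (forall_cons a2p19 (forall_cons a2p20 (forall_cons a2p21 (forall_cons a2p22 (forall_cons a2p23 (forall_cons a2p24 (forall_cons a2p25 (forall_cons a2p26 (forall_cons a2p27 (forall_cons a2p36 (forall_cons a2p37 (forall_cons a2p38 (forall_cons a2p39 (forall_cons a2p40 (forall_cons a2p41 (forall_cons a2p42 (forall_cons a2p43 (forall_cons a2p44 (forall_cons a2p45 (forall_cons a2p49 (forall_cons a2p50 (forall_cons a2p47 (forall_cons a2p51 (forall_cons a2p52 (forall_cons a2p53 (forall_cons a2p46 (forall_cons a2p54 (forall_cons a2p55 (forall_cons a2p56 (forall_cons a2p48 (forall_cons a2p77 forall_nil)))))))))))))))))))))))))))))))))))) a2c78 a2e78 (by decide +kernel)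

end Crest.Agent.SN
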