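import Crest.Agent.Lib_SN_Check

set_option autoImplicit false
set_option linter.all false
set_option maxRecDepth 1000000

namespace Crest.Agent.SN
open Cert

def a3e0 : Pos := ⟨219673525175326239139706567948419895260313287626407871360895778083114828594879019660120542517667552527642048594904294154828562879507017294794859084857162596352, 471745303212529431617857442270420170716578766569776754333108117876195947222027692043617548223827592669936277710138609550924753088314149796834570631885482808618042523648, 9⟩
def a3c0 : Cert := (move 430 (branch (move 399 (branch (move 431 (leaf 398 6)) (move 398 (branch (move 367 (leaf 366 6)) (move 397 (branch (move 365 (leaf 365 7)) (move 429 (leaf 397 7)))))))) (branch (move 525 (branch (move 557 (leaf 429 5)) (move 398 (branch (move 493 (leaf 397 5)) (move 399 (branch (move 367 (leaf 366 6)) (move 431 (leaf 398 6)))))))) (branch (move 525 (branch (move 557 (leaf 429 5)) (move 398 (branch (move 493 (leaf 397 5)) (move 397 (branch (move 365 (leaf 365 7)) (move 429 (leaf 397 7)))))))) (move 525 (branch (move 557 (leaf 429 5)) (move 429 (branch (move 397 (leaf 397 7)) (move 428 (branch (move 427 (branch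 (move 463 (leaf 427 0)) (move 426 (branch (move 461 (leaf 426 0)) (move 458 (branch (move 457 (leaf 425 1)) (move 459 (leaf 426 1)))))))) (branch (move 431 (branch (move 399 (leaf 398 6)) (move 460 (branch (move 459 (leaf 427 1)) (move 461 (branch (move 432 (leaf 428 1)) (move 396 (branch (move 395 (leaf 395 3)) (move 493 (leaf 396 7)))))))))) (move 431 (branch (move 399 (leaf 398 6)) (move 463 (branch (move 427 (leaf 427 0)) (move 464 (leaf 428 0)))))))))))))))))
theorem a3p0 : a3e0.Valid :=
  pos_of_chk [] forall_nil a3c0 a3e0 (by decide +kernel)

def a3e1 : Pos := ⟨219673525175326239139706567951192564954434102485986285545038861786551265670254836235291022098282173835447674217944268560932702457604408505756262656686136754176, 368792154039213324985504266397691392193520109947902259021290953475685494016913735858413333799454046862900665589952455807800018039468067913728, 11⟩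
def a3c1 : Cert := (move 429 (branch (move 397 (leaf 397 7)) (move 428 (branch (move 427 (branch (move 463 (leaf 427 0)) (move 426 (branch (move 461 (leaf 426 0)) (move 458 (branch (move 457 (leaf 425 1)) (move 459 (leaf 426 1)))))))) (branch (move 431 (branch (move 399 (leaf 398 6)) (move 460 (branch (move 459 (leaf 427 1)) (move 432 (branch (move 461 (leaf 428 1)) (move 395 (branch (move 396 (leaf 395 3)) (move 427 (branch (move 394 (leaf 394 3)) (move 465 (branch (move 464 (leaf 429 0)) (move 433 (branch (move 466 (leaf 430 0)) (move 401 (branch (move 400 (leaf 397 2)) (move 402 (leaf 398 2)))))))))))))))))) (branch (move 431 (branch (move 399 (leaf 398 6)) (move 463 (branch (move 427 (leaf 427 0)) (move 464 (leaf 428 0)))))) (move 431 (branch (move 399 (leaf 398 6)) (move 460 (branch (move 459 (leaf 427 1)) (move 432 (branch (move 461 (leaf 428 1)) (move 464 (branch (move 463 (leaf 428 0)) (move 465 (leaf 429 0))))))))))))))))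
theorem a3p1 : a3e1.Valid :=
  pos_of_chk [] forall_nil a3c1 a3e1 (by decide +kernel)

def a3e2 : Pos := ⟨219673525175326239139706567951192564954434102485986285545038861786551265670254836235291022098282173835447674217944268560932702457604408505756262656686136754176, 2771503659009692712855630671869219647422491803165465659763878837978599226865610815859047503928169384460201156182174590718700614266805580732497276069556978268774613385216, 9⟩
def a3c2 : Cert := (move 525 (branch (move 557 (leaf 429 5)) (move 496 (branch (move 527 (branch (move 559 (leaf 430 4)) (move 528 (branch (move 497 (leaf 493 2)) (move 493 (branch (move 492 (leaf 492 3)) (move 529 (leaf 493 3)))))))) (branch (move 495 (branch (move 497 (leaf 493 1)) (move 524 (branch (move 493 (leaf 492 1)) (move 523 (leaf 491 2)))))) (branch (move 527 (branch (move 559 (leaf 430 4)) (move 524 (branch (move 495 (leaf 492 2)) (move 492 (branch (move 491 (leaf 491 3)) (move 493 (branch (move 528 (leaf 492 3)) (move 523 (branch (move 522 (leaf 490 2)) (move 555 (branch (move 554 (leaf 522 1)) (move 556 (leaf 523 1)))))))))))))) (move 495 (branch (move 497 (leaf 493 1)) (move 527 (branch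 (move 524 (leaf 492 2)) (move 559 (leaf 430 4))))))))))))
theorem a3p2 : a3e2.Valid :=
  pos_of_chk [] forall_nil a3c2 a3e2 (by decide +kernel)

def a3e3 : Pos := ⟨274591906469157798909747552861950839956941457947463506337557147537017261869033855295931185526522051189832168025012489870851287156887440294414785214717425090560, 6526623657252032096232936584157347840877298722984750170650736758322938110310198657989488051107319092036331892140800372710621989897753893662810531789221253819754622346412814388550820691968, 10⟩
def a3c3 : Cert := (move 525 (branch (move 527 (branch (move 491 (leaf 491 3)) (move 496 (branch (move 495 (leaf 492 2)) (move 528 (branch (move 497 (leaf 493 2)) (move 556 (branch (move 555 (leaf 523 1)) (move 557 (leaf 524 1)))))))))) (branch (move 523 (branch (move 495 (leaf 491 2)) (move 491 (branch (move 490 (leaf 490 3)) (move 555 (branch (move 554 (leaf 522 1)) (move 587 (branch (move 619 (leaf 491 6)) (move 588 (branch (move 620 (leaf 491 4)) (move 459 (branch (move 556 (leaf 459 4)) (move 427 (branch (move 395 (leaf 395 4)) (move 426 (branch (move 394 (leaf 394 7)) (move 458 (leaf 426 7)))))))))))))))))) (branch (move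 491 (branch (move 527 (leaf 491 3)) (move 490 (branch (move 489 (leaf 489 0)) (move 523 (leaf 490 3)))))) (move 495 (branch (move 523 (leaf 491 2)) (move 496 (branch (move 497 (leaf 493 1)) (move 527 (leaf 492 2))))))))))
theorem a3p3 : a3e3.Valid :=
  pos_of_chk [] forall_nil a3c3 a3e3 (by decide +kernel)

def a3e4 : Pos := ⟨274591906469157798924633209935524869075391609533009839201119722603893535743598774575150678147084440659552560743630367693535703599383771618493573856071453245440, 727242542312873430094318245535105703108234618622015315085552050757812766719340406223043051340259100230019371496297440999921247127573541402223373713408, 5⟩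
def a3c4 : Cert := (move 461 (branch (move 491 (branch (move 463 (leaf 459 1)) (move 490 (branch (move 459 (leaf 458 1)) (move 489 (leaf 457 2)))))) (branch (move 459 (branch (move 495 (leaf 459 0)) (move 427 (branch (move 426 (leaf 426 3)) (move 395 (branch (move 363 (leaf 363 4)) (move 491 (leaf 395 4)))))))) (branch (move 463 (branch (move 491 (leaf 459 1)) (move 495 (branch (move 496 (leaf 460 0)) (move 431 (branch (move 432 (leaf 428 2)) (move 399 (leaf 398 5)))))))) (move 495 (branch (move 459 (leaf 459 0)) (move 496 (branch (move 463 (leaf 460 0)) (move 497 (leaf 461 3))))))))))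
theorem a3p4 : a3e4.Valid :=
  pos_of_chk [] forall_nil a3c4 a3e4 (by decide +kernel)

def a3e5 : Pos := ⟨274591906469157798921656078520810063251701579215900572628407207590518280968685790719306779622971962765608482199906792128998820310884505353677816127800647614464, 10877706104537641414864417935970134898280836965064161745972259595842032998479191678325268951421227629641153618587177731751546241307750764003360870783388361748284523593428767318332145664000, 10⟩
def a3c5 : Cert := (move 460 (branch (move 461 (branch (move 429 (branch (move 556 (leaf 428 6)) (move 397 (branch (move 365 (leaf 365 4)) (move 428 (leaf 396 6)))))) (move 495 (branch (move 459 (leaf 459 0)) (move 496 (branch (move 463 (leaf 460 0)) (move 497 (leaf 461 3)))))))) (branch (ref 0) (branch (move 461 (branch (move 429 (branch (move 556 (leaf 428 6)) (move 397 (branch (move 365 (leaf 365 4)) (move 428 (leaf 396 6)))))) (move 463 (branch (move 491 (leaf 459 1)) (move 495 (branch (move 496 (leaf 460 0)) (move 431 (branch (move 432 (leaf 428 2)) (move 399 (leaf 398 5)))))))))) (branch (move 461 (branch (move 491 (branch (move 463 (leaf 459 1)) (move 490 (branch (move 459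 (leaf 458 1)) (move 489 (leaf 457 2)))))) (move 429 (branch (move 556 (leaf 428 6)) (move 397 (branch (move 365 (leaf 365 4)) (move 428 (leaf 396 6)))))))) (move 525 (branch (move 557 (branch (move 428 (leaf 428 4)) (move 589 (branch (move 556 (leaf 460 4)) (move 621 (leaf 493 6)))))) (branch (move 428 (branch (move 557 (leaf 428 4)) (move 527 (branch (move 491 (leaf 491 3)) (move 495 (branch (move 496 (leaf 492 2)) (move 559 (branch (move 591 (leaf 462 7)) (move 395 (branch (move 427 (leaf 395 7)) (move 396 (branch (move 363 (leaf 363 7)) (move 397 (branch (move 365 (leaf 364 6)) (move 429 (leaf 396 6)))))))))))))))) (move 556 (branch (move 459 (branch (move 427 (leaf 427 7)) (move 588 (branch (move 491 (leaf 459 7)) (move 587 (branch (move 555 (leaf 459 5)) (move 619 (leaf 491 5)))))))) (branch (move 491 (branch (move 527 (leaf 491 3)) (move 459 (branch (move 427 (leaf 427 7)) (move 588 (leaf 459 7)))))) (move 555 (branch (move 527 (leaf 523 1)) (move 587 (leaf 459 5)))))))))))))))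
theorem a3p5 : a3e5.Valid :=
  pos_of_chk [a3e4] (forall_cons a3p4 forall_nil) a3c5 a3e5 (by decide +kernel)

def a3e6 : Pos := ⟨274591906469157798909747552861950839956941457947463506337557147537017261869033855295931185526522051189832168025012489870851287156887440294414785214717425090560, 506532663101440530528795022154783601971828175311255485140060904528504908863851645616186600819498328677281565825733712410580264304514750194627824307592366330641550368488663547904, 6⟩
def a3c6 : Cert := (move 525 (branch (move 527 (branch (move 491 (leaf 491 3)) (move 496 (branch (move 495 (leaf 492 2)) (move 528 (branch (move 497 (leaf 493 2)) (move 556 (branch (move 555 (leaf 523 1)) (move 557 (leaf 524 1)))))))))) (branch (move 491 (branch (move 527 (leaf 491 3)) (move 490 (branch (move 489 (leaf 489 0)) (move 523 (leaf 490 3)))))) (branch (move 495 (branch (move 523 (leaf 491 2)) (move 496 (branch (move 497 (leaf 493 1)) (move 527 (leaf 492 2)))))) (move 523 (branch (move 495 (leaf 491 2)) (move 491 (branch (move 490 (leaf 490 3)) (move 555 (branch (move 554 (leaf 522 1)) (move 460 (branch (move 428 (leaf 427 5)) (move 587 (leaf 459 6))))))))))))))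
theorem a3p6 : a3e6.Valid :=
  pos_of_chk [] forall_nil a3c6 a3e6 (by decide +kernel)

def a3e7 : Pos := ⟨274591906469157798921656078520810063251701579215900572628407207590518280968685790719306779622971962765608482199906792128998820310884505353677816127800647614464, 10877706096433118817595199595824031678755890230373402374410545710883270572800149039523515094456498924420568165762286501446481266433634997172203779015170008851822058348370117777294444462080, 10⟩
def a3c7 : Cert := (move 460 (branch (move 461 (branch (move 491 (branch (move 463 (leaf 459 1)) (move 490 (branch (move 459 (leaf 458 1)) (move 489 (leaf 457 2)))))) (move 429 (branch (move 556 (leaf 428 6)) (move 397 (branch (move 365 (leaf 365 4)) (move 428 (leaf 396 6)))))))) (branch (move 428 (branch (move 427 (branch (move 395 (leaf 395 7)) (move 556 (branch (move 459 (leaf 427 7)) (move 397 (branch (move 429 (leaf 396 6)) (move 396 (branch (move 365 (leaf 364 6)) (move 589 (branch (move 557 (leaf 460 4)) (move 588 (branch (move 621 (leaf 492 4)) (move 587 (branch (move 555 (leaf 459 5)) (move 619 (leaf 491 5)))))))))))))))) (branch (move 523 (branch (move 555 (leaf 427 5))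 (move 396 (branch (move 491 (leaf 395 5)) (move 397 (branch (move 365 (leaf 364 6)) (move 429 (leaf 396 6)))))))) (branch (move 427 (branch (move 395 (leaf 395 7)) (move 459 (branch (move 556 (leaf 427 7)) (move 397 (branch (move 429 (leaf 396 6)) (move 396 (branch (move 365 (leaf 364 6)) (move 491 (branch (move 364 (leaf 363 5)) (move 523 (leaf 395 5)))))))))))) (move 427 (branch (move 395 (leaf 395 7)) (move 556 (branch (move 459 (leaf 427 7)) (move 555 (branch (move 523 (leaf 427 5)) (move 587 (leaf 459 5)))))))))))) (branch (move 556 (branch (move 461 (branch (move 429 (leaf 428 6)) (move 427 (branch (move 459 (leaf 427 7)) (move 428 (branch (move 463 (leaf 427 3)) (move 395 (leaf 395 7)))))))) (move 555 (branch (move 587 (leaf 459 5)) (move 525 (branch (move 527 (leaf 523 1)) (move 554 (branch (move 523 (leaf 522 1)) (move 553 (leaf 521 2)))))))))) (branch (move 428 (branch (move 427 (branch (move 395 (leaf 395 7)) (move 461 (branch (move 463 (leaf 427 3)) (move 426 (branch (move 425 (leaf 425 0)) (move 429 (leaf 426 0)))))))) (move 525 (branch (move 557 (leaf 428 4)) (move 491 (branch (move 527 (leaf 491 3)) (move 523 (branch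 (move 490 (leaf 490 3)) (move 396 (leaf 395 5)))))))))) (branch (move 428 (branch (move 427 (branch (move 395 (leaf 395 7)) (move 461 (branch (move 463 (leaf 427 3)) (move 426 (branch (move 425 (leaf 425 0)) (move 459 (leaf 426 3)))))))) (move 525 (branch (move 557 (leaf 428 4)) (move 491 (branch (move 527 (leaf 491 3)) (move 523 (branch (move 490 (leaf 490 3)) (move 396 (leaf 395 5)))))))))) (move 461 (branch (move 491 (branch (move 463 (leaf 459 1)) (move 490 (branch (move 459 (leaf 458 1)) (move 489 (leaf 457 2)))))) (move 556 (branch (move 429 (leaf 428 6)) (move 555 (branch (move 587 (leaf 459 5)) (move 525 (branch (move 527 (leaf 523 1)) (move 554 (branch (move 523 (leaf 522 1)) (move 553 (leaf 521 2))))))))))))))))))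
theorem a3p7 : a3e7.Valid :=
  pos_of_chk [] forall_nil a3c7 a3e7 (by decide +kernel)

def a3e8 : Pos := ⟨219673525188112921201800872128158917513546096814754129353251499917033935501504542302326302497680326325790111708774945264701844406886772203177223901471727157248, 15228788541692597487417976769340784441226310581074130207678131714884874356117445170036198974760712085387251709443313285267676473215862535479284476313723722922371956995970345975625237397504, 11⟩
def a3c8 : Cert := (move 524 (branch (ref 0) (branch (move 460 (branch (move 461 (branch (move 429 (branch (move 556 (leaf 428 6)) (move 397 (branch (move 365 (leaf 365 4)) (move 428 (leaf 396 6)))))) (move 495 (branch (move 459 (leaf 459 0)) (move 496 (branch (move 463 (leaf 460 0)) (move 497 (leaf 461 3)))))))) (branch (move 556 (branch (move 461 (branch (move 429 (leaf 428 6)) (move 459 (branch (move 495 (leaf 459 0)) (move 427 (leaf 427 7)))))) (move 555 (branch (move 587 (leaf 459 5)) (move 525 (branch (move 527 (leaf 523 1)) (move 554 (branch (move 523 (leaf 522 1)) (move 553 (leaf 521 2)))))))))) (branch (move 525 (branch (move 557 (branch (move 428 (leaf 428 4)) (move 589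 (branch (move 556 (leaf 460 4)) (move 621 (leaf 493 6)))))) (move 495 (branch (move 523 (leaf 491 2)) (move 496 (branch (move 497 (leaf 493 1)) (move 527 (leaf 492 2)))))))) (branch (move 556 (branch (move 461 (branch (move 429 (leaf 428 6)) (move 427 (branch (move 459 (leaf 427 7)) (move 428 (branch (move 463 (leaf 427 3)) (move 395 (leaf 395 7)))))))) (move 555 (branch (move 587 (leaf 459 5)) (move 525 (branch (move 527 (leaf 523 1)) (move 554 (branch (move 523 (leaf 522 1)) (move 553 (leaf 521 2)))))))))) (move 525 (branch (move 495 (branch (move 523 (leaf 491 2)) (move 496 (branch (move 497 (leaf 493 1)) (move 527 (leaf 492 2)))))) (move 428 (branch (move 557 (leaf 428 4)) (move 427 (branch (move 395 (leaf 395 7)) (move 461 (branch (move 463 (leaf 427 3)) (move 426 (branch (move 425 (leaf 425 0)) (move 429 (leaf 426 0))))))))))))))))) (branch (ref 1) (branch (move 525 (branch (move 491 (branch (move 527 (leaf 491 3)) (move 490 (branch (move 489 (leaf 489 0)) (move 523 (leaf 490 3)))))) (branch (move 495 (branch (move 523 (leaf 491 2)) (move 496 (branch (move 497 (leaf 493 1)) (move 527 (leaf 492 2)))))) (branch (move 523 (branch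 (move 495 (leaf 491 2)) (move 491 (branch (move 490 (leaf 490 3)) (move 555 (branch (move 554 (leaf 522 1)) (move 460 (branch (move 428 (leaf 427 5)) (move 587 (leaf 459 6)))))))))) (move 460 (branch (move 491 (branch (move 527 (leaf 491 3)) (move 461 (branch (move 463 (leaf 459 1)) (move 490 (branch (move 489 (leaf 489 0)) (move 459 (leaf 458 1)))))))) (branch (move 428 (branch (move 557 (leaf 428 4)) (move 527 (branch (move 491 (leaf 491 3)) (move 495 (branch (move 496 (leaf 492 2)) (move 559 (branch (move 591 (leaf 462 7)) (move 395 (branch (move 427 (leaf 395 7)) (move 396 (branch (move 363 (leaf 363 7)) (move 397 (branch (move 365 (leaf 364 6)) (move 429 (leaf 396 6)))))))))))))))) (move 428 (branch (move 557 (leaf 428 4)) (move 427 (branch (move 395 (leaf 395 7)) (move 461 (branch (move 463 (leaf 427 3)) (move 426 (branch (move 425 (leaf 425 0)) (move 429 (leaf 426 0))))))))))))))))) (branch (move 460 (branch (ref 2) (branch (move 461 (branch (move 491 (branch (move 463 (leaf 459 1)) (move 490 (branch (move 459 (leaf 458 1)) (move 489 (leaf 457 2)))))) (move 429 (branch (move 556 (leaf 428 6)) (move 397 (branch (move 365 (leaf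 365 4)) (move 428 (leaf 396 6)))))))) (move 525 (branch (move 557 (branch (move 428 (leaf 428 4)) (move 589 (branch (move 556 (leaf 460 4)) (move 621 (leaf 493 6)))))) (move 495 (branch (move 523 (leaf 491 2)) (move 496 (branch (move 497 (leaf 493 1)) (move 527 (leaf 492 2))))))))))) (branch (ref 3) (branch (move 460 (branch (move 461 (branch (move 429 (branch (move 556 (leaf 428 6)) (move 397 (branch (move 365 (leaf 365 4)) (move 428 (leaf 396 6)))))) (move 495 (branch (move 459 (leaf 459 0)) (move 496 (branch (move 463 (leaf 460 0)) (move 497 (leaf 461 3)))))))) (branch (ref 2) (branch (move 461 (branch (move 429 (branch (move 556 (leaf 428 6)) (move 397 (branch (move 365 (leaf 365 4)) (move 428 (leaf 396 6)))))) (move 463 (branch (move 491 (leaf 459 1)) (move 495 (branch (move 496 (leaf 460 0)) (move 431 (branch (move 432 (leaf 428 2)) (move 399 (leaf 398 5)))))))))) (move 428 (branch (move 523 (branch (move 555 (leaf 427 5)) (move 396 (branch (move 491 (leaf 395 5)) (move 397 (branch (move 365 (leaf 364 6)) (move 429 (leaf 396 6)))))))) (branch (move 427 (branch (move 395 (leaf 395 7)) (move 556 (branch (move 459 (leaf 427 7))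 (move 555 (branch (move 523 (leaf 427 5)) (move 587 (leaf 459 5)))))))) (move 427 (branch (move 395 (leaf 395 7)) (move 397 (branch (move 429 (leaf 396 6)) (move 396 (branch (move 365 (leaf 364 6)) (move 459 (branch (move 556 (leaf 427 7)) (move 364 (branch (move 332 (leaf 331 5)) (move 491 (leaf 363 5))))))))))))))))))) (ref 4)))))))))
theorem a3p8 : a3e8.Valid :=
  pos_of_chk [a3e3, a3e5, a3e4, a3e6, a3e7] (forall_cons a3p3 (forall_cons a3p5 (forall_cons a3p4 (forall_cons a3p6 (forall_cons a3p7 forall_nil))))) a3c8 a3e8 (by decide +kernel)

def a3e9 : Pos := ⟨219673525194506262232848024218028428640162501408927258349429360833993488954817303623429182487686713224864143265710270819638485170576649657368406309779009437696, 8702164877349108119057275971752374523997129476169728611192238016690320581649012040156601586402050999594335187246382722943307000189559668931013383989471357173864848218320944411268935057408, 11⟩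
def a3c9 : Cert := (move 460 (branch (move 524 (branch (move 525 (branch (move 527 (leaf 491 3)) (move 557 (branch (move 428 (leaf 428 4)) (move 589 (branch (move 556 (leaf 460 4)) (move 621 (leaf 493 6)))))))) (branch (move 525 (branch (move 527 (leaf 491 3)) (move 490 (branch (move 489 (leaf 489 0)) (move 523 (leaf 490 3)))))) (move 428 (branch (move 427 (branch (move 395 (leaf 395 7)) (move 459 (branch (move 556 (leaf 427 7)) (move 396 (branch (move 364 (leaf 363 5)) (move 397 (branch (move 365 (leaf 364 6)) (move 429 (leaf 396 6)))))))))) (branch (move 523 (branch (move 555 (leaf 427 5)) (move 427 (branch (move 395 (leaf 395 7)) (move 459 (branch (move 556 (leaf 427 4)) (move 426 (branch (move 394 (leaf 394 7)) (move 425 (branch (move 424 (leaf 424 0)) (move 457 (branch (move 456 (leaf 424 1)) (move 429 (branch (move 458 (leaf 425 1)) (move 397 (leaf 396 6)))))))))))))))) (move 523 (branch (move 396 (leaf 395 5)) (move 555 (leaf 427 5)))))))))) (branch (move 461 (branch (move 463 (leaf 459 1)) (move 490 (branch (move 459 (leaf 458 1)) (move 489 (leaf 457 2)))))) (branch (move 524 (branch (move 461 (branch (move 463 (leaf 459 1))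 (move 556 (branch (move 429 (leaf 428 6)) (move 459 (branch (move 427 (leaf 427 7)) (move 588 (leaf 459 7)))))))) (move 525 (branch (move 527 (leaf 491 3)) (move 428 (branch (move 557 (leaf 428 4)) (move 523 (branch (move 396 (leaf 395 5)) (move 555 (leaf 427 5)))))))))) (move 524 (branch (move 525 (branch (move 527 (leaf 491 3)) (move 490 (branch (move 489 (leaf 489 0)) (move 523 (leaf 490 3)))))) (move 461 (branch (move 463 (leaf 459 1)) (move 429 (branch (move 556 (leaf 428 6)) (move 397 (branch (move 365 (leaf 365 4)) (move 428 (leaf 396 6))))))))))))))
theorem a3p9 : a3e9.Valid :=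
  pos_of_chk [] forall_nil a3c9 a3e9 (by decide +kernel)

def a3e10 : Pos := ⟨219673525213686285325989480487636962020011715191446645337962943584872149314755587586737822457705873922086237936516247484448407461646282019941953534700856279040, 6356802634003392132592732568909805398337988420763424135315043378122399733456495223009530285588650429606632244821166470617228679516566012987106253817310961729536, 6⟩
def a3c10 : Cert := (move 495 (branch (move 523 (branch (move 524 (leaf 491 1)) (move 491 (branch (move 522 (leaf 490 1)) (move 459 (branch (move 458 (leaf 458 3)) (move 460 (leaf 459 3)))))))) (branch (move 524 (branch (move 523 (leaf 491 1)) (move 496 (branch (move 525 (leaf 492 1)) (move 497 (branch (move 461 (leaf 461 3)) (move 529 (branch (move 528 (leaf 493 0)) (move 530 (leaf 494 0)))))))))) (move 460 (branch (move 459 (leaf 459 3)) (move 496 (branch (move 461 (leaf 460 3)) (move 497 (branch (move 525 (leaf 493 1)) (move 529 (branch (move 528 (leaf 493 0)) (move 530 (leaf 494 0)))))))))))))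
theorem a3p10 : a3e10.Valid :=
  pos_of_chk [] forall_nil a3c10 a3e10 (by decide +kernel)

def a3e11 : Pos := ⟨219673525213686285325989480487636962020011715191446645337962943584872149314755587586737822457705873922086237936516247484448407461646282019941953534700856279040, 4351082440194152046592169389825410233101388150052542336003610718617655230888051463198046476664598147025034596828029953253633382353379904135337072467582908045226850060839524098210088878080, 7⟩
def a3c11 : Cert := (move 495 (branch (move 527 (branch (move 528 (leaf 492 0)) (move 524 (branch (move 523 (leaf 491 1)) (move 525 (branch (move 496 (leaf 492 1)) (move 557 (branch (move 589 (leaf 461 6)) (move 460 (branch (move 459 (leaf 459 3)) (move 428 (leaf 428 4)))))))))))) (branch (move 525 (branch (move 460 (branch (move 459 (leaf 459 3)) (move 557 (branch (move 589 (leaf 461 6)) (move 428 (branch (move 396 (leaf 396 4)) (move 461 (leaf 428 7)))))))) (branch (move 524 (branch (move 523 (leaf 491 1)) (move 527 (branch (move 528 (leaf 492 0)) (move 556 (branch (move 555 (leaf 523 1)) (move 588 (branch (move 461 (leaf 460 6)) (move 620 (leaf 492 6)))))))))) (move 527 (branch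 (move 528 (leaf 492 0)) (move 524 (branch (move 523 (leaf 491 1)) (move 557 (branch (move 589 (leaf 461 6)) (move 460 (branch (move 459 (leaf 459 3)) (move 428 (leaf 428 4))))))))))))) (branch (move 524 (branch (move 523 (leaf 491 1)) (move 496 (branch (move 525 (leaf 492 1)) (move 497 (branch (move 461 (leaf 461 3)) (move 529 (branch (move 528 (leaf 493 0)) (move 530 (leaf 494 0)))))))))) (branch (move 524 (branch (move 523 (leaf 491 1)) (move 496 (branch (move 525 (leaf 492 1)) (move 461 (branch (move 460 (leaf 460 3)) (move 497 (leaf 461 3)))))))) (move 460 (branch (move 459 (leaf 459 3)) (move 496 (branch (move 461 (leaf 460 3)) (move 528 (branch (move 527 (leaf 492 0)) (move 529 (leaf 493 0)))))))))))))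
theorem a3p11 : a3e11.Valid :=
  pos_of_chk [] forall_nil a3c11 a3e11 (by decide +kernel)

def a3e12 : Pos := ⟨219673525188112921201800872128158917513546096814754129353251499917033935501504542302326302497680326325790111708774945264701844406886772203177223901471727157248, 15228788541692597487329524526787012159371778264779259235587078973732864614406446016859624576146271487022141272417092566054770239277228857020032076901923208003113034866610668394284616515584, 15⟩
def a3c12 : Cert := (move 493 (branch (move 491 (branch (move 527 (leaf 491 0)) (move 463 (leaf 459 2)))) (branch (move 491 (branch (move 527 (leaf 491 0)) (move 522 (branch (move 523 (leaf 490 1)) (move 490 (branch (move 521 (leaf 489 1)) (move 458 (branch (move 457 (leaf 457 3)) (move 459 (leaf 458 3)))))))))) (branch (move 491 (branch (move 463 (leaf 459 2)) (move 522 (branch (move 523 (leaf 490 1)) (move 490 (branch (move 521 (leaf 489 1)) (move 458 (branch (move 457 (leaf 457 3)) (move 459 (leaf 458 3)))))))))) (move 495 (branch (move 524 (branch (move 523 (leaf 491 1)) (move 496 (branch (move 525 (leaf 492 1)) (move 464 (branch (move 463 (leaf 460 2)) (move 465 (leaf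 461 2)))))))) (branch (move 527 (branch (move 528 (leaf 492 0)) (move 524 (branch (move 523 (leaf 491 1)) (move 525 (branch (move 496 (leaf 492 1)) (move 557 (branch (move 589 (leaf 461 6)) (move 460 (branch (move 459 (leaf 459 3)) (move 428 (leaf 428 4)))))))))))) (branch (move 464 (branch (move 463 (leaf 460 2)) (move 496 (branch (move 465 (leaf 461 2)) (move 528 (branch (move 527 (leaf 492 0)) (move 529 (leaf 493 0)))))))) (move 527 (branch (move 528 (leaf 492 0)) (move 524 (branch (move 523 (leaf 491 1)) (move 556 (branch (move 460 (branch (move 459 (leaf 459 3)) (move 589 (branch (move 557 (leaf 460 4)) (move 588 (branch (move 621 (leaf 492 4)) (move 587 (branch (move 555 (leaf 459 5)) (move 619 (leaf 491 5)))))))))) (branch (move 463 (branch (move 464 (leaf 460 2)) (move 525 (branch (move 555 (leaf 523 1)) (move 589 (branch (move 557 (leaf 461 6)) (move 588 (branch (move 621 (leaf 492 4)) (move 620 (leaf 492 6)))))))))) (branch (move 460 (branch (move 459 (leaf 459 3)) (move 557 (branch (move 589 (leaf 460 4)) (move 428 (branch (move 525 (leaf 428 4)) (move 463 (branch (move 464 (leaf 460 2)) (move 431 (branch (move 399 (leaf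 398 5)) (move 591 (branch (move 559 (leaf 462 7)) (move 397 (branch (move 429 (leaf 396 6)) (move 396 (branch (move 365 (leaf 364 6)) (move 395 (branch (move 363 (leaf 363 7)) (move 427 (leaf 395 7)))))))))))))))))))) (move 460 (branch (move 459 (leaf 459 3)) (move 555 (branch (move 525 (leaf 523 1)) (move 587 (leaf 459 5))))))))))))))))))))))
theorem a3p12 : a3e12.Valid :=
  pos_of_chk [] forall_nil a3c12 a3e12 (by decide +kernel)

def a3e13 : Pos := ⟨274591906469157798921656078520810063251701579215900572628407207590518280968685790719306779622971962765608482199906792128998820310884505353677816127800647614464, 3116618138038143885414001382770065736477634767514355420734413879818107205683239293609353033680937635671484596337824795574560807183393772192723709267617312145408, 6⟩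
def a3c13 : Cert := (move 493 (branch (move 495 (branch (move 523 (leaf 491 1)) (move 464 (branch (move 463 (leaf 460 2)) (move 496 (branch (move 465 (leaf 461 2)) (move 528 (branch (move 527 (leaf 492 0)) (move 529 (leaf 493 0)))))))))) (branch (move 491 (branch (move 527 (leaf 491 0)) (move 463 (leaf 459 2)))) (branch (move 491 (branch (move 527 (leaf 491 0)) (move 523 (branch (move 522 (leaf 490 1)) (move 495 (leaf 491 1)))))) (move 491 (branch (move 463 (leaf 459 2)) (move 523 (branch (move 522 (leaf 490 1)) (move 495 (leaf 491 1))))))))))
theorem a3p13 : a3e13.Valid :=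
  pos_of_chk [] forall_nil a3c13 a3e13 (by decide +kernel)

def a3e14 : Pos := ⟨274591906469157798921656078520810063251701579215900572628407207590518280968685790719306779622971962765608482199906792128998820310884505353677816127800647614464, 3212725306501100558359708305957256817740052954495848150544446960405604409471286344428162314707287425246076504216488229118575769289989782823887859836569771835392, 8⟩
def a3c14 : Cert := (move 495 (branch (move 525 (branch (move 523 (leaf 491 2)) (move 496 (branch (move 497 (leaf 493 1)) (move 527 (leaf 492 2)))))) (branch (move 493 (branch (move 523 (leaf 491 1)) (move 463 (branch (move 464 (leaf 460 2)) (move 528 (branch (move 527 (leaf 492 0)) (move 496 (branch (move 529 (leaf 493 0)) (move 431 (branch (move 399 (leaf 399 4)) (move 497 (branch (move 461 (leaf 461 3)) (move 498 (leaf 462 3)))))))))))))) (branch (move 523 (branch (move 493 (leaf 491 1)) (move 525 (leaf 491 2)))) (move 496 (branch (move 497 (branch (move 461 (leaf 461 3)) (move 498 (branch (move 527 (leaf 494 1)) (move 463 (leaf 462 3)))))) (branch (move 493 (branch (move 525 (leaf 492 1)) (move 464 (branch (move 463 (leaf 460 2))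 (move 465 (leaf 461 2)))))) (move 525 (branch (move 493 (leaf 492 1)) (move 497 (leaf 493 1)))))))))))
theorem a3p14 : a3e14.Valid :=
  pos_of_chk [] forall_nil a3c14 a3e14 (by decide +kernel)

def a3e15 : Pos := ⟨274591906469157798921656078520810063251701579215900572628407207590518280968685790719306779622971962765608482199906792128998820310884505353677816127800647614464, 46719391939680067572473672132342837109085382824208473549925290553985404697794509406854729981762458876183718334961441458747774755358159635621124584631998977241724216237927610488509311191240499265536, 8⟩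
def a3c15 : Cert := (move 527 (branch (move 525 (branch (move 491 (leaf 491 3)) (move 496 (branch (move 495 (leaf 492 2)) (move 528 (branch (move 497 (leaf 493 2)) (move 556 (branch (move 555 (leaf 523 1)) (move 557 (leaf 524 1)))))))))) (branch (move 493 (branch (move 491 (leaf 491 0)) (move 528 (branch (move 495 (leaf 492 0)) (move 529 (leaf 493 3)))))) (branch (move 491 (branch (move 493 (leaf 491 0)) (move 525 (leaf 491 3)))) (move 525 (branch (move 496 (branch (move 495 (leaf 492 2)) (move 528 (branch (move 497 (leaf 493 2)) (move 556 (branch (move 555 (leaf 523 1)) (move 557 (leaf 524 1)))))))) (branch (move 493 (branch (move 528 (leaf 492 3)) (move 556 (branch (move 555 (leaf 523 1)) (move 461 (branch (move 429 (leaf 428 5)) (move 588 (leaf 460 6)))))))) (branch (move 496 (branch (move 495 (leaf 492 2)) (move 528 (branch (move 497 (leaf 493 2)) (move 493 (leaf 492 3)))))) (move 556 (branch (move 555 (leaf 523 1)) (move 588 (branch (move 621 (branch (move 589 (leaf 492 4)) (move 620 (branch (move 653 (leaf 524 4)) (move 619 (branch (move 587 (leaf 491 5)) (move 651 (leaf 523 5)))))))) (branch (move 493 (branch (move 461 (leaf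 460 6)) (move 620 (leaf 492 6)))) (move 493 (branch (move 461 (leaf 460 6)) (move 495 (branch (move 496 (leaf 492 1)) (move 589 (branch (move 621 (leaf 492 4)) (move 557 (leaf 461 6)))))))))))))))))))))
theorem a3p15 : a3e15.Valid :=
  pos_of_chk [] forall_nil a3c15 a3e15 (by decide +kernel)

def a3e16 : Pos := ⟨219673525188112921204778003542873723337236127131863395925964014930409190276417526158170201021792804219734190252498520829238727695386038467992981629742532788224, 506532662659179308046244925712114911986021653703659726163983062330892034577277845562502438303484719089840702915888295286159444541367068834264197353189950163843295459029647622144, 10⟩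
def a3c16 : Cert := (move 461 (branch (move 495 (branch (move 459 (leaf 459 0)) (move 496 (branch (move 463 (leaf 460 0)) (move 497 (leaf 461 3)))))) (branch (move 463 (branch (move 428 (branch (move 427 (leaf 427 3)) (move 429 (branch (move 464 (leaf 428 3)) (move 397 (branch (move 365 (leaf 365 4)) (move 524 (leaf 396 6)))))))) (move 495 (branch (move 496 (leaf 460 0)) (move 431 (branch (move 432 (leaf 428 2)) (move 399 (leaf 398 5)))))))) (branch (move 459 (branch (move 495 (leaf 459 0)) (move 427 (branch (move 426 (leaf 426 3)) (move 524 (branch (move 556 (leaf 427 7)) (move 395 (branch (move 363 (leaf 363 4)) (move 428 (leaf 395 7)))))))))) (move 524 (branch (move 556 (branch (move 429 (leaf 428 6)) (move 555 (branch (move 587 (leaf 459 5)) (move 525 (branch (move 527 (leaf 523 1)) (move 554 (branch (move 523 (leaf 522 1)) (move 553 (leaf 521 2)))))))))) (branch (move 427 (branch (move 459 (branch (move 426 (leaf 426 3)) (move 556 (leaf 427 7)))) (move 428 (branch (move 463 (leaf 427 3)) (move 395 (leaf 395 7)))))) (move 428 (branch (move 427 (branch (move 463 (leaf 427 3)) (move 395 (leaf 395 7)))) (branch (move 429 (branch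 (move 397 (leaf 396 6)) (move 427 (branch (move 426 (leaf 426 0)) (move 395 (leaf 395 7)))))) (branch (move 429 (branch (move 397 (leaf 396 6)) (move 427 (branch (move 426 (leaf 426 0)) (move 463 (leaf 427 3)))))) (move 523 (branch (move 555 (leaf 427 5)) (move 396 (branch (move 363 (branch (move 395 (leaf 363 7)) (move 364 (branch (move 331 (leaf 331 7)) (move 332 (branch (move 429 (leaf 332 4)) (move 333 (branch (move 301 (leaf 300 6)) (move 365 (leaf 332 6)))))))))) (branch (move 365 (branch (move 397 (leaf 364 6)) (move 364 (branch (move 333 (leaf 332 6)) (move 363 (branch (move 331 (leaf 331 7)) (move 395 (leaf 363 7)))))))) (branch (move 429 (branch (move 397 (leaf 396 6)) (move 463 (branch (move 464 (leaf 428 3)) (move 364 (branch (move 332 (leaf 332 4)) (move 363 (branch (move 331 (leaf 331 7)) (move 395 (leaf 363 7)))))))))) (move 397 (branch (move 365 (leaf 364 6)) (move 429 (leaf 396 6)))))))))))))))))))))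
theorem a3p16 : a3e16.Valid :=
  pos_of_chk [] forall_nil a3c16 a3e16 (by decide +kernel)

def a3e17 : Pos := ⟨89506774437637260673581129019849898350427676065238338776668112390135596495076838279355549807931926746578126935175888874681898426232662337530001096704, 2532663311910144709415201915847945582001874424364631540827875909427554026504251399566631079905849955695613972466354135237596096077800184389341016165409510437354602739822609039360, 5⟩
def a3c17 : Cert := (move 524 (branch (move 427 (branch (move 395 (leaf 395 7)) (move 556 (branch (move 459 (leaf 427 7)) (move 555 (branch (move 523 (leaf 427 5)) (move 587 (leaf 459 5)))))))) (branch (move 525 (branch (move 557 (leaf 428 4)) (move 523 (branch (move 522 (leaf 490 2)) (move 555 (leaf 427 5)))))) (move 557 (branch (move 525 (leaf 428 4)) (move 556 (branch (move 589 (leaf 460 4)) (move 427 (branch (move 395 (leaf 395 7)) (move 459 (leaf 427 7)))))))))))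
theorem a3p17 : a3e17.Valid :=
  pos_of_chk [] forall_nil a3c17 a3e17 (by decide +kernel)

def a3e18 : Pos := ⟨12786682065071435595146995500453043220350128111104007773153470950382460641842278399278907019043548063354220275936199710403368975938473437842613731328, 506532662570727063165306236742450503740870586781070190422271558048647352141042317486623830934203141759467820317300815762243805703599969667830155356616610771467992208506796113920, 9⟩
def a3c18 : Cert := (move 397 (branch (move 524 (branch (move 429 (leaf 396 6)) (move 427 (branch (move 395 (leaf 395 7)) (move 556 (branch (move 459 (leaf 427 7)) (move 555 (branch (move 523 (leaf 427 5)) (move 587 (leaf 459 5)))))))))) (branch (move 396 (branch (move 365 (leaf 364 6)) (move 395 (branch (move 363 (leaf 363 7)) (move 427 (branch (move 524 (leaf 395 7)) (move 426 (branch (move 398 (leaf 394 1)) (move 425 (leaf 393 2)))))))))) (branch (move 429 (branch (move 524 (leaf 396 6)) (move 365 (branch (move 333 (leaf 332 5)) (move 396 (leaf 364 6)))))) (move 396 (branch (move 365 (leaf 364 6)) (move 427 (branch (move 426 (branch (move 425 (leaf 393 2)) (move 398 (branch (move 399 (leaf 395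 1)) (move 429 (leaf 394 2)))))) (branch (move 363 (branch (move 395 (leaf 363 7)) (move 364 (branch (move 331 (leaf 331 7)) (move 332 (branch (move 459 (leaf 331 5)) (move 300 (branch (move 429 (leaf 300 4)) (move 301 (branch (move 269 (leaf 268 6)) (move 333 (leaf 300 6)))))))))))) (move 395 (branch (move 363 (leaf 363 7)) (move 426 (branch (move 398 (leaf 394 1)) (move 425 (leaf 393 2)))))))))))))))
theorem a3p18 : a3e18.Valid :=
  pos_of_chk [] forall_nil a3c18 a3e18 (by decide +kernel)

def a3e19 : Pos := ⟨219673525188112921204778003542873723337236127131863395925964014930409190276417526158170201021792804219734190252498520829238727695386038467992981629742532788224, 2532663311910144709415201915873518946203468449509033976807117612847694755534827340851668119469662395579810865595918386264440577052473114602524651772541178977811035861872503947264, 11⟩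
def a3c19 : Cert := (move 428 (branch (move 396 (branch (move 363 (branch (move 395 (leaf 363 7)) (move 364 (branch (move 331 (leaf 331 7)) (move 365 (branch (move 333 (leaf 332 6)) (move 397 (leaf 364 6)))))))) (branch (move 493 (branch (move 525 (leaf 396 4)) (move 461 (branch (move 364 (leaf 364 4)) (move 463 (branch (move 464 (leaf 460 1)) (move 427 (leaf 427 3)))))))) (move 493 (branch (move 525 (leaf 396 4)) (move 397 (branch (move 365 (leaf 364 6)) (move 461 (branch (move 429 (leaf 397 4)) (move 463 (branch (move 464 (leaf 460 1)) (move 427 (leaf 427 3))))))))))))) (branch (move 524 (branch (move 427 (branch (move 395 (leaf 395 7)) (move 556 (branch (move 459 (leaf 427 7)) (move 555 (branch (move 523 (leaf 427 5)) (move 587 (leaf 459 5)))))))) (branch (move 427 (branch (move 395 (leaf 395 7)) (move 461 (branch (move 463 (leaf 427 3)) (move 426 (branch (move 425 (leaf 425 0)) (move 429 (leaf 426 0)))))))) (move 429 (branch (move 397 (leaf 396 6)) (move 556 (branch (move 461 (leaf 428 6)) (move 555 (branch (move 523 (leaf 427 5)) (move 587 (leaf 459 5))))))))))) (branch (move 524 (branch (move 525 (branch (move 557 (leaf 428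 4)) (move 493 (branch (move 396 (leaf 396 4)) (move 523 (branch (move 522 (leaf 490 2)) (move 555 (leaf 427 5)))))))) (branch (move 429 (branch (move 397 (leaf 396 6)) (move 556 (branch (move 461 (leaf 428 6)) (move 555 (branch (move 523 (leaf 427 5)) (move 587 (leaf 459 5)))))))) (move 525 (branch (move 557 (leaf 428 4)) (move 429 (branch (move 397 (leaf 396 6)) (move 461 (branch (move 556 (leaf 428 6)) (move 396 (branch (move 493 (leaf 396 4)) (move 364 (branch (move 332 (leaf 332 4)) (move 363 (branch (move 331 (leaf 331 7)) (move 395 (leaf 363 7))))))))))))))))) (branch (move 524 (branch (move 427 (branch (move 395 (leaf 395 7)) (move 461 (branch (move 463 (leaf 427 3)) (move 426 (branch (move 425 (leaf 425 0)) (move 459 (leaf 426 3)))))))) (move 525 (branch (move 557 (leaf 428 4)) (move 493 (branch (move 396 (leaf 396 4)) (move 523 (branch (move 522 (leaf 490 2)) (move 555 (leaf 427 5)))))))))) (branch (move 524 (branch (move 525 (branch (move 557 (leaf 428 4)) (move 493 (branch (move 396 (leaf 396 4)) (move 523 (branch (move 522 (leaf 490 2)) (move 555 (leaf 427 5)))))))) (move 429 (branch (move 397 (leaf 396 6)) (move 461 (branch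 (move 556 (leaf 428 6)) (move 463 (branch (move 427 (leaf 427 3)) (move 464 (leaf 428 3)))))))))) (move 493 (branch (move 396 (branch (move 525 (leaf 396 4)) (move 363 (branch (move 395 (leaf 363 7)) (move 364 (branch (move 331 (leaf 331 7)) (move 365 (branch (move 333 (leaf 332 6)) (move 397 (leaf 364 6)))))))))) (branch (ref 0) (branch (move 525 (branch (move 396 (leaf 396 4)) (move 557 (branch (move 524 (leaf 428 4)) (move 589 (leaf 461 6)))))) (ref 1)))))))))))
theorem a3p19 : a3e19.Valid :=
  pos_of_chk [a3e17, a3e18] (forall_cons a3p17 (forall_cons a3p18 forall_nil)) a3c19 a3e19 (by decide +kernel)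

def a3e20 : Pos := ⟨219673525188112921204778003542873723337236127131863395925964014930409190276417526158170201021792804219734190252498520829238727695386038467992981629742532788224, 10877706096433118817595199596778238554244484193596192117263815698743151744002451632887672906910031417106384153562644570144867467832427446321863220915465356704133437667015404147479513399296, 10⟩
def a3c20 : Cert := (move 524 (branch (move 556 (branch (move 461 (branch (move 429 (leaf 428 6)) (move 588 (branch (move 493 (leaf 460 6)) (move 587 (branch (move 555 (leaf 459 5)) (move 619 (leaf 491 5)))))))) (branch (move 555 (branch (move 587 (leaf 459 5)) (move 428 (branch (move 523 (leaf 427 5)) (move 589 (branch (move 557 (leaf 460 4)) (move 588 (branch (move 621 (leaf 492 4)) (move 397 (branch (move 429 (leaf 396 6)) (move 396 (branch (move 365 (leaf 364 6)) (move 395 (branch (move 363 (leaf 363 7)) (move 427 (leaf 395 7)))))))))))))))) (branch (move 555 (branch (move 587 (leaf 459 5)) (move 523 (branch (move 428 (leaf 427 5)) (move 493 (branch (move 495 (leaf 491 1)) (move 522 (branch (move 521 (leaf 489 2)) (move 588 (branch (move 461 (leaf 460 6)) (move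 589 (branch (move 557 (leaf 460 4)) (move 621 (leaf 492 4)))))))))))))) (branch (move 461 (branch (move 429 (leaf 428 6)) (move 493 (branch (move 588 (leaf 460 6)) (move 495 (branch (move 523 (leaf 491 1)) (move 496 (leaf 460 3)))))))) (move 461 (branch (move 429 (leaf 428 6)) (move 555 (branch (move 587 (leaf 459 5)) (move 428 (branch (move 523 (leaf 427 5)) (move 427 (branch (move 463 (leaf 427 3)) (move 395 (leaf 395 7))))))))))))))) (branch (move 525 (branch (move 557 (branch (move 428 (leaf 428 4)) (move 589 (branch (move 556 (leaf 460 4)) (move 621 (leaf 493 6)))))) (move 495 (branch (move 523 (leaf 491 2)) (move 496 (branch (move 497 (leaf 493 1)) (move 527 (leaf 492 2)))))))) (branch (move 428 (branch (move 427 (branch (move 395 (leaf 395 7)) (move 461 (branch (move 463 (leaf 427 3)) (move 426 (branch (move 425 (leaf 425 0)) (move 429 (leaf 426 0)))))))) (move 525 (branch (move 557 (leaf 428 4)) (move 493 (branch (move 396 (leaf 396 4)) (move 523 (branch (move 522 (leaf 490 2)) (move 555 (leaf 427 5)))))))))) (branch (move 556 (branch (move 461 (branch (move 429 (leaf 428 6)) (move 588 (branch (move 493 (leaf 460 6)) (move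 587 (branch (move 555 (leaf 459 5)) (move 619 (leaf 491 5)))))))) (branch (move 461 (branch (move 429 (leaf 428 6)) (move 493 (branch (move 588 (leaf 460 6)) (move 495 (branch (move 523 (leaf 491 1)) (move 496 (leaf 460 3)))))))) (move 555 (branch (move 587 (leaf 459 5)) (move 525 (branch (move 527 (leaf 523 1)) (move 554 (branch (move 523 (leaf 522 1)) (move 553 (leaf 521 2))))))))))) (move 428 (branch (move 525 (branch (move 557 (leaf 428 4)) (move 429 (branch (move 397 (leaf 396 6)) (move 461 (branch (move 556 (leaf 428 6)) (move 396 (branch (move 493 (leaf 396 4)) (move 364 (branch (move 332 (leaf 332 4)) (move 363 (branch (move 331 (leaf 331 7)) (move 395 (leaf 363 7)))))))))))))) (branch (move 429 (branch (move 397 (leaf 396 6)) (move 461 (branch (move 556 (leaf 428 6)) (move 463 (branch (move 427 (leaf 427 3)) (move 464 (leaf 428 3)))))))) (branch (move 525 (branch (move 557 (leaf 428 4)) (move 493 (branch (move 396 (leaf 396 4)) (move 495 (branch (move 496 (leaf 492 1)) (move 527 (branch (move 528 (leaf 492 0)) (move 463 (branch (move 464 (leaf 460 2)) (move 427 (branch (move 461 (leaf 427 3)) (move 395 (leaf 395 7))))))))))))))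 (move 557 (branch (move 525 (leaf 428 4)) (move 395 (branch (move 427 (leaf 395 7)) (move 396 (branch (move 363 (leaf 363 7)) (move 397 (branch (move 365 (leaf 364 6)) (move 429 (leaf 396 6)))))))))))))))))))
theorem a3p20 : a3e20.Valid :=
  pos_of_chk [] forall_nil a3c20 a3e20 (by decide +kernel)

def a3e21 : Pos := ⟨219673525188112921201800872128158917513546096814754129353251499917033935501504542302326302497680326325790111708774945264701844406886772203177223901471727157248, 9343878400119044353521978233627518090547372323269415639455553082089515885462855361291978278740377180327958070828547353288353328436808126021943265564065989913637942053143788212429247840914757386240, 12⟩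
def a3c21 : Cert := (move 460 (branch (ref 0) (branch (ref 1) (branch (ref 2) (branch (move 495 (branch (move 461 (branch (move 459 (leaf 459 0)) (move 496 (branch (move 463 (leaf 460 0)) (move 497 (leaf 461 3)))))) (branch (move 493 (branch (move 459 (leaf 459 3)) (move 527 (branch (move 528 (leaf 492 0)) (move 464 (branch (move 463 (leaf 460 2)) (move 496 (branch (move 465 (leaf 461 2)) (move 497 (branch (move 525 (leaf 493 1)) (move 498 (leaf 494 1)))))))))))) (branch (move 459 (branch (move 461 (leaf 459 0)) (move 493 (leaf 459 3)))) (move 463 (branch (move 431 (branch (move 399 (leaf 398 5)) (move 432 (branch (move 461 (leaf 428 2)) (move 527 (branch (move 400 (leaf 399 6)) (move 559 (branch (move 464 (leaf 431 6)) (move 591 (leaf 462 7)))))))))) (branch (move 493 (branch (move 464 (leaf 460 2)) (move 528 (branch (move 527 (leaf 492 0)) (move 496 (branch (move 529 (leaf 493 0)) (move 431 (branch (move 399 (leaf 399 4)) (move 497 (branch (move 525 (leaf 493 1)) (move 498 (leaf 462 3)))))))))))) (move 496 (branch (move 461 (leaf 460 0)) (move 497 (branch (move 525 (leaf 493 1)) (move 498 (leaf 462 3))))))))))))) (branch (move 461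 (branch (move 495 (branch (move 459 (leaf 459 0)) (move 496 (branch (move 463 (leaf 460 0)) (move 497 (leaf 461 3)))))) (branch (move 463 (branch (move 428 (branch (move 427 (leaf 427 3)) (move 429 (branch (move 464 (leaf 428 3)) (move 397 (branch (move 365 (leaf 365 4)) (move 524 (leaf 396 6)))))))) (move 495 (branch (move 496 (leaf 460 0)) (move 431 (branch (move 432 (leaf 428 2)) (move 399 (leaf 398 5)))))))) (branch (move 459 (branch (move 495 (leaf 459 0)) (move 427 (branch (move 426 (leaf 426 3)) (move 524 (branch (move 556 (leaf 427 7)) (move 395 (branch (move 363 (leaf 363 4)) (move 428 (leaf 395 7)))))))))) (move 459 (branch (move 427 (branch (move 426 (leaf 426 3)) (move 524 (branch (move 556 (leaf 427 7)) (move 395 (branch (move 363 (leaf 363 4)) (move 428 (leaf 395 7)))))))) (branch (move 458 (branch (move 493 (leaf 458 0)) (move 489 (branch (move 490 (leaf 457 1)) (move 457 (branch (move 488 (leaf 456 1)) (move 425 (branch (move 424 (leaf 424 3)) (move 426 (leaf 425 3)))))))))) (move 493 (branch (move 458 (leaf 458 0)) (move 463 (branch (move 464 (leaf 460 1)) (move 397 (branch (move 429 (leaf 397 4)) (move 428 (branch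 (move 427 (leaf 427 3)) (move 396 (branch (move 364 (leaf 364 4)) (move 365 (leaf 364 6))))))))))))))))))) (branch (move 495 (branch (move 459 (branch (move 461 (leaf 459 0)) (move 493 (leaf 459 3)))) (branch (move 525 (branch (move 524 (branch (move 523 (leaf 491 2)) (move 557 (branch (move 428 (leaf 428 4)) (move 589 (branch (move 556 (leaf 460 4)) (move 621 (leaf 493 6)))))))) (move 496 (branch (move 497 (leaf 493 1)) (move 493 (branch (move 461 (leaf 460 3)) (move 528 (branch (move 527 (leaf 492 0)) (move 529 (leaf 493 0)))))))))) (branch (move 493 (branch (move 459 (leaf 459 3)) (move 524 (branch (move 523 (leaf 491 1)) (move 525 (branch (move 496 (leaf 492 1)) (move 557 (branch (move 428 (leaf 428 4)) (move 589 (leaf 461 6)))))))))) (move 524 (branch (move 461 (branch (move 459 (leaf 459 0)) (move 429 (branch (move 556 (leaf 428 6)) (move 397 (branch (move 365 (leaf 365 4)) (move 428 (leaf 396 6)))))))) (move 525 (branch (move 523 (leaf 491 2)) (move 496 (branch (move 497 (leaf 493 1)) (move 527 (leaf 492 2)))))))))))) (move 493 (branch (move 495 (branch (move 459 (leaf 459 3)) (move 464 (branch (move 463 (leaf 460 2)) (move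 496 (branch (move 465 (leaf 461 2)) (move 528 (branch (move 527 (leaf 492 0)) (move 529 (leaf 493 0)))))))))) (branch (move 428 (branch (move 396 (branch (move 525 (leaf 396 4)) (move 363 (branch (move 395 (leaf 363 7)) (move 364 (branch (move 331 (leaf 331 7)) (move 365 (branch (move 333 (leaf 332 6)) (move 397 (leaf 364 6)))))))))) (branch (ref 3) (branch (move 525 (branch (move 396 (leaf 396 4)) (move 557 (branch (move 524 (leaf 428 4)) (move 589 (leaf 461 6)))))) (ref 4))))) (move 495 (branch (move 464 (branch (move 463 (leaf 460 2)) (move 496 (branch (move 465 (leaf 461 2)) (move 528 (branch (move 527 (leaf 492 0)) (move 529 (leaf 493 0)))))))) (branch (move 524 (branch (move 523 (leaf 491 1)) (move 525 (branch (move 496 (leaf 492 1)) (move 557 (branch (move 428 (leaf 428 4)) (move 589 (leaf 461 6)))))))) (move 527 (branch (move 528 (leaf 492 0)) (move 524 (branch (move 523 (leaf 491 1)) (move 556 (branch (move 591 (branch (move 559 (leaf 462 7)) (move 589 (branch (move 557 (leaf 460 4)) (move 588 (branch (move 621 (leaf 492 4)) (move 619 (branch (move 587 (leaf 491 5)) (move 620 (branch (move 590 (leaf 587 1)) (move 651 (leaf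 523 5)))))))))))) (branch (move 555 (branch (move 525 (leaf 523 1)) (move 587 (leaf 459 5)))) (move 525 (branch (move 555 (leaf 523 1)) (move 557 (branch (move 428 (leaf 428 4)) (move 589 (leaf 460 4))))))))))))))))))))))))))
theorem a3p21 : a3e21.Valid :=
  pos_of_chk [a3e16, a3e19, a3e20, a3e17, a3e18] (forall_cons a3p16 (forall_cons a3p19 (forall_cons a3p20 (forall_cons a3p17 (forall_cons a3p18 forall_nil))))) a3c21 a3e21 (by decide +kernel)

def a3e22 : Pos := ⟨219673525175326239139706567948419895260313287626407871360895778083114828594879019660120542517667552527642048594904294154828562879507017294794859084857162596352, 46719391939680067584630456027524304627587476656655670787924358924833079591222161573553472222758290467093871141598939383771577573778144615870044325726551281140064305986603838973286773778850691153920, 16⟩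
def a3c22 : Cert := (move 492 (branch (ref 0) (branch (move 491 (branch (move 493 (branch (move 527 (leaf 491 0)) (move 522 (branch (move 523 (leaf 490 1)) (move 490 (branch (move 521 (leaf 489 1)) (move 458 (branch (move 457 (leaf 457 3)) (move 459 (leaf 458 3)))))))))) (branch (move 493 (branch (move 463 (leaf 459 2)) (move 522 (branch (move 523 (leaf 490 1)) (move 490 (branch (move 521 (leaf 489 1)) (move 458 (branch (move 457 (leaf 457 3)) (move 459 (leaf 458 3)))))))))) (branch (move 493 (branch (move 527 (leaf 491 0)) (move 463 (leaf 459 2)))) (ref 1))))) (branch (move 493 (branch (move 491 (branch (move 527 (leaf 491 0)) (move 490 (branch (move 525 (leaf 490 0)) (move 461 (leaf 458 2)))))) (branch (move 491 (branch (move 527 (leaf 491 0)) (move 522 (branch (move 523 (leaf 490 1)) (move 490 (branch (move 521 (leaf 489 1)) (move 458 (branch (move 457 (leaf 457 3)) (move 459 (leaf 458 3)))))))))) (branch (ref 2) (ref 3))))) (branch (move 493 (branch (move 491 (branch (move 463 (leaf 459 2)) (move 490 (branch (move 525 (leaf 490 0)) (move 461 (leaf 458 2)))))) (branch (move 491 (branch (move 463 (leaf 459 2)) (move 522 (branch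 (move 523 (leaf 490 1)) (move 490 (branch (move 521 (leaf 489 1)) (move 458 (branch (move 457 (leaf 457 3)) (move 459 (leaf 458 3)))))))))) (branch (ref 2) (move 495 (branch (move 463 (branch (move 464 (leaf 460 2)) (move 460 (branch (move 459 (leaf 459 3)) (move 524 (branch (move 523 (leaf 491 1)) (move 431 (branch (move 399 (leaf 398 5)) (move 461 (branch (move 432 (leaf 428 2)) (move 429 (branch (move 397 (leaf 397 4)) (move 556 (leaf 428 6)))))))))))))) (branch (move 524 (branch (move 523 (leaf 491 1)) (move 496 (branch (move 525 (leaf 492 1)) (move 464 (branch (move 463 (leaf 460 2)) (move 465 (leaf 461 2)))))))) (move 460 (branch (move 459 (leaf 459 3)) (move 496 (branch (move 461 (leaf 460 3)) (move 497 (branch (move 525 (leaf 493 1)) (move 529 (branch (move 528 (leaf 493 0)) (move 530 (leaf 494 0))))))))))))))))) (branch (ref 4) (branch (move 493 (branch (move 491 (branch (move 527 (leaf 491 0)) (move 463 (leaf 459 2)))) (branch (move 491 (branch (move 527 (leaf 491 0)) (move 522 (branch (move 523 (leaf 490 1)) (move 490 (branch (move 521 (leaf 489 1)) (move 458 (branch (move 457 (leaf 457 3)) (move 459 (leaf 458 3))))))))))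 (branch (move 491 (branch (move 463 (leaf 459 2)) (move 522 (branch (move 523 (leaf 490 1)) (move 490 (branch (move 521 (leaf 489 1)) (move 458 (branch (move 457 (leaf 457 3)) (move 459 (leaf 458 3)))))))))) (move 495 (branch (move 463 (branch (move 464 (leaf 460 2)) (move 460 (branch (move 459 (leaf 459 3)) (move 524 (branch (move 523 (leaf 491 1)) (move 431 (branch (move 399 (leaf 398 5)) (move 461 (branch (move 432 (leaf 428 2)) (move 429 (branch (move 397 (leaf 397 4)) (move 556 (leaf 428 6)))))))))))))) (branch (move 464 (branch (move 463 (leaf 460 2)) (move 496 (branch (move 465 (leaf 461 2)) (move 528 (branch (move 527 (leaf 492 0)) (move 529 (leaf 493 0)))))))) (move 460 (branch (move 459 (leaf 459 3)) (move 496 (branch (move 461 (leaf 460 3)) (move 528 (branch (move 527 (leaf 492 0)) (move 529 (leaf 493 0))))))))))))))) (branch (move 524 (branch (ref 5) (branch (ref 6) (branch (move 491 (branch (move 493 (branch (move 527 (leaf 491 0)) (move 463 (leaf 459 2)))) (branch (move 525 (branch (move 527 (leaf 491 3)) (move 490 (branch (move 489 (leaf 489 0)) (move 523 (leaf 490 3)))))) (move 493 (branch (move 463 (leaf 459 2)) (move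 490 (branch (move 525 (leaf 490 0)) (move 461 (leaf 458 2))))))))) (branch (ref 7) (branch (move 493 (branch (move 491 (branch (move 463 (leaf 459 2)) (move 490 (branch (move 525 (leaf 490 0)) (move 461 (leaf 458 2)))))) (branch (move 495 (branch (move 523 (leaf 491 1)) (move 496 (branch (move 525 (leaf 492 1)) (move 464 (branch (move 463 (leaf 460 2)) (move 465 (leaf 461 2)))))))) (move 523 (branch (move 495 (leaf 491 1)) (move 522 (branch (move 491 (leaf 490 1)) (move 521 (leaf 489 2))))))))) (ref 8))))))) (branch (move 493 (branch (move 491 (branch (move 527 (leaf 491 0)) (move 490 (branch (move 525 (leaf 490 0)) (move 461 (leaf 458 2)))))) (branch (move 491 (branch (move 463 (leaf 459 2)) (move 490 (branch (move 525 (leaf 490 0)) (move 461 (leaf 458 2)))))) (branch (move 491 (branch (move 527 (leaf 491 0)) (move 463 (leaf 459 2)))) (move 495 (branch (move 464 (branch (move 463 (leaf 460 2)) (move 496 (branch (move 465 (leaf 461 2)) (move 528 (branch (move 527 (leaf 492 0)) (move 529 (leaf 493 0)))))))) (branch (move 463 (branch (move 464 (leaf 460 2)) (move 527 (branch (move 528 (leaf 492 0)) (move 431 (branch (move 399 (leaf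 398 5)) (move 460 (branch (move 459 (leaf 459 3)) (move 432 (branch (move 461 (leaf 428 2)) (move 400 (leaf 399 6)))))))))))) (branch (move 460 (branch (move 459 (leaf 459 3)) (move 496 (branch (move 461 (leaf 460 3)) (move 497 (branch (move 525 (leaf 493 1)) (move 529 (branch (move 528 (leaf 493 0)) (move 530 (leaf 494 0)))))))))) (move 463 (branch (move 464 (leaf 460 2)) (move 460 (branch (move 459 (leaf 459 3)) (move 461 (branch (move 496 (leaf 460 0)) (move 431 (branch (move 432 (leaf 428 2)) (move 399 (leaf 398 5)))))))))))))))))) (branch (move 524 (branch (ref 6) (branch (ref 9) (branch (move 491 (branch (move 493 (branch (move 527 (leaf 491 0)) (move 463 (leaf 459 2)))) (branch (move 525 (branch (move 527 (leaf 491 3)) (move 490 (branch (move 489 (leaf 489 0)) (move 523 (leaf 490 3)))))) (move 493 (branch (move 463 (leaf 459 2)) (move 490 (branch (move 525 (leaf 490 0)) (move 461 (leaf 458 2))))))))) (branch (ref 7) (branch (move 493 (branch (move 491 (branch (move 463 (leaf 459 2)) (move 490 (branch (move 525 (leaf 490 0)) (move 461 (leaf 458 2)))))) (branch (move 495 (branch (move 523 (leaf 491 1)) (move 496 (branch (move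 525 (leaf 492 1)) (move 464 (branch (move 463 (leaf 460 2)) (move 465 (leaf 461 2)))))))) (move 523 (branch (move 495 (leaf 491 1)) (move 522 (branch (move 491 (leaf 490 1)) (move 521 (leaf 489 2))))))))) (ref 8))))))) (branch (move 493 (branch (move 491 (branch (move 527 (leaf 491 0)) (move 463 (leaf 459 2)))) (branch (ref 2) (ref 3)))) (ref 10))))))))))))
theorem a3p22 : a3e22.Valid :=
  pos_of_chk [a3e8, a3e9, a3e10, a3e11, a3e12, a3e3, a3e13, a3e14, a3e15, a3e6, a3e21] (forall_cons a3p8 (forall_cons a3p9 (forall_cons a3p10 (forall_cons a3p11 (forall_cons a3p12 (forall_cons a3p3 (forall_cons a3p13 (forall_cons a3p14 (forall_cons a3p15 (forall_cons a3p6 (forall_cons a3p21 forall_nil))))))))))) a3c22 a3e22 (by decide +kernel)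

def a3e23 : Pos := ⟨219673525175326239139706567948419895260313287626407871360895778083114828594879019660120542517667552527642048594904294154828562879507017294794859084857162596352, 43510824385732475270026989404211719012212725705142268837670761690843915775391106165162980440888586026345689317895605595640613186335540699253091166126650436796174842577857951257438262919168, 5⟩
def a3c23 : Cert := (move 558 (branch (move 559 (branch (move 591 (leaf 462 4)) (move 430 (branch (move 527 (leaf 430 4)) (move 429 (branch (move 397 (leaf 397 7)) (move 461 (leaf 429 7)))))))) (branch (move 591 (branch (move 559 (leaf 462 4)) (move 590 (branch (move 623 (leaf 494 4)) (move 589 (branch (move 557 (leaf 461 5)) (move 621 (leaf 493 5)))))))) (move 557 (branch (move 589 (leaf 461 5)) (move 430 (branch (move 525 (leaf 429 5)) (move 429 (branch (move 397 (leaf 397 7)) (move 461 (leaf 429 7)))))))))))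
theorem a3p23 : a3e23.Valid :=
  pos_of_chk [] forall_nil a3c23 a3e23 (by decide +kernel)

def a3e24 : Pos := ⟨219673525175326239139706567948419895260313287626407871360895778083114828594879019660120542517667552527642048594904294154828562879507017294794859084857162596352, 8702164880388304092948466114644470716501869162979916059684987267329701251602807095577992748184871814534257310572298045988742215787957170105887356725453032500409519479602903801477577310208, 5⟩
def a3c24 : Cert := (move 558 (branch (move 431 (branch (move 463 (leaf 430 6)) (move 430 (branch (move 399 (leaf 398 6)) (move 429 (branch (move 397 (leaf 397 7)) (move 461 (leaf 429 7)))))))) (branch (move 463 (branch (move 431 (leaf 430 6)) (move 590 (branch (move 495 (leaf 462 6)) (move 589 (branch (move 557 (leaf 461 5)) (move 621 (leaf 493 5)))))))) (move 557 (branch (move 589 (leaf 461 5)) (move 430 (branch (move 525 (leaf 429 5)) (move 429 (branch (move 397 (leaf 397 7)) (move 461 (leaf 429 7)))))))))))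
theorem a3p24 : a3e24.Valid :=
  pos_of_chk [] forall_nil a3c24 a3e24 (by decide +kernel)

def a3e25 : Pos := ⟨219673525175326239139706567948419895260313287626407871360895778083114828594879019660120542517667552527642048594904294154828562879507017294794859084857162596352, 43510824385732475270026989404101882249752929406217175646815819416877757031991889153985125485537877504379746269869420790563040400425164115736950411721406363312839151636040800754555013824512, 5⟩
def a3c25 : Cert := (move 558 (branch (move 559 (branch (move 591 (leaf 462 4)) (move 430 (branch (move 527 (leaf 430 4)) (move 431 (branch (move 399 (leaf 398 6)) (move 463 (leaf 430 6)))))))) (branch (move 591 (branch (move 559 (leaf 462 4)) (move 590 (branch (move 623 (leaf 494 4)) (move 589 (branch (move 557 (leaf 461 5)) (move 621 (leaf 493 5)))))))) (move 463 (branch (move 431 (leaf 430 6)) (move 590 (branch (move 495 (leaf 462 6)) (move 589 (branch (move 557 (leaf 461 5)) (move 621 (leaf 493 5)))))))))))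
theorem a3p25 : a3e25.Valid :=
  pos_of_chk [] forall_nil a3c25 a3e25 (by decide +kernel)

def a3e26 : Pos := ⟨219673525175326239145660830777849506907693348260626404506320808109865338144704987371808339565892508315530205682351445283902329456505549824426374541398773858304, 353808977409397074434242282967802006485243645372868565732375595686713418886778507239385514195789118908214186064298182074262776237257807486312627543816284726918327042048, 9⟩
def a3c26 : Cert := (move 460 (branch (move 463 (branch (move 428 (branch (move 427 (leaf 427 3)) (move 464 (branch (move 429 (leaf 428 3)) (move 432 (branch (move 431 (leaf 428 2)) (move 433 (leaf 429 2)))))))) (branch (move 496 (branch (move 495 (leaf 460 0)) (move 464 (branch (move 497 (leaf 461 0)) (move 428 (branch (move 427 (leaf 427 3)) (move 429 (leaf 428 3)))))))) (move 495 (branch (move 496 (leaf 460 0)) (move 431 (branch (move 432 (leaf 428 2)) (move 399 (leaf 398 5))))))))) (branch (move 459 (branch (move 495 (leaf 459 0)) (move 426 (branch (move 427 (leaf 426 3)) (move 458 (branch (move 425 (leaf 425 3)) (move 490 (branch (move 489 (leaf 457 1)) (move 491 (leaf 458 1)))))))))) (branch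 (move 495 (branch (move 459 (leaf 459 0)) (move 496 (branch (move 463 (leaf 460 0)) (move 497 (leaf 461 3)))))) (move 427 (branch (move 459 (branch (move 426 (leaf 426 3)) (move 491 (branch (move 490 (leaf 458 1)) (move 492 (branch (move 463 (leaf 459 1)) (move 524 (branch (move 395 (leaf 395 4)) (move 556 (leaf 427 7)))))))))) (branch (move 428 (branch (move 463 (leaf 427 3)) (move 426 (branch (move 425 (leaf 425 0)) (move 429 (leaf 426 0)))))) (branch (move 426 (branch (move 459 (leaf 426 3)) (move 428 (branch (move 425 (leaf 425 0)) (move 429 (leaf 426 0)))))) (move 492 (branch (move 428 (branch (move 463 (leaf 427 3)) (move 524 (branch (move 395 (leaf 395 7)) (move 556 (branch (move 429 (leaf 428 6)) (move 459 (leaf 427 7)))))))) (branch (move 491 (branch (move 463 (leaf 459 1)) (move 490 (branch (move 459 (leaf 458 1)) (move 489 (leaf 457 2)))))) (branch (move 463 (branch (move 491 (leaf 459 1)) (move 428 (leaf 427 3)))) (move 524 (branch (move 428 (branch (move 395 (leaf 395 7)) (move 397 (branch (move 429 (leaf 396 6)) (move 396 (branch (move 365 (leaf 364 6)) (move 523 (branch (move 491 (leaf 395 5)) (move 555 (leaf 427 5))))))))))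 (branch (move 556 (branch (move 429 (leaf 428 6)) (move 459 (leaf 427 7)))) (move 459 (branch (move 556 (leaf 427 7)) (move 395 (branch (move 363 (leaf 363 4)) (move 491 (leaf 395 4)))))))))))))))))))))
theorem a3p26 : a3e26.Valid :=
  pos_of_chk [] forall_nil a3c26 a3e26 (by decide +kernel)

def a3e27 : Pos := ⟨943490606425058863235714884416545104824798258601323697891552112149426968814904589365540539512974219644159425224773795257082695957678593922640038505810610378477567737856, 11650251233701651465418607932255166555752952627271457862393298844392407968952045786654513166707646761678948752823048985567537520212203144935453354697604261305689658251598983331840, 13⟩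
def a3c27 : Cert := (move 460 (branch (move 557 (branch (move 589 (leaf 461 5)) (move 559 (branch (move 591 (leaf 462 4)) (move 491 (branch (move 492 (leaf 459 1)) (move 459 (branch (move 490 (leaf 458 1)) (move 427 (branch (move 426 (leaf 426 3)) (move 428 (leaf 427 3)))))))))))) (branch (move 496 (branch (move 495 (leaf 460 0)) (move 464 (branch (move 497 (leaf 461 0)) (move 433 (branch (move 432 (leaf 429 2)) (move 465 (branch (move 434 (leaf 430 2)) (move 557 (branch (move 589 (leaf 461 5)) (move 559 (branch (move 591 (leaf 462 4)) (move 492 (branch (move 491 (leaf 459 1)) (move 428 (branch (move 427 (leaf 427 3)) (move 524 (branch (move 525 (leaf 428 4)) (move 556 (branch (move 523 (leaf 523 3)) (move 587 (branch (move 588 (leaf 555 1)) (move 555 (leaf 459 5)))))))))))))))))))))))) (move 495 (branch (move 459 (leaf 459 0)) (move 496 (leaf 460 0)))))))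
theorem a3p27 : a3e27.Valid :=
  pos_of_chk [] forall_nil a3c27 a3e27 (by decide +kernel)

def a3e28 : Pos := ⟨219673525175326239169477882095567953497213590797500537088020928216867376344008858218559527758792331467082834032140049800197395764499679942952436367565218906112, 3039195976073012173503958905893932539320158450351473707845149725333624126345036916586870576003476686209634796357085759600671127062375675824942944390152873637761414356966301499392, 13⟩
def a3c28 : Cert := (move 464 (branch (move 433 (branch (move 432 (leaf 429 2)) (move 465 (branch (move 434 (leaf 430 2)) (move 497 (branch (move 496 (leaf 461 0)) (move 498 (leaf 462 0)))))))) (branch (move 493 (branch (move 492 (leaf 460 1)) (move 465 (leaf 461 1)))) (move 525 (branch (move 430 (branch (move 557 (leaf 429 5)) (move 399 (branch (move 431 (leaf 398 6)) (move 367 (branch (move 398 (leaf 366 6)) (move 432 (branch (move 433 (leaf 429 2)) (move 496 (branch (move 497 (leaf 461 0)) (move 400 (leaf 367 7)))))))))))) (branch (move 493 (branch (move 492 (leaf 460 1)) (move 557 (branch (move 589 (leaf 461 6)) (move 556 (branch (move 588 (leaf 460 5)) (move 527 (branch (move 528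 (leaf 524 1)) (move 555 (branch (move 524 (leaf 523 1)) (move 554 (leaf 522 2)))))))))))) (move 527 (branch (move 496 (branch (move 497 (leaf 461 0)) (move 432 (branch (move 433 (leaf 429 2)) (move 559 (branch (move 430 (leaf 430 4)) (move 528 (leaf 431 5)))))))) (branch (move 493 (branch (move 492 (leaf 460 1)) (move 496 (branch (move 497 (leaf 461 0)) (move 432 (branch (move 433 (leaf 429 2)) (move 528 (branch (move 529 (leaf 493 3)) (move 559 (leaf 431 5)))))))))) (branch (move 493 (branch (move 492 (leaf 460 1)) (move 430 (branch (move 559 (leaf 430 4)) (move 398 (leaf 397 5)))))) (move 493 (branch (move 492 (leaf 460 1)) (move 496 (branch (move 497 (leaf 461 0)) (move 432 (branch (move 433 (leaf 429 2)) (move 528 (branch (move 529 (leaf 493 3)) (move 399 (branch (move 431 (leaf 399 7)) (move 398 (branch (move 430 (leaf 397 5)) (move 400 (branch (move 367 (leaf 367 7)) (move 369 (branch (move 401 (leaf 368 6)) (move 368 (branch (move 397 (leaf 365 2)) (move 337 (leaf 336 6))))))))))))))))))))))))))))))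
theorem a3p28 : a3e28.Valid :=
  pos_of_chk [] forall_nil a3c28 a3e28 (by decide +kernel)

def a3e29 : Pos := ⟨219673525175326239163523619266138341849833530163282003942595898190116866794182890506871730710567375679194676944692898671123629187501147413320920911023607644160, 3039195976073012173503958905905120886135655209315138917146905294181032839728436198560210629415320234344668367091089541808289728512431945290430291958480024944915433063443039518720, 14⟩
def a3c29 : Cert := (move 461 (branch (move 431 (branch (move 432 (branch (move 460 (leaf 428 2)) (move 433 (branch (move 434 (leaf 430 1)) (move 464 (leaf 429 2)))))) (move 399 (branch (move 367 (leaf 366 5)) (move 430 (leaf 398 6)))))) (branch (move 431 (branch (move 399 (branch (move 367 (leaf 366 5)) (move 430 (leaf 398 6)))) (move 460 (branch (move 432 (leaf 428 2)) (move 491 (branch (move 492 (leaf 459 1)) (move 459 (branch (move 490 (leaf 458 1)) (move 427 (branch (move 426 (leaf 426 3)) (move 428 (leaf 427 3)))))))))))) (branch (move 460 (branch (move 427 (branch (move 428 (leaf 427 3)) (move 459 (branch (move 426 (leaf 426 3)) (move 458 (branch (move 493 (leaf 458 0)) (move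 490 (branch (move 489 (leaf 457 1)) (move 491 (leaf 458 1)))))))))) (branch (move 427 (branch (move 428 (leaf 427 3)) (move 459 (branch (move 426 (leaf 426 3)) (move 493 (branch (move 458 (leaf 458 0)) (move 464 (branch (move 492 (leaf 460 1)) (move 465 (leaf 461 1)))))))))) (branch (move 491 (branch (move 492 (leaf 459 1)) (move 459 (branch (move 490 (leaf 458 1)) (move 427 (branch (move 426 (leaf 426 3)) (move 428 (leaf 427 3)))))))) (move 492 (branch (move 491 (leaf 459 1)) (move 464 (branch (move 493 (leaf 460 1)) (move 497 (branch (move 496 (leaf 461 0)) (move 465 (branch (move 498 (leaf 462 0)) (move 433 (branch (move 432 (leaf 429 2)) (move 434 (leaf 430 2)))))))))))))))) (branch (move 460 (branch (move 427 (branch (move 428 (leaf 427 3)) (move 459 (branch (move 426 (leaf 426 3)) (move 458 (branch (move 493 (leaf 458 0)) (move 490 (branch (move 489 (leaf 457 1)) (move 491 (leaf 458 1)))))))))) (branch (move 427 (branch (move 428 (leaf 427 3)) (move 459 (branch (move 426 (leaf 426 3)) (move 493 (branch (move 458 (leaf 458 0)) (move 464 (branch (move 492 (leaf 460 1)) (move 465 (leaf 461 1)))))))))) (branch (move 491 (branch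 (move 492 (leaf 459 1)) (move 459 (branch (move 490 (leaf 458 1)) (move 427 (branch (move 426 (leaf 426 3)) (move 428 (leaf 427 3)))))))) (branch (move 492 (branch (move 491 (leaf 459 1)) (move 493 (branch (move 464 (leaf 460 1)) (move 459 (branch (move 458 (leaf 458 0)) (move 430 (branch (move 431 (leaf 427 2)) (move 525 (branch (move 398 (leaf 397 5)) (move 557 (leaf 429 5)))))))))))) (move 492 (branch (move 491 (leaf 459 1)) (move 493 (branch (move 464 (leaf 460 1)) (move 428 (branch (move 427 (leaf 427 3)) (move 525 (branch (move 396 (leaf 396 4)) (move 557 (leaf 428 7))))))))))))))) (ref 0))))))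
theorem a3p29 : a3e29.Valid :=
  pos_of_chk [a3e28] (forall_cons a3p28 forall_nil) a3c29 a3e29 (by decide +kernel)

def a3e30 : Pos := ⟨219673525175326239139706567948419895260313287626407871360895778083114828594879019660120542517667552527642048594904294154828562879507017294794859084857162596352, 34808659509396432475757358581819906938285011569619543431666765924449651892340337209200344203037564787108246583734908777560553740282720469521447944220714711827855247895419304810306166849536, 5⟩
def a3c30 : Cert := (move 558 (branch (move 559 (branch (move 591 (leaf 462 4)) (move 430 (branch (move 527 (leaf 430 4)) (move 431 (branch (move 399 (leaf 398 6)) (move 463 (leaf 430 6)))))))) (branch (move 431 (branch (move 463 (leaf 430 6)) (move 430 (branch (move 399 (leaf 398 6)) (move 429 (branch (move 397 (leaf 397 7)) (move 461 (leaf 429 7)))))))) (move 461 (branch (move 429 (leaf 429 7)) (move 590 (branch (move 493 (leaf 461 7)) (move 591 (branch (move 559 (leaf 462 4)) (move 623 (leaf 494 4)))))))))))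
theorem a3p30 : a3e30.Valid :=
  pos_of_chk [] forall_nil a3c30 a3e30 (by decide +kernel)

def a3e31 : Pos := ⟨219673525175326239139706567948419895260313287626407871360895778083114828594879019660120542517667552527642048594904294154828562879507017294794859084857162596352, 2026130650282908252441551421871195868226112918403175976736148862522177227255234631432089202022258103967732182867186830425594242663598275523595282068969534592764970375226754859008, 5⟩
def a3c31 : Cert := (move 430 (branch (move 399 (branch (move 431 (leaf 398 6)) (move 398 (branch (move 367 (leaf 366 6)) (move 397 (branch (move 365 (leaf 365 7)) (move 429 (leaf 397 7)))))))) (branch (move 525 (branch (move 557 (leaf 429 5)) (move 398 (branch (move 493 (leaf 397 5)) (move 397 (branch (move 365 (leaf 365 7)) (move 429 (leaf 397 7)))))))) (move 431 (branch (move 399 (leaf 398 6)) (move 558 (branch (move 463 (leaf 430 6)) (move 557 (branch (move 525 (leaf 429 5)) (move 589 (leaf 461 5)))))))))))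
theorem a3p31 : a3e31.Valid :=
  pos_of_chk [] forall_nil a3c31 a3e31 (by decide +kernel)

def a3e32 : Pos := ⟨943490606425058863235714884386773790677650200364423394720459446422301818681152041616410700954535234403034646285333009819846940312309761037647375857653033095769511428096, 2532663311910144709840819373889600466815413940150678575668799086374493212344161244650417331325419603431114474973044808463302569825283917193257416287843674165366049210835882999808, 11⟩
def a3c32 : Cert := (move 463 (branch (move 431 (leaf 430 6)) (move 464 (branch (move 465 (branch (move 493 (leaf 461 1)) (move 498 (branch (move 497 (leaf 462 0)) (move 466 (branch (move 499 (leaf 463 0)) (move 434 (branch (move 433 (leaf 430 2)) (move 435 (leaf 431 2)))))))))) (branch (move 461 (branch (move 429 (leaf 429 7)) (move 497 (branch (move 496 (leaf 461 0)) (move 465 (branch (move 498 (leaf 462 0)) (move 433 (branch (move 432 (leaf 429 2)) (move 434 (leaf 430 2)))))))))) (move 461 (branch (move 429 (leaf 429 7)) (move 492 (branch (move 493 (leaf 460 1)) (move 460 (branch (move 491 (leaf 459 1)) (move 557 (branch (move 589 (leaf 461 5)) (move 428 (branch (move 427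 (leaf 427 3)) (move 524 (branch (move 525 (leaf 428 4)) (move 555 (branch (move 523 (leaf 427 5)) (move 556 (branch (move 527 (leaf 523 2)) (move 587 (leaf 459 5)))))))))))))))))))))))
theorem a3p32 : a3e32.Valid :=
  pos_of_chk [] forall_nil a3c32 a3e32 (by decide +kernel)

def a3e33 : Pos := ⟨219673525175326239127798042289560671965553166357970805070045718029613809495227084236744948421217640951865734420009991896681029725509952235531828171773940072448, 43510824387252073257090520804412762463288931608414535321763076006898391550476339058184042208316711547739702209840684011764334209985071960806350810579627833098336167700658136672954585448448, 16⟩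
def a3c33 : Cert := (move 462 (branch (ref 0) (branch (ref 1) (branch (move 463 (branch (move 558 (branch (move 431 (leaf 430 6)) (move 589 (branch (move 557 (leaf 461 5)) (move 590 (branch (move 621 (leaf 493 5)) (move 591 (branch (move 559 (leaf 462 4)) (move 623 (leaf 494 4)))))))))) (branch (move 431 (branch (move 558 (leaf 430 6)) (move 399 (branch (move 367 (leaf 366 5)) (move 430 (leaf 398 6)))))) (branch (move 557 (branch (move 558 (branch (move 589 (leaf 461 5)) (move 559 (branch (move 591 (leaf 462 4)) (move 527 (branch (move 430 (leaf 430 4)) (move 528 (branch (move 529 (leaf 525 1)) (move 556 (leaf 524 2)))))))))) (branch (move 589 (branch (move 558 (leaf 461 5)) (move 525 (branch (move 493 (leaf 461 6)) (move 621 (leaf 493 6)))))) (branch (move 525 (branch (move 430 (leaf 429 5)) (move 589 (branch (move 493 (leaf 461 6)) (move 621 (leaf 493 6)))))) (move 527 (branch (move 559 (branch (move 430 (leaf 430 4)) (move 591 (branch (move 558 (leaf 462 4)) (move 623 (leaf 494 7)))))) (branch (move 525 (branch (move 430 (leaf 429 5)) (move 528 (branch (move 556 (leaf 524 1)) (move 493 (branch (move 492 (leaf 492 3)) (move 529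 (leaf 493 3)))))))) (move 556 (branch (move 525 (branch (move 528 (leaf 524 1)) (move 555 (branch (move 524 (leaf 523 1)) (move 554 (leaf 522 2)))))) (branch (move 555 (branch (move 558 (leaf 523 2)) (move 525 (branch (move 524 (leaf 523 1)) (move 554 (leaf 522 2)))))) (branch (move 528 (branch (move 525 (leaf 524 1)) (move 529 (branch (move 558 (leaf 525 1)) (move 493 (leaf 493 3)))))) (move 558 (branch (move 555 (leaf 523 2)) (move 559 (branch (move 528 (leaf 524 2)) (move 591 (leaf 462 4))))))))))))))))) (ref 2))))) (branch (ref 3) (branch (ref 4) (move 558 (branch (move 461 (branch (move 429 (leaf 429 7)) (move 590 (branch (move 493 (leaf 461 7)) (move 591 (branch (move 559 (leaf 462 4)) (move 623 (leaf 494 4)))))))) (branch (move 591 (branch (move 559 (leaf 462 4)) (move 590 (branch (move 623 (leaf 494 4)) (move 589 (branch (move 557 (leaf 461 5)) (move 621 (leaf 493 5)))))))) (ref 5))))))))))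
theorem a3p33 : a3e33.Valid :=
  pos_of_chk [a3e0, a3e23, a3e29, a3e30, a3e31, a3e32] (forall_cons a3p0 (forall_cons a3p23 (forall_cons a3p29 (forall_cons a3p30 (forall_cons a3p31 (forall_cons a3p32 forall_nil)))))) a3c33 a3e33 (by decide +kernel)

def a3e34 : Pos := ⟨943490606425058863261288248510962399037128244870889013097151962407013262348990255429661746238946754363060193881629136047588242532056324092406885674417762728998640549888, 5954262839133955579062381286595101344433588913126182452755609805459140015981246308666492314466418582216146699788985953526819528314512736256, 6⟩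
def a3c34 : Cert := (move 430 (branch (move 399 (branch (move 431 (leaf 398 6)) (move 398 (branch (move 367 (leaf 366 6)) (move 366 (branch (move 461 (leaf 365 5)) (move 365 (branch (move 333 (leaf 333 7)) (move 397 (leaf 365 7)))))))))) (branch (move 399 (branch (move 431 (leaf 398 6)) (move 398 (branch (move 367 (leaf 366 6)) (move 397 (branch (move 365 (leaf 365 7)) (move 429 (leaf 397 7)))))))) (branch (move 461 (branch (move 429 (leaf 429 7)) (move 398 (branch (move 366 (leaf 365 5)) (move 399 (branch (move 367 (leaf 366 6)) (move 431 (leaf 398 6)))))))) (move 429 (branch (move 397 (leaf 397 7)) (move 461 (leaf 429 7))))))))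
theorem a3p34 : a3e34.Valid :=
  pos_of_chk [] forall_nil a3c34 a3e34 (by decide +kernel)

def a3e35 : Pos := ⟨219673525200899603251986650649038716472018784734663321054757161697452023308478129521156468381243188548161860647751294116427592780269462052296557805003069194240, 186877567760895811509991764552608464952330232492669856053192757149804820379996358165751327070577822167262477776182483429341570574722422691462095347966249287173685676301425310320303146098720921092096, 13⟩
def a3c35 : Cert := (move 558 (branch (move 462 (branch (move 463 (branch (move 431 (leaf 430 6)) (move 492 (branch (move 491 (leaf 459 2)) (move 464 (branch (move 465 (leaf 461 1)) (move 495 (leaf 460 2)))))))) (move 591 (branch (move 559 (leaf 462 4)) (move 590 (branch (move 623 (leaf 494 4)) (move 589 (branch (move 557 (leaf 461 5)) (move 621 (leaf 493 5)))))))))) (branch (move 590 (branch (move 461 (leaf 461 7)) (move 623 (branch (move 591 (leaf 494 4)) (move 622 (branch (move 655 (leaf 526 4)) (move 621 (branch (move 589 (leaf 493 5)) (move 653 (leaf 525 5)))))))))) (branch (move 461 (branch (move 590 (leaf 461 7)) (move 429 (branch (move 397 (leaf 397 4)) (move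 462 (leaf 429 7)))))) (move 462 (branch (move 463 (branch (move 431 (leaf 430 6)) (move 492 (branch (move 491 (leaf 459 2)) (move 464 (branch (move 465 (leaf 461 1)) (move 495 (leaf 460 2)))))))) (branch (ref 0) (move 492 (branch (move 491 (branch (move 463 (leaf 459 2)) (move 523 (branch (move 522 (leaf 490 1)) (move 459 (branch (move 458 (leaf 458 3)) (move 524 (branch (move 495 (leaf 491 1)) (move 556 (branch (move 427 (leaf 427 4)) (move 588 (leaf 459 7)))))))))))) (branch (move 461 (branch (move 429 (leaf 429 7)) (move 491 (branch (move 490 (leaf 458 2)) (move 463 (leaf 459 2)))))) (move 524 (branch (move 523 (branch (move 495 (leaf 491 1)) (move 557 (branch (move 589 (leaf 461 5)) (move 559 (branch (move 556 (leaf 523 3)) (move 591 (leaf 462 4)))))))) (branch (move 461 (branch (move 429 (leaf 429 7)) (move 556 (branch (move 588 (leaf 460 6)) (move 557 (branch (move 589 (leaf 461 5)) (move 559 (branch (move 523 (leaf 523 3)) (move 591 (leaf 462 4)))))))))) (branch (move 429 (branch (move 461 (leaf 429 7)) (move 397 (branch (move 430 (leaf 397 7)) (move 460 (branch (move 428 (leaf 396 6)) (move 459 (branch (move 495 (leaf 459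 3)) (move 556 (branch (move 427 (leaf 427 7)) (move 589 (branch (move 557 (leaf 460 4)) (move 588 (branch (move 621 (leaf 492 4)) (move 587 (branch (move 555 (leaf 459 5)) (move 619 (leaf 491 5)))))))))))))))))) (move 461 (branch (move 429 (leaf 429 7)) (move 495 (branch (move 523 (leaf 491 1)) (move 460 (branch (move 459 (leaf 459 0)) (move 496 (leaf 460 3))))))))))))))))))))))
theorem a3p35 : a3e35.Valid :=
  pos_of_chk [a3e34] (forall_cons a3p34 forall_nil) a3c35 a3e35 (by decide +kernel)

def a3e36 : Pos := ⟨219673525213686285314080954828777738725251593923009579047112883531371130215103652163362228361255962346309923761621945226300874307649216960678922621617633755136, 7851256268121450713419146198802069271079073083346609742399639338075364550850553871788334921946770484784972869326730122011289786822248284709129237117312588520137881183826133123072, 14⟩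
def a3c36 : Cert := (move 523 (branch (move 495 (branch (move 524 (leaf 491 1)) (move 460 (branch (move 459 (leaf 459 3)) (move 496 (branch (move 461 (leaf 460 3)) (move 464 (branch (move 463 (leaf 460 2)) (move 465 (leaf 461 2)))))))))) (branch (move 491 (branch (move 522 (leaf 490 1)) (move 459 (branch (move 458 (leaf 458 3)) (move 460 (branch (move 495 (leaf 459 3)) (move 428 (branch (move 396 (leaf 395 5)) (move 555 (leaf 427 6)))))))))) (branch (move 524 (branch (move 495 (leaf 491 1)) (move 522 (branch (move 491 (leaf 490 1)) (move 521 (leaf 489 2)))))) (move 491 (branch (move 522 (leaf 490 1)) (move 460 (branch (move 428 (branch (move 396 (leaf 395 5)) (move 555 (branch (move 524 (leaf 427 5)) (move 587 (leaf 459 6)))))) (branch (move 458 (branch (move 459 (leaf 458 3)) (move 490 (branch (move 457 (leaf 457 3)) (move 461 (branch (move 489 (leaf 457 2)) (move 429 (branch (move 397 (leaf 397 4)) (move 428 (branch (move 396 (leaf 395 5)) (move 524 (branch (move 556 (leaf 428 6)) (move 427 (branch (move 395 (leaf 395 7)) (move 426 (branch (move 425 (leaf 425 0)) (move 394 (leaf 394 4)))))))))))))))))) (branch (move 459 (branch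 (move 458 (leaf 458 3)) (move 555 (branch (move 587 (leaf 459 6)) (move 556 (branch (move 588 (leaf 459 4)) (move 524 (branch (move 427 (leaf 427 4)) (move 461 (branch (move 429 (leaf 428 6)) (move 489 (branch (move 490 (leaf 457 2)) (move 554 (branch (move 586 (leaf 458 5)) (move 553 (branch (move 552 (leaf 520 2)) (move 557 (branch (move 589 (leaf 460 4)) (move 558 (branch (move 559 (leaf 523 3)) (move 590 (leaf 461 7)))))))))))))))))))))) (move 459 (branch (move 458 (leaf 458 3)) (move 428 (branch (move 396 (leaf 395 5)) (move 555 (leaf 427 6))))))))))))))))
theorem a3p36 : a3e36.Valid :=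
  pos_of_chk [] forall_nil a3c36 a3e36 (by decide +kernel)

def a3e37 : Pos := ⟨943490606425058863261288248499053873378269021576128891828714896116163202295489236330009810815571160266610282305852821872693940273908790938409820615154731815915418025984, 186877567741315940559003507416513373445268048449389683767864621009789854989312137848905874350567001420494638143740192053293945205090984755805081755329640095156038881839063464052136899506250165780480, 10⟩
def a3c37 : Cert := (move 591 (branch (move 590 (branch (move 623 (leaf 494 4)) (move 589 (branch (move 621 (leaf 493 5)) (move 557 (branch (move 462 (leaf 461 5)) (move 556 (branch (move 555 (leaf 555 0)) (move 592 (leaf 556 3)))))))))) (branch (move 623 (branch (move 590 (leaf 494 4)) (move 559 (branch (move 527 (leaf 494 7)) (move 655 (leaf 526 7)))))) (branch (move 559 (branch (move 462 (leaf 462 4)) (move 623 (branch (move 527 (leaf 494 7)) (move 655 (leaf 526 7)))))) (move 557 (branch (move 559 (branch (move 462 (leaf 462 4)) (move 556 (branch (move 592 (leaf 556 0)) (move 527 (branch (move 555 (leaf 523 2)) (move 528 (leaf 524 2)))))))) (branch (move 589 (branch (move 462 (leaf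 461 5)) (move 621 (branch (move 590 (leaf 493 5)) (move 653 (leaf 525 6)))))) (move 556 (branch (move 559 (branch (move 592 (leaf 556 0)) (move 527 (branch (move 528 (leaf 524 2)) (move 588 (branch (move 587 (leaf 555 1)) (move 524 (branch (move 523 (leaf 523 3)) (move 492 (branch (move 491 (leaf 491 0)) (move 589 (branch (move 460 (leaf 460 4)) (move 621 (leaf 492 4)))))))))))))) (branch (move 590 (branch (move 555 (leaf 555 0)) (move 592 (branch (move 559 (leaf 556 0)) (move 589 (leaf 556 3)))))) (move 555 (branch (move 590 (leaf 555 0)) (move 527 (leaf 523 2))))))))))))))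
theorem a3p37 : a3e37.Valid :=
  pos_of_chk [] forall_nil a3c37 a3e37 (by decide +kernel)

def a3e38 : Pos := ⟨943490606425058863261288248499053873378269021576128891828714896116163202295489236330009810815571160266610282305852821872693940273908790938409820615154731815915418025984, 11650251233701651468404794914004406291083619793155212288837886518171796922336283099770612856503657468046002944032994464369426770593145553555697101577694164117059773394096761077760, 10⟩
def a3c38 : Cert := (move 492 (branch (move 491 (branch (move 527 (leaf 491 0)) (move 462 (branch (move 463 (leaf 459 2)) (move 522 (branch (move 523 (leaf 490 1)) (move 490 (branch (move 521 (leaf 489 1)) (move 458 (branch (move 457 (leaf 457 3)) (move 459 (leaf 458 3)))))))))))) (branch (move 527 (branch (move 491 (leaf 491 0)) (move 528 (branch (move 495 (leaf 492 0)) (move 529 (leaf 493 3)))))) (branch (move 523 (branch (move 491 (branch (move 522 (leaf 490 1)) (move 459 (branch (move 458 (leaf 458 3)) (move 460 (branch (move 495 (leaf 459 3)) (move 428 (branch (move 396 (leaf 395 5)) (move 555 (leaf 427 6)))))))))) (branch (move 524 (branch (move 495 (leaf 491 1)) (move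 522 (branch (move 491 (leaf 490 1)) (move 521 (leaf 489 2)))))) (branch (move 495 (branch (move 524 (leaf 491 1)) (move 460 (branch (move 459 (leaf 459 3)) (move 461 (branch (move 496 (leaf 460 3)) (move 429 (branch (move 397 (leaf 397 4)) (move 462 (leaf 429 7)))))))))) (move 491 (branch (move 522 (leaf 490 1)) (move 458 (branch (move 459 (leaf 458 3)) (move 490 (branch (move 457 (leaf 457 3)) (move 461 (branch (move 462 (leaf 458 2)) (move 460 (branch (move 489 (leaf 457 2)) (move 555 (branch (move 587 (leaf 459 6)) (move 428 (branch (move 396 (leaf 395 5)) (move 524 (leaf 427 5)))))))))))))))))))) (move 495 (branch (move 460 (branch (move 459 (leaf 459 3)) (move 461 (branch (move 496 (leaf 460 3)) (move 429 (branch (move 397 (leaf 397 4)) (move 462 (leaf 429 7)))))))) (branch (move 528 (branch (move 527 (leaf 492 0)) (move 496 (branch (move 529 (leaf 493 0)) (move 464 (branch (move 463 (leaf 460 2)) (move 465 (leaf 461 2)))))))) (move 556 (branch (move 524 (branch (move 523 (leaf 491 1)) (move 460 (branch (move 459 (leaf 459 3)) (move 461 (branch (move 429 (leaf 428 6)) (move 588 (leaf 460 6)))))))) (move 527 (branch (move 528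 (leaf 492 0)) (move 557 (branch (move 555 (leaf 523 2)) (move 462 (branch (move 589 (leaf 461 5)) (move 559 (branch (move 430 (leaf 430 4)) (move 591 (leaf 462 4)))))))))))))))))))
theorem a3p38 : a3e38.Valid :=
  pos_of_chk [] forall_nil a3c38 a3e38 (by decide +kernel)

def a3e39 : Pos := ⟨943490606425058863274074930561148177558008043829361701017061154108518924129408343236635333457776920246623056104000884986564591383782072465789575523537096632529982586880, 3075429352045393521979294177483276981312092868571669204669937764431882445179236627336897879882559889090666186833911745939742242102888299407670312248939978424320, 5⟩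
def a3c39 : Cert := (move 495 (branch (move 528 (branch (move 527 (leaf 492 0)) (move 496 (branch (move 529 (leaf 493 0)) (move 460 (branch (move 459 (leaf 459 3)) (move 461 (leaf 460 3)))))))) (branch (move 460 (branch (move 459 (leaf 459 3)) (move 496 (branch (move 461 (leaf 460 3)) (move 464 (branch (move 463 (leaf 460 2)) (move 465 (leaf 461 2)))))))) (move 527 (branch (move 528 (leaf 492 0)) (move 463 (branch (move 464 (leaf 460 2)) (move 431 (leaf 430 5)))))))))
theorem a3p39 : a3e39.Valid :=
  pos_of_chk [] forall_nil a3c39 a3e39 (by decide +kernel)

def a3e40 : Pos := ⟨89506774434660129258173155772629664318423805946490052837433748346378658495440319860089416587036441797094557769112970691658284358676553716301951926272, 506532662334854411639702893771711012960529797324951613011133846945844204157237734055045351782508739135932191904078581355549606237528375917084588323442321219132334802055372734464, 9⟩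
def a3c40 : Cert := (move 523 (branch (move 495 (branch (move 524 (leaf 491 1)) (move 460 (branch (move 459 (leaf 459 3)) (move 496 (branch (move 461 (leaf 460 3)) (move 464 (branch (move 463 (leaf 460 2)) (move 465 (leaf 461 2)))))))))) (branch (move 491 (branch (move 522 (leaf 490 1)) (move 459 (branch (move 458 (leaf 458 3)) (move 460 (branch (move 495 (leaf 459 3)) (move 428 (branch (move 396 (leaf 395 5)) (move 555 (leaf 427 6)))))))))) (branch (move 524 (branch (move 495 (leaf 491 1)) (move 522 (branch (move 491 (leaf 490 1)) (move 521 (leaf 489 2)))))) (move 491 (branch (move 522 (leaf 490 1)) (move 460 (branch (move 555 (branch (move 587 (leaf 459 6)) (move 428 (branch (move 396 (leaf 395 5)) (move 524 (leaf 427 5)))))) (branch (move 458 (branch (move 459 (leaf 458 3)) (move 490 (branch (move 457 (leaf 457 3)) (move 489 (branch (move 461 (leaf 457 2)) (move 488 (branch (move 524 (leaf 488 0)) (move 520 (branch (move 519 (leaf 487 1)) (move 521 (leaf 488 1)))))))))))) (move 459 (branch (move 458 (leaf 458 3)) (move 428 (branch (move 396 (leaf 395 5)) (move 555 (leaf 427 6)))))))))))))))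
theorem a3p40 : a3e40.Valid :=
  pos_of_chk [] forall_nil a3c40 a3e40 (by decide +kernel)

def a3e41 : Pos := ⟨659020575564338763569677039407899082656357926638951189187204319590598749205557820636852125203691244250041392601641929019662933758669121431742578965165513900032, 137059096802672573502723863834850634121820716726656154780326956173211095170861373620428184890597960247814621392995514085948794675087950997618326970923604705194613463133291863427857663393792, 12⟩
def a3c41 : Cert := (move 462 (branch (move 430 (branch (move 398 (leaf 398 4)) (move 431 (branch (move 399 (leaf 398 6)) (move 558 (branch (move 463 (leaf 430 5)) (move 590 (branch (move 622 (leaf 494 6)) (move 589 (branch (move 557 (leaf 461 5)) (move 621 (leaf 493 5)))))))))))) (branch (move 559 (branch (move 430 (leaf 430 4)) (move 591 (leaf 462 7)))) (move 589 (branch (move 591 (branch (move 559 (leaf 462 7)) (move 524 (branch (move 523 (leaf 491 1)) (move 460 (branch (move 459 (leaf 459 3)) (move 556 (branch (move 557 (leaf 460 4)) (move 588 (branch (move 621 (leaf 492 4)) (move 587 (branch (move 555 (leaf 459 5)) (move 619 (leaf 491 5)))))))))))))) (branch (move 558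 (branch (move 557 (leaf 461 5)) (move 463 (branch (move 431 (leaf 430 5)) (move 590 (leaf 462 6)))))) (move 590 (branch (move 558 (branch (move 621 (leaf 493 5)) (move 463 (leaf 462 6)))) (branch (move 558 (branch (move 463 (leaf 462 6)) (move 622 (leaf 494 6)))) (move 588 (branch (move 524 (branch (move 523 (leaf 491 1)) (move 556 (branch (move 621 (leaf 492 4)) (move 587 (branch (move 619 (leaf 491 5)) (move 555 (branch (move 554 (leaf 554 3)) (move 460 (leaf 459 5)))))))))) (branch (move 591 (branch (move 559 (leaf 462 7)) (move 620 (branch (move 619 (leaf 587 1)) (move 623 (branch (move 624 (leaf 588 0)) (move 621 (branch (move 592 (leaf 588 1)) (move 587 (branch (move 622 (leaf 587 0)) (move 586 (branch (move 585 (leaf 585 0)) (move 554 (branch (move 553 (leaf 553 3)) (move 555 (leaf 554 3)))))))))))))))) (branch (move 591 (branch (move 559 (leaf 462 7)) (move 623 (branch (move 624 (leaf 588 0)) (move 587 (branch (move 622 (leaf 587 0)) (move 555 (branch (move 554 (leaf 554 3)) (move 556 (leaf 555 3)))))))))) (move 591 (branch (move 559 (leaf 462 7)) (move 620 (branch (move 619 (leaf 587 1)) (move 621 (branch (move 592 (leaf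 588 1)) (move 524 (branch (move 523 (leaf 491 1)) (move 556 (leaf 492 4)))))))))))))))))))))))
theorem a3p41 : a3e41.Valid :=
  pos_of_chk [] forall_nil a3c41 a3e41 (by decide +kernel)

def a3e42 : Pos := ⟨219673525200899603251986650649038716472018784734663321054757161697452023308478129521156468381243188548161860647751294116427592780269462052296557805003069194240, 137059096802672573502723863848490987074057016771719728344713486759693724787812432210572861791907330074438267911052049466156799789084331278817888012535270380853640640993100148779558300024832, 15⟩
def a3c42 : Cert := (move 492 (branch (move 495 (branch (move 463 (branch (move 464 (leaf 460 2)) (move 431 (branch (move 399 (leaf 398 5)) (move 558 (branch (move 462 (leaf 430 6)) (move 590 (leaf 462 6)))))))) (move 523 (branch (move 524 (leaf 491 1)) (move 491 (branch (move 522 (leaf 490 1)) (move 459 (branch (move 458 (leaf 458 3)) (move 460 (leaf 459 3)))))))))) (branch (move 491 (branch (move 527 (leaf 491 0)) (move 458 (branch (move 459 (leaf 458 3)) (move 490 (branch (move 457 (leaf 457 3)) (move 522 (branch (move 521 (leaf 489 1)) (move 523 (leaf 490 1)))))))))) (branch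 (move 527 (branch (move 491 (leaf 491 0)) (move 528 (branch (move 495 (leaf 492 0)) (move 529 (leaf 493 3)))))) (move 495 (branch (move 463 (branch (move 464 (leaf 460 2)) (move 431 (branch (move 399 (leaf 398 5)) (move 558 (branch (move 462 (leaf 430 6)) (move 590 (leaf 462 6)))))))) (branch (move 460 (branch (move 459 (leaf 459 3)) (move 496 (branch (move 524 (branch (move 523 (leaf 491 1)) (move 465 (branch (move 464 (leaf 461 2)) (move 497 (branch (move 466 (leaf 462 2)) (move 498 (branch (move 527 (leaf 494 1)) (move 530 (branch (move 529 (leaf 494 0)) (move 531 (leaf 495 0)))))))))))) (branch (move 524 (branch (move 523 (leaf 491 1)) (move 529 (branch (move 528 (leaf 493 0)) (move 497 (branch (move 530 (leaf 494 0)) (move 465 (branch (move 464 (leaf 461 2)) (move 466 (leaf 462 2)))))))))) (branch (move 527 (branch (move 528 (leaf 492 0)) (move 524 (branch (move 523 (leaf 491 1)) (move 497 (branch (move 498 (leaf 494 1)) (move 465 (branch (move 464 (leaf 461 2)) (move 466 (leaf 462 2)))))))))) (move 528 (branch (move 527 (leaf 492 0)) (move 529 (leaf 493 0)))))))))) (move 527 (branch (move 528 (leaf 492 0)) (ref 0))))))))))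
theorem a3p42 : a3e42.Valid :=
  pos_of_chk [a3e41] (forall_cons a3p41 forall_nil) a3c42 a3e42 (by decide +kernel)

def a3e43 : Pos := ⟨219673525175326239127798042289560671965553166357970805070045718029613809495227084236744948421217640951865734420009991896681029725509952235531828171773940072448, 186877567834864212958214962472222538556844734475138293925128461282125182375022430986884000756779288133268412131380518516060631354826504024880503883178413363520659351647093005686857532671223796858880, 16⟩
def a3c43 : Cert := (move 493 (branch (move 492 (branch (move 491 (branch (move 527 (leaf 491 0)) (move 458 (branch (move 459 (leaf 458 3)) (move 490 (branch (move 457 (leaf 457 3)) (move 522 (branch (move 521 (leaf 489 1)) (move 523 (leaf 490 1)))))))))) (branch (move 527 (branch (move 491 (leaf 491 0)) (move 528 (branch (move 495 (leaf 492 0)) (move 529 (leaf 493 3)))))) (branch (move 495 (branch (move 460 (branch (move 459 (leaf 459 3)) (move 496 (branch (move 461 (leaf 460 3)) (move 464 (branch (move 463 (leaf 460 2)) (move 465 (leaf 461 2)))))))) (branch (move 523 (branch (move 524 (leaf 491 1)) (move 491 (branch (move 522 (leaf 490 1))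 (move 459 (branch (move 458 (leaf 458 3)) (move 460 (leaf 459 3)))))))) (move 463 (branch (move 464 (leaf 460 2)) (move 491 (branch (move 462 (leaf 459 2)) (move 523 (branch (move 522 (leaf 490 1)) (move 524 (leaf 491 1))))))))))) (move 495 (branch (move 460 (branch (move 459 (leaf 459 3)) (move 461 (branch (move 496 (leaf 460 3)) (move 429 (branch (move 397 (leaf 397 4)) (move 524 (branch (move 523 (leaf 491 1)) (move 556 (leaf 428 6)))))))))) (branch (move 527 (branch (move 528 (leaf 492 0)) (move 463 (branch (move 464 (leaf 460 2)) (move 431 (branch (move 399 (leaf 398 5)) (move 430 (branch (move 398 (leaf 398 7)) (move 462 (branch (move 559 (leaf 430 4)) (move 429 (branch (move 397 (leaf 397 7)) (move 432 (branch (move 400 (leaf 399 6)) (move 433 (branch (move 461 (leaf 429 1)) (move 434 (leaf 430 1)))))))))))))))))) (move 528 (branch (move 527 (leaf 492 0)) (move 496 (branch (move 529 (leaf 493 0)) (move 464 (branch (move 463 (leaf 460 2)) (move 465 (leaf 461 2))))))))))))))) (branch (ref 0) (branch (move 558 (branch (move 590 (branch (move 461 (leaf 461 7)) (move 623 (branch (move 591 (leaf 494 4)) (move 622 (branch (move 655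 (leaf 526 4)) (move 621 (branch (move 589 (leaf 493 5)) (move 653 (leaf 525 5)))))))))) (branch (move 461 (branch (move 590 (leaf 461 7)) (move 429 (branch (move 397 (leaf 397 4)) (move 462 (leaf 429 7)))))) (branch (move 462 (branch (move 559 (branch (move 591 (leaf 462 4)) (move 527 (branch (move 430 (leaf 430 4)) (move 528 (branch (move 529 (leaf 493 3)) (move 557 (branch (move 556 (leaf 524 2)) (move 589 (leaf 461 5)))))))))) (move 461 (branch (move 429 (leaf 429 7)) (move 463 (branch (move 431 (leaf 430 6)) (move 464 (branch (move 465 (leaf 461 1)) (move 496 (branch (move 497 (leaf 461 0)) (move 460 (branch (move 495 (leaf 460 0)) (move 459 (branch (move 458 (leaf 458 0)) (move 427 (branch (move 426 (leaf 426 3)) (move 428 (leaf 427 3)))))))))))))))))) (move 462 (branch (move 559 (branch (move 591 (leaf 462 4)) (move 527 (branch (move 430 (leaf 430 4)) (move 528 (branch (move 529 (leaf 493 3)) (move 557 (branch (move 556 (leaf 524 2)) (move 589 (leaf 461 5)))))))))) (branch (move 463 (branch (move 431 (leaf 430 6)) (move 590 (branch (move 495 (leaf 462 6)) (move 589 (branch (move 557 (leaf 461 5)) (move 621 (leaf 493 5))))))))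 (move 463 (branch (move 431 (leaf 430 6)) (move 495 (branch (move 590 (leaf 462 6)) (move 559 (branch (move 591 (leaf 462 4)) (move 527 (branch (move 430 (leaf 430 4)) (move 464 (branch (move 465 (leaf 461 1)) (move 432 (leaf 431 6))))))))))))))))))) (branch (move 492 (branch (move 495 (branch (move 460 (branch (move 459 (leaf 459 3)) (move 461 (branch (move 496 (leaf 460 3)) (move 429 (branch (move 397 (leaf 397 4)) (move 524 (branch (move 523 (leaf 491 1)) (move 556 (leaf 428 6)))))))))) (move 527 (branch (move 528 (leaf 492 0)) (move 463 (branch (move 464 (leaf 460 2)) (move 558 (branch (move 431 (leaf 430 5)) (move 590 (leaf 462 6)))))))))) (branch (move 491 (branch (move 527 (leaf 491 0)) (move 458 (branch (move 459 (leaf 458 3)) (move 490 (branch (move 457 (leaf 457 3)) (move 522 (branch (move 521 (leaf 489 1)) (move 523 (leaf 490 1)))))))))) (branch (move 527 (branch (move 491 (leaf 491 0)) (move 528 (branch (move 495 (leaf 492 0)) (move 529 (leaf 493 3)))))) (ref 1))))) (branch (move 558 (branch (move 590 (branch (move 461 (leaf 461 7)) (move 623 (branch (move 591 (leaf 494 4)) (move 622 (branch (move 655 (leaf 526 4)) (move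 621 (branch (move 589 (leaf 493 5)) (move 653 (leaf 525 5)))))))))) (branch (move 461 (branch (move 590 (leaf 461 7)) (move 429 (branch (move 397 (leaf 397 4)) (move 462 (leaf 429 7)))))) (branch (move 462 (branch (move 559 (branch (move 591 (leaf 462 4)) (move 527 (branch (move 430 (leaf 430 4)) (move 528 (branch (move 529 (leaf 493 3)) (move 557 (branch (move 556 (leaf 524 2)) (move 589 (leaf 461 5)))))))))) (move 463 (branch (move 431 (leaf 430 6)) (move 461 (branch (move 429 (leaf 429 7)) (move 492 (branch (move 464 (leaf 460 1)) (move 491 (leaf 459 2)))))))))) (ref 2))))) (branch (move 558 (branch (move 590 (branch (move 461 (leaf 461 7)) (move 623 (branch (move 591 (leaf 494 4)) (move 622 (branch (move 655 (leaf 526 4)) (move 621 (branch (move 589 (leaf 493 5)) (move 653 (leaf 525 5)))))))))) (branch (move 461 (branch (move 590 (leaf 461 7)) (move 429 (branch (move 397 (leaf 397 4)) (move 462 (leaf 429 7)))))) (branch (move 462 (branch (move 559 (branch (move 591 (leaf 462 4)) (move 527 (branch (move 430 (leaf 430 4)) (move 528 (branch (move 529 (leaf 493 3)) (move 492 (branch (move 491 (leaf 491 0)) (move 495 (leaf 492 0))))))))))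 (branch (ref 3) (move 527 (branch (move 461 (branch (move 429 (leaf 429 7)) (move 559 (branch (move 591 (leaf 462 4)) (move 492 (branch (move 491 (leaf 491 0)) (move 557 (branch (move 589 (leaf 461 5)) (move 556 (branch (move 555 (leaf 523 2)) (move 524 (branch (move 523 (leaf 523 3)) (move 588 (leaf 460 6)))))))))))))) (branch (move 528 (branch (move 529 (leaf 493 3)) (move 492 (branch (move 491 (leaf 491 0)) (move 495 (leaf 492 0)))))) (move 559 (branch (move 591 (leaf 462 4)) (move 528 (branch (move 529 (leaf 493 3)) (move 557 (branch (move 556 (leaf 524 2)) (move 589 (leaf 461 5)))))))))))))) (ref 2))))) (branch (move 558 (branch (move 590 (branch (move 461 (leaf 461 7)) (move 623 (branch (move 591 (leaf 494 4)) (move 622 (branch (move 655 (leaf 526 4)) (move 621 (branch (move 589 (leaf 493 5)) (move 653 (leaf 525 5)))))))))) (branch (move 461 (branch (move 590 (leaf 461 7)) (move 429 (branch (move 397 (leaf 397 4)) (move 462 (leaf 429 7)))))) (move 462 (branch (move 559 (branch (move 591 (leaf 462 4)) (move 527 (branch (move 430 (leaf 430 4)) (move 528 (branch (move 529 (leaf 493 3)) (move 557 (branch (move 556 (leaf 524 2))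 (move 589 (leaf 461 5)))))))))) (move 463 (branch (move 431 (leaf 430 6)) (move 492 (branch (move 491 (leaf 459 2)) (move 464 (branch (move 465 (leaf 461 1)) (move 495 (leaf 460 2))))))))))))) (branch (move 558 (branch (move 590 (branch (move 461 (leaf 461 7)) (move 623 (branch (move 591 (leaf 494 4)) (move 622 (branch (move 655 (leaf 526 4)) (move 621 (branch (move 589 (leaf 493 5)) (move 653 (leaf 525 5)))))))))) (branch (move 461 (branch (move 590 (leaf 461 7)) (move 429 (branch (move 397 (leaf 397 4)) (move 462 (leaf 429 7)))))) (branch (ref 4) (ref 2))))) (branch (move 492 (branch (move 495 (branch (move 463 (branch (move 464 (leaf 460 2)) (move 431 (branch (move 399 (leaf 398 5)) (move 558 (branch (move 462 (leaf 430 6)) (move 590 (leaf 462 6)))))))) (move 460 (branch (move 459 (leaf 459 3)) (move 461 (branch (move 496 (leaf 460 3)) (move 429 (branch (move 397 (leaf 397 4)) (move 524 (branch (move 523 (leaf 491 1)) (move 556 (leaf 428 6)))))))))))) (branch (move 491 (branch (move 527 (leaf 491 0)) (move 458 (branch (move 459 (leaf 458 3)) (move 490 (branch (move 457 (leaf 457 3)) (move 522 (branch (move 521 (leaf 489 1)) (move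 523 (leaf 490 1)))))))))) (move 527 (branch (move 491 (leaf 491 0)) (move 528 (branch (move 495 (leaf 492 0)) (move 529 (leaf 493 3))))))))) (branch (move 558 (branch (move 462 (branch (move 463 (branch (move 431 (leaf 430 6)) (move 492 (branch (move 491 (leaf 459 2)) (move 464 (branch (move 465 (leaf 461 1)) (move 495 (leaf 460 2)))))))) (move 591 (branch (move 559 (leaf 462 4)) (move 590 (branch (move 623 (leaf 494 4)) (move 589 (branch (move 557 (leaf 461 5)) (move 621 (leaf 493 5)))))))))) (branch (move 461 (branch (move 590 (leaf 461 7)) (move 429 (branch (move 397 (leaf 397 4)) (move 462 (leaf 429 7)))))) (move 492 (branch (move 527 (branch (move 491 (leaf 491 0)) (move 528 (branch (move 495 (leaf 492 0)) (move 529 (leaf 493 3)))))) (branch (ref 5) (branch (move 491 (branch (move 527 (leaf 491 0)) (move 458 (branch (move 459 (leaf 458 3)) (move 490 (branch (move 457 (leaf 457 3)) (move 522 (branch (move 521 (leaf 489 1)) (move 523 (leaf 490 1)))))))))) (ref 6)))))))) (ref 7))))))))))))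
theorem a3p43 : a3e43.Valid :=
  pos_of_chk [a3e35, a3e36, a3e37, a3e34, a3e38, a3e39, a3e40, a3e42] (forall_cons a3p35 (forall_cons a3p36 (forall_cons a3p37 (forall_cons a3p34 (forall_cons a3p38 (forall_cons a3p39 (forall_cons a3p40 (forall_cons a3p42 forall_nil)))))))) a3c43 a3e43 (by decide +kernel)

def a3e44 : Pos := ⟨943490606425058863235714884374865265018790977069663273452022380131451758627651022516758765531159640306584734709556695644952638054162227883650310798390002182686288904192, 186877567758720270289894688528427857817395081498604583685035854277584280895883282588638975503504138162837330010938173575391033804697501385768998185420466620063685966769848234384259415976876051529728, 5⟩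
def a3c44 : Cert := (move 590 (branch (move 621 (branch (move 589 (leaf 493 5)) (move 622 (branch (move 653 (leaf 525 5)) (move 623 (branch (move 591 (leaf 494 4)) (move 655 (leaf 526 4)))))))) (branch (move 589 (branch (move 621 (leaf 493 5)) (move 462 (branch (move 557 (leaf 461 5)) (move 461 (branch (move 429 (leaf 429 7)) (move 493 (leaf 461 7)))))))) (move 591 (branch (move 623 (leaf 494 4)) (move 462 (branch (move 559 (leaf 462 4)) (move 461 (branch (move 429 (leaf 429 7)) (move 493 (leaf 461 7)))))))))))
theorem a3p44 : a3e44.Valid :=
  pos_of_chk [] forall_nil a3c44 a3e44 (by decide +kernel)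

def a3e45 : Pos := ⟨943490606425058863338008340883528224115562378390285868227229510361147593352504896869414882092181314243136836670517514730812149191296013256685415124711951628686027915264, 23817051327422790521202563189250700780761173010772503388418452993973354073424589738672400675282090463991285302765368564578730214187899813888, 6⟩
def a3c45 : Cert := (move 430 (branch (move 399 (branch (move 431 (leaf 398 6)) (move 398 (branch (move 367 (leaf 366 6)) (move 397 (branch (move 365 (leaf 365 7)) (move 429 (leaf 397 7)))))))) (branch (move 397 (branch (move 429 (leaf 397 7)) (move 398 (branch (move 365 (leaf 365 7)) (move 366 (branch (move 463 (leaf 366 4)) (move 367 (branch (move 335 (leaf 334 6)) (move 399 (leaf 366 6)))))))))) (branch (move 463 (branch (move 431 (leaf 430 6)) (move 398 (branch (move 366 (leaf 366 4)) (move 397 (branch (move 365 (leaf 365 7)) (move 429 (leaf 397 7)))))))) (move 431 (branch (move 399 (leaf 398 6)) (move 463 (leaf 430 6))))))))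
theorem a3p45 : a3e45.Valid :=
  pos_of_chk [] forall_nil a3c45 a3e45 (by decide +kernel)

def a3e46 : Pos := ⟨943490606425058863338008340871619698456703155095525746958792444070297533299003877769762946668805720146686925094741200555917846933148480102688350065448920715602805391360, 7547924855890048576682022451678183897480152911774875100203024482166287039144158555212970068428935357258035984089487604814639066123359304316356259752215690705288709537792, 9⟩
def a3c46 : Cert := (move 462 (branch (move 461 (branch (move 429 (leaf 429 7)) (move 496 (branch (move 497 (leaf 461 3)) (move 460 (branch (move 459 (leaf 459 0)) (move 493 (leaf 460 3)))))))) (branch (ref 0) (move 496 (branch (move 497 (branch (move 461 (leaf 461 3)) (move 529 (branch (move 530 (leaf 494 0)) (move 465 (branch (move 466 (leaf 462 2)) (move 493 (branch (move 528 (leaf 493 0)) (move 464 (leaf 461 2)))))))))) (branch (move 463 (branch (move 431 (leaf 430 6)) (move 497 (branch (move 498 (leaf 462 3)) (move 465 (branch (move 466 (leaf 462 2)) (move 464 (branch (move 493 (leaf 461 1)) (move 529 (branch (move 530 (leaf 494 0)) (move 432 (branch (move 400 (leaf 400 4)) (move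 561 (leaf 432 7)))))))))))))) (branch (move 463 (branch (move 431 (leaf 430 6)) (move 497 (branch (move 461 (leaf 461 3)) (move 498 (leaf 462 3)))))) (move 493 (branch (move 463 (branch (move 431 (leaf 430 6)) (move 464 (branch (move 465 (leaf 461 1)) (move 492 (leaf 460 2)))))) (branch (move 460 (branch (move 461 (leaf 460 3)) (move 431 (branch (move 463 (leaf 430 6)) (move 399 (branch (move 430 (leaf 398 6)) (move 464 (branch (move 465 (leaf 461 2)) (move 528 (branch (move 529 (leaf 493 0)) (move 432 (leaf 399 7)))))))))))) (move 492 (branch (move 523 (branch (move 524 (leaf 491 1)) (move 491 (branch (move 522 (leaf 490 1)) (move 490 (branch (move 461 (leaf 458 2)) (move 458 (branch (move 457 (leaf 457 3)) (move 459 (leaf 458 3)))))))))) (branch (move 523 (branch (move 524 (leaf 491 1)) (move 491 (branch (move 522 (leaf 490 1)) (move 459 (branch (move 458 (leaf 458 3)) (move 460 (leaf 459 3)))))))) (branch (move 461 (branch (move 460 (leaf 460 3)) (move 491 (branch (move 490 (leaf 458 2)) (move 523 (branch (move 522 (leaf 490 1)) (move 524 (leaf 491 1)))))))) (move 460 (branch (move 459 (leaf 459 3)) (move 461 (leaf 460 3))))))))))))))))))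
theorem a3p46 : a3e46.Valid :=
  pos_of_chk [a3e45] (forall_cons a3p45 forall_nil) a3c46 a3e46 (by decide +kernel)

def a3e47 : Pos := ⟨358027097738640517032692623090518657273695223785960211349734993385514633981761279440357666348145767188378231076451882766633137434706214865207807705088, 13180411508703865495585842803285256196425568565059068512748221789664003318376307851404921923567026617579106503330690220639465978901990704551106045230057227550720, 5⟩
def a3c47 : Cert := (move 497 (branch (move 465 (branch (move 466 (leaf 462 2)) (move 493 (branch (move 464 (leaf 461 2)) (move 461 (branch (move 460 (leaf 460 3)) (move 462 (leaf 461 3)))))))) (branch (move 529 (branch (move 530 (leaf 494 0)) (move 493 (branch (move 528 (leaf 493 0)) (move 461 (branch (move 460 (leaf 460 3)) (move 462 (leaf 461 3)))))))) (move 530 (branch (move 529 (leaf 494 0)) (move 498 (branch (move 531 (leaf 495 0)) (move 466 (branch (move 465 (leaf 462 2)) (move 467 (leaf 463 2)))))))))))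
theorem a3p47 : a3e47.Valid :=
  pos_of_chk [] forall_nil a3c47 a3e47 (by decide +kernel)

def a3e48 : Pos := ⟨1757388201351463184774007121597529286711494094110381408590942856901234048335314583325136547449690032422333622904597330733955111694560598250725166107733262336000, 32418090389430682391621609276007713699383550007590492167094646006845268837896242365436713459574904134806371964739676416208684330536414214969932669564195857069733433868838879887360, 8⟩
def a3c48 : Cert := (move 497 (branch (move 530 (leaf 494 0)) (move 464 (branch (move 432 (branch (move 400 (leaf 400 4)) (move 561 (branch (move 528 (leaf 432 4)) (move 593 (leaf 464 7)))))) (branch (move 466 (branch (move 465 (leaf 462 2)) (move 498 (branch (move 467 (leaf 463 2)) (move 499 (branch (move 463 (leaf 463 3)) (move 500 (branch (move 528 (leaf 496 1)) (move 532 (branch (move 531 (leaf 496 0)) (move 533 (leaf 497 0)))))))))))) (move 465 (branch (move 466 (leaf 462 2)) (move 432 (branch (move 400 (leaf 400 4)) (move 561 (leaf 432 7)))))))))))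
theorem a3p48 : a3e48.Valid :=
  pos_of_chk [] forall_nil a3c48 a3e48 (by decide +kernel)

def a3e49 : Pos := ⟨219673525277619695624552475727472849991415639864740869008891492700966664748231265374391028261319831337050239330975200775667281944547991502590746704690456559616, 2757826132514153299567711480396742186323568893598805989467009779631257904131291433439078114565057291252980413524527647847675605837472702184608375861898236305546297863767569139818176106092278452078086091823878496059392, 10⟩
def a3c49 : Cert := (move 558 (branch (move 590 (branch (move 463 (leaf 462 6)) (move 623 (branch (move 591 (leaf 494 4)) (move 622 (branch (move 655 (leaf 526 4)) (move 621 (branch (move 589 (leaf 493 5)) (move 653 (leaf 525 5)))))))))) (branch (move 463 (branch (move 590 (leaf 462 6)) (move 431 (branch (move 399 (leaf 398 5)) (move 462 (leaf 430 6)))))) (branch (move 462 (branch (move 557 (branch (move 589 (leaf 461 5)) (move 430 (branch (move 525 (leaf 429 5)) (move 429 (branch (move 397 (leaf 397 7)) (move 461 (leaf 429 7)))))))) (branch (move 431 (branch (move 463 (leaf 430 6)) (move 430 (branch (move 399 (leaf 398 6)) (move 557 (branch (move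 525 (leaf 429 5)) (move 589 (leaf 461 5)))))))) (move 461 (branch (move 429 (leaf 429 7)) (move 463 (branch (move 431 (leaf 430 6)) (move 496 (branch (move 460 (leaf 460 0)) (move 497 (leaf 461 3))))))))))) (move 591 (branch (move 462 (branch (move 559 (leaf 462 4)) (move 557 (branch (move 589 (leaf 461 5)) (move 430 (branch (move 525 (leaf 429 5)) (move 429 (branch (move 397 (leaf 397 7)) (move 461 (leaf 429 7)))))))))) (branch (move 590 (branch (move 623 (leaf 494 4)) (move 589 (branch (move 621 (leaf 493 5)) (move 557 (branch (move 462 (leaf 461 5)) (move 556 (branch (move 555 (leaf 555 0)) (move 592 (leaf 556 3)))))))))) (branch (move 623 (branch (move 590 (leaf 494 4)) (move 559 (branch (move 462 (leaf 462 4)) (move 655 (leaf 526 7)))))) (move 590 (branch (move 623 (leaf 494 4)) (move 557 (branch (move 556 (branch (move 555 (leaf 555 0)) (move 592 (branch (move 559 (leaf 556 0)) (move 593 (leaf 557 3)))))) (branch (move 621 (branch (move 589 (leaf 493 5)) (move 622 (branch (move 653 (leaf 525 5)) (move 654 (branch (move 525 (leaf 525 7)) (move 686 (branch (move 559 (leaf 558 6)) (move 687 (branch (move 655 (leaf 558 4)) (move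 719 (leaf 590 4)))))))))))) (move 589 (branch (move 621 (leaf 493 5)) (move 556 (branch (move 555 (leaf 555 0)) (move 592 (leaf 556 3)))))))))))))))))))
theorem a3p49 : a3e49.Valid :=
  pos_of_chk [] forall_nil a3c49 a3e49 (by decide +kernel)

def a3e50 : Pos := ⟨219673525507779972742249950962775250549606205254973512871294485711510589067490672934094707901549759703715375380646920753386349437383579853473313403752618655744, 2848891028976579725331363843909072384301430618694018912887571750044765554052719648002449153256722830776739217128254452765623413447670694235314936194362146553856, 7⟩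
def a3c50 : Cert := (move 529 (branch (move 528 (leaf 493 0)) (move 492 (branch (move 459 (branch (move 460 (leaf 459 3)) (move 491 (branch (move 458 (leaf 458 3)) (move 490 (branch (move 525 (leaf 490 0)) (move 522 (branch (move 521 (leaf 489 1)) (move 523 (leaf 490 1)))))))))) (branch (move 523 (branch (move 524 (leaf 491 1)) (move 491 (branch (move 522 (leaf 490 1)) (move 459 (branch (move 458 (leaf 458 3)) (move 460 (leaf 459 3)))))))) (branch (move 525 (branch (move 524 (leaf 492 1)) (move 491 (branch (move 490 (leaf 490 0)) (move 459 (branch (move 458 (leaf 458 3)) (move 460 (leaf 459 3)))))))) (move 524 (branch (move 523 (leaf 491 1)) (move 525 (leaf 492 1))))))))))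
theorem a3p50 : a3e50.Valid :=
  pos_of_chk [] forall_nil a3c50 a3e50 (by decide +kernel)

def a3e51 : Pos := ⟨219673525277619695624552475727472849991415639864740869008891492700966664748231265374391028261319831337050239330975200775667281944547991502590746704690456559616, 60915154182979435138726304658670975427651586565559864978215260577566188408648687323675996512499396604272916564090398107592801415826704654219835727669830566892597191725383662365397932310528, 13⟩
def a3c51 : Cert := (move 496 (branch (move 497 (branch (move 525 (leaf 493 1)) (move 530 (branch (move 529 (leaf 494 0)) (move 498 (branch (move 531 (leaf 495 0)) (move 466 (branch (move 465 (leaf 462 2)) (move 467 (leaf 463 2)))))))))) (branch (move 525 (branch (move 497 (leaf 493 1)) (move 524 (branch (move 493 (leaf 492 1)) (move 523 (leaf 491 2)))))) (branch (move 529 (branch (move 497 (branch (move 530 (leaf 494 0)) (move 465 (branch (move 466 (leaf 462 2)) (move 464 (branch (move 493 (leaf 461 2)) (move 432 (branch (move 400 (leaf 400 4)) (move 561 (leaf 432 7)))))))))) (branch (move 530 (branch (move 497 (leaf 494 0)) (move 528 (branch (move 493 (leaf 493 0)) (move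 531 (leaf 495 3)))))) (branch (ref 0) (move 493 (branch (move 528 (leaf 493 0)) (move 464 (branch (move 465 (leaf 461 2)) (move 463 (branch (move 492 (leaf 460 2)) (move 431 (branch (move 399 (leaf 398 5)) (move 558 (branch (move 462 (leaf 430 6)) (move 590 (leaf 462 6)))))))))))))))) (move 493 (branch (move 464 (branch (move 465 (leaf 461 2)) (move 463 (branch (move 492 (leaf 460 2)) (move 431 (branch (move 399 (leaf 398 5)) (move 558 (branch (move 462 (leaf 430 6)) (move 590 (leaf 462 6)))))))))) (branch (ref 1) (move 525 (branch (move 524 (leaf 492 1)) (move 558 (branch (move 590 (branch (move 622 (leaf 493 7)) (move 589 (branch (move 621 (leaf 493 5)) (move 557 (branch (move 462 (leaf 461 5)) (move 591 (branch (move 623 (leaf 494 4)) (move 556 (branch (move 555 (leaf 555 0)) (move 592 (leaf 556 3)))))))))))) (branch (move 590 (branch (move 463 (leaf 462 6)) (move 622 (leaf 493 7)))) (move 431 (branch (move 399 (branch (move 463 (leaf 398 5)) (move 464 (branch (move 465 (leaf 461 2)) (move 528 (branch (move 529 (leaf 493 0)) (move 432 (leaf 399 7)))))))) (branch (move 464 (branch (move 465 (leaf 461 2)) (move 528 (branch (move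 529 (leaf 493 0)) (move 432 (branch (move 399 (leaf 399 7)) (move 401 (branch (move 433 (leaf 400 6)) (move 400 (branch (move 369 (leaf 368 6)) (move 430 (branch (move 429 (leaf 397 2)) (move 462 (branch (move 398 (leaf 397 5)) (move 557 (leaf 429 5)))))))))))))))) (move 462 (branch (move 463 (leaf 430 6)) (move 557 (branch (move 430 (leaf 429 5)) (move 589 (leaf 461 5)))))))))))))))))))))
theorem a3p51 : a3e51.Valid :=
  pos_of_chk [a3e48, a3e50] (forall_cons a3p48 (forall_cons a3p50 forall_nil)) a3c51 a3e51 (by decide +kernel)

def a3e52 : Pos := ⟨219673525277619695624552475727472849991415639864740869008891492700966664748231265374391028261319831337050239330975200775667281944547991502590746704690456559616, 6078391948018252951772208200064310313552494396772719262918120112380567396105622249611122773779967565428541178055279593969261800358162075797838463517518159284398561896969610985472, 14⟩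
def a3c52 : Cert := (move 496 (branch (move 497 (branch (move 525 (leaf 493 1)) (move 530 (branch (move 529 (leaf 494 0)) (move 498 (branch (move 531 (leaf 495 0)) (move 466 (branch (move 465 (leaf 462 2)) (move 467 (leaf 463 2)))))))))) (branch (move 525 (branch (move 497 (leaf 493 1)) (move 524 (branch (move 493 (leaf 492 1)) (move 523 (leaf 491 2)))))) (branch (ref 0) (move 493 (branch (move 464 (branch (move 465 (leaf 461 2)) (move 463 (branch (move 492 (leaf 460 2)) (move 431 (branch (move 399 (leaf 398 5)) (move 558 (branch (move 462 (leaf 430 6)) (move 590 (leaf 462 6)))))))))) (branch (ref 1) (move 464 (branch (move 465 (leaf 461 2)) (move 528 (branch (move 529 (leaf 493 0)) (move 432 (branch (move 399 (branch (move 431 (leaf 399 7)) (move 400 (branch (move 367 (leaf 367 7)) (move 401 (branch (move 369 (leaf 368 6)) (move 433 (leaf 400 6)))))))) (branch (move 525 (branch (move 524 (leaf 492 1)) (move 461 (branch (move 460 (leaf 460 3)) (move 558 (branch (move 590 (leaf 461 7)) (move 433 (branch (move 401 (leaf 400 6)) (move 462 (branch (move 463 (leaf 429 2)) (move 557 (branch (move 430 (leaf 429 5)) (move 589 (leaf 461 5))))))))))))))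 (branch (move 399 (branch (move 431 (leaf 399 7)) (move 525 (branch (move 524 (leaf 492 1)) (move 461 (branch (move 460 (leaf 460 3)) (move 558 (branch (move 590 (leaf 461 7)) (move 400 (branch (move 367 (leaf 367 7)) (move 463 (branch (move 368 (leaf 367 5)) (move 462 (branch (move 433 (leaf 429 2)) (move 557 (branch (move 430 (leaf 429 5)) (move 589 (leaf 461 5)))))))))))))))))) (move 399 (branch (move 431 (leaf 399 7)) (move 400 (branch (move 367 (leaf 367 7)) (move 525 (branch (move 524 (leaf 492 1)) (move 461 (branch (move 460 (leaf 460 3)) (move 558 (branch (move 590 (leaf 461 7)) (move 368 (branch (move 463 (leaf 367 5)) (move 369 (branch (move 337 (leaf 336 6)) (move 401 (leaf 368 6)))))))))))))))))))))))))))))))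
theorem a3p52 : a3e52.Valid :=
  pos_of_chk [a3e47, a3e50] (forall_cons a3p47 (forall_cons a3p50 forall_nil)) a3c52 a3e52 (by decide +kernel)

def a3e53 : Pos := ⟨1415235909527751532368202663507061835480177530942340921774255297891850613651523503380180722739388660185820383549362995343283472270036612335755594406141038634142202331136, 9877386915470692862183962788608439942658302248965757390127657592168340567059885474220309902511245920020911658324425513034999162335267438788891574358525372560540144688362988503040, 11⟩
def a3c53 : Cert := (move 464 (branch (move 461 (branch (move 429 (leaf 429 7)) (move 496 (branch (move 497 (leaf 461 3)) (move 493 (branch (move 465 (leaf 461 2)) (move 524 (branch (move 525 (leaf 492 1)) (move 523 (branch (move 492 (leaf 491 1)) (move 559 (branch (move 556 (leaf 523 3)) (move 591 (leaf 462 4)))))))))))))) (branch (move 463 (branch (move 431 (leaf 430 6)) (move 465 (branch (move 493 (leaf 461 1)) (move 466 (leaf 462 1)))))) (branch (move 463 (branch (move 431 (leaf 430 6)) (move 461 (branch (move 429 (leaf 429 7)) (move 497 (branch (move 496 (leaf 461 0)) (move 465 (branch (move 498 (leaf 462 0)) (move 466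 (leaf 462 1)))))))))) (move 556 (branch (move 559 (branch (move 591 (leaf 462 4)) (move 523 (branch (move 524 (leaf 523 3)) (move 555 (branch (move 522 (leaf 522 3)) (move 587 (branch (move 586 (leaf 554 1)) (move 588 (leaf 555 1)))))))))) (branch (move 463 (branch (move 431 (leaf 430 6)) (move 461 (branch (move 429 (leaf 429 7)) (move 493 (branch (move 492 (leaf 460 1)) (move 496 (branch (move 497 (leaf 461 0)) (move 525 (branch (move 524 (leaf 492 1)) (move 588 (leaf 460 5)))))))))))) (branch (move 463 (branch (move 431 (leaf 430 6)) (move 461 (branch (move 429 (leaf 429 7)) (move 496 (branch (move 497 (leaf 461 0)) (move 493 (branch (move 492 (leaf 460 1)) (move 432 (branch (move 433 (leaf 429 2)) (move 400 (branch (move 368 (leaf 367 5)) (move 559 (branch (move 591 (leaf 462 4)) (move 588 (branch (move 587 (leaf 555 1)) (move 525 (leaf 460 5)))))))))))))))))) (move 463 (branch (move 431 (leaf 430 6)) (move 461 (branch (move 429 (leaf 429 7)) (move 496 (branch (move 497 (leaf 461 0)) (move 493 (branch (move 492 (leaf 460 1)) (move 524 (branch (move 525 (leaf 492 1)) (move 559 (branch (move 523 (leaf 523 3)) (move 591 (leaf 462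 4))))))))))))))))))))))
theorem a3p53 : a3e53.Valid :=
  pos_of_chk [] forall_nil a3c53 a3e53 (by decide +kernel)

def a3e54 : Pos := ⟨219673525482206608618061342603297206043140586878280996886583042043672375254239627649683187941524212107419249152905618533639786382624070036708583770523489533952, 60915154150561344751182603480338830928056781287200578114297071250528097210631826486230220147679720847075938291971952911661908717664740047881021845691567740977664897759107158227217348034560, 9⟩
def a3c54 : Cert := (move 493 (branch (move 461 (branch (move 460 (leaf 460 3)) (move 429 (branch (move 397 (leaf 397 4)) (move 558 (branch (move 462 (leaf 429 7)) (move 590 (leaf 461 7)))))))) (branch (ref 0) (move 558 (branch (move 590 (branch (move 461 (leaf 461 7)) (move 591 (branch (move 623 (leaf 494 4)) (move 589 (branch (move 621 (leaf 493 5)) (move 462 (branch (move 559 (leaf 462 4)) (move 557 (leaf 461 5)))))))))) (branch (move 525 (branch (move 524 (leaf 492 1)) (move 590 (branch (move 622 (leaf 493 7)) (move 589 (branch (move 621 (leaf 493 5)) (move 557 (branch (move 462 (leaf 461 5)) (move 591 (branch (move 623 (leaf 494 4)) (move 556 (branch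 (move 555 (leaf 555 0)) (move 592 (leaf 556 3)))))))))))))) (branch (move 525 (branch (move 524 (leaf 492 1)) (move 590 (branch (move 461 (leaf 461 7)) (move 622 (leaf 493 7)))))) (move 462 (branch (move 524 (branch (move 525 (leaf 492 1)) (move 461 (branch (move 429 (leaf 429 7)) (move 523 (branch (move 492 (leaf 491 1)) (move 557 (branch (move 589 (leaf 461 5)) (move 559 (branch (move 556 (leaf 523 3)) (move 591 (leaf 462 4)))))))))))) (branch (move 525 (branch (move 524 (leaf 492 1)) (move 557 (branch (move 430 (leaf 429 5)) (move 589 (leaf 461 5)))))) (move 430 (branch (move 399 (branch (move 431 (leaf 398 6)) (move 398 (branch (move 367 (leaf 366 6)) (move 366 (branch (move 461 (leaf 365 5)) (move 365 (branch (move 333 (leaf 333 7)) (move 397 (leaf 365 7)))))))))) (branch (move 399 (branch (move 431 (leaf 398 6)) (move 398 (branch (move 367 (leaf 366 6)) (move 397 (branch (move 365 (leaf 365 7)) (move 429 (leaf 397 7)))))))) (branch (move 461 (branch (move 429 (leaf 429 7)) (move 398 (branch (move 366 (leaf 365 5)) (move 399 (branch (move 367 (leaf 366 6)) (move 431 (leaf 398 6)))))))) (move 429 (branch (move 397 (leaf 397 7))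 (move 461 (leaf 429 7))))))))))))))))))
theorem a3p54 : a3e54.Valid :=
  pos_of_chk [a3e50] (forall_cons a3p50 forall_nil) a3c54 a3e54 (by decide +kernel)

def a3e55 : Pos := ⟨219673525175326239127798042289560671965553166357970805070045718029613809495227084236744948421217640951865734420009991896681029725509952235531828171773940072448, 2757826132514153299567711480401093268762496713996578234260337067703567744137963387678129944742000545053194773911602143450333627023006803445365898228942738561693722265941239351439353250428778289027919930391212247220224, 15⟩
def a3c55 : Cert := (move 495 (branch (move 558 (branch (ref 0) (branch (move 590 (branch (move 463 (leaf 462 6)) (move 623 (branch (move 591 (leaf 494 4)) (move 622 (branch (move 655 (leaf 526 4)) (move 621 (branch (move 589 (leaf 493 5)) (move 653 (leaf 525 5)))))))))) (ref 1)))) (branch (move 558 (branch (ref 0) (branch (move 590 (branch (move 463 (leaf 462 6)) (move 623 (branch (move 591 (leaf 494 4)) (move 622 (branch (move 655 (leaf 526 4)) (move 621 (branch (move 589 (leaf 493 5)) (move 653 (leaf 525 5)))))))))) (branch (move 463 (branch (move 590 (leaf 462 6)) (move 431 (branch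 (move 399 (leaf 398 5)) (move 462 (leaf 430 6)))))) (move 462 (branch (move 557 (branch (move 589 (leaf 461 5)) (move 430 (branch (move 525 (leaf 429 5)) (move 429 (branch (move 397 (leaf 397 7)) (move 461 (leaf 429 7)))))))) (branch (move 431 (branch (move 463 (leaf 430 6)) (move 430 (branch (move 399 (leaf 398 6)) (move 557 (branch (move 525 (leaf 429 5)) (move 589 (leaf 461 5)))))))) (move 463 (branch (move 431 (leaf 430 6)) (move 461 (branch (move 429 (leaf 429 7)) (move 460 (branch (move 459 (leaf 459 0)) (move 492 (branch (move 491 (leaf 459 1)) (move 464 (branch (move 493 (leaf 460 1)) (move 465 (branch (move 466 (leaf 462 1)) (move 433 (branch (move 432 (leaf 429 2)) (move 434 (leaf 430 2))))))))))))))))))))))) (branch (move 496 (branch (move 497 (branch (move 525 (leaf 493 1)) (move 530 (branch (move 529 (leaf 494 0)) (move 498 (branch (move 531 (leaf 495 0)) (move 466 (branch (move 465 (leaf 462 2)) (move 467 (leaf 463 2)))))))))) (branch (move 525 (branch (move 497 (leaf 493 1)) (move 524 (branch (move 493 (leaf 492 1)) (move 523 (leaf 491 2)))))) (branch (move 493 (branch (move 464 (branch (move 465 (leaf 461 2)) (move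 492 (branch (move 463 (leaf 460 2)) (move 460 (branch (move 459 (leaf 459 3)) (move 461 (leaf 460 3)))))))) (branch (move 524 (branch (move 525 (leaf 492 1)) (move 492 (branch (move 523 (leaf 491 1)) (move 464 (branch (move 463 (leaf 460 2)) (move 465 (leaf 461 2)))))))) (move 525 (branch (move 524 (leaf 492 1)) (move 461 (branch (move 460 (leaf 460 3)) (move 429 (branch (move 397 (leaf 397 4)) (move 430 (branch (move 398 (leaf 397 6)) (move 557 (branch (move 462 (leaf 429 5)) (move 589 (branch (move 621 (leaf 493 6)) (move 588 (branch (move 556 (leaf 460 5)) (move 620 (leaf 492 5))))))))))))))))))) (ref 2))))) (branch (move 496 (branch (move 497 (branch (move 525 (leaf 493 1)) (move 530 (branch (move 529 (leaf 494 0)) (move 498 (branch (move 531 (leaf 495 0)) (move 466 (branch (move 465 (leaf 462 2)) (move 467 (leaf 463 2)))))))))) (branch (move 525 (branch (move 497 (leaf 493 1)) (move 524 (branch (move 493 (leaf 492 1)) (move 523 (leaf 491 2)))))) (branch (move 493 (branch (move 464 (branch (move 465 (leaf 461 2)) (move 492 (branch (move 463 (leaf 460 2)) (move 460 (branch (move 459 (leaf 459 3)) (move 461 (leaf 460 3)))))))) (branch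 (move 524 (branch (move 525 (leaf 492 1)) (move 492 (branch (move 523 (leaf 491 1)) (move 464 (branch (move 463 (leaf 460 2)) (move 465 (leaf 461 2)))))))) (move 461 (branch (move 460 (leaf 460 3)) (move 525 (branch (move 524 (leaf 492 1)) (move 558 (branch (move 429 (leaf 429 4)) (move 590 (leaf 461 7))))))))))) (move 529 (branch (move 493 (branch (move 528 (leaf 493 0)) (move 464 (branch (move 465 (leaf 461 2)) (move 492 (branch (move 463 (leaf 460 2)) (move 460 (branch (move 459 (leaf 459 3)) (move 461 (leaf 460 3)))))))))) (branch (move 497 (branch (move 530 (leaf 494 0)) (move 465 (branch (move 466 (leaf 462 2)) (move 464 (branch (move 493 (leaf 461 2)) (move 432 (branch (move 400 (leaf 400 4)) (move 561 (leaf 432 7)))))))))) (branch (move 530 (branch (move 497 (leaf 494 0)) (move 528 (branch (move 493 (leaf 493 0)) (move 531 (leaf 495 3)))))) (ref 3))))))))) (branch (ref 4) (branch (ref 5) (branch (ref 6) (branch (move 558 (branch (ref 0) (branch (move 590 (branch (move 463 (leaf 462 6)) (move 623 (branch (move 591 (leaf 494 4)) (move 622 (branch (move 655 (leaf 526 4)) (move 621 (branch (move 589 (leaf 493 5)) (move 653 (leaf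 525 5)))))))))) (branch (move 463 (branch (move 590 (leaf 462 6)) (move 431 (branch (move 399 (leaf 398 5)) (move 462 (leaf 430 6)))))) (move 462 (branch (move 557 (branch (move 589 (leaf 461 5)) (move 430 (branch (move 525 (leaf 429 5)) (move 429 (branch (move 397 (leaf 397 7)) (move 461 (leaf 429 7)))))))) (branch (ref 7) (branch (move 431 (branch (move 463 (leaf 430 6)) (move 430 (branch (move 399 (leaf 398 6)) (move 557 (branch (move 525 (leaf 429 5)) (move 589 (leaf 461 5)))))))) (move 557 (branch (move 589 (leaf 461 5)) (ref 8))))))))))) (move 496 (branch (move 493 (branch (move 461 (branch (move 460 (leaf 460 3)) (move 429 (branch (move 397 (leaf 397 4)) (move 558 (branch (move 462 (leaf 429 7)) (move 590 (leaf 461 7)))))))) (move 529 (branch (move 528 (leaf 493 0)) (move 497 (branch (move 530 (leaf 494 0)) (move 465 (branch (move 464 (leaf 461 2)) (move 466 (leaf 462 2)))))))))) (branch (move 497 (branch (move 525 (leaf 493 1)) (move 530 (branch (move 529 (leaf 494 0)) (move 498 (branch (move 531 (leaf 495 0)) (move 466 (branch (move 465 (leaf 462 2)) (move 467 (leaf 463 2)))))))))) (branch (move 525 (branch (move 497 (leaf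 493 1)) (move 524 (branch (move 493 (leaf 492 1)) (move 523 (leaf 491 2)))))) (ref 9))))))))))))))
theorem a3p55 : a3e55.Valid :=
  pos_of_chk [a3e44, a3e46, a3e47, a3e48, a3e49, a3e51, a3e52, a3e45, a3e53, a3e54] (forall_cons a3p44 (forall_cons a3p46 (forall_cons a3p47 (forall_cons a3p48 (forall_cons a3p49 (forall_cons a3p51 (forall_cons a3p52 (forall_cons a3p45 (forall_cons a3p53 (forall_cons a3p54 forall_nil)))))))))) a3c55 a3e55 (by decide +kernel)

def a3e56 : Pos := ⟨943490606425058863235714884374865265018790977069663273452022380131451758627651022516758765531159640306584734709556695644952638054162227883650310798390002182686288904192, 186877568810594449587088233423297063877068116055597456570046707584699667849331125174362914987447122188225834186223140278295192603953209055664162870596329471469407900628665456198343635429786117996544, 10⟩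
def a3c56 : Cert := (move 590 (branch (move 623 (branch (move 591 (leaf 494 4)) (move 622 (branch (move 655 (leaf 526 4)) (move 621 (branch (move 589 (leaf 493 5)) (move 653 (leaf 525 5)))))))) (branch (move 495 (branch (move 463 (leaf 462 6)) (move 622 (branch (move 527 (leaf 494 6)) (move 621 (branch (move 589 (leaf 493 5)) (move 653 (leaf 525 5)))))))) (branch (move 495 (branch (move 463 (leaf 462 6)) (move 622 (branch (move 527 (leaf 494 6)) (move 623 (branch (move 591 (leaf 494 4)) (move 655 (leaf 526 4)))))))) (move 591 (branch (move 623 (leaf 494 4)) (move 592 (branch (move 593 (branch (move 557 (leaf 557 3)) (move 594 (branch (move 559 (leaf 558 3)) (move 626 (branch (move 625 (leaf 590 0)) (move 627 (leaf 591 0)))))))) (branch (move 589 (branch (move 621 (leaf 493 5)) (move 556 (branch (move 557 (leaf 556 3)) (move 588 (branch (move 555 (leaf 555 3)) (move 587 (branch (move 559 (leaf 555 2)) (move 619 (branch (move 618 (leaf 586 1)) (move 620 (leaf 587 1)))))))))))) (branch (move 589 (branch (move 621 (leaf 493 5)) (move 557 (branch (move 556 (leaf 556 3)) (move 593 (leaf 557 3)))))) (move 589 (branch (move 621 (leaf 493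 5)) (move 495 (branch (move 463 (leaf 462 6)) (move 625 (branch (move 624 (leaf 589 0)) (move 593 (branch (move 626 (leaf 590 0)) (move 562 (branch (move 561 (leaf 558 2)) (move 594 (branch (move 563 (leaf 559 2)) (move 559 (leaf 558 3))))))))))))))))))))))))
theorem a3p56 : a3e56.Valid :=
  pos_of_chk [] forall_nil a3c56 a3e56 (by decide +kernel)

def a3e57 : Pos := ⟨943490606425058863235714884374865265018790977069663273452022380131451758627651022516758765531159640306584734709556695644952638054162227883650310798390002182686288904192, 186877568810594449587088233423297063876738605767834467211337147732777038006440655242923303180405778521101161943330821748805011790176707726872699797703973030237165056309404930256151346802500374102016, 10⟩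
def a3c57 : Cert := (move 590 (branch (move 623 (branch (move 591 (leaf 494 4)) (move 622 (branch (move 655 (leaf 526 4)) (move 621 (branch (move 589 (leaf 493 5)) (move 653 (leaf 525 5)))))))) (branch (move 493 (branch (move 461 (leaf 461 7)) (move 622 (branch (move 525 (leaf 493 7)) (move 621 (branch (move 589 (leaf 493 5)) (move 653 (leaf 525 5)))))))) (branch (move 493 (branch (move 461 (leaf 461 7)) (move 622 (branch (move 525 (leaf 493 7)) (move 623 (branch (move 591 (leaf 494 4)) (move 655 (leaf 526 4)))))))) (move 591 (branch (move 623 (leaf 494 4)) (move 592 (branch (move 593 (branch (move 557 (leaf 557 3)) (move 594 (branch (move 559 (leaf 558 3)) (move 626 (branch (move 625 (leaf 590 0)) (move 627 (leaf 591 0)))))))) (branch (move 589 (branch (move 621 (leaf 493 5)) (move 556 (branch (move 557 (leaf 556 3)) (move 588 (branch (move 555 (leaf 555 3)) (move 587 (branch (move 559 (leaf 555 2)) (move 619 (branch (move 618 (leaf 586 1)) (move 620 (leaf 587 1)))))))))))) (branch (move 589 (branch (move 621 (leaf 493 5)) (move 557 (branch (move 556 (leaf 556 3)) (move 593 (leaf 557 3)))))) (move 589 (branch (move 621 (leaf 493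 5)) (move 493 (branch (move 461 (leaf 461 7)) (move 625 (branch (move 624 (leaf 589 0)) (move 593 (branch (move 626 (leaf 590 0)) (move 562 (branch (move 561 (leaf 558 2)) (move 594 (branch (move 563 (leaf 559 2)) (move 559 (leaf 558 3))))))))))))))))))))))))
theorem a3p57 : a3e57.Valid :=
  pos_of_chk [] forall_nil a3c57 a3e57 (by decide +kernel)

def a3e58 : Pos := ⟨943490606425058863235714884374865265018790977069663273452022380131451758627651022516758765531159640306584734709556695644952638054162227883650310798390002182686288904192, 186877567758720270289894688526069131308677767837718149908671247726268060248673075458785455687556422992359491408287307356421196129513595115553820195395169528465613364750292629660123016631109424250880, 12⟩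
def a3c58 : Cert := (move 590 (branch (move 623 (branch (move 591 (leaf 494 4)) (move 622 (branch (move 655 (leaf 526 4)) (move 621 (branch (move 589 (leaf 493 5)) (move 653 (leaf 525 5)))))))) (move 495 (branch (move 463 (leaf 462 6)) (move 493 (branch (move 461 (leaf 461 7)) (move 492 (branch (move 527 (branch (move 491 (leaf 491 0)) (move 528 (leaf 492 0)))) (branch (move 524 (branch (move 523 (leaf 491 1)) (move 496 (branch (move 525 (leaf 492 1)) (move 459 (branch (move 460 (leaf 459 3)) (move 491 (branch (move 458 (leaf 458 3)) (move 529 (branch (move 528 (leaf 493 0)) (move 497 (branch (move 530 (leaf 494 0)) (move 465 (branch (move 464 (leaf 461 2)) (move 466 (leaf 462 2)))))))))))))))) (branch (move 524 (branch (move 523 (leaf 491 1)) (move 496 (branch (move 525 (leaf 492 1)) (move 528 (branch (move 527 (leaf 492 0)) (move 529 (leaf 493 0)))))))) (move 491 (branch (move 527 (leaf 491 0)) (move 523 (branch (move 522 (leaf 490 1)) (move 524 (leaf 491 1))))))))))))))))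
theorem a3p58 : a3e58.Valid :=
  pos_of_chk [] forall_nil a3c58 a3e58 (by decide +kernel)

def a3e59 : Pos := ⟨943490606425058863235714884374865265018790977069663273452022380131451758627651022516758765531159640306584734709556695644952638054162227883650310798390002182686288904192, 37375513565667517860116606175762188395676124013073775432788588394615887667615403011980921027618810240311312498407194140378535959315443620293170122848604958723254892462579274535990300478574386216960, 9⟩
def a3c59 : Cert := (move 590 (branch (move 495 (branch (move 463 (leaf 462 6)) (move 622 (branch (move 527 (leaf 494 6)) (move 621 (branch (move 589 (leaf 493 5)) (move 653 (leaf 525 5)))))))) (branch (move 493 (branch (move 461 (leaf 461 7)) (move 622 (branch (move 525 (leaf 493 7)) (move 621 (branch (move 589 (leaf 493 5)) (move 653 (leaf 525 5)))))))) (branch (move 495 (branch (move 463 (leaf 462 6)) (move 493 (branch (move 461 (leaf 461 7)) (move 622 (branch (move 527 (leaf 494 6)) (move 525 (leaf 493 7)))))))) (move 493 (branch (move 461 (leaf 461 7)) (move 495 (branch (move 463 (leaf 462 6)) (move 492 (branch (move 524 (branch (move 523 (leaf 491 1))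 (move 525 (branch (move 496 (leaf 492 1)) (move 589 (branch (move 621 (leaf 493 5)) (move 460 (branch (move 459 (leaf 459 3)) (move 557 (leaf 460 7)))))))))) (move 527 (branch (move 491 (leaf 491 0)) (move 528 (leaf 492 0))))))))))))))
theorem a3p59 : a3e59.Valid :=
  pos_of_chk [] forall_nil a3c59 a3e59 (by decide +kernel)

def a3e60 : Pos := ⟨943490606425058863235714884374865265018790977069663273452022380131451758627651022516758765531159640306584734709556695644952638054162227883650310798390002182686288904192, 149502054280074401225556600673352836387097581687568651362292522963890179960665785878921568538902834116498369735129150641019418084198460260080282921258008866440858237611318182141707199439639771348992, 12⟩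
def a3c60 : Cert := (move 590 (branch (move 495 (branch (move 463 (leaf 462 6)) (move 622 (branch (move 527 (leaf 494 6)) (move 623 (branch (move 591 (leaf 494 4)) (move 655 (leaf 526 4)))))))) (branch (move 493 (branch (move 461 (leaf 461 7)) (move 622 (branch (move 525 (leaf 493 7)) (move 623 (branch (move 591 (leaf 494 4)) (move 655 (leaf 526 4)))))))) (branch (move 495 (branch (move 463 (leaf 462 6)) (move 493 (branch (move 461 (leaf 461 7)) (move 622 (branch (move 527 (leaf 494 6)) (move 525 (leaf 493 7)))))))) (move 493 (branch (move 461 (leaf 461 7)) (move 527 (branch (move 528 (branch (move 529 (leaf 493 3)) (move 492 (branch (move 491 (leaf 491 0)) (move 525 (leaf 492 3)))))) (branch (move 495 (branch (move 463 (leaf 462 6)) (move 492 (branch (move 491 (leaf 491 0)) (move 524 (branch (move 523 (leaf 491 1)) (move 496 (branch (move 525 (leaf 492 1)) (move 591 (branch (move 623 (leaf 494 4)) (move 464 (branch (move 465 (leaf 461 2)) (move 559 (leaf 463 6)))))))))))))) (branch (move 495 (branch (move 463 (leaf 462 6)) (move 528 (branch (move 492 (leaf 492 0)) (move 529 (leaf 493 3)))))) (move 557 (branch (move 591 (branch (move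 623 (leaf 494 4)) (move 556 (branch (move 555 (leaf 555 0)) (move 592 (branch (move 559 (leaf 556 0)) (move 593 (leaf 557 3)))))))) (branch (move 528 (branch (move 529 (leaf 525 1)) (move 495 (branch (move 463 (leaf 462 6)) (move 591 (branch (move 623 (leaf 494 4)) (move 592 (branch (move 593 (leaf 557 3)) (move 559 (branch (move 624 (leaf 495 4)) (move 496 (branch (move 464 (leaf 463 6)) (move 525 (branch (move 524 (leaf 492 1)) (move 497 (leaf 493 1)))))))))))))))) (move 528 (branch (move 529 (leaf 525 1)) (move 556 (branch (move 525 (leaf 524 1)) (move 555 (leaf 523 2)))))))))))))))))))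
theorem a3p60 : a3e60.Valid :=
  pos_of_chk [] forall_nil a3c60 a3e60 (by decide +kernel)

def a3e61 : Pos := ⟨943490606425058863235714884386773790677650200364423394720459446422301818681152041616410700954535234403034646285333009819846940312309761037647375857653033095769511428096, 200658260469931894926844531637796858158987973819519055595281412507229026583938423960620279804688904297395413024101788747876928283842675995083253464880586272974918609503392066824121223162571831047961821839360, 13⟩
def a3c61 : Cert := (move 557 (branch (move 589 (leaf 461 5)) (move 556 (branch (move 559 (branch (move 591 (leaf 462 4)) (move 523 (branch (move 524 (leaf 523 3)) (move 555 (branch (move 522 (leaf 522 3)) (move 587 (branch (move 586 (leaf 554 1)) (move 588 (leaf 555 1)))))))))) (branch (move 527 (branch (move 555 (leaf 523 2)) (move 528 (branch (move 525 (leaf 524 1)) (move 529 (leaf 525 1)))))) (move 493 (branch (move 463 (branch (move 431 (leaf 430 6)) (move 492 (branch (move 491 (leaf 459 2)) (move 464 (branch (move 465 (leaf 461 1)) (move 495 (leaf 460 2)))))))) (branch (move 559 (branch (move 591 (leaf 462 4)) (move 527 (branch (move 528 (leaf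 524 2)) (move 463 (branch (move 431 (leaf 430 6)) (move 524 (branch (move 523 (leaf 523 3)) (move 464 (branch (move 465 (leaf 461 1)) (move 495 (branch (move 432 (leaf 431 6)) (move 525 (branch (move 496 (leaf 492 1)) (move 588 (branch (move 587 (leaf 555 1)) (move 620 (leaf 492 6)))))))))))))))))) (move 559 (branch (move 591 (leaf 462 4)) (move 527 (branch (move 528 (leaf 524 2)) (move 524 (branch (move 523 (leaf 523 3)) (move 492 (branch (move 491 (leaf 491 0)) (move 588 (branch (move 587 (leaf 555 1)) (move 620 (branch (move 525 (leaf 492 6)) (move 653 (branch (move 621 (leaf 524 4)) (move 652 (branch (move 685 (leaf 556 4)) (move 651 (branch (move 619 (leaf 523 5)) (move 683 (leaf 555 5))))))))))))))))))))))))))))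
theorem a3p61 : a3e61.Valid :=
  pos_of_chk [] forall_nil a3c61 a3e61 (by decide +kernel)

def a3e62 : Pos := ⟨943490606425058863235714884386773790677650200364423394720459446422301818681152041616410700954535234403034646285333009819846940312309761037647375857653033095769511428096, 11903517564810110511385721460137988807049705592220599529667272290631902428133825340763260428183878889821272794576481013793046805978532371739566497269448493856377398226798384250880, 9⟩
def a3c62 : Cert := (move 557 (branch (move 589 (leaf 461 5)) (move 556 (branch (move 559 (branch (move 591 (leaf 462 4)) (move 523 (branch (move 524 (leaf 523 3)) (move 555 (branch (move 522 (leaf 522 3)) (move 587 (branch (move 586 (leaf 554 1)) (move 588 (leaf 555 1)))))))))) (branch (move 527 (branch (move 555 (leaf 523 2)) (move 528 (branch (move 525 (leaf 524 1)) (move 529 (leaf 525 1)))))) (move 559 (branch (move 591 (leaf 462 4)) (move 527 (branch (move 528 (leaf 524 2)) (move 524 (branch (move 523 (leaf 523 3)) (move 461 (branch (move 429 (leaf 429 7)) (move 588 (branch (move 587 (leaf 555 1)) (move 493 (branch (move 525 (leaf 460 5)) (move 492 (leaf 460 6)))))))))))))))))))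
theorem a3p62 : a3e62.Valid :=
  pos_of_chk [] forall_nil a3c62 a3e62 (by decide +kernel)

def a3e63 : Pos := ⟨943490606425058863235714884386773790677650200364423394720459446422301818681152041616410700954535234403034646285333009819846940312309761037647375857653033095769511428096, 760807583062286828496316768963755744086738404891525106224842156444934508950663813747397010779975036927884542643941594140725232687819594970794798612480, 9⟩
def a3c63 : Cert := (move 463 (branch (move 431 (leaf 430 6)) (move 492 (branch (move 493 (branch (move 491 (leaf 459 2)) (move 464 (branch (move 465 (leaf 461 1)) (move 495 (leaf 460 2)))))) (branch (move 461 (branch (move 429 (leaf 429 7)) (move 460 (branch (move 491 (leaf 459 1)) (move 495 (branch (move 459 (leaf 459 0)) (move 496 (leaf 460 0)))))))) (branch (move 461 (branch (move 429 (leaf 429 7)) (move 493 (branch (move 464 (leaf 460 1)) (move 491 (leaf 459 2)))))) (move 461 (branch (move 429 (leaf 429 7)) (move 464 (branch (move 493 (leaf 460 1)) (move 496 (branch (move 497 (leaf 461 0)) (move 495 (branch (move 460 (leaf 460 0)) (move 465 (branch (move 466 (leaf 462 1)) (move 433 (branch (move 432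 (leaf 429 2)) (move 434 (leaf 430 2))))))))))))))))))))
theorem a3p63 : a3e63.Valid :=
  pos_of_chk [] forall_nil a3c63 a3e63 (by decide +kernel)

def a3e64 : Pos := ⟨943490606425058863235714884386773790677650200364423394720459446422301818681152041616410700954535234403034646285333009819846940312309761037647375857653033095769511428096, 11903517564810110511385721460227495581651085080741619187284235060742542960730219406197818562980646076296358145915473890750230404946706802808202886210429165998196034731871089721344, 12⟩
def a3c64 : Cert := (move 557 (branch (move 589 (leaf 461 5)) (move 556 (branch (move 559 (branch (move 591 (leaf 462 4)) (move 523 (branch (move 524 (leaf 523 3)) (move 555 (branch (move 522 (leaf 522 3)) (move 587 (branch (move 586 (leaf 554 1)) (move 588 (leaf 555 1)))))))))) (branch (move 527 (branch (move 555 (leaf 523 2)) (move 528 (branch (move 525 (leaf 524 1)) (move 529 (leaf 525 1)))))) (move 559 (branch (move 591 (leaf 462 4)) (move 527 (branch (move 528 (leaf 524 2)) (move 463 (branch (move 431 (leaf 430 6)) (move 461 (branch (move 429 (leaf 429 7)) (move 524 (branch (move 523 (leaf 523 3)) (move 588 (branch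 (move 587 (leaf 555 1)) (move 493 (branch (move 525 (leaf 460 5)) (move 464 (branch (move 465 (leaf 461 1)) (move 432 (branch (move 433 (leaf 429 2)) (move 495 (leaf 431 6)))))))))))))))))))))))))
theorem a3p64 : a3e64.Valid :=
  pos_of_chk [] forall_nil a3c64 a3e64 (by decide +kernel)

def a3e65 : Pos := ⟨219673525175326239139706567948419895260313287626407871360895778083114828594879019660120542517667552527642048594904294154828562879507017294794859084857162596352, 2830471819055503064531818414163517112001238896725290876123336128415939705082205116768360406933987268057692313258230080274477947392080918534339420472673852821769958719488, 6⟩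
def a3c65 : Cert := (move 430 (branch (move 527 (branch (move 559 (leaf 430 4)) (move 398 (branch (move 495 (leaf 398 4)) (move 397 (branch (move 365 (leaf 365 7)) (move 429 (leaf 397 7)))))))) (branch (move 527 (branch (move 559 (leaf 430 4)) (move 398 (branch (move 495 (leaf 398 4)) (move 399 (branch (move 367 (leaf 366 6)) (move 431 (leaf 398 6)))))))) (move 431 (branch (move 399 (leaf 398 6)) (move 463 (branch (move 558 (leaf 430 6)) (move 429 (branch (move 397 (leaf 397 7)) (move 464 (branch (move 428 (leaf 428 0)) (move 465 (leaf 429 3)))))))))))))
theorem a3p65 : a3e65.Valid :=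
  pos_of_chk [] forall_nil a3c65 a3e65 (by decide +kernel)

def a3e66 : Pos := ⟨219673525175326239139706567948419895260313287626407871360895778083114828594879019660120542517667552527642048594904294154828562879507017294794859084857162596352, 2830471819055503064531818414007217712739109102334517340198518686539069230767890880118088066659071893969092053730437052815390134276785069305993158610951835481911316185088, 6⟩
def a3c66 : Cert := (move 430 (branch (move 527 (branch (move 559 (leaf 430 4)) (move 398 (branch (move 495 (leaf 398 4)) (move 397 (branch (move 365 (leaf 365 7)) (move 429 (leaf 397 7)))))))) (branch (move 527 (branch (move 559 (leaf 430 4)) (move 398 (branch (move 495 (leaf 398 4)) (move 399 (branch (move 367 (leaf 366 6)) (move 431 (leaf 398 6)))))))) (move 429 (branch (move 397 (leaf 397 7)) (move 461 (branch (move 558 (leaf 429 7)) (move 431 (branch (move 399 (leaf 398 6)) (move 460 (branch (move 432 (leaf 428 1)) (move 459 (leaf 427 2)))))))))))))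
theorem a3p66 : a3e66.Valid :=
  pos_of_chk [] forall_nil a3c66 a3e66 (by decide +kernel)

def a3e67 : Pos := ⟨219673525175326239139706567948419895260313287626407871360895778083114828594879019660120542517667552527642048594904294154828562879507017294794859084857162596352, 1415235909417914769678246087444919815210922636730022430020485116341891592826414346342949918362332433509214951666102009347961177195541727480517692413366832207881882828800, 6⟩
def a3c67 : Cert := (move 430 (branch (move 525 (branch (move 557 (leaf 429 5)) (move 398 (branch (move 493 (leaf 397 5)) (move 399 (branch (move 367 (leaf 366 6)) (move 431 (leaf 398 6)))))))) (branch (move 525 (branch (move 557 (leaf 429 5)) (move 398 (branch (move 493 (leaf 397 5)) (move 397 (branch (move 365 (leaf 365 7)) (move 429 (leaf 397 7)))))))) (move 429 (branch (move 397 (leaf 397 7)) (move 461 (branch (move 558 (leaf 429 7)) (move 431 (branch (move 399 (leaf 398 6)) (move 460 (branch (move 432 (leaf 428 1)) (move 459 (leaf 427 2)))))))))))))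
theorem a3p67 : a3e67.Valid :=
  pos_of_chk [] forall_nil a3c67 a3e67 (by decide +kernel)

def a3e68 : Pos := ⟨219673525175326239139706567948419895260313287626407871360895778083114828594879019660120542517667552527642048594904294154828562879507017294794859084857162596352, 34808659509396432475757358582890815374000620903874510451718379051948980831538916443509530424378920303324408969876497258735180063965631052512654979573282043838873936180460167295003625783296, 13⟩
def a3c68 : Cert := (move 558 (branch (move 461 (branch (move 429 (leaf 429 7)) (move 590 (branch (move 493 (leaf 461 7)) (move 591 (branch (move 559 (leaf 462 4)) (move 623 (leaf 494 4)))))))) (branch (move 463 (branch (move 431 (leaf 430 6)) (move 590 (branch (move 495 (leaf 462 6)) (move 591 (branch (move 559 (leaf 462 4)) (move 623 (leaf 494 4)))))))) (branch (move 463 (branch (move 431 (leaf 430 6)) (move 461 (branch (move 429 (leaf 429 7)) (move 590 (branch (move 495 (leaf 462 6)) (move 493 (leaf 461 7)))))))) (move 461 (branch (move 429 (leaf 429 7)) (move 495 (branch (move 496 (branch (move 497 (leaf 461 3)) (move 460 (branch (move 459 (leaf 459 0)) (move 493 (leaf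 460 3)))))) (branch (move 463 (branch (move 431 (leaf 430 6)) (move 460 (branch (move 459 (leaf 459 0)) (move 492 (branch (move 491 (leaf 459 1)) (move 493 (branch (move 464 (leaf 460 1)) (move 524 (branch (move 523 (leaf 491 1)) (move 527 (branch (move 528 (leaf 492 0)) (move 559 (branch (move 591 (leaf 462 4)) (move 428 (branch (move 427 (leaf 427 3)) (move 396 (branch (move 364 (leaf 364 4)) (move 525 (leaf 396 4)))))))))))))))))))) (branch (move 463 (branch (move 431 (leaf 430 6)) (move 496 (branch (move 460 (leaf 460 0)) (move 497 (leaf 461 3)))))) (move 493 (branch (move 496 (branch (move 497 (leaf 461 3)) (move 524 (branch (move 525 (leaf 492 1)) (move 492 (branch (move 523 (leaf 491 1)) (move 527 (branch (move 491 (leaf 491 0)) (move 528 (leaf 492 0)))))))))) (branch (move 463 (branch (move 431 (leaf 430 6)) (move 492 (branch (move 464 (leaf 460 1)) (move 491 (leaf 459 2)))))) (move 496 (branch (move 497 (leaf 461 3)) (move 463 (branch (move 431 (leaf 430 6)) (move 464 (branch (move 465 (leaf 461 1)) (move 432 (branch (move 433 (leaf 429 2)) (move 527 (branch (move 400 (leaf 399 5)) (move 559 (leaf 431 6)))))))))))))))))))))))))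
theorem a3p68 : a3e68.Valid :=
  pos_of_chk [] forall_nil a3c68 a3e68 (by decide +kernel)

def a3e69 : Pos := ⟨219673525175326239139706567948419895260313287626407871360895778083114828594879019660120542517667552527642048594904294154828562879507017294794859084857162596352, 186877567758720270289894688527012621908087003491616294173673916402595524848631716373525644831562689137257939259406115685856463144243365873114677344301792610929553901985765060643825754604477156950016, 7⟩
def a3c69 : Cert := (move 558 (branch (move 431 (branch (move 463 (leaf 430 6)) (move 430 (branch (move 399 (leaf 398 6)) (move 429 (branch (move 397 (leaf 397 7)) (move 461 (leaf 429 7)))))))) (branch (move 463 (branch (move 431 (leaf 430 6)) (move 590 (branch (move 495 (leaf 462 6)) (move 623 (branch (move 591 (leaf 494 4)) (move 622 (branch (move 655 (leaf 526 4)) (move 621 (branch (move 589 (leaf 493 5)) (move 653 (leaf 525 5)))))))))))) (move 461 (branch (move 429 (leaf 429 7)) (move 590 (branch (move 493 (leaf 461 7)) (move 623 (branch (move 591 (leaf 494 4)) (move 622 (branch (move 655 (leaf 526 4)) (move 621 (branch (move 589 (leaf 493 5)) (move 653 (leaf 525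 5)))))))))))))))
theorem a3p69 : a3e69.Valid :=
  pos_of_chk [] forall_nil a3c69 a3e69 (by decide +kernel)

def a3e70 : Pos := ⟨219673525175326239127798042289560671965553166357970805070045718029613809495227084236744948421217640951865734420009991896681029725509952235531828171773940072448, 186877567758720270289894688528899603122008029653598746363888666446292966383981330112210785759169523471148080961248356060818395876885381180468895384848824994129870977199945923637561290812276795768832, 14⟩
def a3c70 : Cert := (move 462 (branch (move 430 (branch (move 527 (branch (move 559 (leaf 430 4)) (move 398 (branch (move 495 (leaf 398 4)) (move 397 (branch (move 365 (leaf 365 7)) (move 429 (leaf 397 7)))))))) (branch (move 527 (branch (move 559 (leaf 430 4)) (move 398 (branch (move 495 (leaf 398 4)) (move 399 (branch (move 367 (leaf 366 6)) (move 431 (leaf 398 6)))))))) (ref 0)))) (branch (ref 1) (branch (ref 2) (branch (ref 3) (branch (ref 4) (branch (move 558 (branch (move 559 (branch (move 591 (leaf 462 4)) (move 430 (branch (move 527 (leaf 430 4)) (move 431 (branch (move 399 (leaf 398 6)) (move 463 (leaf 430 6)))))))) (branch (move 559 (branch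 (move 591 (leaf 462 4)) (move 430 (branch (move 527 (leaf 430 4)) (move 399 (branch (move 431 (leaf 398 6)) (move 398 (branch (move 367 (leaf 366 6)) (move 493 (branch (move 525 (leaf 397 5)) (move 461 (branch (move 366 (leaf 365 5)) (move 590 (leaf 461 7)))))))))))))) (branch (move 591 (branch (move 559 (leaf 462 4)) (move 590 (branch (move 623 (leaf 494 4)) (move 495 (branch (move 463 (leaf 462 6)) (move 493 (branch (move 461 (leaf 461 7)) (move 622 (branch (move 527 (leaf 494 6)) (move 525 (leaf 493 7)))))))))))) (move 463 (branch (move 431 (leaf 430 6)) (move 590 (branch (move 495 (leaf 462 6)) (move 493 (branch (move 461 (leaf 461 7)) (move 622 (branch (move 525 (leaf 493 7)) (move 621 (branch (move 589 (leaf 493 5)) (move 653 (leaf 525 5)))))))))))))))) (branch (move 558 (branch (move 559 (branch (move 591 (leaf 462 4)) (move 430 (branch (move 527 (leaf 430 4)) (move 429 (branch (move 397 (leaf 397 7)) (move 461 (leaf 429 7)))))))) (branch (move 461 (branch (move 429 (leaf 429 7)) (move 590 (branch (move 493 (leaf 461 7)) (move 591 (branch (move 559 (leaf 462 4)) (move 623 (leaf 494 4)))))))) (branch (move 591 (branch (move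 559 (leaf 462 4)) (move 590 (branch (move 623 (leaf 494 4)) (move 495 (branch (move 463 (leaf 462 6)) (move 622 (branch (move 527 (leaf 494 6)) (move 621 (branch (move 589 (leaf 493 5)) (move 653 (leaf 525 5)))))))))))) (branch (move 461 (branch (move 429 (leaf 429 7)) (move 590 (branch (move 493 (leaf 461 7)) (move 495 (branch (move 463 (leaf 462 6)) (move 622 (branch (move 527 (leaf 494 6)) (move 623 (branch (move 591 (leaf 494 4)) (move 655 (leaf 526 4)))))))))))) (move 461 (branch (move 429 (leaf 429 7)) (move 590 (branch (move 493 (leaf 461 7)) (move 495 (branch (move 463 (leaf 462 6)) (move 527 (branch (move 622 (leaf 494 6)) (move 430 (branch (move 398 (leaf 398 4)) (move 559 (leaf 430 4))))))))))))))))) (ref 5)))))))))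
theorem a3p70 : a3e70.Valid :=
  pos_of_chk [a3e1, a3e30, a3e65, a3e66, a3e68, a3e69] (forall_cons a3p1 (forall_cons a3p30 (forall_cons a3p65 (forall_cons a3p66 (forall_cons a3p68 (forall_cons a3p69 forall_nil)))))) a3c70 a3e70 (by decide +kernel)

def a3e71 : Pos := ⟨219673525175326239139706567948419895260313287626407871360895778083114828594879019660120542517667552527642048594904294154828562879507017294794859084857162596352, 8702164880894836755519193178249124006606235770934518649691768604226192702761546132528269608751787930986444289275406167977800875410212756093759159385944910044459221199795909610164868612096, 12⟩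
def a3c71 : Cert := (move 558 (branch (move 463 (branch (move 431 (leaf 430 6)) (move 461 (branch (move 429 (leaf 429 7)) (move 590 (branch (move 495 (leaf 462 6)) (move 493 (leaf 461 7)))))))) (branch (move 463 (branch (move 431 (leaf 430 6)) (move 590 (branch (move 495 (leaf 462 6)) (move 589 (branch (move 557 (leaf 461 5)) (move 621 (leaf 493 5)))))))) (branch (ref 0) (move 461 (branch (move 429 (leaf 429 7)) (move 590 (branch (move 493 (leaf 461 7)) (move 589 (branch (move 557 (leaf 461 5)) (move 621 (leaf 493 5))))))))))))
theorem a3p71 : a3e71.Valid :=
  pos_of_chk [a3e32] (forall_cons a3p32 forall_nil) a3c71 a3e71 (by decide +kernel)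

def a3e72 : Pos := ⟨219673525175326239127798042289560671965553166357970805070045718029613809495227084236744948421217640951865734420009991896681029725509952235531828171773940072448, 186877567758720270290401221190055094274904186213287371495582087924042426224993102042811142532456665037269035202317405272145621149494127334674327071343242561590159862922609301432149331845765549522944, 13⟩
def a3c72 : Cert := (move 462 (branch (ref 0) (branch (ref 1) (branch (ref 2) (branch (ref 3) (branch (ref 4) (branch (ref 5) (branch (move 558 (branch (move 557 (branch (move 589 (leaf 461 5)) (move 430 (branch (move 525 (leaf 429 5)) (move 429 (branch (move 397 (leaf 397 7)) (move 461 (leaf 429 7)))))))) (branch (move 461 (branch (move 429 (leaf 429 7)) (move 590 (branch (move 493 (leaf 461 7)) (move 495 (branch (move 463 (leaf 462 6)) (move 622 (branch (move 527 (leaf 494 6)) (move 623 (branch (move 591 (leaf 494 4)) (move 655 (leaf 526 4)))))))))))) (branch (move 557 (branch (move 589 (leaf 461 5)) (move 430 (branch (move 525 (leaf 429 5)) (move 397 (branch (move 429 (leaf 397 7)) (move 398 (branch (move 365 (leaf 365 7)) (move 495 (branch (move 527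 (leaf 398 4)) (move 463 (branch (move 366 (leaf 366 4)) (move 590 (leaf 462 6)))))))))))))) (move 589 (branch (move 557 (leaf 461 5)) (move 590 (branch (move 621 (leaf 493 5)) (move 495 (branch (move 463 (leaf 462 6)) (move 493 (branch (move 461 (leaf 461 7)) (move 622 (branch (move 527 (leaf 494 6)) (move 525 (leaf 493 7)))))))))))))))) (move 558 (branch (move 463 (branch (move 431 (leaf 430 6)) (move 590 (branch (move 495 (leaf 462 6)) (move 589 (branch (move 557 (leaf 461 5)) (move 621 (leaf 493 5)))))))) (branch (move 557 (branch (move 589 (leaf 461 5)) (move 430 (branch (move 525 (leaf 429 5)) (move 431 (branch (move 399 (leaf 398 6)) (move 463 (leaf 430 6)))))))) (branch (move 463 (branch (move 431 (leaf 430 6)) (move 590 (branch (move 495 (leaf 462 6)) (move 493 (branch (move 461 (leaf 461 7)) (move 622 (branch (move 525 (leaf 493 7)) (move 623 (branch (move 591 (leaf 494 4)) (move 655 (leaf 526 4)))))))))))) (move 589 (branch (move 557 (leaf 461 5)) (move 590 (branch (move 621 (leaf 493 5)) (move 493 (branch (move 461 (leaf 461 7)) (move 622 (branch (move 525 (leaf 493 7)) (move 623 (branch (move 591 (leaf 494 4)) (move 655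 (leaf 526 4))))))))))))))))))))))))
theorem a3p72 : a3e72.Valid :=
  pos_of_chk [a3e0, a3e24, a3e31, a3e67, a3e69, a3e71] (forall_cons a3p0 (forall_cons a3p24 (forall_cons a3p31 (forall_cons a3p67 (forall_cons a3p69 (forall_cons a3p71 forall_nil)))))) a3c72 a3e72 (by decide +kernel)

def a3e73 : Pos := ⟨219673525213686285314080954828777738725251593923009579047112883531371130215103652163362228361255962346309923761621945226300874307649216960678922621617633755136, 6308749050385674535270102198585199527507052273717626490019271905115594975294495107232482125449322203232196584868413999002502610138371846037196259606591912804352, 6⟩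
def a3c73 : Cert := (move 495 (branch (move 460 (branch (move 459 (leaf 459 3)) (move 496 (branch (move 461 (leaf 460 3)) (move 464 (branch (move 463 (leaf 460 2)) (move 465 (leaf 461 2)))))))) (branch (move 459 (branch (move 460 (leaf 459 3)) (move 491 (branch (move 458 (leaf 458 3)) (move 490 (branch (move 525 (leaf 490 0)) (move 522 (branch (move 521 (leaf 489 1)) (move 523 (leaf 490 1)))))))))) (move 464 (branch (move 463 (leaf 460 2)) (move 496 (branch (move 465 (leaf 461 2)) (move 497 (branch (move 525 (leaf 493 1)) (move 529 (branch (move 528 (leaf 493 0)) (move 530 (leaf 494 0)))))))))))))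
theorem a3p73 : a3e73.Valid :=
  pos_of_chk [] forall_nil a3c73 a3e73 (by decide +kernel)

def a3e74 : Pos := ⟨219673525213686285314080954828777738725251593923009579047112883531371130215103652163362228361255962346309923761621945226300874307649216960678922621617633755136, 188781936381633477250938530378097567075773736047142628400058025660550920110773206733604516769158952162204199823707731563860263739601774548261161362228846264320, 7⟩
def a3c74 : Cert := (move 491 (branch (move 459 (branch (move 458 (leaf 458 3)) (move 495 (branch (move 460 (leaf 459 3)) (move 464 (branch (move 463 (leaf 460 2)) (move 496 (branch (move 465 (leaf 461 2)) (move 525 (branch (move 524 (leaf 492 1)) (move 497 (leaf 493 1)))))))))))) (branch (move 490 (branch (move 525 (leaf 490 0)) (move 521 (branch (move 522 (leaf 489 1)) (move 489 (branch (move 520 (leaf 488 1)) (move 457 (branch (move 456 (leaf 456 3)) (move 458 (leaf 457 3)))))))))) (branch (move 490 (branch (move 525 (leaf 490 0)) (move 521 (branch (move 522 (leaf 489 1)) (move 489 (branch (move 520 (leaf 488 1)) (move 460 (branch (move 461 (leaf 457 2)) (move 459 (branch (move 488 (leaf 456 2)) (move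 495 (leaf 459 3)))))))))))) (move 490 (branch (move 521 (branch (move 522 (leaf 489 1)) (move 489 (branch (move 520 (leaf 488 1)) (move 460 (branch (move 461 (leaf 457 2)) (move 459 (branch (move 488 (leaf 456 2)) (move 495 (leaf 459 3)))))))))) (branch (move 521 (branch (move 522 (leaf 489 1)) (move 489 (branch (move 520 (leaf 488 1)) (move 457 (branch (move 456 (leaf 456 3)) (move 458 (leaf 457 3)))))))) (move 458 (branch (move 457 (leaf 457 3)) (move 459 (leaf 458 3)))))))))))
theorem a3p74 : a3e74.Valid :=
  pos_of_chk [] forall_nil a3c74 a3e74 (by decide +kernel)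

def a3e75 : Pos := ⟨219673525213686285314080954828777738725251593923009579047112883531371130215103652163362228361255962346309923761621945226300874307649216960678922621617633755136, 1013065324669708823275973388187504420906033887933332945822663257617410062950188307460302208683005931281855204974095987932174441314898343725672153908095547346120415322566742245376, 6⟩
def a3c75 : Cert := (move 491 (branch (move 490 (branch (move 525 (leaf 490 0)) (move 458 (branch (move 457 (leaf 457 3)) (move 459 (leaf 458 3)))))) (branch (move 490 (branch (move 525 (leaf 490 0)) (move 522 (branch (move 521 (leaf 489 1)) (move 523 (leaf 490 1)))))) (move 523 (branch (move 522 (leaf 490 1)) (move 524 (branch (move 495 (leaf 491 1)) (move 459 (branch (move 458 (leaf 458 3)) (move 556 (branch (move 427 (leaf 427 4)) (move 588 (leaf 459 7)))))))))))))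
theorem a3p75 : a3e75.Valid :=
  pos_of_chk [] forall_nil a3c75 a3e75 (by decide +kernel)

def a3e76 : Pos := ⟨943490606425058863274074930561148177558008043829361701017061154108518924129408343236635333457776920246623056104000884986564591383782072465789575523537096632529982586880, 13053247315010596855685250020465961284922653505226643879497914008908974522688879801786056088122617990218933605236510847553410387655458503415704200498566666010160633189020634545421713145856, 10⟩
def a3c76 : Cert := (move 523 (branch (move 524 (branch (move 495 (leaf 491 1)) (move 522 (branch (move 491 (leaf 490 1)) (move 521 (leaf 489 2)))))) (branch (move 524 (branch (move 495 (leaf 491 1)) (move 525 (branch (move 559 (leaf 523 0)) (move 491 (branch (move 490 (leaf 490 0)) (move 461 (branch (move 429 (leaf 429 4)) (move 556 (branch (move 588 (leaf 460 6)) (move 555 (branch (move 554 (leaf 522 1)) (move 460 (branch (move 428 (leaf 427 5)) (move 587 (leaf 459 5)))))))))))))))) (branch (move 522 (branch (move 491 (leaf 490 1)) (move 524 (branch (move 521 (leaf 489 2)) (move 525 (leaf 490 2)))))) (branch (move 524 (branch (move 495 (leaf 491 1)) (move 525 (branch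 (move 559 (leaf 523 0)) (move 522 (leaf 490 2)))))) (move 491 (branch (move 522 (leaf 490 1)) (move 525 (branch (move 490 (leaf 490 0)) (move 557 (branch (move 589 (branch (move 621 (leaf 493 6)) (move 588 (branch (move 620 (leaf 492 5)) (move 461 (branch (move 429 (leaf 429 4)) (move 556 (leaf 460 5)))))))) (branch (move 461 (branch (move 429 (leaf 429 4)) (move 460 (branch (move 428 (leaf 428 7)) (move 495 (branch (move 496 (leaf 460 3)) (move 556 (branch (move 588 (leaf 460 5)) (move 555 (branch (move 554 (leaf 522 2)) (move 587 (leaf 459 6)))))))))))) (move 589 (branch (move 621 (leaf 493 6)) (move 460 (leaf 460 7))))))))))))))))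
theorem a3p76 : a3e76.Valid :=
  pos_of_chk [] forall_nil a3c76 a3e76 (by decide +kernel)

def a3e77 : Pos := ⟨943490606425058863376368387057902610995920221855224174523831218047364698800761198489639514595423000086725246489185389897529800262768324684827614790596015165446499074048, 2026130649575290297869889990221898336733009611211910454141621213344272839834970163334096360640150280748013797102980648564608765548150007559654707082252544958938982550342067027968, 6⟩
def a3c77 : Cert := (move 429 (branch (move 524 (branch (move 523 (leaf 491 1)) (move 460 (branch (move 459 (leaf 459 3)) (move 428 (branch (move 397 (leaf 396 6)) (move 525 (branch (move 396 (leaf 396 4)) (move 557 (leaf 428 4)))))))))) (branch (move 461 (branch (move 397 (leaf 397 4)) (move 525 (leaf 429 4)))) (branch (move 461 (branch (move 397 (leaf 397 4)) (move 460 (branch (move 459 (leaf 459 3)) (move 524 (branch (move 523 (leaf 491 1)) (move 556 (leaf 428 6)))))))) (move 525 (branch (move 461 (leaf 429 4)) (move 524 (branch (move 523 (leaf 491 1)) (move 460 (branch (move 459 (leaf 459 3)) (move 557 (branch (move 428 (leaf 428 4)) (move 589 (leaf 460 7))))))))))))))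
theorem a3p77 : a3e77.Valid :=
  pos_of_chk [] forall_nil a3c77 a3e77 (by decide +kernel)

def a3e78 : Pos := ⟨274591906469157798912724684276665645780631488264572772910269662550392516643946839151775084050634529083776246568736065435388170445386706559230542942988230721536, 147420407267645042806331797206104021591833085566151972544376494944993155970473613005231368199171585988772584463434854802706227063264269994036725613855554820807732494336, 15⟩
def a3c78 : Cert := (move 428 (branch (move 395 (branch (move 427 (leaf 395 7)) (move 396 (branch (move 363 (leaf 363 7)) (move 397 (branch (move 365 (leaf 364 6)) (move 429 (leaf 396 6)))))))) (branch (move 523 (branch (move 555 (leaf 427 5)) (move 396 (branch (move 491 (leaf 395 5)) (move 397 (branch (move 365 (leaf 364 6)) (move 429 (leaf 396 6)))))))) (branch (move 523 (branch (move 555 (leaf 427 5)) (move 396 (branch (move 491 (leaf 395 5)) (move 395 (branch (move 363 (leaf 363 7)) (move 427 (leaf 395 7)))))))) (move 427 (branch (move 395 (leaf 395 7)) (move 426 (branch (move 425 (branch (move 461 (leaf 425 0)) (move 424 (branch (move 459 (leaf 424 0)) (move 456 (branch (move 455 (leaf 423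 1)) (move 457 (leaf 424 1)))))))) (branch (move 429 (branch (move 397 (leaf 396 6)) (move 458 (branch (move 457 (leaf 425 1)) (move 430 (branch (move 459 (leaf 426 1)) (move 394 (branch (move 393 (leaf 393 3)) (move 523 (branch (move 555 (leaf 427 5)) (move 490 (branch (move 491 (leaf 394 4)) (move 521 (branch (move 489 (leaf 393 5)) (move 522 (branch (move 553 (leaf 425 5)) (move 399 (branch (move 398 (leaf 395 2)) (move 431 (branch (move 400 (leaf 396 2)) (move 463 (branch (move 464 (leaf 428 0)) (move 495 (leaf 398 5)))))))))))))))))))))))) (move 429 (branch (move 397 (leaf 396 6)) (move 425 (branch (move 461 (leaf 425 0)) (move 393 (branch (move 392 (leaf 392 3)) (move 394 (leaf 393 3)))))))))))))))))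
theorem a3p78 : a3e78.Valid :=
  pos_of_chk [] forall_nil a3c78 a3e78 (by decide +kernel)

def a3e79 : Pos := ⟨943490606479977244529546444156814775591181145061051565041515081398963188135054474890565536590345877411889144947523129249955136028332485315027798857272959225629773922304, 46719391974488727094026888500392223223784512399555535333466757540322708123483389455330024700887269958875677991307804287088045030561871710467020393862510007043994418204441269424374554974731290804224, 16⟩
def a3c79 : Cert := (move 460 (branch (move 556 (branch (move 459 (branch (move 427 (leaf 427 7)) (move 588 (branch (move 491 (leaf 459 7)) (move 587 (branch (move 555 (leaf 459 5)) (move 619 (leaf 491 5)))))))) (move 557 (branch (move 589 (leaf 460 4)) (move 559 (branch (move 523 (leaf 523 3)) (move 527 (branch (move 528 (leaf 524 2)) (move 591 (branch (move 592 (leaf 556 0)) (move 623 (leaf 494 7)))))))))))) (branch (move 556 (branch (move 557 (branch (move 589 (leaf 460 4)) (move 559 (branch (move 523 (leaf 523 3)) (move 527 (branch (move 528 (leaf 524 2)) (move 591 (branch (move 592 (leaf 556 0)) (move 623 (leaf 494 7)))))))))) (branch (move 459 (branch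 (move 427 (leaf 427 7)) (move 588 (branch (move 491 (leaf 459 7)) (move 429 (branch (move 461 (leaf 428 6)) (move 428 (branch (move 397 (leaf 396 6)) (move 621 (branch (move 589 (leaf 492 4)) (move 620 (branch (move 653 (leaf 524 4)) (move 619 (branch (move 587 (leaf 491 5)) (move 651 (leaf 523 5)))))))))))))))) (move 459 (branch (move 427 (leaf 427 7)) (move 429 (branch (move 461 (leaf 428 6)) (move 428 (branch (move 397 (leaf 396 6)) (move 491 (branch (move 588 (leaf 459 7)) (move 396 (branch (move 364 (leaf 363 5)) (move 523 (leaf 395 5))))))))))))))) (branch (move 556 (branch (move 557 (branch (move 589 (leaf 460 4)) (move 559 (branch (move 523 (leaf 523 3)) (move 527 (branch (move 528 (leaf 524 2)) (move 591 (branch (move 592 (leaf 556 0)) (move 623 (leaf 494 7)))))))))) (branch (move 555 (branch (move 587 (leaf 459 5)) (move 428 (branch (move 523 (leaf 427 5)) (move 429 (branch (move 397 (leaf 396 6)) (move 461 (leaf 428 6)))))))) (move 557 (branch (move 589 (leaf 460 4)) (move 555 (branch (move 527 (leaf 523 2)) (move 587 (leaf 459 5))))))))) (branch (move 556 (branch (move 459 (branch (move 427 (leaf 427 7)) (move 588 (branch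 (move 491 (leaf 459 7)) (move 587 (branch (move 555 (leaf 459 5)) (move 619 (leaf 491 5)))))))) (branch (move 459 (branch (move 427 (leaf 427 7)) (move 588 (branch (move 491 (leaf 459 7)) (move 429 (branch (move 461 (leaf 428 6)) (move 428 (branch (move 397 (leaf 396 6)) (move 621 (branch (move 589 (leaf 492 4)) (move 620 (branch (move 653 (leaf 524 4)) (move 619 (branch (move 587 (leaf 491 5)) (move 651 (leaf 523 5)))))))))))))))) (move 557 (branch (move 589 (leaf 460 4)) (move 527 (branch (move 555 (leaf 523 2)) (move 528 (branch (move 529 (leaf 525 1)) (move 559 (leaf 524 2))))))))))) (ref 0))))))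
theorem a3p79 : a3e79.Valid :=
  pos_of_chk [a3e78] (forall_cons a3p78 forall_nil) a3c79 a3e79 (by decide +kernel)

def a3e80 : Pos := ⟨943490606479977244529546444156814775591181145061051565041515081398963188135054474890565536590345877411889144947523129249955136028332485315027798857272959225629773922304, 2175541222123206674551967631660403707542940143959733907857706543048323597203661684996396413876478531740864318468493656334072782084419477413832183197835492118499309162279513017353580314624, 16⟩
def a3c80 : Cert := (move 460 (branch (ref 0) (branch (move 556 (branch (move 459 (branch (move 427 (leaf 427 7)) (move 588 (branch (move 491 (leaf 459 7)) (move 587 (branch (move 555 (leaf 459 5)) (move 619 (leaf 491 5)))))))) (move 557 (branch (move 589 (leaf 460 4)) (move 523 (branch (move 559 (leaf 523 3)) (move 522 (branch (move 521 (leaf 521 0)) (move 525 (leaf 522 0)))))))))) (branch (move 556 (branch (move 459 (branch (move 427 (leaf 427 7)) (move 429 (branch (move 461 (leaf 428 6)) (move 428 (branch (move 397 (leaf 396 6)) (move 491 (branch (move 588 (leaf 459 7)) (move 396 (branch (move 364 (leaf 363 5)) (move 523 (leaf 395 5))))))))))))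 (branch (move 557 (branch (move 589 (leaf 460 4)) (move 428 (branch (move 525 (leaf 428 4)) (move 429 (branch (move 397 (leaf 396 6)) (move 461 (leaf 428 6)))))))) (move 557 (branch (move 589 (leaf 460 4)) (move 523 (branch (move 559 (leaf 523 3)) (move 522 (branch (move 521 (leaf 521 0)) (move 525 (leaf 522 0))))))))))) (branch (move 556 (branch (move 555 (branch (move 587 (leaf 459 5)) (move 428 (branch (move 523 (leaf 427 5)) (move 429 (branch (move 397 (leaf 396 6)) (move 461 (leaf 428 6)))))))) (branch (move 557 (branch (move 589 (leaf 460 4)) (move 555 (branch (move 587 (leaf 459 5)) (move 525 (branch (move 554 (leaf 522 2)) (move 428 (leaf 428 4)))))))) (move 557 (branch (move 589 (leaf 460 4)) (move 523 (branch (move 559 (leaf 523 3)) (move 522 (branch (move 521 (leaf 521 0)) (move 525 (leaf 522 0))))))))))) (move 556 (branch (move 459 (branch (move 427 (leaf 427 7)) (move 588 (branch (move 491 (leaf 459 7)) (move 587 (branch (move 555 (leaf 459 5)) (move 619 (leaf 491 5)))))))) (move 557 (branch (move 589 (leaf 460 4)) (move 428 (branch (move 525 (leaf 428 4)) (move 429 (branch (move 397 (leaf 396 6)) (move 461 (leaf 428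 6)))))))))))))))
theorem a3p80 : a3e80.Valid :=
  pos_of_chk [a3e78] (forall_cons a3p78 forall_nil) a3c80 a3e80 (by decide +kernel)

def a3e81 : Pos := ⟨54918381293831559784926641987104973815078321906601967840223944520778707148719754915030135629416888131910512148726073538707140719876754323698714771214290649088, 2175541220097076023237116528633658488465764828793026379744148771849905954482772332957098271316635621677366186627211346692958457075540139189922500539267560473816356446319502303026290360320, 9⟩
def a3c81 : Cert := (move 429 (branch (move 556 (branch (move 461 (leaf 428 6)) (move 459 (branch (move 427 (leaf 427 7)) (move 588 (branch (move 491 (leaf 459 7)) (move 587 (branch (move 555 (leaf 459 5)) (move 619 (leaf 491 5)))))))))) (branch (move 428 (branch (move 397 (leaf 396 6)) (move 427 (branch (move 395 (leaf 395 7)) (move 459 (branch (move 556 (leaf 427 7)) (move 458 (branch (move 430 (leaf 426 1)) (move 457 (leaf 425 2)))))))))) (branch (move 461 (branch (move 556 (leaf 428 6)) (move 397 (branch (move 365 (leaf 364 5)) (move 428 (leaf 396 6)))))) (move 428 (branch (move 397 (leaf 396 6)) (move 459 (branch (move 458 (branch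 (move 457 (leaf 425 2)) (move 430 (branch (move 431 (leaf 427 1)) (move 461 (leaf 426 2)))))) (branch (move 395 (branch (move 427 (leaf 395 7)) (move 396 (branch (move 363 (leaf 363 7)) (move 364 (branch (move 491 (leaf 363 5)) (move 332 (branch (move 461 (leaf 332 4)) (move 333 (branch (move 301 (leaf 300 6)) (move 365 (leaf 332 6)))))))))))) (move 427 (branch (move 395 (leaf 395 7)) (move 458 (branch (move 430 (leaf 426 1)) (move 457 (leaf 425 2)))))))))))))))
theorem a3p81 : a3e81.Valid :=
  pos_of_chk [] forall_nil a3c81 a3e81 (by decide +kernel)

def a3e82 : Pos := ⟨943490606479977244529546444156814775591181145061051565041515081398963188135054474890565536590345877411889144947523129249955136028332485315027798857272959225629773922304, 46719391939680067572473672133846525260137186988238438993485509875472417409031486727826659349114510465879057899838673241475928656284256108756735753670996763980329788121119205511279075159948432244736, 16⟩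
def a3c82 : Cert := (move 460 (branch (ref 0) (branch (move 556 (branch (move 459 (branch (move 427 (leaf 427 7)) (move 588 (branch (move 491 (leaf 459 7)) (move 621 (branch (move 589 (leaf 492 4)) (move 620 (branch (move 653 (leaf 524 4)) (move 619 (branch (move 587 (leaf 491 5)) (move 651 (leaf 523 5)))))))))))) (branch (move 555 (branch (move 587 (leaf 459 5)) (move 525 (branch (move 527 (leaf 523 1)) (move 523 (branch (move 559 (leaf 523 0)) (move 554 (leaf 522 1)))))))) (move 459 (branch (move 427 (leaf 427 7)) (move 491 (branch (move 588 (leaf 459 7)) (move 525 (branch (move 527 (leaf 491 3)) (move 523 (branch (move 559 (leaf 523 0)) (move 495 (leaf 491 2))))))))))))) (branch (move 556 (branch (move 555 (branch (move 587 (leaf 459 5)) (move 525 (branch (move 527 (leaf 523 1)) (move 523 (branch (move 559 (leaf 523 0)) (move 554 (leaf 522 1)))))))) (move 429 (branch (move 461 (leaf 428 6)) (move 428 (branch (move 397 (leaf 396 6)) (move 427 (branch (move 395 (leaf 395 7)) (move 459 (leaf 427 7)))))))))) (branch (move 428 (branch (move 395 (branch (move 427 (leaf 395 7)) (move 396 (branch (move 363 (leaf 363 7)) (move 397 (branch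 (move 365 (leaf 364 6)) (move 429 (leaf 396 6)))))))) (branch (move 397 (branch (move 429 (leaf 396 6)) (move 396 (branch (move 365 (leaf 364 6)) (move 491 (branch (move 523 (leaf 395 5)) (move 364 (branch (move 459 (leaf 363 5)) (move 363 (branch (move 331 (leaf 331 7)) (move 395 (leaf 363 7)))))))))))) (branch (move 429 (branch (move 397 (leaf 396 6)) (move 556 (branch (move 461 (leaf 428 6)) (move 459 (branch (move 427 (leaf 427 7)) (move 491 (branch (move 588 (leaf 459 7)) (move 525 (branch (move 527 (leaf 491 3)) (move 523 (branch (move 559 (leaf 523 0)) (move 495 (leaf 491 2)))))))))))))) (move 395 (branch (move 427 (leaf 395 7)) (move 396 (branch (move 363 (leaf 363 7)) (move 523 (branch (move 491 (leaf 395 5)) (move 525 (branch (move 559 (leaf 523 0)) (move 495 (leaf 491 2)))))))))))))) (branch (move 523 (branch (move 555 (branch (move 428 (leaf 427 5)) (move 587 (branch (move 556 (leaf 459 5)) (move 491 (leaf 459 6)))))) (move 525 (branch (move 559 (leaf 523 0)) (move 495 (leaf 491 2)))))) (ref 1)))))))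
theorem a3p82 : a3e82.Valid :=
  pos_of_chk [a3e78, a3e81] (forall_cons a3p78 (forall_cons a3p81 forall_nil)) a3c82 a3e82 (by decide +kernel)

def a3e83 : Pos := ⟨1179363257811650053869317366340783538983928049371525925457057170094268980254949968650721372677204601962013277435080135136180805671021755129052936262455674556583921057792, 2175541222503106170890331299936344023574373804231498949977514970448825134273865552569426999733434500683854266577255855872987630472742801406745218718902075259490293246625100136261940674560, 6⟩
def a3c83 : Cert := (move 587 (branch (move 460 (branch (move 555 (leaf 459 5)) (move 427 (branch (move 459 (leaf 427 7)) (move 428 (branch (move 395 (leaf 395 7)) (move 429 (branch (move 397 (leaf 396 6)) (move 461 (leaf 428 6)))))))))) (branch (move 588 (branch (move 619 (leaf 491 5)) (move 557 (branch (move 559 (leaf 555 1)) (move 589 (branch (move 586 (leaf 554 2)) (move 460 (leaf 460 4)))))))) (move 588 (branch (move 619 (leaf 491 5)) (move 557 (branch (move 559 (leaf 555 1)) (move 586 (branch (move 555 (leaf 554 1)) (move 585 (leaf 553 2)))))))))))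
theorem a3p83 : a3e83.Valid :=
  pos_of_chk [] forall_nil a3c83 a3e83 (by decide +kernel)

def a3e84 : Pos := ⟨943490606479977244529546444156814775591181145061051565041515081398963188135054474890565536590345877411889144947523129249955136028332485315027798857272959225629773922304, 40131652146312097952937369676690042168087022915841534482628565469877579403738511633123704614577470357728538403903740223795103139614369632893696758344406872682490826178474442663020516194434555515266771451904, 10⟩
def a3c84 : Cert := (move 556 (branch (move 588 (branch (move 587 (branch (move 619 (leaf 491 5)) (move 557 (branch (move 559 (leaf 555 1)) (move 586 (branch (move 555 (leaf 554 1)) (move 585 (leaf 553 2)))))))) (branch (move 621 (branch (move 589 (leaf 492 4)) (move 620 (branch (move 653 (leaf 524 4)) (move 651 (branch (move 619 (leaf 523 5)) (move 652 (branch (move 683 (leaf 555 5)) (move 525 (branch (move 557 (leaf 524 6)) (move 527 (branch (move 555 (leaf 523 1)) (move 491 (leaf 491 3)))))))))))))) (branch (move 621 (branch (move 589 (leaf 492 4)) (move 620 (branch (move 653 (leaf 524 4)) (move 491 (branch (move 459 (leaf 459 7)) (move 525 (branch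 (move 527 (leaf 491 3)) (move 557 (branch (move 652 (leaf 524 6)) (move 587 (branch (move 559 (leaf 555 1)) (move 586 (branch (move 585 (leaf 585 0)) (move 555 (leaf 554 1)))))))))))))))) (move 619 (branch (move 587 (leaf 491 5)) (move 620 (branch (move 651 (leaf 523 5)) (move 621 (branch (move 589 (leaf 492 4)) (move 653 (leaf 524 4)))))))))))) (branch (ref 0) (branch (move 588 (branch (move 589 (branch (move 621 (leaf 492 4)) (move 460 (branch (move 557 (leaf 460 4)) (move 459 (branch (move 427 (leaf 427 7)) (move 491 (leaf 459 7)))))))) (branch (move 619 (branch (move 587 (leaf 491 5)) (move 620 (branch (move 651 (leaf 523 5)) (move 621 (branch (move 589 (leaf 492 4)) (move 653 (leaf 524 4)))))))) (move 587 (branch (move 619 (leaf 491 5)) (move 557 (branch (move 559 (leaf 555 1)) (move 459 (branch (move 491 (leaf 459 7)) (move 460 (branch (move 427 (leaf 427 7)) (move 428 (branch (move 525 (leaf 428 4)) (move 429 (branch (move 397 (leaf 396 6)) (move 461 (leaf 428 6))))))))))))))))) (branch (move 527 (branch (move 557 (branch (move 555 (leaf 523 2)) (move 528 (branch (move 529 (leaf 525 1)) (move 559 (leaf 524 2)))))) (branch (move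 525 (branch (move 491 (leaf 491 3)) (move 557 (branch (move 528 (leaf 524 1)) (move 589 (branch (move 460 (leaf 460 4)) (move 621 (leaf 493 6)))))))) (move 525 (branch (move 555 (leaf 523 1)) (move 491 (leaf 491 3))))))) (move 460 (branch (move 459 (branch (move 427 (leaf 427 7)) (move 588 (branch (move 491 (leaf 459 7)) (move 587 (branch (move 555 (leaf 459 5)) (move 619 (leaf 491 5)))))))) (branch (move 459 (branch (move 427 (leaf 427 7)) (move 429 (branch (move 461 (leaf 428 6)) (move 428 (branch (move 397 (leaf 396 6)) (move 491 (branch (move 588 (leaf 459 7)) (move 396 (branch (move 364 (leaf 363 5)) (move 523 (leaf 395 5)))))))))))) (move 555 (branch (move 587 (leaf 459 5)) (move 428 (branch (move 523 (leaf 427 5)) (move 429 (branch (move 397 (leaf 396 6)) (move 461 (leaf 428 6))))))))))))))))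
theorem a3p84 : a3e84.Valid :=
  pos_of_chk [a3e83] (forall_cons a3p83 forall_nil) a3c84 a3e84 (by decide +kernel)

def a3e85 : Pos := ⟨943490606479977244478399715911414690286939861871810358605239316002252815812753302038976429877366736015950527648874955338196107153376242494008045488559257687442321309696, 471745303651876482158711816147941371638475023482971045672271782482662432128497268943968983531192500533471260544886685516485277424476107163826594229204545023368021147648, 12⟩
def a3c85 : Cert := (move 428 (branch (move 395 (branch (move 427 (leaf 395 7)) (move 396 (branch (move 363 (leaf 363 7)) (move 397 (branch (move 365 (leaf 364 6)) (move 429 (leaf 396 6)))))))) (branch (move 525 (branch (move 557 (leaf 428 4)) (move 527 (branch (move 491 (leaf 491 3)) (move 495 (branch (move 496 (leaf 492 2)) (move 431 (branch (move 463 (leaf 430 5)) (move 429 (branch (move 397 (leaf 396 6)) (move 430 (branch (move 459 (leaf 427 1)) (move 432 (branch (move 461 (leaf 428 1)) (move 400 (branch (move 399 (leaf 396 2)) (move 401 (leaf 397 2)))))))))))))))))) (branch (move 525 (branch (move 557 (leaf 428 4)) (move 527 (branch (move 491 (leaf 491 3))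 (move 495 (branch (move 496 (leaf 492 2)) (move 395 (branch (move 427 (leaf 395 7)) (move 396 (branch (move 363 (leaf 363 7)) (move 431 (branch (move 463 (leaf 430 5)) (move 397 (branch (move 365 (leaf 364 6)) (move 398 (branch (move 430 (leaf 395 0)) (move 399 (branch (move 432 (leaf 396 0)) (move 367 (branch (move 366 (leaf 363 2)) (move 368 (leaf 364 2)))))))))))))))))))))) (move 396 (branch (move 525 (branch (move 557 (leaf 428 4)) (move 491 (branch (move 527 (leaf 491 3)) (move 364 (branch (move 459 (leaf 363 5)) (move 490 (branch (move 489 (leaf 489 0)) (move 333 (branch (move 365 (leaf 332 6)) (move 332 (branch (move 301 (leaf 300 6)) (move 331 (branch (move 299 (leaf 299 7)) (move 363 (leaf 331 7)))))))))))))))) (branch (move 395 (branch (move 363 (leaf 363 7)) (move 427 (leaf 395 7)))) (move 364 (branch (move 525 (branch (move 557 (leaf 428 4)) (move 491 (branch (move 527 (leaf 491 3)) (move 459 (leaf 363 5)))))) (branch (move 525 (branch (move 557 (leaf 428 4)) (move 527 (branch (move 491 (leaf 491 3)) (move 495 (branch (move 496 (leaf 492 2)) (move 431 (branch (move 463 (leaf 430 5)) (move 395 (branch (move 427 (leaf 395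 7)) (move 429 (branch (move 430 (leaf 395 3)) (move 332 (branch (move 461 (leaf 332 4)) (move 333 (branch (move 301 (leaf 300 6)) (move 365 (leaf 332 6)))))))))))))))))) (move 427 (branch (move 395 (leaf 395 7)) (move 332 (branch (move 459 (leaf 331 5)) (move 333 (branch (move 301 (leaf 300 6)) (move 365 (leaf 332 6))))))))))))))))))
theorem a3p85 : a3e85.Valid :=
  pos_of_chk [] forall_nil a3c85 a3e85 (by decide +kernel)

def a3e86 : Pos := ⟨943490606479977244478399715908437558872225056048120328288130049429540300799378047264063446021522837491838049754930876794472531588839359205508779223743499959171515678720, 46719391939680067572473672134229818321496153499899298656110903194140897831251104775260376102832846701455082461956293882284259887268140295875084453011799443400977770402911011895636302829652071677952, 14⟩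
def a3c86 : Cert := (move 460 (branch (ref 0) (branch (move 556 (branch (move 459 (branch (move 427 (leaf 427 7)) (move 588 (branch (move 491 (leaf 459 7)) (move 587 (branch (move 555 (leaf 459 5)) (move 619 (leaf 491 5)))))))) (branch (move 557 (branch (move 589 (leaf 460 4)) (move 527 (branch (move 555 (leaf 523 2)) (move 528 (branch (move 529 (leaf 525 1)) (move 559 (leaf 524 2)))))))) (move 459 (branch (move 427 (leaf 427 7)) (move 588 (branch (move 491 (leaf 459 7)) (move 621 (branch (move 589 (leaf 492 4)) (move 620 (branch (move 653 (leaf 524 4)) (move 619 (branch (move 587 (leaf 491 5)) (move 651 (leaf 523 5))))))))))))))) (branch (move 429 (branch (move 461 (branch (move 556 (leaf 428 6)) (move 397 (branch (move 365 (leaf 364 5)) (move 428 (leaf 396 6)))))) (branch (move 428 (branch (move 397 (leaf 396 6)) (move 525 (branch (move 557 (leaf 428 4)) (move 527 (branch (move 491 (leaf 491 3)) (move 495 (branch (move 496 (leaf 492 2)) (move 431 (branch (move 463 (leaf 430 5)) (move 430 (branch (move 459 (leaf 427 1)) (move 432 (branch (move 461 (leaf 428 1)) (move 400 (branch (move 399 (leaf 396 2)) (move 401 (leaf 397 2))))))))))))))))))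 (branch (move 556 (branch (move 461 (leaf 428 6)) (move 557 (branch (move 589 (leaf 460 4)) (move 555 (branch (move 527 (leaf 523 2)) (move 587 (leaf 459 5)))))))) (move 428 (branch (move 397 (leaf 396 6)) (move 557 (branch (move 525 (leaf 428 4)) (move 556 (branch (move 589 (leaf 460 4)) (move 555 (branch (move 527 (leaf 523 2)) (move 587 (leaf 459 5)))))))))))))) (branch (move 428 (branch (move 395 (branch (move 427 (leaf 395 7)) (move 396 (branch (move 363 (leaf 363 7)) (move 397 (branch (move 365 (leaf 364 6)) (move 429 (leaf 396 6)))))))) (branch (move 429 (branch (move 397 (leaf 396 6)) (move 556 (branch (move 461 (leaf 428 6)) (move 557 (branch (move 589 (leaf 460 4)) (move 555 (branch (move 527 (leaf 523 2)) (move 587 (leaf 459 5)))))))))) (branch (move 525 (branch (move 557 (leaf 428 4)) (move 527 (branch (move 491 (leaf 491 3)) (move 495 (branch (move 496 (leaf 492 2)) (move 556 (branch (move 555 (leaf 523 1)) (move 431 (branch (move 463 (leaf 430 5)) (move 395 (branch (move 427 (leaf 395 7)) (move 396 (branch (move 363 (leaf 363 7)) (move 397 (branch (move 365 (leaf 364 6)) (move 398 (branch (move 430 (leaf 395 0)) (move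 399 (branch (move 432 (leaf 396 0)) (move 367 (branch (move 366 (leaf 363 2)) (move 368 (leaf 364 2)))))))))))))))))))))))) (move 525 (branch (move 557 (leaf 428 4)) (move 527 (branch (move 491 (leaf 491 3)) (move 495 (branch (move 496 (leaf 492 2)) (move 556 (branch (move 555 (leaf 523 1)) (move 431 (branch (move 463 (leaf 430 5)) (move 395 (branch (move 427 (leaf 395 7)) (move 396 (branch (move 363 (leaf 363 7)) (move 429 (branch (move 430 (leaf 395 3)) (move 461 (leaf 428 6)))))))))))))))))))))) (branch (move 556 (branch (move 557 (branch (move 589 (leaf 460 4)) (move 527 (branch (move 555 (leaf 523 2)) (move 528 (branch (move 529 (leaf 525 1)) (move 559 (leaf 524 2)))))))) (move 429 (branch (move 461 (leaf 428 6)) (move 428 (branch (move 397 (leaf 396 6)) (move 427 (branch (move 395 (leaf 395 7)) (move 459 (leaf 427 7)))))))))) (ref 1)))))))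
theorem a3p86 : a3e86.Valid :=
  pos_of_chk [a3e81, a3e85] (forall_cons a3p81 (forall_cons a3p85 forall_nil)) a3c86 a3e86 (by decide +kernel)

def a3e87 : Pos := ⟨943490606425058863248501566436959569198529999322896082640368638123807480461570129423384288173365400286597508507704758758823289164035509411030065706772366999300853465088, 40131652146312097987746029198243258587143869932171381253410261054036519889926444697843807222452534906477738060503845892299593600323872282613568444697384587856468580173110736936173469169873296862227332071424, 17⟩
def a3c87 : Cert := (move 524 (branch (ref 0) (branch (move 525 (branch (move 523 (branch (move 559 (leaf 523 0)) (move 495 (leaf 491 2)))) (branch (move 523 (branch (move 559 (leaf 523 0)) (move 491 (branch (move 490 (leaf 490 3)) (move 527 (leaf 491 3)))))) (branch (move 523 (branch (move 495 (leaf 491 2)) (move 491 (branch (move 490 (leaf 490 3)) (move 527 (leaf 491 3)))))) (move 527 (branch (move 491 (leaf 491 3)) (move 496 (branch (move 495 (leaf 492 2)) (move 528 (branch (move 497 (leaf 493 2)) (move 529 (branch (move 557 (leaf 525 1)) (move 530 (branch (move 559 (leaf 526 1)) (move 562 (branch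 (move 561 (leaf 526 0)) (move 563 (leaf 527 0)))))))))))))))))) (branch (ref 1) (branch (ref 2) (branch (move 556 (branch (move 523 (branch (move 557 (branch (move 559 (leaf 523 3)) (move 522 (branch (move 521 (leaf 521 0)) (move 555 (leaf 522 3)))))) (branch (move 525 (branch (move 559 (leaf 523 0)) (move 495 (leaf 491 2)))) (move 525 (branch (move 495 (leaf 491 2)) (move 555 (branch (move 554 (leaf 522 1)) (move 557 (branch (move 522 (leaf 522 0)) (move 587 (branch (move 586 (leaf 554 1)) (move 619 (leaf 491 6))))))))))))) (branch (ref 3) (branch (move 460 (branch (move 555 (branch (move 587 (leaf 459 5)) (move 525 (branch (move 527 (leaf 523 1)) (move 523 (branch (move 559 (leaf 523 0)) (move 554 (leaf 522 1)))))))) (move 429 (branch (move 461 (leaf 428 6)) (move 428 (branch (move 397 (leaf 396 6)) (move 427 (branch (move 395 (leaf 395 7)) (move 459 (leaf 427 7)))))))))) (branch (move 460 (branch (move 557 (branch (move 589 (leaf 460 4)) (move 559 (branch (move 523 (leaf 523 3)) (move 527 (branch (move 528 (leaf 524 2)) (move 591 (branch (move 592 (leaf 556 0)) (move 623 (leaf 494 7)))))))))) (move 429 (branch (move 461 (leaf 428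 6)) (move 428 (branch (move 397 (leaf 396 6)) (move 427 (branch (move 395 (leaf 395 7)) (move 459 (leaf 427 7)))))))))) (move 460 (branch (move 555 (branch (move 587 (leaf 459 5)) (move 428 (branch (move 523 (leaf 427 5)) (move 429 (branch (move 397 (leaf 396 6)) (move 461 (leaf 428 6)))))))) (branch (move 557 (branch (move 589 (leaf 460 4)) (move 555 (branch (move 527 (leaf 523 2)) (move 587 (leaf 459 5)))))) (move 557 (branch (move 589 (leaf 460 4)) (move 428 (branch (move 525 (leaf 428 4)) (move 429 (branch (move 397 (leaf 396 6)) (move 461 (leaf 428 6)))))))))))))))) (branch (ref 4) (branch (move 525 (branch (move 523 (branch (move 495 (leaf 491 2)) (move 491 (branch (move 490 (leaf 490 3)) (move 527 (leaf 491 3)))))) (branch (move 523 (branch (move 495 (leaf 491 2)) (move 557 (branch (move 522 (leaf 522 0)) (move 589 (branch (move 621 (leaf 493 6)) (move 460 (branch (move 428 (leaf 428 4)) (move 556 (leaf 460 4)))))))))) (move 527 (branch (move 491 (leaf 491 3)) (move 556 (branch (move 555 (leaf 523 1)) (move 557 (branch (move 528 (leaf 524 1)) (move 589 (branch (move 460 (leaf 460 4)) (move 621 (leaf 493 6))))))))))))) (ref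 5)))))))))
theorem a3p87 : a3e87.Valid :=
  pos_of_chk [a3e79, a3e80, a3e82, a3e83, a3e84, a3e86] (forall_cons a3p79 (forall_cons a3p80 (forall_cons a3p82 (forall_cons a3p83 (forall_cons a3p84 (forall_cons a3p86 forall_nil)))))) a3c87 a3e87 (by decide +kernel)

def a3e88 : Pos := ⟨943490606534895625836164686000858590343310335305672665819354040658830339476377034170997830291737874497206328983637625968828285112376024273785041824538281085187823501312, 13053247315263863186793709063172295924636626615460040409247819672839419311841945683173280195871356280642877276481739556449892337729426437600944347323089289382252387595087951870277659394048, 9⟩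
def a3c88 : Cert := (move 557 (branch (move 589 (branch (move 621 (leaf 493 6)) (move 491 (branch (move 490 (leaf 490 0)) (move 588 (branch (move 620 (leaf 492 5)) (move 587 (branch (move 586 (leaf 554 2)) (move 556 (branch (move 559 (leaf 555 1)) (move 555 (branch (move 554 (leaf 522 2)) (move 523 (branch (move 522 (leaf 490 1)) (move 459 (leaf 459 4)))))))))))))))) (branch (move 589 (branch (move 621 (leaf 493 6)) (move 460 (leaf 460 7)))) (move 461 (branch (move 429 (leaf 429 4)) (move 460 (branch (move 428 (leaf 428 7)) (move 491 (branch (move 490 (leaf 490 0)) (move 459 (branch (move 458 (leaf 458 0)) (move 556 (branch (move 588 (leaf 460 5)) (move 555 (branch (move 554 (leaf 522 2)) (move 523 (branch (move 522 (leaf 490 1)) (move 587 (leaf 459 6)))))))))))))))))))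
theorem a3p88 : a3e88.Valid :=
  pos_of_chk [] forall_nil a3c88 a3e88 (by decide +kernel)

def a3e89 : Pos := ⟨943490606534895625836164686000858590343310335305672665819354040658830339476377034170997830291737874497206328983637625968828285112376024273785041824538281085187823501312, 13053247315010596853798268807897300262302401810253324535773423242015577893781189993638919503698739170734349183018049266382807779955367965846188911953552426080874122873133548404372622278656, 8⟩
def a3c89 : Cert := (move 557 (branch (move 589 (branch (move 621 (leaf 493 6)) (move 588 (branch (move 620 (leaf 492 5)) (move 461 (branch (move 429 (leaf 429 4)) (move 556 (leaf 460 5)))))))) (branch (move 589 (branch (move 621 (leaf 493 6)) (move 460 (leaf 460 7)))) (move 461 (branch (move 429 (leaf 429 4)) (move 460 (branch (move 428 (leaf 428 7)) (move 556 (branch (move 588 (leaf 460 5)) (move 459 (branch (move 458 (leaf 458 0)) (move 524 (branch (move 427 (leaf 427 7)) (move 555 (branch (move 554 (leaf 522 2)) (move 587 (leaf 459 5)))))))))))))))))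
theorem a3p89 : a3e89.Valid :=
  pos_of_chk [] forall_nil a3c89 a3e89 (by decide +kernel)

def a3e90 : Pos := ⟨943490606534895625810591321876669981983832290799207047442661524674118895808538820357746785007326354537180781387341499741086982892629461219025532007773551451958694379520, 15228788533967974388580491880023144244982804682541948457453862329926465751123101054829789350733374507033239499891244670433755895944819869724645280071149631763656686081765962288241590665216, 10⟩
def a3c90 : Cert := (move 557 (branch (move 589 (branch (move 621 (leaf 493 6)) (move 493 (branch (move 460 (leaf 460 7)) (move 588 (branch (move 620 (leaf 492 5)) (move 461 (branch (move 429 (leaf 429 4)) (move 556 (leaf 460 5)))))))))) (branch (move 589 (branch (move 621 (leaf 493 6)) (move 460 (branch (move 493 (leaf 460 7)) (move 524 (branch (move 428 (leaf 428 4)) (move 523 (branch (move 522 (leaf 522 0)) (move 559 (leaf 523 0)))))))))) (branch (move 556 (branch (move 527 (branch (move 528 (leaf 524 1)) (move 555 (leaf 523 2)))) (move 589 (branch (move 621 (leaf 493 6)) (move 524 (branch (move 460 (leaf 460 4)) (move 523 (branch (move 522 (leaf 522 0)) (move 559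 (leaf 523 0)))))))))) (branch (move 556 (branch (move 527 (branch (move 528 (leaf 524 1)) (move 555 (leaf 523 2)))) (branch (move 555 (branch (move 554 (leaf 522 2)) (move 523 (branch (move 522 (leaf 522 3)) (move 524 (branch (move 559 (leaf 523 0)) (move 460 (branch (move 428 (leaf 428 4)) (move 587 (leaf 459 5)))))))))) (move 524 (branch (move 527 (branch (move 528 (leaf 524 1)) (move 460 (branch (move 428 (leaf 428 4)) (move 461 (branch (move 429 (leaf 428 6)) (move 588 (branch (move 493 (leaf 460 5)) (move 587 (branch (move 559 (leaf 555 1)) (move 619 (leaf 491 5)))))))))))) (branch (move 460 (branch (move 428 (leaf 428 4)) (move 461 (branch (move 429 (leaf 428 6)) (move 493 (branch (move 588 (leaf 460 5)) (move 522 (branch (move 523 (leaf 522 0)) (move 528 (branch (move 527 (leaf 524 1)) (move 459 (branch (move 458 (leaf 458 0)) (move 427 (leaf 427 7)))))))))))))) (move 523 (branch (move 522 (leaf 522 0)) (move 559 (leaf 523 0)))))))))) (move 556 (branch (move 527 (branch (move 528 (leaf 524 1)) (move 555 (leaf 523 2)))) (branch (move 589 (branch (move 621 (leaf 493 6)) (move 555 (branch (move 554 (leaf 522 2)) (move 523 (branch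 (move 522 (leaf 522 3)) (move 524 (branch (move 559 (leaf 523 0)) (move 587 (branch (move 586 (leaf 554 1)) (move 619 (leaf 491 6)))))))))))) (move 588 (branch (move 587 (branch (move 559 (leaf 555 1)) (move 586 (branch (move 585 (leaf 553 2)) (move 589 (leaf 554 2)))))) (branch (move 493 (branch (move 461 (leaf 460 5)) (move 527 (branch (move 528 (leaf 524 1)) (move 524 (branch (move 620 (leaf 492 6)) (move 523 (branch (move 522 (leaf 522 0)) (move 559 (leaf 523 0)))))))))) (move 589 (branch (move 621 (leaf 493 6)) (move 493 (branch (move 461 (leaf 460 5)) (move 620 (leaf 492 5)))))))))))))))))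
theorem a3p90 : a3e90.Valid :=
  pos_of_chk [] forall_nil a3c90 a3e90 (by decide +kernel)

def a3e91 : Pos := ⟨943490606425058863248501566436959569198529999322896082640368638123807480461570129423384288173365400286597508507704758758823289164035509411030065706772366999300853465088, 15228788533967974388580491880132981007556082784785991386396436265874355423965196917123412022685022416510899329037135664666850345897836165931545793520882704908109437927601715955437175570432, 11⟩
def a3c91 : Cert := (move 525 (branch (move 524 (branch (move 523 (branch (move 559 (leaf 523 0)) (move 491 (branch (move 490 (leaf 490 3)) (move 527 (leaf 491 3)))))) (branch (move 523 (branch (move 559 (leaf 523 0)) (move 557 (branch (move 522 (leaf 522 0)) (move 589 (branch (move 621 (leaf 493 6)) (move 460 (branch (move 428 (leaf 428 4)) (move 556 (leaf 460 4)))))))))) (move 527 (branch (move 491 (leaf 491 3)) (move 556 (branch (move 555 (leaf 523 1)) (move 557 (branch (move 528 (leaf 524 1)) (move 589 (branch (move 460 (leaf 460 4)) (move 621 (leaf 493 6))))))))))))) (branch (move 493 (branch (move 527 (branch (move 491 (leaf 491 0)) (move 528 (leaf 492 3))))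 (branch (move 557 (branch (move 589 (branch (move 621 (leaf 493 6)) (move 460 (leaf 460 7)))) (move 527 (branch (move 528 (leaf 492 3)) (move 461 (branch (move 429 (leaf 429 4)) (move 556 (branch (move 555 (leaf 523 2)) (move 588 (leaf 460 5)))))))))) (ref 0)))) (branch (move 493 (branch (move 491 (branch (move 490 (leaf 490 0)) (move 523 (branch (move 522 (leaf 490 1)) (move 524 (branch (move 559 (leaf 523 0)) (move 555 (branch (move 554 (leaf 522 1)) (move 460 (branch (move 428 (leaf 427 5)) (move 587 (leaf 459 6)))))))))))) (branch (ref 0) (branch (move 491 (branch (move 490 (leaf 490 0)) (move 523 (branch (move 522 (leaf 490 1)) (move 524 (branch (move 559 (leaf 523 0)) (move 461 (branch (move 429 (leaf 429 4)) (move 556 (branch (move 588 (leaf 460 6)) (move 459 (branch (move 458 (leaf 458 3)) (move 427 (leaf 427 4)))))))))))))) (ref 1))))) (branch (move 493 (branch (move 527 (branch (move 491 (leaf 491 0)) (move 528 (leaf 492 3)))) (branch (move 527 (branch (move 528 (leaf 492 3)) (move 524 (branch (move 523 (branch (move 559 (leaf 523 0)) (move 522 (leaf 490 2)))) (move 556 (branch (move 555 (leaf 523 1)) (move 461 (branch (move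 429 (leaf 429 4)) (move 588 (leaf 460 6)))))))))) (move 491 (branch (move 490 (leaf 490 0)) (move 523 (branch (move 522 (leaf 490 1)) (move 524 (branch (move 559 (leaf 523 0)) (move 555 (branch (move 554 (leaf 522 1)) (move 460 (branch (move 428 (leaf 427 5)) (move 587 (leaf 459 6))))))))))))))) (branch (move 493 (branch (move 527 (branch (move 491 (leaf 491 0)) (move 528 (leaf 492 3)))) (ref 1))) (branch (move 524 (branch (move 523 (branch (move 559 (leaf 523 0)) (move 491 (branch (move 490 (leaf 490 3)) (move 527 (leaf 491 3)))))) (branch (move 491 (branch (move 527 (leaf 491 3)) (move 490 (branch (move 489 (leaf 489 0)) (move 493 (leaf 490 0)))))) (move 523 (branch (move 559 (leaf 523 0)) (move 522 (branch (move 557 (leaf 522 0)) (move 493 (leaf 490 2))))))))) (ref 2))))))))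
theorem a3p91 : a3e91.Valid :=
  pos_of_chk [a3e88, a3e89, a3e90] (forall_cons a3p88 (forall_cons a3p89 (forall_cons a3p90 forall_nil))) a3c91 a3e91 (by decide +kernel)

def a3e92 : Pos := ⟨943490606425058863274074930561148177558008043829361701017061154108518924129408343236635333457776920246623056104000884986564591383782072465789575523537096632529982586880, 1013065325347842703055705461267572984519067023555697711210172130634129186108425530168107050462766381068840092129204182943877219492290510073066849122183067116508304263108863459328, 8⟩
def a3c92 : Cert := (move 495 (branch (move 527 (branch (move 528 (leaf 492 0)) (move 463 (branch (move 464 (leaf 460 2)) (move 431 (leaf 430 5)))))) (branch (move 464 (branch (move 463 (leaf 460 2)) (move 496 (branch (move 465 (leaf 461 2)) (move 497 (branch (move 525 (leaf 493 1)) (move 529 (branch (move 528 (leaf 493 0)) (move 530 (leaf 494 0)))))))))) (move 524 (branch (move 523 (leaf 491 1)) (move 525 (branch (move 496 (leaf 492 1)) (move 461 (branch (move 429 (leaf 429 4)) (move 556 (branch (move 588 (leaf 460 6)) (move 555 (branch (move 527 (leaf 523 1)) (move 554 (branch (move 553 (leaf 521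 2)) (move 557 (leaf 522 2)))))))))))))))))
theorem a3p92 : a3e92.Valid :=
  pos_of_chk [] forall_nil a3c92 a3e92 (by decide +kernel)

def a3e93 : Pos := ⟨943490606425058863274074930561148177558008043829361701017061154108518924129408343236635333457776920246623056104000884986564591383782072465789575523537096632529982586880, 2026130649339417647636584806758758610348796155665725428678871372279711497332022912794937763088057899087050574923284710441717740128479181770525434338143608004514198917879695409152, 7⟩
def a3c93 : Cert := (move 495 (branch (move 527 (branch (move 528 (leaf 492 0)) (move 463 (branch (move 464 (leaf 460 2)) (move 431 (leaf 430 5)))))) (branch (move 524 (branch (move 523 (leaf 491 1)) (move 496 (branch (move 525 (leaf 492 1)) (move 464 (branch (move 463 (leaf 460 2)) (move 465 (leaf 461 2)))))))) (move 527 (branch (move 528 (leaf 492 0)) (move 524 (branch (move 523 (leaf 491 1)) (move 525 (branch (move 496 (leaf 492 1)) (move 460 (branch (move 459 (leaf 459 3)) (move 557 (branch (move 428 (leaf 428 4)) (move 589 (leaf 460 7)))))))))))))))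
theorem a3p93 : a3e93.Valid :=
  pos_of_chk [] forall_nil a3c93 a3e93 (by decide +kernel)

def a3e94 : Pos := ⟨943490606425058863274074930561148177558008043829361701017061154108518924129408343236635333457776920246623056104000884986564591383782072465789575523537096632529982586880, 80263304217873168846332563878748370726095064151733979036800665229181001845829296367683556874581794989171165667848100823414640259048146030122829515742315552640719260968065017325308852838100808113402549370880, 10⟩
def a3c94 : Cert := (move 556 (branch (move 524 (branch (move 555 (branch (move 557 (branch (move 527 (leaf 523 2)) (move 523 (branch (move 522 (leaf 522 3)) (move 559 (leaf 523 3)))))) (move 460 (branch (move 587 (leaf 459 5)) (move 461 (branch (move 429 (leaf 428 6)) (move 459 (branch (move 458 (leaf 458 0)) (move 427 (leaf 427 7)))))))))) (branch (move 588 (branch (move 461 (leaf 460 6)) (move 587 (branch (move 619 (leaf 491 5)) (move 557 (branch (move 559 (leaf 555 1)) (move 586 (branch (move 555 (leaf 554 1)) (move 585 (leaf 553 2)))))))))) (branch (move 461 (branch (move 588 (leaf 460 6)) (move 429 (branch (move 397 (leaf 397 4)) (move 460 (leaf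 428 6)))))) (move 555 (branch (move 557 (branch (move 527 (leaf 523 2)) (move 587 (branch (move 586 (leaf 554 1)) (move 460 (leaf 459 5)))))) (branch (move 557 (branch (move 527 (leaf 523 2)) (move 523 (branch (move 522 (leaf 522 3)) (move 559 (leaf 523 3)))))) (move 587 (branch (move 460 (leaf 459 5)) (move 619 (branch (move 588 (leaf 491 5)) (move 523 (leaf 491 6))))))))))))) (branch (move 461 (branch (move 429 (branch (move 397 (leaf 397 4)) (move 525 (leaf 429 4)))) (branch (move 524 (branch (move 588 (leaf 460 6)) (move 429 (branch (move 397 (leaf 397 4)) (move 460 (leaf 428 6)))))) (move 524 (branch (move 588 (leaf 460 6)) (move 460 (branch (move 459 (branch (move 458 (leaf 458 0)) (move 427 (leaf 427 7)))) (move 555 (branch (move 587 (leaf 459 5)) (move 525 (branch (move 527 (leaf 523 1)) (move 523 (branch (move 559 (leaf 523 0)) (move 554 (leaf 522 1))))))))))))))) (branch (move 527 (branch (move 528 (branch (move 525 (leaf 492 3)) (move 529 (leaf 493 3)))) (branch (move 557 (branch (move 555 (leaf 523 2)) (move 528 (branch (move 529 (leaf 525 1)) (move 559 (leaf 524 2)))))) (move 555 (branch (move 557 (leaf 523 2)) (move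 524 (branch (move 525 (leaf 523 1)) (move 587 (branch (move 460 (leaf 459 5)) (move 619 (branch (move 588 (leaf 491 5)) (move 523 (leaf 491 6))))))))))))) (branch (move 461 (branch (move 429 (branch (move 397 (leaf 397 4)) (move 525 (leaf 429 4)))) (branch (move 524 (branch (move 588 (leaf 460 6)) (move 429 (branch (move 397 (leaf 397 4)) (move 460 (leaf 428 6)))))) (move 588 (branch (move 524 (leaf 460 6)) (move 557 (branch (move 525 (leaf 460 5)) (move 587 (branch (move 559 (leaf 555 1)) (move 586 (branch (move 585 (leaf 553 2)) (move 589 (leaf 554 2))))))))))))) (branch (move 557 (branch (move 527 (branch (move 555 (leaf 523 2)) (move 528 (branch (move 529 (leaf 525 1)) (move 559 (leaf 524 2)))))) (branch (move 524 (branch (move 460 (branch (move 589 (leaf 460 4)) (move 461 (branch (move 429 (leaf 428 6)) (move 459 (branch (move 458 (leaf 458 0)) (move 427 (leaf 427 7)))))))) (move 559 (branch (move 523 (leaf 523 3)) (move 527 (branch (move 528 (leaf 524 2)) (move 591 (branch (move 592 (leaf 556 0)) (move 623 (leaf 494 7)))))))))) (branch (move 524 (branch (move 460 (branch (move 589 (leaf 460 4)) (move 461 (branch (move 429 (leaf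 428 6)) (move 459 (branch (move 458 (leaf 458 0)) (move 427 (leaf 427 7)))))))) (move 523 (branch (move 559 (leaf 523 3)) (move 522 (branch (move 521 (leaf 521 0)) (move 555 (leaf 522 3)))))))) (move 555 (branch (move 527 (leaf 523 2)) (move 525 (branch (move 554 (leaf 522 2)) (move 589 (branch (move 621 (leaf 493 6)) (move 460 (leaf 460 7)))))))))))) (branch (move 527 (branch (move 528 (branch (move 525 (leaf 492 3)) (move 529 (leaf 493 3)))) (branch (move 557 (branch (move 555 (leaf 523 2)) (move 528 (branch (move 529 (leaf 525 1)) (move 559 (leaf 524 2)))))) (move 555 (branch (move 557 (leaf 523 2)) (move 524 (branch (move 525 (leaf 523 1)) (move 588 (branch (move 461 (leaf 460 6)) (move 587 (branch (move 619 (leaf 491 5)) (move 621 (branch (move 589 (leaf 492 4)) (move 620 (branch (move 653 (leaf 524 4)) (move 652 (branch (move 523 (leaf 523 7)) (move 684 (leaf 555 7))))))))))))))))))) (branch (move 461 (branch (move 429 (branch (move 397 (leaf 397 4)) (move 525 (leaf 429 4)))) (branch (move 524 (branch (move 588 (leaf 460 6)) (move 429 (branch (move 397 (leaf 397 4)) (move 460 (leaf 428 6)))))) (move 588 (branch (move 524 (leaf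 460 6)) (move 557 (branch (move 525 (leaf 460 5)) (move 555 (branch (move 527 (leaf 523 2)) (move 587 (branch (move 586 (leaf 554 1)) (move 522 (branch (move 523 (leaf 522 3)) (move 554 (branch (move 521 (leaf 521 3)) (move 553 (branch (move 552 (leaf 552 0)) (move 589 (leaf 553 0))))))))))))))))))) (move 527 (branch (move 528 (branch (move 525 (leaf 492 3)) (move 529 (leaf 493 3)))) (branch (move 557 (branch (move 555 (leaf 523 2)) (move 528 (branch (move 529 (leaf 525 1)) (move 559 (leaf 524 2)))))) (move 557 (branch (move 555 (leaf 523 2)) (move 525 (branch (move 589 (branch (move 621 (leaf 493 6)) (move 460 (leaf 460 7)))) (move 461 (branch (move 429 (leaf 429 4)) (move 588 (leaf 460 5)))))))))))))))))))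
theorem a3p94 : a3e94.Valid :=
  pos_of_chk [] forall_nil a3c94 a3e94 (by decide +kernel)

def a3e95 : Pos := ⟨943490606425058863235714884374865265018790977069663273452022380131451758627651022516758765531159640306584734709556695644952638054162227883650310798390002182686288904192, 120394956308121996474699610174807721867650857499375140906449992179112966634432583732429140543162520010282110686083395122829524098031013714616501755878569303552885177319772219525495385863785577526433547288576, 18⟩
def a3c95 : Cert := (move 492 (branch (move 493 (branch (ref 0) (branch (move 491 (branch (move 458 (branch (move 459 (leaf 458 3)) (move 490 (branch (move 457 (leaf 457 3)) (move 522 (branch (move 521 (leaf 489 1)) (move 523 (leaf 490 1)))))))) (branch (move 490 (branch (move 525 (leaf 490 0)) (move 458 (branch (move 457 (leaf 457 3)) (move 459 (leaf 458 3)))))) (branch (move 490 (branch (move 525 (leaf 490 0)) (move 522 (branch (move 521 (leaf 489 1)) (move 523 (leaf 490 1)))))) (move 523 (branch (move 522 (leaf 490 1)) (move 524 (branch (move 459 (branch (move 458 (leaf 458 3)) (move 556 (branch (move 427 (leaf 427 4)) (move 588 (leaf 459 7))))))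 (move 525 (branch (move 559 (leaf 523 0)) (move 555 (branch (move 554 (leaf 522 1)) (move 460 (branch (move 428 (leaf 427 5)) (move 587 (leaf 459 6)))))))))))))))) (branch (ref 1) (branch (ref 2) (branch (ref 3) (branch (ref 4) (move 495 (branch (move 460 (branch (move 459 (leaf 459 3)) (move 496 (branch (move 461 (leaf 460 3)) (move 464 (branch (move 463 (leaf 460 2)) (move 465 (leaf 461 2)))))))) (branch (move 464 (branch (move 463 (leaf 460 2)) (move 496 (branch (move 465 (leaf 461 2)) (move 497 (branch (move 525 (leaf 493 1)) (move 529 (branch (move 528 (leaf 493 0)) (move 530 (leaf 494 0)))))))))) (ref 5))))))))))) (branch (move 493 (branch (move 527 (branch (move 491 (leaf 491 0)) (move 528 (branch (move 495 (leaf 492 0)) (move 529 (leaf 493 3)))))) (branch (ref 6) (branch (move 491 (branch (move 527 (leaf 491 0)) (move 458 (branch (move 459 (leaf 458 3)) (move 490 (branch (move 457 (leaf 457 3)) (move 522 (branch (move 521 (leaf 489 1)) (move 523 (leaf 490 1)))))))))) (ref 0))))) (branch (ref 7) (branch (ref 8) (branch (move 493 (branch (move 527 (branch (move 491 (leaf 491 0)) (move 528 (branch (move 495 (leaf 492 0)) (move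 529 (leaf 493 3)))))) (branch (ref 6) (branch (move 491 (branch (move 527 (leaf 491 0)) (move 458 (branch (move 459 (leaf 458 3)) (move 490 (branch (move 457 (leaf 457 3)) (move 522 (branch (move 521 (leaf 489 1)) (move 523 (leaf 490 1)))))))))) (ref 1))))) (branch (move 493 (branch (ref 6) (branch (ref 2) (move 527 (branch (move 491 (leaf 491 0)) (move 528 (branch (move 525 (leaf 492 3)) (move 529 (leaf 493 3))))))))) (branch (move 493 (branch (move 527 (branch (move 491 (leaf 491 0)) (move 528 (branch (move 495 (leaf 492 0)) (move 529 (leaf 493 3)))))) (branch (move 491 (branch (move 527 (leaf 491 0)) (move 458 (branch (move 459 (leaf 458 3)) (move 490 (branch (move 457 (leaf 457 3)) (move 522 (branch (move 521 (leaf 489 1)) (move 523 (leaf 490 1)))))))))) (branch (ref 3) (ref 9))))) (branch (move 493 (branch (move 491 (branch (move 527 (leaf 491 0)) (move 458 (branch (move 459 (leaf 458 3)) (move 490 (branch (move 457 (leaf 457 3)) (move 522 (branch (move 521 (leaf 489 1)) (move 523 (leaf 490 1)))))))))) (branch (ref 2) (branch (ref 4) (move 495 (branch (move 460 (branch (move 459 (leaf 459 3)) (move 496 (branch (move 461 (leaf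 460 3)) (move 464 (branch (move 463 (leaf 460 2)) (move 465 (leaf 461 2)))))))) (branch (ref 5) (move 524 (branch (move 523 (leaf 491 1)) (move 496 (branch (move 525 (leaf 492 1)) (move 464 (branch (move 463 (leaf 460 2)) (move 465 (leaf 461 2))))))))))))))) (branch (move 493 (branch (move 527 (branch (move 491 (leaf 491 0)) (move 528 (branch (move 495 (leaf 492 0)) (move 529 (leaf 493 3)))))) (branch (ref 4) (branch (ref 9) (move 527 (branch (move 491 (leaf 491 0)) (move 528 (branch (move 525 (leaf 492 3)) (move 529 (leaf 493 3)))))))))) (branch (move 493 (branch (move 527 (branch (move 491 (leaf 491 0)) (move 528 (branch (move 495 (leaf 492 0)) (move 529 (leaf 493 3)))))) (branch (move 491 (branch (move 527 (leaf 491 0)) (move 458 (branch (move 459 (leaf 458 3)) (move 490 (branch (move 457 (leaf 457 3)) (move 522 (branch (move 521 (leaf 489 1)) (move 523 (leaf 490 1)))))))))) (branch (move 459 (branch (move 495 (branch (move 460 (leaf 459 3)) (move 524 (branch (move 523 (leaf 491 1)) (move 496 (branch (move 525 (leaf 492 1)) (move 464 (branch (move 463 (leaf 460 2)) (move 465 (leaf 461 2)))))))))) (branch (move 491 (branch (move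 458 (leaf 458 3)) (move 523 (branch (move 522 (leaf 490 1)) (move 525 (branch (move 490 (leaf 490 0)) (move 524 (branch (move 559 (leaf 523 0)) (move 556 (branch (move 427 (leaf 427 4)) (move 588 (leaf 459 7)))))))))))) (branch (move 491 (branch (move 458 (leaf 458 3)) (move 490 (branch (move 525 (leaf 490 0)) (move 460 (branch (move 495 (leaf 459 3)) (move 489 (branch (move 488 (leaf 456 2)) (move 521 (branch (move 520 (leaf 488 1)) (move 522 (leaf 489 1)))))))))))) (move 491 (branch (move 458 (leaf 458 3)) (move 523 (branch (move 522 (leaf 490 1)) (move 495 (branch (move 524 (leaf 491 1)) (move 460 (leaf 459 3)))))))))))) (ref 10))))) (branch (move 493 (branch (ref 6) (branch (move 495 (branch (move 460 (branch (move 459 (leaf 459 3)) (move 496 (branch (move 461 (leaf 460 3)) (move 464 (branch (move 463 (leaf 460 2)) (move 465 (leaf 461 2)))))))) (branch (ref 5) (move 524 (branch (move 523 (leaf 491 1)) (move 496 (branch (move 525 (leaf 492 1)) (move 464 (branch (move 463 (leaf 460 2)) (move 465 (leaf 461 2))))))))))) (move 527 (branch (move 491 (leaf 491 0)) (move 528 (branch (move 525 (leaf 492 3)) (move 529 (leaf 493 3)))))))))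 (move 493 (branch (ref 6) (branch (move 495 (branch (move 460 (branch (move 459 (leaf 459 3)) (move 496 (branch (move 461 (leaf 460 3)) (move 464 (branch (move 463 (leaf 460 2)) (move 465 (leaf 461 2)))))))) (branch (ref 5) (move 524 (branch (move 523 (leaf 491 1)) (move 496 (branch (move 525 (leaf 492 1)) (move 464 (branch (move 463 (leaf 460 2)) (move 465 (leaf 461 2))))))))))) (branch (ref 10) (branch (ref 9) (ref 11))))))))))))))))))
theorem a3p95 : a3e95.Valid :=
  pos_of_chk [a3e40, a3e73, a3e74, a3e75, a3e76, a3e77, a3e39, a3e87, a3e91, a3e92, a3e93, a3e94] (forall_cons a3p40 (forall_cons a3p73 (forall_cons a3p74 (forall_cons a3p75 (forall_cons a3p76 (forall_cons a3p77 (forall_cons a3p39 (forall_cons a3p87 (forall_cons a3p91 (forall_cons a3p92 (forall_cons a3p93 (forall_cons a3p94 forall_nil)))))))))))) a3c95 a3e95 (by decide +kernel)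

def a3e96 : Pos := ⟨219673525124179510879420825570604582952621929604585773100622830693937381868724993667921908501166545759273481964527387457187903615990932602002368905315681828864, 2757826132795074864162077761307624666413822182244408582464437287457283798238042990673930201227737570171387402400567421936968689472882051987057757289102652818716170718806683076224606715802449307432254366317016602640384, 20⟩
def a3c96 : Cert := (move 494 (branch (move 462 (branch (ref 0) (branch (move 430 (branch (move 527 (branch (move 559 (leaf 430 4)) (move 398 (branch (move 495 (leaf 398 4)) (move 397 (branch (move 365 (leaf 365 7)) (move 429 (leaf 397 7)))))))) (branch (move 527 (branch (move 559 (leaf 430 4)) (move 398 (branch (move 495 (leaf 398 4)) (move 399 (branch (move 367 (leaf 366 6)) (move 431 (leaf 398 6)))))))) (ref 1)))) (branch (move 430 (branch (move 527 (branch (move 559 (leaf 430 4)) (move 398 (branch (move 495 (leaf 398 4)) (move 399 (branch (move 367 (leaf 366 6)) (move 431 (leaf 398 6)))))))) (branch (move 525 (branch (move 557 (leaf 429 5)) (move 398 (branch (move 493 (leaf 397 5)) (move 399 (branch (move 367 (leaf 366 6)) (move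 431 (leaf 398 6)))))))) (ref 2)))) (branch (move 430 (branch (move 527 (branch (move 559 (leaf 430 4)) (move 398 (branch (move 495 (leaf 398 4)) (move 397 (branch (move 365 (leaf 365 7)) (move 429 (leaf 397 7)))))))) (branch (move 525 (branch (move 557 (leaf 429 5)) (move 398 (branch (move 493 (leaf 397 5)) (move 397 (branch (move 365 (leaf 365 7)) (move 429 (leaf 397 7)))))))) (ref 2)))) (branch (move 430 (branch (ref 1) (ref 2))) (ref 3))))))) (branch (move 462 (branch (move 430 (branch (move 527 (branch (move 559 (leaf 430 4)) (move 398 (branch (move 495 (leaf 398 4)) (move 397 (branch (move 365 (leaf 365 7)) (move 429 (leaf 397 7)))))))) (branch (move 527 (branch (move 559 (leaf 430 4)) (move 398 (branch (move 495 (leaf 398 4)) (move 399 (branch (move 367 (leaf 366 6)) (move 431 (leaf 398 6)))))))) (ref 1)))) (branch (ref 4) (branch (ref 5) (branch (ref 6) (move 461 (branch (ref 7) (branch (move 558 (branch (move 429 (leaf 429 7)) (move 591 (branch (move 559 (leaf 462 4)) (move 590 (branch (move 623 (leaf 494 4)) (move 589 (branch (move 557 (leaf 461 5)) (move 621 (leaf 493 5)))))))))) (move 558 (branch (move 591 (branch (move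 559 (leaf 462 4)) (move 590 (branch (move 623 (leaf 494 4)) (move 589 (branch (move 557 (leaf 461 5)) (move 621 (leaf 493 5)))))))) (branch (move 463 (branch (move 431 (leaf 430 6)) (move 495 (branch (move 590 (leaf 462 6)) (move 496 (branch (move 460 (leaf 460 0)) (move 497 (leaf 461 3)))))))) (move 463 (branch (move 431 (leaf 430 6)) (ref 8)))))))))))))) (branch (ref 9) (branch (ref 10) (branch (ref 11) (branch (move 558 (branch (ref 12) (branch (ref 13) (branch (ref 14) (branch (ref 15) (branch (ref 16) (move 462 (branch (ref 17) (branch (ref 18) (branch (ref 19) (branch (ref 20) (move 463 (branch (move 431 (leaf 430 6)) (move 461 (branch (move 429 (leaf 429 7)) (ref 8)))))))))))))))) (branch (move 462 (branch (ref 0) (branch (move 430 (branch (move 527 (branch (move 559 (leaf 430 4)) (move 398 (branch (move 495 (leaf 398 4)) (move 397 (branch (move 365 (leaf 365 7)) (move 429 (leaf 397 7)))))))) (branch (move 527 (branch (move 559 (leaf 430 4)) (move 398 (branch (move 495 (leaf 398 4)) (move 399 (branch (move 367 (leaf 366 6)) (move 431 (leaf 398 6)))))))) (ref 1)))) (branch (move 430 (branch (move 527 (branch (move 559 (leaf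 430 4)) (move 398 (branch (move 495 (leaf 398 4)) (move 399 (branch (move 367 (leaf 366 6)) (move 431 (leaf 398 6)))))))) (branch (move 525 (branch (move 557 (leaf 429 5)) (move 398 (branch (move 493 (leaf 397 5)) (move 399 (branch (move 367 (leaf 366 6)) (move 431 (leaf 398 6)))))))) (ref 2)))) (branch (move 430 (branch (move 527 (branch (move 559 (leaf 430 4)) (move 398 (branch (move 495 (leaf 398 4)) (move 397 (branch (move 365 (leaf 365 7)) (move 429 (leaf 397 7)))))))) (branch (move 525 (branch (move 557 (leaf 429 5)) (move 398 (branch (move 493 (leaf 397 5)) (move 397 (branch (move 365 (leaf 365 7)) (move 429 (leaf 397 7)))))))) (ref 2)))) (move 558 (branch (ref 17) (branch (ref 18) (branch (ref 19) (branch (ref 20) (move 463 (branch (move 431 (leaf 430 6)) (move 461 (branch (move 429 (leaf 429 7)) (ref 8))))))))))))))) (branch (move 462 (branch (move 430 (branch (move 527 (branch (move 559 (leaf 430 4)) (move 398 (branch (move 495 (leaf 398 4)) (move 397 (branch (move 365 (leaf 365 7)) (move 429 (leaf 397 7)))))))) (branch (move 525 (branch (move 557 (leaf 429 5)) (move 398 (branch (move 493 (leaf 397 5)) (move 397 (branch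 (move 365 (leaf 365 7)) (move 429 (leaf 397 7)))))))) (ref 2)))) (branch (ref 21) (branch (ref 22) (move 558 (branch (move 463 (branch (move 431 (leaf 430 6)) (move 590 (branch (move 495 (leaf 462 6)) (move 591 (branch (move 559 (leaf 462 4)) (move 623 (leaf 494 4)))))))) (branch (move 591 (branch (move 559 (leaf 462 4)) (move 590 (branch (move 623 (leaf 494 4)) (move 589 (branch (move 557 (leaf 461 5)) (move 621 (leaf 493 5)))))))) (branch (move 463 (branch (move 431 (leaf 430 6)) (move 590 (branch (move 495 (leaf 462 6)) (move 589 (branch (move 557 (leaf 461 5)) (move 621 (leaf 493 5)))))))) (ref 17))))))))) (branch (move 462 (branch (move 430 (branch (move 527 (branch (move 559 (leaf 430 4)) (move 398 (branch (move 495 (leaf 398 4)) (move 399 (branch (move 367 (leaf 366 6)) (move 431 (leaf 398 6)))))))) (branch (move 525 (branch (move 557 (leaf 429 5)) (move 398 (branch (move 493 (leaf 397 5)) (move 399 (branch (move 367 (leaf 366 6)) (move 431 (leaf 398 6)))))))) (ref 2)))) (branch (move 558 (branch (move 461 (branch (move 429 (leaf 429 7)) (move 590 (branch (move 493 (leaf 461 7)) (move 591 (branch (move 559 (leaf 462 4)) (move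 623 (leaf 494 4)))))))) (branch (move 591 (branch (move 559 (leaf 462 4)) (move 590 (branch (move 623 (leaf 494 4)) (move 589 (branch (move 557 (leaf 461 5)) (move 621 (leaf 493 5)))))))) (branch (ref 18) (move 461 (branch (move 429 (leaf 429 7)) (move 590 (branch (move 493 (leaf 461 7)) (move 589 (branch (move 557 (leaf 461 5)) (move 621 (leaf 493 5)))))))))))) (branch (ref 23) (ref 24))))) (branch (ref 25) (branch (ref 26) (branch (move 558 (branch (ref 12) (branch (ref 13) (branch (ref 14) (branch (ref 15) (branch (ref 16) (move 462 (branch (move 559 (branch (move 591 (leaf 462 4)) (move 430 (branch (move 527 (leaf 430 4)) (move 431 (branch (move 399 (leaf 398 6)) (move 463 (leaf 430 6)))))))) (branch (move 557 (branch (move 589 (leaf 461 5)) (move 430 (branch (move 525 (leaf 429 5)) (move 431 (branch (move 399 (leaf 398 6)) (move 463 (leaf 430 6)))))))) (branch (move 557 (branch (move 589 (leaf 461 5)) (move 430 (branch (move 525 (leaf 429 5)) (move 559 (branch (move 527 (leaf 430 4)) (move 591 (leaf 462 4)))))))) (ref 17))))))))))) (branch (move 558 (branch (ref 12) (branch (ref 13) (branch (ref 14) (branch (ref 15) (branch (ref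 16) (move 462 (branch (move 559 (branch (move 591 (leaf 462 4)) (move 430 (branch (move 527 (leaf 430 4)) (move 429 (branch (move 397 (leaf 397 7)) (move 461 (leaf 429 7)))))))) (branch (move 557 (branch (move 589 (leaf 461 5)) (move 430 (branch (move 525 (leaf 429 5)) (move 559 (branch (move 527 (leaf 430 4)) (move 591 (leaf 462 4)))))))) (branch (move 557 (branch (move 589 (leaf 461 5)) (move 430 (branch (move 525 (leaf 429 5)) (move 429 (branch (move 397 (leaf 397 7)) (move 461 (leaf 429 7)))))))) (ref 18))))))))))) (branch (move 462 (branch (ref 0) (branch (move 430 (branch (move 527 (branch (move 559 (leaf 430 4)) (move 398 (branch (move 495 (leaf 398 4)) (move 397 (branch (move 365 (leaf 365 7)) (move 429 (leaf 397 7)))))))) (branch (move 527 (branch (move 559 (leaf 430 4)) (move 398 (branch (move 495 (leaf 398 4)) (move 399 (branch (move 367 (leaf 366 6)) (move 431 (leaf 398 6)))))))) (ref 1)))) (branch (ref 4) (branch (ref 6) (move 558 (branch (move 461 (branch (move 429 (leaf 429 7)) (move 590 (branch (move 493 (leaf 461 7)) (move 591 (branch (move 559 (leaf 462 4)) (move 623 (leaf 494 4)))))))) (branch (move 463 (branch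 (move 431 (leaf 430 6)) (move 590 (branch (move 495 (leaf 462 6)) (move 591 (branch (move 559 (leaf 462 4)) (move 623 (leaf 494 4)))))))) (branch (move 463 (branch (move 431 (leaf 430 6)) (move 461 (branch (move 429 (leaf 429 7)) (move 590 (branch (move 495 (leaf 462 6)) (move 493 (leaf 461 7)))))))) (ref 20)))))))))) (branch (move 462 (branch (ref 0) (branch (move 430 (branch (move 527 (branch (move 559 (leaf 430 4)) (move 398 (branch (move 495 (leaf 398 4)) (move 397 (branch (move 365 (leaf 365 7)) (move 429 (leaf 397 7)))))))) (branch (move 527 (branch (move 559 (leaf 430 4)) (move 398 (branch (move 495 (leaf 398 4)) (move 399 (branch (move 367 (leaf 366 6)) (move 431 (leaf 398 6)))))))) (ref 1)))) (branch (move 430 (branch (move 527 (branch (move 559 (leaf 430 4)) (move 398 (branch (move 495 (leaf 398 4)) (move 399 (branch (move 367 (leaf 366 6)) (move 431 (leaf 398 6)))))))) (branch (move 525 (branch (move 557 (leaf 429 5)) (move 398 (branch (move 493 (leaf 397 5)) (move 399 (branch (move 367 (leaf 366 6)) (move 431 (leaf 398 6)))))))) (ref 2)))) (branch (move 430 (branch (move 527 (branch (move 559 (leaf 430 4)) (move 398 (branch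 (move 495 (leaf 398 4)) (move 397 (branch (move 365 (leaf 365 7)) (move 429 (leaf 397 7)))))))) (branch (move 525 (branch (move 557 (leaf 429 5)) (move 398 (branch (move 493 (leaf 397 5)) (move 397 (branch (move 365 (leaf 365 7)) (move 429 (leaf 397 7)))))))) (ref 2)))) (ref 27)))))) (branch (move 462 (branch (ref 0) (branch (move 430 (branch (move 527 (branch (move 559 (leaf 430 4)) (move 398 (branch (move 495 (leaf 398 4)) (move 397 (branch (move 365 (leaf 365 7)) (move 429 (leaf 397 7)))))))) (branch (move 527 (branch (move 559 (leaf 430 4)) (move 398 (branch (move 495 (leaf 398 4)) (move 399 (branch (move 367 (leaf 366 6)) (move 431 (leaf 398 6)))))))) (ref 1)))) (branch (move 430 (branch (move 527 (branch (move 559 (leaf 430 4)) (move 398 (branch (move 495 (leaf 398 4)) (move 399 (branch (move 367 (leaf 366 6)) (move 431 (leaf 398 6)))))))) (branch (move 525 (branch (move 557 (leaf 429 5)) (move 398 (branch (move 493 (leaf 397 5)) (move 399 (branch (move 367 (leaf 366 6)) (move 431 (leaf 398 6)))))))) (ref 2)))) (branch (move 430 (branch (move 527 (branch (move 559 (leaf 430 4)) (move 398 (branch (move 495 (leaf 398 4)) (move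 397 (branch (move 365 (leaf 365 7)) (move 429 (leaf 397 7)))))))) (branch (move 525 (branch (move 557 (leaf 429 5)) (move 398 (branch (move 493 (leaf 397 5)) (move 397 (branch (move 365 (leaf 365 7)) (move 429 (leaf 397 7)))))))) (ref 2)))) (ref 28)))))) (branch (move 462 (branch (ref 0) (branch (ref 4) (branch (ref 6) (move 558 (branch (move 461 (branch (move 429 (leaf 429 7)) (move 590 (branch (move 493 (leaf 461 7)) (move 591 (branch (move 559 (leaf 462 4)) (move 623 (leaf 494 4)))))))) (branch (move 463 (branch (move 431 (leaf 430 6)) (move 590 (branch (move 495 (leaf 462 6)) (move 591 (branch (move 559 (leaf 462 4)) (move 623 (leaf 494 4)))))))) (ref 19)))))))) (move 558 (branch (ref 12) (branch (ref 13) (branch (ref 14) (branch (ref 15) (branch (ref 16) (ref 29)))))))))))))))))))))))))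
theorem a3p96 : a3e96.Valid :=
  pos_of_chk [a3e0, a3e1, a3e2, a3e22, a3e23, a3e24, a3e25, a3e26, a3e27, a3e33, a3e43, a3e55, a3e56, a3e57, a3e58, a3e59, a3e60, a3e61, a3e62, a3e63, a3e64, a3e31, a3e65, a3e66, a3e67, a3e70, a3e72, a3e68, a3e71, a3e95] (forall_cons a3p0 (forall_cons a3p1 (forall_cons a3p2 (forall_cons a3p22 (forall_cons a3p23 (forall_cons a3p24 (forall_cons a3p25 (forall_cons a3p26 (forall_cons a3p27 (forall_cons a3p33 (forall_cons a3p43 (forall_cons a3p55 (forall_cons a3p56 (forall_cons a3p57 (forall_cons a3p58 (forall_cons a3p59 (forall_cons a3p60 (forall_cons a3p61 (forall_cons a3p62 (forall_cons a3p63 (forall_cons a3p64 (forall_cons a3p31 (forall_cons a3p65 (forall_cons a3p66 (forall_cons a3p67 (forall_cons a3p70 (forall_cons a3p72 (forall_cons a3p68 (forall_cons a3p71 (forall_cons a3p95 forall_nil)))))))))))))))))))))))))))))) a3c96 a3e96 (by decide +kernel)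

end Crest.Agent.SN
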