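import Crest.Agent.Lib_SN_Check

set_option autoImplicit false
set_option linter.all false
set_option maxRecDepth 1000000

namespace Crest.Agent.SN
open Cert

def a4e0 : Pos := ⟨768857337934628288077972889497116040334176753616050205852179907428780836540537477837726679754082910157457186875845856100157662655968264107008291168604886401024, 160526608379683067298477485333632984479573386241520618613246592145931944172496495910807053610419746062990776875952000658803509710817442121859990396054328854976613657024137156820293452937494521505874156978176, 9⟩
def a4c0 : Cert := (move 524 (branch (move 559 (branch (move 560 (leaf 524 0)) (move 523 (branch (move 558 (leaf 523 0)) (move 491 (branch (move 490 (leaf 490 3)) (move 492 (leaf 491 3)))))))) (branch (move 559 (branch (move 560 (leaf 524 0)) (move 523 (branch (move 558 (leaf 523 0)) (move 555 (branch (move 554 (leaf 522 1)) (move 556 (leaf 523 1)))))))) (branch (move 555 (branch (move 556 (leaf 523 1)) (move 523 (branch (move 554 (leaf 522 1)) (move 491 (branch (move 490 (leaf 490 3)) (move 492 (leaf 491 3)))))))) (move 556 (branch (move 555 (leaf 523 1)) (move 588 (branch (move 620 (branch (move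 493 (leaf 492 6)) (move 652 (branch (move 557 (leaf 524 6)) (move 653 (branch (move 621 (leaf 524 4)) (move 685 (leaf 556 4)))))))) (branch (move 492 (branch (move 491 (leaf 491 3)) (move 589 (branch (move 621 (leaf 492 4)) (move 557 (branch (move 460 (leaf 460 4)) (move 587 (branch (move 619 (leaf 491 5)) (move 558 (branch (move 559 (leaf 555 1)) (move 586 (leaf 554 2)))))))))))) (move 492 (branch (move 491 (leaf 491 3)) (move 493 (branch (move 461 (leaf 460 6)) (move 620 (leaf 492 6)))))))))))))))
theorem a4p0 : a4e0.Valid :=
  pos_of_chk [] forall_nil a4c0 a4e0 (by decide +kernel)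

def a4e1 : Pos := ⟨768857337934628288077972889497116040334176753616050205852179907428780836540537477837726679754082910157457186875845856100157662655968264107008291168604886401024, 17404329752672085594200205282757334324327016973275862480106772518069505243765421256592316654101402360482144062791500133803561490263694287116018814047120913549562206714019792012145181327360, 6⟩
def a4c1 : Cert := (move 524 (branch (move 559 (branch (move 560 (leaf 524 0)) (move 523 (branch (move 558 (leaf 523 0)) (move 491 (branch (move 490 (leaf 490 3)) (move 492 (leaf 491 3)))))))) (branch (move 492 (branch (move 491 (leaf 491 3)) (move 528 (branch (move 493 (leaf 492 3)) (move 496 (branch (move 495 (leaf 492 2)) (move 497 (leaf 493 2)))))))) (move 559 (branch (move 560 (leaf 524 0)) (move 558 (branch (move 523 (leaf 523 0)) (move 495 (branch (move 496 (leaf 492 2)) (move 590 (branch (move 463 (leaf 462 5)) (move 622 (leaf 494 6)))))))))))))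
theorem a4p1 : a4e1.Valid :=
  pos_of_chk [] forall_nil a4c1 a4e1 (by decide +kernel)

def a4e2 : Pos := ⟨768857337934628288077972889497116040334176753616050205852179907428780836540537477837726679754082910157457186875845856100157662655968264107008291168604886401024, 17404329752672085595084727726074883078710681270462134360741404595654985434709796140741050860284865596789984304096742307521045238918474326587387603157734731095144711960265462085070891253760, 6⟩
def a4c2 : Cert := (move 524 (branch (move 559 (branch (move 560 (leaf 524 0)) (move 523 (branch (move 558 (leaf 523 0)) (move 555 (branch (move 554 (leaf 522 1)) (move 556 (leaf 523 1)))))))) (branch (move 559 (branch (move 560 (leaf 524 0)) (move 558 (branch (move 523 (leaf 523 0)) (move 495 (branch (move 496 (leaf 492 2)) (move 590 (branch (move 463 (leaf 462 5)) (move 622 (leaf 494 6)))))))))) (move 556 (branch (move 555 (leaf 523 1)) (move 528 (branch (move 557 (leaf 524 1)) (move 496 (branch (move 495 (leaf 492 2)) (move 497 (leaf 493 2)))))))))))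
theorem a4p2 : a4e2.Valid :=
  pos_of_chk [] forall_nil a4c2 a4e2 (by decide +kernel)

def a4e3 : Pos := ⟨768857337934628288077972889497116040334176753616050205852179907428780836540537477837726679754082910157457186875845856100157662655968264107008291168604886401024, 884522444278620427613903968226726307919455041083484516424425023978547426923302570554232776382466282140898522534003530796962454712764272854157272062286199888706667544576, 5⟩
def a4c3 : Cert := (move 524 (branch (move 555 (branch (move 556 (leaf 523 1)) (move 523 (branch (move 554 (leaf 522 1)) (move 491 (branch (move 490 (leaf 490 3)) (move 492 (leaf 491 3)))))))) (branch (move 492 (branch (move 491 (leaf 491 3)) (move 528 (branch (move 493 (leaf 492 3)) (move 496 (branch (move 495 (leaf 492 2)) (move 497 (leaf 493 2)))))))) (move 556 (branch (move 555 (leaf 523 1)) (move 528 (branch (move 557 (leaf 524 1)) (move 496 (branch (move 495 (leaf 492 2)) (move 497 (leaf 493 2)))))))))))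
theorem a4p3 : a4e3.Valid :=
  pos_of_chk [] forall_nil a4c3 a4e3 (by decide +kernel)

def a4e4 : Pos := ⟨471745303432202956742036953066853458080000071487453566330596963166348710007762893127104376433501728654458913114051829787003706484269017557816088001197369996658826280960, 321053216778053891366735482282313675179843824896578129981547732475651891188145411143608706707357677690642010236997502307218066129441517344295394946562813257846025785024408479254508422972072367538125676740608, 7⟩
def a4c4 : Cert := (move 589 (branch (move 620 (branch (move 588 (leaf 492 5)) (move 621 (branch (move 652 (leaf 524 5)) (move 654 (branch (move 622 (leaf 525 4)) (move 653 (branch (move 686 (leaf 557 4)) (move 558 (leaf 525 6)))))))))) (branch (move 590 (branch (move 622 (leaf 493 4)) (move 461 (branch (move 558 (leaf 461 4)) (move 430 (branch (move 462 (leaf 429 6)) (move 429 (branch (move 398 (leaf 397 6)) (move 428 (branch (move 396 (leaf 396 7)) (move 460 (leaf 428 7)))))))))))) (branch (move 620 (branch (move 588 (leaf 492 5)) (move 621 (branch (move 652 (leaf 524 5)) (move 558 (branch (move 653 (leaf 525 6)) (move 461 (branch (move 429 (leaf 429 4)) (move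 590 (leaf 461 4)))))))))) (move 622 (branch (move 590 (leaf 493 4)) (move 621 (branch (move 654 (leaf 525 4)) (move 620 (branch (move 588 (leaf 492 5)) (move 652 (leaf 524 5))))))))))))
theorem a4p4 : a4e4.Valid :=
  pos_of_chk [] forall_nil a4c4 a4e4 (by decide +kernel)

def a4e5 : Pos := ⟨2026130649339417646236166083785233858831040035987044836604370573862332742153723491505219254938831362035952424515191033226448603955775922719388688989660354414003114135556158652416, 5922386523601225339386905872933876397601633436002861604055996064869868140989704431517565001363399952765528704597585068328668718412433543901859468856813581137284560866379330902510401443703618155496597843526473433957362785320960, 9⟩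
def a4c5 : Cert := (move 622 (branch (move 493 (branch (move 590 (leaf 493 4)) (move 588 (branch (move 620 (leaf 492 5)) (move 461 (branch (move 556 (leaf 460 5)) (move 460 (branch (move 428 (leaf 428 7)) (move 492 (leaf 460 7)))))))))) (branch (move 621 (branch (move 654 (leaf 525 4)) (move 620 (branch (move 652 (leaf 524 5)) (move 588 (branch (move 493 (leaf 492 5)) (move 587 (branch (move 586 (leaf 586 0)) (move 623 (leaf 587 3)))))))))) (branch (move 590 (branch (move 493 (leaf 493 4)) (move 654 (branch (move 621 (leaf 525 4)) (move 686 (leaf 557 7)))))) (move 621 (branch (move 654 (leaf 525 4)) (move 588 (branch (move 623 (branch (move 624 (leaf 588 3)) (move 587 (branch (move 586 (leaf 586 0)) (move 590 (leaf 587 0)))))) (branch (move 652 (branch (move 620 (leaf 524 5)) (move 653 (branch (move 684 (leaf 556 5)) (move 685 (branch (move 556 (leaf 556 7)) (move 717 (branch (move 590 (leaf 589 6)) (move 718 (branch (move 686 (leaf 589 4)) (move 750 (leaf 621 4)))))))))))) (move 620 (branch (move 652 (leaf 524 5)) (move 587 (branch (move 586 (leaf 586 0)) (move 623 (leaf 587 3)))))))))))))))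
theorem a4p5 : a4e5.Valid :=
  pos_of_chk [] forall_nil a4c5 a4e5 (by decide +kernel)

def a4e6 : Pos := ⟨471745303871550006964822610701506500861731192886231807163075993382882927727799443051303318484934025696766457036302667488317179178898261735038443388437378174061060816896, 5922386523945953605830780079253923964728116838311779502720425010037464345986117940610166129400548016938053636326583682923222952826638569518119857471336097749218481802561337115935891980971862340801333807057279786351180281544704, 11⟩
def a4c6 : Cert := (move 589 (branch (move 621 (branch (move 652 (branch (move 620 (leaf 524 5)) (move 653 (branch (move 684 (leaf 556 5)) (move 654 (branch (move 622 (leaf 525 4)) (move 686 (leaf 557 4)))))))) (branch (move 653 (branch (move 558 (leaf 525 6)) (move 652 (branch (move 620 (leaf 524 5)) (move 684 (leaf 556 5)))))) (branch (move 653 (branch (move 558 (leaf 525 6)) (move 654 (branch (move 622 (leaf 525 4)) (move 686 (leaf 557 4)))))) (move 590 (branch (move 620 (branch (move 652 (leaf 524 5)) (move 591 (branch (move 592 (leaf 588 1)) (move 619 (branch (move 588 (leaf 587 1)) (move 618 (leaf 586 2)))))))) (branch (move 622 (branch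 (move 654 (leaf 525 4)) (move 558 (branch (move 495 (leaf 494 6)) (move 556 (branch (move 555 (leaf 523 2)) (move 623 (branch (move 655 (leaf 526 4)) (move 588 (branch (move 587 (leaf 587 0)) (move 624 (leaf 588 3)))))))))))) (move 622 (branch (move 654 (leaf 525 4)) (move 620 (branch (move 652 (leaf 524 5)) (move 591 (branch (move 592 (leaf 588 1)) (move 619 (leaf 587 2))))))))))))))) (branch (move 493 (branch (move 590 (branch (move 622 (leaf 493 4)) (move 461 (branch (move 558 (leaf 461 4)) (move 430 (branch (move 462 (leaf 429 6)) (move 429 (branch (move 398 (leaf 397 6)) (move 428 (branch (move 396 (leaf 396 7)) (move 460 (leaf 428 7)))))))))))) (branch (move 588 (branch (move 620 (leaf 492 5)) (move 461 (branch (move 556 (leaf 460 5)) (move 460 (branch (move 428 (leaf 428 7)) (move 492 (leaf 460 7)))))))) (move 556 (branch (move 590 (branch (move 622 (leaf 493 4)) (move 555 (branch (move 554 (leaf 554 0)) (move 591 (branch (move 588 (leaf 555 3)) (move 592 (leaf 556 3)))))))) (branch (move 590 (branch (move 622 (leaf 493 4)) (move 588 (branch (move 620 (leaf 492 5)) (move 591 (branch (move 592 (leaf 556 3)) (move 559 (branch (move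 560 (leaf 556 2)) (move 587 (branch (move 558 (leaf 555 1)) (move 586 (branch (move 585 (leaf 553 2)) (move 618 (branch (move 617 (leaf 585 1)) (move 619 (leaf 586 1)))))))))))))))) (move 555 (branch (move 554 (leaf 522 2)) (move 558 (leaf 523 2)))))))))) (branch (move 621 (branch (move 653 (branch (move 558 (leaf 525 6)) (move 652 (branch (move 620 (leaf 524 5)) (move 684 (leaf 556 5)))))) (branch (move 653 (branch (move 558 (leaf 525 6)) (move 654 (branch (move 622 (leaf 525 4)) (move 686 (leaf 557 4)))))) (move 620 (branch (move 652 (leaf 524 5)) (move 622 (branch (move 654 (leaf 525 4)) (move 588 (branch (move 493 (leaf 492 5)) (move 587 (branch (move 586 (leaf 586 0)) (move 623 (leaf 587 3))))))))))))) (branch (move 493 (branch (move 588 (branch (move 620 (leaf 492 5)) (move 461 (branch (move 556 (leaf 460 5)) (move 460 (branch (move 428 (leaf 428 7)) (move 492 (leaf 460 7)))))))) (branch (move 460 (branch (move 492 (leaf 460 7)) (move 461 (branch (move 428 (leaf 428 7)) (move 558 (branch (move 429 (leaf 429 4)) (move 590 (leaf 461 4)))))))) (move 621 (branch (move 653 (branch (move 558 (leaf 525 6)) (move 686 (branch (move 654 (leaf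 557 4)) (move 685 (branch (move 718 (leaf 589 4)) (move 684 (branch (move 652 (leaf 556 5)) (move 716 (leaf 588 5)))))))))) (branch (move 620 (branch (move 588 (leaf 492 5)) (move 652 (leaf 524 5)))) (move 558 (branch (move 653 (leaf 525 6)) (move 588 (branch (move 620 (leaf 492 5)) (move 556 (branch (move 555 (leaf 523 2)) (move 559 (branch (move 587 (leaf 555 1)) (move 560 (leaf 556 1)))))))))))))))) (branch (move 621 (branch (move 653 (branch (move 558 (leaf 525 6)) (move 652 (branch (move 620 (leaf 524 5)) (move 684 (leaf 556 5)))))) (branch (move 653 (branch (move 558 (leaf 525 6)) (move 654 (branch (move 622 (leaf 525 4)) (move 686 (leaf 557 4)))))) (move 622 (branch (move 654 (leaf 525 4)) (move 590 (branch (move 493 (leaf 493 4)) (move 620 (branch (move 652 (leaf 524 5)) (move 591 (branch (move 592 (leaf 588 1)) (move 619 (leaf 587 2))))))))))))) (branch (ref 0) (move 556 (branch (move 493 (branch (move 461 (branch (move 588 (leaf 460 5)) (move 460 (branch (move 428 (leaf 428 7)) (move 492 (leaf 460 7)))))) (branch (move 622 (branch (move 590 (leaf 493 4)) (move 621 (branch (move 654 (leaf 525 4)) (move 653 (branch (move 558 (leaf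 525 6)) (move 685 (branch (move 588 (leaf 556 7)) (move 684 (branch (move 652 (leaf 556 5)) (move 716 (leaf 588 5)))))))))))) (move 590 (branch (move 622 (leaf 493 4)) (move 461 (branch (move 558 (leaf 461 4)) (move 460 (branch (move 428 (leaf 428 7)) (move 492 (leaf 460 7))))))))))) (branch (move 555 (branch (move 554 (leaf 522 2)) (move 558 (leaf 523 2)))) (move 590 (branch (move 555 (branch (move 554 (leaf 554 0)) (move 591 (branch (move 588 (leaf 555 3)) (move 592 (leaf 556 3)))))) (move 622 (branch (move 493 (leaf 493 4)) (move 654 (branch (move 621 (leaf 525 4)) (move 686 (leaf 557 7))))))))))))))))))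
theorem a4p6 : a4e6.Valid :=
  pos_of_chk [a4e5] (forall_cons a4p5 forall_nil) a4c6 a4e6 (by decide +kernel)

def a4e7 : Pos := ⟨2026130649339417646895186659157772391469302512698858585462236362676090061455591983587031400545006343039718150018690670504269049849358085090952399837633152220010220851503204139008, 5922386523945953605890977557239795152011879429524637484853494812204993488112069839337588774512671408375950069837999724340336829300901129273134505354437481017278911588225911035863038023074353096734586104325431699786295425368064, 11⟩
def a4c7 : Cert := (move 621 (branch (move 652 (branch (move 620 (leaf 524 5)) (move 653 (branch (move 684 (leaf 556 5)) (move 654 (branch (move 622 (leaf 525 4)) (move 686 (leaf 557 4)))))))) (branch (move 556 (branch (move 528 (leaf 524 1)) (move 555 (branch (move 554 (leaf 522 2)) (move 654 (branch (move 622 (leaf 525 4)) (move 653 (branch (move 686 (leaf 557 4)) (move 684 (branch (move 652 (leaf 556 5)) (move 685 (branch (move 716 (leaf 588 5)) (move 588 (leaf 556 7)))))))))))))) (branch (move 556 (branch (move 528 (leaf 524 1)) (move 652 (branch (move 620 (leaf 524 5)) (move 653 (branch (move 684 (leaf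 556 5)) (move 555 (branch (move 554 (leaf 522 2)) (move 685 (branch (move 588 (leaf 556 7)) (move 686 (branch (move 654 (leaf 557 4)) (move 718 (leaf 589 4)))))))))))))) (branch (move 590 (branch (move 620 (branch (move 652 (leaf 524 5)) (move 591 (branch (move 592 (leaf 588 1)) (move 619 (branch (move 588 (leaf 587 1)) (move 618 (leaf 586 2)))))))) (branch (move 556 (branch (move 528 (leaf 524 1)) (move 555 (branch (move 554 (leaf 554 0)) (move 591 (branch (move 588 (leaf 555 3)) (move 592 (leaf 556 3)))))))) (branch (move 556 (branch (move 528 (leaf 524 1)) (move 555 (branch (move 554 (leaf 554 0)) (move 652 (branch (move 620 (leaf 524 5)) (move 653 (branch (move 684 (leaf 556 5)) (move 685 (branch (move 588 (leaf 556 7)) (move 717 (branch (move 622 (leaf 589 6)) (move 718 (branch (move 686 (leaf 589 4)) (move 750 (leaf 621 4)))))))))))))))) (move 556 (branch (move 528 (leaf 524 1)) (move 555 (branch (move 554 (leaf 554 0)) (move 620 (branch (move 652 (leaf 524 5)) (move 591 (branch (move 592 (leaf 588 1)) (move 619 (branch (move 618 (leaf 586 2)) (move 622 (leaf 587 2)))))))))))))))) (move 622 (branch (move 654 (leaf 525 4)) (move 588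 (branch (move 623 (branch (move 624 (leaf 588 3)) (move 587 (branch (move 586 (leaf 586 0)) (move 590 (leaf 587 0)))))) (branch (move 623 (branch (move 624 (leaf 588 3)) (move 528 (branch (move 556 (leaf 524 1)) (move 496 (branch (move 497 (leaf 493 2)) (move 591 (branch (move 559 (leaf 495 6)) (move 592 (branch (move 620 (leaf 588 2)) (move 560 (leaf 495 5)))))))))))) (move 556 (branch (move 528 (leaf 524 1)) (move 555 (branch (move 554 (leaf 522 2)) (move 587 (branch (move 586 (leaf 586 0)) (move 590 (branch (move 591 (leaf 555 3)) (move 619 (branch (move 618 (leaf 586 1)) (move 651 (branch (move 683 (leaf 555 6)) (move 650 (branch (move 620 (leaf 618 1)) (move 682 (leaf 554 5))))))))))))))))))))))))))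
theorem a4p7 : a4e7.Valid :=
  pos_of_chk [] forall_nil a4c7 a4e7 (by decide +kernel)

def a4e8 : Pos := ⟨471745303871550006964822610701506500861731192886231807163075993382882927727799443051303318484934025696766457036302667488317179178898261735038443388437378174061060816896, 5922386523945953605890977557239795152011879429623917886648010757013151684069562738641405993399474705263828591780368674853140813519471237384639413031259844704460727458559491602932585086389762393103888248394835709508573802266624, 12⟩
def a4c8 : Cert := (move 589 (branch (ref 0) (branch (move 621 (branch (move 652 (branch (move 620 (leaf 524 5)) (move 653 (branch (move 684 (leaf 556 5)) (move 654 (branch (move 622 (leaf 525 4)) (move 686 (leaf 557 4)))))))) (branch (move 620 (branch (move 652 (leaf 524 5)) (move 493 (branch (move 588 (leaf 492 5)) (move 492 (branch (move 528 (leaf 492 3)) (move 460 (leaf 460 7)))))))) (move 622 (branch (move 654 (leaf 525 4)) (move 493 (branch (move 590 (leaf 493 4)) (move 492 (branch (move 528 (leaf 492 3)) (move 460 (leaf 460 7))))))))))) (branch (move 556 (branch (move 528 (leaf 524 1)) (move 590 (branch (move 555 (branch (move 554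 (leaf 554 0)) (move 591 (branch (move 588 (leaf 555 3)) (move 592 (leaf 556 3)))))) (move 622 (branch (move 493 (leaf 493 4)) (move 654 (branch (move 621 (leaf 525 4)) (move 686 (leaf 557 7)))))))))) (branch (ref 1) (branch (move 493 (branch (move 588 (branch (move 620 (leaf 492 5)) (move 461 (branch (move 556 (leaf 460 5)) (move 460 (branch (move 428 (leaf 428 7)) (move 492 (leaf 460 7)))))))) (branch (move 556 (branch (move 528 (leaf 524 1)) (move 588 (branch (move 461 (leaf 460 5)) (move 620 (leaf 492 5)))))) (move 492 (branch (move 528 (leaf 492 3)) (move 460 (leaf 460 7))))))) (move 622 (branch (move 590 (branch (move 493 (leaf 493 4)) (move 654 (branch (move 621 (leaf 525 4)) (move 686 (leaf 557 7)))))) (branch (move 493 (branch (move 590 (leaf 493 4)) (move 492 (branch (move 528 (leaf 492 3)) (move 460 (leaf 460 7)))))) (move 621 (branch (move 654 (leaf 525 4)) (move 623 (branch (move 528 (branch (move 556 (leaf 524 1)) (move 496 (branch (move 497 (leaf 493 2)) (move 591 (branch (move 559 (leaf 495 6)) (move 592 (branch (move 560 (leaf 495 5)) (move 593 (branch (move 594 (leaf 590 1)) (move 624 (leaf 589 2)))))))))))) (branch (move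 620 (branch (move 652 (leaf 524 5)) (move 528 (branch (move 556 (leaf 524 1)) (move 496 (branch (move 497 (leaf 493 2)) (move 591 (branch (move 592 (leaf 588 2)) (move 559 (leaf 495 6)))))))))) (move 652 (branch (move 620 (leaf 524 5)) (move 653 (branch (move 624 (leaf 620 1)) (move 684 (leaf 556 5))))))))))))))))))))
theorem a4p8 : a4e8.Valid :=
  pos_of_chk [a4e5, a4e7] (forall_cons a4p5 (forall_cons a4p7 forall_nil)) a4c8 a4e8 (by decide +kernel)

def a4e9 : Pos := ⟨768857337934628288077972889497116040334176753616050205852179907428780836540537477837726679754082910157457186875845856100157662655968264107008291168604886401024, 5922386523945953605890977557389297206170667407853122800499625506903267167169235773323864107631357115153822397067094902899555922104569222558297832477315285075794027116233527626911617481533390926503651609814325411430949931974656, 13⟩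
def a4c9 : Cert := (move 557 (branch (move 493 (branch (move 528 (branch (move 492 (leaf 492 3)) (move 529 (branch (move 558 (leaf 525 1)) (move 497 (branch (move 496 (leaf 493 2)) (move 498 (leaf 494 2)))))))) (branch (ref 0) (move 492 (branch (move 528 (leaf 492 3)) (move 460 (branch (move 589 (leaf 460 7)) (move 428 (branch (move 396 (leaf 396 4)) (move 461 (leaf 428 7))))))))))) (branch (ref 1) (branch (move 556 (branch (move 528 (leaf 524 1)) (move 555 (branch (move 554 (leaf 522 2)) (move 558 (leaf 523 2)))))) (ref 2)))))
theorem a4p9 : a4e9.Valid :=
  pos_of_chk [a4e4, a4e6, a4e8] (forall_cons a4p4 (forall_cons a4p6 (forall_cons a4p8 forall_nil))) a4c9 a4e9 (by decide +kernel)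

def a4e10 : Pos := ⟨768857337934628288077972889497116040334176753616050205852179907428780836540537477837726679754082910157457186875845856100157662655968264107008291168604886401024, 1013065331451047556125443450386850857245234490343446420861605643808884588579617367919159175257524825109304319514563672438477405461820783871641200766147910402350539810398489542656, 6⟩
def a4c10 : Cert := (move 524 (branch (move 559 (branch (move 560 (leaf 524 0)) (move 523 (branch (move 558 (leaf 523 0)) (move 491 (branch (move 490 (leaf 490 3)) (move 492 (leaf 491 3)))))))) (branch (move 559 (branch (move 560 (leaf 524 0)) (move 523 (branch (move 558 (leaf 523 0)) (move 555 (branch (move 554 (leaf 522 1)) (move 556 (leaf 523 1)))))))) (move 492 (branch (move 491 (leaf 491 3)) (move 556 (branch (move 555 (leaf 523 1)) (move 493 (branch (move 528 (leaf 492 3)) (move 461 (branch (move 429 (leaf 428 5)) (move 588 (leaf 460 6)))))))))))))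
theorem a4p10 : a4e10.Valid :=
  pos_of_chk [] forall_nil a4c10 a4e10 (by decide +kernel)

def a4e11 : Pos := ⟨768857337934628288077972889497116040334176753616050205852179907428780836540537477837726679754082910157457186875845856100157662655968264107008291168604886401024, 8702164876336042801286842206895600435656000346965191397550738844799858843749029565535617852728378689788373014908725741979202345775265015082313270251185119938455703953871941507777147437056, 6⟩
def a4c11 : Cert := (move 524 (branch (move 559 (branch (move 560 (leaf 524 0)) (move 523 (branch (move 558 (leaf 523 0)) (move 491 (branch (move 490 (leaf 490 3)) (move 492 (leaf 491 3)))))))) (branch (move 559 (branch (move 560 (leaf 524 0)) (move 523 (branch (move 558 (leaf 523 0)) (move 555 (branch (move 554 (leaf 522 1)) (move 556 (leaf 523 1)))))))) (move 556 (branch (move 555 (leaf 523 1)) (move 557 (branch (move 528 (leaf 524 1)) (move 492 (branch (move 491 (leaf 491 3)) (move 589 (branch (move 460 (leaf 460 4)) (move 621 (leaf 492 7)))))))))))))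
theorem a4p11 : a4e11.Valid :=
  pos_of_chk [] forall_nil a4c11 a4e11 (by decide +kernel)

def a4e12 : Pos := ⟨768857337934628288077972889497116040334176753616050205852179907428780836540537477837726679754082910157457186875845856100157662655968264107008291168604886401024, 18687756835046748204283605048685965605524195673921006680526410562480718264690295735751585374760411630204840883606105635734866164032361024647607842778602038917181077841368589494966539601392745578496, 13⟩
def a4c12 : Cert := (move 528 (branch (move 557 (branch (move 556 (leaf 524 1)) (move 558 (branch (move 529 (leaf 525 1)) (move 493 (branch (move 492 (leaf 492 3)) (move 590 (branch (move 461 (leaf 461 4)) (move 622 (leaf 493 7)))))))))) (branch (move 557 (branch (move 556 (leaf 524 1)) (move 529 (branch (move 558 (leaf 525 1)) (move 497 (branch (move 496 (leaf 493 2)) (move 498 (leaf 494 2)))))))) (branch (move 557 (branch (move 556 (leaf 524 1)) (move 493 (branch (move 492 (leaf 492 3)) (move 461 (branch (move 496 (branch (move 497 (leaf 493 2)) (move 430 (branch (move 462 (leaf 429 6)) (move 429 (branch (move 398 (leaf 397 6)) (move 428 (branch (move 396 (leaf 396 7))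 (move 460 (leaf 428 7)))))))))) (branch (move 590 (branch (move 558 (leaf 461 4)) (move 589 (branch (move 622 (leaf 493 4)) (move 620 (branch (move 588 (leaf 492 5)) (move 621 (branch (move 652 (leaf 524 5)) (move 496 (branch (move 497 (leaf 493 2)) (move 591 (branch (move 592 (leaf 588 1)) (move 559 (branch (move 623 (leaf 495 6)) (move 464 (branch (move 432 (leaf 431 5)) (move 560 (leaf 463 5)))))))))))))))))) (move 558 (branch (move 429 (leaf 429 4)) (move 590 (leaf 461 4))))))))))) (move 493 (branch (move 492 (leaf 492 3)) (move 529 (branch (move 494 (leaf 493 3)) (move 497 (branch (move 496 (leaf 493 2)) (move 498 (leaf 494 2))))))))))))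
theorem a4p12 : a4e12.Valid :=
  pos_of_chk [] forall_nil a4c12 a4e12 (by decide +kernel)

def a4e13 : Pos := ⟨768857337934628288077972889497116040334176753616050205852179907428780836540537477837726679754082910157457186875845856100157662655968264107008291168604886401024, 224253081298281293537212211518396253269083474893458174273750683180809363888128936102963857492890274984774025935855578613372470659123843277999754838575766320942940924076552727416458887195388268249088, 12⟩
def a4c13 : Cert := (move 494 (branch (move 524 (branch (move 555 (branch (move 556 (leaf 523 1)) (move 523 (branch (move 554 (leaf 522 1)) (move 522 (branch (move 493 (leaf 490 2)) (move 490 (branch (move 489 (leaf 489 3)) (move 491 (leaf 490 3)))))))))) (move 559 (branch (move 560 (leaf 524 0)) (move 462 (branch (move 430 (leaf 430 4)) (move 591 (branch (move 558 (leaf 462 4)) (move 623 (leaf 494 7)))))))))) (branch (move 528 (branch (move 557 (branch (move 556 (leaf 524 1)) (move 529 (branch (move 558 (leaf 525 1)) (move 497 (branch (move 496 (leaf 493 2)) (move 498 (leaf 494 2)))))))) (branch (move 529 (branch (move 493 (leaf 493 3)) (move 497 (branch (move 496 (leaf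 493 2)) (move 498 (leaf 494 2)))))) (move 557 (branch (move 556 (leaf 524 1)) (move 462 (branch (move 430 (leaf 429 5)) (move 589 (branch (move 558 (leaf 461 5)) (move 493 (leaf 461 6))))))))))) (branch (move 524 (branch (move 556 (branch (move 555 (leaf 523 1)) (move 557 (branch (move 528 (leaf 524 1)) (move 559 (branch (move 560 (leaf 524 0)) (move 589 (branch (move 621 (leaf 493 6)) (move 591 (branch (move 623 (leaf 494 7)) (move 592 (branch (move 558 (leaf 556 0)) (move 590 (leaf 556 3)))))))))))))) (branch (move 555 (branch (move 556 (leaf 523 1)) (move 523 (branch (move 554 (leaf 522 1)) (move 522 (branch (move 493 (leaf 490 2)) (move 490 (branch (move 489 (leaf 489 3)) (move 491 (leaf 490 3)))))))))) (move 559 (branch (move 560 (leaf 524 0)) (move 523 (branch (move 558 (leaf 523 0)) (move 522 (branch (move 493 (leaf 490 2)) (move 490 (branch (move 489 (leaf 489 3)) (move 491 (leaf 490 3))))))))))))) (branch (move 557 (branch (move 556 (branch (move 528 (leaf 524 1)) (move 555 (branch (move 524 (leaf 523 1)) (move 554 (leaf 522 2)))))) (move 462 (branch (move 430 (leaf 429 5)) (move 589 (branch (move 493 (leaf 461 6)) (move 621 (leaf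 493 6)))))))) (branch (move 462 (branch (move 430 (branch (move 559 (leaf 430 4)) (move 429 (branch (move 397 (leaf 397 7)) (move 461 (branch (move 558 (leaf 429 7)) (move 398 (branch (move 493 (leaf 397 5)) (move 399 (branch (move 367 (leaf 366 6)) (move 431 (leaf 398 6)))))))))))) (branch (move 430 (branch (move 557 (leaf 429 5)) (move 429 (branch (move 397 (leaf 397 7)) (move 461 (branch (move 558 (leaf 429 7)) (move 398 (branch (move 493 (leaf 397 5)) (move 399 (branch (move 367 (leaf 366 6)) (move 431 (leaf 398 6)))))))))))) (branch (move 430 (branch (move 559 (leaf 430 4)) (move 557 (leaf 429 5)))) (move 558 (branch (move 559 (branch (move 591 (leaf 462 4)) (move 524 (branch (move 523 (leaf 523 0)) (move 560 (leaf 524 0)))))) (branch (move 557 (branch (move 589 (leaf 461 5)) (move 461 (branch (move 429 (leaf 429 7)) (move 590 (branch (move 493 (leaf 461 4)) (move 622 (branch (move 654 (leaf 525 7)) (move 623 (branch (move 591 (leaf 494 4)) (move 655 (leaf 526 4)))))))))))) (move 557 (branch (move 589 (leaf 461 5)) (move 461 (branch (move 429 (leaf 429 7)) (move 493 (branch (move 590 (leaf 461 4)) (move 528 (branch (move 529 (leaf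 525 1)) (move 463 (branch (move 431 (leaf 430 6)) (move 464 (branch (move 465 (leaf 461 1)) (move 496 (branch (move 497 (leaf 461 0)) (move 432 (branch (move 433 (leaf 429 2)) (move 559 (leaf 431 5))))))))))))))))))))))))) (move 557 (branch (move 556 (branch (move 528 (leaf 524 1)) (move 555 (branch (move 524 (leaf 523 1)) (move 554 (leaf 522 2)))))) (branch (move 462 (branch (move 430 (leaf 429 5)) (move 558 (branch (move 589 (leaf 461 5)) (move 559 (branch (move 591 (leaf 462 4)) (move 524 (branch (move 523 (leaf 523 0)) (move 560 (leaf 524 0)))))))))) (move 462 (branch (move 430 (leaf 429 5)) (move 558 (branch (move 589 (leaf 461 5)) (move 556 (branch (move 528 (leaf 524 1)) (move 555 (leaf 523 2)))))))))))))))))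
theorem a4p13 : a4e13.Valid :=
  pos_of_chk [] forall_nil a4c13 a4e13 (by decide +kernel)

def a4e14 : Pos := ⟨768857337934628288077972889497116040334176753616050205852179907428780836540537477837726679754082910157457186875845856100157662655968264107008291168604886401024, 28031635169899555956919433235394443840071065225346607973110545732864929231539208611620318641118670505893631147568224851826740284585618526722393566126935144405126267490921967164061415346599865876480, 10⟩
def a4c14 : Cert := (move 492 (branch (move 493 (branch (move 528 (leaf 492 3)) (move 491 (branch (move 490 (leaf 490 0)) (move 494 (leaf 491 0)))))) (branch (move 524 (branch (move 491 (leaf 491 3)) (move 556 (branch (move 555 (leaf 523 1)) (move 557 (branch (move 528 (leaf 524 1)) (move 589 (branch (move 460 (leaf 460 4)) (move 621 (leaf 492 7)))))))))) (branch (move 491 (branch (move 524 (leaf 491 3)) (move 493 (branch (move 490 (leaf 490 0)) (move 494 (leaf 491 0)))))) (move 557 (branch (move 493 (branch (move 528 (leaf 492 3)) (move 460 (branch (move 589 (leaf 460 7)) (move 428 (branch (move 396 (leaf 396 4)) (move 461 (leaf 428 7)))))))) (branch (move 556 (branch (move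 528 (leaf 524 1)) (move 524 (branch (move 555 (leaf 523 1)) (move 589 (branch (move 460 (leaf 460 4)) (move 621 (leaf 492 7)))))))) (branch (move 528 (branch (move 556 (leaf 524 1)) (move 493 (leaf 492 3)))) (move 460 (branch (move 493 (branch (move 589 (leaf 460 7)) (move 428 (branch (move 396 (leaf 396 4)) (move 461 (leaf 428 7)))))) (branch (move 524 (branch (move 428 (leaf 428 4)) (move 556 (branch (move 555 (leaf 523 1)) (move 461 (branch (move 429 (leaf 428 6)) (move 588 (branch (move 493 (leaf 460 5)) (move 620 (branch (move 652 (leaf 524 6)) (move 619 (branch (move 587 (leaf 491 5)) (move 651 (leaf 523 5)))))))))))))) (branch (move 524 (branch (move 428 (leaf 428 4)) (move 556 (branch (move 555 (leaf 523 1)) (move 589 (leaf 460 4)))))) (move 589 (branch (move 493 (leaf 460 7)) (move 524 (branch (move 556 (leaf 460 4)) (move 621 (leaf 492 7))))))))))))))))))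
theorem a4p14 : a4e14.Valid :=
  pos_of_chk [] forall_nil a4c14 a4e14 (by decide +kernel)

def a4e15 : Pos := ⟨768857337934628288077972889497116040334176753616050205852179907428780836540537477837726679754082910157457186875845856100157662655968264107008291168604886401024, 34808659505344171182474110199611914519849296894757832732298810149249484934808495046832421750456991270904692394586995341425582436368789167182623857614562251564905919660599579495547229175808, 10⟩
def a4c15 : Cert := (move 528 (branch (move 492 (branch (move 493 (leaf 492 3)) (move 524 (branch (move 491 (leaf 491 3)) (move 559 (branch (move 560 (leaf 524 0)) (move 558 (branch (move 523 (leaf 523 0)) (move 529 (branch (move 557 (leaf 525 1)) (move 530 (leaf 526 1)))))))))))) (branch (move 493 (branch (move 492 (leaf 492 3)) (move 529 (branch (move 494 (leaf 493 3)) (move 497 (branch (move 496 (leaf 493 2)) (move 498 (leaf 494 2)))))))) (branch (move 497 (branch (move 496 (leaf 493 2)) (move 529 (branch (move 498 (leaf 494 2)) (move 558 (branch (move 557 (leaf 525 1)) (move 559 (branch (move 530 (leaf 526 1)) (move 524 (branch (move 523 (leaf 523 0)) (move 560 (leaf 524 0))))))))))))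 (move 496 (branch (move 497 (leaf 493 2)) (move 524 (branch (move 559 (branch (move 560 (leaf 524 0)) (move 523 (branch (move 558 (leaf 523 0)) (move 591 (branch (move 623 (leaf 495 6)) (move 554 (branch (move 555 (leaf 522 1)) (move 522 (branch (move 553 (leaf 521 1)) (move 490 (branch (move 489 (leaf 489 3)) (move 491 (leaf 490 3)))))))))))))) (branch (move 492 (branch (move 491 (leaf 491 3)) (move 493 (leaf 492 3)))) (move 559 (branch (move 560 (leaf 524 0)) (move 523 (branch (move 558 (leaf 523 0)) (move 493 (branch (move 492 (leaf 492 3)) (move 522 (branch (move 494 (leaf 490 2)) (move 554 (branch (move 553 (leaf 521 1)) (move 555 (leaf 522 1)))))))))))))))))))))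
theorem a4p15 : a4e15.Valid :=
  pos_of_chk [] forall_nil a4c15 a4e15 (by decide +kernel)

def a4e16 : Pos := ⟨659020575730565630376902993744506371948384446087452543087828703431547138991689614985527004943857303625966213081960393448015593614605935240713321581154853191680, 13053247314504064191404446233615177301615207075605682751970038594294891114665558666691745231028533049791435901418028961337711623580245015564248543185124608582060773176992619934837708423168, 9⟩
def a4c16 : Cert := (move 493 (branch (move 524 (branch (move 525 (leaf 492 1)) (move 492 (branch (move 491 (leaf 491 0)) (move 523 (leaf 491 1)))))) (branch (move 525 (branch (move 524 (leaf 492 1)) (move 461 (branch (move 460 (leaf 460 3)) (move 429 (branch (move 397 (leaf 397 4)) (move 430 (branch (move 398 (leaf 397 6)) (move 557 (branch (move 462 (leaf 429 5)) (move 589 (branch (move 621 (leaf 493 6)) (move 588 (branch (move 556 (leaf 460 5)) (move 620 (leaf 492 5)))))))))))))))) (move 492 (branch (move 491 (leaf 491 0)) (move 460 (branch (move 459 (leaf 459 3)) (move 461 (leaf 460 3)))))))))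
theorem a4p16 : a4e16.Valid :=
  pos_of_chk [] forall_nil a4c16 a4e16 (by decide +kernel)

def a4e17 : Pos := ⟨659020575525978717383394126868682015896659499073912415210137154088841428485681252710234845263652922855597203260029975690043089176529856706595484515321820217344, 13053247314504064191404446238887341906027623727999783352326557420616166769659640212341047599473114424291895767931050081592405495725352074219784770834419282236816297087850579634240364740608, 12⟩
def a4c17 : Cert := (move 496 (branch (move 497 (branch (move 498 (leaf 494 1)) (move 529 (branch (move 530 (leaf 494 0)) (move 462 (branch (move 461 (leaf 461 3)) (move 430 (branch (move 398 (leaf 398 4)) (move 465 (branch (move 466 (leaf 462 2)) (move 431 (branch (move 399 (leaf 398 6)) (move 429 (branch (move 397 (leaf 397 7)) (move 432 (branch (move 464 (leaf 429 0)) (move 433 (branch (move 400 (leaf 400 7)) (move 402 (branch (move 401 (leaf 398 2)) (move 434 (leaf 401 6)))))))))))))))))))))) (branch (move 525 (branch (move 497 (leaf 493 1)) (move 524 (leaf 492 2)))) (ref 0))))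
theorem a4p17 : a4e17.Valid :=
  pos_of_chk [a4e16] (forall_cons a4p16 forall_nil) a4c17 a4e17 (by decide +kernel)

def a4e18 : Pos := ⟨659020575474831989135016910149725926883728262320527383240714266753165000859179162141411805343601827663004950804547371250549963067010837073066025248863561973760, 117479225830536577722640016106271045642773143387044225455181495372195571960365157289913430422565787718863587334618162954348640291638889885241669622067374579267067404396444773268470749986816, 13⟩
def a4c18 : Cert := (move 494 (branch (move 496 (branch (move 497 (branch (move 498 (leaf 494 1)) (move 465 (branch (move 466 (leaf 462 2)) (move 493 (branch (move 464 (leaf 461 2)) (move 492 (branch (move 491 (leaf 491 0)) (move 460 (branch (move 459 (leaf 459 3)) (move 461 (leaf 460 3)))))))))))) (branch (move 525 (branch (move 497 (leaf 493 1)) (move 524 (leaf 492 2)))) (move 493 (branch (move 464 (branch (move 465 (leaf 461 2)) (move 559 (branch (move 591 (leaf 463 6)) (move 432 (branch (move 400 (leaf 399 5)) (move 463 (leaf 431 6)))))))) (move 524 (branch (move 525 (leaf 492 1)) (move 492 (branch (move 491 (leaf 491 0)) (move 523 (leaf 491 1)))))))))))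 (branch (ref 0) (branch (move 559 (branch (move 462 (branch (move 430 (leaf 430 4)) (move 591 (leaf 462 7)))) (branch (move 591 (branch (move 623 (leaf 494 7)) (move 592 (branch (move 624 (leaf 495 4)) (move 463 (branch (move 560 (leaf 463 4)) (move 431 (branch (move 399 (leaf 398 5)) (move 432 (branch (move 400 (leaf 399 6)) (move 464 (leaf 431 6)))))))))))) (move 463 (branch (move 430 (branch (move 462 (leaf 430 4)) (move 431 (branch (move 399 (leaf 398 5)) (move 398 (leaf 398 7)))))) (branch (move 462 (branch (move 430 (leaf 430 4)) (move 464 (branch (move 432 (leaf 431 6)) (move 465 (branch (move 466 (leaf 462 1)) (move 497 (branch (move 498 (leaf 462 0)) (move 461 (branch (move 496 (leaf 461 0)) (move 460 (branch (move 459 (leaf 459 0)) (move 428 (branch (move 427 (leaf 427 3)) (move 429 (leaf 428 3)))))))))))))))) (move 431 (branch (move 399 (leaf 398 5)) (move 432 (branch (move 400 (leaf 399 6)) (move 464 (leaf 431 6)))))))))))) (branch (move 496 (branch (move 525 (branch (move 497 (leaf 493 1)) (move 524 (leaf 492 2)))) (branch (ref 1) (move 497 (branch (move 498 (leaf 494 1)) (move 462 (branch (move 461 (leaf 461 3)) (move 430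 (branch (move 398 (leaf 398 4)) (move 559 (leaf 430 4))))))))))) (move 559 (branch (move 462 (branch (move 430 (leaf 430 4)) (move 591 (leaf 462 7)))) (branch (move 591 (branch (move 623 (leaf 494 7)) (move 592 (branch (move 624 (leaf 495 4)) (move 463 (branch (move 560 (leaf 463 4)) (move 431 (branch (move 399 (leaf 398 5)) (move 432 (branch (move 400 (leaf 399 6)) (move 464 (leaf 431 6)))))))))))) (move 463 (branch (move 430 (branch (move 462 (leaf 430 4)) (move 431 (branch (move 399 (leaf 398 5)) (move 398 (leaf 398 7)))))) (branch (move 431 (branch (move 399 (leaf 398 5)) (move 432 (branch (move 400 (leaf 399 6)) (move 464 (leaf 431 6)))))) (move 462 (branch (move 430 (leaf 430 4)) (move 464 (branch (move 432 (leaf 431 6)) (move 493 (branch (move 465 (leaf 461 1)) (move 492 (leaf 460 2)))))))))))))))))))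
theorem a4p18 : a4e18.Valid :=
  pos_of_chk [a4e17, a4e16] (forall_cons a4p17 (forall_cons a4p16 forall_nil)) a4c18 a4e18 (by decide +kernel)

def a4e19 : Pos := ⟨8104522597357670585164337860367408402700335402956696107395966698560686805654362571386167256877054622949377686402032869050252402698596287213728911793670389525073743980456832925696, 37375513642899231169763810026563982830736180024084979643408935346329226884514775051447543490146799736316803066717750888533226871383266663577898029746103770933691947092628879157751166690826729291776, 7⟩
def a4c19 : Cert := (move 590 (branch (move 622 (leaf 494 5)) (move 589 (branch (move 588 (branch (move 560 (leaf 556 2)) (move 587 (branch (move 558 (leaf 555 2)) (move 619 (branch (move 618 (leaf 586 1)) (move 620 (leaf 587 1)))))))) (branch (move 592 (branch (move 624 (leaf 495 4)) (move 557 (branch (move 556 (leaf 556 3)) (move 558 (branch (move 593 (leaf 557 3)) (move 621 (branch (move 620 (leaf 588 1)) (move 653 (leaf 525 6)))))))))) (move 592 (branch (move 624 (leaf 495 4)) (move 588 (branch (move 560 (leaf 556 2)) (move 556 (branch (move 555 (leaf 555 3)) (move 557 (leaf 556 3)))))))))))))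
theorem a4p19 : a4e19.Valid :=
  pos_of_chk [] forall_nil a4c19 a4e19 (by decide +kernel)

def a4e20 : Pos := ⟨1886981213069791251595609279629151355608186537091948476508630533363526347949239426902242524730241189114336015178386873254432663565512359383291554198782373270688259637248, 373755135517440540579789377053081753209968621644967612789131073766903713482698409060419765853788106289594724066179354569456137280553605557002842936339687244434871325300329559960816136741355794726912, 7⟩
def a4c20 : Cert := (move 463 (branch (move 432 (branch (move 464 (leaf 431 6)) (move 431 (branch (move 400 (leaf 399 6)) (move 399 (branch (move 494 (leaf 398 5)) (move 398 (branch (move 366 (leaf 366 7)) (move 430 (leaf 398 7)))))))))) (branch (move 462 (branch (move 430 (leaf 430 7)) (move 591 (branch (move 494 (leaf 462 7)) (move 624 (branch (move 592 (leaf 495 4)) (move 623 (branch (move 656 (leaf 527 4)) (move 622 (branch (move 590 (leaf 494 5)) (move 654 (leaf 526 5)))))))))))) (move 558 (branch (move 431 (leaf 430 5)) (move 590 (leaf 462 5)))))))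
theorem a4p20 : a4e20.Valid :=
  pos_of_chk [] forall_nil a4c20 a4e20 (by decide +kernel)

def a4e21 : Pos := ⟨1886981213069791251595609279652968406925904983681468719045504665945226468056241465101546395576992377307235838329939501604221268081807425691285684317308435096854704685056, 23300502467521239256420674695896869616265138254872678474269358771087225076433215859801960528832950681319310855484192231858568745253390287344415642607012910330534509342374634717184, 8⟩
def a4c21 : Cert := (move 558 (branch (move 590 (leaf 462 5)) (move 557 (branch (move 462 (branch (move 430 (leaf 430 7)) (move 556 (branch (move 555 (leaf 523 2)) (move 494 (branch (move 589 (leaf 461 5)) (move 464 (branch (move 432 (leaf 431 6)) (move 493 (branch (move 465 (leaf 461 1)) (move 492 (leaf 460 2)))))))))))) (branch (move 560 (branch (move 592 (leaf 463 4)) (move 525 (branch (move 524 (leaf 524 0)) (move 462 (branch (move 430 (leaf 430 7)) (move 589 (branch (move 588 (leaf 556 1)) (move 494 (leaf 461 5)))))))))) (move 556 (branch (move 555 (leaf 523 2)) (move 524 (branch (move 523 (leaf 523 3)) (move 560 (branch (move 525 (leaf 524 0)) (move 592 (leaf 463 4)))))))))))))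
theorem a4p21 : a4e21.Valid :=
  pos_of_chk [] forall_nil a4c21 a4e21 (by decide +kernel)

def a4e22 : Pos := ⟨659020575474831989135016910149725926883728262320527383240714266753165000859179162141411805343601827663004950804547371250549963067010837073066025248863561973760, 1605266083796830672970633835441915935928042428118943924820511383411188088321908972169028855113866010114071424388644196969553840643620299853235601256083488065346853610379982454100702731612004294111102297440256, 10⟩
def a4c22 : Cert := (move 559 (branch (move 591 (branch (move 494 (branch (move 462 (leaf 462 7)) (move 623 (leaf 494 7)))) (ref 0))) (branch (ref 1) (branch (move 494 (branch (move 462 (branch (move 430 (leaf 430 4)) (move 591 (leaf 462 7)))) (branch (move 591 (branch (move 623 (leaf 494 7)) (move 592 (branch (move 624 (leaf 495 4)) (move 463 (branch (move 560 (leaf 463 4)) (move 431 (branch (move 399 (leaf 398 5)) (move 432 (branch (move 400 (leaf 399 6)) (move 464 (leaf 431 6)))))))))))) (move 463 (branch (move 430 (branch (move 462 (leaf 430 4)) (move 431 (branch (move 399 (leaf 398 5)) (move 398 (leaf 398 7)))))) (branch (move 431 (branch (move 399 (leaf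 398 5)) (move 432 (branch (move 400 (leaf 399 6)) (move 464 (leaf 431 6)))))) (move 462 (branch (move 430 (leaf 430 4)) (move 464 (branch (move 432 (leaf 431 6)) (move 493 (branch (move 465 (leaf 461 1)) (move 492 (leaf 460 2)))))))))))))) (branch (move 591 (branch (move 622 (branch (move 590 (leaf 494 5)) (move 623 (branch (move 654 (leaf 526 5)) (move 624 (branch (move 592 (leaf 495 4)) (move 656 (leaf 527 4)))))))) (branch (move 624 (branch (move 592 (leaf 495 4)) (move 623 (branch (move 656 (leaf 527 4)) (move 655 (branch (move 558 (leaf 526 7)) (move 654 (branch (move 622 (leaf 526 5)) (move 686 (leaf 558 5)))))))))) (branch (move 622 (branch (move 590 (leaf 494 5)) (move 623 (branch (move 654 (leaf 526 5)) (move 655 (branch (move 558 (leaf 526 7)) (move 656 (branch (move 624 (leaf 527 4)) (move 688 (leaf 559 4)))))))))) (branch (move 592 (branch (move 624 (leaf 495 4)) (move 463 (branch (move 560 (leaf 463 4)) (move 558 (branch (move 431 (leaf 430 5)) (move 590 (leaf 462 5)))))))) (move 590 (branch (move 622 (leaf 494 5)) (move 463 (branch (move 558 (leaf 462 5)) (move 560 (branch (move 592 (leaf 463 4)) (move 432 (branch (move 464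 (leaf 431 6)) (move 431 (branch (move 400 (leaf 399 6)) (move 430 (branch (move 398 (leaf 398 7)) (move 462 (leaf 430 7))))))))))))))))))) (branch (move 463 (branch (move 432 (branch (move 464 (leaf 431 6)) (move 431 (branch (move 400 (leaf 399 6)) (move 399 (branch (move 494 (leaf 398 5)) (move 398 (branch (move 366 (leaf 366 7)) (move 430 (leaf 398 7)))))))))) (branch (move 558 (branch (move 590 (leaf 462 5)) (move 592 (branch (move 560 (leaf 463 4)) (move 591 (branch (move 624 (leaf 495 4)) (move 623 (branch (move 494 (leaf 494 7)) (move 655 (leaf 526 7)))))))))) (move 558 (branch (move 431 (leaf 430 5)) (move 590 (leaf 462 5))))))) (branch (move 494 (branch (move 462 (branch (move 430 (leaf 430 4)) (move 591 (leaf 462 7)))) (branch (move 463 (branch (move 430 (branch (move 462 (leaf 430 4)) (move 431 (branch (move 399 (leaf 398 5)) (move 398 (leaf 398 7)))))) (branch (move 431 (branch (move 399 (leaf 398 5)) (move 432 (branch (move 400 (leaf 399 6)) (move 464 (leaf 431 6)))))) (move 462 (branch (move 430 (leaf 430 4)) (move 464 (branch (move 432 (leaf 431 6)) (move 493 (branch (move 465 (leaf 461 1)) (move 492 (leaf 460 2)))))))))))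 (move 591 (branch (move 623 (leaf 494 7)) (move 590 (branch (move 622 (leaf 494 5)) (move 558 (branch (move 463 (leaf 462 5)) (move 589 (branch (move 621 (leaf 493 5)) (move 588 (branch (move 587 (leaf 555 2)) (move 560 (leaf 556 2))))))))))))))) (move 463 (branch (move 432 (branch (move 464 (leaf 431 6)) (move 431 (branch (move 400 (leaf 399 6)) (move 399 (branch (move 494 (leaf 398 5)) (move 398 (branch (move 366 (leaf 366 7)) (move 430 (leaf 398 7)))))))))) (branch (move 558 (branch (move 431 (leaf 430 5)) (move 590 (leaf 462 5)))) (ref 2)))))))))))
theorem a4p22 : a4e22.Valid :=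
  pos_of_chk [a4e19, a4e20, a4e21] (forall_cons a4p19 (forall_cons a4p20 (forall_cons a4p21 forall_nil))) a4c22 a4e22 (by decide +kernel)

def a4e23 : Pos := ⟨659020575474831989158833961467444373473248504857401515822414386860167039058483032988162993536501650814557579154335975766845029375004967191592087075030007021568, 69617319018792864951986462466028567590365955760691706565670102928456251352149650177697385758198709367378262563783652430025259747303789978224657805927323210141271237795768326950977689092096, 14⟩
def a4c23 : Cert := (move 430 (branch (move 559 (branch (move 462 (leaf 430 7)) (move 464 (branch (move 432 (leaf 431 6)) (move 591 (branch (move 496 (leaf 463 6)) (move 592 (branch (move 560 (leaf 463 4)) (move 624 (leaf 495 4)))))))))) (branch (move 431 (branch (move 398 (leaf 398 7)) (move 432 (branch (move 400 (leaf 399 6)) (move 464 (branch (move 559 (leaf 431 6)) (move 465 (branch (move 429 (leaf 429 0)) (move 466 (leaf 430 3)))))))))) (branch (move 462 (branch (move 559 (leaf 430 7)) (move 398 (branch (move 366 (leaf 366 4)) (move 431 (leaf 398 7)))))) (move 431 (branch (move 398 (leaf 398 7)) (move 464 (branch (move 465 (branch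 (move 466 (leaf 430 3)) (move 429 (branch (move 428 (leaf 428 0)) (move 462 (leaf 429 3)))))) (branch (move 432 (branch (move 400 (leaf 399 6)) (move 465 (branch (move 429 (leaf 429 0)) (move 466 (leaf 430 3)))))) (branch (move 400 (branch (move 432 (leaf 399 6)) (move 399 (branch (move 368 (leaf 367 6)) (move 496 (branch (move 367 (leaf 367 4)) (move 497 (branch (move 498 (leaf 494 1)) (move 465 (branch (move 466 (leaf 430 3)) (move 462 (branch (move 461 (leaf 461 0)) (move 433 (branch (move 434 (leaf 430 2)) (move 401 (branch (move 402 (leaf 398 1)) (move 369 (leaf 368 5)))))))))))))))))) (move 432 (branch (move 400 (leaf 399 6)) (move 429 (branch (move 428 (leaf 428 0)) (move 461 (branch (move 460 (leaf 428 1)) (move 462 (branch (move 433 (leaf 429 1)) (move 496 (branch (move 497 (leaf 461 0)) (move 367 (branch (move 399 (leaf 367 4)) (move 397 (branch (move 396 (leaf 396 3)) (move 365 (branch (move 333 (leaf 333 4)) (move 493 (branch (move 492 (leaf 460 1)) (move 525 (branch (move 524 (leaf 492 2)) (move 557 (leaf 429 6))))))))))))))))))))))))))))))))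
theorem a4p23 : a4e23.Valid :=
  pos_of_chk [] forall_nil a4c23 a4e23 (by decide +kernel)

def a4e24 : Pos := ⟨1886981213069791251595609279652968406925904983681468719045504665945226468056241465101546395576992377307235838329939501604221268081807425691285684317308435096854704685056, 20261306493394176461428048362461523357824318248581136479760013635145196974145115453099370049748066620034749603544644758187191752312229640700846231108924505906241304296751703785472, 11⟩
def a4c24 : Cert := (move 462 (branch (move 430 (leaf 430 7)) (move 464 (branch (move 432 (leaf 431 6)) (move 465 (branch (move 497 (branch (move 498 (leaf 462 0)) (move 461 (branch (move 496 (leaf 461 0)) (move 434 (branch (move 433 (leaf 430 2)) (move 466 (branch (move 435 (leaf 431 2)) (move 492 (branch (move 493 (leaf 460 1)) (move 460 (branch (move 491 (leaf 459 1)) (move 428 (branch (move 427 (leaf 427 3)) (move 429 (leaf 428 3)))))))))))))))) (branch (move 558 (branch (move 590 (leaf 462 5)) (move 498 (branch (move 497 (leaf 462 0)) (move 466 (branch (move 499 (leaf 463 0)) (move 434 (branch (move 433 (leaf 430 2)) (move 435 (leaf 431 2)))))))))) (branch (move 497 (branch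 (move 498 (leaf 462 0)) (move 461 (branch (move 496 (leaf 461 0)) (move 558 (branch (move 590 (leaf 462 5)) (move 492 (branch (move 493 (leaf 460 1)) (move 460 (branch (move 491 (leaf 459 1)) (move 428 (branch (move 427 (leaf 427 3)) (move 429 (leaf 428 3)))))))))))))) (branch (move 558 (branch (move 590 (leaf 462 5)) (move 560 (branch (move 592 (leaf 463 4)) (move 525 (branch (move 524 (leaf 524 0)) (move 434 (branch (move 433 (leaf 430 2)) (move 466 (branch (move 435 (leaf 431 2)) (move 467 (branch (move 496 (leaf 463 1)) (move 499 (branch (move 498 (leaf 463 0)) (move 500 (leaf 464 0)))))))))))))))) (move 558 (branch (move 590 (leaf 462 5)) (move 560 (branch (move 592 (leaf 463 4)) (move 525 (branch (move 524 (leaf 524 0)) (move 434 (branch (move 433 (leaf 430 2)) (move 466 (branch (move 435 (leaf 431 2)) (move 496 (branch (move 467 (leaf 463 1)) (move 461 (branch (move 460 (leaf 460 0)) (move 497 (leaf 461 0)))))))))))))))))))))))))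
theorem a4p24 : a4e24.Valid :=
  pos_of_chk [] forall_nil a4c24 a4e24 (by decide +kernel)

def a4e25 : Pos := ⟨659020575525978717383394126868682015896659499073912415210137154088841428485681252710234845263652922855597203260029975690043089176529856706595484515321820217344, 26106494637112650980166563051351243219705503749385424146112747257604118290490171035249665393989229338437591254886112225878285093364383833110317978216731489201755792323581748122128236937216, 7⟩
def a4c25 : Cert := (move 462 (branch (move 559 (branch (move 430 (leaf 430 4)) (move 591 (leaf 462 7)))) (branch (move 558 (branch (move 590 (branch (move 622 (leaf 494 6)) (move 589 (branch (move 557 (leaf 461 5)) (move 621 (leaf 493 5)))))) (move 559 (branch (move 591 (leaf 462 4)) (move 461 (branch (move 429 (leaf 429 7)) (move 496 (branch (move 497 (leaf 461 3)) (move 460 (branch (move 459 (leaf 459 0)) (move 493 (leaf 460 3)))))))))))) (move 430 (branch (move 398 (leaf 398 4)) (move 429 (branch (move 397 (leaf 397 7)) (move 558 (branch (move 461 (leaf 429 7)) (move 590 (branch (move 622 (leaf 494 6)) (move 589 (branch (move 557 (leaf 461 5)) (move 621 (leaf 493 5)))))))))))))))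
theorem a4p25 : a4e25.Valid :=
  pos_of_chk [] forall_nil a4c25 a4e25 (by decide +kernel)

def a4e26 : Pos := ⟨659020575525978717383394126868682015896659499073912415210137154088841428485681252710234845263652922855597203260029975690043089176529856706595484515321820217344, 4052261298678835292444872978406807057317903279938567578071311776833994557027322026887913329899457508675735407484510129323533196929639090104054996050397483362619787878122601316352, 7⟩
def a4c26 : Cert := (move 496 (branch (move 497 (branch (move 498 (leaf 494 1)) (move 465 (branch (move 466 (leaf 462 2)) (move 493 (branch (move 464 (leaf 461 2)) (move 492 (branch (move 491 (leaf 491 0)) (move 460 (branch (move 459 (leaf 459 3)) (move 461 (leaf 460 3)))))))))))) (branch (move 525 (branch (move 497 (leaf 493 1)) (move 524 (leaf 492 2)))) (move 493 (branch (move 524 (branch (move 525 (leaf 492 1)) (move 492 (branch (move 491 (leaf 491 0)) (move 523 (leaf 491 1)))))) (branch (move 492 (branch (move 491 (leaf 491 0)) (move 460 (branch (move 459 (leaf 459 3)) (move 461 (leaf 460 3)))))) (move 525 (branch (move 524 (leaf 492 1)) (move 461 (branch (move 460 (leaf 460 3)) (move 558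 (branch (move 429 (leaf 429 4)) (move 590 (leaf 461 7))))))))))))))
theorem a4p26 : a4e26.Valid :=
  pos_of_chk [] forall_nil a4c26 a4e26 (by decide +kernel)

def a4e27 : Pos := ⟨659020575474831989135016910149725926883728262320527383240714266753165000859179162141411805343601827663004950804547371250549963067010837073066025248863561973760, 65266236573026853623131048003660152853992989267364285969393792117042464909592636717946390906323492561258804498274495246227687920694106854617420002973618697133483538414609055793916311240704, 11⟩
def a4c27 : Cert := (move 494 (branch (ref 0) (branch (move 496 (branch (move 525 (branch (move 497 (leaf 493 1)) (move 524 (leaf 492 2)))) (branch (ref 1) (move 497 (branch (move 498 (leaf 494 1)) (move 462 (branch (move 461 (leaf 461 3)) (move 430 (branch (move 398 (leaf 398 4)) (move 559 (leaf 430 4))))))))))) (branch (ref 2) (branch (move 462 (branch (move 559 (branch (move 430 (leaf 430 4)) (move 591 (leaf 462 7)))) (branch (move 558 (branch (move 590 (branch (move 622 (leaf 494 6)) (move 589 (branch (move 557 (leaf 461 5)) (move 621 (leaf 493 5)))))) (branch (move 591 (branch (move 559 (leaf 462 4)) (move 590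 (branch (move 623 (leaf 494 4)) (move 622 (leaf 494 6)))))) (move 559 (branch (move 591 (leaf 462 4)) (move 557 (branch (move 589 (leaf 461 5)) (move 556 (branch (move 555 (leaf 523 2)) (move 524 (branch (move 523 (leaf 523 3)) (move 525 (branch (move 560 (leaf 524 0)) (move 496 (leaf 492 2))))))))))))))) (move 430 (branch (move 398 (leaf 398 4)) (move 525 (branch (move 557 (leaf 429 5)) (move 496 (branch (move 497 (leaf 493 1)) (move 524 (leaf 492 2))))))))))) (move 462 (branch (move 559 (branch (move 430 (leaf 430 4)) (move 591 (leaf 462 7)))) (branch (move 430 (branch (move 398 (leaf 398 4)) (move 429 (branch (move 397 (leaf 397 7)) (move 558 (branch (move 461 (leaf 429 7)) (move 590 (branch (move 622 (leaf 494 6)) (move 589 (branch (move 557 (leaf 461 5)) (move 621 (leaf 493 5)))))))))))) (move 558 (branch (move 590 (branch (move 622 (leaf 494 6)) (move 589 (branch (move 557 (leaf 461 5)) (move 621 (leaf 493 5)))))) (branch (move 591 (branch (move 559 (leaf 462 4)) (move 590 (branch (move 623 (leaf 494 4)) (move 622 (leaf 494 6)))))) (move 559 (branch (move 591 (leaf 462 4)) (move 557 (branch (move 589 (leaf 461 5)) (move 556 (branch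 (move 555 (leaf 523 2)) (move 524 (branch (move 523 (leaf 523 3)) (move 525 (branch (move 560 (leaf 524 0)) (move 461 (branch (move 429 (leaf 429 7)) (move 588 (branch (move 587 (leaf 555 1)) (move 493 (leaf 460 5)))))))))))))))))))))))))))
theorem a4p27 : a4e27.Valid :=
  pos_of_chk [a4e25, a4e16, a4e26] (forall_cons a4p25 (forall_cons a4p16 (forall_cons a4p26 forall_nil))) a4c27 a4e27 (by decide +kernel)

def a4e28 : Pos := ⟨1886981213069791251595609279652968406925904983681468719045504665945226468056241465101546395576992377307235838329939501604221268081807425691285684317308435096854704685056, 37375513548263188129225425068565157051857557780678770543350057102604412629655337097742675563561842350259429805880973415237923725354994970118318879091322683055962121222325520162007335735190410493952, 8⟩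
def a4c28 : Cert := (move 558 (branch (move 590 (leaf 462 5)) (move 557 (branch (move 556 (branch (move 555 (leaf 523 2)) (move 560 (branch (move 592 (leaf 463 4)) (move 588 (branch (move 587 (leaf 555 1)) (move 589 (leaf 556 1)))))))) (branch (move 556 (branch (move 555 (leaf 523 2)) (move 524 (branch (move 523 (leaf 523 3)) (move 525 (branch (move 496 (leaf 492 2)) (move 492 (branch (move 491 (leaf 491 3)) (move 589 (branch (move 460 (leaf 460 4)) (move 621 (leaf 492 7)))))))))))) (branch (move 556 (branch (move 555 (leaf 523 2)) (move 524 (branch (move 523 (leaf 523 3)) (move 525 (branch (move 560 (leaf 524 0)) (move 496 (leaf 492 2)))))))) (move 560 (branch (move 592 (leaf 463 4)) (move 525 (branch (move 524 (leaf 524 0)) (move 589 (branch (move 588 (leaf 556 1)) (move 621 (branch (move 494 (leaf 493 6)) (move 653 (leaf 525 6))))))))))))))))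
theorem a4p28 : a4e28.Valid :=
  pos_of_chk [] forall_nil a4c28 a4e28 (by decide +kernel)

def a4e29 : Pos := ⟨659020575474831989158833961467444373473248504857401515822414386860167039058483032988162993536501650814557579154335975766845029375004967191592087075030007021568, 186877567810933259553482804580672531884331938673108802452258282480977672184521982976643085649584350503228932483495494714428673449056974765783860761227593124182130328457772838075633403945359184494592, 9⟩
def a4c29 : Cert := (move 559 (branch (move 464 (branch (move 432 (leaf 431 6)) (move 591 (branch (move 496 (leaf 463 6)) (move 592 (branch (move 560 (leaf 463 4)) (move 624 (leaf 495 4)))))))) (branch (move 558 (branch (move 590 (leaf 462 5)) (move 592 (branch (move 560 (leaf 463 4)) (move 591 (branch (move 624 (leaf 495 4)) (move 623 (branch (move 494 (leaf 494 7)) (move 655 (leaf 526 7)))))))))) (branch (move 558 (branch (move 590 (leaf 462 5)) (move 464 (branch (move 432 (leaf 431 6)) (move 591 (branch (move 496 (leaf 463 6)) (move 623 (branch (move 494 (leaf 494 7)) (move 655 (leaf 526 7)))))))))) (ref 0)))))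
theorem a4p29 : a4e29.Valid :=
  pos_of_chk [a4e28] (forall_cons a4p28 forall_nil) a4c29 a4e29 (by decide +kernel)

def a4e30 : Pos := ⟨1886981213069791251595609279652968406925904983681468719045504665945226468056241465101546395576992377307235838329939501604221268081807425691285684317308435096854704685056, 4052261298678835292252658642740381894566595446611151581329096934074282278482938258963883936377993313111498931394330843570277504467736572704405270148262109424569018321352251146240, 6⟩
def a4c30 : Cert := (move 494 (branch (move 464 (branch (move 432 (leaf 431 6)) (move 493 (branch (move 492 (leaf 460 2)) (move 465 (branch (move 466 (leaf 462 1)) (move 496 (leaf 461 2)))))))) (branch (move 462 (branch (move 430 (leaf 430 4)) (move 558 (branch (move 590 (leaf 462 5)) (move 461 (branch (move 429 (leaf 429 7)) (move 460 (branch (move 459 (leaf 459 0)) (move 496 (leaf 460 0)))))))))) (move 462 (branch (move 430 (leaf 430 4)) (move 558 (branch (move 590 (leaf 462 5)) (move 464 (branch (move 432 (leaf 431 6)) (move 493 (branch (move 465 (leaf 461 1)) (move 492 (leaf 460 2)))))))))))))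
theorem a4p30 : a4e30.Valid :=
  pos_of_chk [] forall_nil a4c30 a4e30 (by decide +kernel)

def a4e31 : Pos := ⟨1886981213069791251595609279652968406925904983681468719045504665945226468056241465101546395576992377307235838329939501604221268081807425691285684317308435096854704685056, 164755145364749799284139276170586975141977935376916139608517335470137349291412763152269058870668930879405185329164625880774115993443664827140966620576358596608, 9⟩
def a4c31 : Cert := (move 496 (branch (move 462 (branch (move 430 (leaf 430 7)) (move 464 (branch (move 432 (leaf 431 6)) (move 461 (branch (move 460 (leaf 460 0)) (move 493 (branch (move 492 (leaf 460 1)) (move 465 (branch (move 494 (leaf 461 1)) (move 466 (branch (move 467 (leaf 463 1)) (move 434 (branch (move 433 (leaf 430 2)) (move 435 (leaf 431 2)))))))))))))))) (branch (move 464 (branch (move 432 (leaf 431 6)) (move 462 (branch (move 430 (leaf 430 7)) (move 497 (branch (move 461 (leaf 461 0)) (move 498 (leaf 494 1)))))))) (move 525 (branch (move 524 (leaf 492 2)) (move 497 (branch (move 494 (leaf 493 1)) (move 498 (leaf 494 1)))))))))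
theorem a4p31 : a4e31.Valid :=
  pos_of_chk [] forall_nil a4c31 a4e31 (by decide +kernel)

def a4e32 : Pos := ⟨1886981213069791251595609279652968406925904983681468719045504665945226468056241465101546395576992377307235838329939501604221268081807425691285684317308435096854704685056, 20261306493394176461428048357583404150755756948479292244760452432223276867728549221861445304847978562203608252831011829478720625155581791063904892756437651780521416381345053016064, 9⟩
def a4c32 : Cert := (move 494 (branch (move 462 (branch (move 430 (leaf 430 4)) (move 464 (branch (move 432 (leaf 431 6)) (move 465 (branch (move 466 (leaf 462 1)) (move 497 (branch (move 498 (leaf 462 0)) (move 461 (branch (move 496 (leaf 461 0)) (move 460 (branch (move 459 (leaf 459 0)) (move 428 (branch (move 427 (leaf 427 3)) (move 429 (leaf 428 3)))))))))))))))) (branch (move 462 (branch (move 430 (leaf 430 4)) (move 558 (branch (move 590 (leaf 462 5)) (move 461 (branch (move 429 (leaf 429 7)) (move 460 (branch (move 459 (leaf 459 0)) (move 496 (leaf 460 0)))))))))) (branch (move 558 (branch (move 590 (leaf 462 5)) (move 560 (branch (move 592 (leaf 463 4)) (move 525 (branch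 (move 524 (leaf 524 0)) (move 496 (branch (move 497 (leaf 493 1)) (move 464 (branch (move 432 (leaf 431 6)) (move 465 (branch (move 466 (leaf 462 1)) (move 493 (leaf 461 2)))))))))))))) (move 462 (branch (move 430 (leaf 430 4)) (move 558 (branch (move 590 (leaf 462 5)) (move 464 (branch (move 432 (leaf 431 6)) (move 465 (branch (move 493 (leaf 461 1)) (move 466 (leaf 462 1))))))))))))))
theorem a4p32 : a4e32.Valid :=
  pos_of_chk [] forall_nil a4c32 a4e32 (by decide +kernel)

def a4e33 : Pos := ⟨659020575474831989158833961467444373473248504857401515822414386860167039058483032988162993536501650814557579154335975766845029375004967191592087075030007021568, 373755135517440540579789377054025243816174006983232588347347832805191049697264723871990483424145503759428464951507590742179092943926277208379350279036771703834029961588551866939266085991934731485184, 7⟩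
def a4c33 : Cert := (move 559 (branch (move 432 (branch (move 464 (leaf 431 6)) (move 431 (branch (move 400 (leaf 399 6)) (move 430 (branch (move 398 (leaf 398 7)) (move 462 (leaf 430 7)))))))) (branch (move 432 (branch (move 464 (leaf 431 6)) (move 431 (branch (move 400 (leaf 399 6)) (move 399 (branch (move 494 (leaf 398 5)) (move 398 (branch (move 366 (leaf 366 7)) (move 430 (leaf 398 7)))))))))) (branch (move 462 (branch (move 430 (leaf 430 7)) (move 591 (branch (move 494 (leaf 462 7)) (move 624 (branch (move 592 (leaf 495 4)) (move 623 (branch (move 656 (leaf 527 4)) (move 622 (branch (move 590 (leaf 494 5)) (move 654 (leaf 526 5)))))))))))) (move 464 (branch (move 432 (leaf 431 6)) (move 591 (branch (move 496 (leaf 463 6)) (move 494 (branch (move 462 (leaf 462 7)) (move 623 (leaf 494 7))))))))))))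
theorem a4p33 : a4e33.Valid :=
  pos_of_chk [] forall_nil a4c33 a4e33 (by decide +kernel)

def a4e34 : Pos := ⟨659020575474831989135016910149725926883728262320527383240714266753165000859179162141411805343601827663004950804547371250549963067010837073066025248863561973760, 523257189675684633504223288230555880556480704048079670322281258195321119845426561356276202132257609296626942762266202446878337856007858474620235017410082930290803755510971649333055156742227952140288, 8⟩
def a4c34 : Cert := (move 463 (branch (ref 0) (branch (move 431 (branch (move 558 (leaf 430 5)) (move 400 (branch (move 432 (leaf 399 6)) (move 399 (branch (move 368 (leaf 367 6)) (move 398 (branch (move 366 (leaf 366 7)) (move 430 (leaf 398 7)))))))))) (branch (move 558 (branch (move 431 (leaf 430 5)) (move 590 (branch (move 559 (leaf 462 5)) (move 622 (leaf 494 6)))))) (move 559 (branch (move 464 (branch (move 432 (leaf 431 6)) (move 496 (branch (move 591 (leaf 463 6)) (move 497 (branch (move 498 (leaf 494 1)) (move 462 (branch (move 461 (leaf 461 0)) (move 430 (leaf 430 7)))))))))) (branch (move 462 (branch (move 430 (leaf 430 7)) (move 591 (branch (move 494 (leaf 462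 7)) (move 624 (branch (move 592 (leaf 495 4)) (move 623 (branch (move 656 (leaf 527 4)) (move 622 (branch (move 590 (leaf 494 5)) (move 654 (leaf 526 5)))))))))))) (branch (ref 1) (move 558 (branch (move 590 (leaf 462 5)) (move 464 (branch (move 432 (leaf 431 6)) (move 591 (branch (move 496 (leaf 463 6)) (move 623 (branch (move 494 (leaf 494 7)) (move 655 (leaf 526 7))))))))))))))))))
theorem a4p34 : a4e34.Valid :=
  pos_of_chk [a4e33, a4e30] (forall_cons a4p33 (forall_cons a4p30 forall_nil)) a4c34 a4e34 (by decide +kernel)

def a4e35 : Pos := ⟨659020575525978717383394126868682015896659499073912415210137154088841428485681252710234845263652922855597203260029975690043089176529856706595484515321820217344, 60915154150561344749295622265079169223547611646258211999929966532080365873267089616484053319270691569910070386112785326570173306126440939557329610759507879154346144983982498834842386432000, 7⟩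
def a4c35 : Cert := (move 558 (branch (move 463 (branch (move 431 (leaf 430 5)) (move 590 (leaf 462 6)))) (branch (move 590 (branch (move 622 (leaf 494 6)) (move 589 (branch (move 621 (leaf 493 5)) (move 557 (branch (move 462 (leaf 461 5)) (move 591 (branch (move 623 (leaf 494 4)) (move 556 (branch (move 555 (leaf 555 0)) (move 592 (leaf 556 3)))))))))))) (move 462 (branch (move 431 (branch (move 463 (leaf 430 5)) (move 430 (branch (move 398 (leaf 398 4)) (move 399 (leaf 398 6)))))) (branch (move 430 (branch (move 398 (leaf 398 4)) (move 429 (branch (move 397 (leaf 397 7)) (move 461 (leaf 429 7)))))) (move 463 (branch (move 431 (leaf 430 5)) (move 461 (branch (move 429 (leaf 429 7)) (move 496 (branch (move 460 (leaf 460 0)) (move 497 (leaf 461 3))))))))))))))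
theorem a4p35 : a4e35.Valid :=
  pos_of_chk [] forall_nil a4c35 a4e35 (by decide +kernel)

def a4e36 : Pos := ⟨439347050631959483621670776541697842584590579438294528524346567515757282162343116327528055144560169386405734214294231428886671787666686088359893024555222958080, 164755143843134633879287138765318582550545455829976662833630502455633641716973187041506117058216201095527953617024640266347730468090193336580000389517537181696, 9⟩
def a4c36 : Cert := (move 432 (branch (move 464 (branch (move 465 (leaf 461 2)) (move 400 (leaf 399 5)))) (branch (move 525 (branch (move 524 (leaf 492 1)) (move 465 (branch (move 464 (leaf 461 2)) (move 433 (branch (move 466 (leaf 430 0)) (move 398 (branch (move 397 (leaf 397 3)) (move 434 (branch (move 399 (leaf 398 3)) (move 402 (branch (move 401 (leaf 398 2)) (move 403 (leaf 399 2)))))))))))))) (branch (move 525 (branch (move 524 (leaf 492 1)) (move 400 (branch (move 464 (leaf 399 5)) (move 401 (branch (move 429 (leaf 397 2)) (move 402 (branch (move 399 (leaf 398 1)) (move 403 (leaf 399 1)))))))))) (move 429 (branch (move 400 (branch (move 401 (leaf 397 2)) (move 428 (branch (move 399 (leaf 396 2)) (move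 396 (branch (move 395 (leaf 395 3)) (move 397 (leaf 396 3)))))))) (branch (move 525 (branch (move 524 (leaf 492 1)) (move 400 (branch (move 401 (leaf 397 2)) (move 428 (branch (move 399 (leaf 396 2)) (move 459 (branch (move 460 (leaf 427 1)) (move 427 (branch (move 458 (leaf 426 1)) (move 395 (branch (move 394 (leaf 394 3)) (move 396 (leaf 395 3)))))))))))))) (branch (move 525 (branch (move 524 (leaf 492 1)) (move 397 (branch (move 396 (leaf 396 3)) (move 433 (branch (move 398 (leaf 397 3)) (move 466 (branch (move 465 (leaf 430 0)) (move 434 (branch (move 467 (leaf 431 0)) (move 402 (branch (move 401 (leaf 398 2)) (move 403 (leaf 399 2)))))))))))))) (branch (move 525 (branch (move 524 (leaf 492 1)) (move 401 (branch (move 400 (leaf 397 2)) (move 433 (branch (move 402 (leaf 398 2)) (move 466 (branch (move 465 (leaf 430 0)) (move 434 (branch (move 467 (leaf 431 0)) (move 398 (branch (move 397 (leaf 397 3)) (move 399 (leaf 398 3)))))))))))))) (move 525 (branch (move 524 (leaf 492 1)) (move 396 (branch (move 397 (leaf 396 3)) (move 428 (branch (move 395 (leaf 395 3)) (move 459 (branch (move 460 (leaf 427 1)) (move 427 (branch (move 458 (leaf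 426 1)) (move 399 (branch (move 398 (leaf 395 2)) (move 400 (leaf 396 2)))))))))))))))))))))))
theorem a4p36 : a4e36.Valid :=
  pos_of_chk [] forall_nil a4c36 a4e36 (by decide +kernel)

def a4e37 : Pos := ⟨659020575525978717383394126868682015896659499073912415210137154088841428485681252710234845263652922855597203260029975690043089176529856706595484515321820217344, 60915154150561344749295622265271383558894369758179860879778463937272813723486568863613114883185260482305391623287827974905525985544164223494233674432486941333902046209188030212804433674240, 13⟩
def a4c37 : Cert := (move 496 (branch (move 525 (branch (move 497 (leaf 493 1)) (move 524 (leaf 492 2)))) (branch (move 497 (branch (move 498 (leaf 494 1)) (move 558 (branch (move 590 (branch (move 622 (leaf 494 6)) (move 589 (branch (move 621 (leaf 493 5)) (move 557 (branch (move 462 (leaf 461 5)) (move 591 (branch (move 623 (leaf 494 4)) (move 556 (branch (move 555 (leaf 555 0)) (move 592 (leaf 556 3)))))))))))) (branch (move 431 (branch (move 463 (leaf 430 5)) (move 465 (branch (move 466 (leaf 462 2)) (move 464 (branch (move 493 (leaf 461 2)) (move 432 (branch (move 400 (leaf 399 5))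 (move 430 (branch (move 429 (leaf 429 0)) (move 462 (branch (move 398 (leaf 398 4)) (move 399 (leaf 398 6)))))))))))))) (move 590 (branch (move 463 (leaf 462 6)) (move 622 (leaf 494 6))))))))) (move 493 (branch (move 524 (branch (move 525 (leaf 492 1)) (move 492 (branch (move 491 (leaf 491 0)) (move 523 (leaf 491 1)))))) (branch (move 492 (branch (move 491 (leaf 491 0)) (move 464 (branch (move 463 (leaf 460 2)) (move 465 (leaf 461 2)))))) (move 431 (branch (move 463 (branch (move 399 (leaf 398 5)) (move 558 (leaf 430 5)))) (branch (move 525 (branch (move 524 (leaf 492 1)) (move 558 (branch (move 463 (leaf 430 5)) (move 590 (branch (move 622 (leaf 494 6)) (move 589 (branch (move 621 (leaf 493 5)) (move 557 (branch (move 462 (leaf 461 5)) (move 556 (branch (move 555 (leaf 523 2)) (move 591 (branch (move 592 (leaf 556 3)) (move 623 (leaf 494 4)))))))))))))))) (move 430 (branch (move 462 (branch (move 398 (leaf 398 4)) (move 399 (leaf 398 6)))) (branch (move 525 (branch (move 524 (leaf 492 1)) (move 462 (branch (move 557 (leaf 429 5)) (move 399 (leaf 398 6)))))) (branch (move 525 (branch (move 524 (leaf 492 1)) (move 462 (branch (move 398 (leaf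 398 4)) (move 557 (leaf 429 5)))))) (ref 0))))))))))))))
theorem a4p37 : a4e37.Valid :=
  pos_of_chk [a4e36] (forall_cons a4p36 forall_nil) a4c37 a4e37 (by decide +kernel)

def a4e38 : Pos := ⟨659020575474831989135016910149725926883728262320527383240714266753165000859179162141411805343601827663004950804547371250549963067010837073066025248863561973760, 65266236588729366146194565030133189483106326458344035693789769705221759571520839589698484483688558871277512429027188014380480419415242369071583969595646473442623201006875821252409655558144, 14⟩
def a4c38 : Cert := (move 494 (branch (ref 0) (branch (ref 1) (branch (ref 2) (branch (move 558 (branch (move 463 (branch (move 431 (leaf 430 5)) (move 590 (leaf 462 6)))) (branch (move 590 (branch (move 622 (leaf 494 6)) (move 589 (branch (move 621 (leaf 493 5)) (move 557 (branch (move 462 (leaf 461 5)) (move 591 (branch (move 623 (leaf 494 4)) (move 556 (branch (move 555 (leaf 555 0)) (move 592 (leaf 556 3)))))))))))) (move 462 (branch (move 431 (branch (move 463 (leaf 430 5)) (move 430 (branch (move 398 (leaf 398 4)) (move 399 (leaf 398 6)))))) (branch (move 430 (branch (move 398 (leaf 398 4)) (move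 429 (branch (move 397 (leaf 397 7)) (move 461 (leaf 429 7)))))) (move 463 (branch (move 431 (leaf 430 5)) (move 461 (branch (move 429 (leaf 429 7)) (move 460 (branch (move 459 (leaf 459 0)) (move 492 (branch (move 491 (leaf 459 1)) (move 464 (branch (move 493 (leaf 460 1)) (move 465 (branch (move 466 (leaf 462 1)) (move 433 (branch (move 432 (leaf 429 2)) (move 434 (leaf 430 2)))))))))))))))))))))) (branch (move 496 (branch (move 497 (branch (move 498 (leaf 494 1)) (move 465 (branch (move 466 (leaf 462 2)) (move 493 (branch (move 464 (leaf 461 2)) (move 492 (branch (move 491 (leaf 491 0)) (move 460 (branch (move 459 (leaf 459 3)) (move 461 (leaf 460 3)))))))))))) (branch (move 525 (branch (move 497 (leaf 493 1)) (move 524 (leaf 492 2)))) (move 493 (branch (move 524 (branch (move 525 (leaf 492 1)) (move 492 (branch (move 491 (leaf 491 0)) (move 523 (leaf 491 1)))))) (branch (move 492 (branch (move 491 (leaf 491 0)) (move 464 (branch (move 463 (leaf 460 2)) (move 465 (leaf 461 2)))))) (move 525 (branch (move 524 (leaf 492 1)) (move 461 (branch (move 460 (leaf 460 3)) (move 558 (branch (move 590 (leaf 461 7)) (move 463 (branch (move 431 (leaf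 430 5)) (move 464 (branch (move 465 (leaf 461 2)) (move 432 (branch (move 400 (leaf 399 5)) (move 462 (branch (move 433 (leaf 429 2)) (move 557 (branch (move 430 (leaf 429 5)) (move 589 (leaf 461 5)))))))))))))))))))))))) (branch (move 558 (branch (move 463 (branch (move 431 (leaf 430 5)) (move 590 (leaf 462 6)))) (branch (move 590 (branch (move 622 (leaf 494 6)) (move 589 (branch (move 621 (leaf 493 5)) (move 557 (branch (move 462 (leaf 461 5)) (move 591 (branch (move 623 (leaf 494 4)) (move 556 (branch (move 555 (leaf 555 0)) (move 592 (leaf 556 3)))))))))))) (move 462 (branch (move 431 (branch (move 463 (leaf 430 5)) (move 430 (branch (move 398 (leaf 398 4)) (move 399 (leaf 398 6)))))) (branch (move 430 (branch (move 398 (leaf 398 4)) (move 429 (branch (move 397 (leaf 397 7)) (move 461 (leaf 429 7)))))) (move 463 (branch (move 431 (leaf 430 5)) (move 461 (branch (move 429 (leaf 429 7)) (move 496 (branch (move 497 (leaf 461 3)) (move 525 (branch (move 524 (leaf 492 2)) (move 557 (branch (move 589 (leaf 461 5)) (move 556 (branch (move 555 (leaf 523 2)) (move 493 (branch (move 588 (leaf 460 5)) (move 464 (branch (move 492 (leaf 460 1))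 (move 465 (leaf 461 1)))))))))))))))))))))))) (ref 3))))))))
theorem a4p38 : a4e38.Valid :=
  pos_of_chk [a4e35, a4e17, a4e26, a4e37] (forall_cons a4p35 (forall_cons a4p17 (forall_cons a4p26 (forall_cons a4p37 forall_nil)))) a4c38 a4e38 (by decide +kernel)

def a4e39 : Pos := ⟨659020575372538532638262476711813748857865788813757319301868492081812145606174981003765725503499637277820445893582162371563710847972797806007106715947045486592, 1605266083796830672970633835441915935928042428124216089429942572773203538068869937715524935152719989850934406751798472821220439933060957955832195088042729638196141811716712422746627161525711922428715569512448, 16⟩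
def a4c39 : Cert := (move 495 (branch (ref 0) (branch (ref 1) (branch (move 463 (branch (move 431 (branch (move 558 (leaf 430 5)) (move 400 (branch (move 432 (leaf 399 6)) (move 399 (branch (move 368 (leaf 367 6)) (move 398 (branch (move 366 (leaf 366 7)) (move 430 (leaf 398 7)))))))))) (branch (move 558 (branch (move 431 (leaf 430 5)) (move 590 (branch (move 559 (leaf 462 5)) (move 622 (leaf 494 6)))))) (branch (ref 2) (move 559 (branch (move 464 (branch (move 432 (leaf 431 6)) (move 496 (branch (move 591 (leaf 463 6)) (move 497 (branch (move 498 (leaf 494 1)) (move 462 (branch (move 461 (leaf 461 0)) (move 430 (leaf 430 7)))))))))) (branch (move 590 (branch (move 558 (leaf 462 5)) (move 591 (branch (move 622 (leaf 494 5)) (move 592 (branch (move 560 (leaf 463 4)) (move 624 (leaf 495 4)))))))) (ref 3)))))))) (branch (ref 4) (branch (move 463 (branch (move 431 (branch (move 558 (leaf 430 5)) (move 400 (branch (move 432 (leaf 399 6)) (move 399 (branch (move 368 (leaf 367 6)) (move 398 (branch (move 366 (leaf 366 7)) (move 430 (leaf 398 7)))))))))) (branch (move 558 (branch (move 431 (leaf 430 5)) (move 590 (branch (move 559 (leaf 462 5))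 (move 622 (leaf 494 6)))))) (branch (move 431 (branch (move 399 (branch (move 494 (leaf 398 5)) (move 398 (branch (move 366 (leaf 366 7)) (move 430 (leaf 398 7)))))) (branch (move 399 (branch (move 494 (leaf 398 5)) (move 400 (branch (move 368 (leaf 367 6)) (move 432 (leaf 399 6)))))) (move 432 (branch (move 400 (leaf 399 6)) (move 430 (branch (move 398 (leaf 398 7)) (move 464 (branch (move 559 (leaf 431 6)) (move 465 (branch (move 429 (leaf 429 0)) (move 466 (leaf 430 3))))))))))))) (ref 5))))) (branch (move 463 (branch (move 558 (branch (move 431 (leaf 430 5)) (move 590 (branch (move 559 (leaf 462 5)) (move 622 (leaf 494 6)))))) (branch (move 431 (branch (move 400 (branch (move 432 (leaf 399 6)) (move 399 (branch (move 368 (leaf 367 6)) (move 398 (branch (move 366 (leaf 366 7)) (move 430 (leaf 398 7)))))))) (branch (move 399 (branch (move 494 (leaf 398 5)) (move 398 (branch (move 366 (leaf 366 7)) (move 430 (leaf 398 7)))))) (branch (move 430 (branch (move 398 (leaf 398 7)) (move 429 (branch (move 428 (branch (move 464 (leaf 428 0)) (move 427 (branch (move 462 (leaf 427 0)) (move 459 (branch (move 458 (leaf 426 1)) (move 460 (leaf 427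 1)))))))) (branch (move 432 (branch (move 400 (leaf 399 6)) (move 461 (branch (move 460 (leaf 428 1)) (move 462 (branch (move 433 (leaf 429 1)) (move 397 (branch (move 396 (leaf 396 3)) (move 494 (leaf 397 7)))))))))) (move 432 (branch (move 400 (leaf 399 6)) (move 464 (branch (move 428 (leaf 428 0)) (move 465 (leaf 429 0))))))))))) (move 399 (branch (move 494 (leaf 398 5)) (move 400 (branch (move 368 (leaf 367 6)) (move 432 (leaf 399 6)))))))))) (move 559 (branch (ref 6) (branch (ref 7) (branch (ref 8) (branch (ref 3) (branch (ref 9) (ref 10)))))))))) (branch (move 463 (branch (move 558 (branch (move 431 (leaf 430 5)) (move 590 (branch (move 559 (leaf 462 5)) (move 622 (leaf 494 6)))))) (branch (move 558 (branch (move 431 (leaf 430 5)) (move 590 (branch (move 494 (leaf 462 6)) (move 622 (leaf 494 6)))))) (branch (move 431 (branch (move 432 (branch (move 400 (leaf 399 6)) (move 559 (branch (move 464 (leaf 431 6)) (move 592 (branch (move 560 (leaf 463 4)) (move 591 (branch (move 624 (leaf 495 4)) (move 494 (branch (move 462 (leaf 462 7)) (move 623 (leaf 494 7)))))))))))) (branch (move 399 (branch (move 494 (leaf 398 5)) (move 368 (branch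 (move 400 (leaf 367 6)) (move 367 (branch (move 336 (leaf 335 6)) (move 366 (branch (move 334 (leaf 334 7)) (move 398 (leaf 366 7)))))))))) (branch (move 399 (branch (move 494 (leaf 398 5)) (move 366 (branch (move 398 (leaf 366 7)) (move 367 (branch (move 334 (leaf 334 7)) (move 464 (branch (move 496 (leaf 367 4)) (move 432 (branch (move 335 (leaf 335 4)) (move 559 (leaf 431 6)))))))))))) (move 399 (branch (move 368 (branch (move 400 (leaf 367 6)) (move 367 (branch (move 336 (leaf 335 6)) (move 366 (branch (move 334 (leaf 334 7)) (move 398 (leaf 366 7)))))))) (branch (move 366 (branch (move 398 (leaf 366 7)) (move 367 (branch (move 334 (leaf 334 7)) (move 464 (branch (move 496 (leaf 367 4)) (move 432 (branch (move 335 (leaf 335 4)) (move 559 (leaf 431 6)))))))))) (move 400 (branch (move 368 (leaf 367 6)) (move 432 (leaf 399 6))))))))))) (ref 5))))) (branch (move 463 (branch (move 431 (branch (move 558 (leaf 430 5)) (move 400 (branch (move 432 (leaf 399 6)) (move 399 (branch (move 368 (leaf 367 6)) (move 398 (branch (move 366 (leaf 366 7)) (move 430 (leaf 398 7)))))))))) (branch (move 558 (branch (move 431 (leaf 430 5)) (move 590 (branch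 (move 559 (leaf 462 5)) (move 622 (leaf 494 6)))))) (branch (move 431 (branch (move 432 (branch (move 400 (leaf 399 6)) (move 430 (branch (move 398 (leaf 398 7)) (move 462 (branch (move 559 (leaf 430 7)) (move 461 (branch (move 433 (leaf 429 1)) (move 460 (leaf 428 2)))))))))) (branch (move 399 (branch (move 494 (leaf 398 5)) (move 398 (branch (move 366 (leaf 366 7)) (move 430 (leaf 398 7)))))) (move 399 (branch (move 494 (leaf 398 5)) (move 400 (branch (move 368 (leaf 367 6)) (move 432 (leaf 399 6))))))))) (move 559 (branch (move 462 (branch (move 430 (leaf 430 7)) (move 591 (branch (move 494 (leaf 462 7)) (move 592 (branch (move 560 (leaf 463 4)) (move 624 (leaf 495 4)))))))) (branch (move 558 (branch (move 590 (leaf 462 5)) (move 462 (branch (move 430 (leaf 430 7)) (move 494 (branch (move 591 (leaf 462 4)) (move 461 (branch (move 429 (leaf 429 7)) (move 460 (branch (move 459 (leaf 459 0)) (move 496 (leaf 460 0)))))))))))) (branch (move 590 (branch (move 558 (leaf 462 5)) (move 591 (branch (move 622 (leaf 494 5)) (move 592 (branch (move 560 (leaf 463 4)) (move 624 (leaf 495 4)))))))) (ref 9))))))))) (branch (move 463 (branch (ref 11)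 (branch (move 431 (branch (move 558 (leaf 430 5)) (move 400 (branch (move 432 (leaf 399 6)) (move 399 (branch (move 368 (leaf 367 6)) (move 398 (branch (move 366 (leaf 366 7)) (move 430 (leaf 398 7)))))))))) (branch (move 558 (branch (move 431 (leaf 430 5)) (move 590 (branch (move 559 (leaf 462 5)) (move 622 (leaf 494 6)))))) (move 559 (branch (move 464 (branch (move 432 (leaf 431 6)) (move 591 (branch (move 496 (leaf 463 6)) (move 592 (branch (move 560 (leaf 463 4)) (move 624 (leaf 495 4)))))))) (branch (move 462 (branch (move 430 (leaf 430 7)) (move 591 (branch (move 494 (leaf 462 7)) (move 592 (branch (move 560 (leaf 463 4)) (move 624 (leaf 495 4)))))))) (branch (move 462 (branch (move 430 (leaf 430 7)) (move 464 (branch (move 432 (leaf 431 6)) (move 591 (branch (move 496 (leaf 463 6)) (move 494 (leaf 462 7)))))))) (ref 10))))))))) (branch (move 463 (branch (move 558 (branch (move 431 (leaf 430 5)) (move 590 (branch (move 559 (leaf 462 5)) (move 622 (leaf 494 6)))))) (branch (move 558 (branch (move 431 (leaf 430 5)) (move 590 (branch (move 494 (leaf 462 6)) (move 622 (leaf 494 6)))))) (move 559 (branch (move 464 (branch (move 432 (leaf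 431 6)) (move 591 (branch (move 496 (leaf 463 6)) (move 592 (branch (move 560 (leaf 463 4)) (move 624 (leaf 495 4)))))))) (branch (move 462 (branch (move 430 (leaf 430 7)) (move 591 (branch (move 494 (leaf 462 7)) (move 592 (branch (move 560 (leaf 463 4)) (move 624 (leaf 495 4)))))))) (ref 7))))))) (branch (ref 12) (ref 13)))))))))))))
theorem a4p39 : a4e39.Valid :=
  pos_of_chk [a4e18, a4e22, a4e23, a4e24, a4e27, a4e29, a4e30, a4e31, a4e21, a4e28, a4e32, a4e33, a4e34, a4e38] (forall_cons a4p18 (forall_cons a4p22 (forall_cons a4p23 (forall_cons a4p24 (forall_cons a4p27 (forall_cons a4p29 (forall_cons a4p30 (forall_cons a4p31 (forall_cons a4p21 (forall_cons a4p28 (forall_cons a4p32 (forall_cons a4p33 (forall_cons a4p34 (forall_cons a4p38 forall_nil)))))))))))))) a4c39 a4e39 (by decide +kernel)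

def a4e40 : Pos := ⟨823775719215673165797828095889767186072332236017196649127335615102265182007718726254707156879374546597275557366977702964454638559965997257508883394933806858240, 1857497131893600068435210803657052718781431891976669246900563244413706966022113311438121396896854516121124007830768637174092570178691698590257863380159093117821963468800, 6⟩
def a4c40 : Cert := (move 523 (branch (move 490 (branch (move 491 (leaf 490 3)) (move 522 (branch (move 489 (leaf 489 3)) (move 557 (branch (move 558 (leaf 522 0)) (move 556 (branch (move 521 (leaf 521 0)) (move 528 (leaf 524 1)))))))))) (branch (move 554 (branch (move 555 (leaf 522 1)) (move 522 (branch (move 553 (leaf 521 1)) (move 490 (branch (move 489 (leaf 489 3)) (move 491 (leaf 490 3)))))))) (move 555 (branch (move 554 (leaf 522 1)) (move 556 (leaf 523 1)))))))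
theorem a4p40 : a4e40.Valid :=
  pos_of_chk [] forall_nil a4c40 a4e40 (by decide +kernel)

def a4e41 : Pos := ⟨768857337934628288077972889497116040334176753616050205852179907428780836540537477837726679754082910157457186875845856100157662655968264107008291168604886401024, 1857497131948518450483456605102566175958424372908793280602485167230205983730744071302834003846180592047182072159470794497463483635385566137040891033601574341024757579776, 8⟩
def a4c41 : Cert := (move 524 (branch (move 556 (branch (move 555 (leaf 523 1)) (move 528 (branch (move 557 (leaf 524 1)) (move 496 (branch (move 495 (leaf 492 2)) (move 497 (leaf 493 2)))))))) (branch (ref 0) (branch (move 495 (branch (move 496 (leaf 492 2)) (move 523 (branch (move 494 (leaf 491 2)) (move 554 (branch (move 555 (leaf 522 1)) (move 522 (branch (move 553 (leaf 521 1)) (move 490 (branch (move 489 (leaf 489 3)) (move 491 (leaf 490 3)))))))))))) (move 495 (branch (move 496 (leaf 492 2)) (move 523 (branch (move 494 (leaf 491 2)) (move 490 (branch (move 491 (leaf 490 3)) (move 522 (branch (move 489 (leaf 489 3)) (move 557 (branch (move 558 (leaf 522 0)) (move 556 (branch (move 521 (leaf 521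 0)) (move 528 (leaf 524 1))))))))))))))))))
theorem a4p41 : a4e41.Valid :=
  pos_of_chk [a4e40] (forall_cons a4p40 forall_nil) a4c41 a4e41 (by decide +kernel)

def a4e42 : Pos := ⟨471745303871550006964822610701506500861731192886231807163075993382882927727799443051303318484934025696766457036302667488317179178898261735038443388437378174061060816896, 5922386523601225339386905872933876397601633436004887734704863737212891777641954921367624130269707537651233137730573656038182021360302349296608014485256837255193607094822545508681794556274353733204495905715991352794482665848832, 10⟩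
def a4c42 : Cert := (move 589 (branch (ref 0) (branch (move 621 (branch (move 494 (leaf 493 6)) (move 652 (branch (move 620 (leaf 524 5)) (move 653 (branch (move 684 (leaf 556 5)) (move 654 (branch (move 622 (leaf 525 4)) (move 686 (leaf 557 4)))))))))) (branch (move 494 (branch (move 621 (leaf 493 6)) (move 462 (branch (move 430 (leaf 429 5)) (move 493 (leaf 461 6)))))) (move 493 (branch (move 588 (branch (move 620 (leaf 492 5)) (move 461 (branch (move 556 (leaf 460 5)) (move 460 (branch (move 428 (leaf 428 7)) (move 492 (leaf 460 7)))))))) (branch (move 462 (branch (move 494 (leaf 461 6)) (move 461 (branch (move 430 (leaf 429 6)) (move 588 (branch (move 556 (leaf 460 5)) (move 620 (leaf 492 5)))))))) (move 494 (branch (move 462 (leaf 461 6)) (move 492 (branch (move 491 (leaf 491 0)) (move 460 (leaf 460 7)))))))))))))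
theorem a4p42 : a4e42.Valid :=
  pos_of_chk [a4e5] (forall_cons a4p5 forall_nil) a4c42 a4e42 (by decide +kernel)

def a4e43 : Pos := ⟨768857337934628288077972889497116040334176753616050205852179907428780836540537477837726679754082910157457186875845856100157662655968264107008291168604886401024, 17404329752672085589364815927684663477980343183218061132587138706750604876558150148119662691002026936784092015845783834848925853171599554454300762467141396950314383319959792883285020901376, 6⟩
def a4c43 : Cert := (move 528 (branch (move 557 (branch (move 556 (leaf 524 1)) (move 558 (branch (move 529 (leaf 525 1)) (move 493 (branch (move 492 (leaf 492 3)) (move 590 (branch (move 461 (leaf 461 4)) (move 622 (leaf 493 7)))))))))) (branch (move 496 (branch (move 497 (leaf 493 2)) (move 524 (branch (move 495 (leaf 492 2)) (move 556 (branch (move 555 (leaf 523 1)) (move 557 (leaf 524 1)))))))) (move 493 (branch (move 492 (leaf 492 3)) (move 529 (branch (move 494 (leaf 493 3)) (move 497 (branch (move 496 (leaf 493 2)) (move 498 (leaf 494 2)))))))))))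
theorem a4p43 : a4e43.Valid :=
  pos_of_chk [] forall_nil a4c43 a4e43 (by decide +kernel)

def a4e44 : Pos := ⟨768857337934628288077972889497116040334176753616050205852179907428780836540537477837726679754082910157457186875845856100157662655968264107008291168604886401024, 17404329752672085589246879601908990310678041215344847665116898340726276281012181798263741909508555410983211226436261838433210258158369963402635652812899761834717696320264244273770001334272, 6⟩
def a4c44 : Cert := (move 528 (branch (move 557 (branch (move 556 (leaf 524 1)) (move 558 (branch (move 529 (leaf 525 1)) (move 493 (branch (move 492 (leaf 492 3)) (move 590 (branch (move 461 (leaf 461 4)) (move 622 (leaf 493 7)))))))))) (branch (move 557 (branch (move 556 (leaf 524 1)) (move 529 (branch (move 558 (leaf 525 1)) (move 497 (branch (move 496 (leaf 493 2)) (move 498 (leaf 494 2)))))))) (move 496 (branch (move 497 (leaf 493 2)) (move 524 (branch (move 495 (leaf 492 2)) (move 492 (branch (move 491 (leaf 491 3)) (move 493 (leaf 492 3)))))))))))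
theorem a4p44 : a4e44.Valid :=
  pos_of_chk [] forall_nil a4c44 a4e44 (by decide +kernel)

def a4e45 : Pos := ⟨823775719215673165797828095889767186072332236017196649127335615102265182007718726254707156879374546597275557366977702964454638559965997257508883394933806858240, 206388571034175726919037448909345208263452013817106223804396794002736447812981936996819613127069125181821010341845896827537497172212572505170520253833842315027304939520, 6⟩
def a4c45 : Cert := (move 523 (branch (move 554 (branch (move 555 (leaf 522 1)) (move 522 (branch (move 553 (leaf 521 1)) (move 490 (branch (move 489 (leaf 489 3)) (move 491 (leaf 490 3)))))))) (branch (move 554 (branch (move 555 (leaf 522 1)) (move 522 (branch (move 553 (leaf 521 1)) (move 493 (branch (move 494 (leaf 490 2)) (move 492 (branch (move 521 (leaf 489 2)) (move 528 (leaf 492 3)))))))))) (move 491 (branch (move 490 (leaf 490 3)) (move 492 (leaf 491 3)))))))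
theorem a4p45 : a4e45.Valid :=
  pos_of_chk [] forall_nil a4c45 a4e45 (by decide +kernel)

def a4e46 : Pos := ⟨768857337934628288077972889497116040334176753616050205852179907428780836540537477837726679754082910157457186875845856100157662655968264107008291168604886401024, 206388572846482310727920261115883520789622493564174245643780381165561421108258166208863527952116067917977868633619696699366576878806560622666303226237163777629427335168, 7⟩
def a4c46 : Cert := (move 524 (branch (move 492 (branch (move 491 (leaf 491 3)) (move 528 (branch (move 493 (leaf 492 3)) (move 496 (branch (move 495 (leaf 492 2)) (move 497 (leaf 493 2)))))))) (branch (move 495 (branch (move 496 (leaf 492 2)) (move 523 (branch (move 494 (leaf 491 2)) (move 554 (branch (move 555 (leaf 522 1)) (move 522 (branch (move 553 (leaf 521 1)) (move 490 (branch (move 489 (leaf 489 3)) (move 491 (leaf 490 3)))))))))))) (branch (ref 0) (move 528 (branch (move 493 (branch (move 492 (leaf 492 3)) (move 494 (branch (move 529 (leaf 493 3)) (move 523 (branch (move 522 (leaf 490 2)) (move 495 (leaf 491 2)))))))) (branch (move 493 (branch (move 492 (leaf 492 3)) (move 529 (branch (move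 494 (leaf 493 3)) (move 497 (branch (move 496 (leaf 493 2)) (move 498 (leaf 494 2)))))))) (move 496 (branch (move 495 (leaf 492 2)) (move 497 (leaf 493 2)))))))))))
theorem a4p46 : a4e46.Valid :=
  pos_of_chk [a4e45] (forall_cons a4p45 forall_nil) a4c46 a4e46 (by decide +kernel)

def a4e47 : Pos := ⟨659020575372538532638262476711813748857865788813757319301868492081812145606174981003765725503499637277820445893582162371563710847972797806007106715947045486592, 5922386523601225339386905872943220275988699233031242332191192111622576418202626678384693666509773149620783207983189136735682868837179495202563908691333995012868638777766061722990669380929445832367564764381083244074294298279936, 13⟩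
def a4c47 : Cert := (move 525 (branch (ref 0) (branch (move 524 (branch (move 555 (branch (move 556 (leaf 523 1)) (move 523 (branch (move 554 (leaf 522 1)) (move 491 (branch (move 490 (leaf 490 3)) (move 492 (leaf 491 3)))))))) (branch (move 495 (branch (move 496 (leaf 492 2)) (move 523 (branch (move 494 (leaf 491 2)) (move 555 (branch (move 554 (leaf 522 1)) (move 556 (leaf 523 1)))))))) (branch (move 495 (branch (move 496 (leaf 492 2)) (move 523 (branch (move 494 (leaf 491 2)) (move 491 (branch (move 490 (leaf 490 3)) (move 492 (leaf 491 3)))))))) (move 556 (branch (move 555 (leaf 523 1)) (move 588 (branch (move 620 (branch (move 493 (leaf 492 6)) (move 652 (branch (move 557 (leaf 524 6)) (move 653 (branch (move 621 (leaf 524 4)) (move 685 (leaf 556 4)))))))) (branch (move 492 (branch (move 491 (leaf 491 3)) (move 493 (branch (move 461 (leaf 460 6)) (move 620 (leaf 492 6)))))) (branch (move 492 (branch (move 491 (leaf 491 3)) (move 589 (branch (move 621 (leaf 492 4)) (move 460 (branch (move 557 (leaf 460 4)) (move 619 (branch (move 587 (leaf 491 5)) (move 620 (branch (move 651 (leaf 523 5)) (move 429 (branch (move 461 (leaf 428 6)) (move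 428 (branch (move 397 (leaf 396 6)) (move 427 (branch (move 395 (leaf 395 7)) (move 459 (leaf 427 7)))))))))))))))))) (move 492 (branch (move 491 (leaf 491 3)) (move 493 (branch (move 461 (leaf 460 6)) (move 589 (branch (move 621 (leaf 492 4)) (move 557 (branch (move 460 (leaf 460 4)) (move 494 (branch (move 462 (leaf 461 6)) (move 495 (branch (move 496 (leaf 492 1)) (move 590 (branch (move 622 (leaf 493 4)) (move 463 (branch (move 464 (leaf 460 2)) (move 558 (leaf 462 6)))))))))))))))))))))))))))) (branch (ref 1) (branch (move 557 (branch (move 493 (branch (move 528 (branch (move 492 (leaf 492 3)) (move 529 (branch (move 558 (leaf 525 1)) (move 497 (branch (move 496 (leaf 493 2)) (move 498 (leaf 494 2)))))))) (branch (ref 2) (move 492 (branch (move 528 (leaf 492 3)) (move 460 (branch (move 589 (leaf 460 7)) (move 428 (branch (move 396 (leaf 396 4)) (move 461 (leaf 428 7))))))))))) (branch (move 556 (branch (move 528 (leaf 524 1)) (move 555 (branch (move 554 (leaf 522 2)) (move 558 (leaf 523 2)))))) (ref 3)))) (branch (ref 4) (branch (ref 5) (ref 6))))))))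
theorem a4p47 : a4e47.Valid :=
  pos_of_chk [a4e14, a4e41, a4e4, a4e42, a4e43, a4e44, a4e46] (forall_cons a4p14 (forall_cons a4p41 (forall_cons a4p4 (forall_cons a4p42 (forall_cons a4p43 (forall_cons a4p44 (forall_cons a4p46 forall_nil))))))) a4c47 a4e47 (by decide +kernel)

def a4e48 : Pos := ⟨1886981213069791251595609279629151355608186537091948476508630533363526347949239426902242524730241189114336015178386873254432663565512359383291554198782373270688259637248, 373755135517440540579789377055912225031220859960677292901563974151842439567022860479448691285169357880983592312264501916296815292827334459893712336097412760823421479953937861569203932026373958270976, 7⟩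
def a4c48 : Cert := (move 463 (branch (move 430 (branch (move 462 (leaf 430 7)) (move 431 (branch (move 398 (leaf 398 7)) (move 560 (branch (move 528 (leaf 431 4)) (move 592 (leaf 463 4)))))))) (branch (move 560 (branch (move 592 (leaf 463 4)) (move 431 (branch (move 528 (leaf 431 4)) (move 399 (branch (move 494 (leaf 398 5)) (move 400 (branch (move 368 (leaf 367 6)) (move 432 (leaf 399 6)))))))))) (branch (move 462 (branch (move 430 (leaf 430 7)) (move 591 (branch (move 494 (leaf 462 7)) (move 624 (branch (move 592 (leaf 495 4)) (move 623 (branch (move 656 (leaf 527 4)) (move 622 (branch (move 590 (leaf 494 5)) (move 654 (leaf 526 5)))))))))))) (move 462 (branch (move 430 (leaf 430 7)) (move 494 (branch (move 591 (leaf 462 7)) (move 431 (branch (move 399 (leaf 398 5)) (move 528 (branch (move 560 (leaf 431 4)) (move 493 (branch (move 492 (leaf 492 0)) (move 529 (leaf 493 3))))))))))))))))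
theorem a4p48 : a4e48.Valid :=
  pos_of_chk [] forall_nil a4c48 a4e48 (by decide +kernel)

def a4e49 : Pos := ⟨1886981213069791251595609279652968406925904983681468719045504665945226468056241465101546395576992377307235838329939501604221268081807425691285684317308435096854704685056, 16209045194715341175161493279693880209342133742521871123720884128968747736342071769202973975938728255364571550979499287519188739614752726130382153610009615345417021450006762094592, 11⟩
def a4c49 : Cert := (move 497 (branch (move 462 (branch (move 430 (leaf 430 7)) (move 464 (branch (move 432 (leaf 431 6)) (move 465 (branch (move 498 (leaf 462 0)) (move 494 (branch (move 493 (leaf 461 1)) (move 466 (leaf 462 1)))))))))) (branch (move 462 (branch (move 430 (leaf 430 7)) (move 464 (branch (move 432 (leaf 431 6)) (move 461 (branch (move 496 (leaf 461 0)) (move 493 (branch (move 492 (leaf 460 1)) (move 494 (branch (move 465 (leaf 461 1)) (move 429 (branch (move 428 (leaf 428 3)) (move 397 (leaf 397 4)))))))))))))) (branch (move 496 (branch (move 498 (leaf 494 1)) (move 462 (branch (move 430 (leaf 430 7)) (move 461 (branch (move 460 (leaf 460 0)) (move 494 (leaf 461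 3)))))))) (branch (move 498 (branch (move 496 (leaf 494 1)) (move 464 (branch (move 432 (leaf 431 6)) (move 462 (branch (move 465 (leaf 462 0)) (move 430 (leaf 430 7)))))))) (move 465 (branch (move 464 (branch (move 432 (leaf 431 6)) (move 466 (branch (move 494 (leaf 462 1)) (move 498 (branch (move 499 (leaf 463 0)) (move 434 (branch (move 435 (leaf 431 2)) (move 402 (branch (move 370 (leaf 369 5)) (move 529 (leaf 401 5)))))))))))) (branch (move 496 (branch (move 498 (leaf 494 1)) (move 560 (branch (move 592 (leaf 463 4)) (move 494 (branch (move 466 (leaf 462 2)) (move 529 (branch (move 530 (leaf 494 0)) (move 528 (branch (move 493 (leaf 493 0)) (move 433 (leaf 432 5)))))))))))) (branch (move 464 (branch (move 432 (leaf 431 6)) (move 494 (branch (move 466 (leaf 462 1)) (move 493 (branch (move 492 (leaf 460 2)) (move 496 (leaf 461 2)))))))) (branch (move 496 (branch (move 498 (leaf 494 1)) (move 464 (branch (move 432 (leaf 431 6)) (move 560 (branch (move 592 (leaf 463 4)) (move 433 (branch (move 528 (leaf 432 6)) (move 401 (branch (move 369 (leaf 368 5)) (move 494 (branch (move 493 (leaf 461 2)) (move 529 (branch (move 530 (leaf 494 0))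 (move 402 (branch (move 370 (leaf 369 6)) (move 434 (leaf 401 6)))))))))))))))))) (move 498 (branch (move 496 (leaf 494 1)) (move 464 (branch (move 432 (leaf 431 6)) (move 499 (branch (move 466 (leaf 463 0)) (move 500 (leaf 464 3))))))))))))))))))
theorem a4p49 : a4e49.Valid :=
  pos_of_chk [] forall_nil a4c49 a4e49 (by decide +kernel)

def a4e50 : Pos := ⟨659020575474831989135016910149725926883728262320527383240714266753165000859179162141411805343601827663004950804547371250549963067010837073066025248863561973760, 373755135517440540579789377057799206247146407045133530010302522510227907130996492354738168868723949740804917847803702265073578080839157494186711497541232679135577169706815103026145895955143334035456, 13⟩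
def a4c50 : Cert := (move 559 (branch (move 591 (branch (move 592 (branch (move 624 (leaf 495 4)) (move 463 (branch (move 560 (leaf 463 4)) (move 464 (branch (move 432 (leaf 431 6)) (move 496 (leaf 463 6)))))))) (branch (move 622 (branch (move 590 (leaf 494 5)) (move 623 (branch (move 654 (leaf 526 5)) (move 624 (branch (move 592 (leaf 495 4)) (move 656 (leaf 527 4)))))))) (move 496 (branch (move 464 (leaf 463 6)) (move 623 (branch (move 528 (leaf 495 6)) (move 622 (branch (move 590 (leaf 494 5)) (move 654 (leaf 526 5))))))))))) (branch (ref 0) (branch (move 591 (branch (move 496 (branch (move 464 (leaf 463 6)) (move 623 (branch (move 528 (leaf 495 6)) (move 622 (branch (move 590 (leaf 494 5)) (move 654 (leaf 526 5)))))))) (branch (move 494 (branch (move 462 (leaf 462 7)) (move 496 (branch (move 464 (leaf 463 6)) (move 497 (branch (move 498 (leaf 494 1)) (move 529 (branch (move 530 (leaf 494 0)) (move 493 (branch (move 528 (leaf 493 0)) (move 492 (branch (move 491 (leaf 491 0)) (move 460 (branch (move 459 (leaf 459 3)) (move 461 (leaf 460 3)))))))))))))))) (move 494 (branch (move 462 (leaf 462 7)) (move 623 (leaf 494 7))))))) (branch (move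 591 (branch (move 592 (branch (move 624 (leaf 495 4)) (move 463 (branch (move 560 (leaf 463 4)) (move 464 (branch (move 432 (leaf 431 6)) (move 496 (leaf 463 6)))))))) (move 494 (branch (move 462 (leaf 462 7)) (move 623 (leaf 494 7)))))) (move 463 (branch (move 560 (branch (move 592 (leaf 463 4)) (move 431 (branch (move 528 (leaf 431 4)) (move 432 (branch (move 400 (leaf 399 6)) (move 464 (leaf 431 6)))))))) (branch (move 430 (branch (move 462 (leaf 430 7)) (move 431 (branch (move 398 (leaf 398 7)) (move 560 (branch (move 528 (leaf 431 4)) (move 592 (leaf 463 4)))))))) (branch (move 432 (branch (move 464 (leaf 431 6)) (move 431 (branch (move 400 (leaf 399 6)) (move 430 (branch (move 398 (leaf 398 7)) (move 462 (leaf 430 7)))))))) (ref 1))))))))))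
theorem a4p50 : a4e50.Valid :=
  pos_of_chk [a4e48, a4e49] (forall_cons a4p48 (forall_cons a4p49 forall_nil)) a4c50 a4e50 (by decide +kernel)

def a4e51 : Pos := ⟨1886981213069791251595609279629151355608186537091948476508630533363526347949239426902242524730241189114336015178386873254432663565512359383291554198782373270688259637248, 1605266083759455159414756253035512553842287772299303207000141158116551578278853098214945990458444472716243940908039579056185744701961675883521700653571116280797116731391980875439819955041005515980850356813824, 7⟩
def a4c51 : Cert := (move 591 (branch (move 622 (branch (move 590 (leaf 494 5)) (move 623 (branch (move 654 (leaf 526 5)) (move 624 (branch (move 592 (leaf 495 4)) (move 656 (leaf 527 4)))))))) (branch (move 624 (branch (move 592 (leaf 495 4)) (move 623 (branch (move 656 (leaf 527 4)) (move 655 (branch (move 558 (leaf 526 7)) (move 654 (branch (move 622 (leaf 526 5)) (move 686 (leaf 558 5)))))))))) (branch (move 622 (branch (move 590 (leaf 494 5)) (move 623 (branch (move 654 (leaf 526 5)) (move 655 (branch (move 558 (leaf 526 7)) (move 656 (branch (move 624 (leaf 527 4)) (move 688 (leaf 559 4))))))))))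 (branch (move 592 (branch (move 624 (leaf 495 4)) (move 463 (branch (move 560 (leaf 463 4)) (move 558 (branch (move 431 (leaf 430 5)) (move 590 (leaf 462 5)))))))) (move 590 (branch (move 622 (leaf 494 5)) (move 463 (branch (move 558 (leaf 462 5)) (move 560 (branch (move 592 (leaf 463 4)) (move 431 (branch (move 528 (leaf 431 4)) (move 432 (branch (move 400 (leaf 399 6)) (move 464 (leaf 431 6)))))))))))))))))
theorem a4p51 : a4e51.Valid :=
  pos_of_chk [] forall_nil a4c51 a4e51 (by decide +kernel)

def a4e52 : Pos := ⟨1886981213069791251595609279629151355608186537091948476508630533363526347949239426902242524730241189114336015178386873254432663565512359383291554198782373270688259637248, 1284212867112215565466941929113045655525603449024385964795167470677223278633187999973996322351281545768501984041311683072670262097001608538405623261347043025929452644945734328045005343507817398793788194816000, 6⟩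
def a4c52 : Cert := (move 591 (branch (move 590 (branch (move 622 (leaf 494 5)) (move 463 (branch (move 558 (leaf 462 5)) (move 464 (branch (move 432 (leaf 431 6)) (move 496 (leaf 463 6)))))))) (branch (move 496 (branch (move 464 (leaf 463 6)) (move 623 (branch (move 528 (leaf 495 6)) (move 622 (branch (move 590 (leaf 494 5)) (move 654 (leaf 526 5)))))))) (branch (move 622 (branch (move 590 (leaf 494 5)) (move 623 (branch (move 654 (leaf 526 5)) (move 655 (branch (move 558 (leaf 526 7)) (move 656 (branch (move 624 (leaf 527 4)) (move 688 (leaf 559 4)))))))))) (move 496 (branch (move 464 (leaf 463 6)) (move 623 (branch (move 528 (leaf 495 6)) (move 655 (branch (move 558 (leaf 526 7)) (move 656 (branch (move 624 (leaf 527 4)) (move 688 (leaf 559 4))))))))))))))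
theorem a4p52 : a4e52.Valid :=
  pos_of_chk [] forall_nil a4c52 a4e52 (by decide +kernel)

def a4e53 : Pos := ⟨1886981212850117726471429768749730530037581954139326546904044760262903517255302045033517531062319280613169469419113391289905276108324455767300621596780004365372577808384, 373755135517440540579789377056855715634790162997362607554852565782310325737772001695922152544341524418952501673280936678484174950186349655766518947601183883438606330064536896479780513207863467835392, 5⟩
def a4c53 : Cert := (move 591 (branch (move 592 (branch (move 624 (leaf 495 4)) (move 463 (branch (move 560 (leaf 463 4)) (move 464 (branch (move 432 (leaf 431 6)) (move 496 (leaf 463 6)))))))) (branch (move 590 (branch (move 622 (leaf 494 5)) (move 463 (branch (move 558 (leaf 462 5)) (move 464 (branch (move 432 (leaf 431 6)) (move 496 (leaf 463 6)))))))) (move 622 (branch (move 590 (leaf 494 5)) (move 623 (branch (move 654 (leaf 526 5)) (move 624 (branch (move 592 (leaf 495 4)) (move 656 (leaf 527 4)))))))))))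
theorem a4p53 : a4e53.Valid :=
  pos_of_chk [] forall_nil a4c53 a4e53 (by decide +kernel)

def a4e54 : Pos := ⟨1886981213069791251595609279629151355608186537091948476508630533363526347949239426902242524730241189114336015178386873254432663565512359383291554198782373270688259637248, 20261306494101794418553414520380443730899705313523939710526159575314337032159966304138248203445343466055117203872293845509380123707754982645830315626093512988352950652536065359872, 12⟩
def a4c54 : Cert := (move 463 (branch (move 560 (branch (move 592 (leaf 463 4)) (move 431 (branch (move 528 (leaf 431 4)) (move 432 (branch (move 400 (leaf 399 6)) (move 464 (leaf 431 6)))))))) (branch (move 430 (branch (move 462 (leaf 430 7)) (move 431 (branch (move 398 (leaf 398 7)) (move 560 (branch (move 528 (leaf 431 4)) (move 592 (leaf 463 4)))))))) (branch (move 432 (branch (move 464 (leaf 431 6)) (move 431 (branch (move 400 (leaf 399 6)) (move 430 (branch (move 398 (leaf 398 7)) (move 462 (leaf 430 7)))))))) (move 464 (branch (move 432 (leaf 431 6)) (move 462 (branch (move 430 (leaf 430 7)) (move 465 (branch (move 558 (branch (move 590 (leaf 462 5)) (move 560 (branch (move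 592 (leaf 463 4)) (move 433 (branch (move 434 (leaf 430 2)) (move 528 (branch (move 496 (leaf 432 6)) (move 557 (branch (move 529 (leaf 525 1)) (move 556 (leaf 524 2)))))))))))) (branch (move 497 (branch (move 498 (leaf 462 0)) (move 461 (branch (move 496 (leaf 461 0)) (move 434 (branch (move 433 (leaf 430 2)) (move 466 (branch (move 435 (leaf 431 2)) (move 492 (branch (move 493 (leaf 460 1)) (move 460 (branch (move 491 (leaf 459 1)) (move 428 (branch (move 427 (leaf 427 3)) (move 429 (leaf 428 3)))))))))))))))) (branch (move 558 (branch (move 590 (leaf 462 5)) (move 498 (branch (move 497 (leaf 462 0)) (move 466 (branch (move 499 (leaf 463 0)) (move 434 (branch (move 433 (leaf 430 2)) (move 435 (leaf 431 2)))))))))) (move 497 (branch (move 498 (leaf 462 0)) (move 461 (branch (move 496 (leaf 461 0)) (move 558 (branch (move 590 (leaf 462 5)) (move 492 (branch (move 493 (leaf 460 1)) (move 460 (branch (move 491 (leaf 459 1)) (move 428 (branch (move 427 (leaf 427 3)) (move 429 (leaf 428 3))))))))))))))))))))))))))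
theorem a4p54 : a4e54.Valid :=
  pos_of_chk [] forall_nil a4c54 a4e54 (by decide +kernel)

def a4e55 : Pos := ⟨659020575474831989135016910149725926883728262320527383240714266753165000859179162141411805343601827663004950804547371250549963067010837073066025248863561973760, 1605266083796830672970633835441915935928042428121387792790541930777606415749833814496305395705206566261082732500452622122146152418645788892407547224543125107939321408522450924270632111856180946471020241354752, 13⟩
def a4c55 : Cert := (move 559 (branch (move 591 (branch (move 496 (branch (move 464 (leaf 463 6)) (move 623 (branch (move 528 (leaf 495 6)) (move 624 (branch (move 592 (leaf 495 4)) (move 656 (leaf 527 4)))))))) (branch (move 496 (branch (move 464 (leaf 463 6)) (move 623 (branch (move 528 (leaf 495 6)) (move 622 (branch (move 590 (leaf 494 5)) (move 654 (leaf 526 5)))))))) (ref 0)))) (branch (ref 1) (branch (ref 2) (branch (move 591 (branch (move 622 (branch (move 590 (leaf 494 5)) (move 623 (branch (move 654 (leaf 526 5)) (move 624 (branch (move 592 (leaf 495 4)) (move 656 (leaf 527 4)))))))) (branch (move 624 (branch (move 592 (leaf 495 4)) (move 623 (branch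 (move 656 (leaf 527 4)) (move 655 (branch (move 558 (leaf 526 7)) (move 654 (branch (move 622 (leaf 526 5)) (move 686 (leaf 558 5)))))))))) (branch (move 592 (branch (move 624 (leaf 495 4)) (move 463 (branch (move 560 (leaf 463 4)) (move 558 (branch (move 431 (leaf 430 5)) (move 590 (leaf 462 5)))))))) (move 590 (branch (move 622 (leaf 494 5)) (move 558 (branch (move 463 (leaf 462 5)) (move 623 (branch (move 655 (leaf 526 7)) (move 528 (branch (move 496 (leaf 495 6)) (move 557 (branch (move 529 (leaf 525 1)) (move 556 (leaf 524 2)))))))))))))))) (branch (ref 3) (branch (move 463 (branch (move 560 (branch (move 592 (leaf 463 4)) (move 431 (branch (move 528 (leaf 431 4)) (move 432 (branch (move 400 (leaf 399 6)) (move 464 (leaf 431 6)))))))) (branch (move 430 (branch (move 462 (leaf 430 7)) (move 431 (branch (move 398 (leaf 398 7)) (move 560 (branch (move 528 (leaf 431 4)) (move 592 (leaf 463 4)))))))) (move 464 (branch (move 432 (leaf 431 6)) (move 496 (branch (move 591 (leaf 463 6)) (move 497 (branch (move 498 (leaf 494 1)) (move 462 (branch (move 461 (leaf 461 0)) (move 430 (leaf 430 7))))))))))))) (ref 4))))))))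
theorem a4p55 : a4e55.Valid :=
  pos_of_chk [a4e19, a4e51, a4e52, a4e53, a4e54] (forall_cons a4p19 (forall_cons a4p51 (forall_cons a4p52 (forall_cons a4p53 (forall_cons a4p54 forall_nil))))) a4c55 a4e55 (by decide +kernel)

def a4e56 : Pos := ⟨1886981212850117726471429768749730530037581954139326546904044760262903517255302045033517531062319280613169469419113391289905276108324455767300621596780004365372577808384, 69617319018792864949627735951229043200449245848768769469192789685280603813029445400859576444986057186372733675727739359543273116201611644942799200642762093647423908783648323424954081083392, 5⟩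
def a4c56 : Cert := (move 463 (branch (move 560 (branch (move 592 (leaf 463 4)) (move 431 (branch (move 528 (leaf 431 4)) (move 432 (branch (move 400 (leaf 399 6)) (move 464 (leaf 431 6)))))))) (branch (move 462 (branch (move 430 (leaf 430 7)) (move 591 (branch (move 494 (leaf 462 7)) (move 592 (branch (move 560 (leaf 463 4)) (move 624 (leaf 495 4)))))))) (move 432 (branch (move 464 (leaf 431 6)) (move 431 (branch (move 400 (leaf 399 6)) (move 430 (branch (move 398 (leaf 398 7)) (move 462 (leaf 430 7)))))))))))
theorem a4p56 : a4e56.Valid :=
  pos_of_chk [] forall_nil a4c56 a4e56 (by decide +kernel)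

def a4e57 : Pos := ⟨1886981213069791251595609279629151355608186537091948476508630533363526347949239426902242524730241189114336015178386873254432663565512359383291554198782373270688259637248, 12156783897923487091804828905039302816008450105676641069462209336104443714843829005622831992800529736584523307499935067764125741458084648827355430523097304667826146984342268674048, 7⟩
def a4c57 : Cert := (move 463 (branch (move 462 (branch (move 430 (leaf 430 7)) (move 494 (branch (move 591 (leaf 462 7)) (move 431 (branch (move 399 (leaf 398 5)) (move 528 (branch (move 560 (leaf 431 4)) (move 493 (branch (move 492 (leaf 492 0)) (move 529 (leaf 493 3)))))))))))) (branch (move 558 (branch (move 590 (leaf 462 5)) (move 462 (branch (move 430 (leaf 430 7)) (move 494 (branch (move 591 (leaf 462 4)) (move 464 (branch (move 432 (leaf 431 6)) (move 493 (branch (move 465 (leaf 461 1)) (move 492 (leaf 460 2)))))))))))) (move 558 (branch (move 431 (leaf 430 5)) (move 590 (leaf 462 5)))))))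
theorem a4p57 : a4e57.Valid :=
  pos_of_chk [] forall_nil a4c57 a4e57 (by decide +kernel)

def a4e58 : Pos := ⟨1886981213069791251595609279652968406925904983681468719045504665945226468056241465101546395576992377307235838329939501604221268081807425691285684317308435096854704685056, 23807035129738157344620451825913244073661458721848317882687975734591898092991981894279306593278738932705831791220255361262495365766514221231837804118067102455554994389213870292992, 7⟩
def a4c58 : Cert := (move 558 (branch (move 590 (leaf 462 5)) (move 557 (branch (move 556 (branch (move 555 (leaf 523 2)) (move 560 (branch (move 592 (leaf 463 4)) (move 588 (branch (move 587 (leaf 555 1)) (move 589 (leaf 556 1)))))))) (branch (move 528 (branch (move 529 (leaf 525 1)) (move 556 (leaf 524 2)))) (move 560 (branch (move 592 (leaf 463 4)) (move 528 (branch (move 529 (leaf 525 1)) (move 462 (branch (move 430 (leaf 430 7)) (move 589 (branch (move 588 (leaf 556 1)) (move 494 (leaf 461 5)))))))))))))))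
theorem a4p58 : a4e58.Valid :=
  pos_of_chk [] forall_nil a4c58 a4e58 (by decide +kernel)

def a4e59 : Pos := ⟨659020575474831989135016910149725926883728262320527383240714266753165000859179162141411805343601827663004950804547371250549963067010837073066025248863561973760, 373755135517440540579789377058742696847200933673572891620089493458459646250438711501545416663989458135016306151208737459647596189158070212702041597253613493852252160025639450495465208859342437089280, 8⟩
def a4c59 : Cert := (move 463 (branch (ref 0) (branch (move 431 (branch (move 558 (leaf 430 5)) (move 400 (branch (move 432 (leaf 399 6)) (move 399 (branch (move 368 (leaf 367 6)) (move 398 (branch (move 366 (leaf 366 7)) (move 430 (leaf 398 7)))))))))) (branch (move 558 (branch (move 431 (leaf 430 5)) (move 590 (branch (move 559 (leaf 462 5)) (move 622 (leaf 494 6)))))) (move 559 (branch (move 464 (branch (move 432 (leaf 431 6)) (move 591 (branch (move 496 (leaf 463 6)) (move 592 (branch (move 560 (leaf 463 4)) (move 624 (leaf 495 4)))))))) (branch (move 462 (branch (move 430 (leaf 430 7)) (move 591 (branch (move 494 (leaf 462 7)) (move 592 (branch (move 560 (leaf 463 4))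 (move 624 (leaf 495 4)))))))) (ref 1))))))))
theorem a4p59 : a4e59.Valid :=
  pos_of_chk [a4e33, a4e30] (forall_cons a4p33 (forall_cons a4p30 forall_nil)) a4c59 a4e59 (by decide +kernel)

def a4e60 : Pos := ⟨659020575474831989135016910149725926883728262320527383240714266753165000859179162141411805343601827663004950804547371250549963067010837073066025248863561973760, 104425978516032513532179060479739947784663488958254628865777648518624456578968831058886759132494017658688233766082207702465791075081086963704859524543525406120119842281632729705649306337280, 13⟩
def a4c60 : Cert := (move 463 (branch (move 559 (branch (move 464 (branch (move 432 (leaf 431 6)) (move 591 (branch (move 496 (leaf 463 6)) (move 592 (branch (move 560 (leaf 463 4)) (move 624 (leaf 495 4)))))))) (branch (move 462 (branch (move 430 (leaf 430 7)) (move 591 (branch (move 494 (leaf 462 7)) (move 592 (branch (move 560 (leaf 463 4)) (move 624 (leaf 495 4)))))))) (branch (move 462 (branch (move 430 (leaf 430 7)) (move 464 (branch (move 432 (leaf 431 6)) (move 591 (branch (move 496 (leaf 463 6)) (move 494 (leaf 462 7)))))))) (ref 0))))) (branch (move 559 (branch (move 464 (branch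 (move 432 (leaf 431 6)) (move 591 (branch (move 496 (leaf 463 6)) (move 592 (branch (move 560 (leaf 463 4)) (move 624 (leaf 495 4)))))))) (branch (move 560 (branch (move 592 (leaf 463 4)) (move 431 (branch (move 528 (leaf 431 4)) (move 399 (branch (move 494 (leaf 398 5)) (move 400 (branch (move 368 (leaf 367 6)) (move 432 (leaf 399 6)))))))))) (branch (move 464 (branch (move 432 (leaf 431 6)) (move 591 (branch (move 496 (leaf 463 6)) (move 494 (branch (move 462 (leaf 462 7)) (move 623 (leaf 494 7)))))))) (move 560 (branch (move 592 (leaf 463 4)) (move 431 (branch (move 528 (leaf 431 4)) (move 494 (branch (move 399 (leaf 398 5)) (move 591 (branch (move 462 (leaf 462 7)) (move 623 (leaf 494 7)))))))))))))) (branch (move 431 (branch (move 430 (branch (move 398 (leaf 398 7)) (move 559 (branch (move 462 (leaf 430 7)) (move 560 (branch (move 528 (leaf 431 4)) (move 592 (leaf 463 4)))))))) (branch (move 528 (branch (move 560 (leaf 431 4)) (move 399 (branch (move 496 (leaf 399 4)) (move 494 (leaf 398 5)))))) (move 399 (branch (move 494 (leaf 398 5)) (move 398 (branch (move 366 (leaf 366 7)) (move 430 (leaf 398 7))))))))) (move 431 (branch (move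 558 (leaf 430 5)) (move 400 (branch (move 432 (leaf 399 6)) (move 399 (branch (move 368 (leaf 367 6)) (move 398 (branch (move 366 (leaf 366 7)) (move 430 (leaf 398 7))))))))))))))
theorem a4p60 : a4e60.Valid :=
  pos_of_chk [a4e49] (forall_cons a4p49 forall_nil) a4c60 a4e60 (by decide +kernel)

def a4e61 : Pos := ⟨943490606864405913586367362630461349597912321000769606167963990271543194686878641507212934004649537149020016613288164484972621847524287334670215269453658526234169049088, 6150858704953888082818003734348532771446861906225264014895647525596436545873374188307096847384393382223809767501025961078032717782061014594757838312263420739584, 6⟩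
def a4c61 : Cert := (move 493 (branch (move 492 (branch (move 491 (leaf 491 0)) (move 460 (branch (move 459 (leaf 459 3)) (move 461 (branch (move 496 (leaf 460 3)) (move 429 (branch (move 397 (leaf 397 4)) (move 462 (leaf 429 7)))))))))) (branch (move 528 (branch (move 492 (leaf 492 0)) (move 529 (leaf 493 3)))) (move 496 (branch (move 461 (branch (move 460 (leaf 460 3)) (move 462 (branch (move 497 (leaf 461 3)) (move 429 (leaf 429 7)))))) (branch (move 528 (branch (move 529 (leaf 493 0)) (move 461 (branch (move 460 (leaf 460 3)) (move 429 (branch (move 397 (leaf 397 4)) (move 462 (leaf 429 7)))))))) (move 529 (branch (move 528 (leaf 493 0)) (move 497 (branch (move 530 (leaf 494 0)) (move 498 (leaf 494 1))))))))))))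
theorem a4p61 : a4e61.Valid :=
  pos_of_chk [] forall_nil a4c61 a4e61 (by decide +kernel)

def a4e62 : Pos := ⟨943490606864405913586367362630461349597912321000769606167963990271543194686878641507212934004649537149020016613288164484972621847524287334670215269453658526234169049088, 878694100541471430828793006484725637074720826218347387076630294353317092211702145960312846550131946504143379233854105462885351604980749769915448696821644263424, 7⟩
def a4c62 : Cert := (move 462 (branch (move 431 (branch (move 463 (leaf 430 5)) (move 430 (branch (move 398 (leaf 398 4)) (move 399 (leaf 398 6)))))) (branch (move 430 (branch (move 398 (leaf 398 4)) (move 429 (branch (move 397 (leaf 397 7)) (move 461 (leaf 429 7)))))) (move 463 (branch (move 431 (leaf 430 5)) (move 461 (branch (move 429 (leaf 429 7)) (move 460 (branch (move 459 (leaf 459 0)) (move 492 (branch (move 491 (leaf 459 1)) (move 493 (branch (move 528 (leaf 492 0)) (move 464 (leaf 460 1)))))))))))))))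
theorem a4p62 : a4e62.Valid :=
  pos_of_chk [] forall_nil a4c62 a4e62 (by decide +kernel)

def a4e63 : Pos := ⟨943490606864405913586367362630461349597912321000769606167963990271543194686878641507212934004649537149020016613288164484972621847524287334670215269453658526234169049088, 6150858704953888083152931018519198109933205392210107281649369313831557253292855208718113251370569719100692935076921227964620617778524310565042669249250939895808, 7⟩
def a4c63 : Cert := (move 493 (branch (move 528 (branch (move 492 (leaf 492 0)) (move 529 (leaf 493 3)))) (branch (move 492 (branch (move 491 (leaf 491 0)) (move 463 (branch (move 464 (leaf 460 2)) (move 431 (leaf 430 5)))))) (move 496 (branch (move 529 (branch (move 528 (leaf 493 0)) (move 497 (branch (move 530 (leaf 494 0)) (move 498 (leaf 494 1)))))) (branch (move 463 (branch (move 431 (leaf 430 5)) (move 497 (branch (move 498 (leaf 494 1)) (move 465 (branch (move 464 (leaf 461 2)) (move 466 (leaf 462 2)))))))) (move 528 (branch (move 529 (leaf 493 0)) (move 431 (branch (move 463 (leaf 430 5)) (move 464 (branch (move 465 (leaf 461 2)) (move 432 (branch (move 400 (leaf 399 5)) (move 399 (leaf 399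 7))))))))))))))))
theorem a4p63 : a4e63.Valid :=
  pos_of_chk [] forall_nil a4c63 a4e63 (by decide +kernel)

def a4e64 : Pos := ⟨659020575474831989135016910149725926883728262320527383240714266753165000859179162141411805343601827663004950804547371250549963067010837073066025248863561973760, 149502054288776566168248422222284444170696329994351973341438333466880354071845763455449332454366268429798169554230290768930740663037692451225420617885486227467546058980038597449475412902664122400768, 12⟩
def a4c64 : Cert := (move 558 (branch (move 590 (branch (move 622 (leaf 494 6)) (move 494 (branch (move 589 (branch (move 621 (leaf 493 5)) (move 557 (branch (move 462 (leaf 461 5)) (move 591 (branch (move 623 (leaf 494 4)) (move 556 (branch (move 555 (leaf 555 0)) (move 592 (leaf 556 3)))))))))) (move 493 (branch (move 461 (leaf 461 7)) (move 528 (branch (move 492 (leaf 492 0)) (move 529 (leaf 493 3)))))))))) (branch (move 463 (branch (move 431 (leaf 430 5)) (move 590 (branch (move 559 (leaf 462 5)) (move 622 (leaf 494 6)))))) (move 559 (branch (move 591 (branch (move 623 (branch (move 655 (leaf 526 7)) (move 496 (branch (move 464 (leaf 463 6)) (move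 528 (leaf 495 6)))))) (move 592 (branch (move 624 (leaf 495 4)) (move 557 (branch (move 556 (leaf 556 0)) (move 593 (branch (move 560 (leaf 557 0)) (move 594 (leaf 558 3)))))))))) (branch (move 463 (branch (move 431 (leaf 430 5)) (move 592 (branch (move 560 (leaf 463 4)) (move 591 (branch (move 624 (leaf 495 4)) (move 494 (branch (move 462 (leaf 462 4)) (move 623 (leaf 494 7)))))))))) (branch (move 463 (branch (move 431 (leaf 430 5)) (move 464 (branch (move 432 (leaf 431 6)) (move 591 (branch (move 496 (leaf 463 6)) (move 494 (branch (move 462 (leaf 462 4)) (move 623 (leaf 494 7)))))))))) (move 557 (branch (move 528 (branch (move 529 (leaf 525 1)) (move 556 (leaf 524 2)))) (branch (move 463 (branch (move 431 (leaf 430 5)) (move 556 (branch (move 555 (leaf 523 2)) (move 560 (branch (move 592 (leaf 463 4)) (move 588 (branch (move 587 (leaf 555 1)) (move 589 (leaf 556 1)))))))))) (move 528 (branch (move 529 (leaf 525 1)) (move 463 (branch (move 431 (leaf 430 5)) (move 560 (branch (move 592 (leaf 463 4)) (move 464 (branch (move 432 (leaf 431 6)) (move 589 (branch (move 588 (leaf 556 1)) (move 494 (branch (move 462 (leaf 461 5)) (move 493 (branch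 (move 492 (leaf 492 0)) (move 465 (branch (move 466 (leaf 462 1)) (move 496 (leaf 461 2))))))))))))))))))))))))))))
theorem a4p64 : a4e64.Valid :=
  pos_of_chk [] forall_nil a4c64 a4e64 (by decide +kernel)

def a4e65 : Pos := ⟨1886981213948485352092327323170651709208323315491956437463847758347717790831990992576446370248680011311902021367033429462330817910559040155249414725317910718117432000512, 16209045194715341181312351979680142310993331897389102413197584217487940303057509835867158264902984765483445823253099598683268714365401440901115854495241475734993712410492493889536, 7⟩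
def a4c65 : Cert := (move 529 (branch (move 560 (branch (move 592 (leaf 463 4)) (move 530 (branch (move 531 (leaf 527 1)) (move 498 (branch (move 497 (leaf 494 2)) (move 499 (leaf 495 2)))))))) (branch (move 560 (branch (move 592 (leaf 463 4)) (move 494 (branch (move 493 (leaf 493 3)) (move 464 (branch (move 432 (leaf 431 6)) (move 465 (branch (move 466 (leaf 462 1)) (move 497 (branch (move 498 (leaf 494 2)) (move 433 (leaf 432 5)))))))))))) (move 494 (branch (move 493 (leaf 493 3)) (move 530 (leaf 494 3)))))))
theorem a4p65 : a4e65.Valid :=
  pos_of_chk [] forall_nil a4c65 a4e65 (by decide +kernel)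

def a4e66 : Pos := ⟨659020575474831989158833961467444373473248504857401515822414386860167039058483032988162993536501650814557579154335975766845029375004967191592087075030007021568, 552587469583262335748826529051812917574919850427103115794102047647924878217367492748054444771176595406353280008075503490757568290058333448131844517595957915191260796183722650360370968920064, 11⟩
def a4c66 : Cert := (move 528 (branch (move 529 (branch (move 498 (branch (move 497 (leaf 494 2)) (move 530 (branch (move 499 (leaf 495 2)) (move 531 (branch (move 496 (leaf 495 3)) (move 563 (branch (move 562 (leaf 527 0)) (move 564 (leaf 528 0)))))))))) (move 494 (branch (move 493 (leaf 493 3)) (move 558 (branch (move 557 (leaf 525 1)) (move 590 (leaf 462 6)))))))) (branch (move 559 (branch (move 592 (branch (move 560 (leaf 463 4)) (move 591 (branch (move 624 (leaf 495 4)) (move 590 (branch (move 558 (leaf 462 5)) (move 622 (leaf 494 5)))))))) (branch (move 558 (branch (move 590 (leaf 462 5)) (move 529 (branch (move 557 (leaf 525 1)) (move 530 (leaf 526 1)))))) (ref 0)))) (branch (move 559 (branch (move 560 (branch (move 592 (leaf 463 4)) (move 464 (branch (move 432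 (leaf 431 6)) (move 496 (branch (move 591 (leaf 463 5)) (move 498 (branch (move 497 (leaf 494 1)) (move 465 (branch (move 433 (leaf 432 6)) (move 466 (branch (move 499 (leaf 463 0)) (move 467 (leaf 463 1)))))))))))))) (branch (ref 0) (branch (move 464 (branch (move 432 (leaf 431 6)) (move 591 (branch (move 496 (leaf 463 6)) (move 494 (branch (move 623 (leaf 494 7)) (move 493 (branch (move 492 (leaf 492 0)) (move 529 (leaf 493 3)))))))))) (move 592 (branch (move 560 (leaf 463 4)) (move 591 (branch (move 624 (leaf 495 4)) (move 623 (branch (move 496 (leaf 495 6)) (move 494 (leaf 494 7)))))))))))) (branch (move 559 (branch (move 560 (branch (move 592 (leaf 463 4)) (move 464 (branch (move 432 (leaf 431 6)) (move 496 (branch (move 591 (leaf 463 5)) (move 498 (branch (move 497 (leaf 494 1)) (move 465 (branch (move 433 (leaf 432 6)) (move 466 (branch (move 499 (leaf 463 0)) (move 467 (leaf 463 1)))))))))))))) (move 558 (branch (move 590 (leaf 462 5)) (move 557 (branch (move 529 (leaf 525 1)) (move 556 (leaf 524 2)))))))) (move 590 (branch (move 558 (branch (move 494 (leaf 462 6)) (move 622 (leaf 494 6)))) (branch (move 558 (branch (move 559 (leaf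 462 5)) (move 494 (leaf 462 6)))) (move 592 (branch (move 560 (branch (move 496 (leaf 463 7)) (move 624 (leaf 495 7)))) (branch (move 560 (branch (move 559 (leaf 463 4)) (move 624 (leaf 495 7)))) (branch (move 560 (branch (move 559 (leaf 463 4)) (move 496 (leaf 463 7)))) (move 591 (branch (move 559 (branch (move 624 (leaf 495 4)) (move 496 (branch (move 464 (leaf 463 6)) (move 623 (leaf 495 6)))))) (branch (move 559 (branch (move 622 (leaf 494 5)) (move 496 (branch (move 464 (leaf 463 6)) (move 623 (leaf 495 6)))))) (branch (move 559 (branch (move 624 (leaf 495 4)) (move 622 (leaf 494 5)))) (move 589 (branch (move 624 (branch (move 625 (leaf 589 0)) (move 588 (branch (move 623 (leaf 588 0)) (move 556 (branch (move 555 (leaf 555 3)) (move 557 (leaf 556 3)))))))) (branch (move 621 (branch (move 620 (leaf 588 1)) (move 556 (branch (move 557 (leaf 556 3)) (move 588 (branch (move 555 (leaf 555 3)) (move 622 (branch (move 593 (leaf 589 1)) (move 587 (branch (move 586 (leaf 586 0)) (move 623 (leaf 587 0)))))))))))) (move 621 (branch (move 620 (leaf 588 1)) (move 593 (branch (move 622 (leaf 589 1)) (move 625 (branch (move 624 (leaf 589 0)) (move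 626 (leaf 590 0)))))))))))))))))))))))))))
theorem a4p66 : a4e66.Valid :=
  pos_of_chk [a4e65] (forall_cons a4p65 forall_nil) a4c66 a4e66 (by decide +kernel)

def a4e67 : Pos := ⟨1537714676022696760901077429151100347707147217492255507612628476864590955960581227381922479268319105892691131118139525518794703640493587114604960136584547532800, 130532473243814511046697298033958935967251500630916067074277844475765982746938654042336436370751976831834015276068284323394578369903258732639506623820106556935642779857177473735187008323584, 9⟩
def a4c67 : Cert := (move 558 (branch (move 590 (branch (move 622 (leaf 494 6)) (move 589 (branch (move 621 (leaf 493 5)) (move 557 (branch (move 462 (leaf 461 5)) (move 591 (branch (move 623 (leaf 494 4)) (move 556 (branch (move 555 (leaf 555 0)) (move 592 (leaf 556 3)))))))))))) (branch (move 590 (branch (move 622 (leaf 494 6)) (move 589 (branch (move 621 (leaf 493 5)) (move 557 (branch (move 462 (leaf 461 5)) (move 556 (branch (move 555 (leaf 523 2)) (move 559 (leaf 524 2)))))))))) (branch (move 559 (branch (move 557 (branch (move 556 (leaf 524 2)) (move 462 (branch (move 430 (leaf 430 4)) (move 589 (leaf 461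 5)))))) (branch (move 591 (branch (move 623 (leaf 494 7)) (move 496 (branch (move 464 (leaf 463 6)) (move 592 (branch (move 624 (leaf 495 4)) (move 557 (branch (move 556 (leaf 556 0)) (move 593 (branch (move 560 (leaf 557 0)) (move 594 (leaf 558 3)))))))))))) (move 591 (branch (move 462 (leaf 462 4)) (move 623 (leaf 494 7))))))) (branch (move 590 (branch (move 622 (leaf 494 6)) (move 591 (branch (move 623 (leaf 494 4)) (move 559 (branch (move 462 (leaf 462 4)) (move 496 (branch (move 464 (leaf 463 6)) (move 592 (branch (move 624 (leaf 495 4)) (move 589 (branch (move 621 (leaf 493 5)) (move 588 (branch (move 587 (leaf 555 2)) (move 560 (leaf 556 2)))))))))))))))) (branch (move 590 (branch (move 622 (leaf 494 6)) (move 591 (branch (move 623 (leaf 494 4)) (move 559 (branch (move 462 (leaf 462 4)) (move 592 (branch (move 624 (leaf 495 4)) (move 557 (branch (move 556 (leaf 556 0)) (move 593 (leaf 557 3)))))))))))) (move 559 (branch (move 590 (branch (move 622 (leaf 494 6)) (move 557 (branch (move 556 (leaf 524 2)) (move 589 (branch (move 621 (leaf 493 5)) (move 588 (branch (move 560 (leaf 556 1)) (move 587 (leaf 555 2)))))))))) (branch (move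 591 (branch (move 623 (leaf 494 7)) (move 496 (branch (move 464 (leaf 463 6)) (move 592 (branch (move 624 (leaf 495 4)) (move 557 (branch (move 556 (leaf 556 0)) (move 593 (branch (move 560 (leaf 557 0)) (move 594 (leaf 558 3)))))))))))) (branch (move 591 (branch (move 623 (leaf 494 7)) (move 590 (branch (move 622 (leaf 494 5)) (move 496 (branch (move 464 (leaf 463 6)) (move 592 (branch (move 624 (leaf 495 4)) (move 589 (branch (move 621 (leaf 493 5)) (move 588 (branch (move 587 (leaf 555 2)) (move 560 (leaf 556 2)))))))))))))) (move 591 (branch (move 623 (leaf 494 7)) (move 590 (branch (move 622 (leaf 494 5)) (move 557 (branch (move 556 (leaf 524 2)) (move 592 (branch (move 593 (leaf 557 3)) (move 624 (leaf 495 4))))))))))))))))))))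
theorem a4p67 : a4e67.Valid :=
  pos_of_chk [] forall_nil a4c67 a4e67 (by decide +kernel)

def a4e68 : Pos := ⟨659020575525978717383394126868682015896659499073912415210137154088841428485681252710234845263652922855597203260029975690043089176529856706595484515321820217344, 4052261298678835294888740945413304115863368490070402786714313646188209212636308068307968098772966211878845886595541694890794578912652682972746662601453690848088660759339377623040, 7⟩
def a4c68 : Cert := (move 493 (branch (move 492 (branch (move 491 (leaf 491 0)) (move 528 (leaf 492 0)))) (branch (move 496 (branch (move 497 (branch (move 498 (leaf 494 1)) (move 465 (branch (move 464 (leaf 461 2)) (move 466 (leaf 462 2)))))) (move 528 (branch (move 529 (leaf 493 0)) (move 461 (branch (move 460 (leaf 460 3)) (move 558 (branch (move 590 (leaf 461 7)) (move 429 (branch (move 397 (leaf 397 4)) (move 462 (leaf 429 7)))))))))))) (move 492 (branch (move 491 (leaf 491 0)) (move 460 (branch (move 459 (leaf 459 3)) (move 496 (branch (move 461 (leaf 460 3)) (move 497 (branch (move 498 (leaf 494 1)) (move 465 (branch (move 464 (leaf 461 2)) (move 466 (leaf 462 2)))))))))))))))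
theorem a4p68 : a4e68.Valid :=
  pos_of_chk [] forall_nil a4c68 a4e68 (by decide +kernel)

def a4e69 : Pos := ⟨659020575474831989135016910149725926883728262320527383240714266753165000859179162141411805343601827663004950804547371250549963067010837073066025248863561973760, 130532473243814511046697298040109794672051948529262835248634361794730662553985650869897352930178654035389963400155439939437832582862504633194317831440127128581788831216101235329298855886848, 11⟩
def a4c69 : Cert := (move 494 (branch (move 493 (branch (move 496 (branch (move 497 (branch (move 498 (leaf 494 1)) (move 465 (branch (move 464 (leaf 461 2)) (move 466 (leaf 462 2)))))) (branch (move 528 (branch (move 529 (leaf 493 0)) (move 464 (branch (move 465 (leaf 461 2)) (move 559 (branch (move 432 (leaf 431 5)) (move 591 (leaf 463 6)))))))) (move 529 (branch (move 528 (leaf 493 0)) (move 497 (branch (move 530 (leaf 494 0)) (move 498 (leaf 494 1))))))))) (branch (move 492 (branch (move 491 (leaf 491 0)) (move 528 (leaf 492 0)))) (move 492 (branch (move 491 (leaf 491 0)) (move 460 (branch (move 459 (leaf 459 3)) (move 496 (branch (move 461 (leaf 460 3)) (move 497 (branch (move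 498 (leaf 494 1)) (move 465 (branch (move 464 (leaf 461 2)) (move 466 (leaf 462 2))))))))))))))) (branch (move 462 (branch (move 559 (branch (move 430 (leaf 430 4)) (move 591 (leaf 462 7)))) (branch (move 558 (branch (move 590 (branch (move 622 (leaf 494 6)) (move 589 (branch (move 557 (leaf 461 5)) (move 621 (leaf 493 5)))))) (branch (move 559 (branch (move 591 (leaf 462 4)) (move 557 (branch (move 589 (leaf 461 5)) (move 528 (branch (move 529 (leaf 525 1)) (move 556 (leaf 524 2)))))))) (move 591 (branch (move 559 (leaf 462 4)) (move 590 (branch (move 623 (leaf 494 4)) (move 622 (leaf 494 6))))))))) (move 430 (branch (move 398 (leaf 398 4)) (move 429 (branch (move 397 (leaf 397 7)) (move 558 (branch (move 461 (leaf 429 7)) (move 590 (branch (move 622 (leaf 494 6)) (move 589 (branch (move 557 (leaf 461 5)) (move 621 (leaf 493 5))))))))))))))) (branch (move 528 (branch (move 493 (branch (move 492 (leaf 492 0)) (move 529 (leaf 493 3)))) (ref 0))) (branch (ref 1) (ref 2))))))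
theorem a4p69 : a4e69.Valid :=
  pos_of_chk [a4e67, a4e25, a4e68] (forall_cons a4p67 (forall_cons a4p25 (forall_cons a4p68 forall_nil))) a4c69 a4e69 (by decide +kernel)

def a4e70 : Pos := ⟨659020575551552081507582735228160060403125117450604931194848597756679642298932297994646365223678470451893329487771277909789652231289366523360214148550949339136, 3773962427457623655163817102873976555607396595511182505932220553303452132885880507659176462430142020855633288879844075855077164218165771663966445129808188854610159468544, 10⟩
def a4c70 : Cert := (move 463 (branch (move 431 (branch (move 399 (leaf 398 5)) (move 528 (branch (move 529 (leaf 493 3)) (move 560 (leaf 431 4)))))) (branch (move 496 (branch (move 497 (branch (move 498 (leaf 494 1)) (move 461 (branch (move 460 (leaf 460 3)) (move 462 (leaf 461 3)))))) (branch (move 528 (branch (move 529 (leaf 493 0)) (move 464 (branch (move 465 (leaf 461 2)) (move 461 (branch (move 460 (leaf 460 3)) (move 432 (branch (move 400 (leaf 399 5)) (move 433 (branch (move 462 (leaf 429 2)) (move 401 (leaf 400 6)))))))))))) (move 528 (branch (move 529 (leaf 493 0)) (move 497 (branch (move 498 (leaf 494 1)) (move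 465 (branch (move 464 (leaf 461 2)) (move 466 (leaf 462 2))))))))))) (move 496 (branch (move 497 (branch (move 498 (leaf 494 1)) (move 461 (branch (move 460 (leaf 460 3)) (move 462 (leaf 461 3)))))) (branch (move 464 (branch (move 465 (leaf 461 2)) (move 431 (branch (move 399 (leaf 398 5)) (move 432 (branch (move 400 (leaf 399 5)) (move 461 (branch (move 460 (leaf 460 3)) (move 462 (branch (move 433 (leaf 429 2)) (move 430 (branch (move 398 (leaf 398 4)) (move 429 (branch (move 428 (leaf 428 0)) (move 397 (leaf 397 4)))))))))))))))) (branch (move 464 (branch (move 465 (leaf 461 2)) (move 431 (branch (move 399 (leaf 398 5)) (move 432 (branch (move 400 (leaf 399 5)) (move 430 (branch (move 398 (leaf 398 7)) (move 497 (branch (move 498 (leaf 494 1)) (move 429 (branch (move 428 (leaf 428 0)) (move 397 (branch (move 396 (leaf 396 3)) (move 462 (leaf 397 7)))))))))))))))) (move 464 (branch (move 465 (leaf 461 2)) (move 431 (branch (move 399 (leaf 398 5)) (move 432 (branch (move 400 (leaf 399 5)) (move 497 (branch (move 498 (leaf 494 1)) (move 430 (branch (move 398 (leaf 398 7)) (move 429 (branch (move 428 (leaf 428 0)) (move 461 (branch (move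 460 (leaf 428 1)) (move 397 (leaf 397 4)))))))))))))))))))))))
theorem a4p70 : a4e70.Valid :=
  pos_of_chk [] forall_nil a4c70 a4e70 (by decide +kernel)

def a4e71 : Pos := ⟨659020575372538532638262476711813748857865788813757319301868492081812145606174981003765725503499637277820445893582162371563710847972797806007106715947045486592, 1605266083796830673388337749473881166085237582502040614842457992827984595535710509141643329609395190668242772146311182439346862660630173606012218024579347112883174457400195920940722748556336046301641753755648, 14⟩
def a4c71 : Cert := (move 495 (branch (ref 0) (branch (ref 1) (branch (move 559 (branch (ref 2) (branch (ref 3) (branch (move 591 (branch (move 494 (branch (move 462 (leaf 462 7)) (move 623 (leaf 494 7)))) (ref 4))) (branch (ref 5) (branch (ref 6) (move 463 (branch (move 560 (branch (move 592 (leaf 463 4)) (move 431 (branch (move 528 (leaf 431 4)) (move 432 (branch (move 400 (leaf 399 6)) (move 464 (leaf 431 6)))))))) (branch (move 432 (branch (move 464 (leaf 431 6)) (move 431 (branch (move 400 (leaf 399 6)) (move 430 (branch (move 398 (leaf 398 7)) (move 462 (leaf 430 7)))))))) (ref 7)))))))))) (branch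 (ref 8) (branch (ref 9) (branch (move 558 (branch (move 494 (branch (ref 10) (branch (move 462 (branch (move 431 (branch (move 463 (leaf 430 5)) (move 430 (branch (move 398 (leaf 398 4)) (move 399 (leaf 398 6)))))) (branch (move 430 (branch (move 398 (leaf 398 4)) (move 429 (branch (move 397 (leaf 397 7)) (move 461 (leaf 429 7)))))) (move 463 (branch (move 431 (leaf 430 5)) (move 461 (branch (move 429 (leaf 429 7)) (move 496 (branch (move 460 (leaf 460 0)) (move 497 (leaf 461 3))))))))))) (branch (ref 11) (ref 12))))) (branch (move 463 (branch (move 431 (leaf 430 5)) (move 590 (branch (move 559 (leaf 462 5)) (move 622 (leaf 494 6)))))) (move 494 (branch (move 590 (branch (move 622 (leaf 494 6)) (move 493 (branch (move 461 (leaf 461 7)) (move 528 (branch (move 492 (leaf 492 0)) (move 529 (leaf 493 3)))))))) (branch (ref 10) (move 590 (branch (move 622 (leaf 494 6)) (move 589 (branch (move 621 (leaf 493 5)) (move 462 (branch (move 557 (leaf 461 5)) (move 430 (branch (move 398 (leaf 398 4)) (move 559 (leaf 430 4)))))))))))))))) (branch (ref 13) (branch (move 463 (branch (move 431 (branch (move 430 (branch (move 398 (leaf 398 7)) (move 559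 (branch (move 462 (leaf 430 7)) (move 560 (branch (move 528 (leaf 431 4)) (move 592 (leaf 463 4)))))))) (branch (move 528 (branch (move 560 (leaf 431 4)) (move 399 (branch (move 496 (leaf 399 4)) (move 494 (leaf 398 5)))))) (move 399 (branch (move 494 (leaf 398 5)) (move 398 (branch (move 366 (leaf 366 7)) (move 430 (leaf 398 7))))))))) (branch (move 558 (branch (move 431 (leaf 430 5)) (move 590 (branch (move 559 (leaf 462 5)) (move 622 (leaf 494 6)))))) (branch (move 558 (branch (move 431 (leaf 430 5)) (move 590 (branch (move 494 (leaf 462 6)) (move 622 (leaf 494 6)))))) (move 559 (branch (move 462 (branch (move 430 (leaf 430 7)) (move 591 (branch (move 494 (leaf 462 7)) (move 592 (branch (move 560 (leaf 463 4)) (move 624 (leaf 495 4)))))))) (branch (move 558 (branch (move 590 (leaf 462 5)) (move 592 (branch (move 560 (leaf 463 4)) (move 591 (branch (move 624 (leaf 495 4)) (move 557 (branch (move 556 (leaf 556 0)) (move 623 (branch (move 655 (leaf 526 7)) (move 528 (branch (move 529 (leaf 525 1)) (move 496 (leaf 495 6)))))))))))))) (branch (ref 7) (move 558 (branch (move 590 (leaf 462 5)) (move 462 (branch (move 430 (leaf 430 7)) (move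 494 (branch (move 591 (leaf 462 4)) (move 461 (branch (move 429 (leaf 429 7)) (move 460 (branch (move 459 (leaf 459 0)) (move 496 (leaf 460 0)))))))))))))))))))) (branch (move 463 (branch (move 431 (branch (move 432 (branch (move 400 (leaf 399 6)) (move 559 (branch (move 464 (leaf 431 6)) (move 560 (branch (move 528 (leaf 431 4)) (move 592 (leaf 463 4)))))))) (branch (move 400 (branch (move 432 (leaf 399 6)) (move 399 (branch (move 368 (leaf 367 6)) (move 398 (branch (move 366 (leaf 366 7)) (move 430 (leaf 398 7)))))))) (move 528 (branch (move 560 (leaf 431 4)) (move 399 (branch (move 496 (leaf 399 4)) (move 494 (leaf 398 5))))))))) (branch (move 431 (branch (move 558 (leaf 430 5)) (move 400 (branch (move 432 (leaf 399 6)) (move 399 (branch (move 368 (leaf 367 6)) (move 398 (branch (move 366 (leaf 366 7)) (move 430 (leaf 398 7)))))))))) (branch (move 558 (branch (move 431 (leaf 430 5)) (move 590 (branch (move 559 (leaf 462 5)) (move 622 (leaf 494 6)))))) (ref 14))))) (branch (ref 15) (move 494 (branch (ref 16) (branch (move 558 (branch (move 590 (branch (move 622 (leaf 494 6)) (move 493 (branch (move 461 (leaf 461 7)) (move 528 (branch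 (move 492 (leaf 492 0)) (move 529 (leaf 493 3)))))))) (branch (move 463 (branch (move 431 (leaf 430 5)) (move 590 (leaf 462 6)))) (ref 12)))) (branch (move 558 (branch (move 590 (branch (move 622 (leaf 494 6)) (move 493 (branch (move 461 (leaf 461 7)) (move 528 (branch (move 492 (leaf 492 0)) (move 529 (leaf 493 3)))))))) (branch (move 463 (branch (move 431 (leaf 430 5)) (move 590 (leaf 462 6)))) (ref 11)))) (branch (move 558 (branch (move 590 (branch (move 622 (leaf 494 6)) (move 589 (branch (move 621 (leaf 493 5)) (move 557 (branch (move 462 (leaf 461 5)) (move 591 (branch (move 623 (leaf 494 4)) (move 556 (branch (move 555 (leaf 555 0)) (move 592 (leaf 556 3)))))))))))) (ref 12))) (branch (ref 17) (move 493 (branch (move 492 (branch (move 491 (leaf 491 0)) (move 528 (leaf 492 0)))) (branch (move 492 (branch (move 491 (leaf 491 0)) (move 460 (branch (move 459 (leaf 459 3)) (move 496 (branch (move 461 (leaf 460 3)) (move 497 (branch (move 498 (leaf 494 1)) (move 465 (branch (move 464 (leaf 461 2)) (move 466 (leaf 462 2)))))))))))) (ref 18)))))))))))))))))))))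
theorem a4p71 : a4e71.Valid :=
  pos_of_chk [a4e50, a4e55, a4e56, a4e51, a4e19, a4e57, a4e20, a4e58, a4e59, a4e60, a4e61, a4e62, a4e63, a4e64, a4e66, a4e69, a4e35, a4e68, a4e70] (forall_cons a4p50 (forall_cons a4p55 (forall_cons a4p56 (forall_cons a4p51 (forall_cons a4p19 (forall_cons a4p57 (forall_cons a4p20 (forall_cons a4p58 (forall_cons a4p59 (forall_cons a4p60 (forall_cons a4p61 (forall_cons a4p62 (forall_cons a4p63 (forall_cons a4p64 (forall_cons a4p66 (forall_cons a4p69 (forall_cons a4p35 (forall_cons a4p68 (forall_cons a4p70 forall_nil))))))))))))))))))) a4c71 a4e71 (by decide +kernel)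

def a4e72 : Pos := ⟨768857337934628288077972889497116040334176753616050205852179907428780836540537477837726679754082910157457186875845856100157662655968264107008291168604886401024, 1378913066337339953945665638722308874854166036700566099295848281768415193960560396639521744717731525615349097441686677094904711545884340351371530493815129344082965742463805044841504172998176038340176395956807488503808, 10⟩
def a4c72 : Cert := (move 556 (branch (move 524 (branch (move 555 (leaf 523 1)) (move 495 (branch (move 496 (leaf 492 2)) (move 494 (branch (move 523 (leaf 491 2)) (move 559 (branch (move 560 (leaf 524 0)) (move 462 (branch (move 430 (leaf 430 4)) (move 591 (leaf 462 7)))))))))))) (branch (move 528 (branch (move 557 (leaf 524 1)) (move 497 (branch (move 496 (leaf 493 2)) (move 529 (branch (move 498 (leaf 494 2)) (move 494 (branch (move 493 (leaf 493 3)) (move 495 (branch (move 530 (leaf 494 3)) (move 524 (branch (move 523 (leaf 491 2)) (move 559 (branch (move 560 (leaf 524 0)) (move 462 (branch (move 430 (leaf 430 4)) (move 591 (leaf 462 7)))))))))))))))))) (branch (move 557 (branch (move 528 (leaf 524 1)) (move 555 (branch (move 524 (leaf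 523 1)) (move 554 (leaf 522 2)))))) (move 557 (branch (move 528 (leaf 524 1)) (move 589 (branch (move 494 (branch (move 621 (leaf 493 6)) (move 462 (branch (move 430 (leaf 429 5)) (move 493 (leaf 461 6)))))) (branch (move 621 (branch (move 494 (leaf 493 6)) (move 652 (branch (move 620 (leaf 524 5)) (move 653 (branch (move 684 (leaf 556 5)) (move 685 (branch (move 588 (leaf 556 7)) (move 686 (branch (move 654 (leaf 557 4)) (move 718 (leaf 589 4)))))))))))) (move 590 (branch (move 591 (branch (move 592 (leaf 556 3)) (move 588 (branch (move 555 (leaf 555 3)) (move 620 (branch (move 619 (leaf 587 1)) (move 652 (leaf 524 6)))))))) (branch (move 493 (branch (move 622 (leaf 493 4)) (move 588 (branch (move 461 (leaf 460 5)) (move 620 (leaf 492 5)))))) (move 555 (branch (move 554 (leaf 554 0)) (move 622 (branch (move 493 (leaf 493 4)) (move 591 (branch (move 592 (leaf 556 3)) (move 559 (branch (move 495 (leaf 494 5)) (move 654 (branch (move 623 (leaf 526 5)) (move 686 (leaf 558 6))))))))))))))))))))))))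
theorem a4p72 : a4e72.Valid :=
  pos_of_chk [] forall_nil a4c72 a4e72 (by decide +kernel)

def a4e73 : Pos := ⟨768857337934628288077972889497116040334176753616050205852179907428780836540537477837726679754082910157457186875845856100157662655968264107008291168604886401024, 884522444278620427639477332350914916278933085589950134801117539963258870591140784367483821666877802100924070130299657024703756932510835908916781879050929521935796666368, 5⟩
def a4c73 : Cert := (move 524 (branch (move 555 (branch (move 556 (leaf 523 1)) (move 523 (branch (move 554 (leaf 522 1)) (move 491 (branch (move 490 (leaf 490 3)) (move 492 (leaf 491 3)))))))) (branch (move 556 (branch (move 555 (leaf 523 1)) (move 528 (branch (move 557 (leaf 524 1)) (move 496 (branch (move 495 (leaf 492 2)) (move 497 (leaf 493 2)))))))) (move 495 (branch (move 496 (leaf 492 2)) (move 523 (branch (move 494 (leaf 491 2)) (move 491 (branch (move 490 (leaf 490 3)) (move 492 (leaf 491 3)))))))))))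
theorem a4p73 : a4e73.Valid :=
  pos_of_chk [] forall_nil a4c73 a4e73 (by decide +kernel)

def a4e74 : Pos := ⟨768857337934628288077972889497116040334176753616050205852179907428780836540537477837726679754082910157457186875845856100157662655968264107008291168604886401024, 34808659507370301830427776014318118937121346800859836836278336571502103996652798428557795672109301384844612927605607108643019972928991550944492592045542765958697655576365392924728058970112, 6⟩
def a4c74 : Cert := (move 528 (branch (move 493 (branch (move 492 (leaf 492 3)) (move 557 (branch (move 556 (leaf 524 1)) (move 494 (branch (move 529 (leaf 493 3)) (move 462 (branch (move 430 (leaf 429 5)) (move 589 (leaf 461 6)))))))))) (move 496 (branch (move 497 (leaf 493 2)) (move 559 (branch (move 591 (branch (move 623 (leaf 495 6)) (move 464 (branch (move 432 (leaf 431 5)) (move 560 (leaf 463 5)))))) (branch (move 464 (branch (move 432 (leaf 431 5)) (move 591 (branch (move 495 (leaf 463 6)) (move 623 (leaf 495 6)))))) (move 524 (branch (move 560 (leaf 524 0)) (move 495 (leaf 492 2)))))))))))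
theorem a4p74 : a4e74.Valid :=
  pos_of_chk [] forall_nil a4c74 a4e74 (by decide +kernel)

def a4e75 : Pos := ⟨471745303871550006990395974825695109221209237392697425539768509367594371395637656864554363769345545656792004632598793716058481398644824789797953205202107807290189938688, 8702164884440565394929518531142223581752489470627341862035283502040323381187660697392220405462031487275161959469990639949640688532816300515789240717101636202695423986921296067772175876096, 11⟩
def a4c75 : Cert := (move 461 (branch (move 430 (branch (move 462 (leaf 429 6)) (move 429 (branch (move 398 (leaf 397 6)) (move 428 (branch (move 396 (leaf 396 7)) (move 460 (leaf 428 7)))))))) (branch (move 428 (branch (move 460 (leaf 428 7)) (move 429 (branch (move 396 (leaf 396 7)) (move 397 (branch (move 494 (leaf 397 4)) (move 398 (branch (move 366 (leaf 365 6)) (move 430 (leaf 397 6)))))))))) (branch (move 428 (branch (move 460 (leaf 428 7)) (move 429 (branch (move 396 (leaf 396 7)) (move 494 (branch (move 397 (leaf 397 4)) (move 589 (branch (move 462 (leaf 461 6)) (move 621 (leaf 493 6)))))))))) (branch (move 462 (branch (move 430 (leaf 429 6)) (move 494 (branch (move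 589 (leaf 461 6)) (move 528 (branch (move 529 (leaf 493 3)) (move 496 (branch (move 497 (leaf 493 2)) (move 495 (branch (move 460 (leaf 460 3)) (move 464 (branch (move 465 (leaf 461 2)) (move 559 (branch (move 432 (leaf 431 5)) (move 591 (leaf 463 6)))))))))))))))) (move 462 (branch (move 430 (leaf 429 6)) (move 494 (branch (move 589 (leaf 461 6)) (move 429 (branch (move 397 (leaf 397 4)) (move 428 (branch (move 396 (leaf 396 7)) (move 528 (branch (move 529 (leaf 493 3)) (move 496 (branch (move 497 (leaf 493 2)) (move 464 (branch (move 463 (leaf 428 3)) (move 559 (branch (move 432 (leaf 431 5)) (move 591 (branch (move 560 (leaf 463 5)) (move 495 (leaf 463 6)))))))))))))))))))))))))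
theorem a4p75 : a4e75.Valid :=
  pos_of_chk [] forall_nil a4c75 a4e75 (by decide +kernel)

def a4e76 : Pos := ⟨8104522597829415888157193766733219513387404168098096790445848313798649642695908401666864317200453785624977998254030952664276637417838707684889306845707063238442728000338649939968, 321053217020994729473957029452546086846703289058437355045146322589363425998173471888246513736889766333489439494721750574532558387115310655129282712821370101694365530455607689032024632343094939657953100169216, 7⟩
def a4c76 : Cert := (move 622 (branch (move 495 (branch (move 590 (leaf 494 5)) (move 592 (branch (move 624 (leaf 495 4)) (move 463 (branch (move 560 (leaf 463 4)) (move 464 (branch (move 432 (leaf 431 6)) (move 496 (leaf 463 6)))))))))) (branch (move 654 (branch (move 623 (leaf 526 5)) (move 590 (branch (move 686 (leaf 558 6)) (move 589 (branch (move 621 (leaf 525 4)) (move 556 (branch (move 592 (leaf 556 3)) (move 555 (branch (move 554 (leaf 554 0)) (move 588 (leaf 555 3)))))))))))) (branch (move 623 (branch (move 654 (leaf 526 5)) (move 624 (branch (move 656 (leaf 527 4)) (move 592 (branch (move 495 (leaf 495 4)) (move 593 (branch (move 594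 (leaf 590 1)) (move 621 (leaf 589 2)))))))))) (move 654 (branch (move 623 (leaf 526 5)) (move 590 (branch (move 495 (leaf 494 5)) (move 686 (leaf 558 6))))))))))
theorem a4p76 : a4e76.Valid :=
  pos_of_chk [] forall_nil a4c76 a4e76 (by decide +kernel)

def a4e77 : Pos := ⟨2358726516282320683085599901195640946320191803094452021351179143505695008923873869094366681073763409467500644551684589938202471493860658051319160514153726195885758480384, 1605266083759455159423458417912861661959576003383788922631305448707033462880025224987165439721747979802641201301721991772313574295229406334988904526334212898965402783288656038661339210955757963554489500696576, 9⟩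
def a4c77 : Cert := (move 591 (branch (move 623 (branch (move 494 (leaf 494 7)) (move 654 (branch (move 622 (leaf 526 5)) (move 655 (branch (move 686 (leaf 558 5)) (move 656 (branch (move 624 (leaf 527 4)) (move 688 (leaf 559 4)))))))))) (branch (move 494 (branch (move 623 (leaf 494 7)) (move 462 (branch (move 430 (leaf 430 4)) (move 495 (leaf 462 7)))))) (branch (move 622 (branch (move 495 (branch (move 590 (leaf 494 5)) (move 592 (branch (move 624 (leaf 495 4)) (move 463 (branch (move 560 (leaf 463 4)) (move 464 (branch (move 432 (leaf 431 6)) (move 496 (leaf 463 6)))))))))) (branch (move 654 (branch (move 623 (leaf 526 5)) (move 590 (branch (move 495 (leaf 494 5)) (move 686 (leaf 558 6)))))) (move 623 (branch (move 654 (leaf 526 5)) (move 528 (branch (move 496 (leaf 495 6)) (move 655 (branch (move 560 (leaf 527 6)) (move 656 (branch (move 624 (leaf 527 4)) (move 688 (leaf 559 4))))))))))))) (move 495 (branch (move 592 (branch (move 624 (leaf 495 4)) (move 463 (branch (move 560 (leaf 463 4)) (move 464 (branch (move 432 (leaf 431 6)) (move 496 (leaf 463 6)))))))) (branch (move 494 (branch (move 462 (leaf 462 7)) (move 592 (branch (move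 624 (leaf 495 4)) (move 463 (branch (move 560 (leaf 463 4)) (move 431 (branch (move 399 (leaf 398 5)) (move 432 (branch (move 400 (leaf 399 6)) (move 464 (leaf 431 6)))))))))))) (branch (move 494 (branch (move 462 (leaf 462 7)) (move 496 (branch (move 497 (leaf 493 1)) (move 464 (leaf 463 6)))))) (move 494 (branch (move 462 (leaf 462 7)) (move 497 (branch (move 496 (leaf 493 1)) (move 592 (branch (move 624 (leaf 495 4)) (move 590 (branch (move 622 (leaf 494 5)) (move 589 (branch (move 621 (leaf 493 6)) (move 560 (branch (move 588 (leaf 556 2)) (move 463 (leaf 463 4))))))))))))))))))))))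
theorem a4p77 : a4e77.Valid :=
  pos_of_chk [] forall_nil a4c77 a4e77 (by decide +kernel)

def a4e78 : Pos := ⟨8104522597357670585823358435637653478841843446230597678227970013867674061017385288796626547230225422815497332065430315942888343681213240706306370422605148064021932163487361925120, 321053217768505000674179243069014177065864153231398041493684831422325148021791487843644539157450763108559057582377938753280216430534129550650502408084269299200622670308269569824376005272850967027214475853824, 7⟩
def a4c78 : Cert := (move 623 (branch (move 655 (branch (move 560 (leaf 527 6)) (move 654 (branch (move 622 (leaf 526 5)) (move 686 (leaf 558 5)))))) (branch (move 624 (branch (move 656 (leaf 527 4)) (move 622 (branch (move 654 (leaf 526 5)) (move 495 (branch (move 592 (leaf 495 4)) (move 590 (leaf 494 5)))))))) (move 624 (branch (move 656 (leaf 527 4)) (move 592 (branch (move 495 (leaf 495 4)) (move 560 (branch (move 655 (leaf 527 5)) (move 625 (branch (move 657 (leaf 528 4)) (move 590 (branch (move 589 (leaf 589 0)) (move 626 (leaf 590 3)))))))))))))))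
theorem a4p78 : a4e78.Valid :=
  pos_of_chk [] forall_nil a4c78 a4e78 (by decide +kernel)

def a4e79 : Pos := ⟨1886981214058322114552123622089790637237994982352884686222496448377483311400604790058500815098243697529483280709933037183840698243871673436212711640734114811692311379968, 69617319010688342459827994485560677767342797319061404040829365823181217303984050125720331778883770004661151929701685363075818308098837596733772167577753108453619821674593775328593958666240, 9⟩
def a4c79 : Cert := (move 495 (branch (move 463 (branch (move 430 (branch (move 462 (leaf 430 7)) (move 431 (branch (move 398 (leaf 398 7)) (move 432 (branch (move 400 (leaf 399 6)) (move 464 (leaf 431 6)))))))) (branch (move 560 (branch (move 431 (leaf 431 4)) (move 592 (leaf 463 4)))) (move 464 (branch (move 432 (leaf 431 6)) (move 465 (branch (move 466 (branch (move 494 (leaf 462 1)) (move 560 (branch (move 592 (leaf 463 4)) (move 496 (branch (move 467 (leaf 463 1)) (move 433 (leaf 432 6)))))))) (branch (move 560 (branch (move 592 (leaf 463 4)) (move 462 (branch (move 430 (leaf 430 7)) (move 433 (branch (move 434 (leaf 430 2)) (move 496 (leaf 432 6)))))))) (branch (move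 462 (branch (move 430 (leaf 430 7)) (move 466 (branch (move 494 (leaf 462 1)) (move 434 (branch (move 433 (leaf 430 2)) (move 435 (leaf 431 2)))))))) (move 462 (branch (move 430 (leaf 430 7)) (move 466 (branch (move 494 (leaf 462 1)) (move 467 (branch (move 496 (leaf 463 1)) (move 499 (branch (move 498 (leaf 463 0)) (move 500 (leaf 464 0))))))))))))))))))) (branch (move 497 (branch (move 496 (leaf 493 2)) (move 463 (branch (move 430 (branch (move 462 (leaf 430 7)) (move 431 (branch (move 398 (leaf 398 7)) (move 432 (branch (move 400 (leaf 399 6)) (move 464 (leaf 431 6)))))))) (branch (move 560 (branch (move 431 (leaf 431 4)) (move 592 (leaf 463 4)))) (move 560 (branch (move 592 (leaf 463 4)) (move 498 (branch (move 529 (leaf 494 2)) (move 464 (branch (move 432 (leaf 431 6)) (move 462 (branch (move 465 (leaf 462 0)) (move 430 (leaf 430 7))))))))))))))) (branch (move 497 (branch (move 496 (leaf 493 2)) (move 529 (branch (move 498 (leaf 494 2)) (move 530 (branch (move 494 (leaf 494 3)) (move 531 (branch (move 560 (leaf 527 1)) (move 563 (branch (move 562 (leaf 527 0)) (move 564 (leaf 528 0)))))))))))) (branch (move 497 (branch (move 496 (leaf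 493 2)) (move 463 (branch (move 430 (branch (move 462 (leaf 430 7)) (move 431 (branch (move 398 (leaf 398 7)) (move 432 (branch (move 400 (leaf 399 6)) (move 464 (leaf 431 6)))))))) (branch (move 462 (branch (move 430 (leaf 430 7)) (move 464 (branch (move 432 (leaf 431 6)) (move 465 (branch (move 498 (leaf 462 0)) (move 466 (branch (move 494 (leaf 462 1)) (move 434 (branch (move 433 (leaf 430 2)) (move 435 (leaf 431 2)))))))))))) (branch (move 529 (branch (move 498 (leaf 494 2)) (move 494 (branch (move 530 (leaf 494 3)) (move 431 (branch (move 399 (leaf 398 5)) (move 432 (branch (move 400 (leaf 399 6)) (move 464 (leaf 431 6)))))))))) (move 430 (branch (move 462 (leaf 430 7)) (move 431 (branch (move 398 (leaf 398 7)) (move 494 (branch (move 399 (leaf 398 5)) (move 529 (branch (move 498 (leaf 494 2)) (move 530 (leaf 494 3)))))))))))))))) (branch (move 463 (branch (move 430 (branch (move 462 (leaf 430 7)) (move 431 (branch (move 398 (leaf 398 7)) (move 432 (branch (move 400 (leaf 399 6)) (move 464 (leaf 431 6)))))))) (branch (move 560 (branch (move 431 (leaf 431 4)) (move 592 (leaf 463 4)))) (move 496 (branch (move 497 (leaf 493 2)) (move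 464 (branch (move 432 (leaf 431 5)) (move 560 (branch (move 592 (leaf 463 4)) (move 462 (branch (move 430 (leaf 430 7)) (move 465 (branch (move 433 (leaf 432 6)) (move 466 (branch (move 494 (leaf 462 1)) (move 467 (leaf 463 1))))))))))))))))) (move 529 (branch (move 498 (branch (move 497 (leaf 494 2)) (move 530 (branch (move 499 (leaf 495 2)) (move 560 (branch (move 531 (leaf 527 1)) (move 463 (branch (move 431 (leaf 431 4)) (move 592 (leaf 463 4)))))))))) (branch (move 530 (branch (move 494 (leaf 494 3)) (move 560 (branch (move 531 (leaf 527 1)) (move 592 (branch (move 463 (leaf 463 4)) (move 624 (leaf 495 7)))))))) (branch (move 530 (branch (move 494 (leaf 494 3)) (move 498 (branch (move 497 (leaf 494 2)) (move 499 (leaf 495 2)))))) (move 463 (branch (move 430 (branch (move 462 (leaf 430 7)) (move 431 (branch (move 398 (leaf 398 7)) (move 432 (branch (move 400 (leaf 399 6)) (move 464 (leaf 431 6)))))))) (branch (move 560 (branch (move 431 (leaf 431 4)) (move 592 (leaf 463 4)))) (move 465 (branch (move 560 (branch (move 592 (leaf 463 4)) (move 497 (branch (move 498 (leaf 494 2)) (move 433 (leaf 432 5)))))) (branch (move 462 (branch (move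 430 (leaf 430 7)) (move 464 (branch (move 432 (leaf 431 6)) (move 498 (branch (move 497 (leaf 462 0)) (move 466 (branch (move 499 (leaf 463 0)) (move 494 (leaf 462 1)))))))))) (move 462 (branch (move 430 (leaf 430 7)) (move 464 (branch (move 432 (leaf 431 6)) (move 466 (branch (move 494 (leaf 462 1)) (move 434 (branch (move 433 (leaf 430 2)) (move 435 (leaf 431 2))))))))))))))))))))))))))
theorem a4p79 : a4e79.Valid :=
  pos_of_chk [] forall_nil a4c79 a4e79 (by decide +kernel)

def a4e80 : Pos := ⟨471745303871550006964822610701506500861731192886231807163075993382882927727799443051303318484934025696766457036302667488317179178898261735038443388437378174061060816896, 1605266084357463376474138703674727360872193799100730238403685071929262709822491004702933898119415252666013710777775763262335960901021618575718996786077596367294087109060443363226944289689078550090280471625728, 14⟩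
def a4c80 : Cert := (move 559 (branch (move 591 (branch (move 495 (branch (move 592 (branch (move 624 (leaf 495 4)) (move 463 (branch (move 560 (leaf 463 4)) (move 464 (branch (move 432 (leaf 431 6)) (move 496 (leaf 463 6)))))))) (branch (move 494 (branch (move 462 (leaf 462 7)) (move 496 (branch (move 497 (leaf 493 1)) (move 464 (leaf 463 6)))))) (move 494 (branch (move 462 (leaf 462 7)) (move 592 (branch (move 624 (leaf 495 4)) (move 590 (branch (move 622 (leaf 494 5)) (move 589 (branch (move 556 (leaf 556 3)) (move 621 (leaf 493 6))))))))))))) (branch (move 623 (branch (move 494 (leaf 494 7)) (move 654 (branch (move 622 (leaf 526 5)) (move 655 (branch (move 686 (leaf 558 5)) (move 656 (branch (move 624 (leaf 527 4)) (move 688 (leaf 559 4)))))))))) (branch (move 494 (branch (move 623 (leaf 494 7)) (move 462 (branch (move 430 (leaf 430 4)) (move 495 (leaf 462 7)))))) (ref 0))))) (branch (ref 1) (branch (move 528 (branch (move 556 (leaf 524 1)) (move 496 (branch (move 497 (leaf 493 2)) (move 591 (branch (move 623 (leaf 495 6)) (move 464 (branch (move 432 (leaf 431 5)) (move 560 (leaf 463 5)))))))))) (branch (move 591 (branch (move 623 (branch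 (move 494 (leaf 494 7)) (move 654 (branch (move 622 (leaf 526 5)) (move 655 (branch (move 686 (leaf 558 5)) (move 656 (branch (move 624 (leaf 527 4)) (move 688 (leaf 559 4)))))))))) (branch (move 494 (branch (move 623 (leaf 494 7)) (move 462 (branch (move 430 (leaf 430 4)) (move 495 (leaf 462 7)))))) (branch (move 528 (branch (move 556 (leaf 524 1)) (ref 2))) (move 495 (branch (move 494 (branch (move 462 (leaf 462 7)) (move 592 (branch (move 624 (leaf 495 4)) (move 463 (branch (move 560 (leaf 463 4)) (move 431 (branch (move 399 (leaf 398 5)) (move 432 (branch (move 400 (leaf 399 6)) (move 464 (leaf 431 6)))))))))))) (branch (move 494 (branch (move 462 (leaf 462 7)) (move 592 (branch (move 624 (leaf 495 4)) (move 590 (branch (move 622 (leaf 494 5)) (move 589 (branch (move 556 (leaf 556 3)) (move 621 (leaf 493 6)))))))))) (branch (move 592 (branch (move 624 (leaf 495 4)) (move 463 (branch (move 560 (leaf 463 4)) (move 556 (branch (move 528 (leaf 524 1)) (move 590 (branch (move 589 (leaf 556 3)) (move 622 (leaf 494 5)))))))))) (move 494 (branch (move 462 (leaf 462 7)) (move 528 (branch (move 556 (leaf 524 1)) (move 529 (branch (move 530 (leaf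 494 3)) (move 589 (branch (move 621 (leaf 493 6)) (move 590 (branch (move 622 (leaf 494 5)) (move 560 (branch (move 588 (leaf 556 2)) (move 463 (branch (move 431 (leaf 431 4)) (move 497 (branch (move 498 (leaf 494 2)) (move 465 (branch (move 433 (leaf 432 5)) (move 464 (branch (move 466 (leaf 462 1)) (move 432 (leaf 431 6)))))))))))))))))))))))))))))) (branch (move 591 (branch (move 623 (branch (move 494 (leaf 494 7)) (move 654 (branch (move 622 (leaf 526 5)) (move 655 (branch (move 686 (leaf 558 5)) (move 656 (branch (move 624 (leaf 527 4)) (move 688 (leaf 559 4)))))))))) (branch (move 494 (branch (move 623 (leaf 494 7)) (move 462 (branch (move 430 (leaf 430 4)) (move 495 (leaf 462 7)))))) (branch (ref 0) (move 495 (branch (move 592 (branch (move 624 (leaf 495 4)) (move 463 (branch (move 560 (leaf 463 4)) (move 464 (branch (move 432 (leaf 431 6)) (move 496 (leaf 463 6)))))))) (branch (move 494 (branch (move 462 (leaf 462 7)) (move 592 (branch (move 624 (leaf 495 4)) (move 590 (branch (move 622 (leaf 494 5)) (move 589 (branch (move 556 (leaf 556 3)) (move 621 (leaf 493 6)))))))))) (move 494 (branch (move 462 (leaf 462 7)) (move 464 (branch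 (move 496 (leaf 463 6)) (move 463 (branch (move 432 (leaf 431 6)) (move 431 (branch (move 399 (leaf 398 5)) (move 528 (branch (move 556 (leaf 524 1)) (move 560 (leaf 431 4))))))))))))))))))) (branch (move 528 (branch (move 556 (leaf 524 1)) (move 496 (branch (move 497 (leaf 493 2)) (move 591 (branch (move 623 (leaf 495 6)) (move 464 (branch (move 432 (leaf 431 5)) (move 495 (leaf 463 6)))))))))) (branch (move 494 (branch (move 528 (branch (move 556 (leaf 524 1)) (move 497 (branch (move 496 (leaf 493 2)) (move 529 (branch (move 498 (leaf 494 2)) (move 530 (branch (move 495 (leaf 494 3)) (move 531 (branch (move 560 (leaf 527 1)) (move 563 (branch (move 562 (leaf 527 0)) (move 564 (leaf 528 0)))))))))))))) (branch (move 462 (branch (move 430 (leaf 430 4)) (move 591 (branch (move 495 (leaf 462 7)) (move 623 (leaf 494 7)))))) (move 462 (branch (move 430 (leaf 430 4)) (move 556 (branch (move 528 (leaf 524 1)) (move 589 (branch (move 621 (leaf 493 6)) (move 591 (branch (move 623 (leaf 494 7)) (move 590 (branch (move 592 (leaf 556 3)) (move 555 (branch (move 554 (leaf 554 0)) (move 588 (leaf 555 3))))))))))))))))) (move 528 (branch (move 556 (leaf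 524 1)) (ref 3)))))))))))
theorem a4p80 : a4e80.Valid :=
  pos_of_chk [a4e76, a4e77, a4e78, a4e79] (forall_cons a4p76 (forall_cons a4p77 (forall_cons a4p78 (forall_cons a4p79 forall_nil)))) a4c80 a4e80 (by decide +kernel)

def a4e81 : Pos := ⟨659020575372538532638262476711813748857865788813757319301868492081812145606174981003765725503499637277820445893582162371563710847972797806007106715947045486592, 5922386523945953607175190424875267907328549289686862460427819118123022599181766755480999188604113045164113312865160519838825974627504228299117109416242515435221876148881957926442372837046761115894249560563005166965435372929024, 16⟩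
def a4c81 : Cert := (move 525 (branch (ref 0) (branch (ref 1) (branch (move 524 (branch (move 495 (branch (move 496 (leaf 492 2)) (move 523 (branch (move 494 (leaf 491 2)) (move 555 (branch (move 554 (leaf 522 1)) (move 556 (leaf 523 1)))))))) (branch (move 495 (branch (move 496 (leaf 492 2)) (move 523 (branch (move 494 (leaf 491 2)) (move 491 (branch (move 490 (leaf 490 3)) (move 492 (leaf 491 3)))))))) (move 556 (branch (move 555 (leaf 523 1)) (move 588 (branch (move 620 (branch (move 493 (leaf 492 6)) (move 652 (branch (move 557 (leaf 524 6)) (move 653 (branch (move 621 (leaf 524 4)) (move 685 (leaf 556 4)))))))) (branch (move 492 (branch (move 491 (leaf 491 3)) (move 493 (branch (move 461 (leaf 460 6)) (move 620 (leaf 492 6)))))) (branch (move 492 (branch (move 491 (leaf 491 3)) (move 589 (branch (move 621 (leaf 492 4)) (move 460 (branch (move 557 (leaf 460 4)) (move 619 (branch (move 587 (leaf 491 5)) (move 620 (branch (move 651 (leaf 523 5)) (move 429 (branch (move 461 (leaf 428 6)) (move 428 (branch (move 397 (leaf 396 6)) (move 427 (branch (move 395 (leaf 395 7)) (move 459 (leaf 427 7)))))))))))))))))) (move 492 (branch (move 491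 (leaf 491 3)) (move 589 (branch (move 621 (leaf 492 4)) (move 460 (branch (move 557 (leaf 460 4)) (move 461 (branch (move 429 (leaf 428 6)) (move 493 (leaf 460 6))))))))))))))))))) (branch (ref 2) (branch (ref 3) (branch (move 524 (branch (move 492 (branch (move 491 (leaf 491 3)) (move 528 (branch (move 493 (leaf 492 3)) (move 496 (branch (move 495 (leaf 492 2)) (move 497 (leaf 493 2)))))))) (branch (move 495 (branch (move 496 (leaf 492 2)) (move 494 (branch (move 523 (leaf 491 2)) (move 559 (branch (move 560 (leaf 524 0)) (move 462 (branch (move 430 (leaf 430 4)) (move 591 (leaf 462 7)))))))))) (ref 4)))) (branch (ref 5) (move 557 (branch (ref 6) (branch (move 493 (branch (move 492 (branch (move 528 (leaf 492 3)) (move 491 (branch (move 490 (leaf 490 0)) (move 494 (leaf 491 0)))))) (branch (move 492 (branch (move 528 (leaf 492 3)) (move 460 (branch (move 589 (leaf 460 7)) (move 428 (branch (move 396 (leaf 396 4)) (move 461 (leaf 428 7)))))))) (branch (ref 7) (move 589 (branch (move 622 (branch (move 590 (leaf 493 4)) (move 621 (branch (move 654 (leaf 525 4)) (move 620 (branch (move 588 (leaf 492 5)) (move 652 (leaf 524 5)))))))) (move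 494 (branch (move 462 (leaf 461 6)) (move 492 (branch (move 491 (leaf 491 0)) (move 460 (leaf 460 7)))))))))))) (branch (ref 8) (branch (move 528 (branch (move 556 (leaf 524 1)) (move 493 (branch (move 492 (leaf 492 3)) (move 529 (branch (move 494 (leaf 493 3)) (move 497 (branch (move 496 (leaf 493 2)) (move 498 (leaf 494 2)))))))))) (ref 9))))))))))))))
theorem a4p81 : a4e81.Valid :=
  pos_of_chk [a4e3, a4e14, a4e72, a4e73, a4e45, a4e74, a4e8, a4e75, a4e42, a4e80] (forall_cons a4p3 (forall_cons a4p14 (forall_cons a4p72 (forall_cons a4p73 (forall_cons a4p45 (forall_cons a4p74 (forall_cons a4p8 (forall_cons a4p75 (forall_cons a4p42 (forall_cons a4p80 forall_nil)))))))))) a4c81 a4e81 (by decide +kernel)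

def a4e82 : Pos := ⟨768857337934628288077972889497116040334176753616050205852179907428780836540537477837726679754082910157457186875845856100157662655968264107008291168604886401024, 43510824401941520465184591795313610211992116017455935371782817762890753593127108976708100190171688332303237041904825085961916554234393110875045151531724384968668063075814323991852395528192, 9⟩
def a4c82 : Cert := (move 524 (branch (move 494 (branch (move 556 (branch (move 555 (leaf 523 1)) (move 557 (branch (move 528 (leaf 524 1)) (move 589 (branch (move 621 (leaf 493 6)) (move 462 (branch (move 430 (leaf 429 5)) (move 558 (leaf 461 5)))))))))) (branch (move 556 (branch (move 555 (leaf 523 1)) (move 557 (branch (move 528 (leaf 524 1)) (move 559 (branch (move 560 (leaf 524 0)) (move 589 (branch (move 621 (leaf 493 6)) (move 591 (branch (move 623 (leaf 494 7)) (move 592 (branch (move 558 (leaf 556 0)) (move 590 (leaf 556 3)))))))))))))) (move 559 (branch (move 560 (leaf 524 0)) (move 462 (branch (move 430 (leaf 430 4)) (move 591 (branch (move 495 (leaf 462 7)) (move 623 (leaf 494 7))))))))))) (branch (ref 0) (branch (move 555 (branch (move 556 (leaf 523 1)) (move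 523 (branch (move 554 (leaf 522 1)) (move 494 (branch (move 495 (leaf 491 2)) (move 559 (branch (move 560 (leaf 524 0)) (move 462 (branch (move 430 (leaf 430 4)) (move 490 (branch (move 491 (leaf 490 3)) (move 522 (branch (move 493 (leaf 490 2)) (move 489 (leaf 489 3)))))))))))))))) (move 559 (branch (move 560 (leaf 524 0)) (move 523 (branch (move 558 (leaf 523 0)) (move 494 (branch (move 495 (leaf 491 2)) (move 522 (branch (move 493 (leaf 490 2)) (move 490 (branch (move 489 (leaf 489 3)) (move 491 (leaf 490 3))))))))))))))))
theorem a4p82 : a4e82.Valid :=
  pos_of_chk [a4e40] (forall_cons a4p40 forall_nil) a4c82 a4e82 (by decide +kernel)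

def a4e83 : Pos := ⟨768857337934628288077972889497116040334176753616050205852179907428780836540537477837726679754082910157457186875845856100157662655968264107008291168604886401024, 17404329754698216349623347976403395002858881289009574518835241092447692812229134146119155898449006652066539498566674717894342906616874682430015331018112375486556468797810885491124934279168, 9⟩
def a4c83 : Cert := (move 528 (branch (move 524 (branch (move 559 (branch (move 560 (leaf 524 0)) (move 558 (branch (move 523 (leaf 523 0)) (move 529 (branch (move 557 (leaf 525 1)) (move 530 (leaf 526 1)))))))) (branch (move 559 (branch (move 560 (leaf 524 0)) (move 523 (branch (move 558 (leaf 523 0)) (move 555 (branch (move 554 (leaf 522 1)) (move 556 (leaf 523 1)))))))) (move 556 (branch (move 555 (leaf 523 1)) (move 557 (leaf 524 1))))))) (branch (move 493 (branch (move 492 (leaf 492 3)) (move 557 (branch (move 556 (leaf 524 1)) (move 494 (branch (move 529 (leaf 493 3)) (move 462 (branch (move 430 (leaf 429 5)) (move 589 (leaf 461 6)))))))))) (branch (move 493 (branch (move 492 (leaf 492 3)) (move 529 (branch (move 494 (leaf 493 3)) (move 498 (branch (move 497 (leaf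 494 2)) (move 530 (branch (move 499 (leaf 495 2)) (move 563 (branch (move 562 (leaf 527 0)) (move 531 (branch (move 564 (leaf 528 0)) (move 559 (branch (move 558 (leaf 526 1)) (move 560 (leaf 527 1)))))))))))))))) (move 556 (branch (move 557 (leaf 524 1)) (move 524 (branch (move 555 (leaf 523 1)) (move 493 (branch (move 492 (leaf 492 3)) (move 559 (branch (move 560 (leaf 524 0)) (move 558 (branch (move 523 (leaf 523 0)) (move 461 (branch (move 429 (leaf 429 4)) (move 590 (branch (move 494 (leaf 461 7)) (move 622 (leaf 493 7))))))))))))))))))))
theorem a4p83 : a4e83.Valid :=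
  pos_of_chk [] forall_nil a4c83 a4e83 (by decide +kernel)

def a4e84 : Pos := ⟨1647551438431346331595656191779534372144664472034393298254671230204530364015437452509414313758749093194551114733955405928909277119931994515017766789867613716480, 401316521089365844255593772721227780527075528348754114645886102958595069436685275301681836684536355360717708385249994131107648020836332367954370621346166734619711821075200840688003118131121976564486798049280, 10⟩
def a4c84 : Cert := (move 557 (branch (move 556 (leaf 524 1)) (move 589 (branch (move 621 (branch (move 494 (leaf 493 6)) (move 654 (branch (move 622 (leaf 525 4)) (move 653 (branch (move 686 (leaf 557 4)) (move 652 (branch (move 620 (leaf 524 5)) (move 684 (leaf 556 5)))))))))) (branch (move 558 (branch (move 529 (leaf 525 1)) (move 621 (branch (move 653 (leaf 525 6)) (move 622 (branch (move 654 (leaf 525 4)) (move 590 (branch (move 495 (leaf 494 6)) (move 623 (branch (move 655 (leaf 526 4)) (move 588 (branch (move 587 (leaf 587 0)) (move 624 (leaf 588 3)))))))))))))) (branch (move 558 (branch (move 529 (leaf 525 1)) (move 494 (branch (move 462 (leaf 461 5)) (move 621 (leaf 493 6)))))) (move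 558 (branch (move 529 (leaf 525 1)) (move 590 (branch (move 494 (branch (move 462 (leaf 461 5)) (move 591 (branch (move 623 (leaf 494 4)) (move 495 (branch (move 463 (leaf 462 6)) (move 592 (branch (move 593 (leaf 557 3)) (move 624 (branch (move 625 (leaf 589 0)) (move 559 (leaf 495 4)))))))))))) (branch (move 622 (branch (move 495 (leaf 494 6)) (move 654 (leaf 525 7)))) (move 622 (branch (move 654 (leaf 525 7)) (move 623 (branch (move 655 (leaf 526 4)) (move 494 (branch (move 591 (leaf 494 4)) (move 462 (leaf 461 5)))))))))))))))))))
theorem a4p84 : a4e84.Valid :=
  pos_of_chk [] forall_nil a4c84 a4e84 (by decide +kernel)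

def a4e85 : Pos := ⟨768857337934628288077972889497116040334176753616050205852179907428780836540537477837726679754082910157457186875845856100157662655968264107008291168604886401024, 401316521089365844255593772721227780636520438680084214742179057858696941476259235569854147636329088574576424683164064984862302779734515256487296947554644995721240946444585732553799971850125148054412121341952, 11⟩
def a4c85 : Cert := (move 528 (branch (move 492 (branch (move 493 (leaf 492 3)) (move 524 (branch (move 491 (leaf 491 3)) (move 559 (branch (move 560 (leaf 524 0)) (move 558 (branch (move 523 (leaf 523 0)) (move 529 (branch (move 557 (leaf 525 1)) (move 530 (leaf 526 1)))))))))))) (branch (move 493 (branch (move 492 (leaf 492 3)) (move 557 (branch (move 556 (leaf 524 1)) (move 494 (branch (move 529 (leaf 493 3)) (move 462 (branch (move 430 (leaf 429 5)) (move 589 (leaf 461 6)))))))))) (branch (ref 0) (branch (move 493 (branch (move 492 (leaf 492 3)) (move 529 (branch (move 494 (leaf 493 3)) (move 498 (branch (move 497 (leaf 494 2)) (move 530 (branch (move 499 (leaf 495 2)) (move 563 (branch (move 562 (leaf 527 0)) (move 531 (branch (move 564 (leaf 528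 0)) (move 559 (branch (move 558 (leaf 526 1)) (move 560 (leaf 527 1)))))))))))))))) (move 494 (branch (move 492 (branch (move 493 (leaf 492 3)) (move 524 (branch (move 491 (leaf 491 3)) (move 559 (branch (move 560 (leaf 524 0)) (move 495 (branch (move 523 (leaf 491 2)) (move 462 (branch (move 430 (leaf 430 4)) (move 591 (leaf 462 7)))))))))))) (branch (move 557 (branch (move 556 (leaf 524 1)) (move 462 (branch (move 430 (leaf 429 5)) (move 589 (branch (move 558 (leaf 461 5)) (move 621 (leaf 493 6)))))))) (move 493 (branch (move 492 (leaf 492 3)) (move 557 (branch (move 556 (leaf 524 1)) (move 589 (branch (move 621 (leaf 493 6)) (move 590 (branch (move 622 (leaf 493 4)) (move 558 (branch (move 461 (leaf 461 4)) (move 588 (branch (move 620 (leaf 492 5)) (move 559 (branch (move 560 (leaf 556 1)) (move 587 (leaf 555 2))))))))))))))))))))))))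
theorem a4p85 : a4e85.Valid :=
  pos_of_chk [a4e84] (forall_cons a4p84 forall_nil) a4c85 a4e85 (by decide +kernel)

def a4e86 : Pos := ⟨768857337934628288077972889497116040334176753616050205852179907428780836540537477837726679754082910157457186875845856100157662655968264107008291168604886401024, 8702164888492826694286487694950586699273992728788118194977259081152466568350278660920433042710461439216507271137870978059765953267136213022065190955599198945449004487314180381816777605120, 11⟩
def a4c86 : Cert := (move 524 (branch (move 559 (branch (move 560 (leaf 524 0)) (move 523 (branch (move 558 (leaf 523 0)) (move 554 (branch (move 555 (leaf 522 1)) (move 522 (branch (move 553 (leaf 521 1)) (move 490 (branch (move 489 (leaf 489 3)) (move 491 (leaf 490 3)))))))))))) (branch (move 559 (branch (move 560 (leaf 524 0)) (move 523 (branch (move 558 (leaf 523 0)) (move 554 (branch (move 555 (leaf 522 1)) (move 522 (branch (move 553 (leaf 521 1)) (move 493 (branch (move 494 (leaf 490 2)) (move 492 (branch (move 521 (leaf 489 2)) (move 528 (leaf 492 3)))))))))))))) (branch (ref 0) (move 492 (branch (move 491 (leaf 491 3)) (move 493 (branch (move 528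 (leaf 492 3)) (move 557 (branch (move 589 (branch (move 621 (leaf 492 7)) (move 462 (branch (move 494 (leaf 461 6)) (move 461 (branch (move 430 (leaf 429 6)) (move 558 (branch (move 429 (leaf 429 4)) (move 590 (leaf 461 4)))))))))) (branch (move 460 (branch (move 428 (leaf 428 4)) (move 589 (leaf 460 7)))) (move 494 (branch (move 460 (branch (move 428 (leaf 428 4)) (move 559 (branch (move 560 (leaf 524 0)) (move 495 (branch (move 459 (leaf 459 3)) (move 463 (branch (move 464 (leaf 460 2)) (move 558 (branch (move 431 (leaf 430 5)) (move 590 (leaf 462 5)))))))))))) (branch (move 462 (branch (move 430 (leaf 429 5)) (move 559 (branch (move 560 (leaf 524 0)) (move 591 (branch (move 558 (leaf 462 4)) (move 495 (leaf 462 7)))))))) (branch (move 462 (branch (move 430 (leaf 429 5)) (move 460 (branch (move 428 (leaf 428 4)) (move 559 (branch (move 560 (leaf 524 0)) (move 558 (branch (move 591 (leaf 462 4)) (move 461 (branch (move 429 (leaf 429 4)) (move 590 (leaf 461 4)))))))))))) (move 462 (branch (move 430 (leaf 429 5)) (move 460 (branch (move 428 (leaf 428 4)) (move 459 (branch (move 495 (leaf 459 3)) (move 458 (branch (move 457 (leaf 457 0))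 (move 461 (leaf 458 0)))))))))))))))))))))))))
theorem a4p86 : a4e86.Valid :=
  pos_of_chk [a4e45] (forall_cons a4p45 forall_nil) a4c86 a4e86 (by decide +kernel)

def a4e87 : Pos := ⟨1886981213069791251595609279629151355608186537091948476508630533363526347949239426902242524730241189114336015178386873254432663565512359383291554198782373270688259637248, 110801178079617566483559629720476326560433008550085352530333802830496839136447555068255309468632803909141072675303017964557191887482390760066916700426854575332946608128000, 9⟩
def a4c87 : Cert := (move 525 (branch (move 524 (branch (move 560 (leaf 524 0)) (move 523 (branch (move 494 (leaf 491 2)) (move 555 (branch (move 554 (leaf 522 1)) (move 556 (leaf 523 1)))))))) (branch (move 524 (branch (move 496 (leaf 492 2)) (move 523 (branch (move 558 (leaf 523 0)) (move 494 (leaf 491 2)))))) (branch (move 524 (branch (move 560 (leaf 524 0)) (move 496 (leaf 492 2)))) (move 528 (branch (move 497 (branch (move 496 (leaf 493 2)) (move 529 (branch (move 498 (leaf 494 2)) (move 530 (branch (move 494 (leaf 494 3)) (move 531 (branch (move 560 (leaf 527 1)) (move 563 (branch (move 562 (leaf 527 0)) (move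 564 (leaf 528 0)))))))))))) (branch (move 496 (branch (move 497 (leaf 493 2)) (move 493 (branch (move 492 (leaf 492 3)) (move 464 (branch (move 432 (leaf 431 5)) (move 494 (branch (move 465 (leaf 461 2)) (move 461 (branch (move 460 (leaf 460 3)) (move 429 (branch (move 397 (leaf 397 4)) (move 558 (leaf 429 4)))))))))))))) (branch (move 493 (branch (move 492 (leaf 492 3)) (move 529 (branch (move 494 (leaf 493 3)) (move 530 (branch (move 558 (leaf 526 1)) (move 498 (branch (move 497 (leaf 494 2)) (move 499 (leaf 495 2)))))))))) (branch (move 493 (branch (move 492 (leaf 492 3)) (move 529 (branch (move 494 (leaf 493 3)) (move 530 (branch (move 558 (leaf 526 1)) (move 531 (branch (move 560 (leaf 527 1)) (move 496 (leaf 495 3)))))))))) (move 497 (branch (move 496 (leaf 493 2)) (move 529 (branch (move 498 (leaf 494 2)) (move 530 (branch (move 558 (leaf 526 1)) (move 531 (branch (move 560 (leaf 527 1)) (move 563 (branch (move 562 (leaf 527 0)) (move 564 (leaf 528 0)))))))))))))))))))))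
theorem a4p87 : a4e87.Valid :=
  pos_of_chk [] forall_nil a4c87 a4e87 (by decide +kernel)

def a4e88 : Pos := ⟨1886981213069791251595609279629151355608186537091948476508630533363526347949239426902242524730241189114336015178386873254432663565512359383291554198782373270688259637248, 1284212867112215565483258488272131514627581366498101105637205227968949621739459163803445639260376022952902010948055157511914104323610188386707772123218195506652843743903511313754684006058389968357783664328704, 8⟩
def a4c88 : Cert := (move 591 (branch (move 622 (branch (move 590 (leaf 494 5)) (move 623 (branch (move 654 (leaf 526 5)) (move 655 (branch (move 558 (leaf 526 7)) (move 656 (branch (move 624 (leaf 527 4)) (move 688 (leaf 559 4)))))))))) (branch (move 494 (branch (move 462 (leaf 462 7)) (move 623 (leaf 494 7)))) (move 590 (branch (move 622 (leaf 494 5)) (move 589 (branch (move 588 (branch (move 560 (leaf 556 2)) (move 587 (branch (move 558 (leaf 555 2)) (move 619 (branch (move 618 (leaf 586 1)) (move 620 (leaf 587 1)))))))) (branch (move 494 (branch (move 462 (leaf 462 7)) (move 592 (branch (move 624 (leaf 495 4)) (move 621 (branch (move 620 (leaf 588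 1)) (move 558 (leaf 493 5)))))))) (branch (move 592 (branch (move 624 (leaf 495 4)) (move 494 (branch (move 462 (leaf 462 7)) (move 588 (branch (move 560 (leaf 556 2)) (move 620 (branch (move 619 (leaf 587 1)) (move 621 (leaf 588 1)))))))))) (move 494 (branch (move 462 (leaf 462 7)) (move 558 (branch (move 621 (leaf 493 5)) (move 588 (branch (move 587 (leaf 555 2)) (move 560 (leaf 556 2)))))))))))))))))
theorem a4p88 : a4e88.Valid :=
  pos_of_chk [] forall_nil a4c88 a4e88 (by decide +kernel)

def a4e89 : Pos := ⟨659020575525978717383394126868682015896659499073912415210137154088841428485681252710234845263652922855597203260029975690043089176529856706595484515321820217344, 4052261298678835292252658643060048945952233691953380591008788574610166126159291259725559462141487666699164496622042722086522070762063524237336093139253849026124868161510723026944, 8⟩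
def a4c89 : Cert := (move 462 (branch (move 430 (branch (move 398 (leaf 398 4)) (move 429 (branch (move 397 (leaf 397 7)) (move 461 (branch (move 558 (leaf 429 7)) (move 431 (branch (move 399 (leaf 398 6)) (move 460 (branch (move 459 (leaf 459 0)) (move 432 (leaf 428 1)))))))))))) (branch (move 430 (branch (move 398 (leaf 398 4)) (move 431 (branch (move 399 (leaf 398 6)) (move 463 (branch (move 558 (leaf 430 5)) (move 429 (branch (move 397 (leaf 397 7)) (move 464 (branch (move 428 (leaf 428 0)) (move 465 (leaf 429 3)))))))))))) (branch (move 463 (branch (move 558 (branch (move 590 (leaf 462 6)) (move 461 (branch (move 429 (leaf 429 7)) (move 496 (branch (move 460 (leaf 460 0)) (move 497 (leaf 461 3)))))))) (branch (move 431 (branch (move 399 (leaf 398 5)) (move 432 (branch (move 400 (leaf 399 6)) (move 461 (branch (move 460 (leaf 428 2)) (move 496 (branch (move 497 (leaf 461 3)) (move 433 (branch (move 434 (leaf 430 1)) (move 464 (leaf 429 2)))))))))))) (move 431 (branch (move 399 (leaf 398 5)) (move 558 (leaf 430 5))))))) (branch (move 430 (branch (move 398 (leaf 398 4)) (move 429 (branch (move 397 (leaf 397 7)) (move 461 (branch (move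 558 (leaf 429 7)) (move 496 (branch (move 497 (leaf 461 3)) (move 460 (branch (move 459 (leaf 459 0)) (move 463 (leaf 460 0)))))))))))) (branch (move 430 (branch (move 398 (leaf 398 4)) (move 431 (branch (move 399 (leaf 398 6)) (move 463 (branch (move 558 (leaf 430 5)) (move 432 (branch (move 400 (leaf 399 6)) (move 461 (branch (move 433 (leaf 429 1)) (move 460 (leaf 428 2)))))))))))) (move 463 (branch (move 430 (branch (move 398 (leaf 398 4)) (move 429 (branch (move 397 (leaf 397 7)) (move 464 (branch (move 465 (leaf 429 3)) (move 461 (branch (move 428 (leaf 428 3)) (move 496 (branch (move 460 (leaf 460 0)) (move 497 (leaf 461 0)))))))))))) (branch (move 431 (branch (move 399 (leaf 398 5)) (move 432 (branch (move 400 (leaf 399 6)) (move 461 (branch (move 460 (leaf 428 2)) (move 496 (branch (move 497 (leaf 461 3)) (move 433 (branch (move 434 (leaf 430 1)) (move 464 (leaf 429 2)))))))))))) (branch (move 431 (branch (move 399 (leaf 398 5)) (move 430 (branch (move 398 (leaf 398 4)) (move 432 (branch (move 400 (leaf 399 6)) (move 461 (branch (move 433 (leaf 429 1)) (move 460 (leaf 428 2)))))))))) (move 431 (branch (move 399 (leaf 398 5)) (move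 430 (branch (move 398 (leaf 398 4)) (move 429 (branch (move 397 (leaf 397 7)) (move 464 (branch (move 428 (leaf 428 0)) (move 465 (leaf 429 3))))))))))))))))))))
theorem a4p89 : a4e89.Valid :=
  pos_of_chk [] forall_nil a4c89 a4e89 (by decide +kernel)

def a4e90 : Pos := ⟨659020575474831989135016910149725926883728262320527383240714266753165000859179162141411805343601827663004950804547371250549963067010837073066025248863561973760, 17404329752672085592549096727279911349027739114205206945696289904836672284248010564600828448055181413149557906856429007986238737794806983675239359347379239784329816058708804139576903860224, 12⟩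
def a4c90 : Cert := (move 494 (branch (move 558 (branch (move 590 (branch (move 622 (leaf 494 6)) (move 493 (branch (move 461 (leaf 461 7)) (move 528 (branch (move 492 (leaf 492 0)) (move 529 (leaf 493 3)))))))) (branch (move 463 (branch (move 431 (leaf 430 5)) (move 590 (leaf 462 6)))) (ref 0)))) (branch (move 493 (branch (move 492 (branch (move 491 (leaf 491 0)) (move 463 (branch (move 464 (leaf 460 2)) (move 431 (branch (move 399 (leaf 398 5)) (move 460 (branch (move 459 (leaf 459 3)) (move 461 (branch (move 496 (leaf 460 3)) (move 429 (branch (move 397 (leaf 397 4)) (move 524 (branch (move 523 (leaf 491 1)) (move 556 (leaf 428 6)))))))))))))))) (branch (move 528 (branch (move 492 (leaf 492 0)) (move 529 (leaf 493 3)))) (ref 1)))) (branch (move 493 (branch (move 528 (branch (move 492 (leaf 492 0)) (move 529 (leaf 493 3)))) (branch (move 492 (branch (move 491 (leaf 491 0)) (move 463 (branch (move 464 (leaf 460 2)) (move 558 (branch (move 431 (leaf 430 5)) (move 590 (leaf 462 6)))))))) (move 496 (branch (move 529 (branch (move 528 (leaf 493 0)) (move 497 (branch (move 530 (leaf 494 0)) (move 498 (leaf 494 1)))))) (branch (move 525 (branch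 (move 524 (leaf 492 1)) (move 497 (leaf 493 1)))) (move 528 (branch (move 529 (leaf 493 0)) (move 525 (branch (move 524 (leaf 492 1)) (move 464 (branch (move 465 (leaf 461 2)) (move 432 (branch (move 400 (leaf 399 5)) (move 431 (branch (move 399 (leaf 399 7)) (move 463 (branch (move 560 (leaf 431 4)) (move 558 (leaf 430 5)))))))))))))))))))) (branch (move 496 (branch (move 525 (branch (move 497 (leaf 493 1)) (move 524 (leaf 492 2)))) (branch (move 493 (branch (move 524 (branch (move 525 (leaf 492 1)) (move 492 (branch (move 491 (leaf 491 0)) (move 523 (leaf 491 1)))))) (branch (move 492 (branch (move 491 (leaf 491 0)) (move 460 (branch (move 459 (leaf 459 3)) (move 461 (leaf 460 3)))))) (move 525 (branch (move 524 (leaf 492 1)) (move 461 (branch (move 460 (leaf 460 3)) (move 558 (branch (move 429 (leaf 429 4)) (move 590 (leaf 461 7))))))))))) (move 497 (branch (move 498 (leaf 494 1)) (move 529 (branch (move 530 (leaf 494 0)) (move 493 (branch (move 528 (leaf 493 0)) (move 461 (branch (move 460 (leaf 460 3)) (move 462 (leaf 461 3))))))))))))) (ref 2))))))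
theorem a4p90 : a4e90.Valid :=
  pos_of_chk [a4e62, a4e70, a4e89] (forall_cons a4p62 (forall_cons a4p70 (forall_cons a4p89 forall_nil))) a4c90 a4e90 (by decide +kernel)

def a4e91 : Pos := ⟨659020575474831989135016910149725926883728262320527383240714266753165000859179162141411805343601827663004950804547371250549963067010837073066025248863561973760, 1284212867112215565466941929129254700722205771405972125186195203634520713505876754313739505785395913155531320407018155277144382054150059587777145547309685007774580669803467089490845268574512420605740235882496, 10⟩
def a4c91 : Cert := (move 559 (branch (move 591 (branch (move 622 (branch (move 590 (leaf 494 5)) (move 623 (branch (move 654 (leaf 526 5)) (move 624 (branch (move 592 (leaf 495 4)) (move 656 (leaf 527 4)))))))) (move 496 (branch (move 464 (leaf 463 6)) (move 525 (branch (move 524 (leaf 492 2)) (move 497 (branch (move 498 (leaf 494 1)) (move 528 (leaf 493 2)))))))))) (branch (ref 0) (branch (move 463 (branch (move 462 (branch (move 430 (leaf 430 7)) (move 591 (branch (move 494 (leaf 462 7)) (move 592 (branch (move 560 (leaf 463 4)) (move 624 (leaf 495 4)))))))) (move 558 (branch (move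 431 (leaf 430 5)) (move 590 (leaf 462 5)))))) (move 463 (branch (move 560 (branch (move 592 (leaf 463 4)) (move 431 (branch (move 528 (leaf 431 4)) (move 432 (branch (move 400 (leaf 399 6)) (move 464 (leaf 431 6)))))))) (branch (move 430 (branch (move 462 (leaf 430 7)) (move 431 (branch (move 398 (leaf 398 7)) (move 560 (branch (move 528 (leaf 431 4)) (move 592 (leaf 463 4)))))))) (branch (move 432 (branch (move 464 (leaf 431 6)) (move 431 (branch (move 400 (leaf 399 6)) (move 430 (branch (move 398 (leaf 398 7)) (move 462 (leaf 430 7)))))))) (move 497 (branch (move 560 (branch (move 592 (leaf 463 4)) (move 525 (branch (move 524 (leaf 524 0)) (move 464 (branch (move 432 (leaf 431 6)) (move 462 (branch (move 430 (leaf 430 7)) (move 496 (branch (move 461 (leaf 461 0)) (move 528 (leaf 493 2)))))))))))) (branch (move 496 (branch (move 498 (leaf 494 1)) (move 525 (branch (move 524 (leaf 492 2)) (move 528 (leaf 493 2)))))) (move 462 (branch (move 430 (leaf 430 7)) (move 464 (branch (move 432 (leaf 431 6)) (move 465 (branch (move 498 (leaf 462 0)) (move 560 (branch (move 592 (leaf 463 4)) (move 466 (branch (move 494 (leaf 462 1)) (move 434 (branch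 (move 433 (leaf 430 2)) (move 435 (leaf 431 2)))))))))))))))))))))))))
theorem a4p91 : a4e91.Valid :=
  pos_of_chk [a4e52] (forall_cons a4p52 forall_nil) a4c91 a4e91 (by decide +kernel)

def a4e92 : Pos := ⟨659020575474831989135016910149725926883728262320527383240714266753165000859179162141411805343601827663004950804547371250549963067010837073066025248863561973760, 373755135517440540579789377059155473990244086396175644332908261739082545998387906817735916071505641336685949425714509896196906075098251554976574212567906525290572790038441689367809303030620393308160, 10⟩
def a4c92 : Cert := (move 559 (branch (move 591 (branch (move 622 (branch (move 590 (leaf 494 5)) (move 623 (branch (move 654 (leaf 526 5)) (move 624 (branch (move 592 (leaf 495 4)) (move 656 (leaf 527 4)))))))) (move 496 (branch (move 464 (leaf 463 6)) (move 525 (branch (move 524 (leaf 492 2)) (move 497 (branch (move 498 (leaf 494 1)) (move 528 (leaf 493 2)))))))))) (branch (ref 0) (branch (move 591 (branch (move 592 (branch (move 624 (leaf 495 4)) (move 463 (branch (move 560 (leaf 463 4)) (move 464 (branch (move 432 (leaf 431 6)) (move 496 (leaf 463 6)))))))) (move 494 (branch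 (move 462 (leaf 462 7)) (move 623 (leaf 494 7)))))) (branch (ref 1) (move 525 (branch (move 524 (branch (move 560 (leaf 524 0)) (move 523 (branch (move 494 (leaf 491 2)) (move 555 (branch (move 554 (leaf 522 1)) (move 556 (leaf 523 1)))))))) (branch (move 524 (branch (move 496 (leaf 492 2)) (move 523 (branch (move 558 (leaf 523 0)) (move 494 (leaf 491 2)))))) (branch (move 524 (branch (move 560 (leaf 524 0)) (move 496 (leaf 492 2)))) (move 463 (branch (move 430 (branch (move 462 (leaf 430 7)) (move 431 (branch (move 398 (leaf 398 7)) (move 432 (branch (move 400 (leaf 399 6)) (move 464 (leaf 431 6)))))))) (branch (move 560 (branch (move 592 (leaf 463 4)) (move 431 (branch (move 528 (leaf 431 4)) (move 432 (branch (move 400 (leaf 399 6)) (move 464 (leaf 431 6)))))))) (branch (move 560 (branch (move 592 (leaf 463 4)) (move 431 (branch (move 528 (leaf 431 4)) (move 430 (branch (move 398 (leaf 398 7)) (move 462 (leaf 430 7)))))))) (move 497 (branch (move 462 (branch (move 430 (leaf 430 7)) (move 464 (branch (move 432 (leaf 431 6)) (move 465 (branch (move 498 (leaf 462 0)) (move 466 (branch (move 494 (leaf 462 1)) (move 434 (branch (move 433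 (leaf 430 2)) (move 435 (leaf 431 2)))))))))))) (branch (move 496 (branch (move 494 (leaf 493 1)) (move 528 (leaf 493 2)))) (move 496 (branch (move 498 (leaf 494 1)) (move 528 (leaf 493 2))))))))))))))))))))
theorem a4p92 : a4e92.Valid :=
  pos_of_chk [a4e48, a4e57] (forall_cons a4p48 (forall_cons a4p57 forall_nil)) a4c92 a4e92 (by decide +kernel)

def a4e93 : Pos := ⟨1886981213069791251595609279629151355608186537091948476508630533363526347949239426902242524730241189114336015178386873254432663565512359383291554198782373270688259637248, 20261306493394176462334201650171933047204888429836948464033697051459524254900061700495074792372479345421815416389359840025483625697204336859044667059245423508761942758738198790144, 11⟩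
def a4c93 : Cert := (move 463 (branch (move 560 (branch (move 592 (leaf 463 4)) (move 431 (branch (move 528 (leaf 431 4)) (move 432 (branch (move 400 (leaf 399 6)) (move 464 (leaf 431 6)))))))) (branch (move 430 (branch (move 462 (leaf 430 7)) (move 431 (branch (move 398 (leaf 398 7)) (move 560 (branch (move 528 (leaf 431 4)) (move 592 (leaf 463 4)))))))) (branch (move 432 (branch (move 464 (leaf 431 6)) (move 431 (branch (move 400 (leaf 399 6)) (move 430 (branch (move 398 (leaf 398 7)) (move 462 (leaf 430 7)))))))) (move 461 (branch (move 462 (branch (move 430 (leaf 430 7)) (move 464 (branch (move 432 (leaf 431 6)) (move 492 (branch (move 493 (leaf 460 1)) (move 460 (branch (move 491 (leaf 459 1)) (move 428 (branch (move 427 (leaf 427 3)) (move 429 (leaf 428 3)))))))))))) (branch (move 558 (branch (move 590 (leaf 462 5)) (move 560 (branch (move 592 (leaf 463 4)) (move 525 (branch (move 524 (leaf 524 0)) (move 493 (branch (move 429 (leaf 429 4)) (move 492 (branch (move 528 (leaf 492 3)) (move 494 (branch (move 491 (leaf 491 0)) (move 464 (leaf 460 2)))))))))))))) (branch (move 558 (branch (move 590 (leaf 462 5)) (move 462 (branch (move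 430 (leaf 430 7)) (move 494 (branch (move 429 (leaf 429 7)) (move 460 (branch (move 459 (leaf 459 0)) (move 492 (branch (move 491 (leaf 459 1)) (move 493 (branch (move 528 (leaf 492 0)) (move 524 (branch (move 523 (leaf 491 1)) (move 560 (branch (move 525 (leaf 524 0)) (move 592 (leaf 463 4)))))))))))))))))) (branch (move 462 (branch (move 430 (leaf 430 7)) (move 558 (branch (move 590 (leaf 462 5)) (move 464 (branch (move 432 (leaf 431 6)) (move 429 (branch (move 428 (leaf 428 3)) (move 494 (leaf 429 7)))))))))) (move 558 (branch (move 590 (leaf 462 5)) (move 462 (branch (move 430 (leaf 430 7)) (move 464 (branch (move 432 (leaf 431 6)) (move 493 (branch (move 492 (leaf 460 1)) (move 465 (branch (move 494 (leaf 461 1)) (move 498 (branch (move 497 (leaf 462 0)) (move 466 (branch (move 499 (leaf 463 0)) (move 434 (branch (move 433 (leaf 430 2)) (move 435 (leaf 431 2)))))))))))))))))))))))))))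
theorem a4p93 : a4e93.Valid :=
  pos_of_chk [] forall_nil a4c93 a4e93 (by decide +kernel)

def a4e94 : Pos := ⟨659020575372538532638262476711813748857865788813757319301868492081812145606174981003765725503499637277820445893582162371563710847972797806007106715947045486592, 1605266083759455159431072812178389367857521054865009123745307743956648399246262879462530348853135564917460377178745763026217760311607342709679739205703259801706657922142206751486907640735695748699671482073088, 14⟩
def a4c94 : Cert := (move 495 (branch (ref 0) (branch (ref 1) (branch (ref 2) (branch (ref 3) (branch (move 463 (branch (move 431 (branch (move 432 (branch (move 400 (leaf 399 6)) (move 559 (branch (move 464 (leaf 431 6)) (move 560 (branch (move 528 (leaf 431 4)) (move 592 (leaf 463 4)))))))) (branch (move 430 (branch (move 398 (leaf 398 7)) (move 559 (branch (move 462 (leaf 430 7)) (move 560 (branch (move 528 (leaf 431 4)) (move 592 (leaf 463 4)))))))) (move 400 (branch (move 432 (leaf 399 6)) (move 399 (branch (move 368 (leaf 367 6)) (move 398 (branch (move 366 (leaf 366 7)) (move 430 (leaf 398 7))))))))))) (branch (move 431 (branch (move 558 (leaf 430 5)) (move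 400 (branch (move 432 (leaf 399 6)) (move 399 (branch (move 368 (leaf 367 6)) (move 398 (branch (move 366 (leaf 366 7)) (move 430 (leaf 398 7)))))))))) (branch (move 558 (branch (move 431 (leaf 430 5)) (move 590 (branch (move 559 (leaf 462 5)) (move 622 (leaf 494 6)))))) (move 559 (branch (move 464 (branch (move 432 (leaf 431 6)) (move 496 (branch (move 591 (leaf 463 6)) (move 497 (branch (move 498 (leaf 494 1)) (move 462 (branch (move 461 (leaf 461 0)) (move 430 (leaf 430 7)))))))))) (branch (move 590 (branch (move 558 (leaf 462 5)) (move 591 (branch (move 622 (leaf 494 5)) (move 592 (branch (move 560 (leaf 463 4)) (move 624 (leaf 495 4)))))))) (ref 4)))))))) (branch (move 559 (branch (move 591 (branch (move 624 (branch (move 592 (leaf 495 4)) (move 623 (branch (move 656 (leaf 527 4)) (move 655 (branch (move 558 (leaf 526 7)) (move 654 (branch (move 622 (leaf 526 5)) (move 686 (leaf 558 5)))))))))) (move 496 (branch (move 464 (leaf 463 6)) (move 525 (branch (move 524 (leaf 492 2)) (move 497 (branch (move 498 (leaf 494 1)) (move 528 (leaf 493 2)))))))))) (branch (move 591 (branch (move 496 (branch (move 464 (leaf 463 6)) (move 525 (branch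 (move 524 (leaf 492 2)) (move 497 (branch (move 498 (leaf 494 1)) (move 528 (leaf 493 2)))))))) (move 494 (branch (move 462 (leaf 462 7)) (move 623 (leaf 494 7)))))) (branch (ref 5) (ref 6))))) (branch (ref 7) (branch (ref 8) (branch (move 559 (branch (move 591 (branch (move 622 (branch (move 590 (leaf 494 5)) (move 623 (branch (move 654 (leaf 526 5)) (move 624 (branch (move 592 (leaf 495 4)) (move 656 (leaf 527 4)))))))) (move 496 (branch (move 464 (leaf 463 6)) (move 525 (branch (move 524 (leaf 492 2)) (move 497 (branch (move 498 (leaf 494 1)) (move 528 (leaf 493 2)))))))))) (branch (ref 9) (branch (ref 5) (move 463 (branch (move 560 (branch (move 592 (leaf 463 4)) (move 431 (branch (move 528 (leaf 431 4)) (move 399 (branch (move 494 (leaf 398 5)) (move 400 (branch (move 368 (leaf 367 6)) (move 432 (leaf 399 6)))))))))) (branch (move 558 (branch (move 590 (leaf 462 5)) (move 592 (branch (move 560 (leaf 463 4)) (move 591 (branch (move 624 (leaf 495 4)) (move 623 (branch (move 494 (leaf 494 7)) (move 655 (leaf 526 7)))))))))) (move 558 (branch (move 431 (leaf 430 5)) (move 590 (leaf 462 5))))))))))) (branch (move 463 (branch (move 431 (branch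 (move 430 (branch (move 398 (leaf 398 7)) (move 559 (branch (move 462 (leaf 430 7)) (move 560 (branch (move 528 (leaf 431 4)) (move 592 (leaf 463 4)))))))) (branch (move 528 (branch (move 560 (leaf 431 4)) (move 399 (branch (move 496 (leaf 399 4)) (move 494 (leaf 398 5)))))) (move 399 (branch (move 494 (leaf 398 5)) (move 398 (branch (move 366 (leaf 366 7)) (move 430 (leaf 398 7))))))))) (branch (move 558 (branch (move 431 (leaf 430 5)) (move 590 (branch (move 559 (leaf 462 5)) (move 622 (leaf 494 6)))))) (branch (move 558 (branch (move 431 (leaf 430 5)) (move 590 (branch (move 494 (leaf 462 6)) (move 622 (leaf 494 6)))))) (move 559 (branch (move 462 (branch (move 430 (leaf 430 7)) (move 591 (branch (move 494 (leaf 462 7)) (move 592 (branch (move 560 (leaf 463 4)) (move 624 (leaf 495 4)))))))) (branch (move 558 (branch (move 590 (leaf 462 5)) (move 462 (branch (move 430 (leaf 430 7)) (move 494 (branch (move 591 (leaf 462 4)) (move 461 (branch (move 429 (leaf 429 7)) (move 460 (branch (move 459 (leaf 459 0)) (move 496 (leaf 460 0)))))))))))) (branch (move 590 (branch (move 558 (leaf 462 5)) (move 591 (branch (move 622 (leaf 494 5)) (move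 592 (branch (move 560 (leaf 463 4)) (move 624 (leaf 495 4)))))))) (move 525 (branch (move 560 (branch (move 524 (leaf 524 0)) (move 592 (leaf 463 4)))) (move 496 (branch (move 497 (branch (move 498 (leaf 494 1)) (move 528 (leaf 493 2)))) (move 558 (branch (move 590 (leaf 462 5)) (move 462 (branch (move 430 (leaf 430 7)) (move 461 (branch (move 460 (leaf 460 0)) (move 429 (branch (move 493 (leaf 429 4)) (move 494 (leaf 429 7)))))))))))))))))))))) (branch (ref 10) (move 559 (branch (ref 11) (branch (ref 12) (branch (ref 13) (branch (ref 14) (branch (ref 6) (ref 15)))))))))))))))))))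
theorem a4p94 : a4e94.Valid :=
  pos_of_chk [a4e50, a4e59, a4e60, a4e34, a4e24, a4e87, a4e88, a4e90, a4e91, a4e53, a4e92, a4e56, a4e51, a4e57, a4e20, a4e93] (forall_cons a4p50 (forall_cons a4p59 (forall_cons a4p60 (forall_cons a4p34 (forall_cons a4p24 (forall_cons a4p87 (forall_cons a4p88 (forall_cons a4p90 (forall_cons a4p91 (forall_cons a4p53 (forall_cons a4p92 (forall_cons a4p56 (forall_cons a4p51 (forall_cons a4p57 (forall_cons a4p20 (forall_cons a4p93 forall_nil)))))))))))))))) a4c94 a4e94 (by decide +kernel)

def a4e95 : Pos := ⟨768857337934628288077972889497116040334176753616050205852179907428780836540537477837726679754082910157457186875845856100157662655968264107008291168604886401024, 18687756835046748204283605048685965605524195674023300137013489318826352663177730021681668014279934888386097411475685465715464185769430736912652924621297681172959444198138813052226540557583685517312, 17⟩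
def a4c95 : Cert := (move 528 (branch (move 557 (branch (move 556 (leaf 524 1)) (move 558 (branch (move 529 (leaf 525 1)) (move 493 (branch (move 492 (leaf 492 3)) (move 590 (branch (move 461 (leaf 461 4)) (move 622 (leaf 493 7)))))))))) (branch (move 557 (branch (move 556 (leaf 524 1)) (move 529 (branch (move 558 (leaf 525 1)) (move 497 (branch (move 496 (leaf 493 2)) (move 498 (leaf 494 2)))))))) (branch (move 493 (branch (move 492 (leaf 492 3)) (move 529 (branch (move 494 (leaf 493 3)) (move 497 (branch (move 496 (leaf 493 2)) (move 498 (leaf 494 2)))))))) (move 493 (branch (move 492 (leaf 492 3)) (move 557 (branch (move 556 (leaf 524 1)) (move 461 (branch (move 590 (branch (move 558 (leaf 461 4)) (move 589 (branch (move 622 (leaf 493 4)) (move 620 (branch (move 588 (leaf 492 5)) (move 621 (branch (move 652 (leaf 524 5)) (move 496 (branch (move 497 (leaf 493 2)) (move 591 (branch (move 592 (leaf 588 1)) (move 559 (branch (move 623 (leaf 495 6)) (move 464 (branch (move 432 (leaf 431 5)) (move 560 (leaf 463 5)))))))))))))))))) (branch (move 496 (branch (move 497 (leaf 493 2)) (move 460 (branch (move 428 (leaf 428 7)) (move 494 (branch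 (move 495 (leaf 460 3)) (move 589 (branch (move 621 (leaf 493 6)) (move 429 (branch (move 397 (leaf 397 4)) (move 430 (branch (move 398 (leaf 397 6)) (move 459 (branch (move 458 (leaf 458 0)) (move 432 (branch (move 431 (leaf 428 1)) (move 559 (branch (move 464 (leaf 431 5)) (move 591 (branch (move 623 (leaf 495 6)) (move 590 (branch (move 622 (leaf 493 4)) (move 588 (branch (move 560 (leaf 556 2)) (move 620 (leaf 492 5)))))))))))))))))))))))))) (move 429 (branch (move 558 (leaf 429 4)) (move 428 (branch (move 396 (leaf 396 7)) (move 460 (leaf 428 7)))))))))))))))))
theorem a4p95 : a4e95.Valid :=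
  pos_of_chk [] forall_nil a4c95 a4e95 (by decide +kernel)

def a4e96 : Pos := ⟨1318041150949663978317667922934888746946497009714803031644828773720334078116966065976325987073003301629115158308671951533690058750009934383184174150060014043136, 747510271034881081159578754108050487632348013966056002868720556402422398051038557084482688766566742575365887356898373721331971648841691823720675697393104765391905842453073267027922858266047767642112, 8⟩
def a4c96 : Cert := (move 433 (branch (move 432 (branch (move 401 (leaf 400 6)) (move 431 (branch (move 399 (leaf 399 7)) (move 463 (branch (move 560 (leaf 431 7)) (move 434 (branch (move 462 (leaf 430 1)) (move 435 (leaf 431 1)))))))))) (branch (move 560 (branch (move 465 (leaf 432 6)) (move 463 (branch (move 431 (leaf 431 7)) (move 592 (branch (move 495 (leaf 463 7)) (move 625 (branch (move 593 (leaf 496 4)) (move 624 (branch (move 657 (leaf 528 4)) (move 623 (branch (move 591 (leaf 495 5)) (move 655 (leaf 527 5)))))))))))))) (branch (move 432 (branch (move 401 (leaf 400 6)) (move 400 (branch (move 495 (leaf 399 5)) (move 399 (branch (move 367 (leaf 367 7)) (move 431 (leaf 399 7)))))))) (move 432 (branch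 (move 401 (leaf 400 6)) (move 400 (branch (move 495 (leaf 399 5)) (move 465 (branch (move 560 (leaf 432 6)) (move 368 (branch (move 336 (leaf 336 4)) (move 367 (branch (move 335 (leaf 335 7)) (move 399 (leaf 367 7))))))))))))))))
theorem a4p96 : a4e96.Valid :=
  pos_of_chk [] forall_nil a4c96 a4e96 (by decide +kernel)

def a4e97 : Pos := ⟨3773962426139582503191218559305936813851809967362937438091009331890452936112482930203092791153984754614471676659879003208442536163614851382571368634616870193709409370112, 642106434340993567246997914820962282701275762899953082011660798782418977647996439436877650473216251113637143520510335487715173915246387152757818171708088746992029133338143734234122510578107216676360955101184, 6⟩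
def a4c97 : Cert := (move 592 (branch (move 625 (branch (move 593 (leaf 496 4)) (move 624 (branch (move 657 (leaf 528 4)) (move 656 (branch (move 559 (leaf 527 7)) (move 655 (branch (move 623 (leaf 527 5)) (move 687 (leaf 559 5)))))))))) (branch (move 625 (branch (move 593 (leaf 496 4)) (move 624 (branch (move 657 (leaf 528 4)) (move 623 (branch (move 591 (leaf 495 5)) (move 655 (leaf 527 5)))))))) (branch (move 559 (branch (move 591 (leaf 463 5)) (move 624 (branch (move 656 (leaf 527 7)) (move 625 (branch (move 593 (leaf 496 4)) (move 657 (leaf 528 4)))))))) (move 591 (branch (move 559 (leaf 463 5)) (move 623 (leaf 495 5))))))))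
theorem a4p97 : a4e97.Valid :=
  pos_of_chk [] forall_nil a4c97 a4e97 (by decide +kernel)

def a4e98 : Pos := ⟨1647551438635933244589165058655358728196389419047933426132362779547236074521445814784706473438953473964920124555885823686881781558008073049135603855700646690816, 642106434340993567255700079697298325500498719404813330360297691880065147642314815604664371665212239162033752388405869514918020891673124057444127932182235640357467246571870279895602901757910952069294804959232, 11⟩
def a4c98 : Cert := (move 464 (branch (ref 0) (branch (move 432 (branch (move 559 (leaf 431 5)) (move 400 (branch (move 495 (leaf 399 5)) (move 401 (branch (move 369 (leaf 368 6)) (move 433 (leaf 400 6)))))))) (branch (move 432 (branch (move 559 (leaf 431 5)) (move 433 (branch (move 401 (leaf 400 6)) (move 431 (branch (move 399 (leaf 399 7)) (move 465 (branch (move 560 (leaf 432 6)) (move 466 (branch (move 430 (leaf 430 0)) (move 467 (leaf 431 3)))))))))))) (branch (move 559 (branch (move 432 (leaf 431 5)) (move 591 (branch (move 560 (leaf 463 5)) (move 495 (leaf 463 6)))))) (move 560 (branch (move 463 (branch (move 431 (leaf 431 7)) (move 592 (branch (move 495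 (leaf 463 7)) (move 465 (branch (move 433 (leaf 432 6)) (move 625 (branch (move 593 (leaf 496 4)) (move 624 (branch (move 657 (leaf 528 4)) (move 656 (branch (move 559 (leaf 527 7)) (move 655 (branch (move 623 (leaf 527 5)) (move 687 (leaf 559 5)))))))))))))))) (branch (move 463 (branch (move 431 (leaf 431 7)) (move 592 (branch (move 495 (leaf 463 7)) (move 625 (branch (move 593 (leaf 496 4)) (move 624 (branch (move 657 (leaf 528 4)) (move 623 (branch (move 591 (leaf 495 5)) (move 655 (leaf 527 5)))))))))))) (branch (ref 1) (move 465 (branch (move 433 (leaf 432 6)) (move 466 (branch (move 467 (branch (move 495 (leaf 463 1)) (move 500 (branch (move 499 (leaf 464 0)) (move 468 (branch (move 501 (leaf 465 0)) (move 436 (branch (move 435 (leaf 432 2)) (move 437 (leaf 433 2)))))))))) (branch (move 463 (branch (move 431 (leaf 431 7)) (move 499 (branch (move 498 (leaf 463 0)) (move 467 (branch (move 500 (leaf 464 0)) (move 435 (branch (move 434 (leaf 431 2)) (move 436 (leaf 432 2)))))))))) (move 463 (branch (move 431 (leaf 431 7)) (move 559 (branch (move 591 (leaf 463 5)) (move 557 (branch (move 556 (leaf 524 1)) (move 494 (branch (move 495 (leaf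 462 1)) (move 462 (branch (move 430 (leaf 430 4)) (move 589 (branch (move 558 (leaf 461 5)) (move 621 (leaf 493 6))))))))))))))))))))))))))))
theorem a4p98 : a4e98.Valid :=
  pos_of_chk [a4e96, a4e97] (forall_cons a4p96 (forall_cons a4p97 forall_nil)) a4c98 a4e98 (by decide +kernel)

def a4e99 : Pos := ⟨1647551438431346331595656191779534372144664472034393298254671230204530364015437452509414313758749093194551114733955405928909277119931994515017766789867613716480, 224253081359196447655355465988826498620404497223971201491597212635310132773872225111860600154336366847737759614487115225810004094201008505640318614403962023343206951725627033819475684536036416815104, 12⟩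
def a4c99 : Cert := (move 529 (branch (move 497 (branch (move 496 (leaf 493 2)) (move 498 (leaf 494 2)))) (branch (move 498 (branch (move 497 (leaf 494 2)) (move 530 (branch (move 499 (leaf 495 2)) (move 563 (branch (move 562 (leaf 527 0)) (move 531 (branch (move 564 (leaf 528 0)) (move 559 (branch (move 558 (leaf 526 1)) (move 560 (leaf 527 1)))))))))))) (branch (move 496 (branch (move 497 (leaf 493 2)) (move 530 (branch (move 531 (branch (move 495 (leaf 495 3)) (move 563 (branch (move 562 (leaf 527 0)) (move 564 (leaf 528 0)))))) (branch (move 559 (branch (move 558 (leaf 526 1)) (move 464 (branch (move 432 (leaf 431 5)) (move 591 (branch (move 560 (leaf 463 5)) (move 495 (leaf 463 6)))))))) (move 559 (branch (move 558 (leaf 526 1)) (move 531 (branch (move 560 (leaf 527 1)) (move 563 (branch (move 562 (leaf 527 0)) (move 564 (leaf 528 0))))))))))))) (move 530 (branch (move 563 (branch (move 562 (leaf 527 0)) (move 531 (branch (move 564 (leaf 528 0)) (move 499 (branch (move 498 (leaf 495 2)) (move 500 (leaf 496 2)))))))) (branch (move 559 (branch (move 558 (leaf 526 1)) (move 531 (branch (move 560 (leaf 527 1)) (move 563 (branch (move 562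 (leaf 527 0)) (move 564 (leaf 528 0)))))))) (move 495 (branch (move 494 (leaf 494 3)) (move 559 (branch (move 558 (leaf 526 1)) (move 464 (branch (move 463 (branch (move 432 (leaf 431 6)) (move 560 (branch (move 431 (leaf 431 4)) (move 592 (leaf 463 4)))))) (branch (move 496 (branch (move 432 (leaf 431 5)) (move 591 (leaf 463 6)))) (move 498 (branch (move 499 (leaf 495 2)) (move 591 (branch (move 496 (leaf 463 6)) (move 592 (branch (move 624 (leaf 495 4)) (move 560 (branch (move 463 (leaf 463 4)) (move 623 (branch (move 655 (leaf 527 6)) (move 622 (branch (move 590 (leaf 494 5)) (move 654 (leaf 526 5))))))))))))))))))))))))))))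
theorem a4p99 : a4e99.Valid :=
  pos_of_chk [] forall_nil a4c99 a4e99 (by decide +kernel)

def a4e100 : Pos := ⟨768857337934628288077972889497116040334176753616050205852179907428780836540537477837726679754082910157457186875845856100157662655968264107008291168604886401024, 1043422955280857357100686978080346953933981279696422922804174183138872880219872981811356015638520934147747115789850298974934657431872873572927737638810242444036121026767471293294399888263720766988344560189440, 13⟩
def a4c100 : Cert := (move 528 (branch (move 557 (branch (move 556 (leaf 524 1)) (move 529 (branch (move 558 (leaf 525 1)) (move 497 (branch (move 496 (leaf 493 2)) (move 498 (leaf 494 2)))))))) (branch (move 529 (branch (move 497 (branch (move 496 (leaf 493 2)) (move 498 (leaf 494 2)))) (branch (move 494 (branch (move 493 (leaf 493 3)) (move 530 (branch (move 495 (leaf 494 3)) (move 557 (branch (move 556 (leaf 524 1)) (move 462 (branch (move 430 (leaf 429 5)) (move 563 (branch (move 562 (leaf 527 0)) (move 531 (branch (move 564 (leaf 528 0)) (move 499 (branch (move 498 (leaf 495 2)) (move 500 (leaf 496 2)))))))))))))))) (move 559 (branch (move 494 (branch (move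 493 (leaf 493 3)) (move 495 (branch (move 530 (leaf 494 3)) (move 462 (branch (move 430 (leaf 430 4)) (move 591 (leaf 462 7)))))))) (branch (move 496 (branch (move 497 (leaf 493 2)) (move 591 (branch (move 623 (leaf 495 6)) (move 464 (branch (move 432 (leaf 431 5)) (move 560 (leaf 463 5)))))))) (move 494 (branch (move 493 (leaf 493 3)) (move 496 (branch (move 497 (leaf 493 2)) (move 530 (branch (move 495 (leaf 494 3)) (move 531 (branch (move 560 (leaf 527 1)) (move 563 (branch (move 562 (leaf 527 0)) (move 564 (leaf 528 0)))))))))))))))))) (branch (ref 0) (branch (move 496 (branch (move 497 (leaf 493 2)) (ref 1))) (ref 2))))))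
theorem a4p100 : a4e100.Valid :=
  pos_of_chk [a4e84, a4e98, a4e99] (forall_cons a4p84 (forall_cons a4p98 (forall_cons a4p99 forall_nil))) a4c100 a4e100 (by decide +kernel)

def a4e101 : Pos := ⟨823775719215673165797828095889767186072332236017196649127335615102265182007718726254707156879374546597275557366977702964454638559965997257508883394933806858240, 373755135517440540579789377058742696847200933673636825030103740403592831847400011561035314689001558453383759937373558326896612496557297423280582856383268721850881864389110824888972836203568381820928, 11⟩
def a4c101 : Cert := (move 495 (branch (move 496 (leaf 492 2)) (move 463 (branch (move 431 (branch (move 558 (leaf 430 5)) (move 399 (branch (move 494 (leaf 398 5)) (move 400 (branch (move 368 (leaf 367 6)) (move 432 (leaf 399 6)))))))) (branch (move 559 (branch (move 560 (leaf 524 0)) (move 558 (branch (move 431 (leaf 430 5)) (move 590 (leaf 462 5)))))) (branch (move 559 (branch (move 560 (leaf 524 0)) (move 590 (branch (move 558 (leaf 462 5)) (move 591 (branch (move 622 (leaf 494 5)) (move 462 (branch (move 430 (leaf 430 7)) (move 494 (leaf 462 7)))))))))) (move 559 (branch (move 560 (leaf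 524 0)) (move 462 (branch (move 430 (leaf 430 7)) (move 591 (branch (move 494 (leaf 462 7)) (move 432 (branch (move 464 (leaf 431 6)) (move 431 (branch (move 400 (leaf 399 6)) (move 624 (branch (move 592 (leaf 495 4)) (move 623 (branch (move 656 (leaf 527 4)) (move 622 (branch (move 590 (leaf 494 5)) (move 654 (leaf 526 5))))))))))))))))))))))))
theorem a4p101 : a4e101.Valid :=
  pos_of_chk [] forall_nil a4c101 a4e101 (by decide +kernel)

def a4e102 : Pos := ⟨768857337934628288077972889497116040334176753616050205852179907428780836540537477837726679754082910157457186875845856100157662655968264107008291168604886401024, 373755135517440540579789377058949085417404468883590551929065615485909262126154886449203947722521074769797857400832882899221411585358993015883139457735342477431489705654657346882808667379068812918784, 12⟩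
def a4c102 : Cert := (move 524 (branch (move 559 (branch (move 560 (leaf 524 0)) (move 523 (branch (move 558 (leaf 523 0)) (move 554 (branch (move 555 (leaf 522 1)) (move 522 (branch (move 553 (leaf 521 1)) (move 490 (branch (move 489 (leaf 489 3)) (move 491 (leaf 490 3)))))))))))) (branch (move 495 (branch (move 496 (leaf 492 2)) (move 523 (branch (move 494 (leaf 491 2)) (move 554 (branch (move 555 (leaf 522 1)) (move 522 (branch (move 553 (leaf 521 1)) (move 490 (branch (move 489 (leaf 489 3)) (move 491 (leaf 490 3)))))))))))) (ref 0))))
theorem a4p102 : a4e102.Valid :=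
  pos_of_chk [a4e101] (forall_cons a4p101 forall_nil) a4c102 a4e102 (by decide +kernel)

def a4e103 : Pos := ⟨1647551438635933244636799161290795621375429904121681691295763019761240150920053556478208849824753120268025381255463032719471914173996333286187727508033536786432, 642106434340993567246997914820962282705049725324774623364094153594469654883884624144276152521966243154808885008034146524250612935465968650866573394122669250754096553516832010252321896216782760731434008182784, 9⟩
def a4c103 : Cert := (move 560 (branch (move 463 (branch (move 431 (leaf 431 7)) (move 592 (branch (move 495 (leaf 463 7)) (move 465 (branch (move 433 (leaf 432 6)) (move 625 (branch (move 593 (leaf 496 4)) (move 624 (branch (move 657 (leaf 528 4)) (move 656 (branch (move 559 (leaf 527 7)) (move 655 (branch (move 623 (leaf 527 5)) (move 687 (leaf 559 5)))))))))))))))) (branch (move 463 (branch (move 431 (leaf 431 7)) (move 592 (branch (move 495 (leaf 463 7)) (move 625 (branch (move 593 (leaf 496 4)) (move 624 (branch (move 657 (leaf 528 4)) (move 623 (branch (move 591 (leaf 495 5)) (move 655 (leaf 527 5)))))))))))) (branch (ref 0) (move 559 (branch (move 591 (leaf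 463 5)) (move 463 (branch (move 431 (leaf 431 7)) (move 493 (branch (move 492 (leaf 492 3)) (move 465 (branch (move 433 (leaf 432 6)) (move 494 (branch (move 462 (leaf 461 1)) (move 495 (leaf 461 2))))))))))))))))
theorem a4p103 : a4e103.Valid :=
  pos_of_chk [a4e97] (forall_cons a4p97 forall_nil) a4c103 a4e103 (by decide +kernel)

def a4e104 : Pos := ⟨768857337934628288077972889497116040334176753616050205852179907428780836540537477837726679754082910157457186875845856100157662655968264107008291168604886401024, 642106434340993567264402244573634368399731680180624836032463236629410026488520365199181239139474213573848531079924950131286225107671101730224565621602056490576697091200814591331508078588700312597945131204608, 12⟩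
def a4c104 : Cert := (move 528 (branch (move 529 (branch (move 558 (branch (move 557 (leaf 525 1)) (move 530 (branch (move 559 (leaf 526 1)) (move 493 (branch (move 492 (leaf 492 3)) (move 590 (branch (move 622 (leaf 493 7)) (move 563 (branch (move 562 (leaf 527 0)) (move 531 (branch (move 564 (leaf 528 0)) (move 499 (branch (move 498 (leaf 495 2)) (move 500 (leaf 496 2)))))))))))))))) (branch (move 497 (branch (move 496 (leaf 493 2)) (move 498 (leaf 494 2)))) (move 558 (branch (move 557 (leaf 525 1)) (move 493 (branch (move 492 (leaf 492 3)) (move 530 (branch (move 559 (leaf 526 1)) (move 496 (branch (move 497 (leaf 493 2)) (move 531 (branch (move 495 (leaf 495 3)) (move 563 (branch (move 562 (leaf 527 0)) (move 564 (leaf 528 0))))))))))))))))) (branch (move 493 (branch (move 492 (leaf 492 3)) (move 529 (branch (move 494 (leaf 493 3)) (move 497 (branch (move 496 (leaf 493 2)) (move 498 (leaf 494 2)))))))) (branch (move 529 (branch (move 497 (branch (move 496 (leaf 493 2)) (move 498 (leaf 494 2)))) (branch (move 498 (branch (move 497 (leaf 494 2)) (move 530 (branch (move 499 (leaf 495 2)) (move 563 (branch (move 562 (leaf 527 0)) (move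 531 (branch (move 564 (leaf 528 0)) (move 559 (branch (move 558 (leaf 526 1)) (move 560 (leaf 527 1)))))))))))) (move 558 (branch (move 557 (leaf 525 1)) (move 530 (branch (move 559 (leaf 526 1)) (move 495 (branch (move 494 (leaf 494 3)) (move 531 (branch (move 496 (leaf 495 3)) (move 563 (branch (move 562 (leaf 527 0)) (move 564 (leaf 528 0))))))))))))))) (branch (move 496 (branch (move 497 (leaf 493 2)) (move 464 (branch (ref 0) (branch (move 432 (branch (move 559 (leaf 431 5)) (move 400 (branch (move 495 (leaf 399 5)) (move 401 (branch (move 369 (leaf 368 6)) (move 433 (leaf 400 6)))))))) (branch (move 432 (branch (move 559 (leaf 431 5)) (move 433 (branch (move 401 (leaf 400 6)) (move 431 (branch (move 399 (leaf 399 7)) (move 465 (branch (move 560 (leaf 432 6)) (move 466 (branch (move 430 (leaf 430 0)) (move 467 (leaf 431 3)))))))))))) (branch (move 559 (branch (move 432 (leaf 431 5)) (move 591 (branch (move 560 (leaf 463 5)) (move 495 (leaf 463 6)))))) (ref 1)))))))) (move 493 (branch (move 492 (leaf 492 3)) (move 529 (branch (move 494 (leaf 493 3)) (move 558 (branch (move 557 (leaf 525 1)) (move 530 (branch (move 559 (leaf 526 1))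 (move 590 (branch (move 622 (leaf 493 7)) (move 563 (branch (move 562 (leaf 527 0)) (move 531 (branch (move 564 (leaf 528 0)) (move 499 (branch (move 498 (leaf 495 2)) (move 500 (leaf 496 2)))))))))))))))))))))))
theorem a4p104 : a4e104.Valid :=
  pos_of_chk [a4e96, a4e103] (forall_cons a4p96 (forall_cons a4p103 forall_nil)) a4c104 a4e104 (by decide +kernel)

def a4e105 : Pos := ⟨768857337960201652202161497856594084840642371992742721836891351096619050353788523122138199714108457753753313103587158319904225710727773923773020801834015522816, 21755412192866237635131431027606940766981063738327209330196552334862359280335706221119012948735111324565951017520340069036863981098655633658425581886047460520540639458777368748026719371264, 9⟩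
def a4c105 : Cert := (move 461 (branch (move 429 (branch (move 558 (leaf 429 4)) (move 398 (branch (move 430 (leaf 397 6)) (move 397 (branch (move 366 (leaf 365 6)) (move 396 (branch (move 364 (leaf 364 7)) (move 428 (leaf 396 7)))))))))) (branch (move 557 (branch (move 460 (branch (move 428 (leaf 428 7)) (move 589 (branch (move 492 (leaf 460 7)) (move 588 (branch (move 556 (leaf 460 5)) (move 620 (leaf 492 5)))))))) (branch (move 590 (branch (move 558 (leaf 461 4)) (move 589 (branch (move 622 (leaf 493 4)) (move 460 (branch (move 428 (leaf 428 7)) (move 492 (leaf 460 7)))))))) (move 558 (branch (move 590 (leaf 461 4)) (move 556 (branch (move 555 (leaf 523 2)) (move 588 (leaf 460 5))))))))) (branch (move 558 (branch (move 429 (leaf 429 4)) (move 590 (branch (move 557 (leaf 461 4)) (move 622 (leaf 493 7)))))) (move 428 (branch (move 429 (branch (move 396 (leaf 396 7)) (move 430 (branch (move 398 (leaf 397 6)) (move 462 (branch (move 557 (leaf 429 6)) (move 463 (branch (move 427 (leaf 427 0)) (move 464 (leaf 428 3)))))))))) (branch (move 460 (branch (move 557 (leaf 428 7)) (move 396 (branch (move 364 (leaf 364 4)) (move 492 (leaf 396 4))))))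 (branch (move 396 (branch (move 429 (leaf 396 7)) (move 460 (branch (move 364 (leaf 364 4)) (move 492 (leaf 396 4)))))) (move 462 (branch (move 460 (branch (move 557 (leaf 428 7)) (move 463 (branch (move 427 (leaf 427 3)) (move 464 (branch (move 492 (leaf 460 1)) (move 429 (leaf 428 3)))))))) (branch (move 430 (branch (move 557 (leaf 429 6)) (move 398 (branch (move 366 (leaf 365 5)) (move 429 (leaf 397 6)))))) (branch (move 557 (branch (move 430 (leaf 429 6)) (move 460 (leaf 428 7)))) (move 463 (branch (move 460 (branch (move 427 (leaf 427 3)) (move 491 (branch (move 492 (leaf 459 1)) (move 459 (branch (move 490 (leaf 458 1)) (move 431 (branch (move 430 (leaf 427 2)) (move 432 (leaf 428 2)))))))))) (branch (move 464 (branch (move 492 (leaf 460 1)) (move 429 (leaf 428 3)))) (move 429 (branch (move 464 (leaf 428 3)) (move 427 (branch (move 426 (leaf 426 0)) (move 430 (leaf 427 0)))))))))))))))))))))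
theorem a4p105 : a4e105.Valid :=
  pos_of_chk [] forall_nil a4c105 a4e105 (by decide +kernel)

def a4e106 : Pos := ⟨8104522597357670586152868723323922745160974684586504552656902908274552720668319534837532620033312913317380194817180134581798566628004321892088225846591546967025485521460884668416, 102250437296441970169507753475124080010871695850210067589386154194071084787368674575867524215218098005839146213180196080467879618731640112258123910567616682043806798349210237145301261484032, 10⟩
def a4c106 : Cert := (move 495 (branch (move 592 (branch (move 624 (leaf 495 4)) (move 463 (branch (move 560 (leaf 463 4)) (move 432 (branch (move 464 (leaf 431 6)) (move 431 (branch (move 400 (leaf 399 6)) (move 430 (branch (move 398 (leaf 398 7)) (move 462 (leaf 430 7)))))))))))) (branch (move 592 (branch (move 624 (leaf 495 4)) (move 463 (branch (move 560 (leaf 463 4)) (move 590 (branch (move 622 (leaf 494 5)) (move 557 (branch (move 556 (leaf 524 1)) (move 432 (branch (move 464 (leaf 431 6)) (move 431 (branch (move 400 (leaf 399 6)) (move 399 (branch (move 494 (leaf 398 5)) (move 398 (branch (move 366 (leaf 366 7)) (move 430 (leaf 398 7))))))))))))))))))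 (branch (move 589 (branch (move 590 (branch (move 622 (leaf 494 5)) (move 592 (branch (move 624 (leaf 495 4)) (move 556 (branch (move 557 (leaf 524 1)) (move 588 (branch (move 560 (leaf 556 2)) (move 555 (leaf 555 3)))))))))) (branch (move 494 (branch (move 462 (leaf 462 7)) (move 557 (branch (move 556 (leaf 524 1)) (move 621 (leaf 493 6)))))) (move 590 (branch (move 622 (leaf 494 5)) (move 592 (branch (move 624 (leaf 495 4)) (move 588 (branch (move 560 (leaf 556 2)) (move 620 (branch (move 619 (leaf 587 1)) (move 621 (leaf 588 1))))))))))))) (move 557 (branch (move 556 (leaf 524 1)) (move 463 (branch (move 432 (branch (move 464 (leaf 431 6)) (move 431 (branch (move 400 (leaf 399 6)) (move 399 (branch (move 494 (leaf 398 5)) (move 398 (branch (move 366 (leaf 366 7)) (move 430 (leaf 398 7)))))))))) (branch (move 432 (branch (move 464 (leaf 431 6)) (move 431 (branch (move 400 (leaf 399 6)) (move 430 (branch (move 398 (leaf 398 7)) (move 462 (leaf 430 7)))))))) (branch (move 494 (branch (move 462 (leaf 462 7)) (move 529 (branch (move 530 (leaf 494 3)) (move 431 (branch (move 399 (leaf 398 5)) (move 432 (branch (move 400 (leaf 399 6)) (move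 464 (leaf 431 6)))))))))) (move 462 (branch (move 430 (leaf 430 7)) (move 494 (leaf 462 7))))))))))))))
theorem a4p106 : a4e106.Valid :=
  pos_of_chk [] forall_nil a4c106 a4e106 (by decide +kernel)

def a4e107 : Pos := ⟨24313567786412068117931191264746743700809208333825063083056719138190562115127179900515313853939873747166823805621839654810147703066446276873558934351068500493891878919173333581824, 878324569291385608858158594620224889116210268482887156481937062778111090961810631063239020297720832317101487832496803511454767454382242805266278495710162992664499425459771207421184371298590963793920, 10⟩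
def a4c107 : Cert := (move 624 (branch (move 560 (branch (move 495 (leaf 495 7)) (move 625 (branch (move 657 (leaf 528 4)) (move 623 (branch (move 655 (leaf 527 5)) (move 626 (branch (move 590 (leaf 590 3)) (move 627 (leaf 591 3)))))))))) (branch (move 589 (branch (move 557 (branch (move 556 (leaf 524 1)) (move 621 (branch (move 494 (leaf 493 6)) (move 622 (branch (move 654 (leaf 525 4)) (move 623 (branch (move 620 (leaf 588 2)) (move 593 (leaf 589 2)))))))))) (branch (move 590 (branch (move 625 (leaf 589 0)) (move 588 (branch (move 623 (leaf 588 0)) (move 620 (branch (move 619 (leaf 587 1)) (move 621 (leaf 588 1)))))))) (branch (move 590 (branch (move 625 (leaf 589 0)) (move 556 (branch (move 557 (leaf 524 1)) (move 588 (branch (move 623 (leaf 588 0)) (move 555 (leaf 555 3)))))))) (move 557 (branch (move 556 (leaf 524 1)) (move 621 (branch (move 494 (leaf 493 6)) (move 590 (branch (move 625 (leaf 589 0)) (move 620 (leaf 588 1)))))))))))) (branch (move 560 (branch (move 495 (leaf 495 7)) (move 625 (branch (move 657 (leaf 528 4)) (move 626 (branch (move 627 (leaf 591 3)) (move 590 (branch (move 589 (leaf 589 0)) (move 593 (leaf 590 0))))))))))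 (branch (move 560 (branch (move 495 (leaf 495 7)) (move 623 (branch (move 655 (leaf 527 5)) (move 625 (branch (move 657 (leaf 528 4)) (move 626 (branch (move 627 (leaf 591 3)) (move 594 (branch (move 595 (leaf 591 2)) (move 622 (branch (move 593 (leaf 590 1)) (move 621 (branch (move 620 (leaf 588 2)) (move 653 (branch (move 652 (leaf 620 1)) (move 654 (leaf 621 1)))))))))))))))))) (move 621 (branch (move 557 (branch (move 556 (leaf 524 1)) (move 589 (branch (move 494 (leaf 493 6)) (move 620 (branch (move 590 (leaf 588 1)) (move 652 (leaf 524 5)))))))) (branch (move 560 (branch (move 495 (leaf 495 7)) (move 623 (branch (move 655 (leaf 527 5)) (move 622 (branch (move 620 (leaf 588 2)) (move 593 (leaf 589 2)))))))) (move 560 (branch (move 495 (leaf 495 7)) (move 623 (branch (move 655 (leaf 527 5)) (move 622 (branch (move 593 (leaf 589 2)) (move 589 (branch (move 588 (leaf 588 3)) (move 557 (branch (move 556 (leaf 524 1)) (move 654 (leaf 525 4))))))))))))))))))))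
theorem a4p107 : a4e107.Valid :=
  pos_of_chk [] forall_nil a4c107 a4e107 (by decide +kernel)

def a4e108 : Pos := ⟨16209045194715341170328675720734816805400670805913392214791933397121373611308725142772334513754109245898755372804065738100504805397192574427457823587340779050147487960913665851392, 139234638021376684700766168306868522277878348202383266457289881125501897138244066993881500442587634819064508496250846232297974332823767866347883849021582583515083308899058715666507605475328, 7⟩
def a4c108 : Cert := (move 464 (branch (move 463 (branch (move 431 (leaf 431 7)) (move 495 (leaf 463 7)))) (branch (move 593 (branch (move 625 (leaf 496 4)) (move 433 (branch (move 465 (leaf 432 6)) (move 432 (branch (move 401 (leaf 400 6)) (move 400 (branch (move 495 (leaf 399 5)) (move 399 (branch (move 367 (leaf 367 7)) (move 431 (leaf 399 7)))))))))))) (branch (move 431 (branch (move 463 (leaf 431 7)) (move 432 (branch (move 399 (leaf 399 7)) (move 433 (branch (move 401 (leaf 400 6)) (move 465 (leaf 432 6)))))))) (move 495 (branch (move 463 (leaf 463 7)) (move 432 (branch (move 400 (leaf 399 5)) (move 433 (branch (move 401 (leaf 400 6)) (move 465 (leaf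 432 6))))))))))))
theorem a4p108 : a4e108.Valid :=
  pos_of_chk [] forall_nil a4c108 a4e108 (by decide +kernel)

def a4e109 : Pos := ⟨24313567786412068117931191264746743700809208333825063083056719138190562115127179900515313853939873747166823805621839654810147703066446276873558934351068500493891878919173333581824, 2969742254715788762489879782841370268272227406696666007213918948806548395437675734139931048450281766027908571182930291534253905084676793364871496880728567539732056813338411683639765144341145874024801280983040, 10⟩
def a4c109 : Cert := (move 593 (branch (move 621 (branch (move 557 (branch (move 556 (leaf 524 1)) (move 589 (branch (move 494 (leaf 493 6)) (move 620 (branch (move 590 (leaf 588 1)) (move 652 (leaf 524 5)))))))) (branch (move 557 (branch (move 556 (leaf 524 1)) (move 589 (branch (move 494 (leaf 493 6)) (move 622 (branch (move 654 (leaf 525 4)) (move 623 (branch (move 594 (leaf 590 1)) (move 620 (leaf 588 2)))))))))) (move 622 (branch (move 590 (leaf 589 1)) (move 623 (branch (move 594 (leaf 590 1)) (move 624 (leaf 589 2))))))))) (branch (move 557 (branch (move 556 (leaf 524 1)) (move 496 (branch (move 497 (leaf 493 2))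 (move 621 (branch (move 622 (branch (move 590 (leaf 589 1)) (move 623 (branch (move 620 (leaf 588 2)) (move 624 (leaf 589 2)))))) (branch (move 589 (branch (move 494 (leaf 493 6)) (move 620 (branch (move 590 (leaf 588 1)) (move 652 (leaf 524 5)))))) (branch (move 589 (branch (move 494 (leaf 493 6)) (move 622 (branch (move 654 (leaf 525 4)) (move 623 (branch (move 620 (leaf 588 2)) (move 624 (leaf 589 2)))))))) (move 622 (branch (move 590 (leaf 589 1)) (move 589 (branch (move 654 (leaf 525 4)) (move 494 (leaf 493 6)))))))))))))) (branch (move 496 (branch (move 497 (leaf 493 2)) (move 557 (branch (move 556 (leaf 524 1)) (move 594 (branch (move 626 (branch (move 627 (leaf 591 0)) (move 625 (branch (move 590 (leaf 590 0)) (move 562 (branch (move 563 (leaf 559 2)) (move 657 (branch (move 530 (leaf 529 5)) (move 689 (leaf 561 6)))))))))) (branch (move 627 (branch (move 626 (leaf 591 0)) (move 595 (branch (move 628 (leaf 592 0)) (move 563 (branch (move 562 (leaf 559 2)) (move 564 (leaf 560 2)))))))) (branch (move 563 (branch (move 562 (leaf 559 2)) (move 595 (branch (move 564 (leaf 560 2)) (move 628 (branch (move 627 (leaf 592 0)) (move 596 (branch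 (move 629 (leaf 593 0)) (move 624 (branch (move 623 (leaf 591 1)) (move 625 (leaf 592 1)))))))))))) (branch (move 563 (branch (move 562 (leaf 559 2)) (move 595 (branch (move 564 (leaf 560 2)) (move 624 (branch (move 623 (leaf 591 1)) (move 625 (branch (move 596 (leaf 592 1)) (move 590 (branch (move 589 (leaf 589 0)) (move 626 (leaf 590 0)))))))))))) (move 595 (branch (move 624 (branch (move 623 (leaf 591 1)) (move 625 (branch (move 596 (leaf 592 1)) (move 590 (branch (move 589 (leaf 589 0)) (move 626 (leaf 590 0)))))))) (branch (move 624 (branch (move 623 (leaf 591 1)) (move 596 (branch (move 625 (leaf 592 1)) (move 628 (branch (move 627 (leaf 592 0)) (move 629 (leaf 593 0)))))))) (move 627 (branch (move 626 (leaf 591 0)) (move 628 (leaf 592 0)))))))))))))))) (branch (move 621 (branch (move 557 (branch (move 556 (leaf 524 1)) (move 589 (branch (move 494 (leaf 493 6)) (move 620 (branch (move 590 (leaf 588 1)) (move 652 (leaf 524 5)))))))) (branch (move 557 (branch (move 556 (leaf 524 1)) (move 589 (branch (move 494 (leaf 493 6)) (move 652 (branch (move 620 (leaf 524 5)) (move 653 (branch (move 684 (leaf 556 5)) (move 654 (branch (move 622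 (leaf 525 4)) (move 686 (leaf 557 4)))))))))))) (move 497 (branch (move 496 (leaf 493 2)) (move 529 (branch (move 498 (leaf 494 2)) (move 590 (branch (move 622 (leaf 589 1)) (move 626 (branch (move 625 (leaf 590 0)) (move 594 (branch (move 627 (leaf 591 0)) (move 562 (branch (move 563 (leaf 559 2)) (move 530 (leaf 497 7))))))))))))))))) (move 594 (branch (move 623 (branch (move 622 (leaf 590 1)) (move 595 (branch (move 624 (leaf 591 1)) (move 627 (branch (move 626 (leaf 591 0)) (move 628 (leaf 592 0)))))))) (move 497 (branch (move 496 (leaf 493 2)) (move 562 (branch (move 563 (leaf 559 2)) (move 498 (branch (move 529 (leaf 494 2)) (move 530 (branch (move 625 (leaf 497 5)) (move 465 (leaf 465 7)))))))))))))))))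
theorem a4p109 : a4e109.Valid :=
  pos_of_chk [] forall_nil a4c109 a4e109 (by decide +kernel)

def a4e110 : Pos := ⟨1647551438431346331595656191779534372144664472034393298254671230204530364015437452509414313758749093194551114733955405928909277119931994515017766789867613716480, 2969742255164294924967875373467864851969962459290831752984928450506032562527072536009106095503444077408964650675665211324992394071868550554445385552162582764974008814636402278266498938182044115406824501411840, 13⟩
def a4c110 : Cert := (move 591 (branch (move 496 (branch (move 497 (leaf 493 2)) (move 559 (branch (move 623 (leaf 495 6)) (move 464 (branch (move 432 (leaf 431 5)) (move 560 (leaf 463 5)))))))) (branch (move 559 (branch (move 557 (branch (move 556 (leaf 524 1)) (ref 0))) (branch (move 623 (branch (move 494 (leaf 494 7)) (move 655 (branch (move 560 (leaf 527 6)) (move 654 (branch (move 622 (leaf 526 5)) (move 686 (leaf 558 5)))))))) (branch (move 494 (branch (move 623 (leaf 494 7)) (move 462 (branch (move 430 (leaf 430 4)) (move 495 (leaf 462 7)))))) (ref 1))))) (branch (move 496 (branch (move 497 (leaf 493 2)) (move 557 (branch (move 556 (leaf 524 1)) (move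 464 (branch (move 559 (branch (move 560 (leaf 463 5)) (move 495 (leaf 463 6)))) (branch (move 559 (branch (move 432 (leaf 431 5)) (move 560 (leaf 463 5)))) (branch (move 559 (branch (move 432 (leaf 431 5)) (move 495 (leaf 463 6)))) (move 432 (branch (move 400 (branch (move 495 (leaf 399 5)) (move 401 (branch (move 369 (leaf 368 6)) (move 433 (leaf 400 6)))))) (branch (move 431 (branch (move 399 (leaf 399 7)) (move 433 (branch (move 401 (leaf 400 6)) (move 463 (branch (move 560 (leaf 431 7)) (move 462 (branch (move 434 (leaf 430 1)) (move 461 (leaf 429 2)))))))))) (move 431 (branch (move 399 (leaf 399 7)) (move 463 (branch (move 560 (leaf 431 7)) (move 495 (branch (move 400 (leaf 399 5)) (move 430 (branch (move 398 (leaf 398 7)) (move 465 (branch (move 429 (leaf 429 0)) (move 466 (leaf 430 3))))))))))))))))))))))) (branch (move 496 (branch (move 497 (leaf 493 2)) (move 559 (branch (move 623 (leaf 495 6)) (move 464 (branch (move 432 (leaf 431 5)) (move 495 (leaf 463 6)))))))) (branch (move 496 (branch (move 497 (leaf 493 2)) (move 621 (branch (move 557 (branch (move 556 (leaf 524 1)) (move 589 (branch (move 494 (leaf 493 6)) (move 620 (branch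 (move 652 (leaf 524 5)) (move 590 (branch (move 592 (leaf 588 1)) (move 619 (branch (move 588 (leaf 587 1)) (move 618 (leaf 586 2)))))))))))) (branch (move 623 (branch (move 559 (leaf 495 6)) (move 592 (branch (move 560 (leaf 495 5)) (move 622 (branch (move 620 (leaf 588 2)) (move 593 (branch (move 590 (leaf 589 1)) (move 594 (leaf 590 1)))))))))) (move 559 (branch (move 623 (leaf 495 6)) (move 557 (branch (move 556 (leaf 524 1)) (move 494 (branch (move 589 (leaf 493 6)) (move 462 (branch (move 430 (leaf 430 4)) (move 495 (leaf 462 7))))))))))))))) (move 592 (branch (ref 2) (branch (move 496 (branch (move 497 (leaf 493 2)) (move 560 (branch (move 623 (leaf 495 5)) (move 495 (branch (move 463 (leaf 463 7)) (move 624 (leaf 495 7)))))))) (branch (move 496 (branch (move 497 (leaf 493 2)) (move 560 (branch (move 623 (leaf 495 5)) (ref 3))))) (branch (move 496 (branch (move 497 (leaf 493 2)) (move 560 (branch (move 625 (branch (move 593 (leaf 496 4)) (move 624 (branch (move 657 (leaf 528 4)) (move 557 (branch (move 556 (leaf 524 1)) (move 589 (branch (move 590 (leaf 589 0)) (move 621 (branch (move 494 (leaf 493 6)) (move 654 (branch (move 622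 (leaf 525 4)) (move 653 (branch (move 686 (leaf 557 4)) (move 652 (branch (move 620 (leaf 524 5)) (move 684 (leaf 556 5)))))))))))))))))) (branch (ref 3) (move 495 (branch (move 463 (leaf 463 7)) (move 624 (leaf 495 7))))))))) (ref 4))))))))))))
theorem a4p110 : a4e110.Valid :=
  pos_of_chk [a4e78, a4e106, a4e107, a4e108, a4e109] (forall_cons a4p78 (forall_cons a4p106 (forall_cons a4p107 (forall_cons a4p108 (forall_cons a4p109 forall_nil))))) a4c110 a4e110 (by decide +kernel)

def a4e111 : Pos := ⟨219673525124179510879420825570604582952621929604585773100622830693937381868724993667921908501166545759273481964527387457187903615990932602002368905315681828864, 5922386523945953610385722591347663850705806278134069719834393390411949753912035451333921242072491134448381221010441709265345068047222619554377550864285129551413625365502289750884177577495392768583280429869445767186149625823232, 19⟩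
def a4c111 : Cert := (move 527 (branch (move 525 (branch (ref 0) (branch (ref 1) (branch (ref 2) (branch (ref 3) (ref 4)))))) (branch (move 525 (branch (ref 0) (branch (ref 5) (branch (ref 6) (branch (ref 7) (branch (ref 8) (branch (ref 9) (ref 10)))))))) (branch (ref 11) (branch (ref 12) (branch (ref 13) (branch (ref 14) (branch (move 525 (branch (ref 0) (branch (ref 5) (branch (ref 6) (branch (ref 9) (branch (ref 15) (branch (move 557 (branch (move 556 (branch (move 528 (leaf 524 1)) (move 555 (branch (move 554 (leaf 522 2)) (move 558 (leaf 523 2)))))) (branch (ref 16) (move 493 (branch (move 492 (branch (move 528 (leaf 492 3)) (move 491 (branch (move 490 (leaf 490 0)) (move 494 (leaf 491 0)))))) (ref 17)))))) (branch (ref 18) (branch (ref 19) (ref 20)))))))))) (branch (ref 21) (branch (move 525 (branch (ref 0) (branch (ref 1) (branch (ref 2) (branch (ref 3) (ref 22)))))) (branch (move 525 (branch (ref 0) (branch (ref 3) (branch (ref 5) (branch (ref 6) (branch (ref 7) (branch (ref 10) (ref 23)))))))) (branch (move 525 (branch (ref 2) (branch (ref 8) (branch (ref 23) (branch (ref 24) (branch (ref 15) (branch (ref 25) (ref 26)))))))) (branch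 (move 525 (branch (ref 6) (branch (ref 9) (branch (move 524 (branch (move 559 (branch (move 560 (leaf 524 0)) (move 523 (branch (move 558 (leaf 523 0)) (move 491 (branch (move 490 (leaf 490 3)) (move 492 (leaf 491 3)))))))) (branch (move 495 (branch (move 496 (leaf 492 2)) (move 523 (branch (move 494 (leaf 491 2)) (move 491 (branch (move 490 (leaf 490 3)) (move 492 (leaf 491 3)))))))) (ref 27)))) (branch (move 557 (branch (move 556 (branch (move 528 (leaf 524 1)) (move 555 (branch (move 554 (leaf 522 2)) (move 558 (leaf 523 2)))))) (branch (ref 16) (move 493 (branch (move 492 (branch (move 528 (leaf 492 3)) (move 491 (branch (move 490 (leaf 490 0)) (move 494 (leaf 491 0)))))) (ref 17)))))) (move 524 (branch (move 559 (branch (move 560 (leaf 524 0)) (move 523 (branch (move 558 (leaf 523 0)) (move 555 (branch (move 554 (leaf 522 1)) (move 556 (leaf 523 1)))))))) (branch (move 495 (branch (move 496 (leaf 492 2)) (move 523 (branch (move 494 (leaf 491 2)) (move 555 (branch (move 554 (leaf 522 1)) (move 556 (leaf 523 1)))))))) (ref 27))))))))) (branch (move 525 (branch (ref 1) (branch (ref 10) (branch (ref 28) (branch (ref 20) (branch (ref 26)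 (ref 29))))))) (branch (move 525 (branch (ref 0) (branch (ref 5) (branch (ref 10) (branch (ref 30) (branch (ref 24) (move 528 (branch (move 557 (branch (move 556 (leaf 524 1)) (move 529 (branch (move 558 (leaf 525 1)) (move 497 (branch (move 496 (leaf 493 2)) (move 498 (leaf 494 2)))))))) (branch (move 493 (branch (move 492 (leaf 492 3)) (move 529 (branch (move 494 (leaf 493 3)) (move 497 (branch (move 496 (leaf 493 2)) (move 498 (leaf 494 2)))))))) (branch (move 493 (branch (move 492 (leaf 492 3)) (move 557 (branch (move 556 (leaf 524 1)) (move 494 (branch (move 529 (leaf 493 3)) (move 462 (branch (move 430 (leaf 429 5)) (move 589 (leaf 461 6)))))))))) (move 496 (branch (move 497 (leaf 493 2)) (ref 31))))))))))))) (branch (move 525 (branch (ref 0) (branch (ref 1) (branch (ref 2) (branch (ref 3) (move 528 (branch (move 557 (branch (move 556 (leaf 524 1)) (move 558 (branch (move 529 (leaf 525 1)) (move 493 (branch (move 492 (leaf 492 3)) (move 590 (branch (move 461 (leaf 461 4)) (move 622 (leaf 493 7)))))))))) (branch (move 557 (branch (move 556 (leaf 524 1)) (move 529 (branch (move 558 (leaf 525 1)) (move 497 (branch (move 496 (leaf 493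 2)) (move 498 (leaf 494 2)))))))) (move 496 (branch (move 497 (leaf 493 2)) (move 464 (branch (ref 32) (branch (move 432 (branch (move 559 (leaf 431 5)) (move 400 (branch (move 495 (leaf 399 5)) (move 401 (branch (move 369 (leaf 368 6)) (move 433 (leaf 400 6)))))))) (branch (move 559 (branch (move 432 (leaf 431 5)) (move 591 (branch (move 560 (leaf 463 5)) (move 495 (leaf 463 6)))))) (branch (ref 33) (move 432 (branch (move 559 (leaf 431 5)) (move 433 (branch (move 401 (leaf 400 6)) (move 431 (branch (move 399 (leaf 399 7)) (move 560 (branch (move 465 (leaf 432 6)) (move 463 (leaf 431 7))))))))))))))))))))))))) (branch (move 525 (branch (ref 4) (branch (ref 30) (branch (ref 34) (branch (ref 18) (branch (move 524 (branch (move 559 (branch (move 560 (leaf 524 0)) (move 523 (branch (move 558 (leaf 523 0)) (move 555 (branch (move 554 (leaf 522 1)) (move 556 (leaf 523 1)))))))) (branch (move 495 (branch (move 496 (leaf 492 2)) (move 523 (branch (move 494 (leaf 491 2)) (move 555 (branch (move 554 (leaf 522 1)) (move 556 (leaf 523 1)))))))) (ref 27)))) (ref 29))))))) (branch (move 525 (branch (ref 7) (branch (ref 30) (branch (ref 35) (branch (move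 524 (branch (move 559 (branch (move 560 (leaf 524 0)) (move 523 (branch (move 558 (leaf 523 0)) (move 491 (branch (move 490 (leaf 490 3)) (move 492 (leaf 491 3)))))))) (branch (move 495 (branch (move 496 (leaf 492 2)) (move 523 (branch (move 494 (leaf 491 2)) (move 491 (branch (move 490 (leaf 490 3)) (move 492 (leaf 491 3)))))))) (ref 27)))) (branch (ref 19) (ref 25))))))) (branch (move 525 (branch (ref 0) (branch (ref 1) (branch (ref 2) (branch (ref 3) (move 493 (branch (ref 36) (branch (move 557 (branch (move 528 (branch (move 556 (leaf 524 1)) (move 529 (branch (move 494 (leaf 493 3)) (move 497 (branch (move 496 (leaf 493 2)) (move 498 (leaf 494 2)))))))) (branch (move 556 (branch (move 528 (leaf 524 1)) (move 588 (branch (move 461 (leaf 460 5)) (move 620 (branch (move 589 (leaf 492 5)) (move 652 (leaf 524 6)))))))) (branch (move 589 (branch (move 622 (branch (move 590 (leaf 493 4)) (move 621 (branch (move 654 (leaf 525 4)) (move 620 (branch (move 588 (leaf 492 5)) (move 652 (leaf 524 5)))))))) (branch (move 462 (branch (move 494 (leaf 461 6)) (move 461 (branch (move 430 (leaf 429 6)) (move 588 (branch (move 556 (leaf 460 5)) (move 620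 (leaf 492 5)))))))) (move 494 (branch (move 462 (leaf 461 6)) (move 621 (leaf 493 6))))))) (ref 37))))) (move 492 (branch (move 528 (leaf 492 3)) (move 491 (branch (move 490 (leaf 490 0)) (move 494 (leaf 491 0)))))))))))))) (branch (move 525 (branch (ref 1) (branch (ref 3) (branch (ref 6) (branch (move 524 (branch (move 555 (branch (move 556 (leaf 523 1)) (move 523 (branch (move 554 (leaf 522 1)) (move 491 (branch (move 490 (leaf 490 3)) (move 492 (leaf 491 3)))))))) (ref 27))) (ref 25)))))) (branch (move 525 (branch (ref 2) (branch (ref 3) (branch (ref 5) (branch (move 524 (branch (move 555 (branch (move 556 (leaf 523 1)) (move 523 (branch (move 554 (leaf 522 1)) (move 491 (branch (move 490 (leaf 490 3)) (move 492 (leaf 491 3)))))))) (ref 27))) (ref 29)))))) (move 525 (branch (ref 6) (branch (ref 38) (branch (move 524 (branch (move 559 (branch (move 560 (leaf 524 0)) (move 523 (branch (move 558 (leaf 523 0)) (move 491 (branch (move 490 (leaf 490 3)) (move 492 (leaf 491 3)))))))) (branch (move 495 (branch (move 496 (leaf 492 2)) (move 523 (branch (move 494 (leaf 491 2)) (move 491 (branch (move 490 (leaf 490 3)) (move 492 (leaf 491 3))))))))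 (ref 27)))) (move 528 (branch (move 557 (branch (move 556 (leaf 524 1)) (move 529 (branch (move 558 (leaf 525 1)) (move 497 (branch (move 496 (leaf 493 2)) (move 498 (leaf 494 2)))))))) (branch (ref 39) (branch (move 496 (branch (move 497 (leaf 493 2)) (ref 31))) (branch (ref 40) (ref 41)))))))))))))))))))))))))))))))
theorem a4p111 : a4e111.Valid :=
  pos_of_chk [a4e0, a4e1, a4e2, a4e3, a4e9, a4e10, a4e11, a4e12, a4e13, a4e14, a4e15, a4e39, a4e47, a4e71, a4e81, a4e82, a4e42, a4e4, a4e83, a4e85, a4e86, a4e94, a4e95, a4e72, a4e41, a4e100, a4e102, a4e101, a4e46, a4e104, a4e74, a4e98, a4e96, a4e103, a4e43, a4e44, a4e105, a4e75, a4e73, a4e84, a4e99, a4e110] (forall_cons a4p0 (forall_cons a4p1 (forall_cons a4p2 (forall_cons a4p3 (forall_cons a4p9 (forall_cons a4p10 (forall_cons a4p11 (forall_cons a4p12 (forall_cons a4p13 (forall_cons a4p14 (forall_cons a4p15 (forall_cons a4p39 (forall_cons a4p47 (forall_cons a4p71 (forall_cons a4p81 (forall_cons a4p82 (forall_cons a4p42 (forall_cons a4p4 (forall_cons a4p83 (forall_cons a4p85 (forall_cons a4p86 (forall_cons a4p94 (forall_cons a4p95 (forall_cons a4p72 (forall_cons a4p41 (forall_cons a4p100 (forall_cons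 a4p102 (forall_cons a4p101 (forall_cons a4p46 (forall_cons a4p104 (forall_cons a4p74 (forall_cons a4p98 (forall_cons a4p96 (forall_cons a4p103 (forall_cons a4p43 (forall_cons a4p44 (forall_cons a4p105 (forall_cons a4p75 (forall_cons a4p73 (forall_cons a4p84 (forall_cons a4p99 (forall_cons a4p110 forall_nil)))))))))))))))))))))))))))))))))))))))))) a4c111 a4e111 (by decide +kernel)

end Crest.Agent.SN
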