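import Crest.Agent.Lib_SN_Check

set_option autoImplicit false
set_option linter.all false
set_option maxRecDepth 1000000

namespace Crest.Agent.SN
open Cert

def a5e0 : Pos := ⟨219673525175326239139706567948419895260313287626407871360895778083114828594879019660120542517667552527642048594904294154828562879507017294794859084857162596352, 1415235909417914769678246087601219214473052431120795965945302558218762067140728582993222258637247807597815211193895036807048990310837576708863954275088849547740525363200, 6⟩
def a5c0 : Cert := (move 430 (branch (move 525 (branch (move 557 (leaf 429 5)) (move 398 (branch (move 493 (leaf 397 5)) (move 397 (branch (move 365 (leaf 365 7)) (move 429 (leaf 397 7)))))))) (branch (move 431 (branch (move 399 (leaf 398 6)) (move 463 (branch (move 558 (leaf 430 6)) (move 429 (branch (move 397 (leaf 397 7)) (move 464 (branch (move 428 (leaf 428 0)) (move 465 (leaf 429 3)))))))))) (move 525 (branch (move 557 (leaf 429 5)) (move 398 (branch (move 493 (leaf 397 5)) (move 399 (branch (move 367 (leaf 366 6)) (move 431 (leaf 398 6)))))))))))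
theorem a5p0 : a5e0.Valid :=
  pos_of_chk [] forall_nil a5c0 a5e0 (by decide +kernel)

def a5e1 : Pos := ⟨219673525175326239139706567956737904342675732205143113913325029193424139821006469385631981259511416451058925464024217373140981613799190927679069800344085069824, 749492833734513203550384625364369548575799236813906799164174354661747965186197801345782960888217494865816238799888450508171648238477291552768, 10⟩
def a5c1 : Cert := (move 432 (branch (move 433 (branch (move 461 (leaf 429 1)) (move 434 (branch (move 463 (leaf 430 1)) (move 466 (branch (move 465 (leaf 430 0)) (move 467 (leaf 431 0)))))))) (branch (move 429 (branch (move 397 (leaf 397 7)) (move 460 (branch (move 461 (leaf 428 1)) (move 428 (branch (move 459 (leaf 427 1)) (move 463 (branch (move 427 (leaf 427 0)) (move 464 (leaf 428 0)))))))))) (branch (move 429 (branch (move 397 (leaf 397 7)) (move 461 (branch (move 460 (leaf 428 1)) (move 433 (leaf 429 1)))))) (move 429 (branch (move 397 (leaf 397 7)) (move 464 (branch (move 465 (leaf 429 0)) (move 428 (branch (move 463 (leaf 428 0)) (move 401 (branch (move 400 (leaf 397 2)) (move 433 (branch (move 402 (leaf 398 2)) (move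 459 (branch (move 460 (leaf 427 1)) (move 427 (branch (move 458 (leaf 426 1)) (move 395 (branch (move 394 (leaf 394 3)) (move 396 (leaf 395 3))))))))))))))))))))))
theorem a5p1 : a5e1.Valid :=
  pos_of_chk [] forall_nil a5c1 a5e1 (by decide +kernel)

def a5e2 : Pos := ⟨219673525175326239139706567948419895260313287626407871360895778083114828594879019660120542517667552527642048594904294154828562879507017294794859084857162596352, 8702164880388304092948466114644470716425149070583533183283289347833188086686746387359949934144118106034476768789029384320159413210208526806362165011952038869553145574057526652351427903488, 7⟩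
def a5c2 : Cert := (move 430 (branch (move 429 (branch (move 397 (leaf 397 7)) (move 558 (branch (move 461 (leaf 429 7)) (move 557 (branch (move 525 (leaf 429 5)) (move 589 (leaf 461 5)))))))) (branch (move 525 (branch (move 557 (leaf 429 5)) (move 398 (branch (move 493 (leaf 397 5)) (move 367 (branch (move 399 (leaf 366 6)) (move 366 (branch (move 335 (leaf 334 6)) (move 365 (branch (move 333 (leaf 333 7)) (move 397 (leaf 365 7)))))))))))) (branch (move 558 (branch (move 557 (branch (move 525 (leaf 429 5)) (move 589 (leaf 461 5)))) (branch (move 461 (branch (move 429 (leaf 429 7)) (move 493 (branch (move 590 (leaf 461 7)) (move 398 (branch (move 366 (leaf 365 5)) (move 525 (leaf 397 5)))))))) (move 461 (branch (move 429 (leaf 429 7)) (move 590 (branch (move 493 (leaf 461 7)) (move 589 (branch (move 557 (leaf 461 5)) (move 621 (leaf 493 5))))))))))) (move 398 (branch (move 397 (branch (move 365 (leaf 365 7)) (move 429 (leaf 397 7)))) (branch (move 367 (branch (move 399 (leaf 366 6)) (move 366 (branch (move 335 (leaf 334 6)) (move 461 (branch (move 493 (leaf 365 5)) (move 429 (branch (move 334 (leaf 333 5)) (move 558 (leaf 429 7))))))))))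 (move 367 (branch (move 399 (leaf 366 6)) (move 366 (branch (move 335 (leaf 334 6)) (move 365 (branch (move 333 (leaf 333 7)) (move 397 (leaf 365 7)))))))))))))))
theorem a5p2 : a5e2.Valid :=
  pos_of_chk [] forall_nil a5c2 a5e2 (by decide +kernel)

def a5e3 : Pos := ⟨219673525175326239139706567948419895260313287626407871360895778083114828594879019660120542517667552527642048594904294154828562879507017294794859084857162596352, 2026130650282908252441551421845622504107878572873127543877063304779703244415948217791001497758833026395008459955386238617186273523304124432922485591208557305631756198539236999168, 5⟩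
def a5c3 : Cert := (move 430 (branch (move 397 (branch (move 429 (leaf 397 7)) (move 398 (branch (move 365 (leaf 365 7)) (move 399 (branch (move 367 (leaf 366 6)) (move 431 (leaf 398 6)))))))) (branch (move 429 (branch (move 397 (leaf 397 7)) (move 558 (branch (move 461 (leaf 429 7)) (move 557 (branch (move 525 (leaf 429 5)) (move 589 (leaf 461 5)))))))) (move 431 (branch (move 399 (leaf 398 6)) (move 558 (branch (move 463 (leaf 430 6)) (move 557 (branch (move 525 (leaf 429 5)) (move 589 (leaf 461 5)))))))))))
theorem a5p3 : a5e3.Valid :=
  pos_of_chk [] forall_nil a5c3 a5e3 (by decide +kernel)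

def a5e4 : Pos := ⟨219673525200899603263895176307897939766778906003100387345607221750953042408130064944532062477693100123938174822645596374575125934266527111559588718086291718144, 18687756774131594055748390943599530815974863975059975459548032515631782600979925624854096767461463036892018207964350559625278342142962958391796295481107744196237419035301613222857379056812025708544, 9⟩
def a5c4 : Cert := (move 525 (branch (move 557 (branch (move 589 (leaf 461 6)) (move 556 (branch (move 588 (branch (move 461 (leaf 460 5)) (move 620 (branch (move 524 (leaf 492 6)) (move 652 (leaf 524 6)))))) (branch (move 527 (branch (move 528 (leaf 524 1)) (move 555 (branch (move 524 (leaf 523 1)) (move 554 (leaf 522 2)))))) (move 527 (branch (move 528 (leaf 524 1)) (move 491 (branch (move 492 (leaf 491 0)) (move 461 (branch (move 588 (leaf 460 5)) (move 460 (branch (move 428 (leaf 428 7)) (move 459 (branch (move 458 (leaf 458 0)) (move 490 (leaf 458 1))))))))))))))))) (branch (move 430 (branch (move 398 (leaf 397 5)) (move 557 (leaf 429 5)))) (move 524 (branch (move 523 (branch (move 522 (leaf 490 2)) (move 491 (branch (move 490 (leaf 490 3)) (move 492 (branch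 (move 527 (leaf 491 0)) (move 463 (leaf 459 2)))))))) (branch (move 523 (branch (move 522 (leaf 490 2)) (move 491 (branch (move 490 (leaf 490 3)) (move 492 (branch (move 463 (leaf 459 2)) (move 459 (branch (move 458 (leaf 458 3)) (move 556 (branch (move 427 (leaf 427 4)) (move 588 (leaf 459 7)))))))))))) (branch (move 523 (branch (move 522 (leaf 490 2)) (move 555 (branch (move 554 (leaf 522 1)) (move 491 (branch (move 490 (leaf 490 3)) (move 556 (branch (move 527 (leaf 523 1)) (move 588 (branch (move 459 (leaf 459 4)) (move 620 (leaf 492 6)))))))))))) (branch (move 430 (branch (move 398 (leaf 397 5)) (move 523 (branch (move 522 (leaf 490 2)) (move 555 (branch (move 554 (leaf 522 1)) (move 527 (branch (move 556 (leaf 523 1)) (move 528 (branch (move 492 (leaf 492 3)) (move 529 (leaf 493 3)))))))))))) (move 492 (branch (move 491 (branch (move 490 (leaf 490 0)) (move 463 (leaf 459 2)))) (move 527 (branch (move 528 (leaf 492 3)) (move 556 (branch (move 555 (leaf 523 1)) (move 588 (branch (move 461 (leaf 460 6)) (move 620 (leaf 492 6))))))))))))))))))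
theorem a5p4 : a5e4.Valid :=
  pos_of_chk [] forall_nil a5c4 a5e4 (by decide +kernel)

def a5e5 : Pos := ⟨219673525175326239139706567948419895260313287626407871360895778083114828594879019660120542517667552527642048594904294154828562879507017294794859084857162596352, 168189810993290841112508471027847693847512902883000823444765784360076409325995329748864830298726110618234685388179579108271410931554025356586289076083780392534312897838230130126553131679488835321856, 10⟩
def a5c5 : Cert := (move 493 (branch (move 463 (branch (move 431 (branch (move 558 (leaf 430 6)) (move 399 (branch (move 367 (leaf 366 5)) (move 430 (leaf 398 6)))))) (move 492 (branch (move 491 (leaf 459 2)) (move 464 (branch (move 461 (leaf 460 1)) (move 465 (leaf 461 1)))))))) (branch (move 558 (branch (move 589 (branch (move 557 (leaf 461 5)) (move 590 (branch (move 621 (leaf 493 5)) (move 622 (branch (move 525 (leaf 493 7)) (move 623 (branch (move 591 (leaf 494 4)) (move 655 (leaf 526 4)))))))))) (move 463 (branch (move 431 (leaf 430 6)) (move 492 (branch (move 491 (leaf 459 2)) (move 464 (branch (move 461 (leaf 460 1)) (move 465 (leaf 461 1)))))))))) (branch (move 431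 (branch (move 430 (branch (move 399 (leaf 398 6)) (move 525 (branch (move 398 (leaf 397 5)) (move 557 (leaf 429 5)))))) (branch (move 558 (branch (move 463 (leaf 430 6)) (move 589 (branch (move 557 (leaf 461 5)) (move 590 (branch (move 621 (leaf 493 5)) (move 622 (branch (move 525 (leaf 493 7)) (move 623 (branch (move 591 (leaf 494 4)) (move 655 (leaf 526 4)))))))))))) (move 463 (branch (move 558 (leaf 430 6)) (move 399 (branch (move 367 (leaf 366 5)) (move 430 (leaf 398 6))))))))) (branch (move 558 (branch (move 589 (branch (move 557 (leaf 461 5)) (move 590 (branch (move 621 (leaf 493 5)) (move 622 (branch (move 525 (leaf 493 7)) (move 623 (branch (move 591 (leaf 494 4)) (move 655 (leaf 526 4)))))))))) (branch (move 590 (branch (move 461 (leaf 461 7)) (move 622 (branch (move 525 (leaf 493 7)) (move 623 (branch (move 591 (leaf 494 4)) (move 655 (leaf 526 4)))))))) (branch (move 557 (branch (move 589 (leaf 461 5)) (move 430 (branch (move 525 (leaf 429 5)) (move 399 (branch (move 431 (leaf 398 6)) (move 398 (branch (move 367 (leaf 366 6)) (move 366 (branch (move 461 (leaf 365 5)) (move 365 (branch (move 333 (leaf 333 7)) (move 397 (leaf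 365 7)))))))))))))) (move 590 (branch (move 461 (leaf 461 7)) (move 589 (branch (move 557 (leaf 461 5)) (move 621 (leaf 493 5)))))))))) (ref 0))))))
theorem a5p5 : a5e5.Valid :=
  pos_of_chk [a5e4] (forall_cons a5p4 forall_nil) a5c5 a5e5 (by decide +kernel)

def a5e6 : Pos := ⟨219673525175326239139706567948419895260313287626407871360895778083114828594879019660120542517667552527642048594904294154828562879507017294794859084857162596352, 160526608585248391811749478705240570676262431331303492603582431483586257528935018329031834943847745387102981535697591180453721137676834287353629050097301422623965882353819728563977404040228540823750353879040, 8⟩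
def a5c6 : Cert := (move 558 (branch (move 557 (branch (move 589 (leaf 461 5)) (move 430 (branch (move 525 (leaf 429 5)) (move 429 (branch (move 397 (leaf 397 7)) (move 461 (leaf 429 7)))))))) (branch (move 590 (branch (move 589 (branch (move 557 (leaf 461 5)) (move 621 (leaf 493 5)))) (branch (move 623 (branch (move 591 (leaf 494 4)) (move 622 (branch (move 655 (leaf 526 4)) (move 621 (branch (move 589 (leaf 493 5)) (move 653 (leaf 525 5)))))))) (branch (move 623 (branch (move 591 (leaf 494 4)) (move 622 (branch (move 655 (leaf 526 4)) (move 653 (branch (move 621 (leaf 525 5)) (move 654 (branch (move 685 (leaf 557 5)) (move 525 (branch (move 493 (leaf 493 7)) (move 557 (leaf 525 7)))))))))))) (move 557 (branch (move 589 (leaf 461 5)) (move 623 (branch (move 591 (leaf 494 4)) (move 622 (branch (move 655 (leaf 526 4)) (move 525 (branch (move 493 (leaf 493 7)) (move 654 (leaf 525 7)))))))))))))) (move 461 (branch (move 429 (leaf 429 7)) (move 493 (branch (move 590 (leaf 461 7)) (move 463 (branch (move 431 (leaf 430 6)) (move 492 (branch (move 464 (leaf 460 1)) (move 491 (leaf 459 2)))))))))))))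
theorem a5p6 : a5e6.Valid :=
  pos_of_chk [] forall_nil a5c6 a5e6 (by decide +kernel)

def a5e7 : Pos := ⟨83359679612014563063320848879059464035950420374507133697563547963629158675149381030434199224260115807032732077979455414841216391582557667328, 11321887277100706361283621568521712051007592916506648072237134086315587366079958366435646758409106602785608787702300857616516210075604581652027229842428768268680706392064, 8⟩
def a5c7 : Cert := (move 433 (branch (move 434 (branch (move 465 (leaf 430 2)) (move 432 (branch (move 431 (leaf 430 1)) (move 435 (leaf 431 1)))))) (branch (move 432 (branch (move 461 (leaf 429 2)) (move 434 (branch (move 431 (leaf 430 1)) (move 435 (leaf 431 1)))))) (branch (move 465 (branch (move 434 (leaf 430 2)) (move 497 (branch (move 498 (leaf 462 0)) (move 496 (branch (move 461 (leaf 461 0)) (move 528 (branch (move 401 (leaf 400 5)) (move 560 (leaf 432 6)))))))))) (move 496 (branch (move 432 (branch (move 461 (leaf 429 2)) (move 528 (branch (move 401 (leaf 400 6)) (move 431 (branch (move 399 (leaf 399 7)) (move 560 (leaf 431 7)))))))) (branch (move 497 (branch (move 461 (leaf 461 0)) (move 498 (branch (move 465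 (leaf 462 0)) (move 499 (leaf 463 3)))))) (move 528 (branch (move 432 (branch (move 401 (leaf 400 6)) (move 399 (branch (move 431 (leaf 399 7)) (move 400 (branch (move 367 (leaf 367 7)) (move 529 (branch (move 497 (leaf 400 4)) (move 561 (leaf 432 4)))))))))) (branch (move 465 (branch (move 560 (leaf 432 6)) (move 401 (branch (move 369 (leaf 368 5)) (move 497 (leaf 400 5)))))) (move 560 (branch (move 465 (leaf 432 6)) (move 431 (leaf 431 7))))))))))))))
theorem a5p7 : a5e7.Valid :=
  pos_of_chk [] forall_nil a5c7 a5e7 (by decide +kernel)

def a5e8 : Pos := ⟨219673525175326239163523619266138341849833530163282003942595898190116866794182890506871730710567375679194676944692898671123629187501147413320920911023607644160, 11321887277100706361328374955980189760231004852094533854319088557663378296719078136302032832707560365740905831469186943929585192442318441166292174010364137138613884289024, 9⟩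
def a5c8 : Cert := (move 464 (branch (move 465 (branch (move 493 (leaf 461 1)) (move 498 (branch (move 497 (leaf 462 0)) (move 466 (branch (move 499 (leaf 463 0)) (move 434 (branch (move 433 (leaf 430 2)) (move 435 (leaf 431 2)))))))))) (branch (move 461 (branch (move 432 (branch (move 433 (leaf 429 2)) (move 460 (branch (move 431 (leaf 428 2)) (move 428 (branch (move 427 (leaf 427 3)) (move 429 (leaf 428 3)))))))) (branch (move 492 (branch (move 493 (leaf 460 1)) (move 460 (branch (move 491 (leaf 459 1)) (move 432 (branch (move 431 (leaf 428 2)) (move 433 (leaf 429 2)))))))) (move 493 (branch (move 492 (leaf 460 1)) (move 429 (branch (move 428 (leaf 428 3)) (move 397 (leaf 397 4))))))))) (branch (move 493 (branch (move 465 (leaf 461 1)) (move 492 (branch (move 461 (leaf 460 1)) (move 491 (leaf 459 2)))))) (ref 0)))))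
theorem a5p8 : a5e8.Valid :=
  pos_of_chk [a5e7] (forall_cons a5p7 forall_nil) a5c8 a5e8 (by decide +kernel)

def a5e9 : Pos := ⟨219673525124179511058048710453492932374023748631141767463373731496452668363504025018555819947915219395918194587941921329400900925946908490947832601564019687424, 69617319043106432758683578622153442794823599649399701593433590779336678811478172302625998030508399545254688473128274318242836442059354705243693125685872526010986152590617139192239975563264, 9⟩
def a5c9 : Cert := (move 497 (branch (move 498 (leaf 462 0)) (move 529 (branch (move 561 (branch (move 432 (leaf 432 7)) (move 593 (branch (move 496 (leaf 464 7)) (move 592 (branch (move 560 (leaf 464 5)) (move 624 (leaf 496 5)))))))) (branch (move 433 (branch (move 434 (leaf 430 2)) (move 432 (branch (move 400 (leaf 400 7)) (move 528 (branch (move 560 (leaf 432 5)) (move 401 (branch (move 496 (leaf 400 5)) (move 369 (branch (move 337 (leaf 336 5)) (move 370 (branch (move 338 (leaf 337 6)) (move 402 (leaf 369 6)))))))))))))) (branch (move 433 (branch (move 434 (leaf 430 2)) (move 528 (branch (move 560 (leaf 432 5)) (move 496 (branch (move 401 (leaf 400 5)) (move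 561 (branch (move 593 (leaf 464 7)) (move 562 (branch (move 527 (leaf 526 0)) (move 530 (leaf 433 4)))))))))))) (move 433 (branch (move 434 (leaf 430 2)) (move 432 (branch (move 400 (leaf 400 7)) (move 561 (leaf 432 7))))))))))))
theorem a5p9 : a5e9.Valid :=
  pos_of_chk [] forall_nil a5c9 a5e9 (by decide +kernel)

def a5e10 : Pos := ⟨219673525175326239211157721901575235028874015237030269105996138404120943192790632200374107096367021982299933644270107703713761803489407650373044563356497739776, 69617319043106432759627069228358828144340855423712288440898715169581195786746984667101897967933884977059409126668568328135218258236660165346454196399582988388448552240426307673111494918144, 10⟩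
def a5c10 : Cert := (move 465 (branch (move 498 (branch (move 497 (leaf 462 0)) (move 466 (branch (move 499 (leaf 463 0)) (move 434 (branch (move 433 (leaf 430 2)) (move 435 (leaf 431 2)))))))) (branch (move 431 (branch (move 558 (leaf 430 6)) (move 434 (branch (move 433 (leaf 430 2)) (move 466 (branch (move 435 (leaf 431 2)) (move 399 (branch (move 367 (leaf 366 5)) (move 467 (branch (move 432 (leaf 431 3)) (move 499 (branch (move 498 (leaf 463 0)) (move 500 (leaf 464 0)))))))))))))) (branch (move 466 (branch (move 498 (branch (move 497 (leaf 462 0)) (move 499 (leaf 463 0)))) (branch (move 431 (branch (move 558 (leaf 430 6)) (move 467 (branch (move 432 (leaf 431 3)) (move 399 (branch (move 367 (leaf 366 5)) (move 500 (branch (move 499 (leaf 464 0)) (move 468 (branch (move 501 (leaf 465 0)) (move 436 (branch (move 435 (leaf 432 2)) (move 437 (leaf 433 2)))))))))))))) (move 431 (branch (move 558 (leaf 430 6)) (move 467 (branch (move 432 (leaf 431 3)) (move 497 (branch (move 498 (leaf 462 0)) (move 468 (branch (move 496 (leaf 464 1)) (move 436 (branch (move 435 (leaf 432 2)) (move 437 (leaf 433 2))))))))))))))) (branch (ref 0) (move 496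 (branch (move 433 (branch (move 434 (leaf 430 2)) (move 401 (branch (move 369 (leaf 368 5)) (move 528 (branch (move 432 (leaf 400 6)) (move 560 (leaf 432 6)))))))) (branch (move 431 (branch (move 558 (leaf 430 6)) (move 399 (branch (move 367 (leaf 367 4)) (move 528 (branch (move 432 (leaf 399 7)) (move 560 (leaf 431 7)))))))) (branch (move 431 (branch (move 558 (leaf 430 6)) (move 399 (branch (move 367 (leaf 367 4)) (move 434 (branch (move 433 (leaf 430 2)) (move 466 (branch (move 435 (leaf 431 2)) (move 467 (branch (move 432 (leaf 431 3)) (move 468 (branch (move 497 (leaf 464 1)) (move 500 (branch (move 499 (leaf 464 0)) (move 501 (leaf 465 0)))))))))))))))) (move 431 (branch (move 558 (leaf 430 6)) (move 399 (branch (move 367 (leaf 367 4)) (move 433 (branch (move 434 (leaf 430 2)) (move 528 (branch (move 560 (leaf 432 6)) (move 401 (branch (move 369 (leaf 368 5)) (move 497 (leaf 400 5)))))))))))))))))))))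
theorem a5p10 : a5e10.Valid :=
  pos_of_chk [a5e9] (forall_cons a5p9 forall_nil) a5c10 a5e10 (by decide +kernel)

def a5e11 : Pos := ⟨219673525175326239163523619266138341849833530163282003942595898190116866794182890506871730710567375679194676944692898671123629187501147413320920911023607644160, 530832057395714690983473819268876214857628541176270584206088945761394581030203082795471464529758544678341783710004694435600779034029941373992855266796168119033132741376411290915797515370496, 15⟩
def a5c11 : Cert := (move 464 (branch (ref 0) (branch (move 461 (branch (move 497 (branch (move 496 (leaf 461 0)) (move 465 (branch (move 498 (leaf 462 0)) (move 433 (branch (move 432 (leaf 429 2)) (move 434 (leaf 430 2)))))))) (move 429 (branch (move 428 (leaf 428 3)) (move 558 (leaf 429 7)))))) (branch (move 461 (branch (move 432 (branch (move 433 (leaf 429 2)) (move 460 (branch (move 431 (leaf 428 2)) (move 428 (branch (move 427 (leaf 427 3)) (move 429 (leaf 428 3)))))))) (branch (move 429 (branch (move 428 (leaf 428 3)) (move 558 (leaf 429 7)))) (move 431 (branch (move 558 (leaf 430 6)) (move 432 (branch (move 460 (leaf 428 2)) (move 433 (leaf 429 2)))))))))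 (branch (ref 1) (branch (move 558 (branch (move 431 (leaf 430 6)) (move 461 (branch (move 429 (leaf 429 7)) (move 589 (branch (move 557 (leaf 461 5)) (move 590 (branch (move 621 (leaf 493 5)) (move 591 (branch (move 623 (leaf 494 4)) (move 497 (branch (move 496 (leaf 461 0)) (move 465 (branch (move 498 (leaf 462 0)) (move 434 (branch (move 433 (leaf 430 2)) (move 466 (branch (move 435 (leaf 431 2)) (move 561 (branch (move 529 (leaf 433 6)) (move 592 (branch (move 560 (leaf 557 2)) (move 593 (branch (move 562 (leaf 558 2)) (move 625 (branch (move 624 (leaf 589 0)) (move 626 (leaf 590 0)))))))))))))))))))))))))))) (move 431 (branch (move 558 (leaf 430 6)) (move 496 (branch (move 497 (branch (move 461 (leaf 461 0)) (move 498 (branch (move 465 (leaf 462 0)) (move 499 (leaf 463 3)))))) (move 399 (branch (move 367 (leaf 367 4)) (move 528 (branch (move 432 (leaf 399 7)) (move 560 (leaf 431 7))))))))))))))))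
theorem a5p11 : a5e11.Valid :=
  pos_of_chk [a5e7, a5e10] (forall_cons a5p7 (forall_cons a5p10 forall_nil)) a5c11 a5e11 (by decide +kernel)

def a5e12 : Pos := ⟨219673525175326239139706567948419895260313287626407871360895778083114828594879019660120542517667552527642048594904294154828562879507017294794859084857162596352, 160526608585248392299070711715222786391596242408927942937934268028135143516725803764173928280413330817891032089453307022588003512343475838588897955632620231908962865525786511816943270779399000693402140409856, 16⟩
def a5c12 : Cert := (move 463 (branch (ref 0) (branch (move 558 (branch (move 431 (leaf 430 6)) (move 590 (branch (move 623 (branch (move 591 (leaf 494 4)) (move 622 (branch (move 655 (leaf 526 4)) (move 621 (branch (move 589 (leaf 493 5)) (move 653 (leaf 525 5)))))))) (branch (move 589 (branch (move 557 (leaf 461 5)) (move 621 (leaf 493 5)))) (branch (move 623 (branch (move 591 (leaf 494 4)) (move 622 (branch (move 655 (leaf 526 4)) (move 653 (branch (move 621 (leaf 525 5)) (move 654 (branch (move 685 (leaf 557 5)) (move 525 (branch (move 493 (leaf 493 7)) (move 557 (leaf 525 7)))))))))))) (move 557 (branch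 (move 589 (leaf 461 5)) (move 623 (branch (move 591 (leaf 494 4)) (move 622 (branch (move 655 (leaf 526 4)) (move 525 (branch (move 493 (leaf 493 7)) (move 654 (leaf 525 7)))))))))))))))) (branch (move 464 (branch (move 465 (branch (move 493 (leaf 461 1)) (move 498 (branch (move 497 (leaf 462 0)) (move 466 (branch (move 499 (leaf 463 0)) (move 434 (branch (move 433 (leaf 430 2)) (move 435 (leaf 431 2)))))))))) (branch (move 493 (branch (move 465 (leaf 461 1)) (move 492 (branch (move 461 (leaf 460 1)) (move 491 (leaf 459 2)))))) (branch (move 461 (branch (move 493 (branch (move 492 (leaf 460 1)) (move 429 (branch (move 428 (leaf 428 3)) (move 397 (leaf 397 4)))))) (branch (move 429 (branch (move 428 (leaf 428 3)) (move 558 (leaf 429 7)))) (branch (move 493 (branch (move 492 (leaf 460 1)) (move 558 (branch (move 429 (leaf 429 7)) (move 590 (leaf 461 7)))))) (move 497 (branch (move 496 (leaf 461 0)) (move 460 (branch (move 491 (branch (move 492 (leaf 459 1)) (move 459 (branch (move 490 (leaf 458 1)) (move 427 (branch (move 426 (leaf 426 3)) (move 428 (leaf 427 3)))))))) (branch (move 427 (branch (move 428 (leaf 427 3)) (move 459 (branch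 (move 426 (leaf 426 3)) (move 458 (branch (move 493 (leaf 458 0)) (move 490 (branch (move 489 (leaf 457 1)) (move 491 (leaf 458 1)))))))))) (branch (move 492 (branch (move 491 (leaf 459 1)) (move 493 (leaf 460 1)))) (move 493 (branch (move 492 (leaf 460 1)) (move 428 (branch (move 427 (leaf 427 3)) (move 557 (branch (move 525 (leaf 428 7)) (move 558 (branch (move 589 (leaf 461 5)) (move 590 (leaf 461 7)))))))))))))))))))) (move 461 (branch (move 497 (branch (move 496 (leaf 461 0)) (move 465 (branch (move 498 (leaf 462 0)) (move 433 (branch (move 432 (leaf 429 2)) (move 434 (leaf 430 2)))))))) (move 429 (branch (move 428 (leaf 428 3)) (move 558 (leaf 429 7)))))))))) (ref 1)))))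
theorem a5p12 : a5e12.Valid :=
  pos_of_chk [a5e8, a5e11] (forall_cons a5p8 (forall_cons a5p11 forall_nil)) a5c12 a5e12 (by decide +kernel)

def a5e13 : Pos := ⟨219673525175326239127798042289560671965553166357970805070045718029613809495227084236744948421217640951865734420009991896681029725509952235531828171773940072448, 160526608603936149073202305768945046685856355575591211477448119782908506637602454582001008293911990562760916234363080372184748025909993162473584528915725900322504949358309027977183762044977070220467240960000, 17⟩
def a5c13 : Cert := (move 462 (branch (ref 0) (branch (move 430 (branch (move 525 (branch (move 557 (leaf 429 5)) (move 398 (branch (move 493 (leaf 397 5)) (move 397 (branch (move 365 (leaf 365 7)) (move 429 (leaf 397 7)))))))) (branch (move 525 (branch (move 557 (leaf 429 5)) (move 398 (branch (move 493 (leaf 397 5)) (move 399 (branch (move 367 (leaf 366 6)) (move 431 (leaf 398 6)))))))) (move 431 (branch (move 399 (leaf 398 6)) (ref 1)))))) (branch (ref 2) (branch (ref 3) (branch (move 431 (branch (move 558 (branch (move 463 (leaf 430 6)) (move 461 (branch (move 429 (leaf 429 7)) (move 590 (branch (move 493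 (leaf 461 7)) (move 589 (branch (move 557 (leaf 461 5)) (move 621 (leaf 493 5)))))))))) (branch (move 430 (branch (move 399 (leaf 398 6)) (move 429 (branch (move 397 (leaf 397 7)) (move 461 (branch (move 558 (leaf 429 7)) (move 460 (branch (move 432 (leaf 428 1)) (move 459 (leaf 427 2)))))))))) (branch (move 463 (branch (move 558 (leaf 430 6)) (move 399 (branch (move 367 (leaf 366 5)) (move 430 (leaf 398 6)))))) (move 430 (branch (move 399 (leaf 398 6)) (ref 1))))))) (branch (ref 4) (branch (move 430 (branch (move 431 (branch (move 399 (leaf 398 6)) (move 463 (branch (move 558 (leaf 430 6)) (move 429 (branch (move 397 (leaf 397 7)) (move 464 (branch (move 428 (leaf 428 0)) (move 465 (leaf 429 3)))))))))) (branch (move 397 (branch (move 429 (leaf 397 7)) (move 398 (branch (move 365 (leaf 365 7)) (move 493 (branch (move 525 (leaf 397 5)) (move 366 (branch (move 461 (leaf 365 5)) (move 367 (branch (move 335 (leaf 334 6)) (move 399 (leaf 366 6)))))))))))) (branch (move 399 (branch (move 431 (leaf 398 6)) (move 398 (branch (move 367 (leaf 366 6)) (move 493 (branch (move 525 (leaf 397 5)) (move 366 (branch (move 461 (leaf 365 5)) (move 365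 (branch (move 333 (leaf 333 7)) (move 397 (leaf 365 7)))))))))))) (branch (move 397 (branch (move 429 (leaf 397 7)) (move 398 (branch (move 365 (leaf 365 7)) (move 493 (branch (move 525 (leaf 397 5)) (move 461 (branch (move 366 (leaf 365 5)) (move 558 (branch (move 590 (leaf 461 7)) (move 463 (branch (move 431 (leaf 430 6)) (move 492 (branch (move 464 (leaf 460 1)) (move 491 (leaf 459 2)))))))))))))))) (move 431 (branch (move 399 (leaf 398 6)) (move 558 (branch (move 463 (leaf 430 6)) (move 461 (branch (move 429 (leaf 429 7)) (move 493 (branch (move 590 (leaf 461 7)) (move 398 (branch (move 366 (leaf 365 5)) (move 525 (leaf 397 5))))))))))))))))) (branch (move 430 (branch (move 525 (branch (move 557 (leaf 429 5)) (move 398 (branch (move 493 (leaf 397 5)) (move 399 (branch (move 367 (leaf 366 6)) (move 431 (leaf 398 6)))))))) (branch (move 558 (branch (move 557 (branch (move 525 (leaf 429 5)) (move 589 (leaf 461 5)))) (branch (move 461 (branch (move 429 (leaf 429 7)) (move 493 (branch (move 590 (leaf 461 7)) (move 398 (branch (move 366 (leaf 365 5)) (move 525 (leaf 397 5)))))))) (move 461 (branch (move 429 (leaf 429 7)) (move 590 (branch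 (move 493 (leaf 461 7)) (move 589 (branch (move 557 (leaf 461 5)) (move 621 (leaf 493 5))))))))))) (branch (move 431 (branch (move 399 (leaf 398 6)) (move 558 (branch (move 463 (leaf 430 6)) (move 557 (branch (move 525 (leaf 429 5)) (move 589 (leaf 461 5)))))))) (branch (move 431 (branch (move 399 (leaf 398 6)) (move 558 (branch (move 463 (leaf 430 6)) (move 461 (branch (move 429 (leaf 429 7)) (move 493 (branch (move 590 (leaf 461 7)) (move 398 (branch (move 366 (leaf 365 5)) (move 525 (leaf 397 5)))))))))))) (move 431 (branch (move 399 (leaf 398 6)) (move 558 (branch (move 463 (leaf 430 6)) (move 461 (branch (move 429 (leaf 429 7)) (move 590 (branch (move 493 (leaf 461 7)) (move 589 (branch (move 557 (leaf 461 5)) (move 621 (leaf 493 5))))))))))))))))) (branch (ref 5) (ref 6)))))))))))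
theorem a5p13 : a5e13.Valid :=
  pos_of_chk [a5e0, a5e1, a5e2, a5e3, a5e5, a5e6, a5e12] (forall_cons a5p0 (forall_cons a5p1 (forall_cons a5p2 (forall_cons a5p3 (forall_cons a5p5 (forall_cons a5p6 (forall_cons a5p12 forall_nil))))))) a5c13 a5e13 (by decide +kernel)

def a5e14 : Pos := ⟨384428669018460872287363661467514109180019613561410134895512841050066845896770829487686379797092550271320845893405532489571957437503151687033604850760701444096, 8702164877855640782320878949501916396110065004876654741006535649697474934251680814935966765018895545796020908833256850490634461618198191397307155170819397294625554374818472633008465641472, 10⟩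
def a5c14 : Cert := (move 523 (branch (move 490 (branch (move 491 (leaf 490 3)) (move 522 (branch (move 489 (leaf 489 3)) (move 557 (branch (move 558 (leaf 522 0)) (move 589 (branch (move 621 (leaf 493 6)) (move 553 (branch (move 554 (leaf 521 1)) (move 521 (branch (move 556 (leaf 521 0)) (move 552 (leaf 520 1)))))))))))))) (branch (move 554 (branch (move 555 (leaf 522 1)) (move 522 (branch (move 553 (leaf 521 1)) (move 557 (branch (move 558 (leaf 522 0)) (move 589 (branch (move 621 (leaf 493 6)) (move 521 (branch (move 556 (leaf 521 0)) (move 489 (branch (move 488 (leaf 488 3)) (move 490 (leaf 489 3)))))))))))))) (branch (move 554 (branch (move 555 (leaf 522 1)) (move 522 (branch (move 553 (leaf 521 1)) (move 557 (branch (move 558 (leaf 522 0)) (move 556 (branch (move 521 (leaf 521 0)) (move 589 (branch (move 621 (leaf 493 6)) (move 492 (branch (move 460 (leaf 460 4)) (move 491 (branch (move 527 (leaf 491 3)) (move 459 (branch (move 427 (leaf 427 4)) (move 588 (leaf 459 7)))))))))))))))))) (branch (move 491 (branch (move 490 (leaf 490 3)) (move 527 (branch (move 492 (leaf 491 3)) (move 556 (branch (move 555 (leaf 523 1)) (move 557 (branch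 (move 528 (leaf 524 1)) (move 522 (branch (move 521 (leaf 521 0)) (move 558 (leaf 522 0)))))))))))) (move 491 (branch (move 490 (leaf 490 3)) (move 555 (branch (move 554 (leaf 522 1)) (move 492 (branch (move 527 (leaf 491 3)) (move 460 (branch (move 428 (leaf 427 5)) (move 587 (leaf 459 6)))))))))))))))
theorem a5p14 : a5e14.Valid :=
  pos_of_chk [] forall_nil a5c14 a5e14 (by decide +kernel)

def a5e15 : Pos := ⟨823775719266819894046205312608723275085263472770581681096758502437941609634220816823530196799425641789867809822460307403947764669485016891038342661392065101824, 26417736979901648172339005522941052788970654384390233706271717730641027410987227169770316514212453285866109808415724061545082416459308668465855369894921676174796869599232, 6⟩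
def a5c15 : Cert := (move 528 (branch (move 561 (branch (move 560 (leaf 525 0)) (move 529 (branch (move 562 (leaf 526 0)) (move 530 (branch (move 495 (leaf 494 3)) (move 498 (branch (move 497 (leaf 494 2)) (move 499 (leaf 495 2)))))))))) (branch (move 561 (branch (move 560 (leaf 525 0)) (move 529 (branch (move 562 (leaf 526 0)) (move 497 (branch (move 496 (leaf 493 2)) (move 498 (leaf 494 2)))))))) (branch (move 496 (branch (move 495 (leaf 492 2)) (move 497 (leaf 493 2)))) (move 495 (branch (move 496 (leaf 492 2)) (move 529 (branch (move 530 (leaf 494 3)) (move 561 (branch (move 560 (leaf 525 0)) (move 562 (leaf 526 0))))))))))))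
theorem a5p15 : a5e15.Valid :=
  pos_of_chk [] forall_nil a5c15 a5e15 (by decide +kernel)

def a5e16 : Pos := ⟨329510287762989358697651326263770619595709810171174740750493607071171223792666594066805219680051417215686758717462138974095311165263460882929257714202521370624, 26106494630780992700980882907302571257504852882266340577877986654866308301404793408417341463572481413685827582258365958540215796636001563233586891179057456407783915505489417265303988994048, 9⟩
def a5c16 : Cert := (move 557 (branch (move 589 (branch (move 621 (leaf 493 6)) (move 460 (branch (move 428 (leaf 428 7)) (move 492 (leaf 460 7)))))) (branch (move 558 (branch (move 590 (leaf 461 4)) (move 556 (branch (move 588 (leaf 460 5)) (move 555 (branch (move 554 (leaf 522 2)) (move 523 (branch (move 522 (leaf 522 3)) (move 460 (branch (move 428 (leaf 428 7)) (move 587 (branch (move 586 (leaf 554 1)) (move 492 (branch (move 524 (leaf 459 5)) (move 491 (leaf 459 6)))))))))))))))) (move 590 (branch (move 558 (leaf 461 4)) (move 589 (branch (move 622 (leaf 493 4)) (move 621 (leaf 493 6)))))))))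
theorem a5p16 : a5e16.Valid :=
  pos_of_chk [] forall_nil a5c16 a5e16 (by decide +kernel)

def a5e17 : Pos := ⟨329510287865282815188451496872253185974192223043726271543914351715773569495844807492763502471928651812983106540980196724007796807302967620356660790577426595840, 6526623657252032095702223116807588650807603537802841375985019297147445557332779333345872615514266524895717950709014480668855811790122507782124271592562304291030386588496309967418854211584, 9⟩
def a5c17 : Cert := (move 492 (branch (move 491 (branch (move 490 (leaf 490 0)) (move 459 (branch (move 458 (leaf 458 3)) (move 460 (leaf 459 3)))))) (branch (move 524 (branch (move 523 (leaf 491 1)) (move 460 (branch (move 459 (leaf 459 3)) (move 428 (branch (move 396 (leaf 396 4)) (move 429 (branch (move 397 (leaf 396 6)) (move 556 (branch (move 461 (leaf 428 5)) (move 588 (branch (move 620 (leaf 492 6)) (move 587 (branch (move 555 (leaf 459 5)) (move 619 (leaf 491 5)))))))))))))))) (move 523 (branch (move 524 (leaf 491 1)) (move 491 (branch (move 490 (leaf 490 0)) (move 522 (leaf 490 1)))))))))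
theorem a5p17 : a5e17.Valid :=
  pos_of_chk [] forall_nil a5c17 a5e17 (by decide +kernel)

def a5e18 : Pos := ⟨329510287762989358691697063434341007948329749536956207605068577044420714242840626355117422631826461427798601630014987845021544588264928353297742257660910108672, 2026130653113380073680060142935112240200270437739005344273092226706433138629873271156228479548471889577344944215366561097693801996007148577730235882486218494411775576143199993856, 7⟩
def a5c18 : Cert := (move 495 (branch (move 496 (branch (move 497 (leaf 493 1)) (move 464 (branch (move 465 (leaf 461 2)) (move 463 (branch (move 492 (leaf 460 2)) (move 528 (branch (move 529 (leaf 493 0)) (move 431 (branch (move 399 (leaf 399 4)) (move 560 (leaf 431 7)))))))))))) (branch (move 524 (branch (move 496 (leaf 492 1)) (move 523 (leaf 491 2)))) (move 492 (branch (move 491 (branch (move 490 (leaf 490 0)) (move 459 (branch (move 458 (leaf 458 3)) (move 460 (leaf 459 3)))))) (branch (move 523 (branch (move 524 (leaf 491 1)) (move 491 (branch (move 490 (leaf 490 0)) (move 522 (leaf 490 1)))))) (move 524 (branch (move 523 (leaf 491 1)) (move 460 (branch (move 459 (leaf 459 3)) (move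 557 (branch (move 428 (leaf 428 4)) (move 589 (leaf 460 7))))))))))))))
theorem a5p18 : a5e18.Valid :=
  pos_of_chk [] forall_nil a5c18 a5e18 (by decide +kernel)

def a5e19 : Pos := ⟨329510287762989358697651326263770619595709810171174740750493607071171223792666594066805219680051417215686758717462138974095311165263460882929257714202521370624, 26106494629008128382808892466845925934493260284250629543174225550156222587939221271782727257862545019001234660460625870512808185239796576856035941555017131901629795438834083883337721577472, 6⟩
def a5c19 : Cert := (move 557 (branch (move 589 (branch (move 621 (leaf 493 6)) (move 460 (branch (move 428 (leaf 428 7)) (move 492 (leaf 460 7)))))) (branch (move 590 (branch (move 558 (leaf 461 4)) (move 589 (branch (move 622 (leaf 493 4)) (move 621 (leaf 493 6)))))) (move 558 (branch (move 590 (leaf 461 4)) (move 460 (branch (move 428 (leaf 428 7)) (move 495 (branch (move 496 (leaf 460 3)) (move 459 (branch (move 458 (leaf 458 0)) (move 492 (leaf 459 3)))))))))))))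
theorem a5p19 : a5e19.Valid :=
  pos_of_chk [] forall_nil a5c19 a5e19 (by decide +kernel)

def a5e20 : Pos := ⟨329510287762989358697651326263770619595709810171174740750493607071171223792666594066805219680051417215686758717462138974095311165263460882929257714202521370624, 30457577067176149780120612366746530508304223881295384432333038263485750762205305510237298527445207643224304594651282847787500804977896567615528989100241872572479250902936350885398804692992, 8⟩
def a5c20 : Cert := (move 557 (branch (move 590 (branch (move 558 (leaf 461 4)) (move 589 (branch (move 622 (leaf 493 4)) (move 621 (leaf 493 6)))))) (branch (move 589 (branch (move 621 (leaf 493 6)) (move 588 (branch (move 556 (leaf 460 5)) (move 620 (leaf 492 5)))))) (move 558 (branch (move 590 (leaf 461 4)) (move 460 (branch (move 428 (leaf 428 7)) (move 495 (branch (move 496 (leaf 460 3)) (move 523 (branch (move 524 (leaf 491 2)) (move 556 (branch (move 588 (leaf 460 5)) (move 555 (branch (move 554 (leaf 522 2)) (move 522 (leaf 522 3)))))))))))))))))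
theorem a5p20 : a5e20.Valid :=
  pos_of_chk [] forall_nil a5c20 a5e20 (by decide +kernel)

def a5e21 : Pos := ⟨329510287737415994567508455074862963441864131160263691620357133376582500429589581070705902671800913831502475402273685625274981533505418536533012624431780986880, 32633118286513426813452505216876929404607426054729327337010929673245214956226751210298152693174380859229040264811273265275043555414539495918556497402311241024165954563510440877037518323712, 14⟩
def a5c21 : Cert := (move 493 (branch (move 461 (branch (move 429 (branch (move 397 (leaf 397 4)) (move 428 (branch (move 396 (leaf 396 7)) (move 460 (branch (move 557 (leaf 428 7)) (move 459 (branch (move 458 (leaf 458 0)) (move 430 (branch (move 431 (leaf 427 1)) (move 398 (leaf 397 6)))))))))))) (branch (move 558 (branch (move 429 (leaf 429 4)) (move 590 (leaf 461 7)))) (ref 0)))) (branch (move 495 (branch (move 524 (branch (move 496 (leaf 492 1)) (move 523 (leaf 491 2)))) (branch (move 496 (branch (move 497 (leaf 493 1)) (move 461 (branch (move 460 (leaf 460 3)) (move 429 (branch (move 397 (leaf 397 4)) (move 558 (leaf 429 4)))))))) (ref 1)))) (branch (ref 2) (branch (move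 461 (branch (move 429 (branch (move 397 (leaf 397 4)) (move 428 (branch (move 396 (leaf 396 7)) (move 460 (branch (move 557 (leaf 428 7)) (move 459 (branch (move 458 (leaf 458 0)) (move 430 (branch (move 431 (leaf 427 1)) (move 398 (leaf 397 6)))))))))))) (branch (move 558 (branch (move 429 (leaf 429 4)) (move 590 (leaf 461 7)))) (ref 3)))) (branch (move 461 (branch (move 558 (branch (move 429 (leaf 429 4)) (move 590 (leaf 461 7)))) (branch (move 429 (branch (move 397 (leaf 397 4)) (move 524 (branch (move 556 (leaf 428 5)) (move 523 (branch (move 522 (leaf 490 2)) (move 495 (leaf 491 2)))))))) (move 557 (branch (move 590 (branch (move 558 (leaf 461 4)) (move 589 (branch (move 622 (leaf 493 4)) (move 621 (leaf 493 6)))))) (branch (move 589 (branch (move 621 (leaf 493 6)) (move 588 (branch (move 556 (leaf 460 5)) (move 620 (leaf 492 5)))))) (move 558 (branch (move 590 (leaf 461 4)) (move 556 (branch (move 588 (leaf 460 5)) (move 555 (branch (move 554 (leaf 522 2)) (move 523 (branch (move 522 (leaf 522 3)) (move 495 (branch (move 524 (leaf 491 2)) (move 496 (branch (move 497 (leaf 493 1)) (move 464 (branch (move 465 (leaf 461 2)) (move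 463 (branch (move 492 (leaf 460 2)) (move 528 (branch (move 529 (leaf 493 0)) (move 431 (branch (move 399 (leaf 399 4)) (move 560 (leaf 431 7)))))))))))))))))))))))))))) (move 461 (branch (move 429 (branch (move 397 (leaf 397 4)) (move 428 (branch (move 396 (leaf 396 7)) (move 460 (branch (move 557 (leaf 428 7)) (move 459 (branch (move 458 (leaf 458 0)) (move 430 (branch (move 431 (leaf 427 1)) (move 398 (leaf 397 6)))))))))))) (branch (move 558 (branch (move 429 (leaf 429 4)) (move 590 (leaf 461 7)))) (ref 4))))))))))
theorem a5p21 : a5e21.Valid :=
  pos_of_chk [a5e16, a5e17, a5e18, a5e19, a5e20] (forall_cons a5p16 (forall_cons a5p17 (forall_cons a5p18 (forall_cons a5p19 (forall_cons a5p20 forall_nil))))) a5c21 a5e21 (by decide +kernel)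

def a5e22 : Pos := ⟨823775719266819894046205312608723275085263472770581681096758502437941609634220816823530196799425641789867809822460307403947764669485016891038342661392065101824, 13053247314504064191522382559198636134389098584230908689629999931950729222967623712877493680941786384253085777629191999864244355082220535586785202110955826112173082283899386491152120152064, 8⟩
def a5c22 : Cert := (move 492 (branch (move 491 (leaf 491 3)) (move 589 (branch (move 556 (branch (move 555 (leaf 523 1)) (move 460 (branch (move 557 (leaf 460 4)) (move 461 (branch (move 429 (leaf 428 6)) (move 493 (branch (move 588 (leaf 460 6)) (move 459 (branch (move 458 (leaf 458 0)) (move 427 (leaf 427 7)))))))))))) (branch (move 556 (branch (move 555 (leaf 523 1)) (move 588 (branch (move 621 (leaf 492 4)) (move 493 (branch (move 461 (leaf 460 6)) (move 620 (leaf 492 6)))))))) (branch (move 557 (branch (move 621 (leaf 493 6)) (move 460 (branch (move 428 (leaf 428 4)) (move 493 (leaf 460 7)))))) (move 557 (branch (move 621 (leaf 493 6)) (move 556 (branch (move 555 (leaf 523 1)) (move 460 (leaf 460 4))))))))))))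
theorem a5p22 : a5e22.Valid :=
  pos_of_chk [] forall_nil a5c22 a5e22 (by decide +kernel)

def a5e23 : Pos := ⟨384428669018460872287363661467514109180019613561410134895512841050066845896770829487686379797092550271320845893405532489571957437503151687033604850760701444096, 13053247314504064217940119536024854953250602194415244552167683128564593865160049533149423292800891668560181301150755209432285286319979266142075643226867556230508728210786282931948663865344, 9⟩
def a5c23 : Cert := (move 527 (branch (move 492 (branch (move 491 (leaf 491 3)) (move 528 (branch (move 493 (leaf 492 3)) (move 561 (branch (move 560 (leaf 525 0)) (move 529 (branch (move 562 (leaf 526 0)) (move 497 (branch (move 496 (leaf 493 2)) (move 498 (leaf 494 2)))))))))))) (branch (move 556 (branch (move 555 (leaf 523 1)) (move 528 (branch (move 557 (leaf 524 1)) (move 529 (branch (move 493 (leaf 493 3)) (move 561 (branch (move 560 (leaf 525 0)) (move 562 (leaf 526 0)))))))))) (branch (move 556 (branch (move 555 (leaf 523 1)) (move 528 (branch (move 557 (leaf 524 1)) (move 492 (branch (move 491 (leaf 491 3)) (move 561 (branch (move 560 (leaf 525 0)) (move 529 (branch (move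 562 (leaf 526 0)) (move 497 (branch (move 496 (leaf 493 2)) (move 498 (leaf 494 2)))))))))))))) (ref 0)))))
theorem a5p23 : a5e23.Valid :=
  pos_of_chk [a5e22] (forall_cons a5p22 forall_nil) a5c23 a5e23 (by decide +kernel)

def a5e24 : Pos := ⟨384428669018460872287363661467514109180019613561410134895512841050066845896770829487686379797092550271320845893405532489571957437503151687033604850760701444096, 4351082438168021397341203981728951534642213279242049027582541399042009665422026786037599227938897313132076668208322969350841892332010269481598675794154929470496106823697091348924481929216, 6⟩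
def a5c24 : Cert := (move 523 (branch (move 555 (branch (move 554 (leaf 522 1)) (move 491 (branch (move 490 (leaf 490 3)) (move 556 (branch (move 527 (leaf 523 1)) (move 588 (branch (move 459 (leaf 459 4)) (move 620 (leaf 491 7)))))))))) (branch (move 522 (branch (move 493 (leaf 490 2)) (move 554 (branch (move 553 (leaf 521 1)) (move 555 (leaf 522 1)))))) (move 522 (branch (move 493 (leaf 490 2)) (move 490 (branch (move 489 (leaf 489 3)) (move 491 (leaf 490 3)))))))))
theorem a5p24 : a5e24.Valid :=
  pos_of_chk [] forall_nil a5c24 a5e24 (by decide +kernel)

def a5e25 : Pos := ⟨329510287737415994567508455074862963441864131160263691620357133376582500429589581070705902671800913831502475402273685625274981533505418536533012624431780986880, 13053247315010596880245489866208626157863396595417839314695337997914352515651535804480959735803201508528881415617238734597660564433712507353739171292018367078828073200318766755056623550464, 10⟩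
def a5c25 : Cert := (move 524 (branch (move 523 (branch (move 495 (leaf 491 2)) (move 491 (branch (move 490 (leaf 490 3)) (move 555 (branch (move 554 (leaf 522 1)) (move 492 (branch (move 527 (leaf 491 3)) (move 460 (branch (move 428 (leaf 427 5)) (move 587 (leaf 459 6)))))))))))) (branch (move 523 (branch (move 495 (leaf 491 2)) (move 522 (branch (move 493 (leaf 490 2)) (move 554 (branch (move 553 (leaf 521 1)) (move 555 (leaf 522 1)))))))) (branch (ref 0) (branch (move 523 (branch (move 495 (leaf 491 2)) (move 522 (branch (move 493 (leaf 490 2)) (move 490 (branch (move 489 (leaf 489 3)) (move 491 (leaf 490 3)))))))) (move 527 (branch (move 556 (branch (move 555 (leaf 523 1)) (move 528 (branch (move 557 (leaf 524 1)) (move 529 (branch (move 493 (leaf 493 3)) (move 561 (branch (move 560 (leaf 525 0)) (move 562 (leaf 526 0)))))))))) (branch (move 556 (branch (move 555 (leaf 523 1)) (move 557 (branch (move 528 (leaf 524 1)) (move 589 (branch (move 621 (leaf 493 6)) (move 492 (branch (move 491 (leaf 491 3)) (move 460 (leaf 460 4)))))))))) (branch (ref 1) (branch (move 492 (branch (move 491 (leaf 491 3)) (move 493 (branch (move 528 (leaf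 492 3)) (move 556 (branch (move 555 (leaf 523 1)) (move 461 (branch (move 429 (leaf 428 5)) (move 588 (leaf 460 6)))))))))) (move 492 (branch (move 491 (leaf 491 3)) (move 493 (branch (move 528 (leaf 492 3)) (move 495 (branch (move 496 (leaf 492 1)) (move 460 (branch (move 459 (leaf 459 3)) (move 557 (branch (move 428 (leaf 428 4)) (move 589 (leaf 460 7))))))))))))))))))))))
theorem a5p25 : a5e25.Valid :=
  pos_of_chk [a5e24, a5e22] (forall_cons a5p24 (forall_cons a5p22 forall_nil)) a5c25 a5e25 (by decide +kernel)

def a5e26 : Pos := ⟨329510287762989358691697063434341007948329749536956207605068577044420714242840626355117422631826461427798601630014987845021544588264928353297742257660910108672, 2026130649339417649201758673700088144967050849600038056978132259930790791123136679705483104336283055282798211307103213519585145172545441143876560228654306240063281622195143442432, 7⟩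
def a5c26 : Cert := (move 492 (branch (move 527 (branch (move 491 (leaf 491 0)) (move 528 (leaf 492 3)))) (branch (move 491 (branch (move 490 (leaf 490 0)) (move 459 (branch (move 458 (leaf 458 3)) (move 495 (branch (move 460 (leaf 459 3)) (move 496 (branch (move 497 (leaf 493 1)) (move 464 (branch (move 463 (leaf 460 2)) (move 465 (leaf 461 2)))))))))))) (move 495 (branch (move 496 (branch (move 497 (leaf 493 1)) (move 460 (branch (move 459 (leaf 459 3)) (move 461 (leaf 460 3)))))) (branch (move 528 (branch (move 527 (leaf 492 0)) (move 496 (branch (move 529 (leaf 493 0)) (move 497 (leaf 493 1)))))) (move 527 (branch (move 528 (leaf 492 0)) (move 460 (branch (move 459 (leaf 459 3)) (move 557 (branch (move 589 (leaf 460 7)) (move 428 (branch (move 396 (leaf 396 4)) (move 461 (leaf 428 7))))))))))))))))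
theorem a5p26 : a5e26.Valid :=
  pos_of_chk [] forall_nil a5c26 a5e26 (by decide +kernel)

def a5e27 : Pos := ⟨329510287865282815188451496872253185974192223043726271543914351715773569495844807492763502471928651812983106540980196724007796807302967620356660790577426595840, 52679396882824858802359991704154020579633707721090817868337606143482176663465523225599643789279409075402575313204689886312794187786101232458799896650182145135760039140084343111680, 8⟩
def a5c27 : Cert := (move 463 (branch (move 496 (branch (move 497 (leaf 493 1)) (move 464 (branch (move 465 (leaf 461 2)) (move 431 (branch (move 399 (leaf 398 5)) (move 528 (branch (move 529 (leaf 493 0)) (move 560 (leaf 431 7)))))))))) (branch (move 558 (branch (move 590 (leaf 462 6)) (move 431 (branch (move 399 (leaf 398 5)) (move 527 (leaf 430 5)))))) (move 558 (branch (move 590 (leaf 462 6)) (move 496 (branch (move 497 (leaf 493 1)) (move 528 (branch (move 529 (leaf 493 0)) (move 464 (branch (move 465 (leaf 461 2)) (move 560 (branch (move 592 (leaf 463 7)) (move 561 (branch (move 527 (leaf 525 0)) (move 593 (leaf 464 4)))))))))))))))))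
theorem a5p27 : a5e27.Valid :=
  pos_of_chk [] forall_nil a5c27 a5e27 (by decide +kernel)

def a5e28 : Pos := ⟨329510287762989358691697063434341007948329749536956207605068577044420714242840626355117422631826461427798601630014987845021544588264928353297742257660910108672, 130532473177458732301824036114466903821306339059789740205913409710687338746431909786986927671646838576440924918581129323249990576595021782467303402257187267520596175906774666906444962463744, 13⟩
def a5c28 : Cert := (move 495 (branch (move 496 (branch (move 497 (leaf 493 1)) (move 464 (branch (move 465 (leaf 461 2)) (move 463 (branch (move 492 (leaf 460 2)) (move 528 (branch (move 529 (leaf 493 0)) (move 431 (branch (move 399 (leaf 399 4)) (move 560 (leaf 431 7)))))))))))) (branch (move 463 (branch (move 492 (branch (move 464 (leaf 460 2)) (move 527 (branch (move 491 (leaf 491 0)) (move 528 (leaf 492 0)))))) (branch (move 558 (branch (move 590 (leaf 462 6)) (move 431 (branch (move 399 (leaf 398 5)) (move 527 (leaf 430 5)))))) (move 558 (branch (move 590 (leaf 462 6)) (move 429 (branch (move 461 (leaf 429 4)) (move 464 (branch (move 492 (leaf 460 2)) (move 431 (branch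 (move 399 (leaf 398 5)) (move 430 (branch (move 428 (leaf 428 0)) (move 465 (branch (move 432 (leaf 429 0)) (move 466 (leaf 462 1))))))))))))))))) (branch (move 496 (branch (move 497 (leaf 493 1)) (move 464 (branch (move 465 (leaf 461 2)) (move 463 (branch (move 492 (leaf 460 2)) (move 558 (branch (move 590 (leaf 462 6)) (move 431 (branch (move 399 (leaf 398 5)) (move 527 (leaf 430 5)))))))))))) (branch (ref 0) (branch (move 496 (branch (move 497 (leaf 493 1)) (move 528 (branch (move 529 (leaf 493 0)) (move 527 (branch (move 492 (leaf 492 0)) (move 560 (branch (move 561 (leaf 525 0)) (move 463 (branch (move 431 (leaf 431 4)) (move 592 (leaf 463 7)))))))))))) (move 496 (branch (move 497 (leaf 493 1)) (move 465 (branch (move 464 (leaf 461 2)) (move 528 (branch (move 529 (leaf 493 0)) (move 527 (branch (move 492 (leaf 492 0)) (move 557 (branch (move 556 (leaf 524 1)) (move 589 (branch (move 621 (leaf 493 6)) (move 590 (branch (move 622 (leaf 493 4)) (move 558 (branch (move 461 (leaf 461 4)) (move 591 (branch (move 623 (leaf 494 4)) (move 592 (branch (move 593 (leaf 557 3)) (move 560 (branch (move 561 (leaf 525 0)) (move 624 (leaf 495 7))))))))))))))))))))))))))))))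
theorem a5p28 : a5e28.Valid :=
  pos_of_chk [a5e27] (forall_cons a5p27 forall_nil) a5c28 a5e28 (by decide +kernel)

def a5e29 : Pos := ⟨329510287737415994567508455074862963441864131160263691620357133376582500429589581070705902671800913831502475402273685625274981533505418536533012624431780986880, 134883555615626753698840915199832218309773159385894289293903137285513421858005658159918198913245443519106033672148707125873431738811489134298542063906760268962323165722143005746432751697920, 14⟩
def a5c29 : Cert := (move 493 (branch (move 461 (branch (move 429 (branch (move 397 (leaf 397 4)) (move 558 (leaf 429 4)))) (move 557 (branch (move 589 (branch (move 621 (leaf 493 6)) (move 588 (branch (move 556 (leaf 460 5)) (move 620 (leaf 492 5)))))) (move 460 (branch (move 428 (leaf 428 7)) (move 495 (branch (move 496 (leaf 460 3)) (move 459 (branch (move 458 (leaf 458 0)) (move 492 (leaf 459 3)))))))))))) (branch (ref 0) (branch (move 492 (branch (move 527 (branch (move 491 (leaf 491 0)) (move 528 (leaf 492 3)))) (branch (move 491 (branch (move 490 (leaf 490 0)) (move 459 (branch (move 458 (leaf 458 3)) (move 495 (branch (move 460 (leaf 459 3)) (move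 496 (branch (move 497 (leaf 493 1)) (move 464 (branch (move 463 (leaf 460 2)) (move 465 (leaf 461 2)))))))))))) (move 495 (branch (move 528 (branch (move 527 (leaf 492 0)) (move 496 (branch (move 529 (leaf 493 0)) (move 497 (leaf 493 1)))))) (branch (move 463 (branch (move 464 (leaf 460 2)) (move 558 (branch (move 590 (leaf 462 6)) (move 431 (branch (move 399 (leaf 398 5)) (move 527 (leaf 430 5)))))))) (move 496 (branch (move 497 (leaf 493 1)) (move 464 (branch (move 463 (leaf 460 2)) (move 465 (leaf 461 2)))))))))))) (branch (move 461 (branch (move 429 (branch (move 397 (leaf 397 4)) (move 428 (branch (move 396 (leaf 396 7)) (move 460 (branch (move 557 (leaf 428 7)) (move 459 (branch (move 458 (leaf 458 0)) (move 430 (branch (move 431 (leaf 427 1)) (move 398 (leaf 397 6)))))))))))) (branch (move 558 (branch (move 429 (leaf 429 4)) (move 590 (leaf 461 7)))) (move 557 (branch (move 590 (branch (move 558 (leaf 461 4)) (move 589 (branch (move 622 (leaf 493 4)) (move 621 (leaf 493 6)))))) (branch (move 589 (branch (move 621 (leaf 493 6)) (move 588 (branch (move 556 (leaf 460 5)) (move 620 (leaf 492 5)))))) (move 558 (branch (move 590 (leaf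 461 4)) (move 556 (branch (move 588 (leaf 460 5)) (move 527 (branch (move 528 (leaf 524 1)) (move 555 (leaf 523 2)))))))))))))) (ref 1))))))
theorem a5p29 : a5e29.Valid :=
  pos_of_chk [a5e26, a5e28] (forall_cons a5p26 (forall_cons a5p28 forall_nil)) a5c29 a5e29 (by decide +kernel)

def a5e30 : Pos := ⟨384428669018460872287363661467514109180019613561410134895512841050066845896770829487686379797092550271320845893405532489571957437503151687033604850760701444096, 26830514117082263690273255693760434605972698525631806561451774966538039957482296363367575470639152315034407260554436048525800507008791452159116902930994455404698824343552, 7⟩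
def a5c30 : Cert := (move 527 (branch (move 492 (branch (move 491 (leaf 491 3)) (move 528 (branch (move 493 (leaf 492 3)) (move 561 (branch (move 560 (leaf 525 0)) (move 529 (branch (move 562 (leaf 526 0)) (move 497 (branch (move 496 (leaf 493 2)) (move 498 (leaf 494 2)))))))))))) (branch (move 555 (branch (move 556 (leaf 523 1)) (move 523 (branch (move 554 (leaf 522 1)) (move 491 (branch (move 490 (leaf 490 3)) (move 492 (leaf 491 3)))))))) (branch (move 555 (branch (move 556 (leaf 523 1)) (move 523 (branch (move 554 (leaf 522 1)) (move 522 (branch (move 493 (leaf 490 2)) (move 490 (branch (move 489 (leaf 489 3)) (move 491 (leaf 490 3)))))))))) (move 555 (branch (move 556 (leaf 523 1)) (move 523 (branch (move 554 (leaf 522 1)) (move 493 (branch (move 522 (leaf 490 2)) (move 528 (branch (move 492 (leaf 492 3)) (move 529 (leaf 493 3))))))))))))))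
theorem a5p30 : a5e30.Valid :=
  pos_of_chk [] forall_nil a5c30 a5e30 (by decide +kernel)

def a5e31 : Pos := ⟨329510287737415994567508455074862963441864131160263691620357133376582500429589581070705902671800913831502475402273685625274981533505418536533012624431780986880, 1013065352237324979813080431251412186868189886087129099130724743171463007847679692160468435484075730281406070962724096052699138884942982227324865417360294265599639913733621284864, 8⟩
def a5c31 : Cert := (move 524 (branch (move 495 (branch (move 523 (leaf 491 2)) (move 496 (branch (move 497 (leaf 493 1)) (move 527 (leaf 492 2)))))) (branch (ref 0) (branch (move 523 (branch (move 495 (leaf 491 2)) (move 522 (branch (move 493 (leaf 490 2)) (move 554 (branch (move 553 (leaf 521 1)) (move 555 (leaf 522 1)))))))) (move 527 (branch (ref 1) (branch (move 492 (branch (move 491 (leaf 491 3)) (move 493 (branch (move 528 (leaf 492 3)) (move 556 (branch (move 555 (leaf 523 1)) (move 461 (branch (move 429 (leaf 428 5)) (move 588 (leaf 460 6)))))))))) (move 492 (branch (move 491 (leaf 491 3)) (move 493 (branch (move 556 (branch (move 555 (leaf 523 1)) (move 461 (branch (move 429 (leaf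 428 5)) (move 588 (leaf 460 6)))))) (move 495 (branch (move 496 (leaf 492 1)) (move 463 (branch (move 464 (leaf 460 2)) (move 431 (branch (move 399 (leaf 398 5)) (move 558 (leaf 430 5)))))))))))))))))))
theorem a5p31 : a5e31.Valid :=
  pos_of_chk [a5e30, a5e15] (forall_cons a5p30 (forall_cons a5p15 forall_nil)) a5c31 a5e31 (by decide +kernel)

def a5e32 : Pos := ⟨384428669018460872287363661467514109180019613561410134895512841050066845896770829487686379797092550271320845893405532489571957437503151687033604850760701444096, 13053247314504064217940119539539631356771876215937294262866039126194481841434972861842075203974182607254843916902196943052482874246122551238991975726667797371934238848707963410747320434688, 9⟩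
def a5c32 : Cert := (move 527 (branch (move 556 (branch (move 555 (leaf 523 1)) (move 528 (branch (move 557 (leaf 524 1)) (move 529 (branch (move 493 (leaf 493 3)) (move 561 (branch (move 560 (leaf 525 0)) (move 562 (leaf 526 0)))))))))) (branch (move 556 (branch (move 555 (leaf 523 1)) (move 557 (branch (move 528 (leaf 524 1)) (move 589 (branch (move 621 (leaf 493 6)) (move 492 (branch (move 491 (leaf 491 3)) (move 460 (leaf 460 4)))))))))) (branch (ref 0) (move 492 (branch (move 491 (leaf 491 3)) (move 528 (branch (move 493 (leaf 492 3)) (move 561 (branch (move 560 (leaf 525 0)) (move 529 (branch (move 562 (leaf 526 0)) (move 530 (branch (move 495 (leaf 494 3)) (move 498 (branch (move 497 (leaf 494 2)) (move 499 (leaf 495 2))))))))))))))))))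
theorem a5p32 : a5e32.Valid :=
  pos_of_chk [a5e22] (forall_cons a5p22 forall_nil) a5c32 a5e32 (by decide +kernel)

def a5e33 : Pos := ⟨329510287737415994567508455074862963441864131160263691620357133376582500429589581070705902671800913831502475402273685625274981533505418536533012624431780986880, 13053247315010596881203722516657611844138410633577103236105417564558186013892740913956572374417560886846644888914687687544470454111901779221363573016763426592494268766877855905099341103104, 11⟩
def a5c33 : Cert := (move 524 (branch (ref 0) (branch (move 523 (branch (move 495 (leaf 491 2)) (move 490 (branch (move 491 (leaf 490 3)) (move 522 (branch (move 489 (leaf 489 3)) (move 557 (branch (move 558 (leaf 522 0)) (move 589 (branch (move 621 (leaf 493 6)) (move 553 (branch (move 554 (leaf 521 1)) (move 521 (branch (move 556 (leaf 521 0)) (move 552 (leaf 520 1)))))))))))))))) (branch (move 523 (branch (move 495 (leaf 491 2)) (move 522 (branch (move 493 (leaf 490 2)) (move 554 (branch (move 553 (leaf 521 1)) (move 555 (leaf 522 1)))))))) (ref 1)))))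
theorem a5p33 : a5e33.Valid :=
  pos_of_chk [a5e14, a5e32] (forall_cons a5p14 (forall_cons a5p32 forall_nil)) a5c33 a5e33 (by decide +kernel)

def a5e34 : Pos := ⟨384428669018460872287363661467514109180019613561410134895512841050066845896770829487686379797092550271320845893405532489571957437503151687033604850760701444096, 506532662423306656343873042007638534382070573978895187072883065451954297559598985534287555866652573308612258118522555663616464671352432604382969884342210047936390500235152982016, 6⟩
def a5c34 : Cert := (move 523 (branch (move 491 (branch (move 490 (leaf 490 3)) (move 555 (branch (move 554 (leaf 522 1)) (move 492 (branch (move 527 (leaf 491 3)) (move 460 (branch (move 428 (leaf 427 5)) (move 587 (leaf 459 6)))))))))) (branch (move 522 (branch (move 493 (leaf 490 2)) (move 554 (branch (move 553 (leaf 521 1)) (move 555 (leaf 522 1)))))) (move 522 (branch (move 493 (leaf 490 2)) (move 490 (branch (move 489 (leaf 489 3)) (move 491 (leaf 490 3)))))))))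
theorem a5p34 : a5e34.Valid :=
  pos_of_chk [] forall_nil a5c34 a5e34 (by decide +kernel)

def a5e35 : Pos := ⟨384428669018460872287363661467514109180019613561410134895512841050066845896770829487686379797092550271320845893405532489571957437503151687033604850760701444096, 7614394266983987193818500636242994080465300587221600940087479215274320612019479981049675263937707892715026292356978647152239440888475512441919456431036228401184132871242515370852470489088, 10⟩
def a5c35 : Cert := (move 523 (branch (move 522 (branch (move 493 (leaf 490 2)) (move 554 (branch (move 553 (leaf 521 1)) (move 555 (leaf 522 1)))))) (branch (move 522 (branch (move 493 (leaf 490 2)) (move 490 (branch (move 489 (leaf 489 3)) (move 491 (leaf 490 3)))))) (move 555 (branch (move 554 (leaf 522 1)) (move 460 (branch (move 492 (branch (move 428 (leaf 427 5)) (move 587 (branch (move 556 (leaf 459 5)) (move 619 (leaf 491 6)))))) (branch (move 491 (branch (move 490 (leaf 490 3)) (move 459 (branch (move 428 (leaf 427 6)) (move 556 (branch (move 427 (leaf 427 4)) (move 588 (leaf 459 4)))))))) (branch (move 491 (branch (move 490 (leaf 490 3)) (move 587 (branch (move 492 (leaf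 459 6)) (move 588 (branch (move 620 (leaf 491 4)) (move 556 (branch (move 459 (leaf 459 4)) (move 586 (branch (move 618 (leaf 490 5)) (move 585 (branch (move 584 (leaf 552 2)) (move 557 (leaf 553 2)))))))))))))) (move 492 (branch (move 428 (leaf 427 5)) (move 491 (branch (move 490 (leaf 490 3)) (move 587 (leaf 459 6)))))))))))))))
theorem a5p35 : a5e35.Valid :=
  pos_of_chk [] forall_nil a5c35 a5e35 (by decide +kernel)

def a5e36 : Pos := ⟨384428669018460872287363661467514109180019613561410134895512841050066845896770829487686379797092550271320845893405532489571957437503151687033604850760701444096, 13053247314504064192451131125169462960417161120062429913958063041039848429593317293922033733793913425519886868814232070835537582816853189743466163813541689811697923915911129119544815124480, 12⟩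
def a5c36 : Cert := (move 491 (branch (move 492 (branch (move 527 (leaf 491 3)) (move 490 (branch (move 489 (leaf 489 0)) (move 523 (leaf 490 3)))))) (branch (move 492 (branch (move 527 (leaf 491 3)) (move 490 (branch (move 489 (leaf 489 0)) (move 493 (leaf 490 0)))))) (branch (move 523 (branch (move 490 (leaf 490 3)) (move 522 (branch (move 493 (leaf 490 2)) (move 557 (branch (move 558 (leaf 522 0)) (move 521 (branch (move 556 (leaf 521 0)) (move 553 (branch (move 552 (leaf 520 1)) (move 554 (leaf 521 1)))))))))))) (move 492 (branch (move 527 (leaf 491 3)) (move 459 (branch (move 493 (branch (move 458 (leaf 458 3)) (move 523 (branch (move 522 (leaf 490 1)) (move 427 (branch (move 395 (leaf 395 4)) (move 428 (branch (move 396 (leaf 395 6)) (move 460 (branch (move 557 (leaf 428 4)) (move 429 (branch (move 397 (leaf 396 6)) (move 426 (branch (move 394 (leaf 394 7)) (move 425 (branch (move 424 (leaf 424 0)) (move 461 (leaf 425 0)))))))))))))))))) (branch (move 427 (branch (move 395 (leaf 395 4)) (move 556 (branch (move 523 (leaf 427 4)) (move 460 (leaf 427 7)))))) (branch (move 493 (branch (move 458 (leaf 458 3)) (move 523 (branch (move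 522 (leaf 490 1)) (move 556 (branch (move 427 (leaf 427 4)) (move 588 (leaf 459 7)))))))) (move 557 (branch (move 460 (branch (move 428 (leaf 428 4)) (move 458 (branch (move 493 (leaf 458 3)) (move 457 (branch (move 456 (leaf 456 0)) (move 425 (branch (move 424 (leaf 424 3)) (move 489 (branch (move 488 (leaf 456 1)) (move 426 (branch (move 461 (leaf 425 3)) (move 394 (branch (move 362 (leaf 362 4)) (move 521 (leaf 393 6)))))))))))))))) (branch (move 589 (branch (move 621 (leaf 493 6)) (move 556 (branch (move 460 (leaf 460 4)) (move 588 (leaf 459 7)))))) (move 589 (branch (move 621 (leaf 493 6)) (move 493 (branch (move 458 (leaf 458 3)) (move 588 (branch (move 620 (leaf 492 5)) (move 556 (leaf 459 7)))))))))))))))))))))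
theorem a5p36 : a5e36.Valid :=
  pos_of_chk [] forall_nil a5c36 a5e36 (by decide +kernel)

def a5e37 : Pos := ⟨384428669018460872287363661467514109180019613561410134895512841050066845896770829487686379797092550271320845893405532489571957437503151687033604850760701444096, 65407148761673568446424067289787916943805340793456186298266025752835539178272959190630846405660011806504320044071539067332126994321970618472838576349180577610360646977872442876595849548532667121664, 11⟩
def a5c37 : Cert := (move 523 (branch (move 554 (branch (move 555 (leaf 522 1)) (move 522 (branch (move 553 (leaf 521 1)) (move 557 (branch (move 558 (leaf 522 0)) (move 589 (branch (move 621 (leaf 493 6)) (move 521 (branch (move 556 (leaf 521 0)) (move 489 (branch (move 488 (leaf 488 3)) (move 490 (leaf 489 3)))))))))))))) (branch (move 522 (branch (move 493 (leaf 490 2)) (move 553 (branch (move 554 (leaf 521 1)) (move 521 (branch (move 552 (leaf 520 1)) (move 489 (branch (move 488 (leaf 488 3)) (move 490 (leaf 489 3)))))))))) (branch (move 522 (branch (move 493 (leaf 490 2)) (move 489 (branch (move 490 (leaf 489 3)) (move 521 (branch (move 488 (leaf 488 3)) (move 556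 (branch (move 557 (leaf 521 0)) (move 555 (branch (move 520 (leaf 520 0)) (move 527 (leaf 523 1)))))))))))) (move 555 (branch (move 554 (leaf 522 1)) (move 556 (branch (move 527 (leaf 523 1)) (move 588 (branch (move 620 (branch (move 652 (leaf 523 7)) (move 619 (branch (move 651 (leaf 523 5)) (move 587 (branch (move 492 (leaf 491 5)) (move 621 (branch (move 653 (leaf 524 4)) (move 586 (branch (move 585 (leaf 585 0)) (move 622 (leaf 586 3)))))))))))) (branch (move 493 (branch (move 620 (leaf 492 6)) (move 461 (branch (move 429 (leaf 428 5)) (move 557 (leaf 460 5)))))) (move 492 (branch (move 460 (branch (move 428 (leaf 427 5)) (move 589 (branch (move 557 (leaf 460 4)) (move 621 (leaf 492 4)))))) (branch (move 587 (branch (move 460 (leaf 459 5)) (move 619 (leaf 491 5)))) (move 587 (branch (move 619 (leaf 491 5)) (move 589 (branch (move 621 (leaf 492 4)) (move 493 (branch (move 461 (leaf 460 6)) (move 590 (branch (move 591 (leaf 555 3)) (move 622 (branch (move 623 (leaf 587 0)) (move 557 (leaf 493 4))))))))))))))))))))))))))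
theorem a5p37 : a5e37.Valid :=
  pos_of_chk [] forall_nil a5c37 a5e37 (by decide +kernel)

def a5e38 : Pos := ⟨329510287762989358691697063434341007948329749536956207605068577044420714242840626355117422631826461427798601630014987845021544588264928353297742257660910108672, 4351082452857468603047064377999584056362584474535270225210494200859963012342583781652870662683820317696628604372813033511057681921863525212530953286922426867211501002044701075798606479360, 9⟩
def a5c38 : Cert := (move 524 (branch (move 495 (branch (move 496 (leaf 492 1)) (move 523 (leaf 491 2)))) (move 556 (branch (move 555 (branch (move 527 (leaf 523 1)) (move 554 (branch (move 553 (leaf 521 2)) (move 557 (leaf 522 2)))))) (branch (move 461 (branch (move 429 (leaf 428 5)) (move 588 (branch (move 557 (leaf 460 5)) (move 620 (leaf 492 6)))))) (move 461 (branch (move 429 (leaf 428 5)) (move 590 (branch (move 558 (leaf 461 7)) (move 555 (branch (move 527 (leaf 523 1)) (move 588 (branch (move 620 (leaf 492 6)) (move 589 (branch (move 591 (leaf 555 3)) (move 554 (branch (move 553 (leaf 553 0)) (move 587 (leaf 554 3)))))))))))))))))))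
theorem a5p38 : a5e38.Valid :=
  pos_of_chk [] forall_nil a5c38 a5e38 (by decide +kernel)

def a5e39 : Pos := ⟨329510287762989358691697063434341007948329749536956207605068577044420714242840626355117422631826461427798601630014987845021544588264928353297742257660910108672, 6526623657252032095702223117233206106451755535774975335963801347469907050667896327728972484678910642738800743867433079989851969482388792277741884666698876414113187637766822802981017092096, 10⟩
def a5c39 : Cert := (move 492 (branch (move 491 (branch (move 490 (leaf 490 0)) (move 527 (leaf 491 0)))) (move 495 (branch (move 524 (branch (move 523 (leaf 491 1)) (move 460 (branch (move 459 (leaf 459 3)) (move 428 (branch (move 396 (leaf 396 4)) (move 429 (branch (move 397 (leaf 396 6)) (move 556 (branch (move 461 (leaf 428 5)) (move 588 (branch (move 620 (leaf 492 6)) (move 587 (branch (move 555 (leaf 459 5)) (move 619 (leaf 491 5)))))))))))))))) (move 496 (branch (move 497 (leaf 493 1)) (move 464 (branch (move 463 (leaf 460 2)) (move 465 (leaf 461 2))))))))))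
theorem a5p39 : a5e39.Valid :=
  pos_of_chk [] forall_nil a5c39 a5e39 (by decide +kernel)

def a5e40 : Pos := ⟨823775719266819894046205312608723275085263472770581681096758502437941609634220816823530196799425641789867809822460307403947764669485016891038342661392065101824, 186877568250392585738044925640070930019140601551549690236544230897755304960133271234936897278086659641589998324534512613380261268143508347724570812156247907107148690980034984745502549965778637029376, 12⟩
def a5c40 : Cert := (move 558 (branch (move 590 (branch (move 621 (branch (move 589 (leaf 493 5)) (move 622 (branch (move 653 (leaf 525 5)) (move 623 (branch (move 591 (leaf 494 4)) (move 655 (leaf 526 4)))))))) (branch (move 493 (branch (move 461 (leaf 461 7)) (move 556 (branch (move 555 (leaf 523 1)) (move 589 (branch (move 621 (leaf 493 5)) (move 588 (branch (move 620 (leaf 492 6)) (move 591 (branch (move 623 (leaf 494 4)) (move 592 (branch (move 557 (leaf 556 3)) (move 561 (branch (move 560 (leaf 557 2)) (move 593 (branch (move 562 (leaf 558 2)) (move 625 (branch (move 624 (leaf 589 0)) (move 626 (leaf 590 0)))))))))))))))))))) (move 493 (branch (move 461 (leaf 461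 7)) (move 622 (leaf 493 7))))))) (branch (move 495 (branch (move 496 (leaf 492 2)) (move 463 (branch (move 431 (leaf 430 5)) (move 590 (leaf 462 6)))))) (move 493 (branch (move 556 (branch (move 555 (leaf 523 1)) (move 461 (branch (move 429 (leaf 429 4)) (move 588 (branch (move 557 (leaf 460 5)) (move 492 (leaf 460 6)))))))) (branch (move 495 (branch (move 496 (leaf 492 1)) (move 463 (branch (move 431 (leaf 430 5)) (move 461 (branch (move 429 (leaf 429 4)) (move 492 (branch (move 464 (leaf 460 2)) (move 460 (branch (move 459 (leaf 459 3)) (move 428 (branch (move 396 (leaf 396 4)) (move 557 (leaf 428 4)))))))))))))) (branch (move 495 (branch (move 496 (leaf 492 1)) (move 556 (branch (move 555 (leaf 523 1)) (move 463 (branch (move 431 (leaf 430 5)) (move 492 (branch (move 464 (leaf 460 2)) (move 460 (branch (move 459 (leaf 459 3)) (move 557 (branch (move 428 (leaf 428 4)) (move 589 (leaf 460 4)))))))))))))) (branch (move 495 (branch (move 496 (leaf 492 1)) (move 461 (branch (move 429 (leaf 429 4)) (move 463 (branch (move 431 (leaf 430 5)) (move 556 (branch (move 555 (leaf 523 1)) (move 492 (branch (move 464 (leaf 460 2)) (move 588 (leaf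 460 6)))))))))))) (move 495 (branch (move 496 (leaf 492 1)) (move 556 (branch (move 555 (leaf 523 1)) (move 461 (branch (move 429 (leaf 429 4)) (move 588 (branch (move 557 (leaf 460 5)) (move 620 (leaf 492 6))))))))))))))))))
theorem a5p40 : a5e40.Valid :=
  pos_of_chk [] forall_nil a5c40 a5e40 (by decide +kernel)

def a5e41 : Pos := ⟨329510287737415994567508455074862963441864131160263691620357133376582500429589581070705902671800913831502475402273685625274981533505418536533012624431780986880, 214909203407238894380840194180708874155146674174638847129668655841662203466811274862318889627907987052272897061992351663212705184405668334727051860205909918660192201616315500605012199208834276786176, 14⟩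
def a5c41 : Cert := (move 524 (branch (move 495 (branch (move 523 (leaf 491 2)) (move 496 (branch (move 497 (leaf 493 1)) (move 527 (leaf 492 2)))))) (branch (move 523 (branch (move 495 (leaf 491 2)) (move 522 (branch (move 493 (leaf 490 2)) (move 554 (branch (move 553 (leaf 521 1)) (move 555 (leaf 522 1)))))))) (branch (ref 0) (move 527 (branch (move 556 (branch (move 555 (leaf 523 1)) (move 528 (branch (move 557 (leaf 524 1)) (move 529 (branch (move 493 (leaf 493 3)) (move 561 (branch (move 560 (leaf 525 0)) (move 562 (leaf 526 0)))))))))) (branch (ref 1) (branch (move 496 (branch (move 495 (leaf 492 2)) (move 528 (branch (move 497 (leaf 493 2)) (move 556 (branch (move 555 (leaf 523 1)) (move 557 (leaf 524 1)))))))) (ref 2)))))))))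
theorem a5p41 : a5e41.Valid :=
  pos_of_chk [a5e37, a5e15, a5e40] (forall_cons a5p37 (forall_cons a5p15 (forall_cons a5p40 forall_nil))) a5c41 a5e41 (by decide +kernel)

def a5e42 : Pos := ⟨384428669018460872287363661467514109180019613561410134895512841050066845896770829487686379797092550271320845893405532489571957437503151687033604850760701444096, 26106494629008128409226629447186921156805711164692157577356151711355616056872766876191839234757922026863458999251872306437653913108339309605292206240123431430433197362932966906432306806784, 9⟩
def a5c42 : Cert := (move 527 (branch (move 492 (branch (move 491 (leaf 491 3)) (move 528 (branch (move 493 (leaf 492 3)) (move 561 (branch (move 560 (leaf 525 0)) (move 529 (branch (move 562 (leaf 526 0)) (move 497 (branch (move 496 (leaf 493 2)) (move 498 (leaf 494 2)))))))))))) (branch (ref 0) (branch (move 492 (branch (move 491 (leaf 491 3)) (move 528 (branch (move 493 (leaf 492 3)) (move 561 (branch (move 560 (leaf 525 0)) (move 529 (branch (move 562 (leaf 526 0)) (move 530 (branch (move 495 (leaf 494 3)) (move 498 (branch (move 497 (leaf 494 2)) (move 499 (leaf 495 2)))))))))))))) (move 495 (branch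 (move 496 (leaf 492 2)) (move 558 (branch (move 463 (branch (move 431 (leaf 430 5)) (move 590 (leaf 462 6)))) (branch (move 492 (branch (move 491 (leaf 491 3)) (move 463 (branch (move 431 (leaf 430 5)) (move 493 (branch (move 464 (leaf 460 2)) (move 460 (branch (move 459 (leaf 459 3)) (move 428 (branch (move 396 (leaf 396 4)) (move 557 (leaf 428 4)))))))))))) (move 590 (branch (move 622 (leaf 494 6)) (move 493 (branch (move 461 (leaf 461 7)) (move 492 (branch (move 491 (leaf 491 0)) (move 589 (branch (move 621 (leaf 493 5)) (move 460 (branch (move 459 (leaf 459 3)) (move 557 (leaf 460 7)))))))))))))))))))))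
theorem a5p42 : a5e42.Valid :=
  pos_of_chk [a5e15] (forall_cons a5p15 forall_nil) a5c42 a5e42 (by decide +kernel)

def a5e43 : Pos := ⟨329510287737415994567508455074862963441864131160263691620357133376582500429589581070705902671800913831502475402273685625274981533505418536533012624431780986880, 26106494630527726396334386963423577730357410091411689135342973701725888281594795103925407327348678278200583395203866630101301259673804634110146406930723138363252949061860982960907018567680, 11⟩
def a5c43 : Cert := (move 524 (branch (ref 0) (branch (move 523 (branch (move 495 (leaf 491 2)) (move 490 (branch (move 491 (leaf 490 3)) (move 522 (branch (move 489 (leaf 489 3)) (move 557 (branch (move 558 (leaf 522 0)) (move 589 (branch (move 621 (leaf 493 6)) (move 553 (branch (move 554 (leaf 521 1)) (move 521 (branch (move 556 (leaf 521 0)) (move 552 (leaf 520 1)))))))))))))))) (branch (move 495 (branch (move 523 (leaf 491 2)) (move 496 (branch (move 497 (leaf 493 1)) (move 527 (leaf 492 2)))))) (move 527 (branch (move 492 (branch (move 491 (leaf 491 3)) (move 528 (branch (move 493 (leaf 492 3)) (move 561 (branch (move 560 (leaf 525 0)) (move 529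 (branch (move 562 (leaf 526 0)) (move 497 (branch (move 496 (leaf 493 2)) (move 498 (leaf 494 2)))))))))))) (branch (move 556 (branch (move 555 (leaf 523 1)) (move 528 (branch (move 557 (leaf 524 1)) (move 529 (branch (move 493 (leaf 493 3)) (move 561 (branch (move 560 (leaf 525 0)) (move 562 (leaf 526 0)))))))))) (branch (move 556 (branch (move 555 (leaf 523 1)) (move 528 (branch (move 557 (leaf 524 1)) (move 492 (branch (move 491 (leaf 491 3)) (move 561 (branch (move 560 (leaf 525 0)) (move 529 (branch (move 562 (leaf 526 0)) (move 497 (branch (move 496 (leaf 493 2)) (move 498 (leaf 494 2)))))))))))))) (move 495 (branch (move 496 (leaf 492 2)) (move 558 (branch (move 463 (branch (move 431 (leaf 430 5)) (move 590 (leaf 462 6)))) (branch (move 492 (branch (move 491 (leaf 491 3)) (move 463 (branch (move 431 (leaf 430 5)) (move 493 (branch (move 464 (leaf 460 2)) (move 460 (branch (move 459 (leaf 459 3)) (move 428 (branch (move 396 (leaf 396 4)) (move 557 (leaf 428 4)))))))))))) (move 590 (branch (move 622 (leaf 494 6)) (move 492 (branch (move 491 (leaf 491 3)) (move 589 (branch (move 621 (leaf 493 5)) (move 556 (branch (move 555 (leaf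 523 1)) (move 460 (branch (move 557 (leaf 460 4)) (move 459 (branch (move 493 (leaf 459 3)) (move 427 (leaf 427 7)))))))))))))))))))))))))))
theorem a5p43 : a5e43.Valid :=
  pos_of_chk [a5e14] (forall_cons a5p14 forall_nil) a5c43 a5e43 (by decide +kernel)

def a5e44 : Pos := ⟨329510287737415994567508455074862963441864131160263691620357133376582500429589581070705902671800913831502475402273685625274981533505418536533012624431780986880, 30457577067176149806464639143484594798759218364009763146353709556027872936142395120173898366128001077291619474849153951481592878414801433618179151986572622815413080484714240498943842582528, 13⟩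
def a5c44 : Cert := (move 524 (branch (move 523 (branch (move 495 (leaf 491 2)) (move 490 (branch (move 491 (leaf 490 3)) (move 522 (branch (move 489 (leaf 489 3)) (move 557 (branch (move 558 (leaf 522 0)) (move 589 (branch (move 621 (leaf 493 6)) (move 553 (branch (move 554 (leaf 521 1)) (move 521 (branch (move 556 (leaf 521 0)) (move 552 (leaf 520 1)))))))))))))))) (branch (move 495 (branch (move 523 (leaf 491 2)) (move 496 (branch (move 497 (leaf 493 1)) (move 527 (leaf 492 2)))))) (branch (ref 0) (ref 1)))))
theorem a5p44 : a5e44.Valid :=
  pos_of_chk [a5e36, a5e42] (forall_cons a5p36 (forall_cons a5p42 forall_nil)) a5c44 a5e44 (by decide +kernel)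

def a5e45 : Pos := ⟨4052261297735344686431701973404360433822955685141768894332028724587438271040930952768530760884176878597254628440940977207253610615487344313680233642692569350179290205644988088320, 186877568250392585733992664342424037577864430172535644080631118621776796735496106671383944205098184853743728102379976890154954156684816521291443697326605806440706785618580093994660009978001113481216, 11⟩
def a5c45 : Cert := (move 558 (branch (move 623 (branch (move 591 (leaf 494 4)) (move 622 (branch (move 655 (leaf 526 4)) (move 621 (branch (move 589 (leaf 493 5)) (move 653 (leaf 525 5)))))))) (branch (move 493 (branch (move 461 (leaf 461 7)) (move 622 (leaf 493 7)))) (move 556 (branch (move 493 (branch (move 461 (leaf 461 7)) (move 555 (branch (move 527 (leaf 523 1)) (move 588 (branch (move 620 (leaf 492 6)) (move 589 (branch (move 591 (leaf 555 3)) (move 621 (leaf 493 5)))))))))) (branch (move 493 (branch (move 461 (leaf 461 7)) (move 589 (branch (move 621 (leaf 493 5)) (move 588 (branch (move 620 (leaf 492 6)) (move 591 (branch (move 623 (leaf 494 4)) (move 592 (branch (move 557 (leaf 556 3)) (move 561 (branch (move 560 (leaf 557 2))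 (move 593 (branch (move 562 (leaf 558 2)) (move 625 (branch (move 624 (leaf 589 0)) (move 626 (leaf 590 0)))))))))))))))))) (branch (move 555 (branch (move 527 (leaf 523 1)) (move 557 (branch (move 591 (leaf 555 0)) (move 554 (leaf 522 2)))))) (move 493 (branch (move 461 (leaf 461 7)) (move 555 (branch (move 527 (leaf 523 1)) (move 554 (branch (move 553 (leaf 521 2)) (move 557 (leaf 522 2)))))))))))))))
theorem a5p45 : a5e45.Valid :=
  pos_of_chk [] forall_nil a5c45 a5e45 (by decide +kernel)

def a5e46 : Pos := ⟨4052261297735344686431701973404360433822955685141768894332028724587438271040930952768530760884176878597254628440940977207253610615487344313680233642692569350179290205644988088320, 535183139829830451082991226319745602366503484062983086080962159313039017698216429589803127022626627124093349131798061189930879710458957026831451318114547873426881980194682229944243070173184, 13⟩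
def a5c46 : Cert := (move 527 (branch (move 556 (branch (move 555 (leaf 523 1)) (move 528 (branch (move 557 (leaf 524 1)) (move 529 (branch (move 493 (leaf 493 3)) (move 561 (branch (move 560 (leaf 525 0)) (move 562 (leaf 526 0)))))))))) (branch (move 528 (branch (move 561 (branch (move 560 (leaf 525 0)) (move 529 (branch (move 562 (leaf 526 0)) (move 530 (branch (move 495 (leaf 494 3)) (move 498 (branch (move 497 (leaf 494 2)) (move 499 (leaf 495 2)))))))))) (branch (move 561 (branch (move 560 (leaf 525 0)) (move 529 (branch (move 562 (leaf 526 0)) (move 497 (branch (move 496 (leaf 493 2)) (move 498 (leaf 494 2)))))))) (branch (move 496 (branch (move 495 (leaf 492 2)) (move 497 (leaf 493 2)))) (move 495 (branch (move 496 (leaf 492 2)) (move 529 (branch (move 530 (leaf 494 3)) (move 561 (branch (move 560 (leaf 525 0)) (move 562 (leaf 526 0)))))))))))) (branch (move 495 (branch (move 496 (leaf 492 2)) (move 558 (branch (move 463 (leaf 462 6)) (move 493 (branch (move 461 (leaf 461 7)) (move 556 (branch (move 555 (leaf 523 1)) (move 589 (branch (move 621 (leaf 493 5)) (move 588 (branch (move 620 (leaf 492 6)) (move 591 (branch (move 623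 (leaf 494 4)) (move 592 (branch (move 557 (leaf 556 3)) (move 561 (branch (move 560 (leaf 557 2)) (move 593 (branch (move 562 (leaf 558 2)) (move 625 (branch (move 624 (leaf 589 0)) (move 626 (leaf 590 0)))))))))))))))))))))))) (move 495 (branch (move 496 (leaf 492 2)) (move 558 (branch (move 463 (leaf 462 6)) (move 493 (branch (move 461 (leaf 461 7)) (move 556 (branch (move 555 (leaf 523 1)) (move 528 (branch (move 557 (leaf 524 1)) (move 529 (leaf 493 3))))))))))))))))
theorem a5p46 : a5e46.Valid :=
  pos_of_chk [] forall_nil a5c46 a5e46 (by decide +kernel)

def a5e47 : Pos := ⟨4052261297735344687310396074105665390334147854300011582194241390019321491321113824886985998865085215544234422125811541014716548295527311900404352544732378292306602892740748378112, 3210532167518910319140614900330643662856940559352832861383404241433456153503920740169773155715282952541706872675079757190630859367071363442676945597179750109737504562881187802872339160194421311859985565614080, 13⟩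
def a5c47 : Cert := (move 592 (branch (move 560 (branch (move 625 (branch (move 593 (leaf 496 4)) (move 624 (branch (move 657 (leaf 528 4)) (move 655 (branch (move 623 (leaf 527 5)) (move 656 (branch (move 687 (leaf 559 5)) (move 529 (branch (move 497 (leaf 496 6)) (move 561 (leaf 528 6)))))))))))) (branch (move 497 (branch (move 465 (leaf 464 6)) (move 624 (branch (move 529 (leaf 496 6)) (move 655 (branch (move 623 (leaf 527 5)) (move 656 (branch (move 687 (leaf 559 5)) (move 657 (branch (move 625 (leaf 528 4)) (move 689 (leaf 560 4)))))))))))) (branch (move 465 (branch (move 497 (leaf 464 6)) (move 464 (branch (move 433 (leaf 432 6)) (move 431 (branch (move 463 (leaf 431 7)) (move 432 (branch (move 399 (leaf 399 7)) (move 561 (branch (move 529 (leaf 432 4)) (move 593 (leaf 464 4)))))))))))) (move 593 (branch (move 625 (leaf 496 4)) (move 464 (branch (move 561 (leaf 464 4)) (move 431 (branch (move 463 (leaf 431 7)) (move 432 (branch (move 399 (leaf 399 7)) (move 433 (branch (move 401 (leaf 400 6)) (move 465 (leaf 432 6)))))))))))))))) (branch (move 560 (branch (move 591 (branch (move 623 (leaf 495 5)) (move 589 (branch (move 561 (leaf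 557 2)) (move 557 (branch (move 556 (leaf 556 3)) (move 621 (leaf 493 6)))))))) (branch (move 497 (branch (move 465 (leaf 464 6)) (move 624 (branch (move 529 (leaf 496 6)) (move 623 (branch (move 591 (leaf 495 5)) (move 655 (leaf 527 5)))))))) (move 465 (branch (move 497 (leaf 464 6)) (move 464 (branch (move 433 (leaf 432 6)) (move 431 (branch (move 463 (leaf 431 7)) (move 432 (branch (move 399 (leaf 399 7)) (move 561 (branch (move 529 (leaf 432 4)) (move 593 (leaf 464 4))))))))))))))) (branch (move 560 (branch (move 591 (branch (move 623 (leaf 495 5)) (move 589 (branch (move 561 (leaf 557 2)) (move 557 (branch (move 556 (leaf 556 3)) (move 621 (leaf 493 6)))))))) (branch (move 497 (branch (move 465 (leaf 464 6)) (move 624 (branch (move 529 (leaf 496 6)) (move 655 (branch (move 623 (leaf 527 5)) (move 656 (branch (move 687 (leaf 559 5)) (move 657 (branch (move 625 (leaf 528 4)) (move 689 (leaf 560 4)))))))))))) (move 497 (branch (move 465 (leaf 464 6)) (move 624 (branch (move 529 (leaf 496 6)) (move 625 (branch (move 657 (leaf 528 4)) (move 589 (branch (move 591 (leaf 589 0)) (move 557 (branch (move 621 (leaf 493 6)) (move 493 (branch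 (move 622 (leaf 493 4)) (move 588 (branch (move 620 (leaf 492 5)) (move 461 (branch (move 556 (leaf 460 5)) (move 429 (branch (move 397 (leaf 397 4)) (move 428 (branch (move 396 (leaf 396 7)) (move 460 (leaf 428 7))))))))))))))))))))))))) (branch (move 560 (branch (move 497 (branch (move 465 (leaf 464 6)) (move 624 (branch (move 529 (leaf 496 6)) (move 625 (branch (move 593 (leaf 496 4)) (move 657 (leaf 528 4)))))))) (branch (move 497 (branch (move 465 (leaf 464 6)) (move 624 (branch (move 529 (leaf 496 6)) (move 623 (branch (move 591 (leaf 495 5)) (move 655 (leaf 527 5)))))))) (move 591 (branch (move 623 (leaf 495 5)) (move 593 (branch (move 625 (leaf 496 4)) (move 621 (branch (move 622 (leaf 589 1)) (move 589 (branch (move 620 (leaf 588 1)) (move 557 (leaf 493 6))))))))))))) (branch (move 560 (branch (move 591 (branch (move 623 (leaf 495 5)) (move 589 (branch (move 561 (leaf 557 2)) (move 557 (branch (move 556 (leaf 556 3)) (move 621 (leaf 493 6)))))))) (branch (move 591 (branch (move 623 (leaf 495 5)) (move 593 (branch (move 625 (leaf 496 4)) (move 621 (branch (move 622 (leaf 589 1)) (move 589 (branch (move 620 (leaf 588 1)) (move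 557 (leaf 493 6)))))))))) (move 465 (branch (move 497 (leaf 464 6)) (move 464 (branch (move 433 (leaf 432 6)) (move 431 (branch (move 463 (leaf 431 7)) (move 432 (branch (move 399 (leaf 399 7)) (move 561 (branch (move 529 (leaf 432 4)) (move 593 (leaf 464 4))))))))))))))) (branch (move 560 (branch (move 591 (branch (move 623 (leaf 495 5)) (move 589 (branch (move 561 (leaf 557 2)) (move 557 (branch (move 556 (leaf 556 3)) (move 621 (leaf 493 6)))))))) (branch (move 591 (branch (move 623 (leaf 495 5)) (move 625 (branch (move 593 (leaf 496 4)) (move 624 (branch (move 589 (leaf 589 0)) (move 657 (leaf 528 4)))))))) (move 593 (branch (move 625 (leaf 496 4)) (move 464 (branch (move 561 (leaf 464 4)) (move 431 (branch (move 463 (leaf 431 7)) (move 432 (branch (move 399 (leaf 399 7)) (move 433 (branch (move 401 (leaf 400 6)) (move 465 (leaf 432 6))))))))))))))) (move 589 (branch (move 591 (branch (move 620 (branch (move 621 (leaf 588 1)) (move 588 (branch (move 619 (leaf 587 1)) (move 556 (branch (move 555 (leaf 555 3)) (move 493 (leaf 492 6)))))))) (move 625 (branch (move 624 (leaf 589 0)) (move 593 (branch (move 626 (leaf 590 0)) (move 561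 (branch (move 562 (leaf 558 2)) (move 529 (leaf 496 7)))))))))) (branch (move 557 (branch (move 621 (leaf 493 6)) (move 493 (branch (move 622 (leaf 493 4)) (move 588 (branch (move 620 (leaf 492 5)) (move 461 (branch (move 556 (leaf 460 5)) (move 429 (branch (move 397 (leaf 397 4)) (move 428 (branch (move 396 (leaf 396 7)) (move 460 (leaf 428 7)))))))))))))) (branch (move 557 (branch (move 621 (leaf 493 6)) (move 591 (branch (move 556 (leaf 556 3)) (move 625 (branch (move 624 (leaf 589 0)) (move 593 (branch (move 626 (leaf 590 0)) (move 561 (branch (move 562 (leaf 558 2)) (move 529 (leaf 496 7)))))))))))) (branch (move 621 (branch (move 557 (leaf 493 6)) (move 591 (branch (move 620 (leaf 588 1)) (move 593 (branch (move 622 (leaf 589 1)) (move 625 (branch (move 624 (leaf 589 0)) (move 626 (leaf 590 0)))))))))) (move 591 (branch (move 625 (branch (move 624 (leaf 589 0)) (move 593 (branch (move 626 (leaf 590 0)) (move 561 (branch (move 562 (leaf 558 2)) (move 529 (leaf 496 7)))))))) (move 556 (branch (move 557 (leaf 556 3)) (move 588 (branch (move 555 (leaf 555 3)) (move 620 (branch (move 619 (leaf 587 1)) (move 493 (leaf 492 6))))))))))))))))))))))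
theorem a5p47 : a5e47.Valid :=
  pos_of_chk [] forall_nil a5c47 a5e47 (by decide +kernel)

def a5e48 : Pos := ⟨384428669018460872287363661467514109180019613561410134895512841050066845896770829487686379797092550271320845893405532489571957437503151687033604850760701444096, 3210532167556285832680175923565804401949604633427775420388167766591795098274462882402562239642183216072950148342082111600330513828696585772356345018098841400646194936360964169401181462961414946727880357314560, 16⟩
def a5c48 : Cert := (move 590 (branch (move 558 (branch (move 495 (branch (move 463 (leaf 462 6)) (move 496 (branch (move 497 (leaf 493 1)) (move 527 (leaf 492 2)))))) (move 623 (branch (move 591 (leaf 494 4)) (move 622 (branch (move 655 (leaf 526 4)) (move 621 (branch (move 589 (leaf 493 5)) (move 653 (leaf 525 5)))))))))) (branch (ref 0) (branch (move 558 (branch (move 623 (branch (move 591 (leaf 494 4)) (move 622 (branch (move 655 (leaf 526 4)) (move 621 (branch (move 589 (leaf 493 5)) (move 653 (leaf 525 5)))))))) (move 493 (branch (move 461 (leaf 461 7)) (move 495 (branch (move 496 (leaf 492 1)) (move 463 (leaf 462 6)))))))) (branch (ref 1) (branch (move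 493 (branch (move 527 (branch (move 556 (branch (move 555 (leaf 523 1)) (move 528 (branch (move 557 (leaf 524 1)) (move 529 (leaf 493 3)))))) (branch (move 495 (branch (move 496 (leaf 492 1)) (move 556 (branch (move 555 (leaf 523 1)) (move 461 (branch (move 429 (leaf 428 5)) (move 588 (branch (move 557 (leaf 460 5)) (move 620 (leaf 492 6)))))))))) (move 496 (branch (move 495 (leaf 492 1)) (move 528 (branch (move 497 (leaf 493 2)) (move 529 (leaf 493 3))))))))) (branch (move 558 (branch (move 461 (leaf 461 7)) (move 622 (leaf 493 7)))) (move 558 (branch (move 622 (leaf 493 7)) (move 495 (branch (move 496 (leaf 492 1)) (move 463 (leaf 462 6))))))))) (move 496 (branch (move 495 (branch (move 493 (leaf 492 1)) (move 497 (leaf 493 1)))) (branch (move 495 (branch (move 493 (leaf 492 1)) (move 527 (leaf 492 2)))) (branch (move 495 (branch (move 497 (leaf 493 1)) (move 527 (leaf 492 2)))) (move 528 (branch (move 527 (branch (move 561 (branch (move 560 (leaf 525 0)) (move 529 (branch (move 562 (leaf 526 0)) (move 493 (leaf 493 3)))))) (move 556 (branch (move 555 (leaf 523 1)) (move 557 (leaf 524 1)))))) (branch (move 527 (branch (move 497 (leaf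 493 2)) (move 561 (branch (move 560 (leaf 525 0)) (move 529 (branch (move 562 (leaf 526 0)) (move 493 (leaf 493 3)))))))) (branch (move 527 (branch (move 497 (leaf 493 2)) (move 556 (branch (move 555 (leaf 523 1)) (move 557 (leaf 524 1)))))) (ref 2)))))))))))))))
theorem a5p48 : a5e48.Valid :=
  pos_of_chk [a5e45, a5e46, a5e47] (forall_cons a5p45 (forall_cons a5p46 (forall_cons a5p47 forall_nil))) a5c48 a5e48 (by decide +kernel)

def a5e49 : Pos := ⟨329510287737415994567508455074862963441864131160263691620357133376582500429589581070705902671800913831502475402273685625274981533505418536533012624431780986880, 3210532167556285832680175923565804401949619375468600351498988107656907633293668876571721956615307067818981067277465605925465693926238501385771543113283816361082705485581139205923105074398390664199840735428608, 17⟩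
def a5c49 : Cert := (move 524 (branch (move 523 (branch (move 495 (leaf 491 2)) (move 490 (branch (move 491 (leaf 490 3)) (move 522 (branch (move 489 (leaf 489 3)) (move 557 (branch (move 558 (leaf 522 0)) (move 589 (branch (move 621 (leaf 493 6)) (move 553 (branch (move 554 (leaf 521 1)) (move 521 (branch (move 556 (leaf 521 0)) (move 552 (leaf 520 1)))))))))))))))) (branch (move 495 (branch (move 523 (leaf 491 2)) (move 496 (branch (move 497 (leaf 493 1)) (move 527 (leaf 492 2)))))) (branch (ref 0) (ref 1)))))
theorem a5p49 : a5e49.Valid :=
  pos_of_chk [a5e24, a5e48] (forall_cons a5p24 (forall_cons a5p48 forall_nil)) a5c49 a5e49 (by decide +kernel)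

def a5e50 : Pos := ⟨219673525175326239127798042289560671965553166357970805070045718029613809495227084236744948421217640951865734420009991896681029725509952235531828171773940072448, 3210532167584317467835934461599374248054814963426669402038415452695406073349818061773003977961039716222571370435261786629871218756521899484325069348953160368801874639491538032351997425602031176617506191179776, 18⟩
def a5c50 : Cert := (move 525 (branch (move 524 (branch (ref 0) (branch (move 523 (branch (move 495 (leaf 491 2)) (move 490 (branch (move 491 (leaf 490 3)) (move 522 (branch (move 489 (leaf 489 3)) (move 557 (branch (move 558 (leaf 522 0)) (move 589 (branch (move 621 (leaf 493 6)) (move 553 (branch (move 554 (leaf 521 1)) (move 521 (branch (move 556 (leaf 521 0)) (move 552 (leaf 520 1)))))))))))))))) (branch (move 495 (branch (move 523 (leaf 491 2)) (move 496 (branch (move 497 (leaf 493 1)) (move 527 (leaf 492 2)))))) (move 527 (branch (move 556 (branch (move 555 (leaf 523 1)) (move 557 (branch (move 528 (leaf 524 1)) (move 589 (branch (move 621 (leaf 493 6)) (move 492 (branch (move 491 (leaf 491 3)) (move 460 (leaf 460 4)))))))))) (branch (ref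 1) (move 492 (branch (move 491 (leaf 491 3)) (move 556 (branch (move 555 (leaf 523 1)) (move 589 (branch (move 460 (branch (move 557 (leaf 460 4)) (move 495 (branch (move 496 (leaf 492 2)) (move 429 (branch (move 461 (leaf 428 6)) (move 428 (branch (move 397 (leaf 396 6)) (move 427 (branch (move 395 (leaf 395 7)) (move 459 (leaf 427 7)))))))))))) (branch (move 495 (branch (move 496 (leaf 492 2)) (move 588 (branch (move 621 (leaf 492 4)) (move 619 (branch (move 587 (leaf 491 5)) (move 620 (branch (move 651 (leaf 523 5)) (move 590 (branch (move 591 (leaf 587 1)) (move 558 (branch (move 463 (leaf 462 6)) (move 622 (leaf 494 6)))))))))))))) (move 621 (branch (move 588 (leaf 492 4)) (move 557 (leaf 493 6)))))))))))))))))) (branch (ref 2) (branch (move 524 (branch (move 495 (branch (move 523 (leaf 491 2)) (move 496 (branch (move 497 (leaf 493 1)) (move 527 (leaf 492 2)))))) (branch (move 523 (branch (move 495 (leaf 491 2)) (move 522 (branch (move 493 (leaf 490 2)) (move 554 (branch (move 553 (leaf 521 1)) (move 555 (leaf 522 1)))))))) (ref 3)))) (branch (ref 4) (branch (ref 5) (branch (ref 6) (branch (ref 7) (branch (move 524 (branch (ref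 0) (branch (ref 8) (branch (ref 3) (branch (ref 9) (branch (ref 10) (branch (ref 11) (ref 12)))))))) (branch (move 493 (branch (move 461 (branch (move 429 (branch (move 397 (leaf 397 4)) (move 428 (branch (move 396 (leaf 396 7)) (move 460 (branch (move 557 (leaf 428 7)) (move 459 (branch (move 458 (leaf 458 0)) (move 430 (branch (move 431 (leaf 427 1)) (move 398 (leaf 397 6)))))))))))) (branch (move 558 (branch (move 429 (leaf 429 4)) (move 590 (leaf 461 7)))) (ref 13)))) (branch (move 461 (branch (move 429 (branch (move 397 (leaf 397 4)) (move 428 (branch (move 396 (leaf 396 7)) (move 460 (branch (move 557 (leaf 428 7)) (move 459 (branch (move 458 (leaf 458 0)) (move 430 (branch (move 431 (leaf 427 1)) (move 398 (leaf 397 6)))))))))))) (branch (move 558 (branch (move 429 (leaf 429 4)) (move 590 (leaf 461 7)))) (ref 14)))) (branch (move 495 (branch (move 524 (branch (move 496 (leaf 492 1)) (move 523 (leaf 491 2)))) (branch (move 492 (branch (move 491 (branch (move 490 (leaf 490 0)) (move 459 (branch (move 458 (leaf 458 3)) (move 460 (leaf 459 3)))))) (branch (move 523 (branch (move 524 (leaf 491 1)) (move 491 (branch (move 490 (leaf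 490 0)) (move 522 (leaf 490 1)))))) (move 524 (branch (move 523 (leaf 491 1)) (move 460 (branch (move 459 (leaf 459 3)) (move 557 (branch (move 428 (leaf 428 4)) (move 589 (leaf 460 7))))))))))) (move 496 (branch (move 497 (leaf 493 1)) (move 464 (branch (move 465 (leaf 461 2)) (move 463 (branch (move 492 (leaf 460 2)) (move 558 (branch (move 590 (leaf 462 6)) (move 431 (branch (move 399 (leaf 398 5)) (move 527 (leaf 430 5))))))))))))))) (branch (ref 15) (ref 16)))))) (branch (ref 17) (branch (move 524 (branch (move 495 (branch (move 523 (leaf 491 2)) (move 496 (branch (move 497 (leaf 493 1)) (move 527 (leaf 492 2)))))) (branch (move 523 (branch (move 495 (leaf 491 2)) (move 522 (branch (move 493 (leaf 490 2)) (move 554 (branch (move 553 (leaf 521 1)) (move 555 (leaf 522 1)))))))) (branch (ref 9) (ref 18))))) (branch (ref 19) (branch (ref 20) (ref 21)))))))))))))))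
theorem a5p50 : a5e50.Valid :=
  pos_of_chk [a5e14, a5e15, a5e21, a5e23, a5e25, a5e29, a5e31, a5e33, a5e24, a5e34, a5e35, a5e36, a5e37, a5e16, a5e19, a5e38, a5e39, a5e41, a5e42, a5e43, a5e44, a5e49] (forall_cons a5p14 (forall_cons a5p15 (forall_cons a5p21 (forall_cons a5p23 (forall_cons a5p25 (forall_cons a5p29 (forall_cons a5p31 (forall_cons a5p33 (forall_cons a5p24 (forall_cons a5p34 (forall_cons a5p35 (forall_cons a5p36 (forall_cons a5p37 (forall_cons a5p16 (forall_cons a5p19 (forall_cons a5p38 (forall_cons a5p39 (forall_cons a5p41 (forall_cons a5p42 (forall_cons a5p43 (forall_cons a5p44 (forall_cons a5p49 forall_nil)))))))))))))))))))))) a5c50 a5e50 (by decide +kernel)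

def a5e51 : Pos := ⟨943490606425058863235714884374865265018790977069663273452022380131451758627651022516758765531159640306584734709556695644952638054162227883650310798390002182686288904192, 186877567758720270289894688526540876605094147585045896149981430244911122577151373339253165239931637496988224275829472709636165375177350471133253003952845021477317522261562983559544252407709194780672, 5⟩
def a5c51 : Cert := (move 590 (branch (move 621 (branch (move 589 (leaf 493 5)) (move 622 (branch (move 653 (leaf 525 5)) (move 623 (branch (move 591 (leaf 494 4)) (move 655 (leaf 526 4)))))))) (branch (move 493 (branch (move 461 (leaf 461 7)) (move 622 (branch (move 525 (leaf 493 7)) (move 623 (branch (move 591 (leaf 494 4)) (move 655 (leaf 526 4)))))))) (move 589 (branch (move 621 (leaf 493 5)) (move 462 (branch (move 557 (leaf 461 5)) (move 461 (branch (move 429 (leaf 429 7)) (move 493 (leaf 461 7)))))))))))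
theorem a5p51 : a5e51.Valid :=
  pos_of_chk [] forall_nil a5c51 a5e51 (by decide +kernel)

def a5e52 : Pos := ⟨219673525175326239127798042289560671965553166357970805070045718029613809495227084236744948421217640951865734420009991896681029725509952235531828171773940072448, 261628595331690173418839359264097056380422383246756128794187140149240809034566333930701705673502701239942572052545962398786777893464928434699633247732647151044621027126701919410457918579730448121856, 13⟩
def a5c52 : Cert := (move 558 (branch (move 462 (branch (move 431 (branch (move 463 (leaf 430 6)) (move 430 (branch (move 399 (leaf 398 6)) (move 429 (branch (move 397 (leaf 397 7)) (move 461 (leaf 429 7)))))))) (branch (move 557 (branch (move 589 (leaf 461 5)) (move 430 (branch (move 525 (leaf 429 5)) (move 429 (branch (move 397 (leaf 397 7)) (move 461 (leaf 429 7)))))))) (branch (move 557 (branch (move 589 (leaf 461 5)) (move 430 (branch (move 525 (leaf 429 5)) (move 431 (branch (move 399 (leaf 398 6)) (move 463 (leaf 430 6)))))))) (move 461 (branch (move 429 (leaf 429 7)) (move 460 (branch (move 459 (branch (move 495 (leaf 459 0)) (move 458 (branch (move 493 (leaf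 458 0)) (move 490 (branch (move 489 (leaf 457 1)) (move 491 (leaf 458 1)))))))) (branch (move 463 (branch (move 431 (leaf 430 6)) (move 492 (branch (move 491 (leaf 459 1)) (move 493 (branch (move 464 (leaf 460 1)) (move 557 (branch (move 589 (leaf 461 5)) (move 428 (branch (move 427 (leaf 427 3)) (move 525 (leaf 428 7)))))))))))) (move 463 (branch (move 431 (leaf 430 6)) (move 495 (branch (move 459 (leaf 459 0)) (move 496 (leaf 460 0))))))))))))))) (branch (move 462 (branch (move 463 (branch (move 431 (leaf 430 6)) (move 461 (branch (move 429 (leaf 429 7)) (move 495 (branch (move 590 (leaf 462 6)) (move 496 (branch (move 460 (leaf 460 0)) (move 497 (leaf 461 3)))))))))) (branch (move 463 (branch (move 431 (leaf 430 6)) (move 590 (branch (move 495 (leaf 462 6)) (move 623 (branch (move 591 (leaf 494 4)) (move 622 (branch (move 655 (leaf 526 4)) (move 525 (branch (move 493 (leaf 493 7)) (move 557 (branch (move 430 (leaf 429 5)) (move 654 (leaf 525 7)))))))))))))) (branch (move 429 (branch (move 461 (leaf 429 7)) (move 430 (branch (move 397 (leaf 397 7)) (move 525 (branch (move 557 (leaf 429 5)) (move 398 (branch (move 493 (leaf 397 5))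 (move 399 (branch (move 367 (leaf 366 6)) (move 431 (leaf 398 6)))))))))))) (move 429 (branch (move 461 (leaf 429 7)) (move 430 (branch (move 397 (leaf 397 7)) (move 525 (branch (move 557 (leaf 429 5)) (move 493 (branch (move 398 (leaf 397 5)) (move 590 (branch (move 622 (leaf 493 7)) (move 495 (branch (move 463 (leaf 462 6)) (move 524 (branch (move 496 (leaf 492 1)) (move 523 (leaf 491 2)))))))))))))))))))) (branch (move 462 (branch (move 463 (branch (move 431 (leaf 430 6)) (move 461 (branch (move 429 (leaf 429 7)) (move 495 (branch (move 590 (leaf 462 6)) (move 496 (branch (move 460 (leaf 460 0)) (move 497 (leaf 461 3)))))))))) (branch (move 557 (branch (move 589 (leaf 461 5)) (move 430 (branch (move 525 (leaf 429 5)) (move 429 (branch (move 397 (leaf 397 7)) (move 461 (leaf 429 7)))))))) (move 557 (branch (move 589 (leaf 461 5)) (move 430 (branch (move 525 (leaf 429 5)) (move 431 (branch (move 399 (leaf 398 6)) (move 463 (leaf 430 6))))))))))) (branch (move 590 (branch (move 621 (branch (move 589 (leaf 493 5)) (move 622 (branch (move 653 (leaf 525 5)) (move 623 (branch (move 591 (leaf 494 4)) (move 655 (leaf 526 4)))))))) (branch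 (move 589 (branch (move 621 (leaf 493 5)) (move 462 (branch (move 557 (leaf 461 5)) (move 463 (branch (move 431 (leaf 430 6)) (move 495 (leaf 462 6)))))))) (move 463 (branch (move 495 (leaf 462 6)) (move 462 (branch (move 431 (leaf 430 6)) (move 623 (branch (move 591 (leaf 494 4)) (move 622 (branch (move 655 (leaf 526 4)) (move 525 (branch (move 493 (leaf 493 7)) (move 557 (branch (move 430 (leaf 429 5)) (move 654 (leaf 525 7))))))))))))))))) (branch (move 590 (branch (move 621 (branch (move 589 (leaf 493 5)) (move 622 (branch (move 653 (leaf 525 5)) (move 623 (branch (move 591 (leaf 494 4)) (move 655 (leaf 526 4)))))))) (move 461 (branch (move 493 (leaf 461 7)) (move 462 (branch (move 429 (leaf 429 7)) (move 463 (branch (move 431 (leaf 430 6)) (move 495 (leaf 462 6)))))))))) (branch (ref 0) (move 590 (branch (move 621 (branch (move 589 (leaf 493 5)) (move 622 (branch (move 653 (leaf 525 5)) (move 623 (branch (move 591 (leaf 494 4)) (move 655 (leaf 526 4)))))))) (branch (move 493 (branch (move 461 (leaf 461 7)) (move 525 (branch (move 622 (leaf 493 7)) (move 495 (branch (move 463 (leaf 462 6)) (move 524 (branch (move 496 (leaf 492 1))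 (move 523 (leaf 491 2)))))))))) (move 589 (branch (move 621 (leaf 493 5)) (move 591 (branch (move 623 (leaf 494 4)) (move 493 (branch (move 461 (leaf 461 7)) (move 592 (branch (move 495 (branch (move 463 (leaf 462 6)) (move 625 (branch (move 624 (leaf 589 0)) (move 593 (branch (move 626 (leaf 590 0)) (move 561 (branch (move 560 (leaf 557 2)) (move 562 (leaf 558 2)))))))))) (branch (move 557 (branch (move 556 (leaf 556 3)) (move 593 (leaf 557 3)))) (move 556 (branch (move 557 (leaf 556 3)) (move 588 (branch (move 555 (leaf 555 3)) (move 495 (branch (move 463 (leaf 462 6)) (move 620 (branch (move 619 (leaf 587 1)) (move 524 (branch (move 525 (leaf 492 6)) (move 523 (branch (move 492 (leaf 491 1)) (move 491 (leaf 491 7)))))))))))))))))))))))))))))))))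
theorem a5p52 : a5e52.Valid :=
  pos_of_chk [a5e51] (forall_cons a5p51 forall_nil) a5c52 a5e52 (by decide +kernel)

def a5e53 : Pos := ⟨329510287737415994567508455074862963441864131160263691620357133376582500429589581070705902671800913831502475402273685625274981533505418536533012624431780986880, 4351082438168021423758940961685518088275050362057342401003579705804307824580288094686237908882603704894673616820223407057968429105125901274399887278274450777993446128750701641034329227264, 15⟩
def a5c53 : Cert := (move 524 (branch (move 495 (branch (move 523 (leaf 491 2)) (move 496 (branch (move 497 (leaf 493 1)) (move 527 (leaf 492 2)))))) (branch (ref 0) (branch (move 523 (branch (move 495 (leaf 491 2)) (move 522 (branch (move 493 (leaf 490 2)) (move 554 (branch (move 553 (leaf 521 1)) (move 555 (leaf 522 1)))))))) (move 527 (branch (ref 1) (branch (move 492 (branch (move 491 (leaf 491 3)) (move 493 (branch (move 528 (leaf 492 3)) (move 556 (branch (move 555 (leaf 523 1)) (move 461 (branch (move 429 (leaf 428 5)) (move 588 (leaf 460 6)))))))))) (move 492 (branch (move 491 (leaf 491 3)) (move 493 (branch (move 556 (branch (move 555 (leaf 523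 1)) (move 461 (branch (move 429 (leaf 428 5)) (move 588 (leaf 460 6)))))) (branch (move 495 (branch (move 496 (leaf 492 1)) (move 463 (branch (move 464 (leaf 460 2)) (move 431 (branch (move 399 (leaf 398 5)) (move 430 (branch (move 398 (leaf 398 7)) (move 460 (branch (move 459 (leaf 459 3)) (move 428 (branch (move 396 (leaf 396 4)) (move 429 (branch (move 397 (leaf 396 6)) (move 432 (branch (move 461 (leaf 428 1)) (move 400 (leaf 399 6)))))))))))))))))) (branch (move 495 (branch (move 496 (leaf 492 1)) (move 556 (branch (move 555 (leaf 523 1)) (move 460 (branch (move 459 (leaf 459 3)) (move 588 (branch (move 620 (leaf 492 6)) (move 428 (branch (move 396 (leaf 396 4)) (move 463 (branch (move 464 (leaf 460 2)) (move 431 (branch (move 399 (leaf 398 5)) (move 430 (branch (move 398 (leaf 398 7)) (move 429 (branch (move 397 (leaf 396 6)) (move 427 (branch (move 462 (leaf 427 0)) (move 395 (leaf 395 7)))))))))))))))))))))) (move 495 (branch (move 496 (leaf 492 1)) (move 556 (branch (move 555 (leaf 523 1)) (move 588 (branch (move 461 (leaf 460 6)) (move 620 (leaf 492 6)))))))))))))))))))))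
theorem a5p53 : a5e53.Valid :=
  pos_of_chk [a5e30, a5e15] (forall_cons a5p30 (forall_cons a5p15 forall_nil)) a5c53 a5e53 (by decide +kernel)

def a5e54 : Pos := ⟨384428668967314144038986444748558020167088376808025102926089953714390418270268738918863339877041455078728593437922928050078831327984132053504145584302443200512, 3545728636432433125519637428496520105916401164531572160447578107081036889220590872155071283715187982722761083483718806088031282755838296737785727717592406146827461645385294938112, 9⟩
def a5c54 : Cert := (move 555 (branch (move 523 (branch (move 554 (leaf 522 1)) (move 491 (branch (move 490 (leaf 490 3)) (move 492 (branch (move 527 (leaf 491 3)) (move 460 (branch (move 428 (leaf 427 5)) (move 587 (leaf 459 6)))))))))) (branch (move 556 (branch (move 527 (leaf 523 1)) (move 554 (branch (move 553 (leaf 521 2)) (move 557 (leaf 522 2)))))) (branch (move 554 (branch (move 523 (leaf 522 1)) (move 556 (branch (move 553 (leaf 521 2)) (move 557 (leaf 522 2)))))) (move 492 (branch (move 491 (branch (move 527 (leaf 491 3)) (move 490 (branch (move 489 (leaf 489 0)) (move 523 (leaf 490 3)))))) (branch (move 556 (branch (move 527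 (leaf 523 1)) (move 460 (branch (move 587 (leaf 459 5)) (move 557 (branch (move 428 (leaf 428 4)) (move 589 (leaf 460 4)))))))) (move 460 (branch (move 556 (branch (move 587 (leaf 459 5)) (move 557 (branch (move 589 (leaf 460 4)) (move 459 (branch (move 427 (leaf 427 7)) (move 491 (branch (move 588 (leaf 459 7)) (move 490 (branch (move 489 (leaf 489 0)) (move 523 (leaf 490 3)))))))))))) (branch (move 556 (branch (move 587 (leaf 459 5)) (move 557 (branch (move 428 (leaf 428 4)) (move 589 (leaf 460 4)))))) (branch (move 428 (branch (move 557 (leaf 428 4)) (move 523 (leaf 427 5)))) (move 523 (branch (move 428 (leaf 427 5)) (move 587 (branch (move 556 (leaf 459 5)) (move 491 (leaf 459 6)))))))))))))))))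
theorem a5p54 : a5e54.Valid :=
  pos_of_chk [] forall_nil a5c54 a5e54 (by decide +kernel)

def a5e55 : Pos := ⟨329510287737415994567508455074862963441864131160263691620357133376582500429589581070705902671800913831502475402273685625274981533505418536533012624431780986880, 8702164877855640807780383281645579567604885366864826779682408407075118680446835625522347986779640248905729643181751269326863693939197546899182537699850752757736967215617208759248469622784, 10⟩
def a5c55 : Cert := (move 524 (branch (move 495 (branch (move 523 (leaf 491 2)) (move 496 (branch (move 497 (leaf 493 1)) (move 527 (leaf 492 2)))))) (branch (move 523 (branch (move 495 (leaf 491 2)) (move 554 (branch (move 555 (leaf 522 1)) (move 522 (branch (move 553 (leaf 521 1)) (move 490 (branch (move 489 (leaf 489 3)) (move 491 (leaf 490 3)))))))))) (branch (ref 0) (move 527 (branch (move 556 (branch (move 555 (leaf 523 1)) (move 557 (branch (move 528 (leaf 524 1)) (move 589 (branch (move 621 (leaf 493 6)) (move 492 (branch (move 491 (leaf 491 3)) (move 460 (leaf 460 4)))))))))) (branch (ref 1) (move 492 (branch (move 491 (leaf 491 3)) (move 556 (branch (move 555 (leaf 523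 1)) (move 460 (branch (move 495 (branch (move 496 (leaf 492 2)) (move 461 (branch (move 429 (leaf 428 6)) (move 459 (branch (move 462 (leaf 459 0)) (move 427 (leaf 427 7)))))))) (move 557 (branch (move 428 (leaf 428 4)) (move 589 (leaf 460 4)))))))))))))))))
theorem a5p55 : a5e55.Valid :=
  pos_of_chk [a5e54, a5e15] (forall_cons a5p54 (forall_cons a5p15 forall_nil)) a5c55 a5e55 (by decide +kernel)

def a5e56 : Pos := ⟨329510287737415994567508455074862963441864131160263691620357133376582500429589581070705902671800913831502475402273685625274981533505418536533012624431780986880, 30457577075280672374647811135615013963969442859328332574495642676234091867769748761055029365021549920984658871499005142966052525855286621842960035940956511906239777991193833264608998064128, 14⟩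
def a5c56 : Cert := (move 493 (branch (move 492 (branch (move 491 (branch (move 490 (leaf 490 0)) (move 462 (branch (move 463 (leaf 459 2)) (move 430 (branch (move 398 (leaf 397 5)) (move 459 (branch (move 458 (leaf 458 3)) (move 460 (branch (move 495 (leaf 459 3)) (move 431 (branch (move 461 (leaf 427 2)) (move 399 (leaf 398 6)))))))))))))) (branch (move 527 (branch (move 491 (leaf 491 0)) (move 528 (leaf 492 3)))) (move 495 (branch (move 527 (branch (move 528 (leaf 492 0)) (move 463 (branch (move 464 (leaf 460 2)) (move 431 (branch (move 399 (leaf 398 5)) (move 430 (branch (move 398 (leaf 398 7)) (move 460 (branch (move 459 (leaf 459 3)) (move 432 (branch (move 400 (leaf 399 6)) (move 461 (branch (move 429 (leaf 428 1)) (move 462 (leaf 428 2)))))))))))))))) (branch (move 496 (branch (move 497 (leaf 493 1)) (move 460 (branch (move 459 (leaf 459 3)) (move 461 (leaf 460 3)))))) (move 528 (branch (move 527 (leaf 492 0)) (move 496 (branch (move 529 (leaf 493 0)) (move 497 (leaf 493 1)))))))))))) (branch (ref 0) (branch (move 492 (branch (move 527 (branch (move 491 (leaf 491 0)) (move 528 (leaf 492 3)))) (branch (move 491 (branch (move 490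 (leaf 490 0)) (move 459 (branch (move 458 (leaf 458 3)) (move 495 (branch (move 460 (leaf 459 3)) (move 463 (branch (move 462 (leaf 459 2)) (move 464 (leaf 460 2)))))))))) (move 495 (branch (move 528 (branch (move 527 (leaf 492 0)) (move 496 (branch (move 529 (leaf 493 0)) (move 497 (leaf 493 1)))))) (branch (move 460 (branch (move 459 (leaf 459 3)) (move 557 (branch (move 589 (leaf 460 7)) (move 462 (branch (move 430 (leaf 429 5)) (move 464 (branch (move 463 (leaf 460 2)) (move 496 (branch (move 497 (leaf 493 1)) (move 465 (leaf 461 2)))))))))))) (move 527 (branch (move 528 (leaf 492 0)) (move 460 (branch (move 459 (leaf 459 3)) (move 557 (branch (move 589 (leaf 460 7)) (move 430 (branch (move 462 (leaf 429 5)) (move 463 (branch (move 464 (leaf 460 2)) (move 431 (branch (move 399 (leaf 398 5)) (move 398 (leaf 398 7)))))))))))))))))))) (branch (move 557 (branch (move 462 (branch (move 430 (leaf 429 5)) (move 589 (leaf 461 6)))) (branch (move 589 (branch (move 621 (leaf 493 6)) (move 492 (branch (move 460 (leaf 460 7)) (move 491 (branch (move 490 (leaf 490 0)) (move 588 (branch (move 620 (leaf 492 5)) (move 556 (branch (move 461 (leaf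 460 5)) (move 555 (branch (move 554 (leaf 522 2)) (move 590 (branch (move 591 (leaf 555 3)) (move 622 (leaf 493 4)))))))))))))))) (move 461 (branch (move 430 (branch (move 462 (leaf 429 5)) (move 429 (branch (move 397 (leaf 397 4)) (move 398 (leaf 397 6)))))) (branch (move 462 (branch (move 430 (leaf 429 5)) (move 460 (branch (move 428 (leaf 428 7)) (move 459 (branch (move 458 (leaf 458 0)) (move 491 (branch (move 490 (leaf 458 1)) (move 463 (branch (move 492 (leaf 459 1)) (move 464 (branch (move 465 (leaf 461 1)) (move 432 (branch (move 431 (leaf 428 2)) (move 433 (leaf 429 2)))))))))))))))) (move 556 (branch (move 588 (leaf 460 5)) (move 527 (branch (move 528 (leaf 524 1)) (move 492 (branch (move 491 (leaf 491 0)) (move 428 (branch (move 460 (leaf 428 7)) (move 429 (branch (move 397 (leaf 397 4)) (move 396 (leaf 396 7)))))))))))))))))) (branch (move 492 (branch (move 527 (branch (move 491 (leaf 491 0)) (move 528 (leaf 492 3)))) (branch (move 491 (branch (move 490 (leaf 490 0)) (move 462 (branch (move 463 (leaf 459 2)) (move 430 (branch (move 398 (leaf 397 5)) (move 557 (leaf 429 5)))))))) (move 495 (branch (move 528 (branch (move 527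 (leaf 492 0)) (move 496 (branch (move 529 (leaf 493 0)) (move 497 (leaf 493 1)))))) (branch (move 496 (branch (move 497 (leaf 493 1)) (move 464 (branch (move 463 (leaf 460 2)) (move 465 (leaf 461 2)))))) (move 527 (branch (move 528 (leaf 492 0)) (move 463 (branch (move 464 (leaf 460 2)) (move 431 (branch (move 399 (leaf 398 5)) (move 430 (branch (move 398 (leaf 398 7)) (move 557 (branch (move 462 (leaf 429 5)) (move 589 (branch (move 621 (leaf 493 6)) (move 588 (branch (move 620 (leaf 492 5)) (move 556 (branch (move 461 (leaf 460 5)) (move 590 (branch (move 622 (leaf 493 4)) (move 555 (branch (move 554 (leaf 554 0)) (move 591 (leaf 555 3)))))))))))))))))))))))))))) (move 557 (branch (move 462 (branch (move 430 (leaf 429 5)) (move 589 (leaf 461 6)))) (branch (move 589 (branch (move 621 (leaf 493 6)) (move 588 (branch (move 620 (leaf 492 5)) (move 556 (branch (move 461 (leaf 460 5)) (move 590 (branch (move 622 (leaf 493 4)) (move 555 (branch (move 554 (leaf 554 0)) (move 591 (leaf 555 3)))))))))))) (move 461 (branch (move 430 (branch (move 462 (leaf 429 5)) (move 429 (branch (move 397 (leaf 397 4)) (move 398 (leaf 397 6)))))) (branch (move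 460 (branch (move 428 (leaf 428 7)) (move 495 (branch (move 496 (leaf 460 3)) (move 459 (branch (move 458 (leaf 458 0)) (move 462 (leaf 459 0)))))))) (move 429 (branch (move 397 (leaf 397 4)) (move 428 (branch (move 396 (leaf 396 7)) (move 460 (leaf 428 7))))))))))))))))))
theorem a5p56 : a5e56.Valid :=
  pos_of_chk [a5e26] (forall_cons a5p26 forall_nil) a5c56 a5e56 (by decide +kernel)

def a5e57 : Pos := ⟨471745303487121338048655194910897272832129261732074667108435922426215861349085452407536670134893725739776097150166326505876855568312556516573330968462691856216875859968, 26756803913479332758395820105307727591973591423481163293486652210396717608790520360920337773759873006874022814184825230602259512247041195350089434698535938986310591578112, 7⟩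
def a5c57 : Cert := (move 527 (branch (move 491 (branch (move 492 (leaf 491 3)) (move 523 (branch (move 490 (leaf 490 3)) (move 522 (branch (move 493 (leaf 490 2)) (move 521 (branch (move 556 (leaf 521 0)) (move 553 (branch (move 552 (leaf 520 1)) (move 554 (leaf 521 1)))))))))))) (branch (move 528 (branch (move 556 (leaf 524 1)) (move 561 (branch (move 560 (leaf 525 0)) (move 529 (branch (move 562 (leaf 526 0)) (move 497 (branch (move 496 (leaf 493 2)) (move 498 (leaf 494 2)))))))))) (move 492 (branch (move 491 (leaf 491 3)) (move 528 (branch (move 493 (leaf 492 3)) (move 561 (branch (move 560 (leaf 525 0)) (move 529 (branch (move 562 (leaf 526 0)) (move 497 (branch (move 496 (leaf 493 2)) (move 498 (leaf 494 2)))))))))))))))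
theorem a5p57 : a5e57.Valid :=
  pos_of_chk [] forall_nil a5c57 a5e57 (by decide +kernel)

def a5e58 : Pos := ⟨384428669018460872287363661467514109180019613561410134895512841050066845896770829487686379797092550271320845893405532489571957437503151687033604850760701444096, 65407148726864908949184418709123573632977371494723583089672102936966397055361961505764419316735702077505717384553328224250437205991300012818516107657189932382579913276738223207532376448240206217216, 11⟩
def a5c58 : Cert := (move 523 (branch (move 522 (branch (move 493 (leaf 490 2)) (move 553 (branch (move 554 (leaf 521 1)) (move 521 (branch (move 552 (leaf 520 1)) (move 489 (branch (move 488 (leaf 488 3)) (move 490 (leaf 489 3)))))))))) (branch (move 522 (branch (move 553 (branch (move 554 (leaf 521 1)) (move 521 (branch (move 552 (leaf 520 1)) (move 489 (branch (move 488 (leaf 488 3)) (move 490 (leaf 489 3)))))))) (branch (move 554 (branch (move 553 (leaf 521 1)) (move 555 (leaf 522 1)))) (move 489 (branch (move 490 (leaf 489 3)) (move 521 (branch (move 488 (leaf 488 3)) (move 556 (branch (move 557 (leaf 521 0)) (move 555 (branch (move 520 (leaf 520 0)) (move 527 (leaf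 523 1))))))))))))) (branch (move 522 (branch (move 493 (leaf 490 2)) (move 489 (branch (move 490 (leaf 489 3)) (move 521 (branch (move 488 (leaf 488 3)) (move 556 (branch (move 557 (leaf 521 0)) (move 555 (branch (move 520 (leaf 520 0)) (move 527 (leaf 523 1)))))))))))) (move 555 (branch (move 554 (leaf 522 1)) (move 556 (branch (move 527 (leaf 523 1)) (move 588 (branch (move 620 (branch (move 652 (leaf 523 7)) (move 619 (branch (move 651 (leaf 523 5)) (move 587 (branch (move 492 (leaf 491 5)) (move 621 (branch (move 653 (leaf 524 4)) (move 586 (branch (move 585 (leaf 585 0)) (move 622 (leaf 586 3)))))))))))) (branch (move 493 (branch (move 620 (leaf 492 6)) (move 461 (branch (move 429 (leaf 428 5)) (move 557 (leaf 460 5)))))) (move 492 (branch (move 460 (branch (move 428 (leaf 427 5)) (move 589 (branch (move 557 (leaf 460 4)) (move 621 (leaf 492 4)))))) (branch (move 587 (branch (move 619 (leaf 491 5)) (move 589 (branch (move 621 (leaf 492 4)) (move 493 (branch (move 461 (leaf 460 6)) (move 557 (branch (move 462 (leaf 461 6)) (move 590 (branch (move 591 (leaf 555 3)) (move 622 (leaf 493 4)))))))))))) (move 587 (branch (move 460 (leaf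 459 5)) (move 619 (leaf 491 5))))))))))))))))))
theorem a5p58 : a5e58.Valid :=
  pos_of_chk [] forall_nil a5c58 a5e58 (by decide +kernel)

def a5e59 : Pos := ⟨329510287737415994567508455074862963441864131160263691620357133376582500429589581070705902671800913831502475402273685625274981533505418536533012624431780986880, 65407148727952679558536474336434702017158106038776202282604687359491918926761434248152657911721491914628579812556013868018359507058071609422746357940298649109884935035000680439707243673799335346176, 12⟩
def a5c59 : Cert := (move 524 (branch (ref 0) (branch (ref 1) (branch (ref 2) (branch (ref 3) (branch (ref 4) (branch (move 557 (branch (ref 5) (branch (move 589 (branch (move 621 (leaf 493 6)) (move 462 (branch (move 430 (leaf 429 5)) (move 493 (leaf 461 6)))))) (move 492 (branch (move 491 (branch (move 527 (leaf 491 3)) (move 490 (branch (move 489 (leaf 489 0)) (move 523 (leaf 490 3)))))) (move 589 (branch (move 621 (leaf 493 6)) (move 460 (branch (move 428 (leaf 428 4)) (move 556 (leaf 460 4))))))))))) (ref 6))))))))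
theorem a5p59 : a5e59.Valid :=
  pos_of_chk [a5e24, a5e23, a5e34, a5e35, a5e54, a5e57, a5e58] (forall_cons a5p24 (forall_cons a5p23 (forall_cons a5p34 (forall_cons a5p35 (forall_cons a5p54 (forall_cons a5p57 (forall_cons a5p58 forall_nil))))))) a5c59 a5e59 (by decide +kernel)

def a5e60 : Pos := ⟨384428669018460872299272187126373332474779734829847201186362901103567864996422764911061973893542461847097160068299834747719490591500216746296635763843923968000, 235872651551346334847550895008089828304368738264027745476633651992021074762958945554226034828597666431916635693956723287556452582108264080720033022499457904387756654592, 9⟩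
def a5c60 : Cert := (move 430 (branch (move 398 (branch (move 493 (leaf 397 5)) (move 399 (branch (move 367 (leaf 366 6)) (move 431 (leaf 398 6)))))) (branch (move 399 (branch (move 431 (leaf 398 6)) (move 398 (branch (move 367 (leaf 366 6)) (move 397 (branch (move 365 (leaf 365 7)) (move 429 (leaf 397 7)))))))) (branch (move 493 (branch (move 398 (leaf 397 5)) (move 429 (branch (move 397 (leaf 397 7)) (move 461 (branch (move 556 (leaf 428 5)) (move 495 (branch (move 496 (leaf 492 1)) (move 460 (branch (move 459 (leaf 459 0)) (move 428 (branch (move 396 (leaf 396 7)) (move 463 (branch (move 427 (leaf 427 0)) (move 464 (leaf 428 3)))))))))))))))) (move 461 (branch (move 431 (branch (move 399 (leaf 398 6)) (move 460 (branch (move 459 (leaf 427 2)) (move 432 (branch (move 433 (leaf 429 1)) (move 463 (leaf 428 2)))))))) (branch (move 429 (branch (move 397 (leaf 397 7)) (move 493 (branch (move 556 (leaf 428 5)) (move 495 (branch (move 496 (leaf 492 1)) (move 428 (branch (move 396 (leaf 396 7)) (move 427 (branch (move 426 (leaf 426 0)) (move 463 (leaf 427 0)))))))))))) (move 429 (branch (move 397 (leaf 397 7)) (move 431 (branch (move 399 (leaf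 398 6)) (move 460 (branch (move 432 (leaf 428 1)) (move 459 (leaf 427 2)))))))))))))))
theorem a5p60 : a5e60.Valid :=
  pos_of_chk [] forall_nil a5c60 a5e60 (by decide +kernel)

def a5e61 : Pos := ⟨384428669018460872287363661467514109180019613561410134895512841050066845896770829487686379797092550271320845893405532489571957437503151687033604850760701444096, 4351082438168021397341203981728951534642213279242049027582541399042009665422026786037599227938897313132076668208322969350841892332010269481598675794154929470496106823697091348924481929216, 6⟩
def a5c61 : Cert := (move 523 (branch (move 491 (branch (move 490 (leaf 490 3)) (move 555 (branch (move 554 (leaf 522 1)) (move 556 (branch (move 527 (leaf 523 1)) (move 588 (branch (move 459 (leaf 459 4)) (move 620 (leaf 491 7)))))))))) (branch (move 522 (branch (move 493 (leaf 490 2)) (move 554 (branch (move 553 (leaf 521 1)) (move 555 (leaf 522 1)))))) (move 522 (branch (move 493 (leaf 490 2)) (move 490 (branch (move 489 (leaf 489 3)) (move 491 (leaf 490 3)))))))))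
theorem a5p61 : a5e61.Valid :=
  pos_of_chk [] forall_nil a5c61 a5e61 (by decide +kernel)

def a5e62 : Pos := ⟨1263122769719765828810464356284616020336992400261730421466545773222023102977331101858041767578413025654560097748339802334443609493540025688423948450939684257792, 747510271034881081159578754115834285135299831208835141968625442876820567742387591079534960333772775890247059802310703990508013327536118111873430018522324547759845906609154358728456310844460372066304, 8⟩
def a5c62 : Cert := (move 464 (branch (move 560 (branch (move 465 (branch (move 433 (leaf 432 6)) (move 592 (branch (move 497 (leaf 464 6)) (move 625 (branch (move 593 (leaf 496 4)) (move 624 (branch (move 657 (leaf 528 4)) (move 623 (branch (move 591 (leaf 495 5)) (move 655 (leaf 527 5)))))))))))) (branch (move 561 (branch (move 593 (leaf 464 4)) (move 432 (branch (move 529 (leaf 432 4)) (move 399 (branch (move 431 (leaf 399 7)) (move 400 (branch (move 367 (leaf 367 7)) (move 401 (branch (move 369 (leaf 368 6)) (move 433 (leaf 400 6)))))))))))) (branch (move 593 (branch (move 561 (leaf 464 4)) (move 592 (branch (move 625 (leaf 496 4)) (move 623 (branch (move 591 (leaf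 495 5)) (move 624 (branch (move 655 (leaf 527 5)) (move 497 (branch (move 465 (leaf 464 6)) (move 529 (leaf 496 6)))))))))))) (move 433 (branch (move 465 (leaf 432 6)) (move 432 (branch (move 401 (leaf 400 6)) (move 399 (branch (move 431 (leaf 399 7)) (move 400 (branch (move 367 (leaf 367 7)) (move 529 (branch (move 497 (leaf 400 4)) (move 561 (leaf 432 4)))))))))))))))) (branch (move 560 (branch (move 463 (branch (move 431 (leaf 431 7)) (move 461 (branch (move 497 (leaf 461 0)) (move 429 (branch (move 428 (leaf 428 3)) (move 493 (branch (move 397 (leaf 397 4)) (move 556 (leaf 428 5)))))))))) (branch (move 463 (branch (move 431 (leaf 431 7)) (move 465 (branch (move 493 (leaf 461 1)) (move 433 (leaf 432 6)))))) (move 465 (branch (move 433 (leaf 432 6)) (move 592 (branch (move 497 (leaf 464 6)) (move 625 (branch (move 593 (leaf 496 4)) (move 624 (branch (move 657 (leaf 528 4)) (move 623 (branch (move 591 (leaf 495 5)) (move 655 (leaf 527 5))))))))))))))) (branch (move 560 (branch (move 463 (branch (move 431 (leaf 431 7)) (move 461 (branch (move 497 (leaf 461 0)) (move 429 (branch (move 428 (leaf 428 3)) (move 493 (branch (move 397 (leaf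 397 4)) (move 556 (leaf 428 5)))))))))) (branch (move 593 (branch (move 561 (leaf 464 4)) (move 592 (branch (move 625 (leaf 496 4)) (move 623 (branch (move 591 (leaf 495 5)) (move 624 (branch (move 655 (leaf 527 5)) (move 497 (branch (move 465 (leaf 464 6)) (move 529 (leaf 496 6)))))))))))) (move 561 (branch (move 593 (leaf 464 4)) (move 432 (branch (move 529 (leaf 432 4)) (move 431 (branch (move 399 (leaf 399 7)) (move 463 (leaf 431 7))))))))))) (branch (move 560 (branch (move 463 (branch (move 431 (leaf 431 7)) (move 465 (branch (move 493 (leaf 461 1)) (move 433 (leaf 432 6)))))) (branch (move 561 (branch (move 593 (leaf 464 4)) (move 432 (branch (move 529 (leaf 432 4)) (move 433 (branch (move 401 (leaf 400 6)) (move 465 (leaf 432 6)))))))) (move 561 (branch (move 593 (leaf 464 4)) (move 432 (branch (move 529 (leaf 432 4)) (move 431 (branch (move 399 (leaf 399 7)) (move 463 (leaf 431 7))))))))))) (branch (move 432 (branch (move 433 (branch (move 401 (leaf 400 6)) (move 463 (branch (move 461 (leaf 429 2)) (move 465 (branch (move 493 (leaf 461 1)) (move 434 (leaf 430 2)))))))) (branch (move 529 (branch (move 561 (leaf 432 4)) (move 497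 (branch (move 400 (leaf 400 4)) (move 463 (branch (move 461 (leaf 461 0)) (move 498 (branch (move 465 (leaf 462 0)) (move 499 (leaf 463 3)))))))))) (move 529 (branch (move 561 (leaf 432 4)) (move 400 (branch (move 497 (leaf 400 4)) (move 401 (branch (move 369 (leaf 368 6)) (move 433 (leaf 400 6))))))))))) (move 432 (branch (move 529 (branch (move 561 (leaf 432 4)) (move 400 (branch (move 497 (leaf 400 4)) (move 401 (branch (move 369 (leaf 368 6)) (move 433 (leaf 400 6)))))))) (branch (move 431 (branch (move 399 (leaf 399 7)) (move 463 (branch (move 560 (leaf 431 7)) (move 461 (branch (move 497 (leaf 461 0)) (move 460 (leaf 428 2)))))))) (move 431 (branch (move 399 (leaf 399 7)) (move 463 (branch (move 560 (leaf 431 7)) (move 433 (branch (move 434 (leaf 430 1)) (move 461 (leaf 429 2)))))))))))))))))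
theorem a5p62 : a5e62.Valid :=
  pos_of_chk [] forall_nil a5c62 a5e62 (by decide +kernel)

def a5e63 : Pos := ⟨384428669018460872299272187126373332474779734829847201186362901103567864996422764911061973893542461847097160068299834747719490591500216746296635763843923968000, 747510271034881081159578754131519816464782403605141060630624723708431385596536740608121392599588925623367111325765030697448127270657651891306236655407055991508057004341297533249164422806521811828736, 10⟩
def a5c63 : Cert := (move 496 (branch (move 495 (branch (move 493 (leaf 492 1)) (move 527 (leaf 492 2)))) (branch (move 495 (branch (move 497 (leaf 493 1)) (move 527 (leaf 492 2)))) (branch (move 495 (branch (move 493 (leaf 492 1)) (move 497 (leaf 493 1)))) (move 528 (branch (move 527 (branch (move 529 (branch (move 493 (leaf 493 3)) (move 561 (branch (move 560 (leaf 525 0)) (move 562 (leaf 526 0)))))) (move 556 (branch (move 555 (leaf 523 1)) (move 557 (leaf 524 1)))))) (branch (move 527 (branch (move 497 (leaf 493 2)) (move 529 (branch (move 493 (leaf 493 3)) (move 561 (branch (move 560 (leaf 525 0)) (move 562 (leaf 526 0)))))))) (branch (move 527 (branch (move 497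 (leaf 493 2)) (move 556 (branch (move 555 (leaf 523 1)) (move 557 (leaf 524 1)))))) (ref 0)))))))))
theorem a5p63 : a5e63.Valid :=
  pos_of_chk [a5e62] (forall_cons a5p62 forall_nil) a5c63 a5e63 (by decide +kernel)

def a5e64 : Pos := ⟨329510287762989358691697063434341007948329749536956207605068577044420714242840626355117422631826461427798601630014987845021544588264928353297742257660910108672, 30457577067176149779118153597653308586330557270025592236500368264873948582934004232270274902894155363994915411580339796930702501387101223758931515481869881028254112334411964537969118806016, 10⟩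
def a5c64 : Cert := (move 557 (branch (move 589 (branch (move 621 (leaf 493 6)) (move 590 (branch (move 622 (leaf 493 4)) (move 588 (branch (move 620 (leaf 492 5)) (move 492 (branch (move 460 (leaf 460 7)) (move 491 (branch (move 490 (leaf 490 0)) (move 523 (branch (move 522 (leaf 490 1)) (move 459 (branch (move 458 (leaf 458 3)) (move 556 (branch (move 555 (leaf 459 4)) (move 524 (leaf 459 7)))))))))))))))))) (branch (move 462 (branch (move 430 (leaf 429 5)) (move 589 (leaf 461 6)))) (move 461 (branch (move 429 (branch (move 397 (leaf 397 4)) (move 556 (branch (move 524 (leaf 428 5)) (move 588 (leaf 460 5)))))) (move 462 (branch (move 430 (leaf 429 5)) (move 460 (branch (move 428 (leaf 428 7)) (move 459 (branch (move 458 (leaf 458 0)) (move 491 (branch (move 490 (leaf 458 1)) (move 463 (branch (move 492 (leaf 459 1)) (move 464 (branch (move 465 (leaf 461 1)) (move 432 (branch (move 431 (leaf 428 2)) (move 433 (leaf 429 2)))))))))))))))))))))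
theorem a5p64 : a5e64.Valid :=
  pos_of_chk [] forall_nil a5c64 a5e64 (by decide +kernel)

def a5e65 : Pos := ⟨329510287762989358691697063434341007948329749536956207605068577044420714242840626355117422631826461427798601630014987845021544588264928353297742257660910108672, 30457577075280672374647811132539584611786592505191944586998400989749176862783787951090707015274358517313243355050507571426575630125070762052090297806097089092097635352112809717855162466304, 7⟩
def a5c65 : Cert := (move 557 (branch (move 462 (branch (move 430 (leaf 429 5)) (move 589 (leaf 461 6)))) (branch (move 589 (branch (move 621 (leaf 493 6)) (move 588 (branch (move 620 (leaf 492 5)) (move 556 (branch (move 461 (leaf 460 5)) (move 590 (branch (move 622 (leaf 493 4)) (move 555 (branch (move 554 (leaf 554 0)) (move 591 (leaf 555 3)))))))))))) (move 461 (branch (move 460 (branch (move 428 (leaf 428 7)) (move 495 (branch (move 496 (leaf 460 3)) (move 459 (branch (move 458 (leaf 458 0)) (move 492 (leaf 459 3)))))))) (move 430 (branch (move 462 (leaf 429 5)) (move 429 (branch (move 397 (leaf 397 4)) (move 398 (leaf 397 6)))))))))))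
theorem a5p65 : a5e65.Valid :=
  pos_of_chk [] forall_nil a5c65 a5e65 (by decide +kernel)

def a5e66 : Pos := ⟨329510287865282815188451496872253185974192223043726271543914351715773569495844807492763502471928651812983106540980196724007796807302967620356660790577426595840, 3039195974009126469271871553778660165369966199144123932851835752225486174163997627993399924400040549685554987801467611946241470393271506042057726223630709890751707540218103988224, 10⟩
def a5c66 : Cert := (move 492 (branch (move 491 (branch (move 490 (leaf 490 0)) (move 459 (branch (move 458 (leaf 458 3)) (move 460 (leaf 459 3)))))) (branch (move 524 (branch (move 523 (leaf 491 1)) (move 463 (branch (move 464 (leaf 460 2)) (move 491 (branch (move 490 (leaf 490 0)) (move 462 (leaf 459 2)))))))) (move 524 (branch (move 523 (leaf 491 1)) (move 460 (branch (move 459 (leaf 459 3)) (move 557 (branch (move 589 (leaf 460 7)) (move 462 (branch (move 430 (leaf 429 5)) (move 463 (branch (move 464 (leaf 460 2)) (move 431 (branch (move 399 (leaf 398 5)) (move 461 (branch (move 432 (leaf 428 2)) (move 556 (branch (move 429 (leaf 428 5)) (move 588 (leaf 460 5)))))))))))))))))))))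
theorem a5p66 : a5e66.Valid :=
  pos_of_chk [] forall_nil a5c66 a5e66 (by decide +kernel)

def a5e67 : Pos := ⟨384428669018460872287363661467514109180019613561410134895512841050066845896770829487686379797092550271320845893405532489571957437503151687033604850760701444096, 2026130675757154626467324543855262035688138383362499963517252643456584636871927266037543510204076233814491989429570239524355860572361652714230395232261866932930667688263896006656, 10⟩
def a5c67 : Cert := (move 527 (branch (move 492 (branch (move 491 (leaf 491 3)) (move 528 (branch (move 493 (leaf 492 3)) (move 561 (branch (move 560 (leaf 525 0)) (move 529 (branch (move 562 (leaf 526 0)) (move 497 (branch (move 496 (leaf 493 2)) (move 498 (leaf 494 2)))))))))))) (branch (ref 0) (branch (move 492 (branch (move 491 (leaf 491 3)) (move 528 (branch (move 493 (leaf 492 3)) (move 561 (branch (move 560 (leaf 525 0)) (move 529 (branch (move 562 (leaf 526 0)) (move 530 (branch (move 495 (leaf 494 3)) (move 498 (branch (move 497 (leaf 494 2)) (move 499 (leaf 495 2)))))))))))))) (move 495 (branch (move 496 (leaf 492 2)) (move 463 (branch (move 492 (branch (move 491 (leaf 491 3))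 (move 493 (branch (move 464 (leaf 460 2)) (move 460 (branch (move 459 (leaf 459 3)) (move 557 (branch (move 428 (leaf 428 4)) (move 589 (leaf 460 7)))))))))) (branch (move 492 (branch (move 491 (leaf 491 3)) (move 431 (branch (move 399 (leaf 398 5)) (move 430 (branch (move 398 (leaf 398 7)) (move 464 (branch (move 493 (leaf 460 2)) (move 465 (branch (move 466 (leaf 462 1)) (move 429 (branch (move 428 (leaf 428 0)) (move 432 (leaf 429 0)))))))))))))) (move 431 (branch (move 399 (leaf 398 5)) (move 430 (branch (move 398 (leaf 398 7)) (move 462 (branch (move 557 (leaf 429 5)) (move 432 (branch (move 400 (leaf 399 6)) (move 461 (branch (move 433 (leaf 429 1)) (move 460 (leaf 428 2)))))))))))))))))))))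
theorem a5p67 : a5e67.Valid :=
  pos_of_chk [a5e15] (forall_cons a5p15 forall_nil) a5c67 a5e67 (by decide +kernel)

def a5e68 : Pos := ⟨823775719266819894046205312608723275085263472770581681096758502437941609634220816823530196799425641789867809822460307403947764669485016891038342661392065101824, 8702164876336042794623439799608994813515477242922638449152463634641126363836055721732775701594595577459491051648718903113373788538044831696953832566823245674788391467514457311261078061056, 7⟩
def a5c68 : Cert := (move 557 (branch (move 495 (branch (move 496 (leaf 492 2)) (move 462 (branch (move 430 (leaf 429 5)) (move 589 (branch (move 493 (leaf 461 6)) (move 621 (leaf 493 6)))))))) (branch (move 556 (branch (move 555 (leaf 523 1)) (move 492 (branch (move 491 (leaf 491 3)) (move 460 (branch (move 428 (leaf 428 4)) (move 589 (leaf 460 4)))))))) (move 495 (branch (move 496 (leaf 492 2)) (move 492 (branch (move 491 (leaf 491 3)) (move 556 (branch (move 555 (leaf 523 1)) (move 460 (branch (move 428 (leaf 428 4)) (move 459 (branch (move 493 (leaf 459 3)) (move 427 (leaf 427 7)))))))))))))))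
theorem a5p68 : a5e68.Valid :=
  pos_of_chk [] forall_nil a5c68 a5e68 (by decide +kernel)

def a5e69 : Pos := ⟨329510287737415994567508455074862963441864131160263691620357133376582500429589581070705902671800913831502475402273685625274981533505418536533012624431780986880, 8702164876336042821129629020863075674862178917388409972199729454693510779202644871767676464533378409638898563736884325327228657989205752072334455180748522087137058579570893702053694013440, 9⟩
def a5c69 : Cert := (move 524 (branch (move 495 (branch (move 523 (leaf 491 2)) (move 496 (branch (move 497 (leaf 493 1)) (move 527 (leaf 492 2)))))) (branch (ref 0) (branch (move 523 (branch (move 495 (leaf 491 2)) (move 522 (branch (move 493 (leaf 490 2)) (move 554 (branch (move 553 (leaf 521 1)) (move 555 (leaf 522 1)))))))) (move 527 (branch (move 492 (branch (move 491 (leaf 491 3)) (move 528 (branch (move 493 (leaf 492 3)) (move 561 (branch (move 560 (leaf 525 0)) (move 529 (branch (move 562 (leaf 526 0)) (move 497 (branch (move 496 (leaf 493 2)) (move 498 (leaf 494 2)))))))))))) (branch (move 556 (branch (move 555 (leaf 523 1)) (move 528 (branch (move 557 (leaf 524 1)) (move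 529 (branch (move 493 (leaf 493 3)) (move 561 (branch (move 560 (leaf 525 0)) (move 562 (leaf 526 0)))))))))) (branch (move 556 (branch (move 555 (leaf 523 1)) (move 528 (branch (move 557 (leaf 524 1)) (move 492 (branch (move 491 (leaf 491 3)) (move 561 (branch (move 560 (leaf 525 0)) (move 529 (branch (move 562 (leaf 526 0)) (move 497 (branch (move 496 (leaf 493 2)) (move 498 (leaf 494 2)))))))))))))) (ref 1)))))))))
theorem a5p69 : a5e69.Valid :=
  pos_of_chk [a5e30, a5e68] (forall_cons a5p30 (forall_cons a5p68 forall_nil)) a5c69 a5e69 (by decide +kernel)

def a5e70 : Pos := ⟨384428669018460872287363661467514109180019613561410134895512841050066845896770829487686379797092550271320845893405532489571957437503151687033604850760701444096, 13053247314504064217940119536024854953352895650990148685282409253748842770089858922849981872527614524895050235863385130509047663054448117098059595993409911846287387486383493861366971760640, 13⟩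
def a5c70 : Cert := (move 527 (branch (move 492 (branch (move 491 (leaf 491 3)) (move 528 (branch (move 493 (leaf 492 3)) (move 561 (branch (move 560 (leaf 525 0)) (move 529 (branch (move 562 (leaf 526 0)) (move 497 (branch (move 496 (leaf 493 2)) (move 498 (leaf 494 2)))))))))))) (branch (move 556 (branch (move 555 (leaf 523 1)) (move 528 (branch (move 557 (leaf 524 1)) (move 529 (branch (move 493 (leaf 493 3)) (move 561 (branch (move 560 (leaf 525 0)) (move 562 (leaf 526 0)))))))))) (branch (move 556 (branch (move 555 (leaf 523 1)) (move 528 (branch (move 557 (leaf 524 1)) (move 492 (branch (move 491 (leaf 491 3)) (move 561 (branch (move 560 (leaf 525 0)) (move 529 (branch (move 562 (leaf 526 0)) (move 497 (branch (move 496 (leaf 493 2)) (move 498 (leaf 494 2)))))))))))))) (move 589 (branch (move 557 (branch (move 621 (leaf 493 6)) (move 462 (branch (move 430 (leaf 429 5)) (move 493 (leaf 461 6)))))) (branch (move 495 (branch (move 496 (leaf 492 2)) (move 492 (branch (move 491 (leaf 491 3)) (move 556 (branch (move 555 (leaf 523 1)) (move 588 (branch (move 621 (leaf 492 4)) (move 493 (branch (move 461 (leaf 460 6)) (move 620 (leaf 492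 6)))))))))))) (branch (move 621 (branch (move 557 (leaf 493 6)) (move 495 (branch (move 496 (leaf 492 2)) (move 556 (branch (move 555 (leaf 523 1)) (move 492 (branch (move 491 (leaf 491 3)) (move 588 (leaf 492 4)))))))))) (move 462 (branch (move 557 (branch (move 430 (leaf 429 5)) (move 493 (leaf 461 6)))) (branch (move 430 (branch (move 557 (leaf 429 5)) (move 495 (branch (move 496 (leaf 492 2)) (move 398 (leaf 398 4)))))) (branch (move 495 (branch (move 496 (leaf 492 2)) (move 430 (branch (move 398 (leaf 398 4)) (move 431 (branch (move 399 (leaf 398 6)) (move 429 (branch (move 397 (leaf 397 7)) (move 492 (branch (move 491 (leaf 491 3)) (move 556 (branch (move 555 (leaf 523 1)) (move 461 (branch (move 493 (leaf 428 5)) (move 432 (branch (move 433 (leaf 429 1)) (move 400 (branch (move 401 (leaf 397 2)) (move 463 (leaf 399 6)))))))))))))))))))) (move 493 (branch (move 557 (leaf 461 6)) (move 492 (branch (move 491 (leaf 491 0)) (move 495 (branch (move 496 (leaf 492 1)) (move 463 (branch (move 464 (leaf 460 2)) (move 556 (branch (move 555 (leaf 523 1)) (move 461 (branch (move 429 (leaf 428 5)) (move 588 (leaf 460 6))))))))))))))))))))))))))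
theorem a5p70 : a5e70.Valid :=
  pos_of_chk [] forall_nil a5c70 a5e70 (by decide +kernel)

def a5e71 : Pos := ⟨219673525315979741810835388270848921292295289719147264262173283757878641081171558163764027572280084693202867107147115714443335893833343044179946512277611479040, 82377571921567316939643569382659291275272727914988331416815251227816820858486593520753058529108100547763976808512320133173865234045096668290000194758768590848, 9⟩
def a5c71 : Cert := (move 431 (branch (move 463 (branch (move 464 (leaf 460 2)) (move 399 (leaf 398 5)))) (branch (move 524 (branch (move 523 (leaf 491 1)) (move 464 (branch (move 463 (leaf 460 2)) (move 432 (branch (move 465 (leaf 429 0)) (move 397 (branch (move 396 (leaf 396 3)) (move 433 (branch (move 398 (leaf 397 3)) (move 401 (branch (move 400 (leaf 397 2)) (move 402 (leaf 398 2)))))))))))))) (branch (move 524 (branch (move 523 (leaf 491 1)) (move 399 (branch (move 463 (leaf 398 5)) (move 400 (branch (move 428 (leaf 396 2)) (move 401 (branch (move 398 (leaf 397 1)) (move 402 (leaf 398 1)))))))))) (move 428 (branch (move 399 (branch (move 400 (leaf 396 2)) (move 427 (branch (move 398 (leaf 395 2)) (move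 395 (branch (move 394 (leaf 394 3)) (move 396 (leaf 395 3)))))))) (branch (move 524 (branch (move 523 (leaf 491 1)) (move 400 (branch (move 399 (leaf 396 2)) (move 432 (branch (move 401 (leaf 397 2)) (move 465 (branch (move 464 (leaf 429 0)) (move 433 (branch (move 466 (leaf 430 0)) (move 397 (branch (move 396 (leaf 396 3)) (move 398 (leaf 397 3)))))))))))))) (branch (move 524 (branch (move 523 (leaf 491 1)) (move 395 (branch (move 396 (leaf 395 3)) (move 427 (branch (move 394 (leaf 394 3)) (move 458 (branch (move 459 (leaf 426 1)) (move 426 (branch (move 457 (leaf 425 1)) (move 398 (branch (move 397 (leaf 394 2)) (move 399 (leaf 395 2)))))))))))))) (branch (move 524 (branch (move 523 (leaf 491 1)) (move 396 (branch (move 395 (leaf 395 3)) (move 432 (branch (move 397 (leaf 396 3)) (move 465 (branch (move 464 (leaf 429 0)) (move 433 (branch (move 466 (leaf 430 0)) (move 401 (branch (move 400 (leaf 397 2)) (move 402 (leaf 398 2)))))))))))))) (move 524 (branch (move 523 (leaf 491 1)) (move 399 (branch (move 400 (leaf 396 2)) (move 427 (branch (move 398 (leaf 395 2)) (move 458 (branch (move 459 (leaf 426 1)) (move 426 (branch (move 457 (leaf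 425 1)) (move 394 (branch (move 393 (leaf 393 3)) (move 395 (leaf 394 3)))))))))))))))))))))))
theorem a5p71 : a5e71.Valid :=
  pos_of_chk [] forall_nil a5c71 a5e71 (by decide +kernel)

def a5e72 : Pos := ⟨329510287737415994567508455074862963441864131160263691620357133376582500429589581070705902671800913831502475402273685625274981533505418536533012624431780986880, 32633118294364683076871244939888136093794717810160286737811806073027320214136626095094866404236428287724882939691252774731708584738385029435562569427748029353873034754870606669854223106048, 14⟩
def a5c72 : Cert := (move 493 (branch (move 495 (branch (move 496 (branch (move 497 (leaf 493 1)) (move 464 (branch (move 465 (leaf 461 2)) (move 463 (branch (move 492 (leaf 460 2)) (move 528 (branch (move 529 (leaf 493 0)) (move 431 (branch (move 399 (leaf 399 4)) (move 560 (leaf 431 7)))))))))))) (branch (move 524 (branch (move 496 (leaf 492 1)) (move 523 (leaf 491 2)))) (ref 0)))) (branch (ref 1) (branch (ref 2) (branch (ref 3) (branch (move 462 (branch (move 430 (branch (move 398 (leaf 397 5)) (move 557 (leaf 429 5)))) (branch (move 430 (branch (move 398 (leaf 397 5)) (move 461 (branch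 (move 431 (branch (move 399 (leaf 398 6)) (move 460 (branch (move 459 (leaf 427 2)) (move 432 (branch (move 433 (leaf 429 1)) (move 463 (leaf 428 2)))))))) (branch (move 429 (branch (move 397 (leaf 397 4)) (move 428 (branch (move 396 (leaf 396 7)) (move 427 (branch (move 426 (leaf 426 0)) (move 463 (leaf 427 0)))))))) (move 429 (branch (move 397 (leaf 397 4)) (move 431 (branch (move 399 (leaf 398 6)) (move 460 (branch (move 432 (leaf 428 1)) (move 459 (leaf 427 2))))))))))))) (move 461 (branch (move 429 (branch (move 397 (leaf 397 4)) (move 428 (branch (move 396 (leaf 396 7)) (move 463 (branch (move 464 (leaf 428 3)) (move 427 (branch (move 426 (leaf 426 0)) (move 460 (leaf 427 3)))))))))) (branch (move 429 (branch (move 397 (leaf 397 4)) (move 524 (branch (move 556 (leaf 428 5)) (move 495 (branch (move 496 (leaf 492 1)) (move 523 (leaf 491 2)))))))) (move 557 (branch (move 589 (leaf 461 6)) (move 460 (branch (move 428 (leaf 428 7)) (move 495 (branch (move 459 (leaf 459 0)) (move 496 (leaf 460 3)))))))))))))) (branch (move 495 (branch (move 496 (branch (move 497 (leaf 493 1)) (move 464 (branch (move 465 (leaf 461 2)) (move 463 (branch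 (move 492 (leaf 460 2)) (move 528 (branch (move 529 (leaf 493 0)) (move 431 (branch (move 399 (leaf 399 4)) (move 560 (leaf 431 7)))))))))))) (branch (move 524 (branch (move 496 (leaf 492 1)) (move 523 (leaf 491 2)))) (ref 4)))) (branch (move 557 (branch (move 462 (branch (move 430 (leaf 429 5)) (move 589 (leaf 461 6)))) (branch (move 589 (branch (move 621 (leaf 493 6)) (move 492 (branch (move 460 (leaf 460 7)) (move 491 (branch (move 490 (leaf 490 0)) (move 588 (branch (move 620 (leaf 492 5)) (move 556 (branch (move 461 (leaf 460 5)) (move 555 (branch (move 554 (leaf 522 2)) (move 590 (branch (move 591 (leaf 555 3)) (move 622 (leaf 493 4)))))))))))))))) (move 461 (branch (move 430 (branch (move 462 (leaf 429 5)) (move 429 (branch (move 397 (leaf 397 4)) (move 398 (leaf 397 6)))))) (branch (move 429 (branch (move 397 (leaf 397 4)) (move 556 (branch (move 524 (leaf 428 5)) (move 588 (leaf 460 5)))))) (move 462 (branch (move 430 (leaf 429 5)) (move 460 (branch (move 428 (leaf 428 7)) (move 495 (branch (move 496 (leaf 460 3)) (move 524 (branch (move 523 (leaf 491 2)) (move 556 (branch (move 588 (leaf 460 5)) (move 555 (branch (move 554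 (leaf 522 2)) (move 492 (branch (move 587 (leaf 459 5)) (move 463 (branch (move 491 (leaf 459 1)) (move 464 (leaf 460 1)))))))))))))))))))))))) (move 495 (branch (move 496 (branch (move 497 (leaf 493 1)) (move 464 (branch (move 465 (leaf 461 2)) (move 463 (branch (move 492 (leaf 460 2)) (move 528 (branch (move 529 (leaf 493 0)) (move 431 (branch (move 399 (leaf 399 4)) (move 560 (leaf 431 7)))))))))))) (branch (move 524 (branch (move 496 (leaf 492 1)) (move 523 (leaf 491 2)))) (move 492 (branch (move 523 (branch (move 524 (leaf 491 1)) (move 491 (branch (move 490 (leaf 490 0)) (move 522 (leaf 490 1)))))) (branch (move 491 (branch (move 490 (leaf 490 0)) (move 463 (branch (move 462 (leaf 459 2)) (move 464 (leaf 460 2)))))) (move 430 (branch (move 462 (branch (move 398 (leaf 397 5)) (move 557 (leaf 429 5)))) (branch (move 524 (branch (move 523 (leaf 491 1)) (move 557 (branch (move 462 (leaf 429 5)) (move 589 (branch (move 621 (leaf 493 6)) (move 588 (branch (move 620 (leaf 492 5)) (move 556 (branch (move 461 (leaf 460 5)) (move 555 (branch (move 554 (leaf 522 2)) (move 590 (branch (move 591 (leaf 555 3)) (move 622 (leaf 493 4))))))))))))))))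 (move 429 (branch (move 461 (branch (move 397 (leaf 397 4)) (move 398 (leaf 397 6)))) (branch (move 524 (branch (move 523 (leaf 491 1)) (move 461 (branch (move 397 (leaf 397 4)) (move 556 (leaf 428 5)))))) (branch (move 524 (branch (move 523 (leaf 491 1)) (move 461 (branch (move 556 (leaf 428 5)) (move 398 (leaf 397 6)))))) (ref 5))))))))))))))))))))))
theorem a5p72 : a5e72.Valid :=
  pos_of_chk [a5e17, a5e18, a5e64, a5e65, a5e66, a5e71] (forall_cons a5p17 (forall_cons a5p18 (forall_cons a5p64 (forall_cons a5p65 (forall_cons a5p66 (forall_cons a5p71 forall_nil)))))) a5c72 a5e72 (by decide +kernel)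

def a5e73 : Pos := ⟨219673525175326239127798042289560671965553166357970805070045718029613809495227084236744948421217640951865734420009991896681029725509952235531828171773940072448, 812917419762833760710010705845240537856214645210004508680950939509427069109195614080728122614718977512277228314092264857924500174745719836525815914680165629611467171904346431092466376541954675572736, 16⟩
def a5c73 : Cert := (move 525 (branch (ref 0) (branch (ref 1) (branch (ref 2) (branch (ref 3) (branch (move 524 (branch (move 495 (branch (move 523 (leaf 491 2)) (move 496 (branch (move 497 (leaf 493 1)) (move 527 (leaf 492 2)))))) (branch (move 523 (branch (move 495 (leaf 491 2)) (move 522 (branch (move 493 (leaf 490 2)) (move 554 (branch (move 553 (leaf 521 1)) (move 555 (leaf 522 1)))))))) (ref 4)))) (branch (ref 5) (branch (move 524 (branch (move 523 (branch (move 495 (leaf 491 2)) (move 491 (branch (move 490 (leaf 490 3)) (move 555 (branch (move 554 (leaf 522 1)) (move 492 (branch (move 527 (leaf 491 3)) (move 460 (branch (move 428 (leaf 427 5)) (move 587 (leaf 459 6)))))))))))) (branch (move 523 (branch (move 495 (leaf 491 2)) (move 522 (branch (move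 493 (leaf 490 2)) (move 554 (branch (move 553 (leaf 521 1)) (move 555 (leaf 522 1)))))))) (branch (ref 6) (branch (ref 7) (move 523 (branch (move 495 (leaf 491 2)) (move 522 (branch (move 493 (leaf 490 2)) (move 490 (branch (move 489 (leaf 489 3)) (move 491 (leaf 490 3))))))))))))) (branch (move 462 (branch (move 430 (branch (move 557 (leaf 429 5)) (move 399 (branch (move 431 (leaf 398 6)) (move 398 (branch (move 367 (leaf 366 6)) (move 397 (branch (move 365 (leaf 365 7)) (move 429 (leaf 397 7)))))))))) (branch (move 524 (branch (move 495 (branch (move 523 (leaf 491 2)) (move 496 (branch (move 497 (leaf 493 1)) (move 527 (leaf 492 2)))))) (branch (ref 8) (ref 9)))) (branch (move 557 (branch (move 430 (leaf 429 5)) (move 589 (branch (move 493 (leaf 461 6)) (move 621 (leaf 493 6)))))) (move 524 (branch (move 523 (branch (move 495 (leaf 491 2)) (move 490 (branch (move 491 (leaf 490 3)) (move 522 (branch (move 489 (leaf 489 3)) (move 554 (branch (move 553 (leaf 521 1)) (move 555 (leaf 522 1)))))))))) (branch (move 495 (branch (move 523 (leaf 491 2)) (move 496 (branch (move 497 (leaf 493 1)) (move 527 (leaf 492 2)))))) (branch (ref 9) (ref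 10))))))))) (branch (move 493 (branch (ref 11) (branch (ref 12) (branch (ref 13) (branch (move 492 (branch (move 491 (branch (move 490 (leaf 490 0)) (move 527 (leaf 491 0)))) (move 495 (branch (move 524 (branch (move 523 (leaf 491 1)) (move 460 (branch (move 459 (leaf 459 3)) (move 557 (branch (move 428 (leaf 428 4)) (move 589 (leaf 460 7)))))))) (move 496 (branch (move 497 (leaf 493 1)) (move 464 (branch (move 463 (leaf 460 2)) (move 465 (leaf 461 2)))))))))) (branch (move 524 (branch (move 495 (branch (move 496 (leaf 492 1)) (move 523 (leaf 491 2)))) (move 461 (branch (move 429 (branch (move 397 (leaf 397 4)) (move 430 (branch (move 398 (leaf 397 6)) (move 462 (branch (move 557 (leaf 429 5)) (move 428 (branch (move 396 (leaf 396 7)) (move 463 (branch (move 427 (leaf 427 0)) (move 464 (leaf 428 3)))))))))))) (branch (move 429 (branch (move 397 (leaf 397 4)) (move 556 (leaf 428 5)))) (move 557 (branch (move 589 (branch (move 621 (leaf 493 6)) (move 588 (branch (move 556 (leaf 460 5)) (move 620 (leaf 492 5)))))) (branch (move 462 (branch (move 430 (leaf 429 5)) (move 589 (leaf 461 6)))) (move 462 (branch (move 430 (leaf 429 5)) (move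 556 (branch (move 588 (leaf 460 5)) (move 555 (branch (move 527 (leaf 523 1)) (move 554 (leaf 522 2)))))))))))))))) (move 495 (branch (move 524 (branch (move 496 (leaf 492 1)) (move 523 (leaf 491 2)))) (branch (ref 14) (move 496 (branch (move 497 (leaf 493 1)) (move 461 (branch (move 460 (leaf 460 3)) (move 464 (branch (move 465 (leaf 461 2)) (move 492 (branch (move 463 (leaf 460 2)) (move 491 (branch (move 490 (leaf 490 0)) (move 527 (leaf 491 0))))))))))))))))))))) (branch (move 524 (branch (move 495 (branch (move 523 (leaf 491 2)) (move 496 (branch (move 497 (leaf 493 1)) (move 527 (leaf 492 2)))))) (branch (move 523 (branch (move 495 (leaf 491 2)) (move 522 (branch (move 493 (leaf 490 2)) (move 554 (branch (move 553 (leaf 521 1)) (move 555 (leaf 522 1)))))))) (branch (ref 15) (move 462 (branch (move 430 (branch (move 557 (leaf 429 5)) (move 399 (branch (move 431 (leaf 398 6)) (move 398 (branch (move 367 (leaf 366 6)) (move 397 (branch (move 365 (leaf 365 7)) (move 429 (leaf 397 7)))))))))) (branch (ref 8) (branch (move 557 (branch (move 430 (leaf 429 5)) (move 589 (branch (move 493 (leaf 461 6)) (move 621 (leaf 493 6)))))) (ref 10)))))))))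 (branch (move 524 (branch (move 495 (branch (move 523 (leaf 491 2)) (move 496 (branch (move 497 (leaf 493 1)) (move 527 (leaf 492 2)))))) (branch (move 523 (branch (move 495 (leaf 491 2)) (move 522 (branch (move 493 (leaf 490 2)) (move 554 (branch (move 553 (leaf 521 1)) (move 555 (leaf 522 1)))))))) (branch (ref 16) (ref 17))))) (branch (ref 18) (branch (move 524 (branch (move 495 (branch (move 523 (leaf 491 2)) (move 496 (branch (move 497 (leaf 493 1)) (move 527 (leaf 492 2)))))) (branch (move 523 (branch (move 495 (leaf 491 2)) (move 522 (branch (move 493 (leaf 490 2)) (move 490 (branch (move 489 (leaf 489 3)) (move 491 (leaf 490 3)))))))) (branch (move 557 (branch (ref 19) (branch (move 589 (branch (move 621 (leaf 493 6)) (move 462 (branch (move 430 (leaf 429 5)) (move 493 (leaf 461 6)))))) (move 492 (branch (move 491 (branch (move 527 (leaf 491 3)) (move 490 (branch (move 489 (leaf 489 0)) (move 523 (leaf 490 3)))))) (move 589 (branch (move 621 (leaf 493 6)) (move 460 (branch (move 428 (leaf 428 4)) (move 556 (leaf 460 4))))))))))) (ref 17))))) (branch (move 524 (branch (move 495 (branch (move 523 (leaf 491 2)) (move 496 (branch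 (move 497 (leaf 493 1)) (move 527 (leaf 492 2)))))) (branch (ref 20) (branch (move 523 (branch (move 495 (leaf 491 2)) (move 522 (branch (move 493 (leaf 490 2)) (move 554 (branch (move 553 (leaf 521 1)) (move 555 (leaf 522 1)))))))) (ref 21))))) (branch (move 524 (branch (move 495 (branch (move 523 (leaf 491 2)) (move 496 (branch (move 497 (leaf 493 1)) (move 527 (leaf 492 2)))))) (branch (ref 4) (move 523 (branch (move 495 (leaf 491 2)) (move 522 (branch (move 493 (leaf 490 2)) (move 490 (branch (move 489 (leaf 489 3)) (move 491 (leaf 490 3))))))))))) (ref 22)))))))))))))))))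
theorem a5p73 : a5e73.Valid :=
  pos_of_chk [a5e53, a5e55, a5e56, a5e59, a5e23, a5e25, a5e24, a5e32, a5e60, a5e61, a5e63, a5e64, a5e65, a5e39, a5e66, a5e58, a5e34, a5e67, a5e69, a5e57, a5e30, a5e70, a5e72] (forall_cons a5p53 (forall_cons a5p55 (forall_cons a5p56 (forall_cons a5p59 (forall_cons a5p23 (forall_cons a5p25 (forall_cons a5p24 (forall_cons a5p32 (forall_cons a5p60 (forall_cons a5p61 (forall_cons a5p63 (forall_cons a5p64 (forall_cons a5p65 (forall_cons a5p39 (forall_cons a5p66 (forall_cons a5p58 (forall_cons a5p34 (forall_cons a5p67 (forall_cons a5p69 (forall_cons a5p57 (forall_cons a5p30 (forall_cons a5p70 (forall_cons a5p72 forall_nil))))))))))))))))))))))) a5c73 a5e73 (by decide +kernel)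

def a5e74 : Pos := ⟨219673525175326239139706567948419895260313287626407871360895778083114828594879019660120542517667552527642048594904294154828562879507017294794859084857162596352, 4052261298678835292692005692796940685204974690217033071669079772961411421163913252954372588852477531095745940497627986572294771966818152938239251859604177775542967773488329261056, 7⟩
def a5c74 : Cert := (move 430 (branch (move 397 (branch (move 429 (leaf 397 7)) (move 398 (branch (move 365 (leaf 365 7)) (move 495 (branch (move 527 (leaf 398 4)) (move 366 (branch (move 463 (leaf 366 4)) (move 367 (branch (move 335 (leaf 334 6)) (move 399 (leaf 366 6)))))))))))) (branch (move 397 (branch (move 429 (leaf 397 7)) (move 398 (branch (move 365 (leaf 365 7)) (move 399 (branch (move 367 (leaf 366 6)) (move 431 (leaf 398 6)))))))) (branch (move 397 (branch (move 429 (leaf 397 7)) (move 398 (branch (move 365 (leaf 365 7)) (move 495 (branch (move 527 (leaf 398 4)) (move 463 (branch (move 366 (leaf 366 4)) (move 558 (branch (move 431 (leaf 430 6)) (move 590 (leaf 462 6)))))))))))) (branch (move 431 (branch (move 399 (leaf 398 6)) (move 463 (branch (move 558 (leaf 430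 6)) (move 429 (branch (move 397 (leaf 397 7)) (move 464 (branch (move 428 (leaf 428 0)) (move 465 (leaf 429 3)))))))))) (move 398 (branch (move 495 (branch (move 527 (leaf 398 4)) (move 463 (branch (move 366 (leaf 366 4)) (move 558 (branch (move 431 (leaf 430 6)) (move 590 (leaf 462 6)))))))) (branch (move 495 (branch (move 527 (leaf 398 4)) (move 366 (branch (move 463 (leaf 366 4)) (move 367 (branch (move 335 (leaf 334 6)) (move 399 (leaf 366 6)))))))) (move 399 (branch (move 367 (leaf 366 6)) (move 431 (leaf 398 6))))))))))))
theorem a5p74 : a5e74.Valid :=
  pos_of_chk [] forall_nil a5c74 a5e74 (by decide +kernel)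

def a5e75 : Pos := ⟨219673525175326239139706567948419895260313287626407871360895778083114828594879019660120542517667552527642048594904294154828562879507017294794859084857162596352, 149502054219159247058786210733587580690597647022358889275520322606582558474456017162263339223704195487975473313735957019012109962595116283666090854815100504776680058621735189676196412340657822105600, 9⟩
def a5c75 : Cert := (move 495 (branch (move 430 (branch (move 525 (branch (move 557 (leaf 429 5)) (move 496 (branch (move 497 (leaf 493 1)) (move 524 (branch (move 523 (leaf 491 2)) (move 527 (leaf 492 2)))))))) (branch (move 398 (branch (move 527 (leaf 398 4)) (move 397 (branch (move 365 (leaf 365 7)) (move 429 (leaf 397 7)))))) (move 525 (branch (move 557 (leaf 429 5)) (move 496 (branch (move 497 (leaf 493 1)) (move 397 (branch (move 429 (leaf 397 7)) (move 398 (branch (move 365 (leaf 365 7)) (move 366 (branch (move 463 (leaf 366 4)) (move 367 (branch (move 335 (leaf 334 6)) (move 399 (leaf 366 6))))))))))))))))) (branch (move 430 (branch (move 398 (branch (move 527 (leaf 398 4)) (move 397 (branch (move 365 (leaf 365 7)) (move 429 (leaf 397 7)))))) (branch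 (move 429 (branch (move 397 (leaf 397 7)) (move 558 (branch (move 461 (leaf 429 7)) (move 590 (branch (move 463 (leaf 462 6)) (move 589 (branch (move 557 (leaf 461 5)) (move 621 (leaf 493 5)))))))))) (move 398 (branch (move 527 (leaf 398 4)) (move 366 (branch (move 463 (leaf 366 4)) (move 367 (branch (move 335 (leaf 334 6)) (move 399 (leaf 366 6))))))))))) (branch (move 496 (branch (move 497 (branch (move 525 (leaf 493 1)) (move 530 (branch (move 529 (leaf 494 0)) (move 498 (branch (move 531 (leaf 495 0)) (move 466 (branch (move 465 (leaf 462 2)) (move 467 (leaf 463 2)))))))))) (move 461 (branch (move 429 (branch (move 558 (leaf 429 7)) (move 397 (branch (move 365 (leaf 365 4)) (move 430 (leaf 397 7)))))) (move 460 (branch (move 459 (leaf 459 0)) (move 463 (leaf 460 0)))))))) (branch (move 430 (branch (move 525 (branch (move 557 (leaf 429 5)) (move 496 (branch (move 497 (leaf 493 1)) (move 524 (branch (move 523 (leaf 491 2)) (move 527 (leaf 492 2)))))))) (branch (move 398 (branch (move 527 (leaf 398 4)) (move 397 (branch (move 365 (leaf 365 7)) (move 429 (leaf 397 7)))))) (move 429 (branch (move 397 (leaf 397 7)) (move 558 (branch (move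 461 (leaf 429 7)) (move 557 (branch (move 525 (leaf 429 5)) (move 589 (leaf 461 5))))))))))) (branch (move 558 (branch (move 461 (branch (move 429 (leaf 429 7)) (move 496 (branch (move 497 (leaf 461 3)) (move 460 (branch (move 459 (leaf 459 0)) (move 463 (leaf 460 0)))))))) (move 589 (branch (move 557 (leaf 461 5)) (move 590 (branch (move 621 (leaf 493 5)) (move 622 (branch (move 527 (leaf 494 6)) (move 623 (branch (move 591 (leaf 494 4)) (move 655 (leaf 526 4)))))))))))) (move 558 (branch (move 590 (branch (move 463 (leaf 462 6)) (move 622 (branch (move 527 (leaf 494 6)) (move 623 (branch (move 591 (leaf 494 4)) (move 655 (leaf 526 4)))))))) (branch (move 557 (branch (move 589 (leaf 461 5)) (move 525 (branch (move 430 (leaf 429 5)) (move 524 (branch (move 523 (leaf 491 2)) (move 496 (branch (move 497 (leaf 493 1)) (move 527 (leaf 492 2)))))))))) (move 590 (branch (move 463 (leaf 462 6)) (move 589 (branch (move 557 (leaf 461 5)) (move 621 (leaf 493 5)))))))))))))))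
theorem a5p75 : a5e75.Valid :=
  pos_of_chk [] forall_nil a5c75 a5e75 (by decide +kernel)

def a5e76 : Pos := ⟨219673525175326239139706567951192564954434102485986285545038861786551265670254836235291022098282173835447674217944268560932702457604408505756262656686136754176, 439347050350652479002856069757797198780879655051070026592025336601937632638642729754814783465098508553079085341639958320783861057997723259423655759638433890304, 8⟩
def a5c76 : Cert := (move 431 (branch (move 399 (leaf 398 6)) (move 432 (branch (move 433 (branch (move 461 (leaf 429 1)) (move 434 (branch (move 463 (leaf 430 1)) (move 466 (branch (move 465 (leaf 430 0)) (move 467 (leaf 431 0)))))))) (branch (move 429 (branch (move 397 (leaf 397 7)) (move 464 (branch (move 465 (leaf 429 0)) (move 463 (branch (move 428 (leaf 428 0)) (move 400 (branch (move 401 (leaf 397 2)) (move 495 (branch (move 368 (leaf 367 5)) (move 527 (leaf 399 6)))))))))))) (move 429 (branch (move 397 (leaf 397 7)) (move 461 (branch (move 460 (leaf 428 1)) (move 433 (leaf 429 1)))))))))))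
theorem a5p76 : a5e76.Valid :=
  pos_of_chk [] forall_nil a5c76 a5e76 (by decide +kernel)

def a5e77 : Pos := ⟨219673525175326239139706567948419895260313287626407871360895778083114828594879019660120542517667552527642048594904294154828562879507017294794859084857162596352, 471745303734254054478264612627898069834294502178265130530909597375425127473048859915191778118343437252093785297087686697269688523602372739739840411522923278156771098624, 10⟩
def a5c77 : Cert := (move 430 (branch (move 399 (branch (move 431 (leaf 398 6)) (move 398 (branch (move 367 (leaf 366 6)) (move 495 (branch (move 527 (leaf 398 4)) (move 366 (branch (move 463 (leaf 366 4)) (move 365 (branch (move 333 (leaf 333 7)) (move 397 (leaf 365 7)))))))))))) (branch (move 397 (branch (move 429 (leaf 397 7)) (move 398 (branch (move 365 (leaf 365 7)) (move 399 (branch (move 367 (leaf 366 6)) (move 431 (leaf 398 6)))))))) (branch (ref 0) (branch (move 398 (branch (move 495 (branch (move 527 (leaf 398 4)) (move 366 (branch (move 463 (leaf 366 4)) (move 525 (branch (move 557 (leaf 429 5)) (move 496 (branch (move 497 (leaf 493 1)) (move 335 (branch (move 367 (leaf 334 6)) (move 334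 (branch (move 303 (leaf 302 6)) (move 333 (branch (move 301 (leaf 301 7)) (move 365 (leaf 333 7)))))))))))))))) (branch (move 397 (branch (move 365 (leaf 365 7)) (move 429 (leaf 397 7)))) (move 495 (branch (move 527 (leaf 398 4)) (move 525 (branch (move 557 (leaf 429 5)) (move 366 (branch (move 463 (leaf 366 4)) (move 429 (branch (move 397 (leaf 397 7)) (move 334 (branch (move 461 (leaf 333 5)) (move 335 (branch (move 303 (leaf 302 6)) (move 367 (leaf 334 6))))))))))))))))) (move 495 (branch (move 431 (branch (move 399 (leaf 398 6)) (move 525 (branch (move 557 (leaf 429 5)) (move 496 (branch (move 497 (leaf 493 1)) (move 524 (branch (move 523 (leaf 491 2)) (move 527 (leaf 492 2)))))))))) (branch (move 525 (branch (move 557 (leaf 429 5)) (move 496 (branch (move 497 (leaf 493 1)) (move 527 (branch (move 524 (leaf 492 2)) (move 398 (leaf 398 4)))))))) (branch (move 431 (branch (move 399 (leaf 398 6)) (move 398 (branch (move 527 (leaf 398 4)) (move 366 (branch (move 463 (leaf 366 4)) (move 335 (branch (move 367 (leaf 334 6)) (move 334 (branch (move 303 (leaf 302 6)) (move 333 (branch (move 301 (leaf 301 7)) (move 365 (leaf 333 7))))))))))))))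 (move 461 (branch (move 496 (branch (move 497 (leaf 461 3)) (move 460 (branch (move 459 (leaf 459 0)) (move 463 (leaf 460 0)))))) (branch (move 431 (branch (move 399 (leaf 398 6)) (move 460 (branch (move 459 (leaf 459 0)) (move 432 (branch (move 429 (leaf 428 1)) (move 433 (leaf 429 1)))))))) (move 399 (branch (move 431 (leaf 398 6)) (move 398 (branch (move 367 (leaf 366 6)) (move 366 (branch (move 463 (leaf 366 4)) (move 334 (branch (move 429 (leaf 333 5)) (move 333 (branch (move 301 (leaf 301 7)) (move 365 (leaf 333 7))))))))))))))))))))))))
theorem a5p77 : a5e77.Valid :=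
  pos_of_chk [a5e76] (forall_cons a5p76 forall_nil) a5c77 a5e77 (by decide +kernel)

def a5e78 : Pos := ⟨1415235909692506676109043840169873021220218790130944895470924563778471962000623684528720286852684011721593102483633601905713803983941287828710754590583896780212447215616, 121830308301122689506728851011755216338703127424627727926708096247111620247771409054641647543182564493436266246337479131819062699545680233155448010790586184147887203964443484603400914468864, 8⟩
def a5c78 : Cert := (move 527 (branch (move 495 (branch (move 496 (leaf 492 2)) (move 528 (branch (move 529 (leaf 525 1)) (move 590 (branch (move 622 (leaf 494 6)) (move 560 (branch (move 561 (leaf 525 0)) (move 592 (branch (move 624 (leaf 495 7)) (move 591 (branch (move 593 (leaf 557 3)) (move 623 (leaf 494 4)))))))))))))) (branch (move 556 (branch (move 555 (leaf 523 1)) (move 495 (branch (move 496 (leaf 492 2)) (move 590 (branch (move 622 (leaf 494 6)) (move 492 (branch (move 491 (leaf 491 3)) (move 460 (branch (move 428 (leaf 428 4)) (move 459 (branch (move 461 (leaf 459 0)) (move 427 (leaf 427 7)))))))))))))) (move 556 (branch (move 555 (leaf 523 1)) (move 528 (leaf 524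 1)))))))
theorem a5p78 : a5e78.Valid :=
  pos_of_chk [] forall_nil a5c78 a5e78 (by decide +kernel)

def a5e79 : Pos := ⟨219673525175326239139706567948419895260313287626407871360895778083114828594879019660120542517667552527642048594904294154828562879507017294794859084857162596352, 186877567828337589334520719258165111609674642939861489464930878069619312689661810447674382362334282969138058080803349504693562289861626380185074596489053110688263511235845761916397289448122666188800, 12⟩
def a5c79 : Cert := (move 558 (branch (move 557 (branch (move 589 (leaf 461 5)) (move 430 (branch (move 525 (leaf 429 5)) (move 431 (branch (move 399 (leaf 398 6)) (move 463 (leaf 430 6)))))))) (branch (move 525 (branch (move 463 (branch (move 431 (leaf 430 6)) (move 495 (branch (move 590 (leaf 462 6)) (move 496 (branch (move 497 (leaf 493 1)) (move 524 (branch (move 523 (leaf 491 2)) (move 527 (leaf 492 2)))))))))) (branch (move 430 (branch (move 557 (leaf 429 5)) (move 431 (branch (move 399 (leaf 398 6)) (move 463 (leaf 430 6)))))) (move 524 (branch (move 523 (branch (move 522 (branch (move 557 (leaf 522 0)) (move 490 (branch (move 489 (leaf 489 3)) (move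 491 (leaf 490 3)))))) (branch (move 522 (branch (move 557 (leaf 522 0)) (move 554 (branch (move 553 (leaf 521 1)) (move 555 (leaf 522 1)))))) (move 555 (branch (move 554 (leaf 522 1)) (move 491 (branch (move 490 (leaf 490 3)) (move 556 (branch (move 527 (leaf 523 1)) (move 459 (branch (move 427 (leaf 427 4)) (move 588 (leaf 459 4))))))))))))) (branch (move 495 (branch (move 523 (leaf 491 2)) (move 496 (branch (move 497 (leaf 493 1)) (move 527 (leaf 492 2)))))) (branch (move 523 (branch (move 495 (leaf 491 2)) (move 557 (branch (move 522 (leaf 522 0)) (move 430 (leaf 429 5)))))) (move 557 (branch (move 430 (leaf 429 5)) (ref 0)))))))))) (branch (move 463 (branch (move 431 (leaf 430 6)) (move 590 (branch (move 495 (leaf 462 6)) (move 623 (branch (move 591 (leaf 494 4)) (move 622 (branch (move 655 (leaf 526 4)) (move 621 (branch (move 589 (leaf 493 5)) (move 653 (leaf 525 5)))))))))))) (move 557 (branch (move 589 (leaf 461 5)) (move 525 (branch (move 430 (leaf 429 5)) (move 524 (branch (ref 0) (branch (move 523 (branch (move 522 (leaf 522 0)) (move 491 (branch (move 490 (leaf 490 3)) (move 492 (branch (move 527 (leaf 491 3)) (move 460 (branch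 (move 428 (leaf 428 4)) (move 555 (branch (move 554 (leaf 522 1)) (move 587 (leaf 459 6)))))))))))) (move 523 (branch (move 522 (leaf 522 0)) (move 495 (leaf 491 2)))))))))))))))
theorem a5p79 : a5e79.Valid :=
  pos_of_chk [a5e78] (forall_cons a5p78 forall_nil) a5c79 a5e79 (by decide +kernel)

def a5e80 : Pos := ⟨51146728331736896330970652076252085632444496005373307710183561324065638532452198595200476223026451679742720246525858187498475048370675658040815910912, 6035313934747954612203209586721593980530775459911555459450252097535981109396398243764892372875686516560492862088234659883746065685623133236810091593728, 7⟩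
def a5c80 : Cert := (move 465 (branch (move 466 (branch (move 495 (leaf 462 1)) (move 499 (branch (move 498 (leaf 463 0)) (move 467 (branch (move 500 (leaf 464 0)) (move 432 (branch (move 431 (leaf 431 3)) (move 433 (branch (move 461 (leaf 429 2)) (move 468 (leaf 432 3)))))))))))) (branch (move 433 (branch (move 434 (leaf 430 2)) (move 461 (branch (move 432 (leaf 429 2)) (move 428 (branch (move 429 (leaf 428 3)) (move 460 (branch (move 427 (leaf 427 3)) (move 495 (branch (move 459 (leaf 459 0)) (move 496 (leaf 460 0)))))))))))) (branch (move 466 (branch (move 495 (leaf 462 1)) (move 499 (branch (move 498 (leaf 463 0)) (move 467 (branch (move 500 (leaf 464 0)) (move 435 (branch (move 434 (leaf 431 2)) (move 436 (leaf 432 2)))))))))) (move 466 (branch (move 434 (branch (move 433 (leaf 430 2)) (move 435 (leaf 431 2)))) (branch (move 499 (branch (move 498 (leaf 463 0)) (move 467 (branch (move 500 (leaf 464 0)) (move 432 (branch (move 431 (leaf 431 3)) (move 433 (branch (move 461 (leaf 429 2)) (move 468 (leaf 432 3)))))))))) (move 499 (branch (move 498 (leaf 463 0)) (move 467 (branch (move 500 (leaf 464 0)) (move 435 (branch (move 434 (leaf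 431 2)) (move 436 (leaf 432 2)))))))))))))))
theorem a5p80 : a5e80.Valid :=
  pos_of_chk [] forall_nil a5c80 a5e80 (by decide +kernel)

def a5e81 : Pos := ⟨219673525124179510968734768012048757663322839117863770281998281095195025116114509343238864224540882577595838276234654393294402270968920546475100753439850758144, 48627135629433572608075666051270770556480020652724924305062090945523506378394892744727616439003855770250850691419978206518395341684244217683882997190005295659144733960446601592832, 10⟩
def a5c81 : Cert := (move 496 (branch (move 497 (leaf 461 0)) (move 428 (branch (move 429 (leaf 428 3)) (move 528 (branch (move 560 (branch (move 431 (leaf 431 7)) (move 561 (branch (move 593 (leaf 464 4)) (move 527 (branch (move 525 (leaf 525 0)) (move 562 (branch (move 529 (leaf 526 0)) (move 563 (leaf 527 3)))))))))) (branch (move 432 (branch (move 433 (leaf 429 2)) (move 400 (branch (move 369 (branch (move 401 (leaf 368 6)) (move 368 (branch (move 337 (leaf 336 6)) (move 336 (branch (move 431 (leaf 335 5)) (move 335 (branch (move 303 (leaf 303 7)) (move 367 (leaf 335 7)))))))))) (branch (move 369 (branch (move 401 (leaf 368 6)) (move 368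 (branch (move 337 (leaf 336 6)) (move 367 (branch (move 335 (leaf 335 7)) (move 399 (leaf 367 7)))))))) (branch (move 431 (branch (move 399 (leaf 399 7)) (move 368 (branch (move 336 (leaf 335 5)) (move 369 (branch (move 337 (leaf 336 6)) (move 401 (leaf 368 6)))))))) (move 399 (branch (move 367 (leaf 367 7)) (move 431 (leaf 399 7)))))))))) (move 432 (branch (move 433 (leaf 429 2)) (move 561 (branch (move 529 (leaf 432 4)) (move 560 (branch (move 593 (leaf 464 4)) (move 527 (branch (move 525 (leaf 525 0)) (move 495 (branch (move 400 (leaf 399 5)) (move 592 (leaf 463 7)))))))))))))))))))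
theorem a5p81 : a5e81.Valid :=
  pos_of_chk [] forall_nil a5c81 a5e81 (by decide +kernel)

def a5e82 : Pos := ⟨219673525175326239163523619266138341849833530163282003942595898190116866794182890506871730710567375679194676944692898671123629187501147413320920911023607644160, 69617319043106432788875278020835610380352882116182272546250869363151471209707017976691748897802996182494776994569400354328215505671264457865256823587750209329093834758726156421768635482112, 12⟩
def a5c82 : Cert := (move 464 (branch (ref 0) (branch (move 465 (branch (ref 1) (branch (move 466 (branch (move 495 (leaf 462 1)) (move 434 (branch (move 433 (leaf 430 2)) (move 435 (leaf 431 2)))))) (move 495 (branch (move 466 (leaf 462 1)) (move 497 (branch (move 498 (leaf 462 0)) (move 496 (branch (move 525 (leaf 493 1)) (move 529 (branch (move 530 (leaf 494 0)) (move 432 (branch (move 400 (leaf 400 4)) (move 561 (leaf 432 7))))))))))))))) (branch (ref 2) (branch (move 465 (branch (move 466 (branch (move 495 (leaf 462 1)) (move 434 (branch (move 433 (leaf 430 2)) (move 435 (leaf 431 2)))))) (branch (move 466 (branch (move 495 (leaf 462 1)) (move 499 (branch (move 498 (leaf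 463 0)) (move 467 (branch (move 500 (leaf 464 0)) (move 432 (branch (move 431 (leaf 431 3)) (move 433 (branch (move 461 (leaf 429 2)) (move 468 (leaf 432 3)))))))))))) (branch (move 466 (branch (move 495 (leaf 462 1)) (move 499 (branch (move 498 (leaf 463 0)) (move 467 (branch (move 500 (leaf 464 0)) (move 435 (branch (move 434 (leaf 431 2)) (move 436 (leaf 432 2)))))))))) (move 433 (branch (move 434 (leaf 430 2)) (move 497 (branch (move 498 (leaf 462 0)) (move 432 (branch (move 461 (leaf 429 2)) (move 400 (branch (move 368 (leaf 368 4)) (move 529 (leaf 400 7)))))))))))))) (branch (move 465 (branch (move 466 (branch (move 495 (leaf 462 1)) (move 434 (branch (move 433 (leaf 430 2)) (move 435 (leaf 431 2)))))) (branch (move 497 (branch (move 498 (leaf 462 0)) (move 496 (branch (move 461 (leaf 461 0)) (move 433 (branch (move 434 (leaf 430 2)) (move 528 (branch (move 401 (leaf 400 5)) (move 560 (leaf 432 6)))))))))) (move 495 (branch (move 466 (leaf 462 1)) (move 497 (branch (move 498 (leaf 462 0)) (move 496 (branch (move 461 (leaf 461 0)) (move 525 (leaf 493 1))))))))))) (branch (move 431 (branch (move 496 (branch (move 497 (branch (move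 461 (leaf 461 0)) (move 498 (branch (move 465 (leaf 462 0)) (move 499 (leaf 463 3)))))) (move 399 (branch (move 367 (leaf 367 4)) (move 528 (branch (move 432 (leaf 399 7)) (move 560 (leaf 431 7)))))))) (branch (move 399 (branch (move 367 (leaf 366 5)) (move 495 (leaf 398 5)))) (move 497 (branch (move 496 (branch (move 461 (leaf 461 0)) (move 498 (branch (move 465 (leaf 462 0)) (move 499 (leaf 463 3)))))) (branch (move 465 (branch (move 498 (leaf 462 0)) (move 466 (branch (move 495 (leaf 462 1)) (move 467 (branch (move 432 (leaf 431 3)) (move 435 (branch (move 434 (leaf 431 2)) (move 436 (leaf 432 2)))))))))) (branch (move 496 (branch (move 461 (leaf 461 0)) (move 495 (branch (move 525 (leaf 493 1)) (move 498 (leaf 462 3)))))) (move 496 (branch (move 461 (leaf 461 0)) (move 495 (branch (move 525 (leaf 493 1)) (move 465 (branch (move 466 (leaf 462 1)) (move 529 (branch (move 530 (leaf 494 0)) (move 432 (branch (move 400 (leaf 400 4)) (move 561 (leaf 432 7))))))))))))))))))) (move 461 (branch (move 496 (branch (move 497 (leaf 461 0)) (move 460 (branch (move 495 (leaf 460 0)) (move 491 (branch (move 492 (leaf 459 1)) (move 459 (branch (move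 490 (leaf 458 1)) (move 427 (branch (move 426 (leaf 426 3)) (move 428 (leaf 427 3)))))))))))) (branch (move 496 (branch (move 497 (leaf 461 0)) (move 495 (branch (move 460 (leaf 460 0)) (move 432 (branch (move 433 (leaf 429 2)) (move 400 (branch (move 368 (leaf 367 5)) (move 527 (leaf 399 5)))))))))) (branch (move 432 (branch (move 433 (leaf 429 2)) (move 460 (branch (move 431 (leaf 428 2)) (move 428 (branch (move 427 (leaf 427 3)) (move 429 (leaf 428 3)))))))) (ref 3))))))))))))
theorem a5p82 : a5e82.Valid :=
  pos_of_chk [a5e7, a5e9, a5e80, a5e81] (forall_cons a5p7 (forall_cons a5p9 (forall_cons a5p80 (forall_cons a5p81 forall_nil)))) a5c82 a5e82 (by decide +kernel)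

def a5e83 : Pos := ⟨219673525175326239139706567948419895260313287626407871360895778083114828594879019660120542517667552527642048594904294154828562879507017294794859084857162596352, 8702164880388304092948466114644470717115629901963419791727175141307274998021493291488951951640362694890030528357603811797052506314737954304393764966592606426496952431054221141261108117504, 6⟩
def a5c83 : Cert := (move 558 (branch (move 463 (branch (move 431 (leaf 430 6)) (move 461 (branch (move 429 (leaf 429 7)) (move 495 (branch (move 590 (leaf 462 6)) (move 496 (branch (move 460 (leaf 460 0)) (move 497 (leaf 461 3)))))))))) (branch (move 557 (branch (move 589 (leaf 461 5)) (move 430 (branch (move 525 (leaf 429 5)) (move 429 (branch (move 397 (leaf 397 7)) (move 461 (leaf 429 7)))))))) (move 463 (branch (move 431 (leaf 430 6)) (move 590 (branch (move 495 (leaf 462 6)) (move 589 (branch (move 557 (leaf 461 5)) (move 621 (leaf 493 5)))))))))))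
theorem a5p83 : a5e83.Valid :=
  pos_of_chk [] forall_nil a5c83 a5e83 (by decide +kernel)

def a5e84 : Pos := ⟨823775719266819894046205312608723275085263472770581681096758502437941609634220816823530196799425641789867809822460307403947764669485016891038342661392065101824, 26417736979901648172339005522941052788970654384390233706271717730641027410987227169770316514212453285866109808415724061545082416459308668465855369894921676174796869599232, 6⟩
def a5c84 : Cert := (move 528 (branch (move 496 (branch (move 495 (leaf 492 2)) (move 497 (leaf 493 2)))) (branch (move 561 (branch (move 560 (leaf 525 0)) (move 529 (branch (move 562 (leaf 526 0)) (move 497 (branch (move 496 (leaf 493 2)) (move 498 (leaf 494 2)))))))) (branch (move 495 (branch (move 496 (leaf 492 2)) (move 529 (branch (move 530 (leaf 494 3)) (move 561 (branch (move 560 (leaf 525 0)) (move 562 (leaf 526 0)))))))) (move 561 (branch (move 560 (leaf 525 0)) (move 529 (branch (move 562 (leaf 526 0)) (move 530 (branch (move 495 (leaf 494 3)) (move 498 (branch (move 497 (leaf 494 2)) (move 499 (leaf 495 2))))))))))))))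
theorem a5p84 : a5e84.Valid :=
  pos_of_chk [] forall_nil a5c84 a5e84 (by decide +kernel)

def a5e85 : Pos := ⟨329510287737415994579416980733722186736624252428700757911207193430083519529241516494081496768250825407278789577167987883422514687502483595796043537515003510784, 8702164877855640808738615928579788849233397362025833696918238794509816872570209636687155132782326261646132572790276016315901989878437665474379006997799263566562155147343482655327626723328, 11⟩
def a5c85 : Cert := (move 524 (branch (move 523 (branch (move 495 (leaf 491 2)) (move 490 (branch (move 491 (leaf 490 3)) (move 522 (branch (move 489 (leaf 489 3)) (move 554 (branch (move 553 (leaf 521 1)) (move 555 (leaf 522 1)))))))))) (branch (move 523 (branch (move 490 (branch (move 491 (leaf 490 3)) (move 522 (branch (move 489 (leaf 489 3)) (move 557 (branch (move 558 (leaf 522 0)) (move 589 (branch (move 621 (leaf 493 6)) (move 553 (branch (move 554 (leaf 521 1)) (move 521 (branch (move 556 (leaf 521 0)) (move 552 (leaf 520 1)))))))))))))) (branch (move 554 (branch (move 555 (leaf 522 1)) (move 522 (branch (move 553 (leaf 521 1)) (move 557 (branch (move 558 (leaf 522 0))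 (move 589 (branch (move 621 (leaf 493 6)) (move 521 (branch (move 556 (leaf 521 0)) (move 489 (branch (move 488 (leaf 488 3)) (move 490 (leaf 489 3)))))))))))))) (branch (move 491 (branch (move 490 (leaf 490 3)) (move 527 (branch (move 492 (leaf 491 3)) (move 556 (branch (move 555 (leaf 523 1)) (move 557 (branch (move 528 (leaf 524 1)) (move 589 (branch (move 558 (leaf 461 5)) (move 621 (leaf 493 6)))))))))))) (branch (move 554 (branch (move 555 (leaf 522 1)) (move 522 (branch (move 553 (leaf 521 1)) (move 557 (branch (move 558 (leaf 522 0)) (move 556 (branch (move 521 (leaf 521 0)) (move 589 (branch (move 621 (leaf 493 6)) (move 492 (branch (move 460 (leaf 460 4)) (move 491 (branch (move 527 (leaf 491 3)) (move 459 (branch (move 427 (leaf 427 4)) (move 588 (leaf 459 7)))))))))))))))))) (move 491 (branch (move 490 (leaf 490 3)) (move 555 (branch (move 554 (leaf 522 1)) (move 492 (branch (move 527 (leaf 491 3)) (move 460 (branch (move 428 (leaf 427 5)) (move 587 (leaf 459 6))))))))))))))) (branch (move 495 (branch (move 523 (leaf 491 2)) (move 496 (branch (move 497 (leaf 493 1)) (move 527 (leaf 492 2)))))) (move 527 (branch (move 556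 (branch (move 555 (leaf 523 1)) (move 557 (branch (move 528 (leaf 524 1)) (move 589 (branch (move 558 (leaf 461 5)) (move 621 (leaf 493 6)))))))) (branch (ref 0) (move 557 (branch (move 556 (branch (move 555 (leaf 523 1)) (move 492 (branch (move 491 (leaf 491 3)) (move 460 (branch (move 428 (leaf 428 4)) (move 461 (branch (move 429 (leaf 428 6)) (move 495 (branch (move 459 (leaf 459 0)) (move 496 (leaf 492 2)))))))))))) (move 589 (branch (move 558 (leaf 461 5)) (move 621 (leaf 493 6)))))))))))))
theorem a5p85 : a5e85.Valid :=
  pos_of_chk [a5e84] (forall_cons a5p84 forall_nil) a5c85 a5e85 (by decide +kernel)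

def a5e86 : Pos := ⟨329510287737415994585371243564538133231064720492708498148703765308552247616755392493354533606783091849069759476135126215548351053549711730908260779971101851648, 412777140736580708311375594983134205072992696945074321002171430598969355152885073347973230979660449111619369456575826398165300231424969530357896195286366895059618496512, 8⟩
def a5c86 : Cert := (move 460 (branch (move 524 (branch (move 495 (branch (move 523 (leaf 491 2)) (move 496 (branch (move 497 (leaf 493 1)) (move 527 (leaf 492 2)))))) (branch (move 492 (branch (move 556 (leaf 428 6)) (move 491 (branch (move 527 (leaf 491 3)) (move 490 (branch (move 489 (leaf 489 0)) (move 523 (leaf 490 3)))))))) (branch (move 492 (branch (move 556 (leaf 428 6)) (move 527 (branch (move 491 (leaf 491 3)) (move 495 (branch (move 496 (leaf 492 2)) (move 430 (branch (move 398 (leaf 398 4)) (move 431 (branch (move 432 (leaf 428 1)) (move 399 (leaf 398 6)))))))))))) (move 523 (branch (move 495 (leaf 491 2)) (move 492 (branch (move 556 (leaf 428 6)) (move 555 (branch (move 554 (leaf 522 1)) (move 428 (leaf 427 5)))))))))))) (branch (move 495 (branch (move 459 (leaf 459 0)) (move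 496 (branch (move 497 (leaf 493 1)) (move 524 (branch (move 523 (leaf 491 2)) (move 527 (leaf 492 2)))))))) (branch (move 459 (branch (move 495 (leaf 459 0)) (move 430 (branch (move 458 (leaf 426 2)) (move 431 (leaf 427 2)))))) (move 430 (branch (move 431 (branch (move 432 (leaf 428 1)) (move 399 (leaf 398 6)))) (move 428 (branch (move 427 (branch (move 426 (leaf 426 0)) (move 395 (branch (move 394 (leaf 394 3)) (move 492 (branch (move 524 (leaf 395 7)) (move 363 (branch (move 331 (leaf 331 4)) (move 396 (leaf 363 7)))))))))) (branch (move 459 (branch (move 458 (leaf 426 2)) (move 491 (branch (move 490 (leaf 458 1)) (move 396 (branch (move 364 (leaf 363 5)) (move 523 (branch (move 492 (leaf 395 5)) (move 555 (leaf 427 6)))))))))) (branch (move 427 (branch (move 426 (leaf 426 0)) (move 459 (branch (move 458 (leaf 426 1)) (move 491 (branch (move 490 (leaf 458 1)) (move 396 (branch (move 364 (leaf 363 5)) (move 523 (leaf 395 6)))))))))) (move 427 (branch (move 426 (leaf 426 0)) (move 459 (branch (move 458 (leaf 426 1)) (move 395 (branch (move 394 (leaf 394 3)) (move 492 (branch (move 363 (leaf 363 4)) (move 524 (leaf 395 7))))))))))))))))))))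
theorem a5p86 : a5e86.Valid :=
  pos_of_chk [] forall_nil a5c86 a5e86 (by decide +kernel)

def a5e87 : Pos := ⟨384428669018460872299272187127759667321840142259636408278434442955286083534110673198647213683849772500999972879819821950771560380548912351777337549758411046912, 26771545957668014724379190309766268226317054761084727862781893214340702524239277307518650313697642091687393396151338632533428181355386401558996390068737463607293571497984, 9⟩
def a5c87 : Cert := (move 527 (branch (move 528 (branch (move 561 (branch (move 560 (leaf 525 0)) (move 529 (branch (move 562 (leaf 526 0)) (move 530 (branch (move 495 (leaf 494 3)) (move 498 (branch (move 497 (leaf 494 2)) (move 499 (leaf 495 2)))))))))) (branch (move 496 (branch (move 495 (leaf 492 2)) (move 497 (leaf 493 2)))) (branch (move 561 (branch (move 560 (leaf 525 0)) (move 529 (branch (move 562 (leaf 526 0)) (move 497 (branch (move 496 (leaf 493 2)) (move 498 (leaf 494 2)))))))) (move 495 (branch (move 496 (leaf 492 2)) (move 529 (branch (move 530 (leaf 494 3)) (move 561 (branch (move 560 (leaf 525 0)) (move 562 (leaf 526 0)))))))))))) (move 428 (branch (move 492 (branch (move 491 (leaf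 491 3)) (move 460 (branch (move 397 (leaf 396 6)) (move 556 (branch (move 555 (leaf 523 1)) (move 427 (branch (move 395 (leaf 395 7)) (move 459 (leaf 427 7)))))))))) (branch (move 430 (branch (move 397 (leaf 397 7)) (move 399 (branch (move 431 (leaf 398 6)) (move 398 (branch (move 427 (leaf 395 2)) (move 367 (leaf 366 6)))))))) (branch (move 397 (branch (move 430 (leaf 397 7)) (move 492 (branch (move 491 (leaf 491 3)) (move 460 (leaf 396 6)))))) (move 492 (branch (move 491 (leaf 491 3)) (move 427 (branch (move 556 (branch (move 555 (leaf 523 1)) (move 459 (branch (move 460 (leaf 427 7)) (move 430 (branch (move 458 (leaf 426 1)) (move 399 (branch (move 398 (leaf 395 2)) (move 431 (leaf 398 6)))))))))) (branch (move 460 (branch (move 395 (leaf 395 7)) (move 556 (branch (move 555 (leaf 523 1)) (move 459 (leaf 427 7)))))) (branch (move 395 (branch (move 460 (leaf 395 7)) (move 430 (branch (move 394 (leaf 394 3)) (move 399 (branch (move 398 (leaf 395 2)) (move 431 (leaf 398 6)))))))) (move 430 (branch (move 394 (branch (move 395 (leaf 394 3)) (move 426 (branch (move 393 (leaf 393 3)) (move 458 (branch (move 457 (leaf 425 1)) (move 459 (leaf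 426 1)))))))) (move 399 (branch (move 398 (leaf 395 2)) (move 431 (leaf 398 6))))))))))))))))))
theorem a5p87 : a5e87.Valid :=
  pos_of_chk [] forall_nil a5c87 a5e87 (by decide +kernel)

def a5e88 : Pos := ⟨329510287737415994579416980733722186736624252428700757911207193430083519529241516494081496768250825407278789577167987883422514687502483595796043537515003510784, 27803488808301262105129363932294234239273685316878109083647843419631587847428106209145539536891919288481685255943088376787893169746870390302890559315404128047398807142400, 14⟩
def a5c88 : Cert := (move 429 (branch (move 461 (branch (move 558 (leaf 429 7)) (move 397 (branch (move 365 (leaf 365 4)) (move 430 (leaf 397 7)))))) (branch (move 461 (branch (move 558 (leaf 429 7)) (ref 0))) (branch (move 461 (branch (move 558 (leaf 429 7)) (move 524 (branch (move 495 (branch (move 523 (leaf 491 2)) (move 496 (branch (move 497 (leaf 493 1)) (move 527 (leaf 492 2)))))) (branch (move 460 (branch (move 492 (branch (move 556 (leaf 428 6)) (move 397 (branch (move 365 (leaf 365 4)) (move 428 (leaf 396 6)))))) (move 495 (branch (move 459 (leaf 459 0)) (move 496 (branch (move 497 (leaf 493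 1)) (move 527 (leaf 492 2)))))))) (branch (move 495 (branch (move 523 (leaf 491 2)) (move 496 (branch (move 497 (leaf 493 1)) (move 460 (branch (move 459 (leaf 459 0)) (move 492 (branch (move 556 (leaf 428 6)) (move 397 (branch (move 365 (leaf 365 4)) (move 428 (leaf 396 6)))))))))))) (move 492 (branch (move 491 (branch (move 527 (leaf 491 3)) (move 490 (branch (move 489 (leaf 489 0)) (move 523 (leaf 490 3)))))) (move 460 (branch (move 556 (leaf 428 6)) (move 397 (branch (move 365 (leaf 365 4)) (move 428 (leaf 396 6)))))))))))))) (move 524 (branch (move 523 (branch (move 495 (leaf 491 2)) (move 490 (branch (move 491 (leaf 490 3)) (move 522 (branch (move 489 (leaf 489 3)) (move 554 (branch (move 553 (leaf 521 1)) (move 555 (leaf 522 1)))))))))) (branch (move 430 (branch (move 397 (leaf 397 7)) (move 523 (branch (move 491 (branch (move 490 (leaf 490 3)) (move 399 (branch (move 431 (leaf 398 6)) (move 398 (branch (move 367 (leaf 366 6)) (move 427 (branch (move 428 (leaf 395 2)) (move 459 (branch (move 556 (leaf 427 4)) (move 492 (branch (move 527 (leaf 491 3)) (move 395 (leaf 395 4)))))))))))))) (branch (move 399 (branch (move 431 (leaf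 398 6)) (move 398 (branch (move 367 (leaf 366 6)) (move 554 (branch (move 555 (leaf 522 1)) (move 522 (branch (move 553 (leaf 521 1)) (move 490 (branch (move 489 (leaf 489 3)) (move 427 (branch (move 428 (leaf 395 2)) (move 458 (branch (move 459 (leaf 426 6)) (move 426 (branch (move 395 (leaf 394 6)) (move 425 (branch (move 393 (leaf 393 7)) (move 457 (leaf 425 7)))))))))))))))))))) (branch (move 555 (branch (move 554 (leaf 522 1)) (move 399 (branch (move 431 (leaf 398 6)) (move 398 (branch (move 367 (leaf 366 6)) (move 428 (branch (move 427 (leaf 395 2)) (move 492 (branch (move 460 (leaf 427 5)) (move 527 (branch (move 556 (leaf 523 1)) (move 491 (leaf 491 3)))))))))))))) (move 555 (branch (move 554 (leaf 522 1)) (move 491 (branch (move 490 (leaf 490 3)) (move 527 (branch (move 556 (leaf 523 1)) (move 492 (leaf 491 3)))))))))))))) (branch (move 430 (branch (move 397 (leaf 397 7)) (move 495 (branch (move 523 (leaf 491 2)) (move 527 (branch (move 496 (leaf 492 2)) (move 398 (leaf 398 4)))))))) (ref 1)))))))))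
theorem a5p88 : a5e88.Valid :=
  pos_of_chk [a5e86, a5e87] (forall_cons a5p86 (forall_cons a5p87 forall_nil)) a5c88 a5e88 (by decide +kernel)

def a5e89 : Pos := ⟨219673525175326239127798042289560671965553166357970805070045718029613809495227084236744948421217640951865734420009991896681029725509952235531828171773940072448, 186877568246041503301396502260117635214277299856630673850333536178649840477931140823432347817478402723227815737714113125714244966802383471496240575777606297346193709777176633387306310945124686757888, 17⟩
def a5c89 : Cert := (move 462 (branch (ref 0) (branch (ref 1) (branch (ref 2) (branch (ref 3) (branch (ref 4) (branch (move 463 (branch (move 461 (branch (move 558 (branch (move 429 (leaf 429 7)) (move 590 (branch (move 495 (leaf 462 6)) (move 589 (branch (move 557 (leaf 461 5)) (move 621 (leaf 493 5)))))))) (branch (move 429 (branch (move 558 (leaf 429 7)) (move 428 (branch (move 464 (leaf 428 3)) (move 427 (branch (move 426 (leaf 426 0)) (move 460 (leaf 427 3)))))))) (move 464 (branch (move 433 (branch (move 432 (leaf 429 2)) (move 465 (branch (move 434 (leaf 430 2)) (move 498 (branch (move 497 (leaf 462 0)) (move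 466 (branch (move 499 (leaf 463 0)) (move 495 (leaf 462 1)))))))))) (branch (move 497 (branch (move 496 (leaf 461 0)) (move 465 (branch (move 498 (leaf 462 0)) (move 433 (branch (move 432 (leaf 429 2)) (move 434 (leaf 430 2)))))))) (branch (move 433 (branch (move 432 (leaf 429 2)) (move 465 (branch (move 434 (leaf 430 2)) (move 495 (branch (move 466 (leaf 462 1)) (move 460 (branch (move 459 (leaf 459 0)) (move 496 (leaf 460 0)))))))))) (move 496 (branch (move 497 (leaf 461 0)) (move 460 (branch (move 495 (leaf 460 0)) (move 491 (branch (move 492 (leaf 459 1)) (move 459 (branch (move 490 (leaf 458 1)) (move 427 (branch (move 426 (leaf 426 3)) (move 428 (leaf 427 3))))))))))))))))))) (branch (ref 5) (branch (move 431 (branch (move 558 (leaf 430 6)) (move 399 (branch (move 367 (leaf 366 5)) (move 495 (leaf 398 5)))))) (ref 6))))) (branch (ref 7) (move 525 (branch (move 557 (branch (move 430 (leaf 429 5)) (move 589 (branch (move 558 (leaf 461 5)) (move 621 (leaf 493 6)))))) (branch (move 430 (branch (move 557 (leaf 429 5)) (move 399 (branch (move 431 (leaf 398 6)) (move 398 (branch (move 367 (leaf 366 6)) (move 397 (branch (move 365 (leaf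 365 7)) (move 429 (leaf 397 7)))))))))) (branch (ref 8) (ref 9)))))))))))))
theorem a5p89 : a5e89.Valid :=
  pos_of_chk [a5e3, a5e74, a5e75, a5e77, a5e79, a5e11, a5e82, a5e83, a5e85, a5e88] (forall_cons a5p3 (forall_cons a5p74 (forall_cons a5p75 (forall_cons a5p77 (forall_cons a5p79 (forall_cons a5p11 (forall_cons a5p82 (forall_cons a5p83 (forall_cons a5p85 (forall_cons a5p88 forall_nil)))))))))) a5c89 a5e89 (by decide +kernel)

def a5e90 : Pos := ⟨943490606534895625797804639826484203462952491840734359522752332972613234028120732550773197788496188653617919164969750802110634040903712845642842158654217548427352342528, 160526608585248391811749478705240570675318940724988270502915199695604744411999109859219412618304062778409285880127583871928793478811596788189454542927022186748007283334535933558530627644526804169090238775296, 6⟩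
def a5c90 : Cert := (move 590 (branch (move 623 (branch (move 591 (leaf 494 4)) (move 622 (branch (move 655 (leaf 526 4)) (move 654 (branch (move 557 (leaf 525 7)) (move 653 (branch (move 621 (leaf 525 5)) (move 685 (leaf 557 5)))))))))) (branch (move 623 (branch (move 591 (leaf 494 4)) (move 622 (branch (move 655 (leaf 526 4)) (move 621 (branch (move 589 (leaf 493 5)) (move 653 (leaf 525 5)))))))) (branch (move 557 (branch (move 589 (leaf 461 5)) (move 622 (branch (move 654 (leaf 525 7)) (move 623 (branch (move 591 (leaf 494 4)) (move 655 (leaf 526 4)))))))) (move 589 (branch (move 557 (leaf 461 5)) (move 621 (leaf 493 5))))))))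
theorem a5p90 : a5e90.Valid :=
  pos_of_chk [] forall_nil a5c90 a5e90 (by decide +kernel)

def a5e91 : Pos := ⟨329510287737415994579416980733722186736624252428700757911207193430083519529241516494081496768250825407278789577167987883422514687502483595796043537515003510784, 943490606205385338085962009381675791061005192701656411671166442260877157180427048897821580881164133315948131907619787753226160388207176593452046830936560749767867498496, 6⟩
def a5c91 : Cert := (move 430 (branch (move 398 (branch (move 493 (leaf 397 5)) (move 397 (branch (move 365 (leaf 365 7)) (move 429 (leaf 397 7)))))) (branch (move 398 (branch (move 493 (leaf 397 5)) (move 399 (branch (move 367 (leaf 366 6)) (move 431 (leaf 398 6)))))) (move 429 (branch (move 397 (leaf 397 7)) (move 461 (branch (move 558 (leaf 429 7)) (move 431 (branch (move 399 (leaf 398 6)) (move 460 (branch (move 432 (leaf 428 1)) (move 459 (leaf 427 2)))))))))))))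
theorem a5p91 : a5e91.Valid :=
  pos_of_chk [] forall_nil a5c91 a5e91 (by decide +kernel)

def a5e92 : Pos := ⟨823775719266819894046205312608723275085263472770581681096758502437941609634220816823530196799425641789867809822460307403947764669485016891038342661392065101824, 46719391939680067572473672132814582409002809378541677820888672987789347498328074939496063215318032436107307633681972639478923672783383072519687626737062050797873112357974275655070860966540269846528, 11⟩
def a5c92 : Cert := (move 461 (branch (move 495 (branch (move 496 (leaf 492 2)) (move 492 (branch (move 491 (leaf 491 3)) (move 556 (branch (move 555 (leaf 523 1)) (move 460 (branch (move 429 (leaf 428 6)) (move 459 (branch (move 462 (leaf 459 0)) (move 427 (leaf 427 7)))))))))))) (branch (move 495 (branch (move 496 (leaf 492 2)) (move 492 (branch (move 491 (leaf 491 3)) (move 556 (branch (move 555 (leaf 523 1)) (move 588 (branch (move 493 (leaf 460 6)) (move 621 (branch (move 589 (leaf 492 4)) (move 620 (branch (move 653 (leaf 524 4)) (move 619 (branch (move 587 (leaf 491 5)) (move 651 (leaf 523 5)))))))))))))))) (branch (move 429 (branch (move 493 (branch (move 558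 (leaf 429 4)) (move 556 (leaf 428 5)))) (branch (move 493 (branch (move 397 (leaf 397 4)) (move 556 (leaf 428 5)))) (move 462 (branch (move 558 (leaf 429 7)) (move 397 (branch (move 365 (leaf 365 4)) (move 430 (leaf 397 7))))))))) (move 429 (branch (move 493 (branch (move 397 (leaf 397 4)) (move 558 (leaf 429 4)))) (branch (move 495 (branch (move 496 (leaf 492 2)) (move 397 (branch (move 493 (leaf 397 4)) (move 462 (branch (move 365 (leaf 365 4)) (move 430 (leaf 397 7)))))))) (branch (move 462 (branch (move 558 (leaf 429 7)) (move 397 (branch (move 365 (leaf 365 4)) (move 430 (leaf 397 7)))))) (move 493 (branch (move 558 (leaf 429 4)) (move 495 (branch (move 496 (leaf 492 1)) (move 492 (branch (move 491 (leaf 491 0)) (move 460 (branch (move 459 (leaf 459 3)) (move 428 (branch (move 396 (leaf 396 4)) (move 430 (branch (move 398 (leaf 397 6)) (move 427 (branch (move 395 (leaf 395 7)) (move 426 (branch (move 425 (leaf 425 0)) (move 462 (leaf 426 0))))))))))))))))))))))))))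
theorem a5p92 : a5e92.Valid :=
  pos_of_chk [] forall_nil a5c92 a5e92 (by decide +kernel)

def a5e93 : Pos := ⟨823775719266819894046205312608723275085263472770581681096758502437941609634220816823530196799425641789867809822460307403947764669485016891038342661392065101824, 4351082438168021397724497040019353492334975532112940665552891028009373944395372504953540992715073196033307905760877984318135325974527780185719509386515792057637777859026845981545666183168, 6⟩
def a5c93 : Cert := (move 493 (branch (move 556 (branch (move 555 (leaf 523 1)) (move 461 (branch (move 429 (leaf 428 5)) (move 588 (branch (move 557 (leaf 460 5)) (move 620 (leaf 492 6)))))))) (branch (move 492 (branch (move 491 (leaf 491 0)) (move 495 (branch (move 496 (leaf 492 1)) (move 556 (branch (move 555 (leaf 523 1)) (move 588 (branch (move 461 (leaf 460 6)) (move 620 (leaf 492 6)))))))))) (move 492 (branch (move 491 (leaf 491 0)) (move 495 (branch (move 496 (leaf 492 1)) (move 460 (branch (move 459 (leaf 459 3)) (move 428 (branch (move 396 (leaf 396 4)) (move 557 (leaf 428 4)))))))))))))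
theorem a5p93 : a5e93.Valid :=
  pos_of_chk [] forall_nil a5c93 a5e93 (by decide +kernel)

def a5e94 : Pos := ⟨471745303871550007015969338949883717580687281899163043916461025352305815063475870677805409053757065616817552228894919943799783618391387844557463021966837440519319060480, 206388570203535210297368979402987992760743382605832881058231234089599057930283418730952642971871226671150749267123418644074288900109081450243671156431823048834113601536, 7⟩
def a5c94 : Cert := (move 524 (branch (move 495 (branch (move 523 (leaf 491 2)) (move 496 (leaf 492 2)))) (branch (move 491 (branch (move 492 (leaf 491 3)) (move 523 (branch (move 490 (leaf 490 3)) (move 522 (branch (move 493 (leaf 490 2)) (move 554 (branch (move 553 (leaf 521 1)) (move 555 (leaf 522 1)))))))))) (move 495 (branch (move 496 (leaf 492 2)) (move 492 (branch (move 491 (leaf 491 3)) (move 462 (branch (move 430 (leaf 429 5)) (move 460 (branch (move 428 (leaf 428 4)) (move 459 (branch (move 461 (leaf 459 0)) (move 493 (leaf 459 3)))))))))))))))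
theorem a5p94 : a5e94.Valid :=
  pos_of_chk [] forall_nil a5c94 a5e94 (by decide +kernel)

def a5e95 : Pos := ⟨823775719266819894046205312608723275085263472770581681096758502437941609634220816823530196799425641789867809822460307403947764669485016891038342661392065101824, 13053247314504064192465873165404021472756367598974937758357808002795523171787000429130250601338125388902167741043986211504366730832920447140657819377404972570341828937409111911306220273664, 8⟩
def a5c95 : Cert := (move 589 (branch (move 557 (branch (move 621 (leaf 493 6)) (move 462 (branch (move 430 (leaf 429 5)) (move 558 (leaf 461 5)))))) (branch (move 495 (branch (move 496 (leaf 492 2)) (move 492 (branch (move 491 (leaf 491 3)) (move 556 (branch (move 555 (leaf 523 1)) (move 588 (branch (move 621 (leaf 492 4)) (move 493 (branch (move 461 (leaf 460 6)) (move 620 (leaf 492 6)))))))))))) (move 462 (branch (move 430 (branch (move 557 (leaf 429 5)) (move 495 (branch (move 496 (leaf 492 2)) (move 398 (leaf 398 4)))))) (branch (move 495 (branch (move 496 (leaf 492 2)) (move 430 (branch (move 398 (leaf 398 4)) (move 429 (branch (move 397 (leaf 397 7)) (move 461 (branch (move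 558 (leaf 429 7)) (move 556 (branch (move 555 (leaf 523 1)) (move 493 (leaf 428 5)))))))))))) (move 557 (branch (move 558 (leaf 461 5)) (move 493 (leaf 461 6))))))))))
theorem a5p95 : a5e95.Valid :=
  pos_of_chk [] forall_nil a5c95 a5e95 (by decide +kernel)

def a5e96 : Pos := ⟨329510287737415994567508455074862963441864131160263691620357133376582500429589581070705902671800913831502475402273685625274981533505418536533012624431780986880, 196221446150137149754923840071763981246878542663764971827336487956460722417725344783078869658492865610670910520190825367393585666546136353943370605629108559111515759204401704629361929039607526064128, 13⟩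
def a5c96 : Cert := (move 527 (branch (move 524 (branch (move 555 (branch (move 556 (leaf 523 1)) (move 523 (branch (move 554 (leaf 522 1)) (move 491 (branch (move 490 (leaf 490 3)) (move 492 (leaf 491 3)))))))) (branch (move 491 (branch (move 492 (leaf 491 3)) (move 523 (branch (move 490 (leaf 490 3)) (move 522 (branch (move 493 (leaf 490 2)) (move 554 (branch (move 553 (leaf 521 1)) (move 555 (leaf 522 1)))))))))) (branch (ref 0) (branch (move 523 (branch (move 555 (branch (move 554 (leaf 522 1)) (move 556 (leaf 523 1)))) (branch (move 522 (branch (move 493 (leaf 490 2)) (move 553 (branch (move 554 (leaf 521 1)) (move 521 (branch (move 552 (leaf 520 1)) (move 489 (branch (move 488 (leaf 488 3)) (move 490 (leaf 489 3)))))))))) (move 522 (branch (move 493 (leaf 490 2)) (move 556 (branch (move 555 (leaf 523 1)) (move 521 (branch (move 557 (leaf 521 0)) (move 489 (branch (move 488 (leaf 488 3)) (move 490 (leaf 489 3))))))))))))) (move 557 (branch (move 492 (branch (move 491 (leaf 491 3)) (move 589 (branch (move 621 (leaf 493 6)) (move 460 (branch (move 428 (leaf 428 4)) (move 556 (leaf 460 4)))))))) (branch (move 589 (branch (move 621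 (leaf 493 6)) (move 462 (branch (move 430 (leaf 429 5)) (move 493 (leaf 461 6)))))) (move 491 (branch (move 492 (leaf 491 3)) (move 523 (branch (move 490 (leaf 490 3)) (move 522 (branch (move 493 (leaf 490 2)) (move 521 (branch (move 556 (leaf 521 0)) (move 553 (branch (move 552 (leaf 520 1)) (move 554 (leaf 521 1)))))))))))))))))))) (branch (move 524 (branch (move 555 (branch (move 556 (leaf 523 1)) (move 523 (branch (move 554 (leaf 522 1)) (move 491 (branch (move 490 (leaf 490 3)) (move 492 (leaf 491 3)))))))) (branch (move 495 (branch (move 523 (leaf 491 2)) (move 496 (leaf 492 2)))) (move 492 (branch (move 491 (leaf 491 3)) (move 556 (branch (move 555 (leaf 523 1)) (move 460 (branch (move 495 (branch (move 496 (leaf 492 2)) (move 461 (branch (move 429 (leaf 428 6)) (move 459 (branch (move 462 (leaf 459 0)) (move 427 (leaf 427 7)))))))) (move 557 (branch (move 428 (leaf 428 4)) (move 589 (leaf 460 4))))))))))))) (branch (move 462 (branch (move 557 (branch (move 430 (leaf 429 5)) (move 589 (branch (move 493 (leaf 461 6)) (move 621 (leaf 493 6)))))) (branch (move 430 (branch (move 557 (leaf 429 5)) (move 398 (branch (move 495 (leaf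 398 4)) (move 399 (branch (move 367 (leaf 366 6)) (move 431 (leaf 398 6)))))))) (branch (move 430 (branch (move 398 (branch (move 495 (leaf 398 4)) (move 493 (leaf 397 5)))) (move 429 (branch (move 397 (leaf 397 7)) (move 461 (branch (move 558 (leaf 429 7)) (move 431 (branch (move 399 (leaf 398 6)) (move 460 (branch (move 432 (leaf 428 1)) (move 459 (leaf 427 2)))))))))))) (move 558 (branch (move 461 (branch (move 429 (leaf 429 7)) (move 590 (branch (move 493 (leaf 461 7)) (move 623 (branch (move 591 (leaf 494 4)) (move 622 (branch (move 655 (leaf 526 4)) (move 621 (branch (move 589 (leaf 493 5)) (move 653 (leaf 525 5)))))))))))) (branch (move 589 (branch (move 557 (leaf 461 5)) (move 590 (branch (move 621 (leaf 493 5)) (move 622 (branch (move 495 (leaf 494 6)) (move 623 (branch (move 591 (leaf 494 4)) (move 655 (leaf 526 4)))))))))) (branch (move 461 (branch (move 429 (leaf 429 7)) (move 590 (branch (move 493 (leaf 461 7)) (move 622 (branch (move 495 (leaf 494 6)) (move 623 (branch (move 591 (leaf 494 4)) (move 655 (leaf 526 4)))))))))) (move 557 (branch (move 589 (leaf 461 5)) (move 461 (branch (move 429 (leaf 429 7)) (move 556 (branch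 (move 555 (leaf 523 2)) (move 493 (branch (move 588 (leaf 460 5)) (move 460 (branch (move 428 (leaf 428 7)) (move 459 (branch (move 458 (leaf 458 0)) (move 495 (leaf 459 0)))))))))))))))))))))) (branch (move 524 (branch (move 555 (branch (move 556 (leaf 523 1)) (move 523 (branch (move 554 (leaf 522 1)) (move 491 (branch (move 490 (leaf 490 3)) (move 492 (leaf 491 3)))))))) (branch (move 495 (branch (move 523 (leaf 491 2)) (move 496 (leaf 492 2)))) (ref 1)))) (branch (move 524 (branch (move 555 (branch (move 556 (leaf 523 1)) (move 523 (branch (move 554 (leaf 522 1)) (move 491 (branch (move 490 (leaf 490 3)) (move 492 (leaf 491 3)))))))) (branch (move 495 (branch (move 523 (leaf 491 2)) (move 496 (leaf 492 2)))) (ref 2)))) (branch (move 557 (branch (move 524 (branch (move 492 (branch (move 491 (leaf 491 3)) (move 589 (branch (move 621 (leaf 493 6)) (move 460 (branch (move 428 (leaf 428 4)) (move 556 (leaf 460 4)))))))) (move 495 (branch (move 523 (leaf 491 2)) (move 496 (leaf 492 2)))))) (branch (move 462 (branch (move 430 (leaf 429 5)) (move 589 (branch (move 558 (leaf 461 5)) (move 493 (leaf 461 6)))))) (move 524 (branch (move 495 (branch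 (move 523 (leaf 491 2)) (move 496 (leaf 492 2)))) (branch (move 491 (branch (move 492 (leaf 491 3)) (move 523 (branch (move 490 (leaf 490 3)) (move 522 (branch (move 493 (leaf 490 2)) (move 521 (branch (move 556 (leaf 521 0)) (move 553 (branch (move 552 (leaf 520 1)) (move 554 (leaf 521 1)))))))))))) (move 495 (branch (move 496 (leaf 492 2)) (move 492 (branch (move 491 (leaf 491 3)) (move 462 (branch (move 430 (leaf 429 5)) (move 460 (branch (move 428 (leaf 428 4)) (move 459 (branch (move 461 (leaf 459 0)) (move 493 (leaf 459 3)))))))))))))))))) (branch (move 557 (branch (move 589 (branch (move 621 (leaf 493 6)) (move 462 (branch (move 430 (leaf 429 5)) (move 558 (leaf 461 5)))))) (branch (move 524 (branch (move 495 (branch (move 523 (leaf 491 2)) (move 496 (leaf 492 2)))) (move 492 (branch (move 491 (leaf 491 3)) (move 589 (branch (move 621 (leaf 493 6)) (move 460 (branch (move 428 (leaf 428 4)) (move 493 (leaf 460 7)))))))))) (ref 3)))) (branch (move 524 (branch (move 555 (branch (move 556 (leaf 523 1)) (move 523 (branch (move 554 (leaf 522 1)) (move 491 (branch (move 490 (leaf 490 3)) (move 492 (leaf 491 3)))))))) (branch (move 495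 (branch (move 523 (leaf 491 2)) (move 496 (leaf 492 2)))) (ref 4)))) (move 524 (branch (move 555 (branch (move 556 (leaf 523 1)) (move 523 (branch (move 554 (leaf 522 1)) (move 491 (branch (move 490 (leaf 490 3)) (move 492 (leaf 491 3)))))))) (branch (move 495 (branch (move 523 (leaf 491 2)) (move 496 (leaf 492 2)))) (ref 5)))))))))))))
theorem a5p96 : a5e96.Valid :=
  pos_of_chk [a5e22, a5e93, a5e68, a5e94, a5e95, a5e92] (forall_cons a5p22 (forall_cons a5p93 (forall_cons a5p68 (forall_cons a5p94 (forall_cons a5p95 (forall_cons a5p92 forall_nil)))))) a5c96 a5e96 (by decide +kernel)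

def a5e97 : Pos := ⟨329510287775776040753791367614080030201562558725302465597424298878339821149466148997323182611839235225946664743885638954894826115644683261680107074275474669568, 138690752700016737340407230284476751574356524394736594317282356478880420005730687063247117561826962915300345371700829647816951049963859109732409008827124945153999202034550753447378826559488, 10⟩
def a5c97 : Cert := (move 524 (branch (move 491 (branch (move 490 (leaf 490 0)) (move 459 (branch (move 458 (leaf 458 3)) (move 556 (branch (move 588 (leaf 459 7)) (move 427 (branch (move 395 (leaf 395 4)) (move 460 (leaf 427 7)))))))))) (branch (move 589 (branch (move 557 (branch (move 462 (leaf 461 6)) (move 523 (branch (move 522 (leaf 490 2)) (move 555 (branch (move 554 (leaf 522 1)) (move 590 (branch (move 622 (leaf 493 4)) (move 588 (branch (move 620 (leaf 492 5)) (move 591 (branch (move 556 (leaf 555 3)) (move 623 (branch (move 624 (leaf 588 0)) (move 558 (leaf 494 4)))))))))))))))) (branch (move 557 (branch (move 462 (leaf 461 6)) (move 621 (leaf 493 6)))) (move 590 (branch (move 558 (branch (move 621 (leaf 493 5)) (move 622 (leaf 493 7)))) (branch (move 523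 (branch (move 522 (leaf 490 2)) (move 555 (branch (move 554 (leaf 522 1)) (move 587 (branch (move 619 (leaf 491 6)) (move 622 (branch (move 558 (leaf 493 7)) (move 588 (branch (move 623 (leaf 587 0)) (move 556 (branch (move 591 (leaf 555 3)) (move 620 (leaf 492 6)))))))))))))) (move 588 (branch (move 523 (branch (move 522 (leaf 490 2)) (move 555 (branch (move 554 (leaf 522 1)) (move 619 (branch (move 587 (leaf 491 6)) (move 620 (branch (move 591 (leaf 587 1)) (move 618 (branch (move 617 (leaf 585 2)) (move 621 (leaf 586 2)))))))))))) (branch (move 556 (branch (move 621 (leaf 492 4)) (move 620 (leaf 492 6)))) (branch (move 523 (branch (move 522 (leaf 490 2)) (move 555 (branch (move 554 (leaf 522 1)) (move 556 (branch (move 591 (leaf 555 3)) (move 621 (leaf 492 4)))))))) (move 556 (branch (move 620 (leaf 492 6)) (move 555 (branch (move 591 (leaf 555 3)) (move 554 (branch (move 553 (leaf 553 0)) (move 523 (leaf 522 1)))))))))))))))))) (move 523 (branch (move 522 (leaf 490 2)) (move 491 (branch (move 490 (leaf 490 0)) (move 555 (branch (move 554 (leaf 522 1)) (move 460 (branch (move 428 (leaf 427 5)) (move 587 (leaf 459 6)))))))))))))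
theorem a5p97 : a5e97.Valid :=
  pos_of_chk [] forall_nil a5c97 a5e97 (by decide +kernel)

def a5e98 : Pos := ⟨329510287737415994567508455074862963441864131160263691620357133376582500429589581070705902671800913831502475402273685625274981533505418536533012624431780986880, 9343878523581008508047123119989885960736038139480108096828273304863449213914460251810758486181070696383783024493346003841755230314561671592206461731418061779284132567718364920076244903720545943552, 13⟩
def a5c98 : Cert := (move 493 (branch (move 461 (branch (move 429 (branch (move 397 (leaf 397 4)) (move 428 (branch (move 396 (leaf 396 7)) (move 460 (branch (move 557 (leaf 428 7)) (move 459 (branch (move 458 (leaf 458 0)) (move 430 (branch (move 431 (leaf 427 1)) (move 398 (leaf 397 6)))))))))))) (branch (move 558 (branch (move 429 (leaf 429 4)) (move 590 (leaf 461 7)))) (ref 0)))) (branch (move 495 (branch (move 524 (branch (move 496 (leaf 492 1)) (move 523 (leaf 491 2)))) (branch (move 496 (branch (move 497 (leaf 493 1)) (move 461 (branch (move 460 (leaf 460 3)) (move 429 (branch (move 397 (leaf 397 4)) (move 558 (leaf 429 4)))))))) (ref 1)))) (branch (move 461 (branch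 (move 429 (branch (move 397 (leaf 397 4)) (move 428 (branch (move 396 (leaf 396 7)) (move 460 (branch (move 557 (leaf 428 7)) (move 459 (branch (move 458 (leaf 458 0)) (move 430 (branch (move 431 (leaf 427 1)) (move 398 (leaf 397 6)))))))))))) (branch (move 558 (branch (move 429 (leaf 429 4)) (move 590 (leaf 461 7)))) (ref 2)))) (branch (move 461 (branch (move 558 (branch (move 429 (leaf 429 4)) (move 590 (leaf 461 7)))) (branch (move 429 (branch (move 397 (leaf 397 4)) (move 524 (branch (move 556 (leaf 428 5)) (move 523 (branch (move 522 (leaf 490 2)) (move 495 (leaf 491 2)))))))) (ref 3)))) (branch (move 557 (branch (move 462 (branch (move 430 (leaf 429 5)) (move 589 (leaf 461 6)))) (branch (move 589 (branch (move 621 (leaf 493 6)) (move 492 (branch (move 460 (leaf 460 7)) (move 491 (branch (move 490 (leaf 490 0)) (move 588 (branch (move 620 (leaf 492 5)) (move 556 (branch (move 461 (leaf 460 5)) (move 555 (branch (move 554 (leaf 522 2)) (move 590 (branch (move 591 (leaf 555 3)) (move 622 (leaf 493 4)))))))))))))))) (move 461 (branch (move 460 (branch (move 428 (leaf 428 7)) (move 495 (branch (move 496 (leaf 460 3)) (move 459 (branch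 (move 458 (leaf 458 0)) (move 492 (leaf 459 3)))))))) (move 430 (branch (move 462 (leaf 429 5)) (move 429 (branch (move 397 (leaf 397 4)) (move 398 (leaf 397 6))))))))))) (branch (move 557 (branch (move 462 (branch (move 430 (leaf 429 5)) (move 589 (leaf 461 6)))) (branch (move 589 (branch (move 621 (leaf 493 6)) (move 588 (branch (move 620 (leaf 492 5)) (move 556 (branch (move 461 (leaf 460 5)) (move 590 (branch (move 622 (leaf 493 4)) (move 555 (branch (move 554 (leaf 554 0)) (move 591 (leaf 555 3)))))))))))) (move 461 (branch (move 430 (branch (move 462 (leaf 429 5)) (move 429 (branch (move 397 (leaf 397 4)) (move 398 (leaf 397 6)))))) (branch (move 429 (branch (move 397 (leaf 397 4)) (move 556 (branch (move 524 (leaf 428 5)) (move 588 (leaf 460 5)))))) (move 462 (branch (move 430 (leaf 429 5)) (move 558 (branch (move 590 (leaf 461 4)) (move 556 (branch (move 588 (leaf 460 5)) (move 555 (branch (move 554 (leaf 522 2)) (move 523 (branch (move 522 (leaf 522 3)) (move 524 (branch (move 495 (leaf 491 2)) (move 491 (branch (move 490 (leaf 490 3)) (move 587 (branch (move 586 (leaf 554 1)) (move 619 (branch (move 492 (leaf 491 6)) (move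 651 (leaf 523 6)))))))))))))))))))))))))) (move 492 (branch (move 491 (branch (move 490 (leaf 490 0)) (move 459 (branch (move 458 (leaf 458 3)) (move 460 (branch (move 495 (leaf 459 3)) (move 428 (branch (move 396 (leaf 396 4)) (move 523 (branch (move 522 (leaf 490 1)) (move 555 (leaf 427 6)))))))))))) (branch (move 491 (branch (move 490 (leaf 490 0)) (move 523 (branch (move 522 (leaf 490 1)) (move 524 (branch (move 495 (leaf 491 1)) (move 459 (branch (move 458 (leaf 458 3)) (move 556 (branch (move 427 (leaf 427 4)) (move 588 (leaf 459 7)))))))))))) (branch (move 491 (branch (move 490 (leaf 490 0)) (move 459 (branch (move 458 (leaf 458 3)) (move 495 (branch (move 460 (leaf 459 3)) (move 496 (branch (move 524 (leaf 492 1)) (move 497 (leaf 493 1)))))))))) (branch (move 524 (branch (move 495 (branch (move 496 (leaf 492 1)) (move 460 (branch (move 459 (leaf 459 3)) (move 557 (branch (move 428 (leaf 428 4)) (move 589 (leaf 460 7)))))))) (branch (move 523 (branch (move 522 (leaf 490 2)) (move 555 (branch (move 554 (leaf 522 1)) (move 460 (branch (move 428 (leaf 427 5)) (move 587 (branch (move 556 (leaf 459 5)) (move 619 (leaf 491 6))))))))))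 (move 523 (branch (move 495 (leaf 491 1)) (move 522 (leaf 490 2))))))) (branch (move 491 (branch (move 490 (leaf 490 0)) (move 523 (branch (move 522 (leaf 490 1)) (move 524 (branch (move 495 (leaf 491 1)) (move 555 (branch (move 554 (leaf 522 1)) (move 460 (branch (move 428 (leaf 427 5)) (move 587 (leaf 459 6)))))))))))) (ref 4))))))))))))))
theorem a5p98 : a5e98.Valid :=
  pos_of_chk [a5e16, a5e17, a5e19, a5e20, a5e97] (forall_cons a5p16 (forall_cons a5p17 (forall_cons a5p19 (forall_cons a5p20 (forall_cons a5p97 forall_nil))))) a5c98 a5e98 (by decide +kernel)

def a5e99 : Pos := ⟨219673525175326239127798042289560671965553166357970805070045718029613809495227084236744948421217640951865734420009991896681029725509952235531828171773940072448, 160526608613280027044195844694679582909964099318470855705504467130859853021595963220730631908465823436662455282136220022244971229338566059057374916054981182488694017002317586130180734530527035086190275461120, 14⟩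
def a5c99 : Cert := (move 525 (branch (ref 0) (branch (ref 1) (branch (ref 2) (branch (ref 3) (branch (move 462 (branch (move 430 (branch (move 557 (leaf 429 5)) (move 398 (branch (move 493 (leaf 397 5)) (move 399 (branch (move 367 (leaf 366 6)) (move 431 (leaf 398 6)))))))) (branch (move 557 (branch (move 430 (leaf 429 5)) (move 589 (branch (move 558 (leaf 461 5)) (move 621 (leaf 493 6)))))) (branch (move 558 (branch (move 461 (branch (move 429 (leaf 429 7)) (move 590 (branch (move 493 (leaf 461 7)) (move 623 (branch (move 591 (leaf 494 4)) (move 622 (branch (move 655 (leaf 526 4)) (move 654 (branch (move 557 (leaf 525 7)) (move 653 (branch (move 621 (leaf 525 5)) (move 685 (leaf 557 5)))))))))))))) (branch (ref 4) (branch (move 461 (branch (move 429 (leaf 429 7)) (move 590 (branch (move 493 (leaf 461 7)) (move 623 (branch (move 591 (leaf 494 4)) (move 622 (branch (move 655 (leaf 526 4)) (move 621 (branch (move 589 (leaf 493 5)) (move 653 (leaf 525 5)))))))))))) (move 557 (branch (move 589 (leaf 461 5)) (move 527 (branch (move 528 (branch (move 556 (leaf 524 1)) (move 529 (leaf 525 1)))) (branch (move 461 (branch (move 429 (leaf 429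 7)) (move 556 (branch (move 555 (leaf 523 2)) (move 493 (branch (move 588 (leaf 460 5)) (move 460 (branch (move 428 (leaf 428 7)) (move 459 (branch (move 458 (leaf 458 0)) (move 495 (leaf 459 0)))))))))))) (move 528 (branch (move 529 (leaf 525 1)) (move 493 (branch (move 492 (leaf 492 3)) (move 461 (branch (move 429 (leaf 429 4)) (move 496 (branch (move 497 (leaf 493 2)) (move 460 (branch (move 495 (leaf 460 3)) (move 428 (leaf 428 7))))))))))))))))))))) (ref 5))))) (branch (move 524 (branch (move 495 (branch (move 523 (leaf 491 2)) (move 496 (branch (move 497 (leaf 493 1)) (move 527 (leaf 492 2)))))) (branch (ref 6) (branch (move 523 (branch (move 495 (leaf 491 2)) (move 522 (branch (move 493 (leaf 490 2)) (move 554 (branch (move 553 (leaf 521 1)) (move 555 (leaf 522 1)))))))) (move 527 (branch (ref 7) (branch (move 492 (branch (move 491 (leaf 491 3)) (move 493 (branch (move 528 (leaf 492 3)) (move 556 (branch (move 555 (leaf 523 1)) (move 461 (branch (move 429 (leaf 428 5)) (move 588 (leaf 460 6)))))))))) (ref 8)))))))) (branch (ref 9) (branch (move 524 (branch (move 495 (branch (move 523 (leaf 491 2)) (move 496 (branch (move 497 (leaf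 493 1)) (move 527 (leaf 492 2)))))) (branch (ref 6) (branch (move 523 (branch (move 495 (leaf 491 2)) (move 522 (branch (move 493 (leaf 490 2)) (move 554 (branch (move 553 (leaf 521 1)) (move 555 (leaf 522 1)))))))) (move 527 (branch (move 492 (branch (move 491 (leaf 491 3)) (move 528 (branch (move 493 (leaf 492 3)) (move 561 (branch (move 560 (leaf 525 0)) (move 529 (branch (move 562 (leaf 526 0)) (move 497 (branch (move 496 (leaf 493 2)) (move 498 (leaf 494 2)))))))))))) (branch (move 556 (branch (move 555 (leaf 523 1)) (move 528 (branch (move 557 (leaf 524 1)) (move 529 (branch (move 493 (leaf 493 3)) (move 561 (branch (move 560 (leaf 525 0)) (move 562 (leaf 526 0)))))))))) (branch (move 556 (branch (move 555 (leaf 523 1)) (move 528 (branch (move 557 (leaf 524 1)) (move 492 (branch (move 491 (leaf 491 3)) (move 561 (branch (move 560 (leaf 525 0)) (move 529 (branch (move 562 (leaf 526 0)) (move 497 (branch (move 496 (leaf 493 2)) (move 498 (leaf 494 2)))))))))))))) (ref 10))))))))) (branch (move 462 (branch (move 430 (branch (move 557 (leaf 429 5)) (move 398 (branch (move 493 (leaf 397 5)) (move 399 (branch (move 367 (leaf 366 6))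 (move 431 (leaf 398 6)))))))) (branch (move 557 (branch (move 430 (leaf 429 5)) (move 589 (branch (move 558 (leaf 461 5)) (move 621 (leaf 493 6)))))) (branch (ref 5) (move 558 (branch (move 461 (branch (move 429 (leaf 429 7)) (move 590 (branch (move 493 (leaf 461 7)) (move 623 (branch (move 591 (leaf 494 4)) (move 622 (branch (move 655 (leaf 526 4)) (move 654 (branch (move 557 (leaf 525 7)) (move 653 (branch (move 621 (leaf 525 5)) (move 685 (leaf 557 5)))))))))))))) (branch (ref 4) (branch (move 461 (branch (move 429 (leaf 429 7)) (move 590 (branch (move 493 (leaf 461 7)) (move 623 (branch (move 591 (leaf 494 4)) (move 622 (branch (move 655 (leaf 526 4)) (move 621 (branch (move 589 (leaf 493 5)) (move 653 (leaf 525 5)))))))))))) (move 495 (branch (move 496 (branch (move 497 (leaf 493 1)) (move 557 (branch (move 589 (leaf 461 5)) (move 527 (branch (move 524 (leaf 492 2)) (move 528 (branch (move 556 (leaf 524 1)) (move 529 (leaf 525 1)))))))))) (branch (move 461 (branch (move 429 (leaf 429 7)) (move 496 (branch (move 497 (leaf 493 1)) (move 460 (branch (move 459 (leaf 459 0)) (move 493 (leaf 460 3)))))))) (move 557 (branch (move 589 (leaf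 461 5)) (move 461 (branch (move 429 (leaf 429 7)) (move 460 (branch (move 459 (leaf 459 0)) (move 493 (branch (move 428 (leaf 428 7)) (move 556 (branch (move 588 (leaf 460 5)) (move 527 (branch (move 528 (leaf 524 1)) (move 555 (leaf 523 2))))))))))))))))))))))))) (branch (move 462 (branch (move 430 (branch (move 557 (leaf 429 5)) (move 398 (branch (move 493 (leaf 397 5)) (move 399 (branch (move 367 (leaf 366 6)) (move 431 (leaf 398 6)))))))) (branch (move 557 (branch (move 430 (leaf 429 5)) (move 589 (branch (move 558 (leaf 461 5)) (move 621 (leaf 493 6)))))) (branch (ref 5) (move 558 (branch (move 461 (branch (move 429 (leaf 429 7)) (move 590 (branch (move 493 (leaf 461 7)) (move 623 (branch (move 591 (leaf 494 4)) (move 622 (branch (move 655 (leaf 526 4)) (move 654 (branch (move 557 (leaf 525 7)) (move 653 (branch (move 621 (leaf 525 5)) (move 685 (leaf 557 5)))))))))))))) (branch (ref 4) (branch (move 461 (branch (move 429 (leaf 429 7)) (move 590 (branch (move 493 (leaf 461 7)) (move 623 (branch (move 591 (leaf 494 4)) (move 622 (branch (move 655 (leaf 526 4)) (move 621 (branch (move 589 (leaf 493 5)) (move 653 (leaf 525 5))))))))))))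 (move 495 (branch (move 496 (branch (move 497 (leaf 493 1)) (move 524 (branch (move 523 (leaf 491 2)) (move 527 (leaf 492 2)))))) (branch (move 461 (branch (move 429 (leaf 429 7)) (move 496 (branch (move 497 (leaf 493 1)) (move 460 (branch (move 459 (leaf 459 0)) (move 493 (leaf 460 3)))))))) (move 557 (branch (move 589 (leaf 461 5)) (move 461 (branch (move 429 (leaf 429 7)) (move 524 (branch (move 523 (leaf 491 2)) (move 460 (branch (move 459 (leaf 459 0)) (move 428 (branch (move 492 (leaf 428 4)) (move 493 (leaf 428 7))))))))))))))))))))))) (branch (move 524 (branch (move 523 (branch (move 495 (leaf 491 2)) (move 490 (branch (move 491 (leaf 490 3)) (move 522 (branch (move 489 (leaf 489 3)) (move 557 (branch (move 558 (leaf 522 0)) (move 589 (branch (move 621 (leaf 493 6)) (move 553 (branch (move 554 (leaf 521 1)) (move 521 (branch (move 556 (leaf 521 0)) (move 552 (leaf 520 1)))))))))))))))) (branch (move 495 (branch (move 523 (leaf 491 2)) (move 496 (branch (move 497 (leaf 493 1)) (move 527 (leaf 492 2)))))) (branch (ref 6) (move 527 (branch (move 492 (branch (move 491 (leaf 491 3)) (move 528 (branch (move 493 (leaf 492 3)) (move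 561 (branch (move 560 (leaf 525 0)) (move 529 (branch (move 562 (leaf 526 0)) (move 497 (branch (move 496 (leaf 493 2)) (move 498 (leaf 494 2)))))))))))) (branch (move 556 (branch (move 555 (leaf 523 1)) (move 528 (branch (move 557 (leaf 524 1)) (move 529 (branch (move 493 (leaf 493 3)) (move 561 (branch (move 560 (leaf 525 0)) (move 562 (leaf 526 0)))))))))) (branch (move 556 (branch (move 555 (leaf 523 1)) (move 528 (branch (move 557 (leaf 524 1)) (move 492 (branch (move 491 (leaf 491 3)) (move 561 (branch (move 560 (leaf 525 0)) (move 529 (branch (move 562 (leaf 526 0)) (move 497 (branch (move 496 (leaf 493 2)) (move 498 (leaf 494 2)))))))))))))) (ref 11))))))))) (ref 12)))))))))))))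
theorem a5p99 : a5e99.Valid :=
  pos_of_chk [a5e55, a5e59, a5e33, a5e69, a5e90, a5e91, a5e30, a5e15, a5e92, a5e96, a5e93, a5e95, a5e98] (forall_cons a5p55 (forall_cons a5p59 (forall_cons a5p33 (forall_cons a5p69 (forall_cons a5p90 (forall_cons a5p91 (forall_cons a5p30 (forall_cons a5p15 (forall_cons a5p92 (forall_cons a5p96 (forall_cons a5p93 (forall_cons a5p95 (forall_cons a5p98 forall_nil))))))))))))) a5c99 a5e99 (by decide +kernel)

def a5e100 : Pos := ⟨329510287762989358691697063434341007948329749536956207605068577044420714242840626355117422631826461427798601630014987845021544588264928353297742257660910108672, 4052261302452797719806389464158256343598298606623163035080924200265074240475852735168714257527651014311192566264073741378928435287137428987206925568750107900508809254693586862080, 7⟩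
def a5c100 : Cert := (move 495 (branch (move 496 (branch (move 497 (leaf 493 1)) (move 464 (branch (move 465 (leaf 461 2)) (move 463 (branch (move 492 (leaf 460 2)) (move 528 (branch (move 529 (leaf 493 0)) (move 431 (branch (move 399 (leaf 399 4)) (move 560 (leaf 431 7)))))))))))) (branch (move 524 (branch (move 496 (leaf 492 1)) (move 523 (leaf 491 2)))) (move 492 (branch (move 463 (branch (move 464 (leaf 460 2)) (move 558 (branch (move 590 (leaf 462 6)) (move 431 (branch (move 399 (leaf 398 5)) (move 462 (leaf 430 6)))))))) (move 523 (branch (move 524 (leaf 491 1)) (move 491 (branch (move 490 (leaf 490 0)) (move 522 (leaf 490 1)))))))))))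
theorem a5p100 : a5e100.Valid :=
  pos_of_chk [] forall_nil a5c100 a5e100 (by decide +kernel)

def a5e101 : Pos := ⟨329510287762989358691697063434341007948329749536956207605068577044420714242840626355117422631826461427798601630014987845021544588264928353297742257660910108672, 4052261298678835295328087994923232248269066530365188599361332119803477896875398166581241107670289330100383850401275637805221030009302726431897512859071701329028143345408074055680, 6⟩
def a5c101 : Cert := (move 492 (branch (move 527 (branch (move 491 (leaf 491 0)) (move 528 (leaf 492 3)))) (branch (move 491 (branch (move 490 (leaf 490 0)) (move 459 (branch (move 458 (leaf 458 3)) (move 495 (branch (move 460 (leaf 459 3)) (move 463 (branch (move 462 (leaf 459 2)) (move 464 (leaf 460 2)))))))))) (move 495 (branch (move 528 (branch (move 527 (leaf 492 0)) (move 496 (branch (move 529 (leaf 493 0)) (move 497 (leaf 493 1)))))) (move 463 (branch (move 464 (leaf 460 2)) (move 558 (branch (move 590 (leaf 462 6)) (move 431 (branch (move 399 (leaf 398 5)) (move 462 (leaf 430 6)))))))))))))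
theorem a5p101 : a5e101.Valid :=
  pos_of_chk [] forall_nil a5c101 a5e101 (by decide +kernel)

def a5e102 : Pos := ⟨329510287737415994567508455074862963441864131160263691620357133376582500429589581070705902671800913831502475402273685625274981533505418536533012624431780986880, 134883555615626753698840915199832218309773159385715661409006385587620770402211688367487318614132745294265793131474013510645402293796681131654423447705369162423560199320531548398046356176896, 13⟩
def a5c102 : Cert := (move 493 (branch (ref 0) (branch (move 461 (branch (move 429 (branch (move 397 (leaf 397 4)) (move 558 (leaf 429 4)))) (move 557 (branch (move 589 (branch (move 621 (leaf 493 6)) (move 588 (branch (move 556 (leaf 460 5)) (move 620 (leaf 492 5)))))) (move 460 (branch (move 428 (leaf 428 7)) (move 495 (branch (move 496 (leaf 460 3)) (move 459 (branch (move 458 (leaf 458 0)) (move 492 (leaf 459 3)))))))))))) (branch (ref 1) (branch (move 461 (branch (move 429 (branch (move 397 (leaf 397 4)) (move 558 (leaf 429 4)))) (branch (move 429 (branch (move 397 (leaf 397 4)) (move 428 (branch (move 396 (leaf 396 7)) (move 557 (branch (move 460 (leaf 428 7)) (move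 589 (branch (move 462 (leaf 461 6)) (move 621 (leaf 493 6)))))))))) (move 557 (branch (move 590 (branch (move 558 (leaf 461 4)) (move 589 (branch (move 622 (leaf 493 4)) (move 621 (leaf 493 6)))))) (branch (move 589 (branch (move 621 (leaf 493 6)) (move 588 (branch (move 556 (leaf 460 5)) (move 620 (leaf 492 5)))))) (move 558 (branch (move 590 (leaf 461 4)) (move 556 (branch (move 588 (leaf 460 5)) (move 527 (branch (move 528 (leaf 524 1)) (move 555 (leaf 523 2)))))))))))))) (move 558 (branch (move 590 (branch (move 622 (leaf 493 7)) (move 495 (branch (move 463 (leaf 462 6)) (move 496 (branch (move 497 (leaf 493 1)) (move 528 (branch (move 529 (leaf 493 0)) (move 527 (branch (move 492 (leaf 492 0)) (move 557 (branch (move 556 (leaf 524 1)) (move 589 (branch (move 621 (leaf 493 5)) (move 591 (branch (move 623 (leaf 494 4)) (move 592 (branch (move 593 (leaf 557 3)) (move 560 (branch (move 561 (leaf 525 0)) (move 624 (leaf 495 7)))))))))))))))))))))) (branch (move 461 (branch (move 429 (leaf 429 4)) (move 590 (leaf 461 7)))) (move 557 (branch (move 461 (branch (move 429 (leaf 429 4)) (move 556 (branch (move 588 (leaf 460 5)) (move 527 (branch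 (move 528 (leaf 524 1)) (move 555 (leaf 523 2)))))))) (move 589 (branch (move 462 (leaf 461 5)) (move 621 (leaf 493 6))))))))))))))
theorem a5p102 : a5e102.Valid :=
  pos_of_chk [a5e101, a5e26] (forall_cons a5p101 (forall_cons a5p26 forall_nil)) a5c102 a5e102 (by decide +kernel)

def a5e103 : Pos := ⟨219673525175326239127798042289560671965553166357970805070045718029613809495227084236744948421217640951865734420009991896681029725509952235531828171773940072448, 3210532167584317467835934461599374248054814963426669402038415452695227445464932400753887809764684060086877062470962834153332481482147887787419498389169574868649915920914563484125624024044265333556435692290048, 18⟩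
def a5c103 : Cert := (move 525 (branch (move 493 (branch (move 495 (branch (move 496 (branch (move 497 (leaf 493 1)) (move 464 (branch (move 465 (leaf 461 2)) (move 463 (branch (move 492 (leaf 460 2)) (move 528 (branch (move 529 (leaf 493 0)) (move 431 (branch (move 399 (leaf 399 4)) (move 560 (leaf 431 7)))))))))))) (branch (move 524 (branch (move 496 (leaf 492 1)) (move 523 (leaf 491 2)))) (ref 0)))) (branch (ref 1) (branch (move 461 (branch (move 558 (branch (move 429 (leaf 429 4)) (move 590 (leaf 461 7)))) (branch (ref 2) (move 429 (branch (move 397 (leaf 397 4)) (move 428 (branch (move 396 (leaf 396 7)) (move 557 (branch (move 460 (leaf 428 7)) (move 589 (branch (move 462 (leaf 461 6)) (move 621 (leaf 493 6))))))))))))) (branch (move 461 (branch (move 558 (branch (move 429 (leaf 429 4)) (move 590 (leaf 461 7)))) (branch (move 429 (branch (move 397 (leaf 397 4)) (move 524 (branch (move 556 (leaf 428 5)) (move 523 (branch (move 522 (leaf 490 2)) (move 495 (leaf 491 2)))))))) (ref 3)))) (move 461 (branch (move 429 (branch (move 397 (leaf 397 4)) (move 558 (leaf 429 4)))) (branch (ref 4) (move 429 (branch (move 397 (leaf 397 4)) (move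 428 (branch (move 396 (leaf 396 7)) (move 557 (branch (move 460 (leaf 428 7)) (move 589 (branch (move 462 (leaf 461 6)) (move 621 (leaf 493 6)))))))))))))))))) (branch (ref 5) (branch (move 524 (branch (move 495 (branch (move 523 (leaf 491 2)) (move 496 (branch (move 497 (leaf 493 1)) (move 527 (leaf 492 2)))))) (branch (move 523 (branch (move 495 (leaf 491 2)) (move 522 (branch (move 493 (leaf 490 2)) (move 554 (branch (move 553 (leaf 521 1)) (move 555 (leaf 522 1)))))))) (ref 6)))) (branch (ref 7) (branch (ref 8) (branch (ref 9) (branch (move 524 (branch (ref 10) (branch (ref 11) (branch (ref 6) (branch (ref 12) (branch (ref 13) (branch (ref 14) (ref 15)))))))) (branch (ref 16) (branch (move 524 (branch (move 495 (branch (move 523 (leaf 491 2)) (move 496 (branch (move 497 (leaf 493 1)) (move 527 (leaf 492 2)))))) (branch (move 523 (branch (move 495 (leaf 491 2)) (move 522 (branch (move 493 (leaf 490 2)) (move 554 (branch (move 553 (leaf 521 1)) (move 555 (leaf 522 1)))))))) (branch (ref 12) (ref 17))))) (branch (ref 18) (branch (ref 19) (branch (ref 20) (branch (move 493 (branch (move 495 (branch (move 524 (branch (move 496 (leaf 492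 1)) (move 523 (leaf 491 2)))) (move 492 (branch (move 463 (branch (move 464 (leaf 460 2)) (move 558 (branch (move 590 (leaf 462 6)) (move 431 (branch (move 399 (leaf 398 5)) (move 462 (leaf 430 6)))))))) (move 491 (branch (move 490 (leaf 490 0)) (move 459 (branch (move 458 (leaf 458 3)) (move 460 (leaf 459 3)))))))))) (branch (move 461 (branch (move 558 (branch (move 429 (leaf 429 4)) (move 590 (leaf 461 7)))) (branch (ref 2) (move 429 (branch (move 397 (leaf 397 4)) (move 428 (branch (move 396 (leaf 396 7)) (move 557 (branch (move 460 (leaf 428 7)) (move 589 (branch (move 462 (leaf 461 6)) (move 621 (leaf 493 6))))))))))))) (branch (move 461 (branch (move 429 (branch (move 397 (leaf 397 4)) (move 558 (leaf 429 4)))) (branch (ref 4) (move 429 (branch (move 397 (leaf 397 4)) (move 428 (branch (move 396 (leaf 396 7)) (move 557 (branch (move 460 (leaf 428 7)) (move 589 (branch (move 462 (leaf 461 6)) (move 621 (leaf 493 6))))))))))))) (branch (ref 21) (ref 22)))))) (ref 23)))))))))))))))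
theorem a5p103 : a5e103.Valid :=
  pos_of_chk [a5e17, a5e100, a5e19, a5e20, a5e16, a5e55, a5e23, a5e25, a5e31, a5e33, a5e14, a5e24, a5e34, a5e35, a5e36, a5e37, a5e41, a5e42, a5e43, a5e44, a5e49, a5e38, a5e39, a5e102] (forall_cons a5p17 (forall_cons a5p100 (forall_cons a5p19 (forall_cons a5p20 (forall_cons a5p16 (forall_cons a5p55 (forall_cons a5p23 (forall_cons a5p25 (forall_cons a5p31 (forall_cons a5p33 (forall_cons a5p14 (forall_cons a5p24 (forall_cons a5p34 (forall_cons a5p35 (forall_cons a5p36 (forall_cons a5p37 (forall_cons a5p41 (forall_cons a5p42 (forall_cons a5p43 (forall_cons a5p44 (forall_cons a5p49 (forall_cons a5p38 (forall_cons a5p39 (forall_cons a5p102 forall_nil)))))))))))))))))))))))) a5c103 a5e103 (by decide +kernel)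

def a5e104 : Pos := ⟨329510287737415994567508455074862963441864131160263691620357133376582500429589581070705902671800913831502475402273685625274981533505418536533012624431780986880, 160526608370339188930991559302588252094755363063012220354114286207061383429010778203390183432408828328767195059842320152360666035729454580407372105292831664877331973633303747562721088626586580595814508265472, 12⟩
def a5c104 : Cert := (move 527 (branch (move 528 (branch (move 557 (branch (move 556 (leaf 524 1)) (move 462 (branch (move 430 (leaf 429 5)) (move 589 (branch (move 558 (leaf 461 5)) (move 621 (leaf 493 6)))))))) (move 561 (branch (move 560 (leaf 525 0)) (move 529 (branch (move 562 (leaf 526 0)) (move 530 (branch (move 495 (leaf 494 3)) (move 498 (branch (move 497 (leaf 494 2)) (move 499 (leaf 495 2)))))))))))) (branch (move 557 (branch (move 556 (branch (move 528 (leaf 524 1)) (move 555 (branch (move 524 (leaf 523 1)) (move 554 (leaf 522 2)))))) (move 589 (branch (move 621 (leaf 493 6)) (move 462 (branch (move 430 (leaf 429 5)) (move 558 (leaf 461 5)))))))) (branch (move 524 (branch (move 555 (branch (move 556 (leaf 523 1)) (move 523 (branch (move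 554 (leaf 522 1)) (move 491 (branch (move 490 (leaf 490 3)) (move 492 (leaf 491 3)))))))) (ref 0))) (branch (move 528 (branch (move 561 (branch (move 560 (leaf 525 0)) (move 529 (branch (move 562 (leaf 526 0)) (move 497 (branch (move 496 (leaf 493 2)) (move 498 (leaf 494 2)))))))) (branch (move 496 (branch (move 497 (leaf 493 2)) (move 495 (branch (move 524 (leaf 492 2)) (move 560 (branch (move 561 (leaf 525 0)) (move 463 (branch (move 431 (leaf 431 4)) (move 592 (leaf 463 7)))))))))) (branch (move 561 (branch (move 560 (leaf 525 0)) (move 529 (branch (move 562 (leaf 526 0)) (move 530 (branch (move 495 (leaf 494 3)) (move 498 (branch (move 497 (leaf 494 2)) (move 499 (leaf 495 2)))))))))) (branch (move 561 (branch (move 560 (leaf 525 0)) (move 529 (branch (move 562 (leaf 526 0)) (move 495 (branch (move 530 (leaf 494 3)) (move 524 (branch (move 523 (leaf 491 2)) (move 496 (leaf 492 2)))))))))) (move 496 (branch (move 497 (leaf 493 2)) (move 495 (branch (move 524 (leaf 492 2)) (move 529 (branch (move 530 (leaf 494 3)) (move 558 (branch (move 557 (leaf 525 1)) (move 463 (branch (move 431 (leaf 430 5)) (move 590 (leaf 462 6)))))))))))))))))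 (move 524 (branch (move 555 (branch (move 556 (leaf 523 1)) (move 523 (branch (move 554 (leaf 522 1)) (move 491 (branch (move 490 (leaf 490 3)) (move 492 (leaf 491 3)))))))) (branch (move 495 (branch (move 523 (leaf 491 2)) (move 496 (leaf 492 2)))) (move 556 (branch (move 555 (leaf 523 1)) (move 589 (branch (move 495 (branch (move 496 (leaf 492 2)) (move 492 (branch (move 491 (leaf 491 3)) (move 588 (branch (move 621 (leaf 492 4)) (move 619 (branch (move 587 (leaf 491 5)) (move 620 (branch (move 651 (leaf 523 5)) (move 590 (branch (move 591 (leaf 587 1)) (move 558 (branch (move 463 (leaf 462 6)) (move 622 (leaf 494 6)))))))))))))))) (branch (move 621 (branch (move 557 (leaf 493 6)) (move 588 (branch (move 492 (leaf 492 4)) (move 653 (branch (move 620 (leaf 524 4)) (move 685 (leaf 556 7)))))))) (branch (move 557 (branch (move 621 (leaf 493 6)) (move 462 (branch (move 430 (leaf 429 5)) (move 558 (leaf 461 5)))))) (move 495 (branch (move 496 (leaf 492 2)) (move 492 (branch (move 491 (leaf 491 3)) (move 557 (branch (move 460 (leaf 460 4)) (move 462 (branch (move 430 (leaf 429 5)) (move 558 (leaf 461 5))))))))))))))))))))))))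
theorem a5p104 : a5e104.Valid :=
  pos_of_chk [a5e15] (forall_cons a5p15 forall_nil) a5c104 a5e104 (by decide +kernel)

def a5e105 : Pos := ⟨823775719266819894046205312608723275085263472770581681096758502437941609634220816823530196799425641789867809822460307403947764669485016891038342661392065101824, 9343878400119044341365194339389541178580174115884788822709755363669890908702442377447922913783571750759318813857598461701960041361046413225255833019935029493452707240500130290152140749117136568320, 7⟩
def a5c105 : Cert := (move 589 (branch (move 557 (branch (move 621 (leaf 493 6)) (move 462 (branch (move 430 (leaf 429 5)) (move 558 (leaf 461 5)))))) (branch (move 492 (branch (move 491 (leaf 491 3)) (move 556 (branch (move 555 (leaf 523 1)) (move 588 (branch (move 621 (leaf 492 4)) (move 620 (branch (move 493 (leaf 492 6)) (move 619 (branch (move 587 (leaf 491 5)) (move 651 (leaf 523 5)))))))))))) (move 492 (branch (move 491 (leaf 491 3)) (move 556 (branch (move 555 (leaf 523 1)) (move 557 (branch (move 460 (leaf 460 4)) (move 462 (branch (move 430 (leaf 429 5)) (move 558 (leaf 461 5)))))))))))))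
theorem a5p105 : a5e105.Valid :=
  pos_of_chk [] forall_nil a5c105 a5e105 (by decide +kernel)

def a5e106 : Pos := ⟨3773962426469092790928634553825811166291236037625761084177524758347409829275061354234074630531188280900472944188276221911139012756299700300088526934097759165808300261376, 2026130649339417646181247702548942368511608476272110374602117926366138605192058234381890057197348256622838337595389785194171249836730801122066473428877864679129497996046383448064, 12⟩
def a5c106 : Cert := (move 464 (branch (move 431 (branch (move 463 (leaf 431 7)) (move 432 (branch (move 399 (leaf 399 7)) (move 433 (branch (move 401 (leaf 400 6)) (move 465 (leaf 432 6)))))))) (branch (move 493 (branch (move 492 (leaf 492 3)) (move 463 (branch (move 431 (leaf 431 7)) (move 462 (branch (move 465 (leaf 461 1)) (move 557 (branch (move 430 (leaf 429 5)) (move 589 (leaf 461 6)))))))))) (branch (move 493 (branch (move 492 (leaf 492 3)) (move 465 (branch (move 433 (leaf 432 6)) (move 462 (branch (move 463 (leaf 461 1)) (move 557 (branch (move 430 (leaf 429 5)) (move 589 (leaf 461 6)))))))))) (branch (move 493 (branch (move 492 (leaf 492 3)) (move 431 (branch (move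 463 (leaf 431 7)) (move 432 (branch (move 399 (leaf 399 7)) (move 401 (branch (move 433 (leaf 400 6)) (move 400 (branch (move 369 (leaf 368 6)) (move 430 (branch (move 429 (leaf 397 2)) (move 462 (branch (move 398 (leaf 397 5)) (move 557 (leaf 429 5)))))))))))))))) (move 432 (branch (move 433 (branch (move 401 (leaf 400 6)) (move 465 (leaf 432 6)))) (branch (move 493 (branch (move 492 (leaf 492 3)) (move 431 (branch (move 399 (leaf 399 7)) (move 465 (branch (move 433 (leaf 432 6)) (move 430 (branch (move 429 (leaf 429 0)) (move 462 (branch (move 398 (leaf 397 5)) (move 557 (leaf 429 5)))))))))))) (branch (move 492 (branch (move 493 (leaf 492 3)) (move 399 (branch (move 431 (leaf 399 7)) (move 400 (branch (move 367 (leaf 367 7)) (move 401 (branch (move 369 (leaf 368 6)) (move 433 (leaf 400 6)))))))))) (move 430 (branch (move 493 (branch (move 492 (leaf 492 3)) (move 462 (branch (move 398 (leaf 397 5)) (move 557 (leaf 429 5)))))) (branch (move 431 (branch (move 399 (leaf 399 7)) (move 429 (branch (move 465 (leaf 429 0)) (move 397 (branch (move 396 (leaf 396 3)) (move 462 (leaf 397 7)))))))) (move 492 (branch (move 493 (leaf 492 3)) (move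 431 (branch (move 399 (leaf 399 7)) (move 429 (branch (move 465 (leaf 429 0)) (move 524 (branch (move 491 (leaf 491 3)) (move 400 (branch (move 401 (leaf 397 2)) (move 396 (branch (move 397 (leaf 396 3)) (move 428 (branch (move 395 (leaf 395 3)) (move 460 (branch (move 459 (leaf 427 1)) (move 557 (leaf 428 4))))))))))))))))))))))))))))))
theorem a5p106 : a5e106.Valid :=
  pos_of_chk [] forall_nil a5c106 a5e106 (by decide +kernel)

def a5e107 : Pos := ⟨329510287737415994567508455074862963441864131160263691620357133376582500429589581070705902671800913831502475402273685625274981533505418536533012624431780986880, 9343878400119044341365194365910472440563078921003401592634211004719490108578089931852155709258432761245462793782441502539521670530744648178223757929658873723227972776937914383932154218439572979712, 16⟩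
def a5c107 : Cert := (move 527 (branch (move 557 (branch (move 589 (branch (move 621 (leaf 493 6)) (move 462 (branch (move 430 (leaf 429 5)) (move 558 (leaf 461 5)))))) (move 528 (branch (move 556 (leaf 524 1)) (move 497 (branch (move 496 (leaf 493 2)) (move 529 (branch (move 498 (leaf 494 2)) (move 561 (branch (move 560 (leaf 525 0)) (move 562 (leaf 526 0)))))))))))) (branch (move 524 (branch (move 492 (branch (move 491 (leaf 491 3)) (move 528 (branch (move 493 (leaf 492 3)) (move 561 (branch (move 560 (leaf 525 0)) (move 529 (branch (move 562 (leaf 526 0)) (move 497 (branch (move 496 (leaf 493 2)) (move 498 (leaf 494 2)))))))))))) (branch (move 555 (branch (move 556 (leaf 523 1)) (move 523 (branch (move 554 (leaf 522 1)) (move 491 (branch (move 490 (leaf 490 3)) (move 492 (leaf 491 3)))))))) (branch (move 555 (branch (move 556 (leaf 523 1)) (move 523 (branch (move 554 (leaf 522 1)) (move 522 (branch (move 493 (leaf 490 2)) (move 490 (branch (move 489 (leaf 489 3)) (move 491 (leaf 490 3)))))))))) (move 555 (branch (move 556 (leaf 523 1)) (move 523 (branch (move 554 (leaf 522 1)) (move 493 (branch (move 522 (leaf 490 2)) (move 528 (branch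 (move 492 (leaf 492 3)) (move 529 (leaf 493 3)))))))))))))) (branch (move 524 (branch (move 555 (branch (move 556 (leaf 523 1)) (move 523 (branch (move 554 (leaf 522 1)) (move 491 (branch (move 490 (leaf 490 3)) (move 492 (leaf 491 3)))))))) (branch (move 491 (branch (move 492 (leaf 491 3)) (move 523 (branch (move 490 (leaf 490 3)) (move 522 (branch (move 493 (leaf 490 2)) (move 557 (branch (move 558 (leaf 522 0)) (move 521 (branch (move 556 (leaf 521 0)) (move 553 (branch (move 552 (leaf 520 1)) (move 554 (leaf 521 1)))))))))))))) (branch (move 491 (branch (move 492 (leaf 491 3)) (move 523 (branch (move 490 (leaf 490 3)) (move 522 (branch (move 493 (leaf 490 2)) (move 554 (branch (move 553 (leaf 521 1)) (move 555 (leaf 522 1)))))))))) (branch (move 523 (branch (move 522 (branch (move 493 (leaf 490 2)) (move 557 (branch (move 558 (leaf 522 0)) (move 521 (branch (move 556 (leaf 521 0)) (move 553 (branch (move 552 (leaf 520 1)) (move 554 (leaf 521 1)))))))))) (branch (move 555 (branch (move 554 (leaf 522 1)) (move 556 (leaf 523 1)))) (branch (move 522 (branch (move 493 (leaf 490 2)) (move 554 (branch (move 553 (leaf 521 1)) (move 555 (leaf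 522 1)))))) (move 522 (branch (move 493 (leaf 490 2)) (move 557 (branch (move 558 (leaf 522 0)) (move 556 (branch (move 521 (leaf 521 0)) (move 555 (leaf 523 1)))))))))))) (ref 0)))))) (move 528 (branch (move 561 (branch (move 560 (leaf 525 0)) (move 529 (branch (move 562 (leaf 526 0)) (move 497 (branch (move 496 (leaf 493 2)) (move 498 (leaf 494 2)))))))) (branch (move 493 (branch (move 492 (leaf 492 3)) (move 529 (leaf 493 3)))) (move 560 (branch (move 561 (leaf 525 0)) (move 496 (branch (move 497 (leaf 493 2)) (ref 1))))))))))))
theorem a5p107 : a5e107.Valid :=
  pos_of_chk [a5e105, a5e106] (forall_cons a5p105 (forall_cons a5p106 forall_nil)) a5c107 a5e107 (by decide +kernel)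

def a5e108 : Pos := ⟨329510287737415994579416980733722186736624252428700757911207193430083519529241516494081496768250825407278789577167987883422514687502483595796043537515003510784, 943490606205385338085962009537975190323134987092429947595983884137747631494741285548093921156079507404548391435412815212313973503503025821798308692658578089626510032896, 6⟩
def a5c108 : Cert := (move 430 (branch (move 398 (branch (move 493 (leaf 397 5)) (move 397 (branch (move 365 (leaf 365 7)) (move 429 (leaf 397 7)))))) (branch (move 398 (branch (move 493 (leaf 397 5)) (move 399 (branch (move 367 (leaf 366 6)) (move 431 (leaf 398 6)))))) (move 431 (branch (move 399 (leaf 398 6)) (move 429 (branch (move 397 (leaf 397 7)) (move 463 (branch (move 558 (leaf 430 6)) (move 464 (branch (move 428 (leaf 428 0)) (move 465 (leaf 429 3)))))))))))))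
theorem a5p108 : a5e108.Valid :=
  pos_of_chk [] forall_nil a5c108 a5e108 (by decide +kernel)

def a5e109 : Pos := ⟨1647551438482493059855941934157349684452355830056215396514944177593707810741591478501612947775250099962919681364332312626549936383448079207810256969409094483968, 747510271034881081159578754116541903088196482009251621461146696496962378420119706039530556494883136077340485647305960371622796505321033175282548214618616586748434577239561456414728240872224286834688, 10⟩
def a5c109 : Cert := (move 463 (branch (move 431 (branch (move 558 (leaf 430 6)) (move 496 (branch (move 497 (leaf 493 2)) (move 560 (branch (move 561 (leaf 525 0)) (move 464 (leaf 431 7)))))))) (branch (move 493 (branch (move 492 (leaf 492 3)) (move 496 (branch (move 497 (leaf 493 2)) (move 464 (branch (move 465 (leaf 461 1)) (move 560 (branch (move 561 (leaf 525 0)) (move 592 (branch (move 495 (leaf 463 7)) (move 623 (branch (move 591 (leaf 495 5)) (move 624 (branch (move 655 (leaf 527 5)) (move 625 (branch (move 593 (leaf 496 4)) (move 657 (leaf 528 4)))))))))))))))))) (move 493 (branch (move 492 (leaf 492 3)) (move 431 (branch (move 558 (leaf 430 6)) (move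 399 (branch (move 367 (leaf 366 5)) (move 495 (leaf 398 5)))))))))))
theorem a5p109 : a5e109.Valid :=
  pos_of_chk [] forall_nil a5c109 a5e109 (by decide +kernel)

def a5e110 : Pos := ⟨6078391946603017030279114344812983380400488318527522696275125637386086054531825683783528919485250564830121503738689648848271864518400255448336543459250340498524047191104160792576, 747510271904009798047637008386620048924391080811847796617651056166800550755922168538940341721777891571486861334864519951208824112330753957071790518916271886479850866826665386844992112010219407540224, 13⟩
def a5c110 : Cert := (move 592 (branch (move 591 (branch (move 625 (branch (move 624 (leaf 589 0)) (move 593 (branch (move 626 (leaf 590 0)) (move 562 (branch (move 561 (leaf 558 2)) (move 594 (branch (move 563 (leaf 559 2)) (move 622 (branch (move 621 (leaf 589 1)) (move 623 (leaf 590 1)))))))))))) (branch (move 621 (branch (move 620 (leaf 588 1)) (move 593 (branch (move 622 (leaf 589 1)) (move 562 (branch (move 561 (leaf 558 2)) (move 594 (branch (move 563 (leaf 559 2)) (move 626 (branch (move 625 (leaf 590 0)) (move 627 (leaf 591 0)))))))))))) (branch (move 624 (branch (move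 625 (leaf 589 0)) (move 588 (branch (move 623 (leaf 588 0)) (move 555 (branch (move 556 (leaf 555 3)) (move 587 (branch (move 554 (leaf 554 3)) (move 619 (branch (move 618 (leaf 586 1)) (move 620 (leaf 587 1)))))))))))) (move 620 (branch (move 621 (leaf 588 1)) (move 588 (branch (move 619 (leaf 587 1)) (move 555 (branch (move 556 (leaf 555 3)) (move 587 (branch (move 554 (leaf 554 3)) (move 623 (branch (move 622 (leaf 587 0)) (move 624 (leaf 588 0)))))))))))))))) (branch (move 591 (branch (move 560 (branch (move 561 (leaf 557 2)) (move 496 (branch (move 623 (leaf 495 5)) (move 495 (branch (move 497 (leaf 493 1)) (move 463 (leaf 463 7)))))))) (branch (move 621 (branch (move 620 (leaf 588 1)) (move 593 (branch (move 622 (leaf 589 1)) (move 562 (branch (move 561 (leaf 558 2)) (move 594 (branch (move 563 (leaf 559 2)) (move 626 (branch (move 625 (leaf 590 0)) (move 627 (leaf 591 0)))))))))))) (move 621 (branch (move 620 (leaf 588 1)) (move 593 (branch (move 622 (leaf 589 1)) (move 625 (branch (move 626 (leaf 590 0)) (move 496 (branch (move 560 (leaf 496 4)) (move 495 (branch (move 497 (leaf 493 1)) (move 493 (branch (move 529 (leaf 493 0))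 (move 464 (branch (move 465 (leaf 461 2)) (move 492 (branch (move 463 (leaf 460 2)) (move 491 (branch (move 490 (leaf 490 0)) (move 459 (branch (move 458 (leaf 458 3)) (move 460 (leaf 459 3))))))))))))))))))))))))) (branch (move 591 (branch (move 560 (branch (move 561 (leaf 557 2)) (move 496 (branch (move 623 (leaf 495 5)) (move 495 (branch (move 497 (leaf 493 1)) (move 463 (leaf 463 7)))))))) (branch (move 621 (branch (move 620 (leaf 588 1)) (move 593 (branch (move 622 (leaf 589 1)) (move 561 (branch (move 560 (leaf 557 2)) (move 562 (leaf 558 2)))))))) (move 620 (branch (move 621 (leaf 588 1)) (move 588 (branch (move 619 (leaf 587 1)) (move 555 (branch (move 556 (leaf 555 3)) (move 587 (branch (move 554 (leaf 554 3)) (move 623 (branch (move 622 (leaf 587 0)) (move 624 (leaf 588 0))))))))))))))) (branch (move 591 (branch (move 560 (branch (move 561 (leaf 557 2)) (move 496 (branch (move 623 (leaf 495 5)) (move 495 (branch (move 497 (leaf 493 1)) (move 463 (leaf 463 7)))))))) (branch (move 560 (branch (move 561 (leaf 557 2)) (move 624 (branch (move 625 (leaf 589 0)) (move 497 (branch (move 529 (leaf 496 6)) (move 496 (branch (move 495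 (leaf 493 1)) (move 465 (leaf 464 6)))))))))) (move 624 (branch (move 625 (leaf 589 0)) (move 588 (branch (move 623 (leaf 588 0)) (move 555 (branch (move 556 (leaf 555 3)) (move 587 (branch (move 554 (leaf 554 3)) (move 619 (branch (move 618 (leaf 586 1)) (move 620 (leaf 587 1))))))))))))))) (branch (move 591 (branch (move 621 (branch (move 620 (leaf 588 1)) (move 593 (branch (move 622 (leaf 589 1)) (move 625 (branch (move 624 (leaf 589 0)) (move 626 (leaf 590 0)))))))) (branch (move 621 (branch (move 620 (leaf 588 1)) (move 593 (branch (move 622 (leaf 589 1)) (move 561 (branch (move 560 (leaf 557 2)) (move 562 (leaf 558 2)))))))) (move 560 (branch (move 561 (leaf 557 2)) (move 624 (branch (move 625 (leaf 589 0)) (move 497 (branch (move 529 (leaf 496 6)) (move 496 (branch (move 495 (leaf 493 1)) (move 465 (leaf 464 6))))))))))))) (move 496 (branch (move 560 (branch (move 625 (branch (move 593 (leaf 496 4)) (move 624 (branch (move 657 (leaf 528 4)) (move 623 (branch (move 622 (leaf 589 3)) (move 655 (leaf 527 5)))))))) (move 463 (branch (move 495 (leaf 463 7)) (move 464 (branch (move 431 (leaf 431 7)) (move 465 (branch (move 493 (leaf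 461 1)) (move 433 (leaf 432 6)))))))))) (branch (move 495 (branch (move 497 (leaf 493 1)) (move 493 (branch (move 529 (leaf 493 0)) (move 464 (branch (move 465 (leaf 461 2)) (move 492 (branch (move 463 (leaf 460 2)) (move 491 (branch (move 490 (leaf 490 0)) (move 459 (branch (move 458 (leaf 458 3)) (move 460 (leaf 459 3)))))))))))))) (branch (move 497 (branch (move 495 (leaf 493 1)) (move 560 (branch (move 465 (leaf 464 6)) (move 624 (branch (move 529 (leaf 496 6)) (move 625 (branch (move 593 (leaf 496 4)) (move 657 (leaf 528 4)))))))))) (branch (move 495 (branch (move 497 (leaf 493 1)) (move 463 (branch (move 560 (leaf 463 7)) (move 431 (branch (move 399 (leaf 399 4)) (move 493 (branch (move 529 (leaf 493 0)) (move 492 (branch (move 491 (leaf 459 2)) (move 464 (leaf 460 2)))))))))))) (move 560 (branch (move 625 (branch (move 593 (leaf 496 4)) (move 624 (branch (move 657 (leaf 528 4)) (move 623 (branch (move 622 (leaf 589 3)) (move 655 (leaf 527 5)))))))) (move 465 (branch (move 497 (leaf 464 6)) (move 464 (branch (move 433 (leaf 432 6)) (move 463 (branch (move 493 (leaf 461 1)) (move 431 (leaf 431 7)))))))))))))))))))))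
theorem a5p110 : a5e110.Valid :=
  pos_of_chk [] forall_nil a5c110 a5e110 (by decide +kernel)

def a5e111 : Pos := ⟨329510287737415994579416980733722186736624252428700757911207193430083519529241516494081496768250825407278789577167987883422514687502483595796043537515003510784, 747510271904009798053715400334638301867602886329067525819146338666462376640470929605475809421763191323252228123530298891749753236237319032841169283588488891297473645556528236036314615633179580563456, 16⟩
def a5c111 : Cert := (move 528 (branch (move 527 (branch (move 529 (branch (move 497 (branch (move 496 (leaf 493 2)) (move 498 (leaf 494 2)))) (move 530 (branch (move 495 (leaf 494 3)) (move 562 (branch (move 561 (leaf 526 0)) (move 563 (leaf 527 0)))))))) (move 557 (branch (move 556 (leaf 524 1)) (move 589 (branch (move 493 (leaf 461 6)) (move 621 (leaf 493 6)))))))) (branch (move 527 (branch (move 557 (branch (move 556 (leaf 524 1)) (move 589 (branch (move 558 (leaf 461 5)) (move 621 (leaf 493 6)))))) (move 561 (branch (move 560 (leaf 525 0)) (move 529 (branch (move 562 (leaf 526 0)) (move 497 (branch (move 496 (leaf 493 2)) (move 498 (leaf 494 2)))))))))) (branch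 (move 527 (branch (move 529 (branch (move 497 (branch (move 496 (leaf 493 2)) (move 498 (leaf 494 2)))) (move 530 (branch (move 495 (leaf 494 3)) (move 562 (branch (move 561 (leaf 526 0)) (move 563 (leaf 527 0)))))))) (branch (move 493 (branch (move 492 (leaf 492 3)) (move 529 (leaf 493 3)))) (ref 0)))) (branch (move 527 (branch (move 557 (branch (move 556 (leaf 524 1)) (move 589 (branch (move 558 (leaf 461 5)) (move 621 (leaf 493 6)))))) (move 493 (branch (move 492 (leaf 492 3)) (move 529 (leaf 493 3)))))) (branch (move 527 (branch (move 557 (branch (move 556 (leaf 524 1)) (move 589 (branch (move 558 (leaf 461 5)) (move 621 (leaf 493 6)))))) (branch (move 557 (branch (move 556 (leaf 524 1)) (move 589 (branch (move 493 (leaf 461 6)) (move 621 (leaf 493 6)))))) (ref 0)))) (move 589 (branch (move 557 (branch (move 558 (leaf 461 5)) (move 493 (leaf 461 6)))) (branch (move 557 (branch (move 493 (leaf 461 6)) (move 621 (leaf 493 6)))) (branch (move 557 (branch (move 558 (leaf 461 5)) (move 621 (leaf 493 6)))) (move 590 (branch (move 558 (branch (move 623 (branch (move 591 (leaf 494 4)) (move 622 (branch (move 655 (leaf 526 4)) (move 493 (leaf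 493 7)))))) (move 463 (branch (move 431 (leaf 430 6)) (move 495 (leaf 462 6)))))) (branch (move 558 (branch (move 621 (leaf 493 5)) (move 623 (branch (move 591 (leaf 494 4)) (move 622 (branch (move 655 (leaf 526 4)) (move 493 (leaf 493 7)))))))) (branch (move 558 (branch (move 621 (leaf 493 5)) (move 463 (branch (move 431 (leaf 430 6)) (move 495 (leaf 462 6)))))) (ref 1)))))))))))))))
theorem a5p111 : a5e111.Valid :=
  pos_of_chk [a5e109, a5e110] (forall_cons a5p109 (forall_cons a5p110 forall_nil)) a5c111 a5e111 (by decide +kernel)

def a5e112 : Pos := ⟨471745303432202956767610317191042066439478115993919184707289479151060153675601106940355421717913248614484460710347956014745008704015580612575597817962099629887955402752, 65266236589489165142881127440641549025022830254462232966232102466448318269441406856604488362142176571281362183597654131872334103438589807571257472002758980293456594893755196926173290430464, 11⟩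
def a5c112 : Cert := (move 493 (branch (move 589 (branch (move 621 (leaf 493 6)) (move 495 (branch (move 524 (branch (move 496 (leaf 492 1)) (move 523 (leaf 491 2)))) (move 590 (branch (move 622 (leaf 493 4)) (move 588 (branch (move 620 (leaf 492 5)) (move 558 (branch (move 463 (leaf 462 6)) (move 591 (branch (move 623 (leaf 494 4)) (move 556 (branch (move 555 (leaf 555 0)) (move 592 (leaf 556 3)))))))))))))))) (branch (move 495 (branch (move 496 (branch (move 497 (leaf 493 1)) (move 464 (branch (move 465 (leaf 461 2)) (move 463 (branch (move 492 (leaf 460 2)) (move 528 (branch (move 529 (leaf 493 0)) (move 431 (branch (move 399 (leaf 399 4)) (move 560 (leaf 431 7)))))))))))) (branch (move 524 (branch (move 496 (leaf 492 1)) (move 523 (leaf 491 2)))) (move 492 (branch (move 523 (branch (move 524 (leaf 491 1)) (move 491 (branch (move 490 (leaf 490 0)) (move 522 (leaf 490 1)))))) (branch (move 524 (branch (move 523 (leaf 491 1)) (move 460 (branch (move 459 (leaf 459 3)) (move 428 (leaf 428 4)))))) (move 491 (branch (move 490 (leaf 490 0)) (move 459 (branch (move 458 (leaf 458 3)) (move 460 (leaf 459 3)))))))))))) (branch (move 589 (branch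 (move 621 (leaf 493 6)) (move 590 (branch (move 622 (leaf 493 4)) (move 492 (branch (move 460 (leaf 460 7)) (move 491 (branch (move 490 (leaf 490 0)) (move 588 (branch (move 620 (leaf 492 5)) (move 523 (branch (move 522 (leaf 490 1)) (move 459 (branch (move 458 (leaf 458 3)) (move 555 (branch (move 556 (leaf 459 4)) (move 554 (branch (move 587 (leaf 554 3)) (move 586 (leaf 458 5)))))))))))))))))))) (move 589 (branch (move 621 (leaf 493 6)) (move 590 (branch (move 622 (leaf 493 4)) (move 492 (branch (move 460 (leaf 460 7)) (move 588 (branch (move 620 (leaf 492 5)) (move 491 (branch (move 490 (leaf 490 0)) (move 459 (branch (move 458 (leaf 458 3)) (move 556 (branch (move 524 (leaf 459 7)) (move 555 (branch (move 554 (leaf 554 0)) (move 591 (leaf 555 3))))))))))))))))))))))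
theorem a5p112 : a5e112.Valid :=
  pos_of_chk [] forall_nil a5c112 a5e112 (by decide +kernel)

def a5e113 : Pos := ⟨471745303514580528689177633770824876028454834601152408309009144063793715185827625141127294343383964302421915370075511751442779000461044468572197543712987969381336088576, 6526623657252032095761191279599318067220122656274996388726988999332350850044445543051989231100124087588334237268350207681373979540689847589079363797536281157162233371595321447974128582656, 8⟩
def a5c113 : Cert := (move 492 (branch (move 491 (branch (move 490 (leaf 490 3)) (move 555 (branch (move 554 (leaf 522 1)) (move 587 (branch (move 619 (leaf 491 6)) (move 588 (branch (move 620 (leaf 491 4)) (move 459 (branch (move 556 (leaf 459 4)) (move 458 (branch (move 493 (leaf 458 3)) (move 426 (leaf 426 7)))))))))))))) (branch (move 555 (branch (move 554 (leaf 522 1)) (move 460 (branch (move 428 (leaf 428 4)) (move 587 (branch (move 556 (leaf 459 5)) (move 619 (leaf 491 6)))))))) (branch (move 491 (branch (move 490 (leaf 490 3)) (move 460 (branch (move 428 (leaf 428 4)) (move 462 (branch (move 430 (leaf 429 5)) (move 493 (branch (move 463 (leaf 459 2)) (move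 459 (branch (move 458 (leaf 458 3)) (move 427 (branch (move 395 (leaf 395 4)) (move 556 (leaf 427 4)))))))))))))) (move 491 (branch (move 490 (leaf 490 3)) (move 555 (branch (move 554 (leaf 522 1)) (move 460 (branch (move 428 (leaf 428 4)) (move 587 (leaf 459 6))))))))))))
theorem a5p113 : a5e113.Valid :=
  pos_of_chk [] forall_nil a5c113 a5e113 (by decide +kernel)

def a5e114 : Pos := ⟨589681629235335314665681336706853072476957477001010689294619147671313762587097931301637506088205323662801165649968511413428762905849218334342009213569667494416459235328, 93438783873921282105341840113560939831318765302056181878713913519427516745625195447121348500687233542764426829684684442185448786488914306402127196258023765506226746692385783437858994696535549149184, 11⟩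
def a5c114 : Cert := (move 558 (branch (move 556 (branch (move 522 (leaf 522 3)) (move 590 (branch (move 591 (leaf 555 0)) (move 622 (branch (move 493 (leaf 493 7)) (move 654 (leaf 525 7)))))))) (branch (move 462 (branch (move 430 (leaf 429 5)) (move 463 (branch (move 431 (leaf 430 6)) (move 590 (branch (move 495 (leaf 462 6)) (move 622 (branch (move 493 (leaf 493 7)) (move 654 (leaf 525 7)))))))))) (branch (move 556 (branch (move 522 (leaf 522 3)) (move 590 (branch (move 591 (leaf 555 0)) (move 587 (branch (move 586 (leaf 554 1)) (move 462 (branch (move 430 (leaf 429 5)) (move 463 (branch (move 431 (leaf 430 6)) (move 495 (leaf 462 6)))))))))))) (move 491 (branch (move 462 (branch (move 430 (leaf 429 5)) (move 463 (branch (move 431 (leaf 430 6)) (move 492 (branch (move 493 (leaf 459 2)) (move 587 (branch (move 460 (leaf 459 6)) (move 586 (branch (move 556 (leaf 554 1)) (move 618 (leaf 490 5)))))))))))) (branch (move 556 (branch (move 522 (leaf 522 3)) (move 587 (branch (move 586 (leaf 554 1)) (move 588 (branch (move 459 (leaf 459 4)) (move 620 (leaf 491 4)))))))) (branch (move 462 (branch (move 430 (leaf 429 5)) (move 463 (branch (move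 431 (leaf 430 6)) (move 492 (branch (move 493 (leaf 459 2)) (move 587 (branch (move 460 (leaf 459 6)) (move 490 (branch (move 458 (leaf 458 7)) (move 619 (branch (move 522 (leaf 490 7)) (move 620 (branch (move 588 (leaf 491 4)) (move 652 (leaf 523 4)))))))))))))))) (move 462 (branch (move 430 (leaf 429 5)) (move 463 (branch (move 431 (leaf 430 6)) (move 493 (branch (move 492 (leaf 459 2)) (move 556 (branch (move 522 (leaf 522 3)) (move 459 (branch (move 588 (leaf 459 4)) (move 426 (branch (move 458 (leaf 426 7)) (move 427 (branch (move 394 (leaf 394 7)) (move 428 (branch (move 396 (leaf 395 6)) (move 460 (leaf 427 6))))))))))))))))))))))))))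
theorem a5p114 : a5e114.Valid :=
  pos_of_chk [] forall_nil a5c114 a5e114 (by decide +kernel)

def a5e115 : Pos := ⟨589681629235335314665681336706853072476957477001010689294619147671313762587097931301637506088205323662801165649968511413428762905849218334342009213569667494416459235328, 140460782581587438304138028428906624911996918602371070503104754491181825908772861550217175921707025699743112984507375669546160596425792110833568225809028829359960132152615091254278629420090098920638308679680, 10⟩
def a5c115 : Cert := (move 587 (branch (move 491 (branch (move 490 (branch (move 458 (leaf 458 7)) (move 619 (branch (move 522 (leaf 490 7)) (move 620 (branch (move 588 (leaf 491 4)) (move 652 (leaf 523 4)))))))) (branch (move 492 (branch (move 460 (leaf 459 6)) (move 493 (branch (move 522 (leaf 490 1)) (move 462 (branch (move 463 (leaf 459 2)) (move 430 (leaf 429 5)))))))) (move 492 (branch (move 460 (leaf 459 6)) (move 490 (branch (move 493 (leaf 490 0)) (move 458 (leaf 458 7))))))))) (branch (move 491 (branch (move 586 (branch (move 618 (leaf 490 5)) (move 459 (branch (move 554 (leaf 458 5)) (move 458 (branch (move 426 (leaf 426 7)) (move 490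 (leaf 458 7)))))))) (branch (move 586 (branch (move 618 (leaf 490 5)) (move 459 (branch (move 554 (leaf 458 5)) (move 460 (branch (move 428 (leaf 427 6)) (move 492 (leaf 459 6)))))))) (move 492 (branch (move 460 (leaf 459 6)) (move 490 (branch (move 493 (leaf 490 0)) (move 458 (leaf 458 7))))))))) (branch (move 491 (branch (move 492 (branch (move 460 (leaf 459 6)) (move 493 (branch (move 522 (leaf 490 1)) (move 462 (branch (move 463 (leaf 459 2)) (move 430 (leaf 429 5)))))))) (branch (move 586 (branch (move 618 (leaf 490 5)) (move 459 (branch (move 554 (leaf 458 5)) (move 620 (branch (move 588 (leaf 491 4)) (move 619 (branch (move 652 (leaf 523 4)) (move 428 (branch (move 460 (leaf 427 6)) (move 427 (branch (move 396 (leaf 395 6)) (move 426 (branch (move 394 (leaf 394 7)) (move 458 (leaf 426 7)))))))))))))))) (move 586 (branch (move 618 (leaf 490 5)) (move 620 (branch (move 588 (leaf 491 4)) (move 619 (branch (move 652 (leaf 523 4)) (move 554 (branch (move 459 (leaf 458 5)) (move 651 (branch (move 522 (leaf 522 7)) (move 683 (leaf 554 7))))))))))))))) (branch (move 491 (branch (move 586 (branch (move 618 (leaf 490 5)) (move 459 (branch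 (move 554 (leaf 458 5)) (move 458 (branch (move 426 (leaf 426 7)) (move 490 (leaf 458 7)))))))) (branch (move 490 (branch (move 458 (leaf 458 7)) (move 619 (branch (move 522 (leaf 490 7)) (move 620 (branch (move 588 (leaf 491 4)) (move 652 (leaf 523 4)))))))) (move 586 (branch (move 618 (leaf 490 5)) (move 620 (branch (move 588 (leaf 491 4)) (move 619 (branch (move 652 (leaf 523 4)) (move 554 (branch (move 459 (leaf 458 5)) (move 651 (branch (move 522 (leaf 522 7)) (move 683 (leaf 554 7))))))))))))))) (move 619 (branch (move 522 (branch (move 490 (leaf 490 7)) (move 651 (branch (move 554 (leaf 522 7)) (move 652 (branch (move 620 (leaf 523 4)) (move 684 (leaf 555 4)))))))) (branch (move 522 (branch (move 490 (leaf 490 7)) (move 651 (branch (move 554 (leaf 522 7)) (move 650 (branch (move 618 (leaf 522 5)) (move 682 (leaf 554 5)))))))) (move 620 (branch (move 652 (leaf 523 4)) (move 621 (branch (move 622 (branch (move 586 (leaf 586 3)) (move 590 (branch (move 591 (leaf 587 2)) (move 558 (branch (move 653 (leaf 525 5)) (move 493 (leaf 493 7)))))))) (branch (move 618 (branch (move 650 (leaf 522 5)) (move 654 (branch (move 653 (leaf 618 0))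 (move 622 (branch (move 655 (leaf 619 0)) (move 590 (branch (move 591 (leaf 587 2)) (move 558 (leaf 525 7)))))))))) (move 618 (branch (move 650 (leaf 522 5)) (move 585 (branch (move 586 (leaf 585 3)) (move 617 (branch (move 584 (leaf 584 3)) (move 616 (branch (move 588 (leaf 584 2)) (move 648 (branch (move 647 (leaf 615 1)) (move 649 (leaf 616 1)))))))))))))))))))))))))
theorem a5p115 : a5e115.Valid :=
  pos_of_chk [] forall_nil a5c115 a5e115 (by decide +kernel)

def a5e116 : Pos := ⟨471745303459662147408132756050969669635803688862996925907862700788638007512343279673946045926403487177130278930257141260310932136164068564574464393212395743052415631360, 140460782581587438338946687926146273492071580284320673965651908253004994669539937807994029421563823719944097482115650037967009796697420589623973053095269330429821070684364210424853707341092671639682725969920, 12⟩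
def a5c116 : Cert := (move 555 (branch (move 556 (branch (move 554 (leaf 522 2)) (move 558 (branch (move 522 (leaf 522 3)) (move 590 (branch (move 591 (leaf 555 0)) (move 622 (branch (move 654 (leaf 525 7)) (move 587 (branch (move 586 (leaf 554 1)) (move 495 (branch (move 463 (leaf 462 6)) (move 623 (branch (move 655 (leaf 526 4)) (move 621 (branch (move 653 (leaf 525 5)) (move 620 (branch (move 588 (leaf 587 3)) (move 652 (branch (move 651 (leaf 619 1)) (move 619 (leaf 523 4)))))))))))))))))))))) (branch (move 556 (branch (move 554 (leaf 522 2)) (move 558 (branch (move 522 (leaf 522 3)) (move 590 (branch (move 591 (leaf 555 0)) (move 622 (branch (move 493 (leaf 493 7)) (move 654 (leaf 525 7)))))))))) (branch (ref 0) (branch (move 491 (branch (move 556 (branch (move 554 (leaf 522 2)) (move 588 (branch (move 459 (leaf 459 4)) (move 620 (branch (move 587 (leaf 491 4)) (move 652 (leaf 524 6)))))))) (branch (move 587 (branch (move 586 (branch (move 618 (leaf 490 5)) (move 459 (branch (move 554 (leaf 458 5)) (move 458 (branch (move 426 (leaf 426 7)) (move 490 (leaf 458 7)))))))) (branch (move 586 (branch (move 618 (leaf 490 5)) (move 459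 (branch (move 554 (leaf 458 5)) (move 460 (branch (move 428 (leaf 427 6)) (move 492 (leaf 459 6)))))))) (move 492 (branch (move 460 (leaf 459 6)) (move 490 (branch (move 493 (leaf 490 0)) (move 458 (leaf 458 7))))))))) (branch (move 587 (branch (move 492 (branch (move 460 (leaf 459 6)) (move 490 (branch (move 493 (leaf 490 0)) (move 458 (leaf 458 7)))))) (move 588 (branch (move 620 (leaf 491 4)) (move 586 (branch (move 618 (leaf 490 5)) (move 556 (branch (move 558 (leaf 554 1)) (move 585 (leaf 553 2)))))))))) (move 556 (branch (move 554 (leaf 522 2)) (move 459 (branch (move 588 (leaf 459 4)) (move 458 (branch (move 426 (leaf 426 7)) (move 492 (branch (move 493 (leaf 458 3)) (move 428 (branch (move 460 (leaf 427 6)) (move 427 (branch (move 396 (leaf 395 6)) (move 430 (branch (move 429 (leaf 426 1)) (move 462 (leaf 429 5)))))))))))))))))))) (branch (move 491 (branch (move 459 (branch (move 460 (branch (move 428 (leaf 427 6)) (move 492 (branch (move 587 (leaf 459 6)) (move 493 (branch (move 490 (leaf 490 0)) (move 522 (leaf 490 1)))))))) (branch (move 458 (branch (move 426 (leaf 426 7)) (move 587 (branch (move 490 (leaf 458 7)) (move 586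 (branch (move 554 (leaf 458 5)) (move 618 (leaf 490 5)))))))) (move 458 (branch (move 426 (leaf 426 7)) (move 492 (branch (move 493 (leaf 458 3)) (move 428 (branch (move 460 (leaf 427 6)) (move 427 (branch (move 396 (leaf 395 6)) (move 554 (branch (move 522 (leaf 426 5)) (move 586 (leaf 458 5))))))))))))))) (branch (move 556 (branch (move 554 (leaf 522 2)) (move 588 (branch (move 459 (leaf 459 4)) (move 620 (branch (move 587 (leaf 491 4)) (move 652 (leaf 524 6)))))))) (branch (move 556 (branch (move 554 (leaf 522 2)) (move 459 (branch (move 588 (leaf 459 4)) (move 458 (branch (move 426 (leaf 426 7)) (move 492 (branch (move 493 (leaf 458 3)) (move 428 (branch (move 460 (leaf 427 6)) (move 427 (branch (move 396 (leaf 395 6)) (move 430 (branch (move 429 (leaf 426 1)) (move 462 (leaf 429 5)))))))))))))))) (move 587 (branch (move 490 (branch (move 458 (leaf 458 7)) (move 619 (branch (move 522 (leaf 490 7)) (move 620 (branch (move 588 (leaf 491 4)) (move 652 (leaf 523 4)))))))) (branch (move 492 (branch (move 460 (leaf 459 6)) (move 493 (branch (move 522 (leaf 490 1)) (move 462 (branch (move 463 (leaf 459 2)) (move 430 (leaf 429 5))))))))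 (move 492 (branch (move 460 (leaf 459 6)) (move 490 (branch (move 493 (leaf 490 0)) (move 458 (leaf 458 7))))))))))))) (ref 1)))))))
theorem a5p116 : a5e116.Valid :=
  pos_of_chk [a5e114, a5e115] (forall_cons a5p114 (forall_cons a5p115 forall_nil)) a5c116 a5e116 (by decide +kernel)

def a5e117 : Pos := ⟨471745303432202956767610317191042066439478115993919184707289479151060153675601106940355421717913248614484460710347956014745008704015580612575597817962099629887955402752, 140460782581587438338946687926146273492101064365846969829389461050006510117861670351417500882469465994719971195097930201559105527999643397665605784264585131832220156349297298331504666942713045493218086486016, 13⟩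
def a5c117 : Cert := (move 523 (branch (move 524 (branch (move 495 (leaf 491 2)) (move 522 (branch (move 558 (leaf 522 0)) (move 490 (branch (move 489 (leaf 489 3)) (move 491 (leaf 490 3)))))))) (branch (move 524 (branch (move 495 (leaf 491 2)) (move 522 (branch (move 558 (leaf 522 0)) (move 554 (branch (move 553 (leaf 521 1)) (move 555 (leaf 522 1)))))))) (branch (move 524 (branch (move 522 (branch (move 558 (leaf 522 0)) (move 490 (branch (move 489 (leaf 489 3)) (move 491 (leaf 490 3)))))) (branch (move 522 (branch (move 493 (leaf 490 2)) (move 554 (branch (move 553 (leaf 521 1)) (move 555 (leaf 522 1)))))) (ref 0)))) (branch (move 524 (branch (move 495 (leaf 491 2)) (ref 0))) (ref 1))))))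
theorem a5p117 : a5e117.Valid :=
  pos_of_chk [a5e113, a5e116] (forall_cons a5p113 (forall_cons a5p116 forall_nil)) a5c117 a5e117 (by decide +kernel)

def a5e118 : Pos := ⟨4052261301509307112077019045066175093602561538824281656872526335994381348291582279605650505484030692304912712541988279605662022704166049666032169273296079393238706710061223247872, 747510271065338658221689577260871688971954951101926096590552440066386234043483872099510850807475372773690193419696000794334022860986286129149934583895475143331666580526362226730041603757217954136064, 6⟩
def a5c118 : Cert := (move 592 (branch (move 497 (branch (move 465 (leaf 464 6)) (move 624 (branch (move 529 (leaf 496 6)) (move 625 (branch (move 593 (leaf 496 4)) (move 657 (leaf 528 4)))))))) (branch (move 497 (branch (move 465 (leaf 464 6)) (move 624 (branch (move 529 (leaf 496 6)) (move 623 (branch (move 591 (leaf 495 5)) (move 655 (leaf 527 5)))))))) (move 591 (branch (move 623 (leaf 495 5)) (move 593 (branch (move 625 (leaf 496 4)) (move 621 (branch (move 622 (leaf 589 1)) (move 589 (branch (move 620 (leaf 588 1)) (move 557 (leaf 493 6)))))))))))))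
theorem a5p118 : a5e118.Valid :=
  pos_of_chk [] forall_nil a5c118 a5e118 (by decide +kernel)

def a5e119 : Pos := ⟨4052261301509307112077019045066175093602561538824281656872526335994381348291582279605650505484030692304912712541988279605662022704166049666032169273296079393238706710061223247872, 642106434340993567255700079697298325516538059712062269296298253796467262447575171299751037705816656365119044421539345210208229879139230153862822897949657584690657958871045268028725986377377349629199278669824, 7⟩
def a5c119 : Cert := (move 592 (branch (move 591 (branch (move 623 (leaf 495 5)) (move 589 (branch (move 561 (leaf 557 2)) (move 557 (branch (move 556 (leaf 556 3)) (move 621 (leaf 493 6)))))))) (branch (move 591 (branch (move 623 (leaf 495 5)) (move 625 (branch (move 593 (leaf 496 4)) (move 624 (branch (move 589 (leaf 589 0)) (move 657 (leaf 528 4)))))))) (branch (move 625 (branch (move 593 (leaf 496 4)) (move 624 (branch (move 657 (leaf 528 4)) (move 655 (branch (move 623 (leaf 527 5)) (move 656 (branch (move 687 (leaf 559 5)) (move 529 (branch (move 497 (leaf 496 6)) (move 561 (leaf 528 6)))))))))))) (move 593 (branch (move 625 (leaf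 496 4)) (move 561 (branch (move 464 (leaf 464 4)) (move 591 (branch (move 589 (leaf 557 2)) (move 562 (leaf 558 2))))))))))))
theorem a5p119 : a5e119.Valid :=
  pos_of_chk [] forall_nil a5c119 a5e119 (by decide +kernel)

def a5e120 : Pos := ⟨4052261301509307112077019045066175093602561538824281656872526335994381348291582279605650505484030692304912712541988279605662022704166049666032169273296079393238706710061223247872, 598008216885339153111480885730742807396901565238580747093571603468805190820578592499586688465125128073755870973395569325680393661261578099194249306817268144327434714502430288139261179604013856849920, 7⟩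
def a5c120 : Cert := (move 592 (branch (move 591 (branch (move 623 (leaf 495 5)) (move 589 (branch (move 561 (leaf 557 2)) (move 557 (branch (move 556 (leaf 556 3)) (move 621 (leaf 493 6)))))))) (branch (move 591 (branch (move 623 (leaf 495 5)) (move 625 (branch (move 593 (leaf 496 4)) (move 624 (branch (move 589 (leaf 589 0)) (move 657 (leaf 528 4)))))))) (move 593 (branch (move 625 (leaf 496 4)) (move 464 (branch (move 561 (leaf 464 4)) (move 431 (branch (move 463 (leaf 431 7)) (move 432 (branch (move 399 (leaf 399 7)) (move 433 (branch (move 401 (leaf 400 6)) (move 465 (leaf 432 6)))))))))))))))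
theorem a5p120 : a5e120.Valid :=
  pos_of_chk [] forall_nil a5c120 a5e120 (by decide +kernel)

def a5e121 : Pos := ⟨4052261301509307112077019045066175093602561538824281656872526335994381348291582279605650505484030692304912712541988279605662022704166049666032169273296079393238706710061223247872, 3210532167518910318855619000663562884385171735723962070515751491827621936205938102991089031595134126163164319258191185391759420509968724410302192105532885391505304148101373489990978525541749583608027971321856, 8⟩
def a5c121 : Cert := (move 592 (branch (move 591 (branch (move 623 (leaf 495 5)) (move 589 (branch (move 561 (leaf 557 2)) (move 557 (branch (move 556 (leaf 556 3)) (move 621 (leaf 493 6)))))))) (branch (move 497 (branch (move 465 (leaf 464 6)) (move 624 (branch (move 529 (leaf 496 6)) (move 655 (branch (move 623 (leaf 527 5)) (move 656 (branch (move 687 (leaf 559 5)) (move 657 (branch (move 625 (leaf 528 4)) (move 689 (leaf 560 4)))))))))))) (move 497 (branch (move 465 (leaf 464 6)) (move 624 (branch (move 529 (leaf 496 6)) (move 625 (branch (move 657 (leaf 528 4)) (move 589 (branch (move 591 (leaf 589 0)) (move 557 (branch (move 621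 (leaf 493 6)) (move 493 (branch (move 622 (leaf 493 4)) (move 462 (leaf 461 6)))))))))))))))))
theorem a5p121 : a5e121.Valid :=
  pos_of_chk [] forall_nil a5c121 a5e121 (by decide +kernel)

def a5e122 : Pos := ⟨4052261297735344686431701973404360433822955685141768894332028724587438271040930952768530760884176878597254628440940977207253610615487344313680233642692569350179290205644988088320, 3210532167518910318859970083133135930858507348251619501025439994060761985175341243294490234331767370692451412201363115207839958915404636157351320054656120189420759655489764350272944460812380027469445145296896, 11⟩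
def a5c122 : Cert := (move 496 (branch (move 495 (branch (move 493 (leaf 492 1)) (move 497 (leaf 493 1)))) (branch (move 495 (branch (move 493 (leaf 492 1)) (move 527 (leaf 492 2)))) (branch (move 495 (branch (move 497 (leaf 493 1)) (move 527 (leaf 492 2)))) (move 528 (branch (move 527 (branch (move 561 (branch (move 560 (leaf 525 0)) (move 529 (branch (move 562 (leaf 526 0)) (move 493 (leaf 493 3)))))) (move 556 (branch (move 555 (leaf 523 1)) (move 557 (leaf 524 1)))))) (branch (move 527 (branch (move 497 (leaf 493 2)) (move 561 (branch (move 560 (leaf 525 0)) (move 529 (branch (move 562 (leaf 526 0)) (move 493 (leaf 493 3)))))))) (branch (move 527 (branch (move 497 (leaf 493 2)) (move 556 (branch (move 555 (leaf 523 1)) (move 557 (leaf 524 1)))))) (move 560 (branch (ref 0) (branch (ref 1) (branch (move 464 (branch (move 433 (branch (move 465 (leaf 432 6)) (move 432 (branch (move 401 (leaf 400 6)) (move 431 (branch (move 399 (leaf 399 7)) (move 463 (leaf 431 7)))))))) (branch (move 561 (branch (move 593 (leaf 464 4)) (move 432 (branch (move 529 (leaf 432 4)) (move 431 (branch (move 399 (leaf 399 7)) (move 463 (leaf 431 7)))))))) (move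 465 (branch (move 433 (leaf 432 6)) (move 592 (branch (move 497 (leaf 464 6)) (move 593 (branch (move 561 (leaf 464 4)) (move 625 (leaf 496 4))))))))))) (branch (ref 2) (branch (move 464 (branch (move 561 (branch (move 593 (leaf 464 4)) (move 432 (branch (move 529 (leaf 432 4)) (move 431 (branch (move 399 (leaf 399 7)) (move 463 (leaf 431 7)))))))) (branch (move 561 (branch (move 593 (leaf 464 4)) (move 432 (branch (move 529 (leaf 432 4)) (move 433 (branch (move 401 (leaf 400 6)) (move 465 (leaf 432 6)))))))) (move 465 (branch (move 433 (leaf 432 6)) (move 463 (branch (move 431 (leaf 431 7)) (move 462 (branch (move 493 (leaf 461 1)) (move 430 (branch (move 429 (leaf 429 3)) (move 557 (leaf 429 5))))))))))))) (ref 3)))))))))))))))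
theorem a5p122 : a5e122.Valid :=
  pos_of_chk [a5e118, a5e119, a5e120, a5e121] (forall_cons a5p118 (forall_cons a5p119 (forall_cons a5p120 (forall_cons a5p121 forall_nil)))) a5c122 a5e122 (by decide +kernel)

def a5e123 : Pos := ⟨384428669018460872287363661467514109180019613561410134895512841050066845896770829487686379797092550271320845893405532489571957437503151687033604850760701444096, 3371058775954656656452560314783642552099861034197401447279723451884054465505098033342359855151706215901511160734752390383909882153214233485115738233718699050977977190497346460688400440906586506220933293801472, 12⟩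
def a5c123 : Cert := (move 590 (branch (move 558 (branch (move 495 (branch (move 463 (leaf 462 6)) (move 496 (branch (move 497 (leaf 493 1)) (move 527 (leaf 492 2)))))) (move 623 (branch (move 591 (leaf 494 4)) (move 622 (branch (move 655 (leaf 526 4)) (move 654 (branch (move 557 (leaf 525 7)) (move 653 (branch (move 621 (leaf 525 5)) (move 685 (leaf 557 5)))))))))))) (branch (move 558 (branch (move 495 (branch (move 463 (leaf 462 6)) (move 496 (branch (move 497 (leaf 493 1)) (move 527 (leaf 492 2)))))) (move 623 (branch (move 591 (leaf 494 4)) (move 622 (branch (move 655 (leaf 526 4)) (move 621 (branch (move 589 (leaf 493 5)) (move 653 (leaf 525 5)))))))))) (branch (move 558 (branch (move 463 (branch (move 495 (leaf 462 6)) (move 462 (branch (move 431 (leaf 430 6)) (move 557 (branch (move 430 (leaf 429 5)) (move 589 (leaf 461 5)))))))) (move 622 (branch (move 493 (leaf 493 7)) (move 623 (branch (move 591 (leaf 494 4)) (move 655 (leaf 526 4)))))))) (branch (move 558 (branch (move 623 (branch (move 591 (leaf 494 4)) (move 622 (branch (move 655 (leaf 526 4)) (move 557 (branch (move 654 (leaf 525 7)) (move 462 (branch (move 430 (leaf 429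 5)) (move 589 (leaf 461 5)))))))))) (branch (move 623 (branch (move 591 (leaf 494 4)) (move 622 (branch (move 655 (leaf 526 4)) (move 654 (branch (move 557 (leaf 525 7)) (move 653 (branch (move 621 (leaf 525 5)) (move 685 (leaf 557 5)))))))))) (branch (move 589 (branch (move 621 (leaf 493 5)) (move 557 (branch (move 462 (leaf 461 5)) (move 591 (branch (move 623 (leaf 494 4)) (move 556 (branch (move 555 (leaf 555 0)) (move 592 (leaf 556 3)))))))))) (move 622 (branch (move 493 (leaf 493 7)) (move 621 (branch (move 589 (leaf 493 5)) (move 653 (leaf 525 5)))))))))) (branch (move 558 (branch (move 589 (branch (move 621 (leaf 493 5)) (move 557 (branch (move 462 (leaf 461 5)) (move 591 (branch (move 623 (leaf 494 4)) (move 556 (branch (move 555 (leaf 555 0)) (move 592 (leaf 556 3)))))))))) (move 495 (branch (move 463 (leaf 462 6)) (move 496 (branch (move 493 (leaf 492 1)) (move 497 (leaf 493 1)))))))) (branch (move 558 (branch (move 463 (branch (move 495 (leaf 462 6)) (move 462 (branch (move 431 (leaf 430 6)) (move 557 (branch (move 430 (leaf 429 5)) (move 589 (leaf 461 5)))))))) (branch (move 622 (branch (move 493 (leaf 493 7)) (move 621 (branch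 (move 589 (leaf 493 5)) (move 653 (leaf 525 5)))))) (move 495 (branch (move 463 (leaf 462 6)) (move 496 (branch (move 493 (leaf 492 1)) (move 497 (leaf 493 1))))))))) (ref 0))))))))
theorem a5p123 : a5e123.Valid :=
  pos_of_chk [a5e122] (forall_cons a5p122 forall_nil) a5c123 a5e123 (by decide +kernel)

def a5e124 : Pos := ⟨329510287839709451064262888512775141467726604667033755559202908047935355682593762208351982511903104216686980313238894504261233752543457803591931157348297474048, 4052261325922126553105743605862434517321669713980832220749277393230511160814540205108561352621066835922934656526034139046691936182093653409252992385558096627376212689913999523840, 13⟩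
def a5c124 : Cert := (move 463 (branch (move 431 (branch (move 399 (leaf 398 5)) (move 558 (branch (move 462 (leaf 430 6)) (move 590 (leaf 462 6)))))) (branch (move 527 (branch (move 431 (branch (move 399 (leaf 398 5)) (move 528 (branch (move 560 (leaf 431 4)) (move 529 (branch (move 493 (leaf 493 3)) (move 530 (leaf 494 3)))))))) (branch (move 431 (branch (move 399 (leaf 398 5)) (move 430 (branch (move 398 (leaf 398 7)) (move 528 (branch (move 560 (leaf 431 4)) (move 524 (branch (move 523 (leaf 491 2)) (move 529 (branch (move 530 (leaf 494 3)) (move 432 (branch (move 400 (leaf 399 6)) (move 561 (branch (move 562 (leaf 526 0)) (move 497 (branch (move 498 (leaf 494 2)) (move 465 (branch (move 464 (leaf 432 7)) (move 466 (branch (move 433 (leaf 430 0)) (move 434 (leaf 433 6)))))))))))))))))))))) (branch (move 431 (branch (move 399 (leaf 398 5)) (move 524 (branch (move 523 (leaf 491 2)) (move 492 (branch (move 491 (leaf 491 3)) (move 430 (branch (move 398 (leaf 398 7)) (move 464 (branch (move 493 (leaf 460 2)) (move 465 (branch (move 466 (leaf 462 1)) (move 429 (branch (move 428 (leaf 428 0)) (move 432 (leaf 429 0)))))))))))))))) (move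 524 (branch (move 523 (leaf 491 2)) (move 492 (branch (move 491 (leaf 491 3)) (move 493 (branch (move 528 (leaf 492 0)) (move 464 (leaf 460 2)))))))))))) (move 492 (branch (move 524 (branch (move 523 (leaf 491 2)) (move 527 (branch (move 491 (leaf 491 3)) (move 556 (branch (move 555 (leaf 523 1)) (move 528 (branch (move 557 (leaf 524 1)) (move 529 (branch (move 530 (leaf 494 3)) (move 561 (branch (move 560 (leaf 525 0)) (move 562 (leaf 526 0)))))))))))))) (branch (move 493 (branch (move 464 (leaf 460 2)) (move 524 (branch (move 523 (leaf 491 1)) (move 527 (branch (move 528 (leaf 492 0)) (move 460 (branch (move 459 (leaf 459 3)) (move 428 (branch (move 396 (leaf 396 4)) (move 557 (leaf 428 4)))))))))))) (move 493 (branch (move 464 (leaf 460 2)) (move 491 (branch (move 490 (leaf 490 0)) (move 462 (leaf 459 2))))))))))))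
theorem a5p124 : a5e124.Valid :=
  pos_of_chk [] forall_nil a5c124 a5e124 (by decide +kernel)

def a5e125 : Pos := ⟨384428669018460872287363661467514109180019613561410134895512841050066845896770829487686379797092550271320845893405532489571957437503151687033604850760701444096, 100329130234965947472124430691245527158834871886997485937141891388052000238340940556516516286516417700823205148323621114944119329971192332007450424878552090741721756452162370349470133581648786442159556395008, 9⟩
def a5c125 : Cert := (move 557 (branch (move 589 (branch (move 621 (leaf 493 6)) (move 462 (branch (move 430 (leaf 429 5)) (move 558 (leaf 461 5)))))) (branch (move 589 (branch (move 621 (leaf 493 6)) (move 462 (branch (move 430 (leaf 429 5)) (move 493 (leaf 461 6)))))) (move 523 (branch (move 522 (branch (move 493 (leaf 490 2)) (move 554 (branch (move 553 (leaf 521 1)) (move 555 (leaf 522 1)))))) (branch (move 522 (branch (move 558 (leaf 522 0)) (move 493 (leaf 490 2)))) (move 555 (branch (move 554 (leaf 522 1)) (move 587 (branch (move 556 (branch (move 527 (leaf 523 1)) (move 586 (branch (move 558 (leaf 554 1)) (move 585 (branch (move 584 (leaf 552 2))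 (move 588 (leaf 553 2)))))))) (move 619 (branch (move 492 (leaf 491 6)) (move 652 (branch (move 620 (leaf 523 4)) (move 651 (branch (move 684 (leaf 555 4)) (move 650 (branch (move 618 (leaf 522 5)) (move 682 (leaf 554 5))))))))))))))))))))
theorem a5p125 : a5e125.Valid :=
  pos_of_chk [] forall_nil a5c125 a5e125 (by decide +kernel)

def a5e126 : Pos := ⟨329510287737415994603234032051440633326144494965574890492907313537085557728545387340832684961150648558831417926956592399717580995496613714322105363681448558592, 2175541219084010725044112845366926804048181806921672183942724613041298633326743086411631327805682039823221597488876811515360692524130462084400087419627125583258227031128596374097682759680, 9⟩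
def a5c126 : Cert := (move 464 (branch (move 493 (branch (move 465 (leaf 461 1)) (move 492 (branch (move 491 (leaf 459 2)) (move 495 (leaf 460 2)))))) (branch (move 465 (branch (move 497 (branch (move 498 (leaf 462 0)) (move 496 (branch (move 495 (leaf 493 1)) (move 433 (branch (move 434 (leaf 430 2)) (move 528 (branch (move 527 (leaf 493 2)) (move 401 (leaf 400 5)))))))))) (branch (move 495 (branch (move 466 (leaf 462 1)) (move 496 (branch (move 497 (leaf 493 1)) (move 524 (branch (move 523 (leaf 491 2)) (move 527 (leaf 492 2)))))))) (branch (move 466 (branch (move 495 (leaf 462 1)) (move 434 (branch (move 433 (leaf 430 2)) (move 435 (leaf 431 2)))))) (move 498 (branch (move 497 (leaf 462 0)) (move 466 (branch (move 499 (leaf 463 0)) (move 434 (branch (move 433 (leaf 430 2)) (move 435 (leaf 431 2)))))))))))) (branch (move 465 (branch (move 493 (leaf 461 1)) (move 498 (branch (move 497 (leaf 462 0)) (move 466 (branch (move 499 (leaf 463 0)) (move 434 (branch (move 433 (leaf 430 2)) (move 435 (leaf 431 2)))))))))) (move 492 (branch (move 493 (branch (move 491 (leaf 459 2)) (move 495 (leaf 460 2)))) (branch (move 495 (branch (move 493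 (leaf 460 2)) (move 496 (branch (move 497 (leaf 493 1)) (move 524 (branch (move 523 (leaf 491 2)) (move 527 (leaf 492 2)))))))) (branch (move 491 (branch (move 493 (leaf 459 2)) (move 524 (branch (move 527 (leaf 491 3)) (move 490 (branch (move 489 (leaf 489 0)) (move 523 (leaf 490 3)))))))) (move 524 (branch (move 527 (branch (move 491 (leaf 491 3)) (move 496 (branch (move 495 (leaf 492 2)) (move 528 (branch (move 497 (leaf 493 2)) (move 561 (branch (move 560 (leaf 525 0)) (move 529 (branch (move 562 (leaf 526 0)) (move 432 (leaf 432 4)))))))))))) (branch (move 495 (branch (move 523 (leaf 491 2)) (move 496 (branch (move 497 (leaf 493 1)) (move 527 (leaf 492 2)))))) (branch (move 491 (branch (move 527 (leaf 491 3)) (move 490 (branch (move 489 (leaf 489 0)) (move 523 (leaf 490 3)))))) (move 523 (branch (move 495 (leaf 491 2)) (move 555 (branch (move 554 (leaf 522 1)) (move 491 (branch (move 490 (leaf 490 3)) (move 587 (branch (move 460 (leaf 459 6)) (move 619 (leaf 491 6))))))))))))))))))))))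
theorem a5p126 : a5e126.Valid :=
  pos_of_chk [] forall_nil a5c126 a5e126 (by decide +kernel)

def a5e127 : Pos := ⟨329510287737415994567508455074862963441864131160263691620357133376582500429589581070705902671800913831502475402273685625274981533505418536533012624431780986880, 224253081298281293521003166348137957658249275231679581401821405161206479619588575317283689566094828324921458523301866243340195179929868009335444829633401405079080270712855916008672829500145212063744, 10⟩
def a5c127 : Cert := (move 557 (branch (move 495 (branch (move 496 (branch (move 497 (leaf 493 1)) (move 524 (branch (move 523 (leaf 491 2)) (move 527 (leaf 492 2)))))) (move 589 (branch (move 621 (leaf 493 6)) (move 558 (branch (move 462 (leaf 461 5)) (move 590 (branch (move 463 (leaf 462 6)) (move 622 (branch (move 654 (leaf 525 7)) (move 623 (branch (move 591 (leaf 494 4)) (move 655 (leaf 526 4)))))))))))))) (branch (move 589 (branch (move 621 (leaf 493 6)) (move 493 (branch (move 462 (leaf 461 6)) (move 492 (branch (move 460 (leaf 460 7)) (move 491 (branch (move 490 (leaf 490 0)) (move 527 (leaf 491 0)))))))))) (branch (move 462 (branch (move 430 (leaf 429 5))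 (move 589 (branch (move 558 (leaf 461 5)) (move 493 (leaf 461 6)))))) (move 524 (branch (move 523 (branch (move 495 (leaf 491 2)) (move 522 (branch (move 558 (leaf 522 0)) (move 490 (branch (move 489 (leaf 489 3)) (move 491 (leaf 490 3)))))))) (branch (move 495 (branch (move 523 (leaf 491 2)) (move 496 (branch (move 497 (leaf 493 1)) (move 527 (leaf 492 2)))))) (branch (move 527 (branch (move 496 (branch (move 495 (leaf 492 2)) (move 528 (branch (move 497 (leaf 493 2)) (move 529 (branch (move 558 (leaf 525 1)) (move 561 (branch (move 560 (leaf 525 0)) (move 562 (leaf 526 0)))))))))) (branch (move 496 (branch (move 495 (leaf 492 2)) (move 528 (branch (move 497 (leaf 493 2)) (move 529 (branch (move 493 (leaf 493 3)) (move 561 (branch (move 560 (leaf 525 0)) (move 562 (leaf 526 0)))))))))) (branch (move 495 (branch (move 496 (leaf 492 2)) (move 492 (branch (move 491 (leaf 491 3)) (move 460 (branch (move 428 (leaf 428 4)) (move 493 (branch (move 459 (leaf 459 3)) (move 463 (branch (move 464 (leaf 460 2)) (move 558 (branch (move 431 (leaf 430 5)) (move 590 (leaf 462 6)))))))))))))) (move 492 (branch (move 491 (leaf 491 3)) (move 528 (branch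 (move 493 (leaf 492 3)) (move 529 (branch (move 558 (leaf 525 1)) (move 561 (branch (move 560 (leaf 525 0)) (move 562 (leaf 526 0)))))))))))))) (ref 0)))))))))
theorem a5p127 : a5e127.Valid :=
  pos_of_chk [a5e57] (forall_cons a5p57 forall_nil) a5c127 a5e127 (by decide +kernel)

def a5e128 : Pos := ⟨823775719381900032605054050226374475364358755465698003027959998943213571793850520603382036619540605973200377847296167392807298415902811066479626010923146149888, 1297299583532404839858607751426731416357000580893274872014180693541914435934522100096329601801139897231446750355236005885869765126706507025067067910809835841002273767424, 8⟩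
def a5c128 : Cert := (move 460 (branch (move 556 (branch (move 555 (leaf 523 1)) (move 459 (branch (move 493 (leaf 459 3)) (move 427 (leaf 427 7)))))) (branch (move 493 (branch (move 459 (leaf 459 3)) (move 463 (branch (move 464 (leaf 460 2)) (move 431 (branch (move 399 (leaf 398 5)) (move 558 (leaf 430 5)))))))) (branch (move 428 (branch (move 556 (branch (move 555 (leaf 523 1)) (move 427 (branch (move 395 (leaf 395 7)) (move 459 (leaf 427 7)))))) (branch (move 397 (branch (move 429 (leaf 396 6)) (move 396 (branch (move 365 (leaf 364 6)) (move 395 (branch (move 363 (leaf 363 7)) (move 427 (leaf 395 7)))))))) (move 431 (branch (move 429 (branch (move 397 (leaf 396 6)) (move 430 (branch (move 459 (leaf 427 1)) (move 399 (branch (move 400 (leaf 396 2)) (move 462 (leaf 398 6)))))))) (branch (move 463 (branch (move 558 (leaf 430 5)) (move 430 (branch (move 398 (leaf 398 7)) (move 429 (branch (move 464 (leaf 428 0)) (move 459 (leaf 427 1)))))))) (move 463 (branch (move 399 (leaf 398 5)) (move 558 (leaf 430 5)))))))))) (move 428 (branch (move 397 (branch (move 429 (leaf 396 6)) (move 396 (branch (move 365 (leaf 364 6)) (move 395 (branch (move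 363 (leaf 363 7)) (move 427 (leaf 395 7)))))))) (branch (move 556 (branch (move 555 (leaf 523 1)) (move 493 (branch (move 396 (leaf 396 4)) (move 463 (branch (move 464 (leaf 460 2)) (move 431 (branch (move 399 (leaf 398 5)) (move 558 (leaf 430 5)))))))))) (move 429 (branch (move 397 (leaf 396 6)) (move 430 (branch (move 427 (branch (move 395 (leaf 395 7)) (move 398 (branch (move 399 (leaf 395 2)) (move 462 (leaf 398 4)))))) (branch (move 427 (branch (move 395 (leaf 395 7)) (move 399 (branch (move 398 (leaf 395 2)) (move 431 (branch (move 400 (leaf 396 2)) (move 463 (leaf 398 5)))))))) (branch (move 427 (branch (move 395 (leaf 395 7)) (move 463 (branch (move 462 (leaf 427 0)) (move 431 (branch (move 464 (leaf 428 0)) (move 558 (leaf 430 5)))))))) (move 462 (branch (move 398 (leaf 398 4)) (move 431 (branch (move 399 (leaf 398 6)) (move 463 (branch (move 464 (leaf 428 0)) (move 558 (leaf 430 5)))))))))))))))))))))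
theorem a5p128 : a5e128.Valid :=
  pos_of_chk [] forall_nil a5c128 a5e128 (by decide +kernel)

end Crest.Agent.SN
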