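import Crest.Agent.Lib_SN_A5x0

set_option autoImplicit false
set_option linter.all false
set_option maxRecDepth 1000000

namespace Crest.Agent.SN
open Cert

def a5e129 : Pos := ⟨219673525175326239127798042289560671965553166357970805070045718029613809495227084236744948421217640951865734420009991896681029725509952235531828171773940072448, 3511519558274615500784721431521136102760477081696353707764884597464786812045295958769182195545129622750501333857781294843161351685123597665720775455092970438325080575260080387376084161753247988791954838126592, 18⟩
def a5c129 : Cert := (move 525 (branch (ref 0) (branch (ref 1) (branch (ref 2) (branch (ref 3) (branch (move 462 (branch (ref 4) (branch (move 430 (branch (move 557 (leaf 429 5)) (move 431 (branch (move 399 (leaf 398 6)) (move 429 (branch (move 397 (leaf 397 7)) (move 463 (branch (move 558 (leaf 430 6)) (move 464 (branch (move 428 (leaf 428 0)) (move 465 (leaf 429 3)))))))))))) (branch (move 430 (branch (move 557 (leaf 429 5)) (move 398 (branch (move 493 (leaf 397 5)) (move 399 (branch (move 367 (leaf 366 6)) (move 431 (leaf 398 6)))))))) (branch (move 557 (branch (move 430 (leaf 429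 5)) (move 589 (branch (move 558 (leaf 461 5)) (move 493 (leaf 461 6)))))) (ref 5)))))) (branch (move 557 (branch (move 462 (branch (move 430 (leaf 429 5)) (move 589 (branch (move 558 (leaf 461 5)) (move 493 (leaf 461 6)))))) (branch (ref 6) (branch (move 589 (branch (move 621 (leaf 493 6)) (move 462 (branch (move 430 (leaf 429 5)) (move 558 (leaf 461 5)))))) (branch (move 589 (branch (move 621 (leaf 493 6)) (move 462 (branch (move 430 (leaf 429 5)) (move 493 (leaf 461 6)))))) (ref 7)))))) (branch (move 557 (branch (move 589 (branch (move 621 (leaf 493 6)) (move 493 (branch (move 462 (leaf 461 6)) (move 492 (branch (move 460 (leaf 460 7)) (move 491 (branch (move 490 (leaf 490 0)) (move 527 (leaf 491 0)))))))))) (branch (move 462 (branch (move 430 (leaf 429 5)) (move 589 (branch (move 558 (leaf 461 5)) (move 493 (leaf 461 6)))))) (branch (move 589 (branch (move 621 (leaf 493 6)) (move 462 (branch (move 430 (leaf 429 5)) (move 558 (leaf 461 5)))))) (branch (move 524 (branch (move 523 (branch (move 522 (branch (move 558 (leaf 522 0)) (move 554 (branch (move 553 (leaf 521 1)) (move 555 (leaf 522 1)))))) (branch (move 589 (branch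 (move 621 (leaf 493 6)) (move 491 (branch (move 490 (leaf 490 3)) (move 555 (branch (move 554 (leaf 522 1)) (move 492 (branch (move 527 (leaf 491 3)) (move 460 (branch (move 428 (leaf 428 4)) (move 587 (leaf 459 6)))))))))))) (move 589 (branch (move 621 (leaf 493 6)) (move 522 (branch (move 558 (leaf 522 0)) (move 490 (branch (move 489 (leaf 489 3)) (move 491 (leaf 490 3))))))))))) (branch (move 523 (branch (move 495 (leaf 491 2)) (move 522 (branch (move 493 (leaf 490 2)) (move 554 (branch (move 553 (leaf 521 1)) (move 555 (leaf 522 1)))))))) (move 527 (branch (move 528 (branch (move 556 (leaf 524 1)) (move 529 (branch (move 558 (leaf 525 1)) (move 561 (branch (move 560 (leaf 525 0)) (move 562 (leaf 526 0)))))))) (move 492 (branch (move 491 (leaf 491 3)) (move 589 (branch (move 621 (leaf 493 6)) (move 460 (branch (move 428 (leaf 428 4)) (move 493 (leaf 460 7))))))))))))) (ref 7)))))) (branch (move 557 (branch (move 495 (branch (move 496 (branch (move 497 (leaf 493 1)) (move 524 (branch (move 523 (leaf 491 2)) (move 527 (leaf 492 2)))))) (move 589 (branch (move 621 (leaf 493 6)) (move 558 (branch (move 462 (leaf 461 5)) (move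 590 (branch (move 463 (leaf 462 6)) (move 622 (branch (move 654 (leaf 525 7)) (move 623 (branch (move 591 (leaf 494 4)) (move 655 (leaf 526 4)))))))))))))) (branch (move 589 (branch (move 621 (leaf 493 6)) (move 493 (branch (move 462 (leaf 461 6)) (move 492 (branch (move 460 (leaf 460 7)) (move 491 (branch (move 490 (leaf 490 0)) (move 527 (leaf 491 0)))))))))) (branch (move 462 (branch (move 430 (leaf 429 5)) (move 589 (branch (move 558 (leaf 461 5)) (move 493 (leaf 461 6)))))) (branch (move 589 (branch (move 621 (leaf 493 6)) (move 493 (branch (move 495 (branch (move 524 (branch (move 496 (leaf 492 1)) (move 523 (leaf 491 2)))) (move 590 (branch (move 622 (leaf 493 4)) (move 588 (branch (move 620 (leaf 492 5)) (move 558 (branch (move 463 (leaf 462 6)) (move 591 (branch (move 623 (leaf 494 4)) (move 556 (branch (move 555 (leaf 555 0)) (move 592 (leaf 556 3)))))))))))))) (move 492 (branch (move 460 (leaf 460 7)) (move 491 (branch (move 490 (leaf 490 0)) (move 527 (leaf 491 0)))))))))) (ref 7)))))) (branch (move 524 (branch (move 523 (branch (move 495 (leaf 491 2)) (move 490 (branch (move 491 (leaf 490 3)) (move 522 (branch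 (move 489 (leaf 489 3)) (move 557 (branch (move 558 (leaf 522 0)) (move 589 (branch (move 621 (leaf 493 6)) (move 553 (branch (move 554 (leaf 521 1)) (move 521 (branch (move 556 (leaf 521 0)) (move 552 (leaf 520 1)))))))))))))))) (branch (move 495 (branch (move 523 (leaf 491 2)) (move 496 (branch (move 497 (leaf 493 1)) (move 527 (leaf 492 2)))))) (branch (ref 8) (ref 9))))) (branch (move 495 (branch (move 496 (branch (move 497 (leaf 493 1)) (move 493 (branch (move 524 (leaf 492 1)) (move 464 (branch (move 465 (leaf 461 2)) (move 463 (branch (move 492 (leaf 460 2)) (move 431 (branch (move 399 (leaf 398 5)) (move 528 (branch (move 529 (leaf 493 0)) (move 560 (leaf 431 7)))))))))))))) (branch (move 496 (branch (move 497 (leaf 493 1)) (move 524 (branch (move 523 (leaf 491 2)) (move 527 (leaf 492 2)))))) (branch (move 524 (branch (move 523 (leaf 491 2)) (move 496 (branch (move 493 (leaf 492 1)) (move 527 (leaf 492 2)))))) (branch (move 493 (branch (move 492 (branch (move 463 (branch (move 464 (leaf 460 2)) (move 558 (branch (move 590 (leaf 462 6)) (move 431 (branch (move 399 (leaf 398 5)) (move 462 (leaf 430 6)))))))) (move 491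 (branch (move 490 (leaf 490 0)) (move 459 (branch (move 458 (leaf 458 3)) (move 460 (leaf 459 3)))))))) (branch (ref 10) (move 496 (branch (move 497 (leaf 493 1)) (move 528 (branch (move 529 (leaf 493 0)) (move 492 (branch (move 527 (leaf 492 0)) (move 491 (branch (move 490 (leaf 490 0)) (move 459 (branch (move 458 (leaf 458 3)) (move 460 (leaf 459 3))))))))))))))) (ref 11)))))) (branch (move 524 (branch (move 495 (branch (move 523 (leaf 491 2)) (move 496 (branch (move 497 (leaf 493 1)) (move 527 (leaf 492 2)))))) (branch (move 523 (branch (move 495 (leaf 491 2)) (move 522 (branch (move 493 (leaf 490 2)) (move 554 (branch (move 553 (leaf 521 1)) (move 555 (leaf 522 1)))))))) (branch (ref 9) (ref 12))))) (branch (move 462 (branch (ref 4) (branch (move 430 (branch (move 557 (leaf 429 5)) (move 431 (branch (move 399 (leaf 398 6)) (move 429 (branch (move 397 (leaf 397 7)) (move 463 (branch (move 558 (leaf 430 6)) (move 464 (branch (move 428 (leaf 428 0)) (move 465 (leaf 429 3)))))))))))) (branch (move 430 (branch (move 557 (leaf 429 5)) (move 398 (branch (move 493 (leaf 397 5)) (move 399 (branch (move 367 (leaf 366 6)) (move 431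 (leaf 398 6)))))))) (branch (move 557 (branch (move 430 (leaf 429 5)) (move 589 (branch (move 558 (leaf 461 5)) (move 493 (leaf 461 6)))))) (move 558 (branch (move 557 (branch (move 589 (leaf 461 5)) (move 463 (branch (move 431 (leaf 430 6)) (move 590 (branch (move 495 (leaf 462 6)) (move 622 (branch (move 654 (leaf 525 7)) (move 623 (branch (move 591 (leaf 494 4)) (move 655 (leaf 526 4)))))))))))) (branch (move 589 (branch (move 557 (leaf 461 5)) (move 590 (branch (move 621 (leaf 493 5)) (move 622 (branch (move 493 (leaf 493 7)) (move 623 (branch (move 591 (leaf 494 4)) (move 655 (leaf 526 4)))))))))) (move 463 (branch (move 431 (leaf 430 6)) (ref 13))))))))))) (branch (ref 14) (move 524 (branch (move 495 (branch (move 523 (leaf 491 2)) (move 496 (branch (move 497 (leaf 493 1)) (move 527 (leaf 492 2)))))) (branch (ref 15) (branch (move 523 (branch (move 495 (leaf 491 2)) (move 522 (branch (move 493 (leaf 490 2)) (move 554 (branch (move 553 (leaf 521 1)) (move 555 (leaf 522 1)))))))) (move 527 (branch (move 492 (branch (move 491 (leaf 491 3)) (move 528 (branch (move 493 (leaf 492 3)) (move 561 (branch (move 560 (leaf 525 0))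 (move 529 (branch (move 562 (leaf 526 0)) (move 497 (branch (move 496 (leaf 493 2)) (move 498 (leaf 494 2)))))))))))) (branch (ref 16) (branch (move 492 (branch (move 491 (leaf 491 3)) (move 528 (branch (move 493 (leaf 492 3)) (move 561 (branch (move 560 (leaf 525 0)) (move 529 (branch (move 562 (leaf 526 0)) (move 530 (branch (move 495 (leaf 494 3)) (move 498 (branch (move 497 (leaf 494 2)) (move 499 (leaf 495 2)))))))))))))) (move 495 (branch (move 496 (leaf 492 2)) (move 492 (branch (move 491 (leaf 491 3)) (ref 17)))))))))))))))))))))))))))
theorem a5p129 : a5e129.Valid :=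
  pos_of_chk [a5e43, a5e69, a5e104, a5e107, a5e108, a5e111, a5e112, a5e117, a5e24, a5e123, a5e27, a5e124, a5e125, a5e126, a5e127, a5e30, a5e15, a5e128] (forall_cons a5p43 (forall_cons a5p69 (forall_cons a5p104 (forall_cons a5p107 (forall_cons a5p108 (forall_cons a5p111 (forall_cons a5p112 (forall_cons a5p117 (forall_cons a5p24 (forall_cons a5p123 (forall_cons a5p27 (forall_cons a5p124 (forall_cons a5p125 (forall_cons a5p126 (forall_cons a5p127 (forall_cons a5p30 (forall_cons a5p15 (forall_cons a5p128 forall_nil)))))))))))))))))) a5c129 a5e129 (by decide +kernel)

def a5e130 : Pos := ⟨329510287737415994579416980733722186736624252428700757911207193430083519529241516494081496768250825407278789577167987883422514687502483595796043537515003510784, 4351082440194152046680621630546281539365397268478407547833256720105138980506864810625862102555975029036656181293746881066166167538600967209437826412762353865760921410217222358820674600960, 7⟩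
def a5c130 : Cert := (move 524 (branch (move 523 (branch (move 495 (leaf 491 2)) (move 490 (branch (move 491 (leaf 490 3)) (move 522 (branch (move 489 (leaf 489 3)) (move 554 (branch (move 553 (leaf 521 1)) (move 555 (leaf 522 1)))))))))) (branch (move 495 (branch (move 523 (leaf 491 2)) (move 496 (branch (move 497 (leaf 493 1)) (move 527 (leaf 492 2)))))) (branch (ref 0) (move 493 (branch (move 492 (branch (move 491 (branch (move 490 (leaf 490 0)) (move 463 (leaf 459 2)))) (move 527 (branch (move 528 (leaf 492 3)) (move 556 (branch (move 555 (leaf 523 1)) (move 588 (branch (move 461 (leaf 460 6)) (move 620 (leaf 492 6)))))))))) (branch (move 496 (branch (move 495 (leaf 492 1)) (move 556 (branch (move 527 (branch (move 555 (leaf 523 1)) (move 528 (branch (move 497 (leaf 493 2)) (move 529 (leaf 493 3)))))) (move 461 (branch (move 429 (leaf 428 5)) (move 588 (branch (move 557 (leaf 460 5)) (move 620 (leaf 492 6)))))))))) (move 492 (branch (move 491 (branch (move 490 (leaf 490 0)) (move 463 (leaf 459 2)))) (move 557 (branch (move 589 (leaf 461 6)) (move 460 (branch (move 428 (leaf 428 4)) (move 495 (branch (move 496 (leaf 492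 1)) (move 459 (leaf 459 3)))))))))))))))))
theorem a5p130 : a5e130.Valid :=
  pos_of_chk [a5e61] (forall_cons a5p61 forall_nil) a5c130 a5e130 (by decide +kernel)

def a5e131 : Pos := ⟨768857337985775016326350106216072129347107990369435237821602794764457264167039568406549719674134005350049439331328460539650788765487283740537750435063144644608, 26830514120198881829684369565425092540818212650423672517806690911129748628468453405754603162028090509218917720741200523266966233891930399188952947581592154073139890880512, 7⟩
def a5c131 : Cert := (move 528 (branch (move 496 (branch (move 497 (leaf 493 2)) (move 524 (branch (move 495 (leaf 492 2)) (move 491 (branch (move 492 (leaf 491 3)) (move 523 (branch (move 490 (leaf 490 3)) (move 555 (branch (move 554 (leaf 522 1)) (move 556 (leaf 523 1)))))))))))) (branch (move 561 (branch (move 560 (leaf 525 0)) (move 529 (branch (move 562 (leaf 526 0)) (move 497 (branch (move 496 (leaf 493 2)) (move 498 (leaf 494 2)))))))) (branch (move 561 (branch (move 560 (leaf 525 0)) (move 529 (branch (move 562 (leaf 526 0)) (move 495 (branch (move 530 (leaf 494 3)) (move 524 (branch (move 523 (leaf 491 2))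 (move 496 (leaf 492 2)))))))))) (move 561 (branch (move 560 (leaf 525 0)) (move 529 (branch (move 562 (leaf 526 0)) (move 530 (branch (move 495 (leaf 494 3)) (move 498 (branch (move 497 (leaf 494 2)) (move 499 (leaf 495 2))))))))))))))
theorem a5p131 : a5e131.Valid :=
  pos_of_chk [] forall_nil a5c131 a5e131 (by decide +kernel)

def a5e132 : Pos := ⟨219673525175326239139706567948419895260313287626407871360895778083114828594879019660120542517667552527642048594904294154828562879507017294794859084857162596352, 13053247314504064218028571784077330162228337861668530838417855960048344016841200855731228220560687605497462337775921531633686301972430810502652770036367129955886348063857540243089682071552, 11⟩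
def a5c132 : Cert := (move 525 (branch (move 557 (branch (move 430 (leaf 429 5)) (move 589 (branch (move 493 (leaf 461 6)) (move 621 (leaf 493 6)))))) (branch (ref 0) (branch (move 527 (branch (move 430 (branch (move 557 (leaf 429 5)) (move 398 (branch (move 495 (leaf 398 4)) (move 399 (branch (move 367 (leaf 366 6)) (move 431 (leaf 398 6)))))))) (branch (move 557 (branch (move 430 (leaf 429 5)) (move 528 (branch (move 556 (leaf 524 1)) (move 497 (branch (move 496 (leaf 493 2)) (move 529 (branch (move 498 (leaf 494 2)) (move 561 (branch (move 560 (leaf 525 0)) (move 562 (leaf 526 0)))))))))))) (ref 1)))) (move 524 (branch (move 523 (branch (move 495 (leaf 491 2)) (move 490 (branch (move 491 (leaf 490 3)) (move 522 (branch (move 489 (leaf 489 3)) (move 554 (branch (move 553 (leaf 521 1)) (move 555 (leaf 522 1)))))))))) (branch (move 495 (branch (move 523 (leaf 491 2)) (move 496 (branch (move 497 (leaf 493 1)) (move 527 (leaf 492 2)))))) (branch (ref 2) (move 527 (branch (ref 3) (branch (move 492 (branch (move 491 (leaf 491 3)) (move 493 (branch (move 528 (leaf 492 3)) (move 556 (branch (move 555 (leaf 523 1)) (move 461 (branch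 (move 429 (leaf 428 5)) (move 588 (leaf 460 6)))))))))) (move 461 (branch (move 492 (branch (move 491 (leaf 491 3)) (move 556 (branch (move 555 (leaf 523 1)) (move 493 (branch (move 429 (leaf 428 5)) (move 588 (leaf 460 6)))))))) (branch (move 495 (branch (move 496 (leaf 492 2)) (move 430 (branch (move 398 (leaf 398 4)) (move 431 (branch (move 399 (leaf 398 6)) (move 460 (branch (move 459 (leaf 459 0)) (move 432 (branch (move 429 (leaf 428 1)) (move 433 (leaf 429 1)))))))))))) (move 495 (branch (move 496 (leaf 492 2)) (move 492 (branch (move 491 (leaf 491 3)) (move 460 (branch (move 459 (leaf 459 0)) (move 430 (branch (move 398 (leaf 398 4)) (move 431 (branch (move 399 (leaf 398 6)) (move 432 (branch (move 433 (leaf 429 1)) (move 463 (leaf 428 2))))))))))))))))))))))))))))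
theorem a5p132 : a5e132.Valid :=
  pos_of_chk [a5e130, a5e131, a5e61, a5e84] (forall_cons a5p130 (forall_cons a5p131 (forall_cons a5p61 (forall_cons a5p84 forall_nil)))) a5c132 a5e132 (by decide +kernel)

def a5e133 : Pos := ⟨384428669018460872299272187134691341557142179408582443738792152213877176222550214636573412635386325770514036937419757966031909325792390379180846479330846441472, 46719391939680067572473672158288828783138419262761773351006047738451227455149422297916250888353016015706763956544833545846652390968329118280112323540247740579370336715607846263212144097856889815040, 11⟩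
def a5c133 : Cert := (move 527 (branch (move 496 (branch (move 495 (leaf 492 2)) (move 528 (branch (move 497 (leaf 493 2)) (move 560 (branch (move 561 (leaf 525 0)) (move 464 (branch (move 463 (leaf 431 7)) (move 433 (branch (move 465 (leaf 432 6)) (move 432 (branch (move 461 (leaf 429 1)) (move 401 (leaf 400 6)))))))))))))) (branch (move 492 (branch (move 491 (leaf 491 3)) (move 528 (branch (move 493 (leaf 492 3)) (move 497 (branch (move 496 (leaf 493 2)) (move 529 (branch (move 498 (leaf 494 2)) (move 561 (branch (move 560 (leaf 525 0)) (move 562 (leaf 526 0)))))))))))) (branch (move 492 (branch (move 491 (leaf 491 3)) (move 528 (branch (move 493 (leaf 492 3)) (move 556 (branch (move 555 (leaf 523 1)) (move 561 (branch (move 560 (leaf 525 0)) (move 529 (branch (move 562 (leaf 526 0)) (move 498 (branch (move 497 (leaf 494 2)) (move 530 (branch (move 499 (leaf 495 2)) (move 495 (leaf 494 3)))))))))))))))) (move 461 (branch (move 492 (branch (move 491 (leaf 491 3)) (move 460 (branch (move 459 (leaf 427 2)) (move 432 (branch (move 433 (leaf 429 1)) (move 463 (leaf 428 2)))))))) (branch (move 495 (branch (move 496 (leaf 492 2))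 (move 492 (branch (move 491 (leaf 491 3)) (move 432 (branch (move 433 (leaf 429 1)) (move 463 (branch (move 400 (leaf 399 6)) (move 493 (branch (move 464 (leaf 460 1)) (move 556 (branch (move 555 (leaf 523 1)) (move 588 (leaf 460 6)))))))))))))) (branch (move 495 (branch (move 496 (leaf 492 2)) (move 460 (branch (move 459 (leaf 459 0)) (move 432 (branch (move 433 (leaf 429 1)) (move 463 (leaf 428 2)))))))) (move 495 (branch (move 496 (leaf 492 2)) (move 460 (branch (move 459 (leaf 459 0)) (move 492 (branch (move 491 (leaf 491 3)) (move 556 (branch (move 555 (leaf 523 1)) (move 588 (branch (move 493 (leaf 460 6)) (move 621 (branch (move 589 (leaf 492 4)) (move 620 (branch (move 653 (leaf 524 4)) (move 619 (branch (move 587 (leaf 491 5)) (move 651 (leaf 523 5))))))))))))))))))))))))))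
theorem a5p133 : a5e133.Valid :=
  pos_of_chk [] forall_nil a5c133 a5e133 (by decide +kernel)

def a5e134 : Pos := ⟨219673525175326239139706567948419895260313287626407871360895778083114828594879019660120542517667552527642048594904294154828562879507017294794859084857162596352, 46719391939680067572473672158819542249334892445229455261180265439284581440718151508829171269460961230041103303826601102935450707543645515209313424654223179200359961226062463178255076919817413853184, 15⟩
def a5c134 : Cert := (move 430 (branch (move 399 (branch (move 431 (leaf 398 6)) (move 398 (branch (move 367 (leaf 366 6)) (move 495 (branch (move 527 (leaf 398 4)) (move 366 (branch (move 463 (leaf 366 4)) (move 365 (branch (move 333 (leaf 333 7)) (move 397 (leaf 365 7)))))))))))) (branch (move 525 (branch (move 557 (leaf 429 5)) (move 398 (branch (move 493 (leaf 397 5)) (move 399 (branch (move 367 (leaf 366 6)) (move 431 (leaf 398 6)))))))) (branch (move 525 (branch (move 557 (leaf 429 5)) (move 398 (branch (move 493 (leaf 397 5)) (move 495 (branch (move 527 (leaf 398 4)) (move 366 (branch (move 463 (leaf 366 4)) (move 365 (branch (move 333 (leaf 333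 7)) (move 397 (leaf 365 7)))))))))))) (move 525 (branch (move 557 (leaf 429 5)) (move 524 (branch (move 527 (branch (move 491 (branch (move 492 (leaf 491 3)) (move 523 (branch (move 490 (leaf 490 3)) (move 555 (branch (move 554 (leaf 522 1)) (move 556 (leaf 523 1)))))))) (branch (move 431 (branch (move 399 (leaf 398 6)) (move 555 (branch (move 556 (leaf 523 1)) (move 523 (branch (move 554 (leaf 522 1)) (move 522 (branch (move 493 (leaf 490 2)) (move 490 (branch (move 489 (leaf 489 3)) (move 491 (leaf 490 3)))))))))))) (branch (move 555 (branch (move 556 (leaf 523 1)) (move 523 (branch (move 554 (leaf 522 1)) (move 493 (branch (move 522 (leaf 490 2)) (move 528 (branch (move 492 (leaf 492 3)) (move 529 (leaf 493 3)))))))))) (move 492 (branch (move 491 (leaf 491 3)) (move 528 (branch (move 493 (leaf 492 3)) (move 497 (branch (move 496 (leaf 493 2)) (move 529 (branch (move 498 (leaf 494 2)) (move 561 (branch (move 560 (leaf 525 0)) (move 562 (leaf 526 0)))))))))))))))) (branch (move 523 (branch (move 495 (leaf 491 2)) (move 522 (branch (move 493 (leaf 490 2)) (move 490 (branch (move 489 (leaf 489 3)) (move 491 (leaf 490 3))))))))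 (branch (move 495 (branch (move 523 (leaf 491 2)) (move 496 (branch (move 497 (leaf 493 1)) (move 527 (leaf 492 2)))))) (move 431 (branch (move 399 (leaf 398 6)) (ref 0)))))))))))))
theorem a5p134 : a5e134.Valid :=
  pos_of_chk [a5e133] (forall_cons a5p133 forall_nil) a5c134 a5e134 (by decide +kernel)

def a5e135 : Pos := ⟨219673525175326239139706567948419895260313287626407871360895778083114828594879019660120542517667552527642048594904294154828562879507017294794859084857162596352, 12265377883745438749742612750023682260609540398050306305050921951018720125486316894977424484725645861624976406397309975484818121380004375594698932916587087898745088507904, 10⟩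
def a5c135 : Cert := (move 463 (branch (ref 0) (branch (move 464 (branch (move 465 (branch (move 493 (leaf 461 1)) (move 498 (branch (move 497 (leaf 462 0)) (move 466 (branch (move 499 (leaf 463 0)) (move 434 (branch (move 433 (leaf 430 2)) (move 435 (leaf 431 2)))))))))) (branch (move 493 (branch (move 465 (leaf 461 1)) (move 492 (branch (move 461 (leaf 460 1)) (move 491 (leaf 459 2)))))) (branch (move 461 (branch (move 496 (branch (move 497 (leaf 461 0)) (move 495 (branch (move 460 (leaf 460 0)) (move 432 (branch (move 433 (leaf 429 2)) (move 400 (branch (move 368 (leaf 367 5)) (move 527 (leaf 399 5)))))))))) (move 493 (branch (move 492 (leaf 460 1)) (move 429 (branch (move 428 (leaf 428 3)) (move 397 (leaf 397 4)))))))) (move 461 (branch (move 433 (branch (move 432 (leaf 429 2)) (move 465 (branch (move 434 (leaf 430 2)) (move 498 (branch (move 497 (leaf 462 0)) (move 466 (branch (move 499 (leaf 463 0)) (move 495 (leaf 462 1)))))))))) (branch (move 497 (branch (move 496 (leaf 461 0)) (move 465 (branch (move 498 (leaf 462 0)) (move 433 (branch (move 432 (leaf 429 2)) (move 434 (leaf 430 2)))))))) (branch (move 433 (branch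 (move 432 (leaf 429 2)) (move 465 (branch (move 434 (leaf 430 2)) (move 495 (branch (move 466 (leaf 462 1)) (move 460 (branch (move 459 (leaf 459 0)) (move 496 (leaf 460 0)))))))))) (move 496 (branch (move 497 (leaf 461 0)) (move 460 (branch (move 495 (leaf 460 0)) (move 491 (branch (move 492 (leaf 459 1)) (move 459 (branch (move 490 (leaf 458 1)) (move 427 (branch (move 426 (leaf 426 3)) (move 428 (leaf 427 3)))))))))))))))))))) (move 431 (branch (move 558 (leaf 430 6)) (move 399 (branch (move 367 (leaf 366 5)) (move 495 (leaf 398 5)))))))))
theorem a5p135 : a5e135.Valid :=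
  pos_of_chk [a5e8] (forall_cons a5p8 forall_nil) a5c135 a5e135 (by decide +kernel)

def a5e136 : Pos := ⟨219673525175326239127798042289560671965553166357970805070045718029613809495227084236744948421217640951865734420009991896681029725509952235531828171773940072448, 46719391939680067572473672159792516936984196075104231052174821270143889657487277460578864080090912887171730300967713598932178259808661404364576083559687750927053194751453765966202227256003041165312, 16⟩
def a5c136 : Cert := (move 462 (branch (ref 0) (branch (ref 1) (branch (move 430 (branch (move 397 (branch (move 429 (leaf 397 7)) (move 398 (branch (move 365 (leaf 365 7)) (move 399 (branch (move 367 (leaf 366 6)) (move 431 (leaf 398 6)))))))) (branch (move 525 (branch (move 557 (leaf 429 5)) (move 398 (branch (move 493 (leaf 397 5)) (move 397 (branch (move 365 (leaf 365 7)) (move 429 (leaf 397 7)))))))) (branch (move 525 (branch (move 557 (leaf 429 5)) (move 398 (branch (move 493 (leaf 397 5)) (move 399 (branch (move 367 (leaf 366 6)) (move 431 (leaf 398 6)))))))) (move 431 (branch (move 399 (leaf 398 6)) (move 432 (branch (move 433 (branch (move 461 (leaf 429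 1)) (move 557 (branch (move 525 (leaf 429 5)) (move 466 (branch (move 465 (leaf 430 0)) (move 434 (branch (move 467 (leaf 431 0)) (move 402 (branch (move 401 (leaf 398 2)) (move 403 (leaf 399 2)))))))))))) (branch (move 429 (branch (move 397 (leaf 397 7)) (move 465 (branch (move 464 (leaf 429 0)) (move 433 (branch (move 466 (leaf 430 0)) (move 401 (branch (move 400 (leaf 397 2)) (move 402 (leaf 398 2)))))))))) (move 429 (branch (move 397 (leaf 397 7)) (move 460 (branch (move 461 (leaf 428 1)) (move 428 (branch (move 459 (leaf 427 1)) (move 525 (branch (move 557 (leaf 429 5)) (move 396 (branch (move 395 (leaf 395 3)) (move 492 (branch (move 493 (leaf 396 4)) (move 523 (branch (move 491 (leaf 395 5)) (move 524 (branch (move 495 (leaf 491 2)) (move 555 (leaf 427 5))))))))))))))))))))))))))) (branch (ref 2) (branch (move 525 (branch (move 557 (branch (move 430 (leaf 429 5)) (move 589 (branch (move 493 (leaf 461 6)) (move 621 (leaf 493 6)))))) (branch (ref 3) (branch (move 524 (branch (move 523 (branch (move 495 (leaf 491 2)) (move 490 (branch (move 491 (leaf 490 3)) (move 522 (branch (move 489 (leaf 489 3)) (move 554 (branch (move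 553 (leaf 521 1)) (move 555 (leaf 522 1)))))))))) (branch (move 495 (branch (move 523 (leaf 491 2)) (move 496 (branch (move 497 (leaf 493 1)) (move 527 (leaf 492 2)))))) (branch (ref 4) (move 527 (branch (move 495 (branch (move 496 (leaf 492 2)) (move 492 (branch (move 491 (leaf 491 3)) (move 430 (branch (move 398 (leaf 398 4)) (move 429 (branch (move 397 (leaf 397 7)) (move 556 (branch (move 555 (leaf 523 1)) (move 461 (branch (move 493 (leaf 428 5)) (move 460 (leaf 428 6)))))))))))))) (branch (ref 5) (move 492 (branch (move 491 (leaf 491 3)) (move 493 (branch (move 528 (leaf 492 3)) (move 556 (branch (move 555 (leaf 523 1)) (move 461 (branch (move 429 (leaf 428 5)) (move 588 (leaf 460 6))))))))))))))))) (move 527 (branch (move 430 (branch (move 557 (leaf 429 5)) (move 398 (branch (move 495 (leaf 398 4)) (move 397 (branch (move 365 (leaf 365 7)) (move 429 (leaf 397 7)))))))) (branch (move 557 (branch (move 430 (leaf 429 5)) (move 528 (branch (move 556 (leaf 524 1)) (move 497 (branch (move 496 (leaf 493 2)) (move 529 (branch (move 498 (leaf 494 2)) (move 561 (branch (move 560 (leaf 525 0)) (move 562 (leaf 526 0))))))))))))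 (ref 6)))))))) (branch (ref 7) (ref 8))))))))
theorem a5p136 : a5e136.Valid :=
  pos_of_chk [a5e0, a5e3, a5e132, a5e130, a5e61, a5e84, a5e131, a5e134, a5e135] (forall_cons a5p0 (forall_cons a5p3 (forall_cons a5p132 (forall_cons a5p130 (forall_cons a5p61 (forall_cons a5p84 (forall_cons a5p131 (forall_cons a5p134 (forall_cons a5p135 forall_nil))))))))) a5c136 a5e136 (by decide +kernel)

def a5e137 : Pos := ⟨219673525175326239139706567951192564954434102485986285545038861786551265670254836235291022098282173835447674217944268560932702457604408505756262656686136754176, 439347050376225842409556007087133781522501005398324663203784366085689117152652947783777487904126932516530800995985729775105360970186692905991940355931244593152, 7⟩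
def a5c137 : Cert := (move 398 (branch (move 495 (branch (move 527 (leaf 398 4)) (move 366 (branch (move 463 (leaf 366 4)) (move 461 (branch (move 493 (leaf 365 5)) (move 334 (branch (move 429 (leaf 333 5)) (move 335 (branch (move 303 (leaf 302 6)) (move 367 (leaf 334 6)))))))))))) (branch (move 495 (branch (move 527 (leaf 398 4)) (move 366 (branch (move 463 (leaf 366 4)) (move 365 (branch (move 333 (leaf 333 7)) (move 397 (leaf 365 7)))))))) (move 397 (branch (move 365 (leaf 365 7)) (move 429 (leaf 397 7)))))))
theorem a5p137 : a5e137.Valid :=
  pos_of_chk [] forall_nil a5c137 a5e137 (by decide +kernel)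

def a5e138 : Pos := ⟨219673525175326239139706567948419895260313287626407871360895778083114828594879019660120542517667552527642048594904294154828562879507017294794859084857162596352, 6078391948018252938928171776607747908017301026655165770972203898834508073174057652713638764697599830922041837100907487860316658533815176139877280996479812894319176011819400560640, 7⟩
def a5c138 : Cert := (move 430 (branch (move 399 (branch (move 431 (leaf 398 6)) (move 398 (branch (move 367 (leaf 366 6)) (move 495 (branch (move 527 (leaf 398 4)) (move 366 (branch (move 463 (leaf 366 4)) (move 365 (branch (move 333 (leaf 333 7)) (move 397 (leaf 365 7)))))))))))) (branch (move 525 (branch (move 557 (leaf 429 5)) (move 398 (branch (move 493 (leaf 397 5)) (move 495 (branch (move 527 (leaf 398 4)) (move 366 (branch (move 463 (leaf 366 4)) (move 367 (branch (move 335 (leaf 334 6)) (move 399 (leaf 366 6)))))))))))) (branch (move 525 (branch (move 557 (leaf 429 5)) (move 398 (branch (move 493 (leaf 397 5)) (move 399 (branch (move 367 (leaf 366 6)) (move 431 (leaf 398 6)))))))) (branch (move 431 (branch (move 399 (leaf 398 6)) (move 558 (branch (move 463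 (leaf 430 6)) (move 557 (branch (move 525 (leaf 429 5)) (move 589 (leaf 461 5)))))))) (move 557 (branch (move 525 (leaf 429 5)) (move 558 (branch (move 589 (leaf 461 5)) (move 463 (branch (move 431 (leaf 430 6)) (move 495 (branch (move 590 (leaf 462 6)) (move 398 (branch (move 366 (leaf 366 4)) (move 527 (leaf 398 4)))))))))))))))))
theorem a5p138 : a5e138.Valid :=
  pos_of_chk [] forall_nil a5c138 a5e138 (by decide +kernel)

def a5e139 : Pos := ⟨219673525175326239139706567948419895260313287626407871360895778083114828594879019660120542517667552527642048594904294154828562879507017294794859084857162596352, 530832057395714691013665518667558382438250934400262694405032083888236108771594518656679782917571520093083504103838157881387294816413249399563398987940106519500705676106245697320717868072960, 16⟩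
def a5c139 : Cert := (move 463 (branch (ref 0) (branch (move 431 (branch (move 558 (leaf 430 6)) (move 399 (branch (move 367 (leaf 366 5)) (move 495 (leaf 398 5)))))) (branch (move 464 (branch (move 465 (branch (move 493 (leaf 461 1)) (move 498 (branch (move 497 (leaf 462 0)) (move 466 (branch (move 499 (leaf 463 0)) (move 434 (branch (move 433 (leaf 430 2)) (move 435 (leaf 431 2)))))))))) (branch (ref 1) (branch (move 465 (branch (move 493 (leaf 461 1)) (move 497 (branch (move 498 (leaf 462 0)) (move 496 (branch (move 461 (leaf 461 0)) (move 495 (branch (move 466 (leaf 462 1)) (move 525 (leaf 493 1)))))))))) (move 461 (branch (move 496 (branch (move 497 (leaf 461 0)) (move 495 (branch (move 460 (leaf 460 0)) (move 432 (branch (move 433 (leaf 429 2)) (move 400 (branch (move 368 (leaf 367 5)) (move 527 (leaf 399 5)))))))))) (branch (move 432 (branch (move 433 (leaf 429 2)) (move 460 (branch (move 431 (leaf 428 2)) (move 428 (branch (move 427 (leaf 427 3)) (move 429 (leaf 428 3)))))))) (branch (move 428 (branch (move 429 (leaf 428 3)) (move 460 (branch (move 427 (leaf 427 3)) (move 495 (branch (move 459 (leaf 459 0)) (move 496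 (leaf 460 0)))))))) (ref 2))))))))) (move 464 (branch (move 461 (branch (move 497 (branch (move 496 (leaf 461 0)) (move 465 (branch (move 498 (leaf 462 0)) (move 433 (branch (move 432 (leaf 429 2)) (move 434 (leaf 430 2)))))))) (move 429 (branch (move 428 (leaf 428 3)) (move 558 (leaf 429 7)))))) (branch (move 465 (branch (move 493 (leaf 461 1)) (move 497 (branch (move 498 (leaf 462 0)) (move 496 (branch (move 461 (leaf 461 0)) (move 495 (branch (move 466 (leaf 462 1)) (move 525 (leaf 493 1)))))))))) (branch (move 465 (branch (move 493 (leaf 461 1)) (move 466 (branch (move 495 (leaf 462 1)) (move 434 (branch (move 433 (leaf 430 2)) (move 435 (leaf 431 2)))))))) (move 461 (branch (move 496 (branch (move 497 (leaf 461 0)) (move 495 (branch (move 460 (leaf 460 0)) (move 432 (branch (move 433 (leaf 429 2)) (move 400 (branch (move 368 (leaf 367 5)) (move 527 (leaf 399 5)))))))))) (move 429 (branch (move 428 (leaf 428 3)) (move 558 (leaf 429 7))))))))))))))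
theorem a5p139 : a5e139.Valid :=
  pos_of_chk [a5e11, a5e80, a5e81] (forall_cons a5p11 (forall_cons a5p80 (forall_cons a5p81 forall_nil))) a5c139 a5e139 (by decide +kernel)

def a5e140 : Pos := ⟨219673525175326239127798042289560671965553166357970805070045718029613809495227084236744948421217640951865734420009991896681029725509952235531828171773940072448, 186877568252568126956622403676303483313811074433630321174355964986492994084625315199285879526245621894070641471891535742099741582720726422867851530801754821758729146612795539916791484354842601717760, 13⟩
def a5c140 : Cert := (move 558 (branch (move 590 (branch (move 621 (branch (move 589 (leaf 493 5)) (move 622 (branch (move 653 (leaf 525 5)) (move 623 (branch (move 591 (leaf 494 4)) (move 655 (leaf 526 4)))))))) (move 461 (branch (move 493 (leaf 461 7)) (move 462 (branch (move 429 (leaf 429 7)) (move 463 (branch (move 431 (leaf 430 6)) (move 495 (leaf 462 6)))))))))) (branch (move 590 (branch (move 621 (branch (move 589 (leaf 493 5)) (move 622 (branch (move 653 (leaf 525 5)) (move 623 (branch (move 591 (leaf 494 4)) (move 655 (leaf 526 4)))))))) (branch (move 493 (branch (move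 461 (leaf 461 7)) (move 622 (branch (move 525 (leaf 493 7)) (move 623 (branch (move 591 (leaf 494 4)) (move 655 (leaf 526 4)))))))) (branch (move 493 (branch (move 461 (leaf 461 7)) (move 622 (branch (move 525 (leaf 493 7)) (move 621 (branch (move 589 (leaf 493 5)) (move 653 (leaf 525 5)))))))) (move 589 (branch (move 621 (leaf 493 5)) (move 591 (branch (move 623 (leaf 494 4)) (move 493 (branch (move 461 (leaf 461 7)) (move 592 (branch (move 561 (branch (move 560 (leaf 557 2)) (move 593 (branch (move 562 (leaf 558 2)) (move 625 (branch (move 624 (leaf 589 0)) (move 626 (leaf 590 0)))))))) (move 556 (branch (move 557 (leaf 556 3)) (move 588 (branch (move 555 (leaf 555 3)) (move 620 (branch (move 619 (leaf 587 1)) (move 524 (branch (move 525 (leaf 492 6)) (move 491 (branch (move 523 (leaf 491 7)) (move 492 (branch (move 527 (leaf 491 0)) (move 459 (leaf 459 7)))))))))))))))))))))))))) (branch (move 462 (branch (move 431 (branch (move 463 (leaf 430 6)) (move 430 (branch (move 399 (leaf 398 6)) (move 429 (branch (move 397 (leaf 397 7)) (move 461 (leaf 429 7)))))))) (branch (move 431 (branch (move 463 (leaf 430 6)) (move 430 (branch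 (move 399 (leaf 398 6)) (move 397 (branch (move 429 (leaf 397 7)) (move 398 (branch (move 365 (leaf 365 7)) (move 525 (branch (move 493 (leaf 397 5)) (move 557 (leaf 429 5)))))))))))) (branch (move 461 (branch (move 429 (leaf 429 7)) (move 493 (branch (move 590 (leaf 461 7)) (move 463 (branch (move 431 (leaf 430 6)) (move 492 (branch (move 464 (leaf 460 1)) (move 491 (leaf 459 2)))))))))) (branch (move 431 (branch (move 463 (leaf 430 6)) (move 430 (branch (move 399 (leaf 398 6)) (move 525 (branch (move 557 (leaf 429 5)) (move 493 (branch (move 398 (leaf 397 5)) (move 590 (branch (move 461 (leaf 461 7)) (move 622 (leaf 493 7)))))))))))) (move 430 (branch (move 429 (branch (move 397 (leaf 397 7)) (move 461 (leaf 429 7)))) (branch (move 525 (branch (move 557 (leaf 429 5)) (move 493 (branch (move 398 (leaf 397 5)) (move 590 (branch (move 461 (leaf 461 7)) (move 622 (leaf 493 7)))))))) (move 525 (branch (move 557 (leaf 429 5)) (move 398 (branch (move 493 (leaf 397 5)) (move 397 (branch (move 365 (leaf 365 7)) (move 429 (leaf 397 7)))))))))))))))) (branch (move 590 (branch (move 495 (branch (move 463 (leaf 462 6)) (move 622 (branch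 (move 527 (leaf 494 6)) (move 623 (branch (move 591 (leaf 494 4)) (move 655 (leaf 526 4)))))))) (branch (move 621 (branch (move 589 (leaf 493 5)) (move 622 (branch (move 653 (leaf 525 5)) (move 623 (branch (move 591 (leaf 494 4)) (move 655 (leaf 526 4)))))))) (move 589 (branch (move 621 (leaf 493 5)) (move 462 (branch (move 557 (leaf 461 5)) (move 463 (branch (move 431 (leaf 430 6)) (move 495 (leaf 462 6))))))))))) (move 462 (branch (move 431 (branch (move 463 (leaf 430 6)) (move 430 (branch (move 399 (leaf 398 6)) (move 429 (branch (move 397 (leaf 397 7)) (move 461 (leaf 429 7)))))))) (branch (move 557 (branch (move 589 (leaf 461 5)) (move 430 (branch (move 525 (leaf 429 5)) (move 429 (branch (move 397 (leaf 397 7)) (move 461 (leaf 429 7)))))))) (branch (move 557 (branch (move 589 (leaf 461 5)) (move 430 (branch (move 525 (leaf 429 5)) (move 431 (branch (move 399 (leaf 398 6)) (move 463 (leaf 430 6)))))))) (move 461 (branch (move 429 (leaf 429 7)) (move 460 (branch (move 459 (branch (move 495 (leaf 459 0)) (move 458 (branch (move 493 (leaf 458 0)) (move 490 (branch (move 489 (leaf 457 1)) (move 491 (leaf 458 1)))))))) (branch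 (move 463 (branch (move 431 (leaf 430 6)) (move 492 (branch (move 491 (leaf 459 1)) (move 493 (branch (move 464 (leaf 460 1)) (move 557 (branch (move 589 (leaf 461 5)) (move 428 (branch (move 427 (leaf 427 3)) (move 525 (leaf 428 7)))))))))))) (move 463 (branch (move 431 (leaf 430 6)) (move 459 (branch (move 495 (leaf 459 0)) (move 427 (branch (move 426 (leaf 426 3)) (move 428 (leaf 427 3))))))))))))))))))))))
theorem a5p140 : a5e140.Valid :=
  pos_of_chk [] forall_nil a5c140 a5e140 (by decide +kernel)

def a5e141 : Pos := ⟨384428669018460872287363661467514109180019613561410134895512841050066845896770829487686379797092550271320845893405532489571957437503151687033604850760701444096, 9343878400119044341365194365807278155406392934746292432894091226207574105316307019640348734055501362618424098164693985223523250929087344463014563575225470609364437358835776217039037189913680281600, 8⟩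
def a5c141 : Cert := (move 527 (branch (move 492 (branch (move 491 (leaf 491 3)) (move 528 (branch (move 493 (leaf 492 3)) (move 561 (branch (move 560 (leaf 525 0)) (move 529 (branch (move 562 (leaf 526 0)) (move 497 (branch (move 496 (leaf 493 2)) (move 498 (leaf 494 2)))))))))))) (branch (move 556 (branch (move 555 (leaf 523 1)) (move 528 (branch (move 557 (leaf 524 1)) (move 529 (branch (move 493 (leaf 493 3)) (move 561 (branch (move 560 (leaf 525 0)) (move 562 (leaf 526 0)))))))))) (branch (move 556 (branch (move 555 (leaf 523 1)) (move 528 (branch (move 557 (leaf 524 1)) (move 492 (branch (move 491 (leaf 491 3)) (move 561 (branch (move 560 (leaf 525 0)) (move 529 (branch (move 562 (leaf 526 0)) (move 497 (branch (move 496 (leaf 493 2)) (move 498 (leaf 494 2)))))))))))))) (ref 0)))))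
theorem a5p141 : a5e141.Valid :=
  pos_of_chk [a5e105] (forall_cons a5p105 forall_nil) a5c141 a5e141 (by decide +kernel)

def a5e142 : Pos := ⟨329510287762989358691697063434341007948329749536956207605068577044420714242840626355117422631826461427798601630014987845021544588264928353297742257660910108672, 26106494629008128382808892466845925934192773255970785562694550419743344826891323340416932243884757567747072930609726133541597997207318782119293628749100851995014276750718701022720733216768, 6⟩
def a5c142 : Cert := (move 462 (branch (move 430 (branch (move 398 (leaf 397 5)) (move 557 (leaf 429 5)))) (branch (move 430 (branch (move 398 (leaf 397 5)) (move 431 (branch (move 399 (leaf 398 6)) (move 558 (branch (move 463 (leaf 430 6)) (move 590 (branch (move 461 (leaf 461 7)) (move 622 (leaf 493 7)))))))))) (move 463 (branch (move 589 (branch (move 557 (leaf 461 6)) (move 558 (branch (move 431 (leaf 430 6)) (move 590 (branch (move 621 (leaf 493 5)) (move 622 (leaf 493 7)))))))) (move 492 (branch (move 491 (leaf 459 2)) (move 464 (branch (move 461 (leaf 460 1)) (move 465 (leaf 461 1)))))))))))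
theorem a5p142 : a5e142.Valid :=
  pos_of_chk [] forall_nil a5c142 a5e142 (by decide +kernel)

def a5e143 : Pos := ⟨329510287762989358691697063434341007948329749536956207605068577044420714242840626355117422631826461427798601630014987845021544588264928353297742257660910108672, 9343878417523374094290546258152739422800637733286020890748177640221240666161162674856517924638725732670536075283568390833259904419855072254518166478779566216836545695986031806024570527047011532800, 12⟩
def a5c143 : Cert := (move 557 (branch (move 589 (branch (move 621 (leaf 493 6)) (move 590 (branch (move 622 (leaf 493 4)) (move 588 (branch (move 620 (leaf 492 5)) (move 492 (branch (move 460 (leaf 460 7)) (move 491 (branch (move 490 (leaf 490 0)) (move 523 (branch (move 522 (leaf 490 1)) (move 459 (branch (move 458 (leaf 458 3)) (move 556 (branch (move 555 (leaf 459 4)) (move 524 (leaf 459 7)))))))))))))))))) (branch (move 462 (branch (move 430 (leaf 429 5)) (move 589 (leaf 461 6)))) (move 461 (branch (move 558 (branch (move 590 (leaf 461 4)) (move 556 (branch (move 588 (leaf 460 5)) (move 555 (branch (move 554 (leaf 522 2)) (move 523 (branch (move 522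 (leaf 522 3)) (move 460 (branch (move 428 (leaf 428 7)) (move 587 (branch (move 586 (leaf 554 1)) (move 492 (branch (move 524 (leaf 459 5)) (move 491 (leaf 459 6)))))))))))))))) (branch (move 558 (branch (move 590 (leaf 461 4)) (move 460 (branch (move 428 (leaf 428 7)) (move 495 (branch (move 496 (leaf 460 3)) (move 523 (branch (move 524 (leaf 491 2)) (move 556 (branch (move 588 (leaf 460 5)) (move 555 (branch (move 554 (leaf 522 2)) (move 522 (leaf 522 3)))))))))))))) (branch (move 460 (branch (move 428 (leaf 428 7)) (move 495 (branch (move 496 (leaf 460 3)) (move 459 (branch (move 458 (leaf 458 0)) (move 492 (leaf 459 3)))))))) (move 462 (branch (move 430 (leaf 429 5)) (move 558 (branch (move 590 (leaf 461 4)) (move 556 (branch (move 588 (leaf 460 5)) (move 555 (branch (move 554 (leaf 522 2)) (move 523 (branch (move 522 (leaf 522 3)) (move 524 (branch (move 495 (leaf 491 2)) (move 491 (branch (move 490 (leaf 490 3)) (move 587 (branch (move 586 (leaf 554 1)) (move 619 (branch (move 492 (leaf 491 6)) (move 651 (leaf 523 6)))))))))))))))))))))))))))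
theorem a5p143 : a5e143.Valid :=
  pos_of_chk [] forall_nil a5c143 a5e143 (by decide +kernel)

def a5e144 : Pos := ⟨329510287737415994567508455074862963441864131160263691620357133376582500429589581070705902671800913831502475402273685625274981533505418536533012624431780986880, 9343878417523374094290546258152739423239984783969127102784944992703151054193142061355303180462494883946549874297912156426320754888773472103984411690549290189149902185993360520211879408376194531328, 14⟩
def a5c144 : Cert := (move 493 (branch (move 495 (branch (move 524 (branch (move 496 (leaf 492 1)) (move 523 (leaf 491 2)))) (move 492 (branch (move 463 (branch (move 464 (leaf 460 2)) (move 558 (branch (move 590 (leaf 462 6)) (move 431 (branch (move 399 (leaf 398 5)) (move 462 (leaf 430 6)))))))) (move 491 (branch (move 490 (leaf 490 0)) (move 459 (branch (move 458 (leaf 458 3)) (move 460 (leaf 459 3)))))))))) (branch (move 492 (branch (move 491 (branch (move 490 (leaf 490 0)) (move 527 (leaf 491 0)))) (move 495 (branch (move 524 (branch (move 523 (leaf 491 1)) (move 460 (branch (move 459 (leaf 459 3)) (move 557 (branch (move 428 (leaf 428 4)) (move 589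 (leaf 460 7)))))))) (move 496 (branch (move 497 (leaf 493 1)) (move 464 (branch (move 463 (leaf 460 2)) (move 465 (leaf 461 2)))))))))) (branch (ref 0) (branch (ref 1) (branch (move 495 (branch (move 524 (branch (move 496 (leaf 492 1)) (move 523 (leaf 491 2)))) (branch (move 496 (branch (move 497 (leaf 493 1)) (move 464 (branch (move 465 (leaf 461 2)) (move 463 (branch (move 492 (leaf 460 2)) (move 558 (branch (move 590 (leaf 462 6)) (move 431 (branch (move 399 (leaf 398 5)) (move 527 (leaf 430 5)))))))))))) (move 492 (branch (move 463 (branch (move 464 (leaf 460 2)) (move 558 (branch (move 590 (leaf 462 6)) (move 431 (branch (move 399 (leaf 398 5)) (move 462 (leaf 430 6)))))))) (move 524 (branch (move 523 (leaf 491 1)) (move 460 (branch (move 459 (leaf 459 3)) (move 557 (branch (move 428 (leaf 428 4)) (move 589 (leaf 460 7))))))))))))) (move 462 (branch (move 430 (branch (move 398 (leaf 397 5)) (move 557 (leaf 429 5)))) (branch (move 430 (branch (move 398 (leaf 397 5)) (move 431 (branch (move 399 (leaf 398 6)) (move 558 (branch (move 463 (leaf 430 6)) (move 590 (branch (move 461 (leaf 461 7)) (move 622 (leaf 493 7))))))))))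 (move 461 (branch (move 557 (branch (move 589 (leaf 461 6)) (move 460 (branch (move 428 (leaf 428 7)) (move 495 (branch (move 459 (leaf 459 0)) (move 496 (leaf 460 3)))))))) (branch (move 558 (branch (move 590 (leaf 461 7)) (move 463 (branch (move 431 (leaf 430 6)) (move 464 (branch (move 465 (leaf 461 1)) (move 496 (branch (move 497 (leaf 461 0)) (move 524 (branch (move 495 (leaf 492 1)) (move 523 (branch (move 522 (leaf 490 2)) (move 555 (branch (move 554 (leaf 522 1)) (move 556 (branch (move 527 (leaf 523 1)) (move 491 (branch (move 490 (leaf 490 3)) (move 588 (branch (move 459 (leaf 459 4)) (move 620 (leaf 492 6)))))))))))))))))))))) (move 557 (branch (move 589 (leaf 461 6)) (move 558 (branch (move 590 (leaf 461 4)) (move 556 (branch (move 588 (leaf 460 5)) (move 555 (branch (move 554 (leaf 522 2)) (move 527 (leaf 523 2))))))))))))))))))))))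
theorem a5p144 : a5e144.Valid :=
  pos_of_chk [a5e143, a5e142] (forall_cons a5p143 (forall_cons a5p142 forall_nil)) a5c144 a5e144 (by decide +kernel)

def a5e145 : Pos := ⟨329510287762989358691697063434341007948329749536956207605068577044420714242840626355117422631826461427798601630014987845021544588264928353297742257660910108672, 28031635222112545231398001521234053510469525486360121442921606935271119515068992595343497279825195730081593615074106513408875233858113903772721616902893711928524761637952902316341099661194034151424, 14⟩
def a5c145 : Cert := (move 558 (branch (move 590 (branch (move 622 (leaf 493 7)) (move 495 (branch (move 463 (leaf 462 6)) (move 496 (branch (move 524 (leaf 492 1)) (move 497 (leaf 493 1)))))))) (branch (move 590 (branch (move 461 (leaf 461 7)) (move 589 (branch (move 621 (leaf 493 5)) (move 557 (branch (move 462 (leaf 461 5)) (move 591 (branch (move 623 (leaf 494 4)) (move 556 (branch (move 555 (leaf 555 0)) (move 592 (leaf 556 3)))))))))))) (move 557 (branch (move 589 (branch (move 621 (leaf 493 6)) (move 588 (branch (move 620 (leaf 492 5)) (move 556 (branch (move 461 (leaf 460 5)) (move 555 (branch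 (move 554 (leaf 522 2)) (move 587 (branch (move 586 (leaf 554 1)) (move 523 (branch (move 522 (leaf 522 3)) (move 524 (branch (move 495 (leaf 491 2)) (move 491 (branch (move 490 (leaf 490 3)) (move 459 (leaf 459 4)))))))))))))))))) (branch (move 462 (branch (move 430 (leaf 429 5)) (move 589 (leaf 461 5)))) (move 556 (branch (move 555 (branch (move 554 (leaf 522 2)) (move 588 (branch (move 461 (leaf 460 5)) (move 523 (branch (move 522 (leaf 522 3)) (move 620 (branch (move 652 (leaf 524 6)) (move 587 (branch (move 586 (leaf 554 1)) (move 491 (leaf 491 4)))))))))))) (branch (move 588 (branch (move 461 (leaf 460 5)) (move 620 (branch (move 524 (leaf 492 6)) (move 652 (leaf 524 6)))))) (branch (move 555 (branch (move 554 (leaf 522 2)) (move 523 (branch (move 522 (leaf 522 3)) (move 524 (branch (move 495 (leaf 491 2)) (move 588 (branch (move 620 (leaf 492 6)) (move 491 (branch (move 490 (leaf 490 3)) (move 459 (leaf 459 4)))))))))))) (move 462 (branch (move 430 (leaf 429 5)) (move 555 (branch (move 554 (leaf 522 2)) (move 523 (branch (move 522 (leaf 522 3)) (move 524 (branch (move 495 (leaf 491 2)) (move 491 (branch (move 490 (leaf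 490 3)) (move 459 (branch (move 427 (leaf 427 4)) (move 587 (branch (move 586 (leaf 554 1)) (move 619 (branch (move 651 (leaf 523 6)) (move 460 (branch (move 428 (leaf 427 6)) (move 458 (branch (move 461 (leaf 458 0)) (move 426 (leaf 426 7))))))))))))))))))))))))))))))))
theorem a5p145 : a5e145.Valid :=
  pos_of_chk [] forall_nil a5c145 a5e145 (by decide +kernel)

def a5e146 : Pos := ⟨471745303432202956767610317191042066439478115993919184707289479151060153675601106940355421717913248614484460710347956014745008704015580612575597817962099629887955402752, 18687756837222289423747515264304304194423439178086812325127836919252120430772230708085299986348518659682723497271546130266420184612736912185703839674396559591135345668573155908196046225416413773824, 12⟩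
def a5c146 : Cert := (move 524 (branch (move 495 (branch (move 523 (leaf 491 2)) (move 496 (branch (move 497 (leaf 493 1)) (move 527 (leaf 492 2)))))) (branch (move 523 (branch (move 495 (leaf 491 2)) (move 522 (branch (move 493 (leaf 490 2)) (move 554 (branch (move 553 (leaf 521 1)) (move 555 (leaf 522 1)))))))) (branch (move 523 (branch (move 522 (branch (move 558 (leaf 522 0)) (move 521 (branch (move 556 (leaf 521 0)) (move 553 (branch (move 552 (leaf 520 1)) (move 554 (leaf 521 1)))))))) (branch (move 522 (branch (move 493 (leaf 490 2)) (move 554 (branch (move 553 (leaf 521 1)) (move 555 (leaf 522 1)))))) (branch (move 555 (branch (move 554 (leaf 522 1)) (move 556 (branch (move 527 (leaf 523 1)) (move 589 (branch (move 621 (leaf 493 6)) (move 492 (branch (move 460 (leaf 460 4)) (move 587 (branch (move 619 (leaf 491 6)) (move 586 (branch (move 558 (leaf 554 1)) (move 588 (branch (move 585 (leaf 553 2)) (move 620 (branch (move 493 (leaf 492 5)) (move 652 (leaf 524 6)))))))))))))))))) (move 522 (branch (move 558 (leaf 522 0)) (move 493 (leaf 490 2)))))))) (move 527 (branch (move 496 (branch (move 495 (leaf 492 2)) (move 528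 (branch (move 497 (leaf 493 2)) (move 529 (branch (move 493 (leaf 493 3)) (move 561 (branch (move 560 (leaf 525 0)) (move 562 (leaf 526 0)))))))))) (branch (move 556 (branch (move 555 (leaf 523 1)) (move 528 (leaf 524 1)))) (move 495 (branch (move 496 (leaf 492 2)) (move 558 (branch (move 590 (branch (move 463 (leaf 462 6)) (move 622 (leaf 494 6)))) (branch (move 556 (branch (move 555 (leaf 523 1)) (move 589 (branch (move 621 (leaf 493 6)) (move 590 (branch (move 622 (leaf 494 6)) (move 591 (branch (move 592 (leaf 556 3)) (move 623 (leaf 494 4)))))))))) (move 556 (branch (move 555 (leaf 523 1)) (move 589 (branch (move 621 (leaf 493 6)) (move 492 (branch (move 460 (leaf 460 4)) (move 463 (branch (move 431 (leaf 430 5)) (move 493 (branch (move 464 (leaf 460 2)) (move 588 (branch (move 620 (leaf 492 5)) (move 587 (branch (move 586 (leaf 554 2)) (move 619 (leaf 491 5))))))))))))))))))))))))))))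
theorem a5p146 : a5e146.Valid :=
  pos_of_chk [] forall_nil a5c146 a5e146 (by decide +kernel)

def a5e147 : Pos := ⟨471745303432202956767610317191042066439478115993919184707289479151060153675601106940355421717913248614484460710347956014745008704015580612575597817962099629887955402752, 21780904488005632715061542817662049448576292300839706823954904449357814037419799996800617782362602974895279023158583606767064440539619635980766708188846042420555170406782088511488, 10⟩
def a5c147 : Cert := (move 495 (branch (move 496 (branch (move 497 (leaf 493 1)) (move 527 (branch (move 524 (leaf 492 2)) (move 528 (branch (move 556 (leaf 524 1)) (move 529 (branch (move 558 (leaf 525 1)) (move 530 (leaf 494 3)))))))))) (branch (move 524 (branch (move 523 (leaf 491 2)) (move 496 (branch (move 493 (leaf 492 1)) (move 527 (leaf 492 2)))))) (branch (move 496 (branch (move 497 (leaf 493 1)) (move 493 (branch (move 524 (leaf 492 1)) (move 462 (branch (move 430 (leaf 429 5)) (move 464 (branch (move 465 (leaf 461 2)) (move 463 (branch (move 492 (leaf 460 2)) (move 431 (branch (move 399 (leaf 398 5)) (move 558 (leaf 430 6)))))))))))))) (branch (move 528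 (branch (move 527 (branch (move 556 (leaf 524 1)) (move 529 (branch (move 558 (leaf 525 1)) (move 530 (leaf 494 3)))))) (branch (move 527 (branch (move 556 (leaf 524 1)) (move 496 (branch (move 497 (leaf 493 1)) (move 560 (branch (move 561 (leaf 525 0)) (move 463 (branch (move 431 (leaf 431 4)) (move 592 (leaf 463 7)))))))))) (move 496 (branch (move 497 (leaf 493 1)) (move 493 (branch (move 529 (leaf 493 0)) (move 464 (branch (move 465 (leaf 461 2)) (move 463 (branch (move 492 (leaf 460 2)) (move 431 (branch (move 399 (leaf 399 4)) (move 560 (leaf 431 7))))))))))))))) (move 462 (branch (move 430 (leaf 429 5)) (move 460 (branch (move 461 (branch (move 459 (leaf 459 0)) (move 428 (branch (move 493 (leaf 428 7)) (move 463 (branch (move 427 (leaf 427 3)) (move 431 (branch (move 432 (leaf 428 2)) (move 399 (leaf 398 5)))))))))) (branch (move 524 (branch (move 523 (leaf 491 2)) (move 492 (branch (move 428 (leaf 428 4)) (move 459 (branch (move 493 (leaf 459 3)) (move 556 (branch (move 427 (leaf 427 7)) (move 555 (branch (move 554 (leaf 522 2)) (move 587 (leaf 459 5)))))))))))) (branch (move 524 (branch (move 523 (leaf 491 2)) (move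 428 (branch (move 492 (leaf 428 4)) (move 461 (branch (move 493 (leaf 428 7)) (move 463 (branch (move 427 (leaf 427 3)) (move 431 (branch (move 432 (leaf 428 2)) (move 399 (leaf 398 5)))))))))))) (branch (move 524 (branch (move 523 (leaf 491 2)) (move 461 (branch (move 459 (leaf 459 0)) (move 428 (branch (move 492 (leaf 428 4)) (move 463 (branch (move 427 (leaf 427 3)) (move 431 (branch (move 432 (leaf 428 2)) (move 399 (leaf 398 5)))))))))))) (branch (move 459 (branch (move 461 (leaf 459 0)) (move 524 (branch (move 523 (leaf 491 2)) (move 492 (branch (move 493 (leaf 459 3)) (move 556 (branch (move 427 (leaf 427 7)) (move 555 (branch (move 527 (leaf 523 1)) (move 554 (leaf 522 2)))))))))))) (move 524 (branch (move 523 (leaf 491 2)) (move 461 (branch (move 459 (leaf 459 0)) (move 493 (branch (move 428 (leaf 428 7)) (move 558 (branch (move 590 (leaf 461 4)) (move 556 (branch (move 588 (leaf 460 5)) (move 527 (branch (move 555 (leaf 523 1)) (move 528 (leaf 524 1)))))))))))))))))))))))))))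
theorem a5p147 : a5e147.Valid :=
  pos_of_chk [] forall_nil a5c147 a5e147 (by decide +kernel)

def a5e148 : Pos := ⟨384428669018460872287363661467514109180019613561410134895512841050066845896770829487686379797092550271320845893405532489571957437503151687033604850760701444096, 3371058775954656656731029590762572806062150144253740468571082719846799182888005239585227519235369574142135169438011103003131989343712541458414015839798517516480404803494912149543668564226990282338558504075264, 14⟩
def a5c148 : Cert := (move 590 (branch (move 558 (branch (move 495 (branch (move 463 (leaf 462 6)) (move 496 (branch (move 497 (leaf 493 1)) (move 527 (leaf 492 2)))))) (move 623 (branch (move 591 (leaf 494 4)) (move 622 (branch (move 655 (leaf 526 4)) (move 654 (branch (move 557 (leaf 525 7)) (move 653 (branch (move 621 (leaf 525 5)) (move 685 (leaf 557 5)))))))))))) (branch (move 558 (branch (move 495 (branch (move 463 (leaf 462 6)) (move 496 (branch (move 497 (leaf 493 1)) (move 527 (leaf 492 2)))))) (move 623 (branch (move 591 (leaf 494 4)) (move 622 (branch (move 655 (leaf 526 4)) (move 621 (branch (move 589 (leaf 493 5)) (move 653 (leaf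 525 5)))))))))) (branch (ref 0) (branch (ref 1) (branch (move 558 (branch (move 463 (branch (move 495 (leaf 462 6)) (move 462 (branch (move 431 (leaf 430 6)) (move 557 (branch (move 430 (leaf 429 5)) (move 589 (leaf 461 5)))))))) (move 622 (branch (move 493 (leaf 493 7)) (move 623 (branch (move 591 (leaf 494 4)) (move 655 (leaf 526 4)))))))) (branch (move 558 (branch (move 463 (branch (move 495 (leaf 462 6)) (move 462 (branch (move 431 (leaf 430 6)) (move 557 (branch (move 430 (leaf 429 5)) (move 589 (leaf 461 5)))))))) (branch (move 622 (branch (move 493 (leaf 493 7)) (move 621 (branch (move 589 (leaf 493 5)) (move 653 (leaf 525 5)))))) (move 495 (branch (move 463 (leaf 462 6)) (move 496 (branch (move 493 (leaf 492 1)) (move 497 (leaf 493 1))))))))) (move 496 (branch (move 495 (branch (move 493 (leaf 492 1)) (move 497 (leaf 493 1)))) (branch (move 495 (branch (move 493 (leaf 492 1)) (move 527 (leaf 492 2)))) (branch (move 495 (branch (move 497 (leaf 493 1)) (move 527 (leaf 492 2)))) (move 528 (branch (move 527 (branch (move 561 (branch (move 560 (leaf 525 0)) (move 529 (branch (move 562 (leaf 526 0)) (move 493 (leaf 493 3))))))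 (move 556 (branch (move 555 (leaf 523 1)) (move 557 (leaf 524 1)))))) (branch (move 527 (branch (move 497 (leaf 493 2)) (move 561 (branch (move 560 (leaf 525 0)) (move 529 (branch (move 562 (leaf 526 0)) (move 493 (leaf 493 3)))))))) (branch (move 527 (branch (move 497 (leaf 493 2)) (move 556 (branch (move 555 (leaf 523 1)) (move 557 (leaf 524 1)))))) (move 560 (branch (ref 2) (branch (ref 3) (branch (ref 4) (branch (ref 5) (move 464 (branch (move 561 (branch (move 593 (leaf 464 4)) (move 432 (branch (move 529 (leaf 432 4)) (move 431 (branch (move 399 (leaf 399 7)) (move 463 (leaf 431 7)))))))) (branch (move 561 (branch (move 593 (leaf 464 4)) (move 432 (branch (move 529 (leaf 432 4)) (move 433 (branch (move 401 (leaf 400 6)) (move 465 (leaf 432 6)))))))) (move 465 (branch (move 433 (leaf 432 6)) (move 463 (branch (move 431 (leaf 431 7)) (move 462 (branch (move 493 (leaf 461 1)) (move 497 (branch (move 461 (leaf 461 0)) (move 498 (leaf 462 0)))))))))))))))))))))))))))))))))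
theorem a5p148 : a5e148.Valid :=
  pos_of_chk [a5e45, a5e46, a5e118, a5e119, a5e120, a5e121] (forall_cons a5p45 (forall_cons a5p46 (forall_cons a5p118 (forall_cons a5p119 (forall_cons a5p120 (forall_cons a5p121 forall_nil)))))) a5c148 a5e148 (by decide +kernel)

def a5e149 : Pos := ⟨219673525175326239127798042289560671965553166357970805070045718029613809495227084236744948421217640951865734420009991896681029725509952235531828171773940072448, 3471387906189622604190100774139314269028445432771456410197525229901109806519608106986387439338604783181833666475853758212425727629090363419836665287174734179965157644286487275931524122152622635521039824584704, 16⟩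
def a5c149 : Cert := (move 525 (branch (move 524 (branch (move 495 (branch (move 523 (leaf 491 2)) (move 496 (branch (move 497 (leaf 493 1)) (move 527 (leaf 492 2)))))) (branch (move 523 (branch (move 495 (leaf 491 2)) (move 522 (branch (move 493 (leaf 490 2)) (move 554 (branch (move 553 (leaf 521 1)) (move 555 (leaf 522 1)))))))) (branch (ref 0) (ref 1))))) (branch (ref 2) (branch (ref 3) (branch (ref 4) (branch (move 524 (branch (ref 5) (branch (ref 0) (branch (ref 6) (branch (ref 7) (branch (move 557 (branch (ref 8) (branch (move 589 (branch (move 621 (leaf 493 6)) (move 462 (branch (move 430 (leaf 429 5)) (move 493 (leaf 461 6)))))) (move 492 (branch (move 491 (branch (move 527 (leaf 491 3)) (move 490 (branch (move 489 (leaf 489 0)) (move 523 (leaf 490 3)))))) (move 589 (branch (move 621 (leaf 493 6)) (move 460 (branch (move 428 (leaf 428 4)) (move 556 (leaf 460 4))))))))))) (branch (ref 9) (ref 10)))))))) (branch (move 524 (branch (move 495 (branch (move 523 (leaf 491 2)) (move 496 (branch (move 497 (leaf 493 1)) (move 527 (leaf 492 2)))))) (branch (ref 11) (branch (move 523 (branch (move 495 (leaf 491 2)) (move 522 (branch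 (move 493 (leaf 490 2)) (move 554 (branch (move 553 (leaf 521 1)) (move 555 (leaf 522 1)))))))) (move 527 (branch (move 492 (branch (move 491 (leaf 491 3)) (move 528 (branch (move 493 (leaf 492 3)) (move 561 (branch (move 560 (leaf 525 0)) (move 529 (branch (move 562 (leaf 526 0)) (move 497 (branch (move 496 (leaf 493 2)) (move 498 (leaf 494 2)))))))))))) (branch (ref 12) (branch (move 492 (branch (move 491 (leaf 491 3)) (move 528 (branch (move 493 (leaf 492 3)) (move 561 (branch (move 560 (leaf 525 0)) (move 529 (branch (move 562 (leaf 526 0)) (move 530 (branch (move 495 (leaf 494 3)) (move 498 (branch (move 497 (leaf 494 2)) (move 499 (leaf 495 2)))))))))))))) (move 495 (branch (move 496 (leaf 492 2)) (move 463 (branch (move 558 (branch (move 431 (leaf 430 5)) (move 590 (leaf 462 6)))) (branch (move 492 (branch (move 491 (leaf 491 3)) (move 431 (branch (move 399 (leaf 398 5)) (move 493 (branch (move 464 (leaf 460 2)) (move 556 (branch (move 555 (leaf 523 1)) (move 588 (branch (move 461 (leaf 460 6)) (move 620 (leaf 492 6)))))))))))) (move 492 (branch (move 491 (leaf 491 3)) (move 493 (branch (move 464 (leaf 460 2)) (move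 590 (branch (move 558 (leaf 462 6)) (move 556 (branch (move 555 (leaf 523 1)) (move 588 (branch (move 461 (leaf 460 6)) (move 620 (leaf 492 6))))))))))))))))))))))))) (branch (move 524 (branch (ref 13) (branch (move 523 (branch (move 495 (leaf 491 2)) (move 522 (branch (move 493 (leaf 490 2)) (move 554 (branch (move 553 (leaf 521 1)) (move 555 (leaf 522 1)))))))) (branch (move 523 (branch (move 495 (leaf 491 2)) (move 522 (branch (move 493 (leaf 490 2)) (move 490 (branch (move 489 (leaf 489 3)) (move 491 (leaf 490 3)))))))) (move 527 (branch (move 556 (branch (move 555 (leaf 523 1)) (move 528 (branch (move 557 (leaf 524 1)) (move 529 (branch (move 493 (leaf 493 3)) (move 561 (branch (move 560 (leaf 525 0)) (move 562 (leaf 526 0)))))))))) (branch (move 556 (branch (move 555 (leaf 523 1)) (move 557 (branch (move 528 (leaf 524 1)) (move 589 (branch (move 621 (leaf 493 6)) (move 492 (branch (move 491 (leaf 491 3)) (move 460 (leaf 460 4)))))))))) (branch (move 492 (branch (move 491 (leaf 491 3)) (move 528 (branch (move 493 (leaf 492 3)) (move 561 (branch (move 560 (leaf 525 0)) (move 529 (branch (move 562 (leaf 526 0)) (move 530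 (branch (move 495 (leaf 494 3)) (move 498 (branch (move 497 (leaf 494 2)) (move 499 (leaf 495 2)))))))))))))) (ref 14))))))))) (branch (move 493 (branch (ref 15) (branch (ref 16) (branch (ref 17) (move 557 (branch (move 462 (branch (move 430 (leaf 429 5)) (move 589 (leaf 461 6)))) (branch (move 589 (branch (move 621 (leaf 493 6)) (move 588 (branch (move 620 (leaf 492 5)) (move 556 (branch (move 461 (leaf 460 5)) (move 590 (branch (move 622 (leaf 493 4)) (move 555 (branch (move 554 (leaf 554 0)) (move 591 (leaf 555 3)))))))))))) (move 461 (branch (move 460 (branch (move 428 (leaf 428 7)) (move 495 (branch (move 496 (leaf 460 3)) (move 459 (branch (move 458 (leaf 458 0)) (move 462 (leaf 459 0)))))))) (move 558 (branch (move 590 (leaf 461 4)) (move 556 (branch (move 588 (leaf 460 5)) (move 527 (branch (move 528 (leaf 524 1)) (move 555 (leaf 523 2))))))))))))))))) (branch (ref 18) (branch (move 493 (branch (ref 19) (branch (ref 20) (branch (ref 21) (branch (ref 17) (branch (move 495 (branch (move 496 (branch (move 497 (leaf 493 1)) (move 464 (branch (move 465 (leaf 461 2)) (move 463 (branch (move 492 (leaf 460 2)) (move 528 (branch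 (move 529 (leaf 493 0)) (move 431 (branch (move 399 (leaf 399 4)) (move 560 (leaf 431 7)))))))))))) (branch (move 524 (branch (move 496 (leaf 492 1)) (move 523 (leaf 491 2)))) (move 492 (branch (move 463 (branch (move 464 (leaf 460 2)) (move 558 (branch (move 590 (leaf 462 6)) (move 431 (branch (move 399 (leaf 398 5)) (move 462 (leaf 430 6)))))))) (move 524 (branch (move 523 (leaf 491 1)) (move 460 (branch (move 459 (leaf 459 3)) (move 557 (branch (move 428 (leaf 428 4)) (move 589 (leaf 460 7))))))))))))) (ref 22))))))) (branch (move 557 (branch (move 589 (branch (move 621 (leaf 493 6)) (move 493 (branch (move 588 (branch (move 620 (leaf 492 5)) (move 556 (branch (move 461 (leaf 460 5)) (move 555 (branch (move 554 (leaf 522 2)) (move 590 (branch (move 591 (leaf 555 3)) (move 622 (leaf 493 4)))))))))) (move 492 (branch (move 460 (leaf 460 7)) (move 527 (branch (move 491 (leaf 491 0)) (move 528 (leaf 492 3)))))))))) (branch (move 589 (branch (move 621 (leaf 493 6)) (move 462 (branch (move 430 (leaf 429 5)) (move 558 (leaf 461 5)))))) (move 527 (branch (move 556 (branch (move 528 (leaf 524 1)) (move 555 (branch (move 524 (leaf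 523 1)) (move 554 (leaf 522 2)))))) (branch (ref 23) (move 528 (branch (move 556 (leaf 524 1)) (move 493 (branch (move 492 (leaf 492 3)) (move 529 (leaf 493 3)))))))))))) (branch (move 557 (branch (move 495 (branch (move 496 (branch (move 497 (leaf 493 1)) (move 524 (branch (move 523 (leaf 491 2)) (move 527 (leaf 492 2)))))) (move 589 (branch (move 621 (leaf 493 6)) (move 558 (branch (move 462 (leaf 461 5)) (move 590 (branch (move 463 (leaf 462 6)) (move 622 (branch (move 654 (leaf 525 7)) (move 623 (branch (move 591 (leaf 494 4)) (move 655 (leaf 526 4)))))))))))))) (branch (move 589 (branch (move 621 (leaf 493 6)) (move 462 (branch (move 430 (leaf 429 5)) (move 493 (leaf 461 6)))))) (branch (ref 24) (ref 25))))) (branch (move 524 (branch (move 495 (branch (move 523 (leaf 491 2)) (move 496 (branch (move 497 (leaf 493 1)) (move 527 (leaf 492 2)))))) (branch (move 523 (branch (move 495 (leaf 491 2)) (move 522 (branch (move 493 (leaf 490 2)) (move 490 (branch (move 489 (leaf 489 3)) (move 491 (leaf 490 3)))))))) (ref 9)))) (move 524 (branch (move 523 (branch (move 495 (leaf 491 2)) (move 490 (branch (move 491 (leaf 490 3)) (move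 522 (branch (move 489 (leaf 489 3)) (move 557 (branch (move 558 (leaf 522 0)) (move 589 (branch (move 621 (leaf 493 6)) (move 553 (branch (move 554 (leaf 521 1)) (move 521 (branch (move 556 (leaf 521 0)) (move 552 (leaf 520 1)))))))))))))))) (branch (move 495 (branch (move 523 (leaf 491 2)) (move 496 (branch (move 497 (leaf 493 1)) (move 527 (leaf 492 2)))))) (branch (ref 5) (ref 26)))))))))))))))))))
theorem a5p149 : a5e149.Valid :=
  pos_of_chk [a5e34, a5e42, a5e69, a5e104, a5e127, a5e24, a5e35, a5e54, a5e57, a5e141, a5e125, a5e30, a5e15, a5e14, a5e105, a5e101, a5e26, a5e142, a5e144, a5e100, a5e18, a5e143, a5e145, a5e94, a5e146, a5e147, a5e148] (forall_cons a5p34 (forall_cons a5p42 (forall_cons a5p69 (forall_cons a5p104 (forall_cons a5p127 (forall_cons a5p24 (forall_cons a5p35 (forall_cons a5p54 (forall_cons a5p57 (forall_cons a5p141 (forall_cons a5p125 (forall_cons a5p30 (forall_cons a5p15 (forall_cons a5p14 (forall_cons a5p105 (forall_cons a5p101 (forall_cons a5p26 (forall_cons a5p142 (forall_cons a5p144 (forall_cons a5p100 (forall_cons a5p18 (forall_cons a5p143 (forall_cons a5p145 (forall_cons a5p94 (forall_cons a5p146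 (forall_cons a5p147 (forall_cons a5p148 forall_nil))))))))))))))))))))))))))) a5c149 a5e149 (by decide +kernel)

def a5e150 : Pos := ⟨943490606425058863235714884374865265018790977069663273452022380131451758627651022516758765531159640306584734709556695644952638054162227883650310798390002182686288904192, 186877568253655897566417675355693187440381054007966175707387106750435836576641264839104895467906666554243463153797180477266762729381713280048604041322287644712916647955169254592262118191118598275072, 13⟩
def a5c150 : Cert := (move 590 (branch (move 495 (branch (move 463 (leaf 462 6)) (move 622 (branch (move 527 (leaf 494 6)) (move 623 (branch (move 591 (leaf 494 4)) (move 655 (leaf 526 4)))))))) (branch (move 495 (branch (move 463 (leaf 462 6)) (move 622 (branch (move 527 (leaf 494 6)) (move 621 (branch (move 589 (leaf 493 5)) (move 653 (leaf 525 5)))))))) (branch (move 621 (branch (move 589 (leaf 493 5)) (move 622 (branch (move 653 (leaf 525 5)) (move 623 (branch (move 591 (leaf 494 4)) (move 655 (leaf 526 4)))))))) (move 589 (branch (move 621 (leaf 493 5)) (move 591 (branch (move 623 (leaf 494 4)) (move 592 (branch (move 561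 (branch (move 560 (leaf 557 2)) (move 593 (branch (move 562 (leaf 558 2)) (move 625 (branch (move 624 (leaf 589 0)) (move 626 (leaf 590 0)))))))) (move 556 (branch (move 557 (leaf 556 3)) (move 588 (branch (move 555 (leaf 555 3)) (move 619 (branch (move 620 (leaf 587 1)) (move 587 (branch (move 618 (leaf 586 1)) (move 495 (branch (move 463 (leaf 462 6)) (move 524 (branch (move 492 (leaf 491 5)) (move 525 (branch (move 523 (leaf 491 2)) (move 496 (branch (move 497 (leaf 493 1)) (move 527 (leaf 492 2))))))))))))))))))))))))))))
theorem a5p150 : a5e150.Valid :=
  pos_of_chk [] forall_nil a5c150 a5e150 (by decide +kernel)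

def a5e151 : Pos := ⟨943490606425058863235714884374865265018790977069663273452022380131451758627651022516758765531159640306584734709556695644952638054162227883650310798390002182686288904192, 2532663311969112875378467851980835613297907708526828825203376365872739733128000075262749841142383704822533263284321395234043408893667895120703402516974072578044640037820094742528, 11⟩
def a5c151 : Cert := (move 462 (branch (move 557 (branch (move 589 (leaf 461 5)) (move 430 (branch (move 525 (leaf 429 5)) (move 429 (branch (move 397 (leaf 397 7)) (move 461 (leaf 429 7)))))))) (branch (move 461 (branch (move 429 (leaf 429 7)) (move 460 (branch (move 463 (branch (move 431 (leaf 430 6)) (move 496 (branch (move 495 (leaf 460 0)) (move 464 (branch (move 497 (leaf 461 0)) (move 493 (branch (move 492 (leaf 460 1)) (move 465 (leaf 461 1)))))))))) (branch (move 459 (branch (move 495 (leaf 459 0)) (move 458 (branch (move 493 (leaf 458 0)) (move 490 (branch (move 489 (leaf 457 1)) (move 491 (leaf 458 1)))))))) (move 463 (branch (move 431 (leaf 430 6)) (move 491 (branch (move 492 (leaf 459 1)) (move 459 (branch (move 490 (leaf 458 1)) (move 427 (branch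 (move 426 (leaf 426 3)) (move 428 (leaf 427 3))))))))))))))) (move 557 (branch (move 589 (leaf 461 5)) (move 525 (branch (move 430 (leaf 429 5)) (move 524 (branch (move 523 (branch (move 522 (leaf 522 0)) (move 491 (branch (move 490 (leaf 490 3)) (move 492 (branch (move 527 (leaf 491 3)) (move 460 (branch (move 428 (leaf 428 4)) (move 555 (branch (move 554 (leaf 522 1)) (move 587 (leaf 459 6)))))))))))) (branch (move 495 (branch (move 523 (leaf 491 2)) (move 496 (branch (move 493 (leaf 492 1)) (move 497 (leaf 493 1)))))) (move 527 (branch (move 556 (branch (move 555 (leaf 523 1)) (move 528 (leaf 524 1)))) (branch (move 528 (branch (move 529 (leaf 525 1)) (move 492 (branch (move 491 (leaf 491 3)) (move 493 (leaf 492 3)))))) (move 556 (branch (move 555 (leaf 523 1)) (move 492 (branch (move 491 (leaf 491 3)) (move 495 (branch (move 496 (leaf 492 2)) (move 460 (branch (move 428 (leaf 428 4)) (move 459 (branch (move 493 (leaf 459 3)) (move 427 (leaf 427 7)))))))))))))))))))))))))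
theorem a5p151 : a5e151.Valid :=
  pos_of_chk [] forall_nil a5c151 a5e151 (by decide +kernel)

def a5e152 : Pos := ⟨943490606425058863338008340871619698456703155095525746958792444070297533299003877769762946668805720146686925094741200555917846933148480102688350065448920715602805391360, 186877567758720270306103733717836064326939770592022836040280436915297215965601477881483725528590063439580943021564493855778042185162948843636941300120608401716715532394802949624325415563626767450112, 6⟩
def a5c152 : Cert := (move 590 (branch (move 622 (branch (move 527 (leaf 494 6)) (move 623 (branch (move 591 (leaf 494 4)) (move 655 (leaf 526 4)))))) (branch (move 622 (branch (move 527 (leaf 494 6)) (move 621 (branch (move 589 (leaf 493 5)) (move 653 (leaf 525 5)))))) (move 589 (branch (move 621 (leaf 493 5)) (move 591 (branch (move 623 (leaf 494 4)) (move 557 (branch (move 462 (leaf 461 5)) (move 556 (branch (move 555 (leaf 555 0)) (move 592 (leaf 556 3)))))))))))))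
theorem a5p152 : a5e152.Valid :=
  pos_of_chk [] forall_nil a5c152 a5e152 (by decide +kernel)

def a5e153 : Pos := ⟨219673525303193059748741084086950894497881258241433384993602936368804878561482310658802548221345378933346365558716502995413844999307501319355476337919585681408, 7091457272805898088631974109544638566928022873393054312204556204331083129422711600073609001310742665463807014649359693707635027855991468635465402668683940590560134770909528457216, 9⟩
def a5c153 : Cert := (move 492 (branch (move 459 (branch (move 460 (leaf 459 3)) (move 491 (branch (move 458 (leaf 458 3)) (move 523 (branch (move 522 (leaf 490 1)) (move 524 (leaf 491 1)))))))) (branch (move 527 (branch (move 491 (leaf 491 0)) (move 528 (leaf 492 0)))) (move 461 (branch (move 524 (branch (move 523 (leaf 491 1)) (move 429 (branch (move 397 (leaf 397 4)) (move 556 (branch (move 460 (leaf 428 6)) (move 588 (leaf 460 6)))))))) (branch (move 460 (branch (move 459 (leaf 459 3)) (move 524 (branch (move 523 (leaf 491 1)) (move 556 (branch (move 588 (leaf 460 6)) (move 527 (branch (move 528 (leaf 492 0)) (move 558 (branch (move 590 (leaf 461 7)) (move 557 (branch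 (move 555 (leaf 523 2)) (move 589 (leaf 460 4)))))))))))))) (move 429 (branch (move 397 (leaf 397 4)) (move 558 (branch (move 462 (leaf 429 7)) (move 590 (leaf 461 7))))))))))))
theorem a5p153 : a5e153.Valid :=
  pos_of_chk [] forall_nil a5c153 a5e153 (by decide +kernel)

def a5e154 : Pos := ⟨219673525277619695624552475727472849991415639864740869008891492700966664748231265374391028261319831337050239330975200775667281944547991502590746704690456559616, 7091457272805898093904138713167477602011617241885226870135234814608653136679036360487571861207633088966040080566496022560428191723478053623533480823210958962721747925864437252096, 10⟩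
def a5c154 : Cert := (move 493 (branch (move 496 (branch (move 461 (branch (move 460 (leaf 460 3)) (move 429 (branch (move 397 (leaf 397 4)) (move 558 (branch (move 462 (leaf 429 7)) (move 590 (leaf 461 7)))))))) (move 465 (branch (move 464 (leaf 461 2)) (move 497 (branch (move 466 (leaf 462 2)) (move 529 (branch (move 528 (leaf 493 0)) (move 530 (leaf 494 0)))))))))) (branch (move 492 (branch (move 459 (branch (move 460 (leaf 459 3)) (move 491 (branch (move 458 (leaf 458 3)) (move 523 (branch (move 522 (leaf 490 1)) (move 524 (leaf 491 1)))))))) (branch (move 523 (branch (move 524 (leaf 491 1)) (move 491 (branch (move 522 (leaf 490 1)) (move 462 (branch (move 463 (leaf 459 2)) (move 461 (branch (move 490 (leaf 458 2)) (move 429 (branch (move 397 (leaf 397 4)) (move 558 (leaf 429 7)))))))))))) (move 460 (branch (move 459 (leaf 459 3)) (move 461 (branch (move 496 (leaf 460 3)) (move 429 (branch (move 397 (leaf 397 4)) (move 558 (branch (move 462 (leaf 429 7)) (move 590 (leaf 461 7))))))))))))) (branch (move 492 (branch (move 459 (branch (move 460 (leaf 459 3)) (move 491 (branch (move 458 (leaf 458 3)) (move 523 (branch (move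 522 (leaf 490 1)) (move 524 (leaf 491 1)))))))) (move 528 (branch (move 527 (leaf 492 0)) (move 496 (branch (move 529 (leaf 493 0)) (move 464 (branch (move 463 (leaf 460 2)) (move 465 (leaf 461 2)))))))))) (branch (move 492 (branch (move 528 (branch (move 527 (leaf 492 0)) (move 496 (branch (move 529 (leaf 493 0)) (move 464 (branch (move 463 (leaf 460 2)) (move 465 (leaf 461 2)))))))) (branch (move 527 (branch (move 491 (leaf 491 0)) (move 528 (leaf 492 0)))) (move 463 (branch (move 464 (leaf 460 2)) (move 491 (branch (move 462 (leaf 459 2)) (move 523 (branch (move 522 (leaf 490 1)) (move 524 (leaf 491 1))))))))))) (ref 0))))))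
theorem a5p154 : a5e154.Valid :=
  pos_of_chk [a5e153] (forall_cons a5p153 forall_nil) a5c154 a5e154 (by decide +kernel)

def a5e155 : Pos := ⟨219673525482206608618061342603297206043140586878280996886583042043672375254239627649683187941524212107419249152905618533639786382624070036708583770523489533952, 4052261298678835295520302328706818477310746899258333483666044362093003500152221268789108614275981930923977494048807193539968047225533801415810546532130290938272045117073403150336, 5⟩
def a5c155 : Cert := (move 493 (branch (move 461 (branch (move 460 (leaf 460 3)) (move 525 (branch (move 524 (leaf 492 1)) (move 558 (branch (move 429 (leaf 429 4)) (move 590 (leaf 461 7)))))))) (branch (move 528 (branch (move 529 (leaf 493 0)) (move 492 (branch (move 527 (leaf 492 0)) (move 460 (branch (move 459 (leaf 459 3)) (move 461 (leaf 460 3)))))))) (move 524 (branch (move 525 (leaf 492 1)) (move 492 (branch (move 523 (leaf 491 1)) (move 528 (branch (move 527 (leaf 492 0)) (move 529 (leaf 493 0)))))))))))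
theorem a5p155 : a5e155.Valid :=
  pos_of_chk [] forall_nil a5c155 a5e155 (by decide +kernel)

def a5e156 : Pos := ⟨219673525303193059748741084086950894497881258241433384993602936368804878561482310658802548221345378933346365558716502995413844999307501319355476337919585681408, 7597989935081784336067515468043457998384942613342942175038577999922475555604353935937725350849151396117423978077189723864849602518319637669867223275151629215655644609954317336576, 9⟩
def a5c156 : Cert := (move 492 (branch (move 459 (branch (move 460 (leaf 459 3)) (move 491 (branch (move 458 (leaf 458 3)) (move 523 (branch (move 522 (leaf 490 1)) (move 524 (leaf 491 1)))))))) (branch (move 461 (branch (move 524 (branch (move 523 (leaf 491 1)) (move 429 (branch (move 397 (leaf 397 4)) (move 556 (branch (move 460 (leaf 428 6)) (move 588 (leaf 460 6)))))))) (branch (move 429 (branch (move 397 (leaf 397 4)) (move 558 (branch (move 525 (leaf 429 4)) (move 462 (leaf 429 7)))))) (move 460 (branch (move 459 (leaf 459 3)) (move 524 (branch (move 523 (leaf 491 1)) (move 556 (branch (move 588 (leaf 460 6)) (move 557 (branch (move 589 (leaf 460 4)) (move 525 (branch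 (move 428 (leaf 428 4)) (move 555 (branch (move 554 (leaf 522 2)) (move 587 (leaf 459 5))))))))))))))))) (branch (move 523 (branch (move 524 (leaf 491 1)) (move 491 (branch (move 522 (leaf 490 1)) (move 490 (branch (move 525 (leaf 490 0)) (move 458 (branch (move 457 (leaf 457 3)) (move 459 (leaf 458 3)))))))))) (branch (move 523 (branch (move 524 (leaf 491 1)) (move 491 (branch (move 522 (leaf 490 1)) (move 490 (branch (move 525 (leaf 490 0)) (move 461 (branch (move 462 (leaf 458 2)) (move 489 (branch (move 460 (leaf 457 2)) (move 457 (branch (move 456 (leaf 456 3)) (move 458 (leaf 457 3)))))))))))))) (move 461 (branch (move 460 (branch (move 459 (leaf 459 3)) (move 558 (branch (move 590 (leaf 461 7)) (move 525 (branch (move 429 (leaf 429 4)) (move 557 (branch (move 428 (leaf 428 7)) (move 589 (leaf 460 7)))))))))) (branch (move 429 (branch (move 397 (leaf 397 4)) (move 558 (branch (move 462 (leaf 429 7)) (move 590 (leaf 461 7)))))) (move 459 (branch (move 460 (leaf 459 3)) (move 491 (branch (move 458 (leaf 458 3)) (move 490 (branch (move 525 (leaf 490 0)) (move 462 (leaf 458 2))))))))))))))))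
theorem a5p156 : a5e156.Valid :=
  pos_of_chk [] forall_nil a5c156 a5e156 (by decide +kernel)

def a5e157 : Pos := ⟨219673525303193059748741084086950894497881258241433384993602936368804878561482310658802548221345378933346365558716502995413844999307501319355476337919585681408, 186877567758720270290907753852330980523465554384826965375570923174727942450870277912020713612060805433195658700350167297309316476769045727703193650434561512376415354027204596533818515834497918828544, 9⟩
def a5c157 : Cert := (move 558 (branch (move 590 (branch (move 463 (leaf 462 6)) (move 621 (branch (move 589 (leaf 493 5)) (move 622 (branch (move 653 (leaf 525 5)) (move 623 (branch (move 591 (leaf 494 4)) (move 655 (leaf 526 4)))))))))) (branch (move 590 (branch (move 461 (leaf 461 7)) (move 621 (branch (move 589 (leaf 493 5)) (move 622 (branch (move 653 (leaf 525 5)) (move 623 (branch (move 591 (leaf 494 4)) (move 655 (leaf 526 4)))))))))) (branch (move 590 (branch (move 463 (leaf 462 6)) (move 461 (leaf 461 7)))) (move 462 (branch (move 429 (branch (move 461 (leaf 429 7)) (move 430 (branch (move 397 (leaf 397 7)) (move 398 (branch (move 527 (leaf 398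 4)) (move 366 (branch (move 463 (leaf 366 4)) (move 367 (branch (move 335 (leaf 334 6)) (move 399 (leaf 366 6)))))))))))) (branch (move 461 (branch (move 429 (leaf 429 7)) (move 557 (branch (move 589 (leaf 461 5)) (move 525 (branch (move 430 (leaf 429 5)) (move 460 (branch (move 459 (leaf 459 0)) (move 428 (leaf 428 7)))))))))) (branch (move 557 (branch (move 589 (leaf 461 5)) (move 430 (branch (move 525 (leaf 429 5)) (move 398 (branch (move 527 (leaf 398 4)) (move 397 (branch (move 365 (leaf 365 7)) (move 429 (leaf 397 7)))))))))) (branch (move 557 (branch (move 589 (leaf 461 5)) (move 430 (branch (move 525 (leaf 429 5)) (move 398 (branch (move 527 (leaf 398 4)) (move 366 (branch (move 463 (leaf 366 4)) (move 461 (leaf 365 5)))))))))) (move 461 (branch (move 429 (leaf 429 7)) (move 557 (branch (move 589 (leaf 461 5)) (move 460 (branch (move 459 (leaf 459 0)) (move 525 (branch (move 428 (leaf 428 7)) (move 556 (branch (move 588 (leaf 460 5)) (move 555 (branch (move 554 (leaf 522 2)) (move 527 (leaf 523 2)))))))))))))))))))))))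
theorem a5p157 : a5e157.Valid :=
  pos_of_chk [] forall_nil a5c157 a5e157 (by decide +kernel)

def a5e158 : Pos := ⟨219673525277619695624552475727472849991415639864740869008891492700966664748231265374391028261319831337050239330975200775667281944547991502590746704690456559616, 186877567763071352728569242587013005198280952608407455223464681533131919824891703457925461008626257150409571977426012384522753516941214347564876427912876441998053598229007168433744796072122693713920, 11⟩
def a5c158 : Cert := (move 493 (branch (ref 0) (branch (ref 1) (branch (move 492 (branch (move 459 (branch (move 460 (leaf 459 3)) (move 491 (branch (move 458 (leaf 458 3)) (move 523 (branch (move 522 (leaf 490 1)) (move 524 (leaf 491 1)))))))) (branch (move 527 (branch (move 491 (leaf 491 0)) (move 528 (leaf 492 0)))) (move 525 (branch (move 524 (branch (move 523 (leaf 491 1)) (move 460 (branch (move 459 (leaf 459 3)) (move 557 (branch (move 428 (leaf 428 4)) (move 589 (leaf 460 7)))))))) (branch (move 527 (branch (move 528 (leaf 492 0)) (move 460 (branch (move 459 (leaf 459 3)) (move 557 (branch (move 589 (leaf 460 7)) (move 428 (branch (move 396 (leaf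 396 4)) (move 461 (leaf 428 7)))))))))) (move 524 (branch (move 523 (leaf 491 1)) (move 527 (branch (move 528 (leaf 492 0)) (move 556 (branch (move 555 (leaf 523 1)) (move 588 (branch (move 461 (leaf 460 6)) (move 620 (leaf 492 6)))))))))))))))) (branch (move 492 (branch (move 523 (branch (move 524 (leaf 491 1)) (move 491 (branch (move 522 (leaf 490 1)) (move 463 (branch (move 464 (leaf 460 2)) (move 558 (branch (move 590 (leaf 462 6)) (move 490 (branch (move 525 (leaf 490 0)) (move 458 (branch (move 457 (leaf 457 3)) (move 459 (leaf 458 3)))))))))))))) (branch (move 527 (branch (move 491 (leaf 491 0)) (move 528 (leaf 492 0)))) (move 460 (branch (move 459 (leaf 459 3)) (move 428 (branch (move 524 (branch (move 523 (leaf 491 1)) (move 397 (branch (move 429 (leaf 396 6)) (move 396 (branch (move 365 (leaf 364 6)) (move 395 (branch (move 363 (leaf 363 7)) (move 427 (leaf 395 7)))))))))) (branch (move 527 (branch (move 528 (leaf 492 0)) (move 396 (branch (move 525 (leaf 396 4)) (move 365 (branch (move 397 (leaf 364 6)) (move 364 (branch (move 333 (leaf 332 6)) (move 363 (branch (move 331 (leaf 331 7)) (move 395 (leaf 363 7))))))))))))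 (move 524 (branch (move 523 (leaf 491 1)) (move 557 (branch (move 525 (leaf 428 4)) (move 556 (branch (move 589 (leaf 460 4)) (move 527 (branch (move 528 (leaf 492 0)) (move 555 (branch (move 558 (leaf 523 2)) (move 587 (leaf 459 5)))))))))))))))))))) (branch (ref 2) (branch (move 558 (branch (move 590 (branch (move 463 (leaf 462 6)) (move 621 (branch (move 589 (leaf 493 5)) (move 622 (branch (move 653 (leaf 525 5)) (move 623 (branch (move 591 (leaf 494 4)) (move 655 (leaf 526 4)))))))))) (move 492 (branch (move 523 (branch (move 524 (leaf 491 1)) (move 491 (branch (move 522 (leaf 490 1)) (move 459 (branch (move 458 (leaf 458 3)) (move 460 (leaf 459 3)))))))) (branch (move 527 (branch (move 491 (leaf 491 0)) (move 528 (leaf 492 0)))) (move 429 (branch (move 461 (branch (move 397 (leaf 397 4)) (move 462 (leaf 429 7)))) (branch (move 461 (branch (move 525 (leaf 429 4)) (move 462 (leaf 429 7)))) (move 527 (branch (move 528 (leaf 492 0)) (move 524 (branch (move 523 (leaf 491 1)) (move 460 (branch (move 459 (leaf 459 3)) (move 428 (branch (move 397 (leaf 396 6)) (move 396 (branch (move 525 (leaf 396 4)) (move 395 (branch (move 363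 (leaf 363 7)) (move 427 (leaf 395 7)))))))))))))))))))))) (move 461 (branch (move 429 (branch (move 397 (leaf 397 4)) (move 558 (branch (move 462 (leaf 429 7)) (move 590 (leaf 461 7)))))) (branch (move 492 (branch (move 463 (branch (move 464 (leaf 460 2)) (move 491 (branch (move 462 (leaf 459 2)) (move 490 (branch (move 525 (leaf 490 0)) (move 522 (branch (move 521 (leaf 489 1)) (move 523 (leaf 490 1)))))))))) (branch (move 527 (branch (move 528 (leaf 492 0)) (move 524 (branch (move 523 (leaf 491 1)) (move 558 (branch (move 590 (leaf 461 7)) (move 556 (branch (move 588 (leaf 460 6)) (move 555 (branch (move 525 (leaf 523 1)) (move 557 (leaf 523 2)))))))))))) (move 527 (branch (move 491 (leaf 491 0)) (move 528 (leaf 492 0))))))) (move 492 (branch (move 524 (branch (move 523 (leaf 491 1)) (move 429 (branch (move 397 (leaf 397 4)) (move 556 (branch (move 525 (leaf 428 5)) (move 588 (leaf 460 6)))))))) (move 527 (branch (move 491 (leaf 491 0)) (move 528 (leaf 492 0))))))))))))))))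
theorem a5p158 : a5e158.Valid :=
  pos_of_chk [a5e153, a5e156, a5e157] (forall_cons a5p153 (forall_cons a5p156 (forall_cons a5p157 forall_nil))) a5c158 a5e158 (by decide +kernel)

def a5e159 : Pos := ⟨219673525175326239127798042289560671965553166357970805070045718029613809495227084236744948421217640951865734420009991896681029725509952235531828171773940072448, 186877567832688671739257584948717976638481555212508600796655144708595900529193688536730647579257478083294850407850849697092655538292574493886270822256492803084733460746329452208308453451621086527488, 12⟩
def a5c159 : Cert := (move 495 (branch (move 558 (branch (move 590 (branch (move 463 (leaf 462 6)) (move 622 (branch (move 527 (leaf 494 6)) (move 623 (branch (move 591 (leaf 494 4)) (move 655 (leaf 526 4)))))))) (branch (ref 0) (branch (move 590 (branch (move 463 (leaf 462 6)) (move 589 (branch (move 621 (leaf 493 5)) (move 591 (branch (move 623 (leaf 494 4)) (move 557 (branch (move 462 (leaf 461 5)) (move 556 (branch (move 555 (leaf 555 0)) (move 592 (leaf 556 3)))))))))))) (move 462 (branch (move 461 (branch (move 429 (leaf 429 7)) (move 496 (branch (move 497 (leaf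 461 3)) (move 460 (branch (move 459 (leaf 459 0)) (move 463 (leaf 460 0)))))))) (branch (move 557 (branch (move 589 (leaf 461 5)) (move 430 (branch (move 525 (leaf 429 5)) (move 429 (branch (move 397 (leaf 397 7)) (move 461 (leaf 429 7)))))))) (move 557 (branch (move 589 (leaf 461 5)) (move 525 (branch (move 430 (leaf 429 5)) (move 524 (branch (move 523 (leaf 491 2)) (move 496 (branch (move 497 (leaf 493 1)) (move 527 (leaf 492 2))))))))))))))))) (branch (ref 1) (branch (move 496 (branch (move 497 (branch (move 525 (leaf 493 1)) (move 466 (branch (move 465 (leaf 462 2)) (move 498 (branch (move 467 (leaf 463 2)) (move 530 (branch (move 529 (leaf 494 0)) (move 531 (leaf 495 0)))))))))) (branch (move 525 (branch (move 497 (leaf 493 1)) (move 524 (branch (move 493 (leaf 492 1)) (move 523 (leaf 491 2)))))) (branch (move 497 (branch (move 498 (branch (move 527 (leaf 494 1)) (move 466 (branch (move 465 (leaf 462 2)) (move 467 (leaf 463 2)))))) (branch (move 498 (branch (move 527 (leaf 494 1)) (move 530 (branch (move 529 (leaf 494 0)) (move 531 (leaf 495 0)))))) (move 529 (branch (move 530 (leaf 494 0)) (move 465 (branch (move 466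 (leaf 462 2)) (move 493 (branch (move 528 (leaf 493 0)) (move 464 (leaf 461 2))))))))))) (ref 2))))) (branch (move 558 (branch (move 590 (branch (move 463 (leaf 462 6)) (move 621 (branch (move 589 (leaf 493 5)) (move 622 (branch (move 653 (leaf 525 5)) (move 623 (branch (move 591 (leaf 494 4)) (move 655 (leaf 526 4)))))))))) (branch (move 462 (branch (move 461 (branch (move 429 (leaf 429 7)) (move 496 (branch (move 497 (leaf 461 3)) (move 460 (branch (move 459 (leaf 459 0)) (move 493 (leaf 460 3)))))))) (branch (move 557 (branch (move 589 (leaf 461 5)) (move 430 (branch (move 525 (leaf 429 5)) (move 429 (branch (move 397 (leaf 397 7)) (move 461 (leaf 429 7)))))))) (move 557 (branch (move 589 (leaf 461 5)) (move 525 (branch (move 430 (leaf 429 5)) (move 524 (branch (move 523 (leaf 491 2)) (move 496 (branch (move 493 (leaf 492 1)) (move 497 (leaf 493 1))))))))))))) (move 590 (branch (move 463 (leaf 462 6)) (move 493 (branch (move 461 (leaf 461 7)) (move 525 (branch (move 622 (leaf 493 7)) (move 524 (branch (move 496 (leaf 492 1)) (move 523 (leaf 491 2))))))))))))) (branch (move 558 (branch (move 590 (branch (move 463 (leaf 462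 6)) (move 622 (branch (move 527 (leaf 494 6)) (move 623 (branch (move 591 (leaf 494 4)) (move 655 (leaf 526 4)))))))) (branch (move 590 (branch (move 493 (branch (move 461 (leaf 461 7)) (move 622 (branch (move 525 (leaf 493 7)) (move 621 (branch (move 589 (leaf 493 5)) (move 653 (leaf 525 5)))))))) (branch (move 493 (branch (move 461 (leaf 461 7)) (move 622 (branch (move 525 (leaf 493 7)) (move 623 (branch (move 591 (leaf 494 4)) (move 655 (leaf 526 4)))))))) (move 589 (branch (move 621 (leaf 493 5)) (move 591 (branch (move 623 (leaf 494 4)) (move 557 (branch (move 462 (leaf 461 5)) (move 556 (branch (move 555 (leaf 555 0)) (move 592 (leaf 556 3))))))))))))) (move 462 (branch (move 557 (branch (move 589 (leaf 461 5)) (move 430 (branch (move 525 (leaf 429 5)) (move 398 (branch (move 527 (leaf 398 4)) (move 397 (branch (move 365 (leaf 365 7)) (move 429 (leaf 397 7)))))))))) (branch (move 557 (branch (move 589 (leaf 461 5)) (move 430 (branch (move 525 (leaf 429 5)) (move 398 (branch (move 527 (leaf 398 4)) (move 366 (branch (move 463 (leaf 366 4)) (move 367 (branch (move 335 (leaf 334 6)) (move 399 (leaf 366 6)))))))))))) (move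 461 (branch (move 429 (leaf 429 7)) (move 460 (branch (move 459 (leaf 459 0)) (move 496 (branch (move 463 (leaf 460 0)) (move 493 (leaf 460 3)))))))))))))) (branch (move 496 (branch (move 497 (branch (move 525 (leaf 493 1)) (move 466 (branch (move 465 (leaf 462 2)) (move 498 (branch (move 467 (leaf 463 2)) (move 530 (branch (move 529 (leaf 494 0)) (move 531 (leaf 495 0)))))))))) (branch (move 525 (branch (move 497 (leaf 493 1)) (move 524 (branch (move 493 (leaf 492 1)) (move 523 (leaf 491 2)))))) (branch (move 497 (branch (move 498 (branch (move 527 (leaf 494 1)) (move 466 (branch (move 465 (leaf 462 2)) (move 467 (leaf 463 2)))))) (branch (move 498 (branch (move 527 (leaf 494 1)) (move 530 (branch (move 529 (leaf 494 0)) (move 531 (leaf 495 0)))))) (move 529 (branch (move 530 (leaf 494 0)) (move 465 (branch (move 466 (leaf 462 2)) (move 493 (branch (move 528 (leaf 493 0)) (move 464 (leaf 461 2))))))))))) (move 493 (branch (move 464 (branch (move 465 (leaf 461 2)) (move 492 (branch (move 463 (leaf 460 2)) (move 527 (branch (move 491 (leaf 491 0)) (move 528 (leaf 492 0)))))))) (branch (move 524 (branch (move 525 (leaf 492 1))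 (move 492 (branch (move 523 (leaf 491 1)) (move 528 (branch (move 527 (leaf 492 0)) (move 529 (leaf 493 0)))))))) (branch (move 525 (branch (move 524 (leaf 492 1)) (move 557 (branch (move 462 (branch (move 430 (leaf 429 5)) (move 589 (leaf 461 6)))) (move 528 (branch (move 529 (leaf 493 0)) (move 527 (branch (move 556 (leaf 524 1)) (move 560 (branch (move 561 (leaf 525 0)) (move 592 (branch (move 463 (leaf 463 7)) (move 624 (leaf 495 7)))))))))))))) (move 524 (branch (move 525 (leaf 492 1)) (move 492 (branch (move 523 (leaf 491 1)) (move 464 (branch (move 463 (leaf 460 2)) (move 465 (leaf 461 2)))))))))))))))) (ref 3))))))))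
theorem a5p159 : a5e159.Valid :=
  pos_of_chk [a5e152, a5e154, a5e155, a5e158] (forall_cons a5p152 (forall_cons a5p154 (forall_cons a5p155 (forall_cons a5p158 forall_nil)))) a5c159 a5e159 (by decide +kernel)

def a5e160 : Pos := ⟨219673525507779972742249950962775250549606205254973512871294485711510589067490672934094707901549759703715375380646920753386349437383579853473313403752618655744, 16209045194715341172086063921523665979630087822773106836940254787013255939076539223113737394283151769136294804487830467662018821983435726240654907068286778507753288717405075275776, 9⟩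
def a5c160 : Cert := (move 463 (branch (move 464 (branch (move 465 (leaf 461 2)) (move 528 (branch (move 529 (leaf 493 0)) (move 461 (branch (move 460 (leaf 460 3)) (move 429 (branch (move 397 (leaf 397 4)) (move 462 (branch (move 428 (leaf 428 3)) (move 432 (branch (move 433 (leaf 429 2)) (move 400 (branch (move 368 (leaf 367 5)) (move 527 (leaf 399 5)))))))))))))))) (branch (move 464 (branch (move 465 (leaf 461 2)) (move 461 (branch (move 460 (leaf 460 3)) (move 431 (branch (move 399 (leaf 398 5)) (move 429 (branch (move 397 (leaf 397 4)) (move 428 (branch (move 430 (leaf 428 0)) (move 462 (leaf 428 3)))))))))))) (move 528 (branch (move 529 (leaf 493 0)) (move 431 (branch (move 399 (leaf 399 4)) (move 560 (branch (move 527 (leaf 431 4)) (move 592 (leaf 463 7)))))))))))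
theorem a5p160 : a5e160.Valid :=
  pos_of_chk [] forall_nil a5c160 a5e160 (by decide +kernel)

def a5e161 : Pos := ⟨219673525277619695624552475727472849991415639864740869008891492700966664748231265374391028261319831337050239330975200775667281944547991502590746704690456559616, 16209045194951213827248293825925977977412960373131570568626069980364326502520247514150724917341114320064061222732245796096138920057534579368445975224377725680252847855437608910848, 11⟩
def a5c161 : Cert := (move 493 (branch (move 492 (branch (move 459 (branch (move 460 (leaf 459 3)) (move 491 (branch (move 458 (leaf 458 3)) (move 523 (branch (move 522 (leaf 490 1)) (move 524 (leaf 491 1)))))))) (branch (move 463 (branch (move 464 (leaf 460 2)) (move 527 (branch (move 528 (leaf 492 0)) (move 431 (branch (move 399 (leaf 398 5)) (move 430 (branch (move 398 (leaf 398 7)) (move 460 (branch (move 459 (leaf 459 3)) (move 432 (branch (move 400 (leaf 399 6)) (move 461 (branch (move 429 (leaf 428 1)) (move 462 (leaf 428 2)))))))))))))))) (move 527 (branch (move 491 (leaf 491 0)) (move 528 (leaf 492 0))))))) (branch (move 492 (branch (move 460 (branch (move 459 (leaf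 459 3)) (move 461 (branch (move 496 (leaf 460 3)) (move 429 (branch (move 397 (leaf 397 4)) (move 524 (branch (move 523 (leaf 491 1)) (move 556 (leaf 428 6)))))))))) (branch (move 460 (branch (move 459 (leaf 459 3)) (move 496 (branch (move 461 (leaf 460 3)) (move 464 (branch (move 463 (leaf 460 2)) (move 465 (leaf 461 2)))))))) (move 463 (branch (move 464 (leaf 460 2)) (move 491 (branch (move 462 (leaf 459 2)) (move 523 (branch (move 522 (leaf 490 1)) (move 524 (leaf 491 1))))))))))) (branch (move 492 (branch (move 460 (branch (move 459 (leaf 459 3)) (move 461 (branch (move 496 (leaf 460 3)) (move 429 (branch (move 397 (leaf 397 4)) (move 524 (branch (move 523 (leaf 491 1)) (move 556 (leaf 428 6)))))))))) (move 527 (branch (move 491 (leaf 491 0)) (move 528 (leaf 492 0)))))) (branch (move 492 (branch (move 528 (branch (move 527 (leaf 492 0)) (move 496 (branch (move 529 (leaf 493 0)) (move 464 (branch (move 463 (leaf 460 2)) (move 465 (leaf 461 2)))))))) (branch (move 527 (branch (move 491 (leaf 491 0)) (move 528 (leaf 492 0)))) (move 463 (branch (move 464 (leaf 460 2)) (move 491 (branch (move 462 (leaf 459 2)) (move 523 (branch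 (move 522 (leaf 490 1)) (move 524 (leaf 491 1))))))))))) (move 496 (branch (move 465 (branch (move 464 (leaf 461 2)) (move 497 (branch (move 466 (leaf 462 2)) (move 529 (branch (move 528 (leaf 493 0)) (move 530 (leaf 494 0)))))))) (branch (move 461 (branch (move 460 (leaf 460 3)) (move 497 (branch (move 462 (leaf 461 3)) (move 529 (branch (move 528 (leaf 493 0)) (move 530 (leaf 494 0)))))))) (branch (move 461 (branch (move 460 (leaf 460 3)) (move 497 (branch (move 462 (leaf 461 3)) (move 465 (branch (move 464 (leaf 461 2)) (move 466 (leaf 462 2)))))))) (ref 0))))))))))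
theorem a5p161 : a5e161.Valid :=
  pos_of_chk [a5e160] (forall_cons a5p160 forall_nil) a5c161 a5e161 (by decide +kernel)

def a5e162 : Pos := ⟨219673525277619695636461001386332073286175761133177935299741552754467683847883200797766622357769742912826553505869503033814815098545056561853777617773679083520, 943490606644732388308747667016328833842736314100434652503645472477411374900463598822020522932596430358255675829870625454539633082836420770674402218176568927170102034432, 6⟩
def a5c162 : Cert := (move 430 (branch (move 429 (branch (move 397 (leaf 397 7)) (move 461 (branch (move 558 (leaf 429 7)) (move 460 (branch (move 459 (leaf 459 0)) (move 431 (branch (move 432 (leaf 428 1)) (move 399 (leaf 398 6)))))))))) (branch (move 398 (branch (move 527 (leaf 398 4)) (move 397 (branch (move 365 (leaf 365 7)) (move 429 (leaf 397 7)))))) (move 398 (branch (move 527 (leaf 398 4)) (move 399 (branch (move 367 (leaf 366 6)) (move 431 (leaf 398 6)))))))))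
theorem a5p162 : a5e162.Valid :=
  pos_of_chk [] forall_nil a5c162 a5e162 (by decide +kernel)

def a5e163 : Pos := ⟨219673525277619695636461001386332073286175761133177935299741552754467683847883200797766622357769742912826553505869503033814815098545056561853777617773679083520, 4052261298678835292252658642446288206949378605637911727737973440245469811023821816895144969862023362622256043655192704668563303126798169144877192408584273304479311429940449116160, 6⟩
def a5c163 : Cert := (move 430 (branch (move 399 (branch (move 431 (leaf 398 6)) (move 398 (branch (move 367 (leaf 366 6)) (move 397 (branch (move 365 (leaf 365 7)) (move 429 (leaf 397 7)))))))) (branch (move 397 (branch (move 429 (leaf 397 7)) (move 398 (branch (move 365 (leaf 365 7)) (move 463 (branch (move 366 (leaf 366 4)) (move 558 (branch (move 431 (leaf 430 6)) (move 590 (leaf 462 6)))))))))) (branch (move 397 (branch (move 429 (leaf 397 7)) (move 398 (branch (move 365 (leaf 365 7)) (move 366 (branch (move 463 (leaf 366 4)) (move 367 (branch (move 335 (leaf 334 6)) (move 399 (leaf 366 6)))))))))) (branch (move 431 (branch (move 399 (leaf 398 6)) (move 463 (branch (move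 558 (leaf 430 6)) (move 429 (branch (move 397 (leaf 397 7)) (move 464 (branch (move 428 (leaf 428 0)) (move 465 (leaf 429 3)))))))))) (move 398 (branch (move 399 (branch (move 367 (leaf 366 6)) (move 431 (leaf 398 6)))) (branch (move 463 (branch (move 366 (leaf 366 4)) (move 558 (branch (move 431 (leaf 430 6)) (move 590 (leaf 462 6)))))) (move 366 (branch (move 463 (leaf 366 4)) (move 367 (branch (move 335 (leaf 334 6)) (move 399 (leaf 366 6))))))))))))))
theorem a5p163 : a5e163.Valid :=
  pos_of_chk [] forall_nil a5c163 a5e163 (by decide +kernel)

def a5e164 : Pos := ⟨219673525277619695624552475727472849991415639864740869008891492700966664748231265374391028261319831337050239330975200775667281944547991502590746704690456559616, 4052261298678835305103559863642897984943996686962808711660487151785287554743775293638364605571207544879489020779252745743847467267265697587728854615074429766968780640823101358080, 11⟩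
def a5c164 : Cert := (move 462 (branch (ref 0) (branch (move 496 (branch (move 497 (branch (move 525 (leaf 493 1)) (move 530 (branch (move 529 (leaf 494 0)) (move 498 (branch (move 531 (leaf 495 0)) (move 466 (branch (move 465 (leaf 462 2)) (move 467 (leaf 463 2)))))))))) (move 461 (branch (move 429 (branch (move 558 (leaf 429 7)) (move 397 (branch (move 365 (leaf 365 4)) (move 430 (leaf 397 7)))))) (move 460 (branch (move 459 (leaf 459 0)) (move 463 (leaf 460 0)))))))) (branch (move 463 (branch (move 558 (branch (move 590 (leaf 462 6)) (move 461 (branch (move 429 (leaf 429 7)) (move 496 (branch (move 460 (leaf 460 0)) (move 497 (leaf 461 3)))))))) (branch (move 431 (branch (move 399 (leaf 398 5)) (move 558 (leaf 430 6)))) (move 461 (branch (move 460 (branch (move 459 (leaf 459 0)) (move 428 (branch (move 427 (leaf 427 3)) (move 464 (branch (move 429 (leaf 428 3)) (move 465 (branch (move 466 (leaf 462 1)) (move 433 (branch (move 432 (leaf 429 2)) (move 434 (leaf 430 2)))))))))))) (branch (move 496 (branch (move 460 (leaf 460 0)) (move 497 (leaf 461 3)))) (move 464 (branch (move 465 (branch (move 466 (leaf 462 1)) (move 433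 (branch (move 432 (leaf 429 2)) (move 434 (leaf 430 2)))))) (branch (move 496 (branch (move 497 (leaf 461 0)) (move 399 (branch (move 431 (leaf 398 5)) (move 432 (branch (move 433 (leaf 429 2)) (move 400 (branch (move 368 (leaf 367 5)) (move 367 (leaf 367 7)))))))))) (move 497 (branch (move 496 (leaf 461 0)) (move 465 (branch (move 498 (leaf 462 0)) (move 466 (leaf 462 1))))))))))))))) (branch (move 430 (branch (move 398 (branch (move 527 (leaf 398 4)) (move 397 (branch (move 365 (leaf 365 7)) (move 429 (leaf 397 7)))))) (branch (move 398 (branch (move 527 (leaf 398 4)) (move 399 (branch (move 367 (leaf 366 6)) (move 431 (leaf 398 6)))))) (move 461 (branch (move 496 (branch (move 497 (leaf 461 3)) (move 460 (branch (move 459 (leaf 459 0)) (move 463 (leaf 460 0)))))) (branch (move 431 (branch (move 399 (leaf 398 6)) (move 460 (branch (move 459 (leaf 459 0)) (move 432 (branch (move 429 (leaf 428 1)) (move 433 (leaf 429 1)))))))) (move 431 (branch (move 399 (leaf 398 6)) (move 429 (branch (move 397 (leaf 397 7)) (move 432 (branch (move 433 (leaf 429 1)) (move 464 (branch (move 465 (leaf 429 0)) (move 428 (branch (move 463 (leaf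 428 0)) (move 427 (branch (move 426 (leaf 426 0)) (move 395 (branch (move 394 (leaf 394 3)) (move 396 (leaf 395 3)))))))))))))))))))))) (branch (ref 1) (move 496 (branch (move 497 (branch (move 525 (leaf 493 1)) (move 498 (branch (move 527 (leaf 494 1)) (move 463 (leaf 462 3)))))) (branch (move 497 (branch (move 525 (leaf 493 1)) (move 461 (leaf 461 3)))) (move 430 (branch (move 399 (branch (move 431 (leaf 398 6)) (move 398 (branch (move 367 (leaf 366 6)) (move 366 (branch (move 463 (leaf 366 4)) (move 365 (branch (move 333 (leaf 333 7)) (move 397 (leaf 365 7)))))))))) (branch (move 398 (branch (move 527 (leaf 398 4)) (move 367 (branch (move 399 (leaf 366 6)) (move 366 (branch (move 335 (leaf 334 6)) (move 365 (branch (move 333 (leaf 333 7)) (move 397 (leaf 365 7)))))))))) (branch (move 431 (branch (move 399 (leaf 398 6)) (move 463 (branch (move 558 (leaf 430 6)) (move 461 (branch (move 460 (leaf 460 0)) (move 432 (branch (move 433 (leaf 429 1)) (move 400 (branch (move 527 (leaf 399 6)) (move 368 (branch (move 336 (leaf 335 5)) (move 464 (leaf 367 5)))))))))))))) (move 398 (branch (move 527 (leaf 398 4)) (move 463 (branch (move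 366 (leaf 366 4)) (move 558 (branch (move 431 (leaf 430 6)) (move 590 (leaf 462 6)))))))))))))))))))))
theorem a5p164 : a5e164.Valid :=
  pos_of_chk [a5e162, a5e163] (forall_cons a5p162 (forall_cons a5p163 forall_nil)) a5c164 a5e164 (by decide +kernel)

def a5e165 : Pos := ⟨219673525277619695624552475727472849991415639864740869008891492700966664748231265374391028261319831337050239330975200775667281944547991502590746704690456559616, 149502054210457082182450167943091912286903976786321004030899561110471059214158170639720626673511997577155375841177505764317804151983771584772241853514244815156630488994315797616676001909568597655552, 10⟩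
def a5c165 : Cert := (move 462 (branch (ref 0) (branch (ref 1) (branch (move 430 (branch (move 398 (branch (move 527 (leaf 398 4)) (move 397 (branch (move 365 (leaf 365 7)) (move 429 (leaf 397 7)))))) (branch (move 398 (branch (move 527 (leaf 398 4)) (move 366 (branch (move 463 (leaf 366 4)) (move 367 (branch (move 335 (leaf 334 6)) (move 399 (leaf 366 6)))))))) (branch (move 397 (branch (move 429 (leaf 397 7)) (move 398 (branch (move 365 (leaf 365 7)) (move 366 (branch (move 463 (leaf 366 4)) (move 367 (branch (move 335 (leaf 334 6)) (move 399 (leaf 366 6)))))))))) (move 429 (branch (move 397 (leaf 397 7)) (move 558 (branch (move 461 (leaf 429 7)) (move 590 (branch (move 463 (leaf 462 6)) (move 622 (branch (move 527 (leaf 494 6)) (move 623 (branch (move 591 (leaf 494 4)) (move 655 (leaf 526 4)))))))))))))))) (branch (move 430 (branch (move 398 (branch (move 527 (leaf 398 4)) (move 397 (branch (move 365 (leaf 365 7)) (move 429 (leaf 397 7)))))) (branch (move 398 (branch (move 527 (leaf 398 4)) (move 399 (branch (move 367 (leaf 366 6)) (move 431 (leaf 398 6)))))) (move 431 (branch (move 399 (leaf 398 6)) (move 432 (branch (move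 433 (branch (move 461 (leaf 429 1)) (move 466 (branch (move 465 (leaf 430 0)) (move 434 (branch (move 467 (leaf 431 0)) (move 402 (branch (move 401 (leaf 398 2)) (move 403 (leaf 399 2)))))))))) (branch (move 429 (branch (move 397 (leaf 397 7)) (move 460 (branch (move 461 (leaf 428 1)) (move 428 (branch (move 459 (leaf 427 1)) (move 463 (branch (move 427 (leaf 427 0)) (move 464 (leaf 428 0)))))))))) (move 429 (branch (move 397 (leaf 397 7)) (move 464 (branch (move 465 (leaf 429 0)) (move 463 (branch (move 428 (leaf 428 0)) (move 400 (branch (move 401 (leaf 397 2)) (move 368 (leaf 367 5)))))))))))))))))) (branch (move 558 (branch (move 463 (branch (move 431 (leaf 430 6)) (move 461 (branch (move 429 (leaf 429 7)) (move 460 (branch (move 459 (leaf 459 0)) (move 492 (branch (move 491 (leaf 459 1)) (move 464 (branch (move 493 (leaf 460 1)) (move 465 (branch (move 466 (leaf 462 1)) (move 433 (branch (move 432 (leaf 429 2)) (move 434 (leaf 430 2)))))))))))))))) (branch (move 590 (branch (move 463 (leaf 462 6)) (move 622 (branch (move 527 (leaf 494 6)) (move 623 (branch (move 591 (leaf 494 4)) (move 655 (leaf 526 4)))))))) (move 461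 (branch (move 429 (leaf 429 7)) (move 590 (branch (move 493 (leaf 461 7)) (move 622 (branch (move 527 (leaf 494 6)) (move 623 (branch (move 591 (leaf 494 4)) (move 655 (leaf 526 4))))))))))))) (move 431 (branch (move 430 (branch (move 399 (leaf 398 6)) (move 398 (branch (move 527 (leaf 398 4)) (move 493 (branch (move 525 (leaf 397 5)) (move 366 (branch (move 461 (leaf 365 5)) (move 365 (branch (move 333 (leaf 333 7)) (move 397 (leaf 365 7)))))))))))) (branch (move 463 (branch (move 399 (leaf 398 5)) (move 558 (leaf 430 6)))) (move 463 (branch (move 558 (leaf 430 6)) (move 527 (branch (move 528 (branch (move 560 (leaf 431 4)) (move 529 (branch (move 493 (leaf 493 3)) (move 530 (leaf 494 3)))))) (move 432 (branch (move 400 (leaf 399 6)) (move 461 (branch (move 460 (leaf 428 2)) (move 433 (branch (move 434 (leaf 430 1)) (move 464 (leaf 429 2)))))))))))))))))))))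
theorem a5p165 : a5e165.Valid :=
  pos_of_chk [a5e162, a5e163] (forall_cons a5p162 (forall_cons a5p163 forall_nil)) a5c165 a5e165 (by decide +kernel)

def a5e166 : Pos := ⟨219673525482206608618061342603297206043140586878280996886583042043672375254239627649683187941524212107419249152905618533639786382624070036708583770523489533952, 16209045194715341182630393128737377344406847417524146546963385118331673086077520884637743230929516664273651673276551770773879569526520384744684484576587680256055021328278396862464, 6⟩
def a5c166 : Cert := (move 497 (branch (move 498 (branch (move 527 (leaf 494 1)) (move 466 (branch (move 465 (leaf 462 2)) (move 467 (leaf 463 2)))))) (branch (move 498 (branch (move 527 (leaf 494 1)) (move 530 (branch (move 529 (leaf 494 0)) (move 531 (leaf 495 0)))))) (move 529 (branch (move 530 (leaf 494 0)) (move 528 (branch (move 493 (leaf 493 0)) (move 465 (branch (move 466 (leaf 462 2)) (move 560 (branch (move 433 (leaf 432 5)) (move 592 (leaf 464 6)))))))))))))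
theorem a5p166 : a5e166.Valid :=
  pos_of_chk [] forall_nil a5c166 a5e166 (by decide +kernel)

def a5e167 : Pos := ⟨219673525482206608618061342603297206043140586878280996886583042043672375254239627649683187941524212107419249152905618533639786382624070036708583770523489533952, 4052261298678835292252658642484648253157990003784024001057050514144307265880028679908680102045684380735132240397451903720868871636443921421205285056216012939002517972891889303552, 6⟩
def a5c167 : Cert := (move 493 (branch (move 464 (branch (move 465 (leaf 461 2)) (move 492 (branch (move 463 (leaf 460 2)) (move 460 (branch (move 459 (leaf 459 3)) (move 461 (leaf 460 3)))))))) (branch (move 461 (branch (move 460 (leaf 460 3)) (move 429 (branch (move 397 (leaf 397 4)) (move 558 (branch (move 462 (leaf 429 7)) (move 590 (leaf 461 7)))))))) (move 464 (branch (move 465 (leaf 461 2)) (move 463 (branch (move 492 (leaf 460 2)) (move 431 (branch (move 399 (leaf 398 5)) (move 558 (branch (move 462 (leaf 430 6)) (move 590 (leaf 462 6)))))))))))))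
theorem a5p167 : a5e167.Valid :=
  pos_of_chk [] forall_nil a5c167 a5e167 (by decide +kernel)

def a5e168 : Pos := ⟨358027097738640517032692623090518657273695223785960211349734993385514633981761279440357666348145767188378231076451882766633137434706214865207807705088, 6150858703924560177176668017643931844057041215951952164570735187822760417857598556799112099157451295672709718316995522125278773989693983413458208284876568788992, 5⟩
def a5c168 : Cert := (move 493 (branch (move 464 (branch (move 465 (leaf 461 2)) (move 492 (branch (move 463 (leaf 460 2)) (move 460 (branch (move 459 (leaf 459 3)) (move 461 (leaf 460 3)))))))) (branch (move 465 (branch (move 464 (leaf 461 2)) (move 497 (branch (move 466 (leaf 462 2)) (move 529 (branch (move 528 (leaf 493 0)) (move 530 (leaf 494 0)))))))) (move 461 (branch (move 460 (leaf 460 3)) (move 497 (branch (move 462 (leaf 461 3)) (move 529 (branch (move 528 (leaf 493 0)) (move 530 (leaf 494 0)))))))))))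
theorem a5p168 : a5e168.Valid :=
  pos_of_chk [] forall_nil a5c168 a5e168 (by decide +kernel)

def a5e169 : Pos := ⟨219673525175326239127798042289560671965553166357970805070045718029613809495227084236744948421217640951865734420009991896681029725509952235531828171773940072448, 149502054210457082231077303523699846041850451060284163825211393209639565924563137623779391242780372517683972360837888669738365245755357220470648306839230369133712667872583390246556699930397241245696, 12⟩
def a5c169 : Cert := (move 495 (branch (ref 0) (branch (ref 1) (branch (ref 2) (branch (move 496 (branch (move 497 (branch (move 525 (leaf 493 1)) (move 466 (branch (move 465 (leaf 462 2)) (move 498 (branch (move 467 (leaf 463 2)) (move 530 (branch (move 529 (leaf 494 0)) (move 531 (leaf 495 0)))))))))) (branch (move 525 (branch (move 497 (leaf 493 1)) (move 524 (branch (move 493 (leaf 492 1)) (move 523 (leaf 491 2)))))) (branch (ref 3) (ref 4))))) (branch (move 496 (branch (move 525 (branch (move 497 (leaf 493 1)) (move 524 (branch (move 493 (leaf 492 1)) (move 523 (leaf 491 2)))))) (branch (move 497 (branch (move 525 (leaf 493 1)) (move 498 (branch (move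 527 (leaf 494 1)) (move 466 (branch (move 465 (leaf 462 2)) (move 467 (leaf 463 2)))))))) (ref 5)))) (branch (move 496 (branch (move 525 (branch (move 497 (leaf 493 1)) (move 524 (branch (move 493 (leaf 492 1)) (move 523 (leaf 491 2)))))) (branch (move 493 (branch (move 461 (branch (move 460 (leaf 460 3)) (move 497 (branch (move 462 (leaf 461 3)) (move 529 (branch (move 528 (leaf 493 0)) (move 530 (leaf 494 0)))))))) (branch (move 528 (branch (move 529 (leaf 493 0)) (move 492 (branch (move 527 (leaf 492 0)) (move 460 (branch (move 459 (leaf 459 3)) (move 461 (leaf 460 3)))))))) (branch (move 461 (branch (move 460 (leaf 460 3)) (move 497 (branch (move 462 (leaf 461 3)) (move 498 (branch (move 527 (leaf 494 1)) (move 531 (branch (move 530 (leaf 495 0)) (move 499 (branch (move 532 (leaf 496 0)) (move 467 (branch (move 466 (leaf 463 2)) (move 468 (leaf 464 2)))))))))))))) (branch (move 528 (branch (move 529 (leaf 493 0)) (move 492 (branch (move 527 (leaf 492 0)) (move 463 (branch (move 464 (leaf 460 2)) (move 431 (branch (move 399 (leaf 399 4)) (move 491 (branch (move 462 (leaf 459 2)) (move 459 (branch (move 458 (leaf 458 3))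 (move 460 (leaf 459 3)))))))))))))) (move 528 (branch (move 529 (leaf 493 0)) (move 492 (branch (move 527 (leaf 492 0)) (move 463 (branch (move 464 (leaf 460 2)) (move 431 (branch (move 399 (leaf 399 4)) (move 462 (branch (move 491 (leaf 459 2)) (move 497 (branch (move 461 (leaf 461 3)) (move 498 (leaf 462 3))))))))))))))))))) (branch (move 497 (branch (move 525 (leaf 493 1)) (move 498 (branch (move 527 (leaf 494 1)) (move 530 (branch (move 529 (leaf 494 0)) (move 531 (leaf 495 0)))))))) (ref 4))))) (branch (move 463 (branch (move 431 (branch (move 399 (leaf 398 5)) (move 527 (branch (move 558 (leaf 430 5)) (move 528 (branch (move 560 (leaf 431 4)) (move 493 (branch (move 492 (leaf 492 0)) (move 529 (leaf 493 3)))))))))) (branch (move 431 (branch (move 399 (leaf 398 5)) (move 558 (branch (move 462 (leaf 430 6)) (move 590 (leaf 462 6)))))) (move 496 (branch (move 497 (branch (move 525 (leaf 493 1)) (move 498 (branch (move 527 (leaf 494 1)) (move 466 (branch (move 465 (leaf 462 2)) (move 467 (leaf 463 2)))))))) (branch (move 525 (branch (move 497 (leaf 493 1)) (move 524 (branch (move 493 (leaf 492 1)) (move 523 (leaf 491 2))))))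 (branch (move 497 (branch (move 529 (branch (move 530 (leaf 494 0)) (move 528 (branch (move 493 (leaf 493 0)) (move 465 (branch (move 466 (leaf 462 2)) (move 560 (branch (move 433 (leaf 432 5)) (move 592 (leaf 464 6)))))))))) (move 498 (branch (move 527 (leaf 494 1)) (move 462 (leaf 462 3)))))) (move 493 (branch (move 464 (branch (move 492 (leaf 460 2)) (move 465 (leaf 461 2)))) (branch (move 525 (branch (move 524 (leaf 492 1)) (move 528 (branch (move 529 (leaf 493 0)) (move 464 (branch (move 465 (leaf 461 2)) (move 560 (branch (move 592 (leaf 463 7)) (move 561 (branch (move 527 (leaf 525 0)) (move 593 (leaf 464 4)))))))))))) (move 524 (branch (move 525 (leaf 492 1)) (move 492 (branch (move 523 (leaf 491 1)) (move 491 (branch (move 527 (leaf 491 0)) (move 462 (leaf 459 2)))))))))))))))))) (branch (move 496 (branch (move 497 (branch (move 525 (leaf 493 1)) (move 466 (branch (move 465 (leaf 462 2)) (move 498 (branch (move 467 (leaf 463 2)) (move 530 (branch (move 529 (leaf 494 0)) (move 531 (leaf 495 0)))))))))) (branch (move 493 (branch (move 464 (branch (move 465 (leaf 461 2)) (move 463 (branch (move 492 (leaf 460 2)) (move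 528 (branch (move 529 (leaf 493 0)) (move 431 (branch (move 399 (leaf 399 4)) (move 560 (leaf 431 7)))))))))) (move 461 (branch (move 460 (leaf 460 3)) (move 525 (branch (move 524 (leaf 492 1)) (move 558 (branch (move 429 (leaf 429 4)) (move 590 (leaf 461 7)))))))))) (branch (move 525 (branch (move 497 (leaf 493 1)) (move 524 (branch (move 493 (leaf 492 1)) (move 523 (leaf 491 2)))))) (ref 6))))) (move 496 (branch (move 525 (branch (move 497 (leaf 493 1)) (move 524 (branch (move 493 (leaf 492 1)) (move 523 (leaf 491 2)))))) (branch (move 493 (branch (move 464 (branch (move 465 (leaf 461 2)) (move 492 (branch (move 463 (leaf 460 2)) (move 460 (branch (move 459 (leaf 459 3)) (move 461 (leaf 460 3)))))))) (branch (move 464 (branch (move 465 (leaf 461 2)) (move 463 (branch (move 492 (leaf 460 2)) (move 528 (branch (move 529 (leaf 493 0)) (move 431 (branch (move 399 (leaf 399 4)) (move 560 (leaf 431 7)))))))))) (branch (ref 7) (move 528 (branch (move 529 (leaf 493 0)) (move 492 (branch (move 527 (leaf 492 0)) (move 460 (branch (move 459 (leaf 459 3)) (move 461 (leaf 460 3)))))))))))) (move 497 (branch (move 525 (leaf 493 1)) (move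 498 (branch (move 527 (leaf 494 1)) (move 530 (branch (move 529 (leaf 494 0)) (move 531 (leaf 495 0))))))))))))))))))))
theorem a5p169 : a5e169.Valid :=
  pos_of_chk [a5e161, a5e164, a5e165, a5e166, a5e155, a5e167, a5e168, a5e160] (forall_cons a5p161 (forall_cons a5p164 (forall_cons a5p165 (forall_cons a5p166 (forall_cons a5p155 (forall_cons a5p167 (forall_cons a5p168 (forall_cons a5p160 forall_nil)))))))) a5c169 a5e169 (by decide +kernel)

def a5e170 : Pos := ⟨219673525175326239139706567948419895260313287626407871360895778083114828594879019660120542517667552527642048594904294154828562879507017294794859084857162596352, 160526608585248391811749478706253636001050076483272678167642207297654744560220919656434697692331495395172326424222489999581386906548830797485869486171590258942446958908159591259722363524082335262752001490944, 15⟩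
def a5c170 : Cert := (move 558 (branch (move 461 (branch (move 429 (leaf 429 7)) (move 590 (branch (move 493 (leaf 461 7)) (move 589 (branch (move 557 (leaf 461 5)) (move 621 (leaf 493 5)))))))) (branch (move 463 (branch (move 431 (leaf 430 6)) (move 590 (branch (move 495 (leaf 462 6)) (move 623 (branch (move 591 (leaf 494 4)) (move 622 (branch (move 655 (leaf 526 4)) (move 621 (branch (move 589 (leaf 493 5)) (move 653 (leaf 525 5)))))))))))) (branch (move 463 (branch (move 431 (leaf 430 6)) (move 590 (branch (move 495 (leaf 462 6)) (move 623 (branch (move 591 (leaf 494 4)) (move 622 (branch (move 655 (leaf 526 4)) (move 653 (branch (move 621 (leaf 525 5)) (move 654 (branch (move 685 (leaf 557 5)) (move 525 (branch (move 493 (leaf 493 7)) (move 557 (leaf 525 7)))))))))))))))) (move 463 (branch (move 431 (leaf 430 6)) (move 464 (branch (move 461 (branch (move 429 (leaf 429 7)) (move 497 (branch (move 496 (leaf 461 0)) (move 465 (branch (move 498 (leaf 462 0)) (move 433 (branch (move 432 (leaf 429 2)) (move 434 (leaf 430 2)))))))))) (branch (move 465 (branch (move 493 (leaf 461 1)) (move 466 (branch (move 495 (leaf 462 1)) (move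 498 (branch (move 497 (leaf 462 0)) (move 499 (leaf 463 0)))))))) (branch (move 493 (branch (move 465 (leaf 461 1)) (move 492 (branch (move 461 (leaf 460 1)) (move 491 (leaf 459 2)))))) (move 557 (branch (move 589 (leaf 461 5)) (move 527 (branch (move 528 (branch (move 529 (leaf 525 1)) (move 556 (branch (move 525 (leaf 524 1)) (move 555 (leaf 523 2)))))) (branch (move 461 (branch (move 429 (leaf 429 7)) (move 493 (branch (move 492 (leaf 460 1)) (move 496 (branch (move 497 (leaf 461 0)) (move 556 (branch (move 555 (leaf 523 2)) (move 525 (branch (move 588 (leaf 460 5)) (move 495 (branch (move 524 (leaf 492 1)) (move 432 (branch (move 433 (leaf 429 2)) (move 400 (leaf 399 5)))))))))))))))) (move 461 (branch (move 429 (leaf 429 7)) (move 493 (branch (move 492 (leaf 460 1)) (move 528 (branch (move 529 (leaf 525 1)) (move 496 (branch (move 497 (leaf 461 0)) (move 432 (branch (move 433 (leaf 429 2)) (move 400 (branch (move 495 (leaf 399 5)) (move 369 (branch (move 401 (leaf 368 6)) (move 368 (branch (move 337 (leaf 336 6)) (move 367 (branch (move 335 (leaf 335 7)) (move 399 (leaf 367 7)))))))))))))))))))))))))))))))))))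
theorem a5p170 : a5e170.Valid :=
  pos_of_chk [] forall_nil a5c170 a5e170 (by decide +kernel)

def a5e171 : Pos := ⟨943490606425058863338008340883528224115562378390285868227229510361147593352504896869414882092181314243136836670517514730812149191296013256685415124711951628686027915264, 439347050248359021782658702467245621579063233733797022953579539987136208724792060033252256504781471947886337528975742337182649606347682566224965743911161036800, 5⟩
def a5c171 : Cert := (move 430 (branch (move 398 (branch (move 527 (leaf 398 4)) (move 399 (branch (move 367 (leaf 366 6)) (move 431 (leaf 398 6)))))) (branch (move 398 (branch (move 527 (leaf 398 4)) (move 366 (branch (move 463 (leaf 366 4)) (move 367 (branch (move 335 (leaf 334 6)) (move 399 (leaf 366 6)))))))) (branch (move 431 (branch (move 399 (leaf 398 6)) (move 463 (leaf 430 6)))) (move 463 (branch (move 431 (leaf 430 6)) (move 398 (branch (move 366 (leaf 366 4)) (move 527 (leaf 398 4))))))))))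
theorem a5p171 : a5e171.Valid :=
  pos_of_chk [] forall_nil a5c171 a5e171 (by decide +kernel)

def a5e172 : Pos := ⟨1757388201760637010761024855349177998814943988137461664346325955586645469347331307875720866810098793963071642548458166249900120570712755318960840239399328284672, 417703914080339099319657620639424143617059362594070750345646583640792078137735765520161099012541853514198882700646068315530206802012478361317672668939891260310015508406946915837324698845184, 8⟩
def a5c172 : Cert := (move 465 (branch (move 466 (leaf 462 2)) (move 432 (branch (move 433 (branch (move 400 (leaf 400 7)) (move 528 (branch (move 401 (leaf 400 5)) (move 560 (leaf 432 5)))))) (branch (move 561 (branch (move 464 (leaf 432 7)) (move 560 (branch (move 592 (leaf 464 5)) (move 528 (branch (move 433 (leaf 432 5)) (move 593 (branch (move 625 (leaf 496 7)) (move 594 (branch (move 562 (leaf 465 4)) (move 626 (leaf 497 4)))))))))))) (move 464 (branch (move 400 (leaf 400 4)) (move 561 (leaf 432 7)))))))))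
theorem a5p172 : a5e172.Valid :=
  pos_of_chk [] forall_nil a5c172 a5e172 (by decide +kernel)

def a5e173 : Pos := ⟨358027097738640517032692623090518657273695223785960211349734993385514633981761279440357666348145767188378231076451882766633137434706214865207807705088, 417703914080339099319657620651725861024460949075525854235160526331974489865831444409114621718243331070490874952869101623923273943247332463569500274380152874081540717957843556991626905649152, 10⟩
def a5c173 : Cert := (move 529 (branch (move 497 (branch (move 530 (leaf 494 0)) (move 465 (branch (move 466 (leaf 462 2)) (move 464 (branch (move 493 (leaf 461 2)) (move 432 (branch (move 400 (leaf 400 4)) (move 561 (leaf 432 7)))))))))) (branch (move 493 (branch (move 528 (leaf 493 0)) (move 464 (branch (move 465 (leaf 461 2)) (move 492 (branch (move 463 (leaf 460 2)) (move 460 (branch (move 459 (leaf 459 3)) (move 461 (leaf 460 3)))))))))) (branch (move 528 (branch (move 493 (leaf 493 0)) (move 530 (branch (move 497 (leaf 494 0)) (move 531 (leaf 495 3)))))) (move 497 (branch (move 530 (leaf 494 0)) (ref 0)))))))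
theorem a5p173 : a5e173.Valid :=
  pos_of_chk [a5e172] (forall_cons a5p172 forall_nil) a5c173 a5e173 (by decide +kernel)

def a5e174 : Pos := ⟨943490606425058863568168617989317173692005555653716312349025087932700526309547802089022354228509399786916853461406336605589566910867547595523938416331487414664967487488, 3773962427896970703980067733466879808168231883606518423207130484170423724419086540324375275341129149796651843552434149228717317532141299765290774759806606184696661409792, 7⟩
def a5c174 : Cert := (move 431 (branch (move 463 (branch (move 399 (leaf 398 5)) (move 527 (leaf 430 5)))) (branch (move 528 (branch (move 529 (leaf 493 0)) (move 464 (branch (move 465 (leaf 461 2)) (move 432 (branch (move 399 (leaf 399 7)) (move 400 (branch (move 527 (leaf 399 5)) (move 401 (branch (move 369 (leaf 368 6)) (move 433 (leaf 400 6)))))))))))) (branch (move 463 (branch (move 399 (leaf 398 5)) (move 464 (branch (move 465 (leaf 461 2)) (move 528 (branch (move 529 (leaf 493 0)) (move 560 (leaf 431 7)))))))) (move 528 (branch (move 529 (leaf 493 0)) (move 463 (branch (move 527 (leaf 430 5)) (move 464 (branch (move 465 (leaf 461 2)) (move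 560 (leaf 431 7))))))))))))
theorem a5p174 : a5e174.Valid :=
  pos_of_chk [] forall_nil a5c174 a5e174 (by decide +kernel)

def a5e175 : Pos := ⟨943490606425058863235714884374865265018790977069663273452022380131451758627651022516758765531159640306584734709556695644952638054162227883650310798390002182686288904192, 417703914080339099319657620652371152005644847751622480176977502191573619757478815786466982740251377857811206012501009723165750827193179331160413046409368761599902045539738737271780604379136, 12⟩
def a5c175 : Cert := (move 495 (branch (move 462 (branch (move 463 (branch (move 431 (leaf 430 6)) (move 461 (branch (move 429 (leaf 429 7)) (move 460 (branch (move 459 (leaf 459 0)) (move 492 (branch (move 491 (leaf 459 1)) (move 464 (branch (move 493 (leaf 460 1)) (move 465 (branch (move 466 (leaf 462 1)) (move 433 (branch (move 432 (leaf 429 2)) (move 434 (leaf 430 2)))))))))))))))) (branch (move 429 (branch (move 461 (leaf 429 7)) (move 430 (branch (move 397 (leaf 397 7)) (move 398 (branch (move 527 (leaf 398 4)) (move 463 (branch (move 366 (leaf 366 4)) (move 464 (branch (move 465 (leaf 429 3)) (move 493 (branch (move 492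 (leaf 460 2)) (move 525 (leaf 397 5)))))))))))))) (branch (move 429 (branch (move 461 (leaf 429 7)) (move 430 (branch (move 397 (leaf 397 7)) (move 398 (branch (move 527 (leaf 398 4)) (move 399 (branch (move 367 (leaf 366 6)) (move 431 (leaf 398 6)))))))))) (branch (move 431 (branch (move 463 (leaf 430 6)) (move 430 (branch (move 399 (leaf 398 6)) (move 398 (branch (move 527 (leaf 398 4)) (move 397 (branch (move 365 (leaf 365 7)) (move 429 (leaf 397 7)))))))))) (move 431 (branch (move 463 (leaf 430 6)) (move 430 (branch (move 399 (leaf 398 6)) (move 398 (branch (move 527 (leaf 398 4)) (move 493 (branch (move 525 (leaf 397 5)) (move 366 (branch (move 461 (leaf 365 5)) (move 365 (branch (move 333 (leaf 333 7)) (move 397 (leaf 365 7))))))))))))))))))) (branch (move 462 (branch (move 461 (branch (move 429 (leaf 429 7)) (move 496 (branch (move 497 (leaf 461 3)) (move 460 (branch (move 459 (leaf 459 0)) (move 463 (leaf 460 0)))))))) (branch (move 429 (branch (move 461 (leaf 429 7)) (move 430 (branch (move 397 (leaf 397 7)) (move 398 (branch (move 527 (leaf 398 4)) (move 399 (branch (move 367 (leaf 366 6)) (move 431 (leaf 398 6))))))))))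 (ref 0)))) (branch (move 496 (branch (move 497 (branch (move 525 (leaf 493 1)) (move 530 (branch (move 529 (leaf 494 0)) (move 498 (branch (move 531 (leaf 495 0)) (move 466 (branch (move 465 (leaf 462 2)) (move 467 (leaf 463 2)))))))))) (branch (move 493 (branch (move 464 (branch (move 465 (leaf 461 2)) (move 463 (branch (move 492 (leaf 460 2)) (move 528 (branch (move 529 (leaf 493 0)) (move 431 (branch (move 399 (leaf 399 4)) (move 560 (leaf 431 7)))))))))) (move 525 (branch (move 524 (leaf 492 1)) (move 461 (branch (move 460 (leaf 460 3)) (move 429 (leaf 429 4)))))))) (branch (move 525 (branch (move 497 (leaf 493 1)) (move 524 (branch (move 493 (leaf 492 1)) (move 523 (leaf 491 2)))))) (ref 1))))) (branch (move 496 (branch (move 525 (branch (move 497 (leaf 493 1)) (move 524 (branch (move 493 (leaf 492 1)) (move 523 (leaf 491 2)))))) (branch (move 497 (branch (move 498 (branch (move 527 (leaf 494 1)) (move 466 (branch (move 465 (leaf 462 2)) (move 467 (leaf 463 2)))))) (branch (move 498 (branch (move 527 (leaf 494 1)) (move 530 (branch (move 529 (leaf 494 0)) (move 531 (leaf 495 0)))))) (move 529 (branch (move 530 (leaf 494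 0)) (ref 2)))))) (move 493 (branch (move 460 (branch (move 461 (leaf 460 3)) (move 492 (branch (move 459 (leaf 459 3)) (move 491 (branch (move 527 (leaf 491 0)) (move 523 (branch (move 522 (leaf 490 1)) (move 524 (leaf 491 1)))))))))) (branch (move 524 (branch (move 525 (leaf 492 1)) (move 492 (branch (move 523 (leaf 491 1)) (move 528 (branch (move 527 (leaf 492 0)) (move 529 (leaf 493 0)))))))) (move 461 (branch (move 460 (leaf 460 3)) (move 429 (branch (move 397 (leaf 397 4)) (move 525 (leaf 429 4)))))))))))) (move 496 (branch (move 525 (branch (move 497 (leaf 493 1)) (move 524 (branch (move 493 (leaf 492 1)) (move 523 (leaf 491 2)))))) (branch (move 497 (branch (move 498 (branch (move 527 (leaf 494 1)) (move 466 (branch (move 465 (leaf 462 2)) (move 467 (leaf 463 2)))))) (branch (move 498 (branch (move 527 (leaf 494 1)) (move 530 (branch (move 529 (leaf 494 0)) (move 531 (leaf 495 0)))))) (move 529 (branch (move 530 (leaf 494 0)) (ref 2)))))) (move 493 (branch (move 464 (branch (move 465 (leaf 461 2)) (move 463 (branch (move 492 (leaf 460 2)) (move 528 (branch (move 529 (leaf 493 0)) (move 431 (branch (move 399 (leaf 399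 4)) (move 560 (leaf 431 7)))))))))) (branch (move 464 (branch (move 465 (leaf 461 2)) (move 463 (branch (move 492 (leaf 460 2)) (move 431 (branch (move 399 (leaf 398 5)) (move 527 (leaf 430 5)))))))) (branch (ref 3) (move 524 (branch (move 525 (leaf 492 1)) (move 492 (branch (move 523 (leaf 491 1)) (move 528 (branch (move 527 (leaf 492 0)) (move 529 (leaf 493 0))))))))))))))))))))
theorem a5p175 : a5e175.Valid :=
  pos_of_chk [a5e171, a5e173, a5e172, a5e174] (forall_cons a5p171 (forall_cons a5p173 (forall_cons a5p172 (forall_cons a5p174 forall_nil)))) a5c175 a5e175 (by decide +kernel)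

def a5e176 : Pos := ⟨219673525482206608618061342603297206043140586878280996886583042043672375254239627649683187941524212107419249152905618533639786382624070036708583770523489533952, 186877568176424184370233787846670242559812864515949376428549056281801808555905941086120205227513592744583797300896334149611453239897716962765930796850950182397597111039374611486675734163365983944704, 11⟩
def a5c176 : Cert := (move 558 (branch (move 590 (branch (move 463 (leaf 462 6)) (move 621 (branch (move 589 (leaf 493 5)) (move 622 (branch (move 653 (leaf 525 5)) (move 623 (branch (move 591 (leaf 494 4)) (move 655 (leaf 526 4)))))))))) (branch (ref 0) (move 590 (branch (move 621 (branch (move 589 (leaf 493 5)) (move 622 (branch (move 653 (leaf 525 5)) (move 623 (branch (move 591 (leaf 494 4)) (move 655 (leaf 526 4)))))))) (move 493 (branch (move 461 (leaf 461 7)) (move 529 (branch (move 528 (leaf 493 0)) (move 497 (branch (move 530 (leaf 494 0)) (move 465 (branch (move 464 (leaf 461 2)) (move 466 (leaf 462 2)))))))))))))))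
theorem a5p176 : a5e176.Valid :=
  pos_of_chk [a5e173] (forall_cons a5p173 forall_nil) a5c176 a5e176 (by decide +kernel)

def a5e177 : Pos := ⟨219673525277619695624552475727472849991415639864740869008891492700966664748231265374391028261319831337050239330975200775667281944547991502590746704690456559616, 186877568176424184370233787846670242559812864518609006297857652897981173942658627379744806372859150830453998417437678275073695003876377481004031226647692990658295211046518035148910461607409736482816, 12⟩
def a5c177 : Cert := (move 496 (branch (ref 0) (branch (move 493 (branch (move 461 (branch (move 460 (leaf 460 3)) (move 429 (branch (move 397 (leaf 397 4)) (move 558 (branch (move 462 (leaf 429 7)) (move 590 (leaf 461 7)))))))) (move 465 (branch (move 464 (leaf 461 2)) (move 497 (branch (move 466 (leaf 462 2)) (move 529 (branch (move 528 (leaf 493 0)) (move 530 (leaf 494 0)))))))))) (branch (move 497 (branch (move 466 (branch (move 465 (leaf 462 2)) (move 498 (branch (move 467 (leaf 463 2)) (move 530 (branch (move 529 (leaf 494 0)) (move 531 (leaf 495 0)))))))) (branch (move 465 (branch (move 466 (leaf 462 2)) (move 433 (branch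 (move 401 (branch (move 528 (leaf 400 5)) (move 369 (branch (move 464 (leaf 368 5)) (move 368 (branch (move 336 (leaf 336 7)) (move 400 (leaf 368 7)))))))) (branch (move 529 (branch (move 530 (leaf 494 0)) (move 432 (branch (move 400 (leaf 400 7)) (move 464 (branch (move 561 (leaf 432 7)) (move 462 (branch (move 461 (leaf 461 3)) (move 434 (branch (move 463 (leaf 430 2)) (move 402 (leaf 401 6)))))))))))) (move 529 (branch (move 530 (leaf 494 0)) (move 528 (branch (move 401 (leaf 400 5)) (move 560 (leaf 432 5))))))))))) (move 462 (branch (move 461 (leaf 461 3)) (move 463 (branch (move 498 (leaf 462 3)) (move 431 (branch (move 399 (leaf 398 5)) (move 558 (leaf 430 6))))))))))) (branch (move 529 (branch (move 497 (branch (move 530 (leaf 494 0)) (move 465 (branch (move 466 (leaf 462 2)) (move 464 (branch (move 493 (leaf 461 2)) (move 432 (branch (move 400 (leaf 400 4)) (move 561 (leaf 432 7)))))))))) (branch (move 528 (branch (move 493 (leaf 493 0)) (move 530 (branch (move 497 (leaf 494 0)) (move 531 (leaf 495 3)))))) (branch (move 493 (branch (move 528 (leaf 493 0)) (move 464 (branch (move 465 (leaf 461 2)) (move 463 (branch (move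 492 (leaf 460 2)) (move 431 (branch (move 399 (leaf 398 5)) (move 558 (branch (move 462 (leaf 430 6)) (move 590 (leaf 462 6)))))))))))) (move 497 (branch (move 530 (leaf 494 0)) (move 466 (branch (move 465 (leaf 462 2)) (move 498 (branch (move 467 (leaf 463 2)) (move 463 (branch (move 462 (leaf 462 3)) (move 464 (branch (move 499 (leaf 463 3)) (move 561 (branch (move 593 (leaf 465 6)) (move 432 (branch (move 400 (leaf 400 4)) (move 528 (leaf 432 4)))))))))))))))))))) (branch (move 529 (branch (move 528 (branch (move 493 (leaf 493 0)) (move 530 (branch (move 497 (leaf 494 0)) (move 531 (leaf 495 3)))))) (branch (move 493 (branch (move 528 (leaf 493 0)) (move 461 (branch (move 460 (leaf 460 3)) (move 558 (branch (move 590 (leaf 461 7)) (move 429 (branch (move 397 (leaf 397 4)) (move 462 (leaf 429 7)))))))))) (move 497 (branch (move 530 (leaf 494 0)) (move 462 (branch (move 461 (leaf 461 3)) (move 463 (branch (move 498 (leaf 462 3)) (move 431 (branch (move 399 (leaf 398 5)) (move 558 (leaf 430 6))))))))))))) (branch (ref 1) (ref 2))))))))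
theorem a5p177 : a5e177.Valid :=
  pos_of_chk [a5e168, a5e167, a5e176] (forall_cons a5p168 (forall_cons a5p167 (forall_cons a5p176 forall_nil))) a5c177 a5e177 (by decide +kernel)

def a5e178 : Pos := ⟨219673525277619695624552475727472849991415639864740869008891492700966664748231265374391028261319831337050239330975200775667281944547991502590746704690456559616, 186877568176424184370233787846670242574407424344053075893691202548234146152762228154003705736322668284679391340244959060536705920049537946377229802571566014096776840947182422110199849968067042869248, 12⟩
def a5c178 : Cert := (move 496 (branch (ref 0) (branch (ref 1) (branch (move 558 (branch (move 590 (branch (move 463 (leaf 462 6)) (move 621 (branch (move 589 (leaf 493 5)) (move 622 (branch (move 653 (leaf 525 5)) (move 623 (branch (move 591 (leaf 494 4)) (move 655 (leaf 526 4)))))))))) (move 497 (branch (move 498 (branch (move 527 (leaf 494 1)) (move 466 (branch (move 465 (leaf 462 2)) (move 467 (leaf 463 2)))))) (branch (move 498 (branch (move 527 (leaf 494 1)) (move 530 (branch (move 529 (leaf 494 0)) (move 531 (leaf 495 0)))))) (move 529 (branch (move 530 (leaf 494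 0)) (ref 2)))))))) (branch (move 497 (branch (move 498 (branch (move 527 (leaf 494 1)) (move 466 (branch (move 465 (leaf 462 2)) (move 467 (leaf 463 2)))))) (branch (move 466 (branch (move 465 (leaf 462 2)) (move 498 (branch (move 467 (leaf 463 2)) (move 530 (branch (move 529 (leaf 494 0)) (move 531 (leaf 495 0)))))))) (branch (move 498 (branch (move 527 (leaf 494 1)) (move 530 (branch (move 529 (leaf 494 0)) (move 531 (leaf 495 0)))))) (move 465 (branch (move 466 (leaf 462 2)) (move 493 (branch (move 464 (leaf 461 2)) (move 529 (branch (move 530 (leaf 494 0)) (move 460 (branch (move 461 (leaf 460 3)) (move 492 (branch (move 459 (leaf 459 3)) (move 491 (branch (move 527 (leaf 491 0)) (move 523 (branch (move 522 (leaf 490 1)) (move 524 (leaf 491 1)))))))))))))))))))) (branch (move 558 (branch (move 590 (branch (move 463 (leaf 462 6)) (move 621 (branch (move 589 (leaf 493 5)) (move 622 (branch (move 653 (leaf 525 5)) (move 623 (branch (move 591 (leaf 494 4)) (move 655 (leaf 526 4)))))))))) (branch (move 493 (branch (move 464 (branch (move 465 (leaf 461 2)) (move 463 (branch (move 492 (leaf 460 2)) (move 528 (branch (move 529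 (leaf 493 0)) (move 431 (branch (move 399 (leaf 399 4)) (move 560 (leaf 431 7)))))))))) (branch (move 460 (branch (move 461 (leaf 460 3)) (move 492 (branch (move 459 (leaf 459 3)) (move 491 (branch (move 527 (leaf 491 0)) (move 523 (branch (move 522 (leaf 490 1)) (move 524 (leaf 491 1)))))))))) (ref 3)))) (move 493 (branch (move 590 (branch (move 461 (leaf 461 7)) (move 527 (branch (move 622 (leaf 494 6)) (move 528 (branch (move 492 (leaf 492 0)) (move 529 (leaf 493 0)))))))) (branch (move 528 (branch (move 529 (leaf 493 0)) (move 492 (branch (move 527 (leaf 492 0)) (move 523 (branch (move 524 (leaf 491 1)) (move 491 (branch (move 522 (leaf 490 1)) (move 459 (branch (move 458 (leaf 458 3)) (move 460 (leaf 459 3)))))))))))) (move 461 (branch (move 460 (leaf 460 3)) (move 590 (leaf 461 7)))))))))) (branch (move 558 (branch (move 590 (branch (move 463 (leaf 462 6)) (move 621 (branch (move 589 (leaf 493 5)) (move 622 (branch (move 653 (leaf 525 5)) (move 623 (branch (move 591 (leaf 494 4)) (move 655 (leaf 526 4)))))))))) (branch (move 493 (branch (move 464 (branch (move 465 (leaf 461 2)) (move 492 (branch (move 463 (leaf 460 2))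 (move 460 (branch (move 459 (leaf 459 3)) (move 461 (leaf 460 3)))))))) (branch (move 460 (branch (move 461 (leaf 460 3)) (move 492 (branch (move 459 (leaf 459 3)) (move 491 (branch (move 527 (leaf 491 0)) (move 523 (branch (move 522 (leaf 490 1)) (move 524 (leaf 491 1)))))))))) (move 497 (branch (move 498 (branch (move 527 (leaf 494 1)) (move 531 (branch (move 530 (leaf 495 0)) (move 499 (branch (move 532 (leaf 496 0)) (move 467 (branch (move 466 (leaf 463 2)) (move 468 (leaf 464 2)))))))))) (branch (move 465 (branch (move 464 (leaf 461 2)) (move 466 (leaf 462 2)))) (move 498 (branch (move 527 (leaf 494 1)) (move 464 (branch (move 465 (leaf 461 2)) (move 499 (branch (move 463 (leaf 463 3)) (move 531 (branch (move 530 (leaf 495 0)) (move 532 (leaf 496 0)))))))))))))))) (move 590 (branch (move 621 (branch (move 589 (leaf 493 5)) (move 622 (branch (move 653 (leaf 525 5)) (move 623 (branch (move 591 (leaf 494 4)) (move 655 (leaf 526 4)))))))) (move 493 (branch (move 461 (leaf 461 7)) (move 465 (branch (move 464 (leaf 461 2)) (move 497 (branch (move 466 (leaf 462 2)) (move 527 (branch (move 498 (leaf 494 1)) (move 492 (branch (move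 491 (leaf 491 0)) (move 528 (leaf 492 0))))))))))))))))) (move 463 (branch (move 431 (branch (move 399 (leaf 398 5)) (move 558 (branch (move 527 (leaf 430 5)) (move 590 (leaf 462 6)))))) (branch (move 493 (branch (move 492 (branch (move 464 (leaf 460 2)) (move 460 (branch (move 459 (leaf 459 3)) (move 461 (leaf 460 3)))))) (branch (move 529 (branch (move 528 (leaf 493 0)) (move 497 (branch (move 530 (leaf 494 0)) (move 498 (branch (move 527 (leaf 494 1)) (move 499 (branch (move 464 (leaf 463 3)) (move 467 (branch (move 466 (leaf 463 2)) (move 468 (leaf 464 2)))))))))))) (move 528 (branch (move 529 (leaf 493 0)) (move 492 (branch (move 527 (leaf 492 0)) (move 460 (branch (move 459 (leaf 459 3)) (move 461 (leaf 460 3))))))))))) (move 528 (branch (move 493 (branch (move 529 (leaf 493 0)) (move 492 (branch (move 464 (leaf 460 2)) (move 460 (branch (move 459 (leaf 459 3)) (move 461 (leaf 460 3)))))))) (branch (move 431 (branch (move 399 (leaf 399 4)) (move 560 (branch (move 464 (leaf 431 7)) (move 592 (leaf 463 7)))))) (move 431 (branch (move 399 (leaf 399 4)) (move 529 (branch (move 493 (leaf 493 0)) (move 530 (branch (move 497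 (leaf 494 0)) (move 531 (leaf 495 3)))))))))))))))))))))
theorem a5p178 : a5e178.Valid :=
  pos_of_chk [a5e166, a5e176, a5e172, a5e174] (forall_cons a5p166 (forall_cons a5p176 (forall_cons a5p172 (forall_cons a5p174 forall_nil)))) a5c178 a5e178 (by decide +kernel)

def a5e179 : Pos := ⟨943490606425058863542595253865128565332527511147250693972332571947989082641709588275771308944097879826891305865110210377848264691120984540764428599566757781435838365696, 25921475970816363039213494790683647253171015971818456021832263123405338045317631201610918184403820231599377232381122571835726759400840232468407993514208878657536, 11⟩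
def a5c179 : Cert := (move 497 (branch (move 498 (branch (move 527 (leaf 494 1)) (move 531 (branch (move 530 (leaf 495 0)) (move 499 (branch (move 532 (leaf 496 0)) (move 467 (branch (move 466 (leaf 463 2)) (move 468 (leaf 464 2)))))))))) (branch (move 498 (branch (move 527 (leaf 494 1)) (move 531 (branch (move 530 (leaf 495 0)) (move 499 (branch (move 532 (leaf 496 0)) (move 464 (branch (move 463 (leaf 463 3)) (move 465 (branch (move 493 (leaf 461 2)) (move 500 (leaf 464 3)))))))))))) (branch (move 466 (branch (move 465 (leaf 462 2)) (move 498 (branch (move 467 (leaf 463 2)) (move 463 (branch (move 462 (leaf 462 3)) (move 431 (branch (move 399 (leaf 398 5)) (move 499 (branch (move 464 (leaf 463 3)) (move 531 (branch (move 530 (leaf 495 0)) (move 532 (leaf 496 0)))))))))))))) (move 431 (branch (move 463 (branch (move 527 (leaf 430 5)) (move 462 (leaf 430 6)))) (branch (move 463 (branch (move 399 (leaf 398 5)) (move 527 (leaf 430 5)))) (branch (move 463 (branch (move 399 (leaf 398 5)) (move 462 (leaf 430 6)))) (move 430 (branch (move 465 (branch (move 466 (leaf 462 2)) (move 464 (branch (move 493 (leaf 461 2)) (move 432 (branch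 (move 429 (leaf 429 0)) (move 400 (branch (move 368 (leaf 368 4)) (move 527 (leaf 399 5)))))))))) (branch (move 462 (branch (move 399 (leaf 398 6)) (move 398 (branch (move 527 (leaf 398 4)) (move 397 (branch (move 365 (leaf 365 7)) (move 429 (leaf 397 7)))))))) (branch (move 462 (branch (move 399 (leaf 398 6)) (move 465 (branch (move 466 (leaf 462 2)) (move 398 (branch (move 527 (leaf 398 4)) (move 397 (branch (move 365 (leaf 365 7)) (move 433 (branch (move 432 (leaf 397 3)) (move 401 (branch (move 528 (leaf 400 5)) (move 464 (branch (move 493 (leaf 461 2)) (move 369 (leaf 368 5)))))))))))))))) (move 465 (branch (move 466 (leaf 462 2)) (move 462 (branch (move 399 (leaf 398 6)) (move 429 (branch (move 397 (leaf 397 7)) (move 464 (branch (move 432 (leaf 429 0)) (move 493 (leaf 461 2))))))))))))))))))))))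
theorem a5p179 : a5e179.Valid :=
  pos_of_chk [] forall_nil a5c179 a5e179 (by decide +kernel)

def a5e180 : Pos := ⟨943490606425058863338008340871619698456703155095525746958792444070297533299003877769762946668805720146686925094741200555917846933148480102688350065448920715602805391360, 417703914080339099320129365969423113524868233471193630245804257394399960766107157876904064557362273549474038162156874876711592547194444145233538817671082374260978180753079050745360716660736, 12⟩
def a5c180 : Cert := (move 496 (branch (move 497 (branch (move 498 (branch (move 527 (leaf 494 1)) (move 466 (branch (move 465 (leaf 462 2)) (move 467 (leaf 463 2)))))) (branch (move 498 (branch (move 527 (leaf 494 1)) (move 530 (branch (move 529 (leaf 494 0)) (move 531 (leaf 495 0)))))) (move 529 (branch (move 530 (leaf 494 0)) (ref 0)))))) (branch (move 497 (branch (move 498 (branch (move 527 (leaf 494 1)) (move 466 (branch (move 465 (leaf 462 2)) (move 467 (leaf 463 2)))))) (branch (move 498 (branch (move 527 (leaf 494 1)) (move 530 (branch (move 529 (leaf 494 0)) (move 531 (leaf 495 0)))))) (move 529 (branch (move 530 (leaf 494 0)) (move 528 (branch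 (move 493 (leaf 493 0)) (move 465 (branch (move 466 (leaf 462 2)) (move 560 (branch (move 433 (leaf 432 5)) (move 592 (leaf 464 6))))))))))))) (branch (move 493 (branch (move 464 (branch (move 465 (leaf 461 2)) (move 463 (branch (move 492 (leaf 460 2)) (move 528 (branch (move 529 (leaf 493 0)) (move 431 (branch (move 399 (leaf 399 4)) (move 560 (leaf 431 7)))))))))) (branch (move 464 (branch (move 465 (leaf 461 2)) (move 463 (branch (move 492 (leaf 460 2)) (move 431 (branch (move 399 (leaf 398 5)) (move 527 (leaf 430 5)))))))) (branch (ref 1) (move 528 (branch (move 529 (leaf 493 0)) (move 492 (branch (move 527 (leaf 492 0)) (move 523 (branch (move 524 (leaf 491 1)) (move 491 (branch (move 522 (leaf 490 1)) (move 459 (branch (move 458 (leaf 458 3)) (move 460 (leaf 459 3)))))))))))))))) (branch (move 497 (branch (move 498 (branch (move 527 (leaf 494 1)) (move 466 (branch (move 465 (leaf 462 2)) (move 467 (leaf 463 2)))))) (branch (move 498 (branch (move 527 (leaf 494 1)) (move 530 (branch (move 529 (leaf 494 0)) (move 531 (leaf 495 0)))))) (move 465 (branch (move 466 (leaf 462 2)) (move 464 (branch (move 493 (leaf 461 2)) (move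 529 (branch (move 530 (leaf 494 0)) (move 432 (branch (move 400 (leaf 400 4)) (move 561 (leaf 432 7))))))))))))) (branch (move 497 (branch (move 498 (branch (move 527 (leaf 494 1)) (move 531 (branch (move 530 (leaf 495 0)) (move 499 (branch (move 532 (leaf 496 0)) (move 467 (branch (move 466 (leaf 463 2)) (move 468 (leaf 464 2)))))))))) (branch (move 529 (branch (move 530 (leaf 494 0)) (move 528 (branch (move 493 (leaf 493 0)) (move 527 (branch (move 557 (leaf 525 1)) (move 463 (branch (move 431 (leaf 430 5)) (move 561 (branch (move 562 (leaf 526 0)) (move 593 (branch (move 464 (leaf 464 7)) (move 625 (leaf 496 7)))))))))))))) (branch (move 530 (branch (move 529 (leaf 494 0)) (move 498 (branch (move 531 (leaf 495 0)) (move 463 (branch (move 462 (leaf 462 3)) (move 431 (branch (move 399 (leaf 398 5)) (move 467 (branch (move 466 (leaf 463 2)) (move 499 (branch (move 468 (leaf 464 2)) (move 464 (leaf 463 3)))))))))))))) (move 498 (branch (move 527 (leaf 494 1)) (move 463 (branch (move 462 (leaf 462 3)) (move 499 (branch (move 464 (leaf 463 3)) (move 467 (branch (move 466 (leaf 463 2)) (move 468 (leaf 464 2)))))))))))))) (branch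 (move 497 (branch (move 466 (branch (move 465 (leaf 462 2)) (move 498 (branch (move 467 (leaf 463 2)) (move 530 (branch (move 529 (leaf 494 0)) (move 531 (leaf 495 0)))))))) (branch (move 530 (branch (move 529 (leaf 494 0)) (move 498 (branch (move 531 (leaf 495 0)) (move 463 (branch (move 462 (leaf 462 3)) (move 431 (branch (move 399 (leaf 398 5)) (move 467 (branch (move 466 (leaf 463 2)) (move 499 (branch (move 468 (leaf 464 2)) (move 464 (leaf 463 3)))))))))))))) (branch (move 466 (branch (move 465 (leaf 462 2)) (move 498 (branch (move 467 (leaf 463 2)) (move 463 (branch (move 462 (leaf 462 3)) (move 431 (branch (move 399 (leaf 398 5)) (move 499 (branch (move 464 (leaf 463 3)) (move 531 (branch (move 530 (leaf 495 0)) (move 532 (leaf 496 0)))))))))))))) (branch (move 529 (branch (move 530 (leaf 494 0)) (move 493 (branch (move 528 (leaf 493 0)) (move 464 (branch (move 465 (leaf 461 2)) (move 463 (branch (move 492 (leaf 460 2)) (move 431 (branch (move 399 (leaf 398 5)) (move 462 (leaf 430 6)))))))))))) (move 466 (branch (move 465 (leaf 462 2)) (move 498 (branch (move 467 (leaf 463 2)) (move 463 (branch (move 462 (leaf 462 3))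 (move 464 (branch (move 499 (leaf 463 3)) (move 431 (branch (move 399 (leaf 398 5)) (move 528 (branch (move 560 (leaf 431 7)) (move 529 (branch (move 493 (leaf 493 0)) (move 561 (branch (move 432 (leaf 432 4)) (move 593 (leaf 465 6))))))))))))))))))))))) (ref 2))))))))
theorem a5p180 : a5e180.Valid :=
  pos_of_chk [a5e172, a5e174, a5e179] (forall_cons a5p172 (forall_cons a5p174 (forall_cons a5p179 forall_nil))) a5c180 a5e180 (by decide +kernel)

def a5e181 : Pos := ⟨219673525277619695624552475727472849991415639864740869008891492700966664748231265374391028261319831337050239330975200775667281944547991502590746704690456559616, 186877567758720270306103733718779554935877345399476918148976354519458770290821357220769999489449175727775962946562751404526559104647445957466881375559747241889254043128246231677352982945334397239296, 11⟩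
def a5c181 : Cert := (move 558 (branch (move 590 (branch (move 463 (leaf 462 6)) (move 622 (branch (move 527 (leaf 494 6)) (move 623 (branch (move 591 (leaf 494 4)) (move 655 (leaf 526 4)))))))) (branch (move 463 (branch (move 590 (leaf 462 6)) (move 431 (branch (move 399 (leaf 398 5)) (move 462 (leaf 430 6)))))) (branch (ref 0) (move 462 (branch (move 429 (branch (move 461 (leaf 429 7)) (move 430 (branch (move 397 (leaf 397 7)) (move 398 (branch (move 527 (leaf 398 4)) (move 399 (branch (move 367 (leaf 366 6)) (move 431 (leaf 398 6)))))))))) (branch (ref 1) (branch (move 429 (branch (move 461 (leaf 429 7)) (move 430 (branch (move 397 (leaf 397 7)) (move 398 (branch (move 527 (leaf 398 4)) (move 366 (branch (move 463 (leaf 366 4)) (move 367 (branch (move 335 (leaf 334 6)) (move 399 (leaf 366 6)))))))))))) (branch (move 431 (branch (move 463 (leaf 430 6)) (move 430 (branch (move 399 (leaf 398 6)) (move 429 (branch (move 397 (leaf 397 7)) (move 461 (leaf 429 7)))))))) (move 493 (branch (move 463 (branch (move 431 (leaf 430 6)) (move 464 (branch (move 465 (leaf 461 1)) (move 492 (leaf 460 2)))))) (branch (move 461 (branch (move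 429 (leaf 429 7)) (move 496 (branch (move 497 (leaf 461 3)) (move 528 (branch (move 529 (leaf 493 0)) (move 492 (branch (move 527 (leaf 492 0)) (move 491 (branch (move 490 (leaf 458 2)) (move 523 (branch (move 522 (leaf 490 1)) (move 524 (leaf 491 1)))))))))))))) (move 463 (branch (move 431 (leaf 430 6)) (move 464 (branch (move 465 (leaf 461 1)) (move 461 (branch (move 429 (leaf 429 7)) (move 496 (branch (move 497 (leaf 461 0)) (move 528 (branch (move 529 (leaf 493 0)) (move 432 (branch (move 433 (leaf 429 2)) (move 400 (branch (move 368 (leaf 367 5)) (move 527 (leaf 399 5))))))))))))))))))))))))))))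
theorem a5p181 : a5e181.Valid :=
  pos_of_chk [a5e152, a5e171] (forall_cons a5p152 (forall_cons a5p171 forall_nil)) a5c181 a5e181 (by decide +kernel)

def a5e182 : Pos := ⟨1098367626004498016307567355880630475540425533686108324732014008287265698878163242195699330048430918722184883749342100212042919193975639414252864263334609813504, 4052261298678835292788112859958852458180380319691500899688975227987456855213917969526016932935401355212898584251587279346943115114587593039650081506800111109172658802497081573376, 13⟩
def a5c182 : Cert := (move 400 (branch (move 432 (branch (move 367 (leaf 367 7)) (move 401 (branch (move 369 (leaf 368 6)) (move 433 (leaf 400 6)))))) (branch (move 527 (branch (move 492 (leaf 492 0)) (move 432 (leaf 399 5)))) (move 461 (branch (move 429 (branch (move 397 (leaf 397 4)) (move 558 (branch (move 462 (leaf 429 7)) (move 590 (leaf 461 7)))))) (branch (move 492 (branch (move 527 (leaf 492 0)) (move 523 (branch (move 524 (leaf 491 1)) (move 491 (branch (move 522 (leaf 490 1)) (move 490 (branch (move 462 (leaf 458 2)) (move 458 (branch (move 457 (leaf 457 3)) (move 459 (leaf 458 3)))))))))))) (move 397 (branch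 (move 429 (leaf 397 4)) (move 398 (branch (move 365 (branch (move 364 (leaf 364 3)) (move 401 (branch (move 366 (leaf 365 3)) (move 369 (branch (move 368 (leaf 365 2)) (move 370 (leaf 366 2)))))))) (branch (move 492 (branch (move 527 (leaf 492 0)) (move 368 (branch (move 369 (leaf 365 2)) (move 396 (branch (move 367 (leaf 364 2)) (move 523 (branch (move 524 (leaf 491 1)) (move 491 (branch (move 522 (leaf 490 1)) (move 427 (branch (move 428 (leaf 395 1)) (move 459 (branch (move 458 (leaf 458 3)) (move 426 (branch (move 395 (leaf 394 1)) (move 394 (leaf 394 7)))))))))))))))))) (branch (move 492 (branch (move 527 (leaf 492 0)) (move 364 (branch (move 365 (leaf 364 3)) (move 396 (branch (move 363 (leaf 363 3)) (move 427 (branch (move 428 (leaf 395 1)) (move 395 (branch (move 426 (leaf 394 1)) (move 367 (branch (move 366 (leaf 363 2)) (move 368 (leaf 364 2)))))))))))))) (move 492 (branch (move 527 (leaf 492 0)) (move 365 (branch (move 364 (leaf 364 3)) (move 401 (branch (move 366 (leaf 365 3)) (move 524 (branch (move 523 (leaf 491 1)) (move 434 (branch (move 433 (leaf 398 0)) (move 402 (branch (move 435 (leaf 399 0)) (move 370 (branch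 (move 369 (leaf 366 2)) (move 371 (leaf 367 2))))))))))))))))))))))))))))
theorem a5p182 : a5e182.Valid :=
  pos_of_chk [] forall_nil a5c182 a5e182 (by decide +kernel)

def a5e183 : Pos := ⟨219673525303193059748741084086950894497881258241433384993602936368804878561482310658802548221345378933346365558716502995413844999307501319355476337919585681408, 60915154150561344749295622278795034949329294202683999822183504572927341637089300717779204620243453494160064966155146077314646881217615348955668191389772213197476830518624115020679752974336, 17⟩
def a5c183 : Cert := (move 496 (branch (move 465 (branch (move 464 (leaf 461 2)) (move 497 (branch (move 466 (leaf 462 2)) (move 529 (branch (move 528 (leaf 493 0)) (move 530 (leaf 494 0)))))))) (branch (move 465 (branch (move 464 (leaf 461 2)) (move 497 (branch (move 466 (leaf 462 2)) (move 498 (branch (move 527 (leaf 494 1)) (move 530 (branch (move 529 (leaf 494 0)) (move 531 (leaf 495 0)))))))))) (branch (move 465 (branch (move 464 (leaf 461 2)) (move 497 (branch (move 466 (leaf 462 2)) (move 527 (branch (move 498 (leaf 494 1)) (move 492 (branch (move 491 (leaf 491 0)) (move 528 (leaf 492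 0)))))))))) (branch (move 558 (branch (move 590 (branch (move 461 (leaf 461 7)) (move 589 (branch (move 621 (leaf 493 5)) (move 591 (branch (move 623 (leaf 494 4)) (move 557 (branch (move 462 (leaf 461 5)) (move 556 (branch (move 555 (leaf 555 0)) (move 592 (leaf 556 3)))))))))))) (branch (move 529 (branch (move 528 (leaf 493 0)) (move 497 (branch (move 530 (leaf 494 0)) (move 527 (branch (move 498 (leaf 494 1)) (move 590 (branch (move 622 (leaf 494 6)) (move 589 (branch (move 621 (leaf 493 5)) (move 591 (branch (move 623 (leaf 494 4)) (move 557 (branch (move 462 (leaf 461 5)) (move 556 (branch (move 555 (leaf 555 0)) (move 592 (leaf 556 3)))))))))))))))))) (branch (move 497 (branch (move 529 (branch (move 528 (leaf 493 0)) (move 530 (leaf 494 0)))) (branch (move 527 (branch (move 498 (leaf 494 1)) (move 492 (branch (move 491 (leaf 491 0)) (move 528 (leaf 492 0)))))) (move 461 (branch (move 462 (leaf 461 3)) (move 498 (branch (move 527 (leaf 494 1)) (move 530 (branch (move 529 (leaf 494 0)) (move 531 (leaf 495 0))))))))))) (move 590 (branch (move 461 (leaf 461 7)) (move 527 (branch (move 622 (leaf 494 6)) (move 528 (branch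 (move 492 (leaf 492 0)) (move 529 (leaf 493 0)))))))))))) (move 528 (branch (move 529 (leaf 493 0)) (move 464 (branch (move 465 (leaf 461 2)) (move 399 (branch (move 432 (branch (move 431 (leaf 399 7)) (move 400 (branch (move 367 (leaf 367 7)) (move 401 (branch (move 369 (leaf 368 6)) (move 433 (leaf 400 6)))))))) (branch (move 492 (branch (move 527 (leaf 492 0)) (move 523 (branch (move 524 (leaf 491 1)) (move 491 (branch (move 522 (leaf 490 1)) (move 458 (branch (move 459 (leaf 458 3)) (move 490 (branch (move 457 (leaf 457 3)) (move 462 (branch (move 461 (leaf 458 2)) (move 430 (branch (move 431 (leaf 398 6)) (move 398 (branch (move 367 (leaf 366 6)) (move 397 (branch (move 365 (leaf 365 7)) (move 429 (leaf 397 7)))))))))))))))))))) (branch (move 492 (branch (move 527 (leaf 492 0)) (move 431 (branch (move 432 (leaf 399 7)) (move 523 (branch (move 524 (leaf 491 1)) (move 491 (branch (move 522 (leaf 490 1)) (move 458 (branch (move 459 (leaf 458 3)) (move 490 (branch (move 457 (leaf 457 3)) (move 462 (branch (move 461 (leaf 458 2)) (move 430 (leaf 398 6)))))))))))))))) (ref 0))))))))))))))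
theorem a5p183 : a5e183.Valid :=
  pos_of_chk [a5e182] (forall_cons a5p182 forall_nil) a5c183 a5e183 (by decide +kernel)

def a5e184 : Pos := ⟨219673525175326239127798042289560671965553166357970805070045718029613809495227084236744948421217640951865734420009991896681029725509952235531828171773940072448, 186877568176424184371246853171929633026348954844331271583586984920760981763317555947401723724933784425845406840992346754615932099433798403355883003795727135017347226906115717542975936287913277390848, 19⟩
def a5c184 : Cert := (move 495 (branch (move 558 (branch (move 590 (branch (move 463 (leaf 462 6)) (move 622 (branch (move 527 (leaf 494 6)) (move 623 (branch (move 591 (leaf 494 4)) (move 655 (leaf 526 4)))))))) (branch (move 463 (branch (move 590 (leaf 462 6)) (move 431 (branch (move 399 (leaf 398 5)) (move 462 (leaf 430 6)))))) (branch (ref 0) (move 462 (branch (move 461 (branch (move 429 (leaf 429 7)) (move 496 (branch (move 497 (leaf 461 3)) (move 460 (branch (move 459 (leaf 459 0)) (move 463 (leaf 460 0)))))))) (branch (move 429 (branch (move 461 (leaf 429 7)) (move 430 (branch (move 397 (leaf 397 7)) (move 398 (branch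 (move 527 (leaf 398 4)) (move 399 (branch (move 367 (leaf 366 6)) (move 431 (leaf 398 6)))))))))) (ref 1)))))))) (branch (ref 2) (branch (ref 3) (branch (ref 4) (branch (move 558 (branch (move 590 (branch (move 463 (leaf 462 6)) (move 622 (branch (move 527 (leaf 494 6)) (move 623 (branch (move 591 (leaf 494 4)) (move 655 (leaf 526 4)))))))) (branch (move 463 (branch (move 590 (leaf 462 6)) (move 431 (branch (move 399 (leaf 398 5)) (move 462 (leaf 430 6)))))) (branch (ref 0) (move 462 (branch (move 463 (branch (move 431 (leaf 430 6)) (move 461 (branch (move 429 (leaf 429 7)) (move 460 (branch (move 459 (leaf 459 0)) (move 492 (branch (move 491 (leaf 459 1)) (move 464 (branch (move 493 (leaf 460 1)) (move 465 (branch (move 466 (leaf 462 1)) (move 433 (branch (move 432 (leaf 429 2)) (move 434 (leaf 430 2)))))))))))))))) (branch (move 429 (branch (move 461 (leaf 429 7)) (move 430 (branch (move 397 (leaf 397 7)) (move 398 (branch (move 527 (leaf 398 4)) (move 399 (branch (move 367 (leaf 366 6)) (move 431 (leaf 398 6)))))))))) (branch (ref 1) (move 429 (branch (move 461 (leaf 429 7)) (move 430 (branch (move 397 (leaf 397 7)) (move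 398 (branch (move 527 (leaf 398 4)) (move 366 (branch (move 463 (leaf 366 4)) (move 367 (branch (move 335 (leaf 334 6)) (move 399 (leaf 366 6)))))))))))))))))))) (branch (ref 5) (branch (move 558 (branch (move 590 (branch (move 463 (leaf 462 6)) (move 622 (branch (move 527 (leaf 494 6)) (move 623 (branch (move 591 (leaf 494 4)) (move 655 (leaf 526 4)))))))) (branch (move 463 (branch (move 590 (leaf 462 6)) (move 431 (branch (move 399 (leaf 398 5)) (move 462 (leaf 430 6)))))) (branch (ref 0) (ref 6))))) (branch (ref 7) (move 493 (branch (move 496 (branch (move 461 (branch (move 460 (leaf 460 3)) (move 429 (branch (move 397 (leaf 397 4)) (move 558 (branch (move 462 (leaf 429 7)) (move 590 (leaf 461 7)))))))) (move 465 (branch (move 464 (leaf 461 2)) (move 497 (branch (move 466 (leaf 462 2)) (move 529 (branch (move 528 (leaf 493 0)) (move 530 (leaf 494 0)))))))))) (branch (move 496 (branch (move 465 (branch (move 464 (leaf 461 2)) (move 497 (branch (move 466 (leaf 462 2)) (move 529 (branch (move 528 (leaf 493 0)) (move 530 (leaf 494 0)))))))) (branch (move 465 (branch (move 464 (leaf 461 2)) (move 497 (branch (move 466 (leaf 462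 2)) (move 498 (branch (move 527 (leaf 494 1)) (move 530 (branch (move 529 (leaf 494 0)) (move 531 (leaf 495 0)))))))))) (branch (move 528 (branch (move 529 (leaf 493 0)) (move 492 (branch (move 527 (leaf 492 0)) (move 523 (branch (move 524 (leaf 491 1)) (move 491 (branch (move 522 (leaf 490 1)) (move 459 (branch (move 458 (leaf 458 3)) (move 460 (leaf 459 3)))))))))))) (move 465 (branch (move 464 (leaf 461 2)) (move 497 (branch (move 466 (leaf 462 2)) (move 527 (branch (move 498 (leaf 494 1)) (move 492 (branch (move 491 (leaf 491 0)) (move 528 (leaf 492 0)))))))))))))) (branch (move 496 (branch (move 461 (branch (move 460 (leaf 460 3)) (move 429 (branch (move 397 (leaf 397 4)) (move 558 (branch (move 462 (leaf 429 7)) (move 590 (leaf 461 7)))))))) (move 465 (branch (move 464 (leaf 461 2)) (move 497 (branch (move 466 (leaf 462 2)) (move 498 (branch (move 527 (leaf 494 1)) (move 530 (branch (move 529 (leaf 494 0)) (move 531 (leaf 495 0)))))))))))) (branch (ref 8) (ref 9)))))))))))))))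
theorem a5p184 : a5e184.Valid :=
  pos_of_chk [a5e152, a5e171, a5e161, a5e177, a5e154, a5e178, a5e180, a5e181, a5e153, a5e183] (forall_cons a5p152 (forall_cons a5p171 (forall_cons a5p161 (forall_cons a5p177 (forall_cons a5p154 (forall_cons a5p178 (forall_cons a5p180 (forall_cons a5p181 (forall_cons a5p153 (forall_cons a5p183 forall_nil)))))))))) a5c184 a5e184 (by decide +kernel)

def a5e185 : Pos := ⟨219673525124179510879420825570604582952621929604585773100622830693937381868724993667921908501166545759273481964527387457187903615990932602002368905315681828864, 3511519558274615500784721431521136102760477081717445798585507214367155236015984721232968673319919701621376967046523564409124292080982064813399281992288236922157936688893609210131987881566382561319608431673344, 20⟩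
def a5c185 : Cert := (move 494 (branch (ref 0) (branch (ref 1) (branch (ref 2) (branch (ref 3) (branch (ref 4) (branch (ref 5) (branch (ref 6) (branch (ref 7) (branch (ref 8) (branch (move 462 (branch (move 430 (branch (move 399 (branch (move 431 (leaf 398 6)) (move 398 (branch (move 367 (leaf 366 6)) (move 495 (branch (move 527 (leaf 398 4)) (move 366 (branch (move 463 (leaf 366 4)) (move 365 (branch (move 333 (leaf 333 7)) (move 397 (leaf 365 7)))))))))))) (branch (move 399 (branch (move 431 (leaf 398 6)) (move 398 (branch (move 367 (leaf 366 6)) (move 495 (branch (move 527 (leaf 398 4)) (move 366 (branch (move 463 (leaf 366 4)) (move 461 (branch (move 493 (leaf 365 5)) (move 334 (branch (move 429 (leaf 333 5)) (move 333 (branch (move 301 (leaf 301 7)) (move 365 (leaf 333 7)))))))))))))))) (branch (ref 9) (branch (move 397 (branch (move 429 (leaf 397 7)) (move 398 (branch (move 365 (leaf 365 7)) (move 399 (branch (move 367 (leaf 366 6)) (move 431 (leaf 398 6)))))))) (ref 10)))))) (branch (ref 11) (branch (ref 12) (branch (ref 13) (ref 14)))))) (branch (ref 15) (branch (ref 16) (branch (move 558 (branch (ref 17) (branch (move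 590 (branch (move 621 (branch (move 589 (leaf 493 5)) (move 622 (branch (move 653 (leaf 525 5)) (move 623 (branch (move 591 (leaf 494 4)) (move 655 (leaf 526 4)))))))) (move 461 (branch (move 493 (leaf 461 7)) (move 462 (branch (move 429 (leaf 429 7)) (move 463 (branch (move 431 (leaf 430 6)) (move 495 (leaf 462 6)))))))))) (branch (ref 18) (branch (move 590 (branch (move 495 (branch (move 463 (leaf 462 6)) (move 622 (branch (move 527 (leaf 494 6)) (move 623 (branch (move 591 (leaf 494 4)) (move 655 (leaf 526 4)))))))) (branch (move 493 (branch (move 461 (leaf 461 7)) (move 622 (branch (move 525 (leaf 493 7)) (move 623 (branch (move 591 (leaf 494 4)) (move 655 (leaf 526 4)))))))) (move 493 (branch (move 461 (leaf 461 7)) (move 528 (branch (move 495 (branch (move 463 (leaf 462 6)) (move 496 (branch (move 529 (leaf 493 0)) (move 525 (branch (move 524 (leaf 492 1)) (move 497 (leaf 493 1)))))))) (branch (move 495 (branch (move 463 (leaf 462 6)) (move 492 (branch (move 527 (leaf 492 0)) (move 524 (branch (move 523 (leaf 491 1)) (move 525 (branch (move 496 (leaf 492 1)) (move 460 (branch (move 459 (leaf 459 3)) (move 428 (branch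 (move 396 (leaf 396 4)) (move 557 (leaf 428 4)))))))))))))) (branch (move 527 (branch (move 529 (leaf 493 3)) (move 492 (branch (move 491 (leaf 491 0)) (move 525 (leaf 492 3)))))) (move 527 (branch (move 529 (leaf 493 3)) (move 495 (branch (move 492 (leaf 492 0)) (move 463 (leaf 462 6))))))))))))))) (ref 19)))))) (branch (ref 20) (branch (ref 21) (branch (move 462 (branch (ref 11) (branch (ref 22) (branch (ref 23) (branch (move 430 (branch (move 399 (branch (move 431 (leaf 398 6)) (move 398 (branch (move 367 (leaf 366 6)) (move 495 (branch (move 527 (leaf 398 4)) (move 366 (branch (move 463 (leaf 366 4)) (move 365 (branch (move 333 (leaf 333 7)) (move 397 (leaf 365 7)))))))))))) (branch (move 399 (branch (move 431 (leaf 398 6)) (move 398 (branch (move 367 (leaf 366 6)) (move 495 (branch (move 527 (leaf 398 4)) (move 366 (branch (move 463 (leaf 366 4)) (move 461 (branch (move 493 (leaf 365 5)) (move 334 (branch (move 429 (leaf 333 5)) (move 333 (branch (move 301 (leaf 301 7)) (move 365 (leaf 333 7)))))))))))))))) (branch (ref 9) (branch (move 397 (branch (move 429 (leaf 397 7)) (move 398 (branch (move 365 (leaf 365 7)) (move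 399 (branch (move 367 (leaf 366 6)) (move 431 (leaf 398 6)))))))) (move 431 (branch (move 399 (leaf 398 6)) (move 432 (branch (move 433 (branch (move 461 (leaf 429 1)) (move 434 (branch (move 463 (leaf 430 1)) (move 466 (branch (move 465 (leaf 430 0)) (move 467 (leaf 431 0)))))))) (branch (move 429 (branch (move 397 (leaf 397 7)) (move 464 (branch (move 465 (leaf 429 0)) (move 463 (branch (move 428 (leaf 428 0)) (move 400 (branch (move 401 (leaf 397 2)) (move 495 (branch (move 368 (leaf 367 5)) (move 527 (leaf 399 6)))))))))))) (move 429 (branch (move 397 (leaf 397 7)) (move 433 (branch (move 461 (leaf 429 1)) (move 401 (branch (move 400 (leaf 397 2)) (move 402 (leaf 398 2)))))))))))))))))) (branch (ref 13) (ref 24))))))) (branch (move 558 (branch (ref 17) (branch (move 590 (branch (move 621 (branch (move 589 (leaf 493 5)) (move 622 (branch (move 653 (leaf 525 5)) (move 623 (branch (move 591 (leaf 494 4)) (move 655 (leaf 526 4)))))))) (move 461 (branch (move 493 (leaf 461 7)) (move 462 (branch (move 429 (leaf 429 7)) (move 463 (branch (move 431 (leaf 430 6)) (move 495 (leaf 462 6)))))))))) (branch (ref 18) (ref 25))))) (ref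 26)))))))))))))))))))
theorem a5p185 : a5e185.Valid :=
  pos_of_chk [a5e13, a5e50, a5e52, a5e73, a5e89, a5e99, a5e103, a5e129, a5e136, a5e137, a5e76, a5e2, a5e83, a5e138, a5e139, a5e140, a5e149, a5e150, a5e51, a5e151, a5e159, a5e169, a5e74, a5e6, a5e170, a5e175, a5e184] (forall_cons a5p13 (forall_cons a5p50 (forall_cons a5p52 (forall_cons a5p73 (forall_cons a5p89 (forall_cons a5p99 (forall_cons a5p103 (forall_cons a5p129 (forall_cons a5p136 (forall_cons a5p137 (forall_cons a5p76 (forall_cons a5p2 (forall_cons a5p83 (forall_cons a5p138 (forall_cons a5p139 (forall_cons a5p140 (forall_cons a5p149 (forall_cons a5p150 (forall_cons a5p51 (forall_cons a5p151 (forall_cons a5p159 (forall_cons a5p169 (forall_cons a5p74 (forall_cons a5p6 (forall_cons a5p170 (forall_cons a5p175 (forall_cons a5p184 forall_nil))))))))))))))))))))))))))) a5c185 a5e185 (by decide +kernel)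

end Crest.Agent.SN
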