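import Crest.Agent.Lib_SN_Check

set_option autoImplicit false
set_option linter.all false
set_option maxRecDepth 1000000

namespace Crest.Agent.SN
open Cert

def a6e0 : Pos := ⟨2026130649339417646455839608934986733834649469917127464063458121843611031239057765866994850620807400988285852976383126582018212148044612396323155660410796832770212674100969603072, 25018724043526424494489741324781053865347248042957078893058488336785621084171539651835601354812581254476860480963526931911813707243526569742567095164415310402063170471031124248677807292416, 9⟩
def a6c0 : Cert := (move 556 (branch (move 590 (branch (move 622 (leaf 493 4)) (move 555 (branch (move 554 (leaf 554 0)) (move 591 (branch (move 558 (leaf 555 0)) (move 592 (leaf 556 3)))))))) (branch (move 588 (branch (move 620 (leaf 492 5)) (move 492 (branch (move 460 (leaf 460 7)) (move 555 (branch (move 554 (leaf 522 2)) (move 491 (branch (move 490 (leaf 490 0)) (move 459 (branch (move 523 (leaf 459 4)) (move 524 (leaf 459 7)))))))))))) (move 588 (branch (move 620 (leaf 492 5)) (move 590 (branch (move 622 (leaf 493 4)) (move 492 (branch (move 460 (leaf 460 7)) (move 591 (branch (move 592 (leaf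 556 3)) (move 559 (branch (move 560 (leaf 556 2)) (move 587 (branch (move 558 (leaf 555 1)) (move 619 (branch (move 618 (leaf 586 1)) (move 524 (leaf 491 5)))))))))))))))))))
theorem a6p0 : a6e0.Valid :=
  pos_of_chk [] forall_nil a6c0 a6e0 (by decide +kernel)

def a6e1 : Pos := ⟨471745303432202956716463588942664849720522026980987947953904447181637266339924679313853331149090208694433365517755703559262404264522454503056578184432640363429697159168, 80263304292624195909138051237724693236849307575810634911303382413262255859212347867888375460798451914147910602715727011447571618724495686875375439883927873292780471441660124552650521913051644863101362241536, 11⟩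
def a6c1 : Cert := (move 493 (branch (move 461 (branch (move 460 (branch (move 428 (leaf 428 7)) (move 589 (branch (move 492 (leaf 460 7)) (move 588 (branch (move 556 (leaf 460 5)) (move 620 (leaf 492 5)))))))) (branch (move 556 (branch (move 588 (leaf 460 5)) (move 429 (branch (move 524 (leaf 428 5)) (move 430 (branch (move 398 (leaf 397 6)) (move 462 (leaf 429 6)))))))) (move 430 (branch (move 462 (leaf 429 6)) (move 429 (branch (move 398 (leaf 397 6)) (move 428 (branch (move 396 (leaf 396 7)) (move 460 (leaf 428 7))))))))))) (branch (move 589 (branch (move 622 (branch (move 590 (leaf 493 4)) (move 621 (branch (move 654 (leaf 525 4)) (move 620 (branch (move 588 (leaf 492 5)) (move 652 (leaf 524 5)))))))) (branch (move 588 (branch (move 620 (leaf 492 5)) (move 461 (branch (move 556 (leaf 460 5)) (move 460 (branch (move 428 (leaf 428 7)) (move 492 (leaf 460 7)))))))) (move 590 (branch (move 622 (leaf 493 4)) (move 461 (branch (move 558 (leaf 461 4)) (move 460 (branch (move 428 (leaf 428 7)) (move 492 (leaf 460 7))))))))))) (branch (move 589 (branch (move 492 (branch (move 460 (leaf 460 7)) (move 621 (branch (move 524 (leaf 492 7)) (move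 622 (branch (move 590 (leaf 493 4)) (move 654 (leaf 525 4)))))))) (branch (move 590 (branch (move 622 (leaf 493 4)) (move 461 (branch (move 558 (leaf 461 4)) (move 430 (branch (move 462 (leaf 429 6)) (move 429 (branch (move 398 (leaf 397 6)) (move 428 (branch (move 396 (leaf 396 7)) (move 460 (leaf 428 7)))))))))))) (branch (move 492 (branch (move 460 (leaf 460 7)) (move 621 (branch (move 524 (leaf 492 7)) (move 653 (branch (move 558 (leaf 525 6)) (move 652 (branch (move 620 (leaf 524 5)) (move 684 (leaf 556 5)))))))))) (move 590 (branch (move 622 (leaf 493 4)) (move 558 (branch (move 461 (leaf 461 4)) (move 621 (branch (move 653 (leaf 525 6)) (move 524 (branch (move 492 (leaf 492 7)) (move 523 (branch (move 522 (leaf 522 0)) (move 559 (leaf 523 0)))))))))))))))) (branch (move 461 (branch (move 556 (branch (move 588 (leaf 460 5)) (move 429 (branch (move 524 (leaf 428 5)) (move 430 (branch (move 398 (leaf 397 6)) (move 462 (leaf 429 6)))))))) (branch (move 558 (branch (move 590 (leaf 461 4)) (move 556 (branch (move 588 (leaf 460 5)) (move 555 (branch (move 554 (leaf 522 2)) (move 523 (branch (move 522 (leaf 522 3)) (move 559 (branch (move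 524 (leaf 523 0)) (move 560 (branch (move 561 (leaf 525 3)) (move 592 (branch (move 591 (leaf 556 0)) (move 593 (leaf 557 0)))))))))))))))) (move 558 (branch (move 429 (leaf 429 4)) (move 590 (leaf 461 4))))))) (move 589 (branch (move 492 (branch (move 460 (leaf 460 7)) (move 621 (branch (move 524 (leaf 492 7)) (move 622 (branch (move 590 (leaf 493 4)) (move 654 (leaf 525 4)))))))) (branch (move 492 (branch (move 460 (leaf 460 7)) (move 621 (branch (move 524 (leaf 492 7)) (move 620 (branch (move 588 (leaf 492 5)) (move 652 (leaf 524 5)))))))) (branch (move 622 (branch (move 590 (leaf 493 4)) (move 621 (branch (move 654 (leaf 525 4)) (move 620 (branch (move 588 (leaf 492 5)) (move 652 (leaf 524 5)))))))) (ref 0))))))))))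
theorem a6p1 : a6e1.Valid :=
  pos_of_chk [a6e0] (forall_cons a6p0 forall_nil) a6c1 a6e1 (by decide +kernel)

def a6e2 : Pos := ⟨1415235909637588294776852234189732072449752332085098055047956022243043306937961892335385012443504900579800459275446664784205050422003652661196936747290814374342045990912, 149502054193052752482457479234959814756619353237521356121636190282154258844765778088851183612523496599129513704807048232020848479590258966502856466272794085819507738767932897454402645715428474617856, 7⟩
def a6c2 : Cert := (move 559 (branch (move 560 (branch (move 561 (leaf 525 3)) (move 592 (branch (move 593 (leaf 557 0)) (move 591 (branch (move 556 (leaf 556 0)) (move 623 (branch (move 655 (leaf 526 7)) (move 494 (branch (move 462 (leaf 462 4)) (move 590 (leaf 494 4)))))))))))) (branch (move 524 (branch (move 523 (leaf 523 0)) (move 560 (leaf 524 3)))) (move 556 (branch (move 591 (branch (move 592 (leaf 556 0)) (move 555 (branch (move 590 (leaf 555 0)) (move 554 (leaf 522 2)))))) (branch (move 524 (branch (move 523 (leaf 523 0)) (move 591 (branch (move 592 (leaf 556 0)) (move 494 (branch (move 462 (leaf 462 4)) (move 623 (branch (move 590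 (leaf 494 4)) (move 655 (leaf 526 7)))))))))) (move 523 (branch (move 524 (leaf 523 0)) (move 555 (branch (move 554 (leaf 522 2)) (move 522 (leaf 522 3))))))))))))
theorem a6p2 : a6e2.Valid :=
  pos_of_chk [] forall_nil a6c2 a6e2 (by decide +kernel)

def a6e3 : Pos := ⟨1415235909637588294776852234189732072449752332085098055047956022243043306937961892335385012443504900579800459275446664784205050422003652661196936747290814374342045990912, 261628594837842316768320689305157892090448386735658128783276500567536020709401825666616168166524325805091665883674986389452046507067844354055666721226767402037006670199312848733048051854335727894528, 7⟩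
def a6c3 : Cert := (move 494 (branch (move 462 (branch (move 430 (leaf 429 5)) (move 463 (branch (move 431 (leaf 430 6)) (move 590 (branch (move 495 (leaf 462 6)) (move 622 (branch (move 654 (leaf 525 7)) (move 623 (branch (move 591 (leaf 494 4)) (move 655 (leaf 526 4)))))))))))) (branch (move 589 (branch (move 462 (leaf 461 5)) (move 621 (leaf 493 6)))) (move 590 (branch (move 622 (branch (move 654 (leaf 525 7)) (move 623 (branch (move 591 (leaf 494 4)) (move 655 (leaf 526 4)))))) (branch (move 589 (branch (move 621 (leaf 493 5)) (move 591 (branch (move 623 (leaf 494 4)) (move 556 (branch (move 555 (leaf 555 0)) (move 592 (leaf 556 3)))))))) (move 621 (branch (move 589 (leaf 493 5)) (move 622 (branch (move 653 (leaf 525 5)) (move 654 (leaf 525 7))))))))))))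
theorem a6p3 : a6e3.Valid :=
  pos_of_chk [] forall_nil a6c3 a6e3 (by decide +kernel)

def a6e4 : Pos := ⟨1415235909637588294776852234189732072449752332085098055047956022243043306937961892335385012443504900579800459275446664784205050422003652661196936747290814374342045990912, 261628594837842316801751845024329545259941685109195640335156280878927036739687556524138499443210838237590734555206636700659365212443012165165469747364917750345878249700785663023443169157140765999104, 8⟩
def a6c4 : Cert := (move 494 (branch (move 462 (branch (move 430 (leaf 429 5)) (move 463 (branch (move 431 (leaf 430 6)) (move 590 (branch (move 495 (leaf 462 6)) (move 622 (branch (move 654 (leaf 525 7)) (move 623 (branch (move 591 (leaf 494 4)) (move 655 (leaf 526 4)))))))))))) (branch (move 589 (branch (move 462 (leaf 461 5)) (move 621 (leaf 493 6)))) (move 590 (branch (move 622 (branch (move 654 (leaf 525 7)) (move 623 (branch (move 591 (leaf 494 4)) (move 655 (leaf 526 4)))))) (branch (move 621 (branch (move 589 (leaf 493 5)) (move 622 (branch (move 653 (leaf 525 5)) (move 654 (leaf 525 7)))))) (move 589 (branch (move 621 (leaf 493 5)) (move 591 (branch (move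 623 (leaf 494 4)) (move 592 (branch (move 593 (leaf 557 3)) (move 560 (branch (move 561 (leaf 557 2)) (move 559 (branch (move 588 (leaf 556 1)) (move 524 (leaf 524 3))))))))))))))))))
theorem a6p4 : a6e4.Valid :=
  pos_of_chk [] forall_nil a6c4 a6e4 (by decide +kernel)

def a6e5 : Pos := ⟨471745303432202956716463588942664849720522026980987947953904447181637266339924679313853331149090208694433365517755703559262404264522454503056578184432640363429697159168, 280316351611973910855220838988424689989877466023983897157946580142391714393069461225543284330187070581362545706724170833499541424948309002325960875945368336457540859108492308602397758570128688021504, 11⟩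
def a6c5 : Cert := (move 558 (branch (ref 0) (branch (move 559 (branch (move 524 (branch (move 523 (leaf 523 0)) (move 560 (leaf 524 3)))) (branch (move 560 (branch (move 561 (leaf 525 3)) (move 589 (branch (move 588 (leaf 556 1)) (move 621 (branch (move 653 (leaf 525 6)) (move 592 (branch (move 593 (leaf 557 0)) (move 591 (branch (move 556 (leaf 556 0)) (move 620 (branch (move 590 (leaf 588 1)) (move 652 (leaf 524 5)))))))))))))) (move 556 (branch (move 591 (branch (move 592 (leaf 556 0)) (move 555 (branch (move 590 (leaf 555 0)) (move 554 (leaf 522 2)))))) (move 524 (branch (move 523 (leaf 523 0)) (move 588 (branch (move 587 (leaf 555 1)) (move 620 (branch (move 652 (leaf 524 6)) (move 621 (branch (move 653 (leaf 524 4)) (move 492 (branch (move 589 (leaf 492 4)) (move 460 (branch (move 428 (leaf 428 4)) (move 459 (branch (move 427 (leaf 427 7)) (move 491 (leaf 459 7))))))))))))))))))))) (branch (ref 1) (branch (ref 2) (move 559 (branch (move 524 (branch (move 523 (leaf 523 0)) (move 560 (leaf 524 3)))) (branch (move 560 (branch (move 561 (leaf 525 3)) (move 589 (branch (move 588 (leaf 556 1)) (move 621 (branch (move 494 (leaf 493 6))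 (move 653 (leaf 525 6)))))))) (move 556 (branch (move 523 (branch (move 524 (leaf 523 0)) (move 555 (branch (move 554 (leaf 522 2)) (move 522 (leaf 522 3)))))) (branch (move 524 (branch (move 523 (leaf 523 0)) (move 588 (branch (move 587 (leaf 555 1)) (move 620 (branch (move 652 (leaf 524 6)) (move 621 (branch (move 653 (leaf 524 4)) (move 492 (branch (move 589 (leaf 492 4)) (move 460 (branch (move 428 (leaf 428 4)) (move 459 (branch (move 427 (leaf 427 7)) (move 491 (leaf 459 7)))))))))))))))) (move 555 (branch (move 554 (leaf 522 2)) (move 587 (branch (move 586 (leaf 554 1)) (move 588 (leaf 555 1)))))))))))))))))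
theorem a6p5 : a6e5.Valid :=
  pos_of_chk [a6e2, a6e3, a6e4] (forall_cons a6p2 (forall_cons a6p3 (forall_cons a6p4 forall_nil))) a6c5 a6e5 (by decide +kernel)

def a6e6 : Pos := ⟨2026130649339417646236166083785233858831040035987044836604370573862332742153723491505219254938831362035952424515191033226448603955775922719388688989660354414003114135556158652416, 93438783879360135142921213615346256565673904097134915425874319735314491099872102357183166199664071469227271261788634808425144297986852027012828836576933706339535408337088918177321594944225011564544, 5⟩
def a6c6 : Cert := (move 493 (branch (move 622 (branch (move 590 (leaf 493 4)) (move 621 (branch (move 654 (leaf 525 4)) (move 620 (branch (move 588 (leaf 492 5)) (move 652 (leaf 524 5)))))))) (branch (move 588 (branch (move 620 (leaf 492 5)) (move 461 (branch (move 556 (leaf 460 5)) (move 460 (branch (move 428 (leaf 428 7)) (move 492 (leaf 460 7)))))))) (move 590 (branch (move 622 (leaf 493 4)) (move 461 (branch (move 558 (leaf 461 4)) (move 460 (branch (move 428 (leaf 428 7)) (move 492 (leaf 460 7)))))))))))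
theorem a6p6 : a6e6.Valid :=
  pos_of_chk [] forall_nil a6c6 a6e6 (by decide +kernel)

def a6e7 : Pos := ⟨471745303432202956716463588942664849720522026980987947953904447181637266339924679313853331149090208694433365517755703559262404264522454503056578184432640363429697159168, 93438783881535676364284621299373834805810898603580651098107781159110713323047986710555979102059805481930943983559661868865610718549212291264250076308349117689338124123859319038522054733477493866496, 13⟩
def a6c7 : Cert := (move 589 (branch (move 621 (branch (move 494 (leaf 493 6)) (move 622 (branch (move 654 (leaf 525 4)) (move 620 (branch (move 652 (leaf 524 5)) (move 493 (branch (move 590 (leaf 493 4)) (move 588 (leaf 492 5)))))))))) (branch (move 494 (branch (move 621 (leaf 493 6)) (move 462 (branch (move 430 (leaf 429 5)) (move 558 (leaf 461 5)))))) (branch (move 493 (branch (move 492 (branch (move 460 (leaf 460 7)) (move 621 (branch (move 524 (leaf 492 7)) (move 620 (branch (move 588 (leaf 492 5)) (move 652 (leaf 524 5)))))))) (branch (move 622 (branch (move 590 (leaf 493 4)) (move 621 (branch (move 654 (leaf 525 4)) (move 620 (branch (move 588 (leaf 492 5))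 (move 652 (leaf 524 5)))))))) (move 590 (branch (move 622 (leaf 493 4)) (move 461 (branch (move 558 (leaf 461 4)) (move 460 (branch (move 428 (leaf 428 7)) (move 492 (leaf 460 7))))))))))) (move 493 (branch (move 462 (branch (move 494 (leaf 461 6)) (move 461 (branch (move 430 (leaf 429 6)) (move 460 (branch (move 428 (leaf 428 7)) (move 492 (leaf 460 7)))))))) (branch (move 590 (branch (move 622 (leaf 493 4)) (move 461 (branch (move 558 (leaf 461 4)) (move 460 (branch (move 428 (leaf 428 7)) (move 492 (leaf 460 7)))))))) (branch (move 494 (branch (move 462 (leaf 461 6)) (move 590 (branch (move 622 (leaf 493 4)) (move 558 (branch (move 461 (leaf 461 4)) (move 588 (branch (move 620 (leaf 492 5)) (move 559 (branch (move 560 (leaf 556 1)) (move 587 (leaf 555 2)))))))))))) (move 494 (branch (move 462 (leaf 461 6)) (move 492 (branch (move 460 (leaf 460 7)) (move 491 (branch (move 490 (leaf 490 0)) (move 523 (branch (move 522 (leaf 490 1)) (move 524 (branch (move 495 (leaf 491 1)) (move 558 (branch (move 559 (leaf 523 0)) (move 590 (branch (move 622 (leaf 493 4)) (move 588 (branch (move 620 (leaf 492 5)) (move 587 (branch (move 586 (leaf 554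 2)) (move 555 (branch (move 554 (leaf 522 1)) (move 619 (leaf 491 6))))))))))))))))))))))))))))))
theorem a6p7 : a6e7.Valid :=
  pos_of_chk [] forall_nil a6c7 a6e7 (by decide +kernel)

def a6e8 : Pos := ⟨1415235909637588294776852234189732072449752332085098055047956022243043306937961892335385012443504900579800459275446664784205050422003652661196936747290814374342045990912, 4351082495659478572140791120071689312669714705984377867176209531906044947201669727929401879749429671759224067584650192185779125102109952740077585136593957171451585393386542329843192692736, 7⟩
def a6c8 : Cert := (move 559 (branch (move 524 (branch (move 523 (leaf 523 0)) (move 560 (leaf 524 3)))) (branch (move 560 (branch (move 561 (leaf 525 3)) (move 592 (branch (move 593 (leaf 557 0)) (move 556 (branch (move 591 (leaf 556 0)) (move 555 (branch (move 554 (leaf 522 2)) (move 587 (branch (move 586 (leaf 554 1)) (move 588 (leaf 555 1)))))))))))) (move 556 (branch (move 523 (branch (move 524 (leaf 523 0)) (move 555 (branch (move 554 (leaf 522 2)) (move 522 (leaf 522 3)))))) (branch (move 555 (branch (move 554 (leaf 522 2)) (move 587 (branch (move 586 (leaf 554 1)) (move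 588 (leaf 555 1)))))) (move 524 (branch (move 523 (leaf 523 0)) (move 588 (branch (move 587 (leaf 555 1)) (move 493 (branch (move 461 (leaf 460 5)) (move 620 (leaf 492 6))))))))))))))
theorem a6p8 : a6e8.Valid :=
  pos_of_chk [] forall_nil a6c8 a6e8 (by decide +kernel)

def a6e9 : Pos := ⟨471745303432202956716463588942664849720522026980987947953904447181637266339924679313853331149090208694433365517755703559262404264522454503056578184432640363429697159168, 224253081293930211134248210152649297013433828136774309124841583436907996863829936028479063106959059656092386894020066602657263442771183196188660437962387727357561939808309423433918574523787077746688, 10⟩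
def a6c9 : Cert := (move 558 (branch (ref 0) (branch (ref 1) (branch (move 590 (branch (move 493 (branch (move 461 (leaf 461 4)) (move 622 (leaf 493 7)))) (branch (move 622 (branch (move 654 (leaf 525 7)) (move 623 (branch (move 655 (leaf 526 4)) (move 494 (branch (move 591 (leaf 494 4)) (move 462 (branch (move 430 (leaf 429 5)) (move 589 (leaf 461 5)))))))))) (move 494 (branch (move 462 (branch (move 430 (leaf 429 5)) (move 463 (branch (move 431 (leaf 430 6)) (move 495 (leaf 462 6)))))) (move 493 (branch (move 461 (leaf 461 4)) (move 591 (branch (move 623 (leaf 494 4)) (move 556 (branch (move 555 (leaf 555 0)) (move 592 (branch (move 589 (leaf 556 3)) (move 593 (leaf 557 3))))))))))))))) (move 493 (branch (move 461 (branch (move 429 (leaf 429 4)) (move 462 (branch (move 430 (leaf 429 6)) (move 494 (branch (move 589 (leaf 461 5)) (move 463 (branch (move 431 (leaf 430 6)) (move 492 (branch (move 464 (leaf 460 1)) (move 491 (leaf 459 2)))))))))))) (branch (move 590 (branch (move 461 (leaf 461 4)) (move 622 (leaf 493 7)))) (move 589 (branch (move 494 (branch (move 462 (leaf 461 5)) (move 492 (branch (move 460 (leaf 460 7)) (move 491 (branch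 (move 490 (leaf 490 0)) (move 523 (branch (move 522 (leaf 490 1)) (move 524 (branch (move 559 (leaf 523 0)) (move 495 (leaf 491 1)))))))))))) (branch (move 590 (branch (move 622 (leaf 493 4)) (move 588 (branch (move 620 (leaf 492 5)) (move 559 (branch (move 560 (leaf 556 1)) (move 587 (leaf 555 2)))))))) (move 494 (branch (move 462 (leaf 461 5)) (move 590 (branch (move 622 (leaf 493 4)) (move 492 (branch (move 460 (leaf 460 7)) (move 495 (branch (move 463 (leaf 462 6)) (move 523 (branch (move 524 (leaf 491 1)) (move 491 (branch (move 490 (leaf 490 0)) (move 522 (leaf 490 1))))))))))))))))))))))))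
theorem a6p9 : a6e9.Valid :=
  pos_of_chk [a6e2, a6e8] (forall_cons a6p2 (forall_cons a6p8 forall_nil)) a6c9 a6e9 (by decide +kernel)

def a6e10 : Pos := ⟨471745303432202956716463588942664849720522026980987947953904447181637266339924679313853331149090208694433365517755703559262404264522454503056578184432640363429697159168, 321053216787397769754889049926061534277606827377176764948198775502615989247849107332558923669350486095547304524815682091350941888906448215630647190760039458600904180178967591729982573263809713974346965319680, 11⟩
def a6c10 : Cert := (move 589 (branch (move 493 (branch (move 588 (branch (move 620 (leaf 492 5)) (move 556 (branch (move 461 (leaf 460 5)) (move 555 (branch (move 554 (leaf 522 2)) (move 590 (branch (move 591 (leaf 555 3)) (move 622 (leaf 493 4)))))))))) (branch (move 492 (branch (move 460 (leaf 460 7)) (move 621 (branch (move 524 (leaf 492 7)) (move 622 (branch (move 590 (leaf 493 4)) (move 654 (leaf 525 4)))))))) (move 492 (branch (move 460 (leaf 460 7)) (move 588 (branch (move 620 (leaf 492 5)) (move 556 (branch (move 461 (leaf 460 5)) (move 524 (branch (move 621 (leaf 492 4)) (move 491 (branch (move 490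 (leaf 490 0)) (move 459 (leaf 459 7))))))))))))))) (branch (move 621 (branch (move 494 (leaf 493 6)) (move 524 (branch (move 492 (leaf 492 7)) (move 653 (branch (move 556 (leaf 524 7)) (move 654 (branch (move 622 (leaf 525 4)) (move 686 (leaf 557 4)))))))))) (branch (move 621 (branch (move 494 (leaf 493 6)) (move 622 (branch (move 654 (leaf 525 4)) (move 620 (branch (move 652 (leaf 524 5)) (move 493 (branch (move 590 (leaf 493 4)) (move 588 (leaf 492 5)))))))))) (branch (move 621 (branch (move 494 (leaf 493 6)) (move 620 (branch (move 652 (leaf 524 5)) (move 524 (branch (move 492 (leaf 492 7)) (move 556 (branch (move 653 (leaf 524 7)) (move 588 (branch (move 493 (leaf 492 5)) (move 555 (branch (move 554 (leaf 522 2)) (move 619 (branch (move 651 (leaf 523 5)) (move 590 (branch (move 591 (leaf 587 1)) (move 618 (leaf 586 2)))))))))))))))))) (move 493 (branch (move 588 (branch (move 620 (leaf 492 5)) (move 556 (branch (move 461 (leaf 460 5)) (move 555 (branch (move 554 (leaf 522 2)) (move 590 (branch (move 591 (leaf 555 3)) (move 622 (leaf 493 4)))))))))) (branch (move 462 (branch (move 494 (leaf 461 6)) (move 461 (branch (move 430 (leaf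 429 6)) (move 460 (branch (move 428 (leaf 428 7)) (move 492 (leaf 460 7)))))))) (move 590 (branch (move 622 (leaf 493 4)) (move 588 (branch (move 620 (leaf 492 5)) (move 494 (branch (move 462 (leaf 461 6)) (move 492 (branch (move 460 (leaf 460 7)) (move 491 (branch (move 490 (leaf 490 0)) (move 459 (branch (move 458 (leaf 458 3)) (move 556 (branch (move 524 (leaf 459 7)) (move 555 (branch (move 554 (leaf 554 0)) (move 591 (leaf 555 3))))))))))))))))))))))))))
theorem a6p10 : a6e10.Valid :=
  pos_of_chk [] forall_nil a6c10 a6e10 (by decide +kernel)

def a6e11 : Pos := ⟨1415235909637588294776852234189732072449752332085098055047956022243043306937961892335385012443504900579800459275446664784205050422003652661196936747290814374342045990912, 18687756776307135273059537329478987226568355810038503261984977794080116455291089655815850035936572024870686085759885433095146016485345679596542877917333633077183202066344092115625729058720754696192, 8⟩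
def a6c11 : Cert := (move 556 (branch (move 555 (branch (move 554 (leaf 522 2)) (move 587 (branch (move 586 (leaf 554 1)) (move 588 (branch (move 559 (leaf 555 1)) (move 523 (branch (move 522 (leaf 522 3)) (move 620 (branch (move 491 (leaf 491 4)) (move 652 (leaf 524 6)))))))))))) (branch (move 524 (branch (move 559 (branch (move 560 (leaf 524 3)) (move 588 (branch (move 587 (leaf 555 1)) (move 493 (branch (move 461 (leaf 460 5)) (move 620 (leaf 492 6)))))))) (branch (move 523 (branch (move 522 (leaf 522 0)) (move 491 (branch (move 490 (leaf 490 3)) (move 588 (branch (move 620 (leaf 491 7)) (move 493 (branch (move 461 (leaf 460 5)) (move 459 (branch (move 427 (leaf 427 4)) (move 492 (leaf 459 7)))))))))))) (move 523 (branch (move 522 (leaf 522 0)) (move 559 (leaf 523 0))))))) (branch (move 555 (branch (move 554 (leaf 522 2)) (move 587 (branch (move 586 (leaf 554 1)) (move 588 (branch (move 559 (leaf 555 1)) (move 493 (branch (move 461 (leaf 460 5)) (move 620 (branch (move 524 (leaf 492 6)) (move 652 (leaf 524 6)))))))))))) (branch (move 555 (branch (move 554 (leaf 522 2)) (move 523 (branch (move 522 (leaf 522 3)) (move 524 (branch (move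 559 (leaf 523 0)) (move 587 (branch (move 586 (leaf 554 1)) (move 492 (branch (move 460 (leaf 459 5)) (move 619 (leaf 491 6)))))))))))) (branch (move 555 (branch (move 554 (leaf 522 2)) (move 523 (branch (move 522 (leaf 522 3)) (move 524 (branch (move 559 (leaf 523 0)) (move 491 (branch (move 490 (leaf 490 3)) (move 588 (branch (move 459 (leaf 459 4)) (move 620 (leaf 491 7)))))))))))) (move 524 (branch (move 555 (branch (move 554 (leaf 522 2)) (move 587 (branch (move 586 (leaf 554 1)) (move 492 (branch (move 460 (leaf 459 5)) (move 588 (branch (move 619 (leaf 491 5)) (move 493 (branch (move 461 (leaf 460 5)) (move 620 (leaf 492 6)))))))))))) (branch (move 523 (branch (move 522 (leaf 522 0)) (move 491 (branch (move 490 (leaf 490 3)) (move 588 (branch (move 620 (leaf 491 7)) (move 493 (branch (move 461 (leaf 460 5)) (move 459 (branch (move 427 (leaf 427 4)) (move 492 (leaf 459 7)))))))))))) (branch (move 523 (branch (move 522 (leaf 522 0)) (move 555 (branch (move 554 (leaf 522 1)) (move 491 (branch (move 490 (leaf 490 3)) (move 588 (branch (move 459 (leaf 459 4)) (move 620 (leaf 491 7)))))))))) (move 523 (branch (move 522 (leaf 522 0))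 (move 555 (branch (move 554 (leaf 522 1)) (move 587 (branch (move 586 (leaf 554 1)) (move 492 (branch (move 460 (leaf 459 5)) (move 619 (leaf 491 6))))))))))))))))))))
theorem a6p11 : a6e11.Valid :=
  pos_of_chk [] forall_nil a6c11 a6e11 (by decide +kernel)

def a6e12 : Pos := ⟨471745303432202956716463588942664849720522026980987947953904447181637266339924679313853331149090208694433365517755703559262404264522454503056578184432640363429697159168, 280316351614149452071772186375789570940892740869361730822035117618068417638582446447537385185737446209539823435651388050428619940209833504786130113978055821598989603424236025901343164029747073122304, 12⟩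
def a6c12 : Cert := (move 558 (branch (ref 0) (branch (move 590 (branch (move 622 (branch (move 654 (leaf 525 7)) (move 623 (branch (move 655 (leaf 526 4)) (move 591 (branch (move 494 (leaf 494 4)) (move 621 (branch (move 653 (leaf 525 5)) (move 592 (branch (move 593 (leaf 589 1)) (move 620 (leaf 588 2)))))))))))) (branch (move 493 (branch (move 461 (leaf 461 4)) (move 622 (leaf 493 7)))) (move 494 (branch (move 462 (branch (move 430 (leaf 429 5)) (move 463 (branch (move 431 (leaf 430 6)) (move 495 (leaf 462 6)))))) (move 493 (branch (move 461 (leaf 461 4)) (move 591 (branch (move 623 (leaf 494 4)) (move 556 (branch (move 555 (leaf 555 0)) (move 592 (branch (move 559 (leaf 556 0)) (move 593 (leaf 557 3))))))))))))))) (branch (move 590 (branch (move 622 (branch (move 654 (leaf 525 7)) (move 623 (branch (move 655 (leaf 526 4)) (move 591 (branch (move 494 (leaf 494 4)) (move 621 (branch (move 653 (leaf 525 5)) (move 592 (branch (move 593 (leaf 589 1)) (move 620 (leaf 588 2)))))))))))) (branch (move 493 (branch (move 461 (leaf 461 4)) (move 622 (leaf 493 7)))) (move 494 (branch (move 462 (branch (move 430 (leaf 429 5)) (move 463 (branch (move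 431 (leaf 430 6)) (move 495 (leaf 462 6)))))) (branch (move 461 (branch (move 493 (leaf 461 4)) (move 462 (branch (move 429 (leaf 429 7)) (move 591 (branch (move 559 (leaf 462 4)) (move 623 (leaf 494 4)))))))) (move 493 (branch (move 461 (leaf 461 4)) (move 492 (branch (move 491 (branch (move 490 (leaf 490 0)) (move 495 (branch (move 463 (leaf 462 6)) (move 459 (branch (move 458 (leaf 458 3)) (move 460 (leaf 459 3)))))))) (branch (move 491 (branch (move 490 (leaf 490 0)) (move 523 (branch (move 522 (leaf 490 1)) (move 524 (branch (move 559 (leaf 523 0)) (move 460 (branch (move 428 (leaf 428 4)) (move 555 (branch (move 554 (leaf 522 1)) (move 587 (leaf 459 6)))))))))))) (branch (move 495 (branch (move 463 (leaf 462 6)) (move 524 (branch (move 523 (leaf 491 1)) (move 460 (branch (move 459 (leaf 459 3)) (move 428 (leaf 428 4)))))))) (move 495 (branch (move 463 (leaf 462 6)) (move 523 (branch (move 524 (leaf 491 1)) (move 491 (branch (move 490 (leaf 490 0)) (move 522 (leaf 490 1)))))))))))))))))))) (branch (move 494 (branch (move 462 (branch (move 430 (leaf 429 5)) (move 463 (branch (move 431 (leaf 430 6)) (move 461 (branch (move 429 (leaf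 429 7)) (move 495 (branch (move 590 (leaf 462 6)) (move 524 (branch (move 523 (leaf 491 2)) (move 460 (branch (move 459 (leaf 459 0)) (move 492 (branch (move 491 (leaf 459 1)) (move 428 (leaf 428 4)))))))))))))))) (branch (move 462 (branch (move 430 (leaf 429 5)) (move 559 (branch (move 591 (leaf 462 4)) (move 524 (branch (move 523 (leaf 523 0)) (move 560 (leaf 524 3)))))))) (branch (move 590 (branch (move 622 (branch (move 654 (leaf 525 7)) (move 623 (branch (move 591 (leaf 494 4)) (move 655 (leaf 526 4)))))) (branch (move 461 (branch (move 493 (leaf 461 4)) (move 462 (branch (move 429 (leaf 429 7)) (move 591 (branch (move 559 (leaf 462 4)) (move 623 (leaf 494 4)))))))) (move 493 (branch (move 461 (leaf 461 4)) (move 622 (leaf 493 7))))))) (move 590 (branch (move 622 (branch (move 654 (leaf 525 7)) (move 623 (branch (move 591 (leaf 494 4)) (move 655 (leaf 526 4)))))) (branch (move 493 (branch (move 461 (leaf 461 4)) (move 622 (leaf 493 7)))) (move 493 (branch (move 461 (leaf 461 4)) (move 591 (branch (move 623 (leaf 494 4)) (move 592 (branch (move 593 (leaf 557 3)) (move 559 (branch (move 556 (leaf 556 0)) (move 524 (branch (move 523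 (leaf 523 0)) (move 560 (leaf 524 3))))))))))))))))))) (branch (ref 1) (move 590 (branch (move 622 (branch (move 654 (leaf 525 7)) (move 623 (branch (move 655 (leaf 526 4)) (move 591 (branch (move 494 (leaf 494 4)) (move 621 (branch (move 653 (leaf 525 5)) (move 592 (branch (move 593 (leaf 589 1)) (move 620 (leaf 588 2)))))))))))) (branch (move 493 (branch (move 461 (leaf 461 4)) (move 622 (leaf 493 7)))) (move 494 (branch (move 462 (branch (move 430 (leaf 429 5)) (move 463 (branch (move 431 (leaf 430 6)) (move 495 (leaf 462 6)))))) (branch (move 461 (branch (move 493 (leaf 461 4)) (move 462 (branch (move 430 (leaf 429 5)) (move 429 (leaf 429 7)))))) (move 493 (branch (move 461 (leaf 461 4)) (move 492 (branch (move 491 (branch (move 490 (leaf 490 0)) (move 495 (branch (move 463 (leaf 462 6)) (move 459 (branch (move 458 (leaf 458 3)) (move 460 (leaf 459 3)))))))) (branch (move 495 (branch (move 463 (leaf 462 6)) (move 524 (branch (move 523 (leaf 491 1)) (move 460 (branch (move 459 (leaf 459 3)) (move 428 (leaf 428 4)))))))) (branch (move 495 (branch (move 463 (leaf 462 6)) (move 523 (branch (move 524 (leaf 491 1)) (move 491 (branch (move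 490 (leaf 490 0)) (move 522 (leaf 490 1)))))))) (move 491 (branch (move 490 (leaf 490 0)) (move 523 (branch (move 522 (leaf 490 1)) (move 459 (branch (move 458 (leaf 458 3)) (move 591 (branch (move 623 (leaf 494 4)) (move 555 (branch (move 556 (leaf 555 0)) (move 460 (branch (move 428 (leaf 427 6)) (move 587 (leaf 459 6))))))))))))))))))))))))))))))))
theorem a6p12 : a6e12.Valid :=
  pos_of_chk [a6e2, a6e11] (forall_cons a6p2 (forall_cons a6p11 forall_nil)) a6c12 a6e12 (by decide +kernel)

def a6e13 : Pos := ⟨329510287686269266319131238355906874428932894406878659650934246040906072803087490501882862751749818638910222946791081185781855423986398903003553357973522743296, 401316521098709722434895383373686491894180689499803117466442334274894193407927570335100847345849531129332746329795454758393695569995844083798282877403536603622065193195861507139570841828808678831239383220224, 14⟩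
def a6c13 : Cert := (move 557 (branch (ref 0) (branch (ref 1) (branch (move 589 (branch (move 621 (branch (move 494 (leaf 493 6)) (move 622 (branch (move 654 (leaf 525 4)) (move 620 (branch (move 652 (leaf 524 5)) (move 493 (branch (move 590 (leaf 493 4)) (move 588 (leaf 492 5)))))))))) (branch (ref 2) (branch (move 494 (branch (move 621 (leaf 493 6)) (move 462 (branch (move 430 (leaf 429 5)) (move 558 (leaf 461 5)))))) (move 493 (branch (move 588 (branch (move 620 (leaf 492 5)) (move 556 (branch (move 461 (leaf 460 5)) (move 555 (branch (move 554 (leaf 522 2)) (move 590 (branch (move 591 (leaf 555 3)) (move 622 (leaf 493 4)))))))))) (branch (move 462 (branch (move 494 (leaf 461 6)) (move 461 (branch (move 430 (leaf 429 6)) (move 460 (branch (move 428 (leaf 428 7)) (move 492 (leaf 460 7)))))))) (move 590 (branch (move 622 (leaf 493 4)) (move 494 (branch (move 462 (leaf 461 6)) (move 588 (branch (move 620 (leaf 492 5)) (move 492 (branch (move 460 (leaf 460 7)) (move 491 (branch (move 490 (leaf 490 0)) (move 523 (branch (move 522 (leaf 490 1)) (move 459 (branch (move 458 (leaf 458 3)) (move 555 (branch (move 556 (leaf 459 4)) (move 587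 (branch (move 554 (leaf 554 3)) (move 558 (branch (move 586 (leaf 554 2)) (move 559 (leaf 555 2))))))))))))))))))))))))))))) (branch (ref 3) (branch (ref 4) (branch (move 589 (branch (move 621 (branch (move 494 (leaf 493 6)) (move 524 (branch (move 492 (leaf 492 7)) (move 653 (branch (move 556 (leaf 524 7)) (move 654 (branch (move 622 (leaf 525 4)) (move 686 (leaf 557 4)))))))))) (branch (move 621 (branch (move 494 (leaf 493 6)) (move 622 (branch (move 654 (leaf 525 4)) (move 620 (branch (move 652 (leaf 524 5)) (move 493 (branch (move 590 (leaf 493 4)) (move 588 (leaf 492 5)))))))))) (branch (move 621 (branch (move 494 (leaf 493 6)) (move 620 (branch (move 652 (leaf 524 5)) (move 524 (branch (move 492 (leaf 492 7)) (move 556 (branch (move 653 (leaf 524 7)) (move 588 (branch (move 493 (leaf 492 5)) (move 555 (branch (move 554 (leaf 522 2)) (move 619 (branch (move 651 (leaf 523 5)) (move 590 (branch (move 591 (leaf 587 1)) (move 618 (leaf 586 2)))))))))))))))))) (move 493 (branch (move 588 (branch (move 620 (leaf 492 5)) (move 556 (branch (move 461 (leaf 460 5)) (move 555 (branch (move 554 (leaf 522 2)) (move 590 (branch (move 591 (leaf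 555 3)) (move 622 (leaf 493 4)))))))))) (branch (move 588 (branch (move 620 (leaf 492 5)) (move 461 (branch (move 556 (leaf 460 5)) (move 460 (branch (move 428 (leaf 428 7)) (move 492 (leaf 460 7)))))))) (branch (move 590 (branch (move 622 (leaf 493 4)) (move 461 (branch (move 558 (leaf 461 4)) (move 460 (branch (move 428 (leaf 428 7)) (move 492 (leaf 460 7)))))))) (ref 5))))))))) (branch (move 589 (branch (move 621 (branch (move 494 (leaf 493 6)) (move 524 (branch (move 492 (leaf 492 7)) (move 653 (branch (move 556 (leaf 524 7)) (move 654 (branch (move 622 (leaf 525 4)) (move 686 (leaf 557 4)))))))))) (branch (ref 2) (branch (move 621 (branch (move 494 (leaf 493 6)) (move 653 (branch (move 558 (leaf 525 6)) (move 652 (branch (move 620 (leaf 524 5)) (move 684 (leaf 556 5)))))))) (move 493 (branch (move 588 (branch (move 620 (leaf 492 5)) (move 461 (branch (move 556 (leaf 460 5)) (move 460 (branch (move 428 (leaf 428 7)) (move 492 (leaf 460 7)))))))) (branch (move 590 (branch (move 622 (leaf 493 4)) (move 461 (branch (move 558 (leaf 461 4)) (move 430 (branch (move 462 (leaf 429 6)) (move 429 (branch (move 398 (leaf 397 6)) (move 428 (branch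 (move 396 (leaf 396 7)) (move 460 (leaf 428 7)))))))))))) (branch (move 494 (branch (move 462 (leaf 461 6)) (move 590 (branch (move 622 (leaf 493 4)) (move 558 (branch (move 461 (leaf 461 4)) (move 588 (branch (move 620 (leaf 492 5)) (move 559 (branch (move 560 (leaf 556 1)) (move 587 (leaf 555 2)))))))))))) (move 494 (branch (move 462 (leaf 461 6)) (move 492 (branch (move 460 (leaf 460 7)) (move 491 (branch (move 490 (leaf 490 0)) (move 523 (branch (move 522 (leaf 490 1)) (move 524 (branch (move 495 (leaf 491 1)) (move 588 (branch (move 620 (leaf 492 5)) (move 459 (branch (move 458 (leaf 458 3)) (move 556 (leaf 459 7)))))))))))))))))))))))) (branch (ref 6) (branch (move 558 (branch (ref 7) (branch (ref 8) (branch (ref 9) (move 559 (branch (move 524 (branch (move 523 (leaf 523 0)) (move 560 (leaf 524 3)))) (branch (move 560 (branch (move 561 (leaf 525 3)) (move 589 (branch (move 588 (leaf 556 1)) (move 621 (branch (move 494 (leaf 493 6)) (move 653 (leaf 525 6)))))))) (move 556 (branch (move 523 (branch (move 524 (leaf 523 0)) (move 555 (branch (move 554 (leaf 522 2)) (move 522 (leaf 522 3)))))) (branch (move 555 (branch (move 554 (leaf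 522 2)) (move 587 (branch (move 586 (leaf 554 1)) (move 588 (leaf 555 1)))))) (move 524 (branch (move 523 (leaf 523 0)) (move 588 (branch (move 587 (leaf 555 1)) (move 493 (branch (move 461 (leaf 460 5)) (move 620 (leaf 492 6)))))))))))))))))) (branch (move 589 (branch (move 494 (branch (move 621 (leaf 493 6)) (move 462 (branch (move 430 (leaf 429 5)) (move 558 (leaf 461 5)))))) (branch (move 493 (branch (move 494 (branch (move 462 (leaf 461 6)) (move 492 (branch (move 460 (leaf 460 7)) (move 491 (branch (move 490 (leaf 490 0)) (move 523 (branch (move 522 (leaf 490 1)) (move 524 (branch (move 495 (leaf 491 1)) (move 555 (branch (move 554 (leaf 522 1)) (move 459 (branch (move 458 (leaf 458 3)) (move 427 (branch (move 395 (leaf 395 4)) (move 556 (leaf 427 4)))))))))))))))))) (branch (move 462 (branch (move 494 (leaf 461 6)) (move 461 (branch (move 430 (leaf 429 6)) (move 460 (branch (move 428 (leaf 428 7)) (move 492 (leaf 460 7)))))))) (branch (move 588 (branch (move 620 (leaf 492 5)) (move 461 (branch (move 556 (leaf 460 5)) (move 460 (branch (move 428 (leaf 428 7)) (move 492 (leaf 460 7)))))))) (move 462 (branch (move 494 (leaf 461 6))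 (move 461 (branch (move 430 (leaf 429 6)) (move 588 (branch (move 556 (leaf 460 5)) (move 620 (leaf 492 5)))))))))))) (move 621 (branch (move 653 (branch (move 558 (leaf 525 6)) (move 652 (branch (move 620 (leaf 524 5)) (move 684 (leaf 556 5)))))) (branch (move 620 (branch (move 652 (leaf 524 5)) (move 493 (branch (move 588 (leaf 492 5)) (move 492 (branch (move 460 (leaf 460 7)) (move 524 (leaf 492 7)))))))) (move 653 (branch (move 558 (leaf 525 6)) (move 524 (branch (move 492 (leaf 492 7)) (move 556 (leaf 524 7)))))))))))) (branch (move 589 (branch (move 621 (branch (move 494 (leaf 493 6)) (move 524 (branch (move 492 (leaf 492 7)) (move 653 (branch (move 556 (leaf 524 7)) (move 654 (branch (move 622 (leaf 525 4)) (move 686 (leaf 557 4)))))))))) (branch (move 494 (branch (move 621 (leaf 493 6)) (move 462 (branch (move 430 (leaf 429 5)) (move 558 (leaf 461 5)))))) (branch (move 493 (branch (move 494 (branch (move 462 (leaf 461 6)) (move 492 (branch (move 460 (leaf 460 7)) (move 491 (branch (move 490 (leaf 490 0)) (move 523 (branch (move 522 (leaf 490 1)) (move 524 (branch (move 495 (leaf 491 1)) (move 555 (branch (move 554 (leaf 522 1))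 (move 459 (branch (move 458 (leaf 458 3)) (move 427 (branch (move 395 (leaf 395 4)) (move 556 (leaf 427 4)))))))))))))))))) (branch (move 590 (branch (move 622 (leaf 493 4)) (move 461 (branch (move 558 (leaf 461 4)) (move 460 (branch (move 428 (leaf 428 7)) (move 492 (leaf 460 7)))))))) (move 494 (branch (move 462 (leaf 461 6)) (move 590 (branch (move 622 (leaf 493 4)) (move 558 (branch (move 461 (leaf 461 4)) (move 591 (branch (move 623 (leaf 494 4)) (move 592 (branch (move 556 (leaf 556 3)) (move 593 (leaf 557 3))))))))))))))) (move 621 (branch (move 653 (branch (move 558 (leaf 525 6)) (move 654 (branch (move 622 (leaf 525 4)) (move 686 (leaf 557 4)))))) (branch (move 653 (branch (move 558 (leaf 525 6)) (move 524 (branch (move 492 (leaf 492 7)) (move 556 (leaf 524 7)))))) (move 622 (branch (move 654 (leaf 525 4)) (move 493 (branch (move 590 (leaf 493 4)) (move 492 (branch (move 460 (leaf 460 7)) (move 524 (leaf 492 7))))))))))))))) (ref 10)))))))))))))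
theorem a6p13 : a6e13.Valid :=
  pos_of_chk [a6e1, a6e5, a6e6, a6e7, a6e9, a6e0, a6e10, a6e3, a6e4, a6e8, a6e12] (forall_cons a6p1 (forall_cons a6p5 (forall_cons a6p6 (forall_cons a6p7 (forall_cons a6p9 (forall_cons a6p0 (forall_cons a6p10 (forall_cons a6p3 (forall_cons a6p4 (forall_cons a6p8 (forall_cons a6p12 forall_nil))))))))))) a6c13 a6e13 (by decide +kernel)

def a6e14 : Pos := ⟨219673525175326239139706567948419895260313287626407871360895778083114828594879019660120542517667552527642048594904294154828562879507017294794859084857162596352, 943490606205385338367269014819201636969458773175988684528226694009443074443441426376178196317426041419451443072827009010882078457936210123255532417178322740230301417472, 9⟩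
def a6c14 : Cert := (move 431 (branch (move 430 (branch (move 399 (leaf 398 6)) (move 429 (branch (move 397 (leaf 397 7)) (move 461 (branch (move 558 (leaf 429 7)) (move 460 (branch (move 459 (leaf 427 2)) (move 432 (leaf 428 1)))))))))) (branch (move 463 (branch (move 558 (leaf 430 6)) (move 399 (branch (move 495 (leaf 398 5)) (move 367 (leaf 366 5)))))) (branch (move 399 (branch (move 430 (leaf 398 6)) (move 463 (branch (move 495 (leaf 398 5)) (move 367 (leaf 366 5)))))) (move 461 (branch (move 429 (branch (move 558 (leaf 429 7)) (move 397 (branch (move 430 (leaf 397 7)) (move 365 (leaf 365 4)))))) (branch (move 463 (branch (move 558 (leaf 430 6)) (move 460 (branch (move 432 (leaf 428 2)) (move 495 (branch (move 459 (leaf 459 0)) (move 496 (leaf 460 0)))))))) (move 460 (branch (move 463 (branch (move 432 (leaf 428 2)) (move 495 (branch (move 496 (leaf 460 0)) (move 428 (branch (move 427 (leaf 427 3)) (move 429 (branch (move 464 (leaf 428 3)) (move 397 (branch (move 430 (leaf 397 7)) (move 365 (leaf 365 4)))))))))))) (branch (move 463 (branch (move 432 (leaf 428 2)) (move 495 (branch (move 459 (leaf 459 0)) (move 496 (leaf 460 0))))))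 (branch (move 459 (branch (move 430 (leaf 427 2)) (move 495 (leaf 459 0)))) (move 430 (branch (move 459 (leaf 427 2)) (move 432 (branch (move 463 (leaf 428 2)) (move 429 (leaf 428 1)))))))))))))))))
theorem a6p14 : a6e14.Valid :=
  pos_of_chk [] forall_nil a6c14 a6e14 (by decide +kernel)

def a6e15 : Pos := ⟨329510287762989358691697063434341007948329749536956207605068577044420714242840626355117422631826461427798601630014987845021544588264928353297742257660910108672, 60915154183992500468880052574828512467855942843315888480762376889395372016170435974674952950847300192161318527576558246703800389659982140425916065642331021150810859885379770831489155989504, 10⟩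
def a6c15 : Cert := (move 558 (branch (move 461 (branch (move 590 (leaf 461 7)) (move 429 (leaf 429 4)))) (branch (move 557 (branch (move 461 (branch (move 429 (leaf 429 4)) (move 556 (branch (move 588 (leaf 460 5)) (move 555 (branch (move 554 (leaf 522 2)) (move 523 (branch (move 522 (leaf 522 3)) (move 559 (branch (move 524 (leaf 523 0)) (move 560 (branch (move 561 (leaf 525 3)) (move 592 (branch (move 591 (leaf 556 0)) (move 593 (leaf 557 0)))))))))))))))) (branch (move 589 (branch (move 621 (leaf 493 6)) (move 492 (branch (move 460 (leaf 460 7)) (move 491 (branch (move 490 (leaf 490 0)) (move 523 (branch (move 522 (leaf 490 1)) (move 559 (branch (move 524 (leaf 523 0)) (move 560 (branch (move 561 (leaf 525 3)) (move 588 (leaf 556 1)))))))))))))) (move 461 (branch (move 429 (leaf 429 4)) (move 460 (branch (move 428 (leaf 428 7)) (move 589 (branch (move 621 (leaf 493 6)) (move 492 (leaf 460 7))))))))))) (move 557 (branch (move 590 (branch (move 622 (leaf 493 7)) (move 591 (branch (move 623 (leaf 494 4)) (move 556 (branch (move 555 (leaf 555 0)) (move 592 (branch (move 593 (leaf 557 3)) (move 559 (leaf 556 0)))))))))) (branch (move 589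 (branch (move 621 (leaf 493 6)) (move 492 (branch (move 460 (leaf 460 7)) (move 491 (branch (move 490 (leaf 490 0)) (move 523 (branch (move 522 (leaf 490 1)) (move 559 (branch (move 524 (leaf 523 0)) (move 560 (branch (move 561 (leaf 525 3)) (move 588 (leaf 556 1)))))))))))))) (move 589 (branch (move 621 (leaf 493 6)) (move 590 (branch (move 622 (leaf 493 4)) (move 591 (branch (move 623 (leaf 494 4)) (move 556 (branch (move 592 (leaf 556 3)) (move 555 (leaf 555 0))))))))))))))))
theorem a6p15 : a6e15.Valid :=
  pos_of_chk [] forall_nil a6c15 a6e15 (by decide +kernel)

def a6e16 : Pos := ⟨329510287762989358691697063434341007948329749536956207605068577044420714242840626355117422631826461427798601630014987845021544588264928353297742257660910108672, 2026130653113380073680060142935112240200270437739005344273092226706433138629873271156228479548471889577344944215366561097693801996007148577730235882486218494411775576143199993856, 7⟩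
def a6c16 : Cert := (move 495 (branch (move 496 (branch (move 497 (leaf 493 1)) (move 464 (branch (move 465 (leaf 461 2)) (move 463 (branch (move 492 (leaf 460 2)) (move 431 (branch (move 399 (leaf 398 5)) (move 528 (branch (move 529 (leaf 493 0)) (move 560 (leaf 431 7)))))))))))) (branch (move 524 (branch (move 523 (leaf 491 2)) (move 496 (leaf 492 1)))) (move 492 (branch (move 523 (branch (move 524 (leaf 491 1)) (move 491 (branch (move 490 (leaf 490 0)) (move 522 (leaf 490 1)))))) (branch (move 491 (branch (move 490 (leaf 490 0)) (move 459 (branch (move 458 (leaf 458 3)) (move 460 (leaf 459 3)))))) (move 524 (branch (move 523 (leaf 491 1)) (move 460 (branch (move 459 (leaf 459 3)) (move 557 (branch (move 589 (leaf 460 7)) (move 428 (leaf 428 4))))))))))))))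
theorem a6p16 : a6e16.Valid :=
  pos_of_chk [] forall_nil a6c16 a6e16 (by decide +kernel)

def a6e17 : Pos := ⟨329510287762989358691697063434341007948329749536956207605068577044420714242840626355117422631826461427798601630014987845021544588264928353297742257660910108672, 17404329752672085588539261644660057790762654913735617585401227801209463986913592459792007020552459754566313863980613035524927551815924713587398220763164664425146346855552437710392274190336, 8⟩
def a6c17 : Cert := (move 558 (branch (move 461 (branch (move 590 (leaf 461 7)) (move 429 (leaf 429 4)))) (branch (move 495 (branch (move 496 (branch (move 497 (leaf 493 1)) (move 464 (branch (move 465 (leaf 461 2)) (move 492 (branch (move 463 (leaf 460 2)) (move 491 (branch (move 490 (leaf 490 0)) (move 459 (branch (move 458 (leaf 458 3)) (move 460 (leaf 459 3)))))))))))) (branch (move 524 (branch (move 523 (leaf 491 2)) (move 496 (leaf 492 1)))) (move 492 (branch (move 491 (branch (move 490 (leaf 490 0)) (move 459 (branch (move 458 (leaf 458 3)) (move 460 (leaf 459 3)))))) (branch (move 523 (branch (move 524 (leaf 491 1)) (move 491 (branch (move 490 (leaf 490 0)) (move 522 (leaf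 490 1)))))) (move 524 (branch (move 523 (leaf 491 1)) (move 429 (branch (move 461 (leaf 429 4)) (move 460 (branch (move 459 (leaf 459 3)) (move 428 (branch (move 397 (leaf 396 6)) (move 396 (leaf 396 4)))))))))))))))) (move 590 (branch (move 622 (leaf 493 7)) (move 495 (branch (move 463 (leaf 462 6)) (move 524 (branch (move 523 (leaf 491 2)) (move 496 (leaf 492 1)))))))))))
theorem a6p17 : a6e17.Valid :=
  pos_of_chk [] forall_nil a6c17 a6e17 (by decide +kernel)

def a6e18 : Pos := ⟨329510287762989358691697063434341007948329749536956207605068577044420714242840626355117422631826461427798601630014987845021544588264928353297742257660910108672, 30457577067176149782007593579157301184425001171792496009206906846941513991660173394052565884477016809795416108463852402916604958133741555967649955730595892740943599325138295424948144963584, 8⟩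
def a6c18 : Cert := (move 461 (branch (move 558 (branch (move 590 (leaf 461 7)) (move 429 (leaf 429 4)))) (branch (move 429 (branch (move 397 (leaf 397 4)) (move 524 (branch (move 556 (leaf 428 5)) (move 495 (branch (move 523 (leaf 491 2)) (move 496 (leaf 492 1)))))))) (move 557 (branch (move 590 (branch (move 558 (leaf 461 4)) (move 589 (branch (move 621 (leaf 493 6)) (move 622 (leaf 493 4)))))) (branch (move 589 (branch (move 621 (leaf 493 6)) (move 588 (branch (move 620 (leaf 492 5)) (move 556 (leaf 460 5)))))) (move 558 (branch (move 590 (leaf 461 4)) (move 556 (branch (move 588 (leaf 460 5)) (move 555 (branch (move 554 (leaf 522 2)) (move 523 (branch (move 522 (leaf 522 3)) (move 524 (branch (move 495 (leaf 491 2)) (move 559 (leaf 523 0))))))))))))))))))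
theorem a6p18 : a6e18.Valid :=
  pos_of_chk [] forall_nil a6c18 a6e18 (by decide +kernel)

def a6e19 : Pos := ⟨329510287737415994579416980733722186736624252428700757911207193430083519529241516494081496768250825407278789577167987883422514687502483595796043537515003510784, 25573364207176146566661322541410735983789443795181511576040394598489210742659292476669457951656387956189736280979598909768925049455211350504027193344, 8⟩
def a6c19 : Cert := (move 430 (branch (move 399 (branch (move 431 (leaf 398 6)) (move 398 (branch (move 367 (leaf 366 6)) (move 397 (branch (move 429 (leaf 397 7)) (move 365 (leaf 365 7)))))))) (branch (move 398 (branch (move 493 (leaf 397 5)) (move 399 (branch (move 431 (leaf 398 6)) (move 367 (leaf 366 6)))))) (branch (move 398 (branch (move 493 (leaf 397 5)) (move 397 (branch (move 429 (leaf 397 7)) (move 365 (leaf 365 7)))))) (move 429 (branch (move 397 (leaf 397 7)) (move 428 (branch (move 427 (branch (move 463 (leaf 427 0)) (move 426 (branch (move 461 (leaf 426 0)) (move 458 (branch (move 457 (leaf 425 1)) (move 459 (leaf 426 1)))))))) (branch (move 431 (branch (move 399 (leaf 398 6)) (move 460 (branch (move 459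 (leaf 427 1)) (move 461 (branch (move 432 (leaf 428 1)) (move 396 (branch (move 395 (leaf 395 3)) (move 493 (leaf 396 7)))))))))) (move 431 (branch (move 399 (leaf 398 6)) (move 463 (branch (move 427 (leaf 427 0)) (move 464 (leaf 428 0)))))))))))))))
theorem a6p19 : a6e19.Valid :=
  pos_of_chk [] forall_nil a6c19 a6e19 (by decide +kernel)

def a6e20 : Pos := ⟨329510287737415994579416980733722186736624252428700757911207193430083519529241516494081496768250825407278789577167987883422514687502483595796043537515003510784, 37375513600476177365460777353312456986396462442113966202446361725263194990073399015016905877314262178918822190402876081211898589901775558148691727089557392458490666705846270386136585890785310801920, 9⟩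
def a6c20 : Cert := (move 430 (branch (move 399 (branch (move 431 (leaf 398 6)) (move 398 (branch (move 367 (leaf 366 6)) (move 397 (branch (move 429 (leaf 397 7)) (move 365 (leaf 365 7)))))))) (branch (move 398 (branch (move 493 (leaf 397 5)) (move 399 (branch (move 431 (leaf 398 6)) (move 367 (leaf 366 6)))))) (branch (move 398 (branch (move 493 (leaf 397 5)) (move 397 (branch (move 429 (leaf 397 7)) (move 365 (leaf 365 7)))))) (move 431 (branch (move 399 (leaf 398 6)) (move 558 (branch (move 463 (leaf 430 6)) (move 429 (branch (move 397 (leaf 397 7)) (move 591 (branch (move 559 (leaf 462 4)) (move 590 (branch (move 623 (leaf 494 4)) (move 622 (branch (move 493 (leaf 493 7)) (move 621 (branch (move 653 (leaf 525 5)) (move 589 (leaf 493 5))))))))))))))))))))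
theorem a6p20 : a6e20.Valid :=
  pos_of_chk [] forall_nil a6c20 a6e20 (by decide +kernel)

def a6e21 : Pos := ⟨329510287737415994579416980733722186736624252428700757911207193430083519529241516494081496768250825407278789577167987883422514687502483595796043537515003510784, 943490606205385338085962009381675791061005192701656411671166442260877157180427048897821580881164133315948131907619787753226160388207176593452046830936560749767867498496, 6⟩
def a6c21 : Cert := (move 430 (branch (move 398 (branch (move 493 (leaf 397 5)) (move 399 (branch (move 431 (leaf 398 6)) (move 367 (leaf 366 6)))))) (branch (move 398 (branch (move 493 (leaf 397 5)) (move 397 (branch (move 429 (leaf 397 7)) (move 365 (leaf 365 7)))))) (move 429 (branch (move 397 (leaf 397 7)) (move 461 (branch (move 558 (leaf 429 7)) (move 431 (branch (move 399 (leaf 398 6)) (move 460 (branch (move 459 (leaf 427 2)) (move 432 (leaf 428 1)))))))))))))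
theorem a6p21 : a6e21.Valid :=
  pos_of_chk [] forall_nil a6c21 a6e21 (by decide +kernel)

def a6e22 : Pos := ⟨329510287737415994579416980733722186736624252428700757911207193430083519529241516494081496768250825407278789577167987883422514687502483595796043537515003510784, 52212989258016256765617784933774229440396620602616621082950444840881912734800320275521526018671623728184288428511346025190606950158795987830091767887481566979978667231903941596955143045120, 9⟩
def a6c22 : Cert := (move 558 (branch (move 591 (branch (move 559 (leaf 462 4)) (move 590 (branch (move 623 (leaf 494 4)) (move 493 (branch (move 622 (leaf 493 7)) (move 461 (leaf 461 7)))))))) (branch (move 463 (branch (move 431 (leaf 430 6)) (move 590 (branch (move 495 (leaf 462 6)) (move 493 (branch (move 622 (leaf 493 7)) (move 461 (leaf 461 7)))))))) (branch (move 463 (branch (move 431 (leaf 430 6)) (move 590 (branch (move 495 (leaf 462 6)) (move 591 (branch (move 623 (leaf 494 4)) (move 559 (leaf 462 4)))))))) (move 430 (branch (move 398 (branch (move 493 (leaf 397 5)) (move 559 (branch (move 591 (leaf 462 4)) (move 524 (branch (move 523 (leaf 523 0)) (move 367 (branch (move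 399 (leaf 366 6)) (move 366 (branch (move 335 (leaf 334 6)) (move 365 (branch (move 397 (leaf 365 7)) (move 333 (leaf 333 7)))))))))))))) (branch (move 431 (branch (move 463 (leaf 430 6)) (move 399 (leaf 398 6)))) (move 559 (branch (move 591 (leaf 462 4)) (move 398 (branch (move 493 (leaf 397 5)) (move 463 (branch (move 431 (leaf 430 6)) (move 366 (branch (move 495 (leaf 366 4)) (move 365 (branch (move 397 (leaf 365 7)) (move 333 (leaf 333 7)))))))))))))))))))
theorem a6p22 : a6e22.Valid :=
  pos_of_chk [] forall_nil a6c22 a6e22 (by decide +kernel)

def a6e23 : Pos := ⟨943490606534895625797804639826484203462952491840734359522752332972613234028120732550773197788496188653617919164969750802110634040903712845642842158654217548427352342528, 82377572682374899642069638085293487570988967688458069804258667735068674645706381576134529435334465439702592664582312940387057996721832413570483310288179298304, 9⟩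
def a6c23 : Cert := (move 495 (branch (move 524 (branch (move 523 (leaf 491 2)) (move 496 (branch (move 493 (leaf 492 1)) (move 497 (leaf 493 1)))))) (branch (move 461 (branch (move 429 (leaf 429 7)) (move 463 (branch (move 431 (leaf 430 6)) (move 460 (branch (move 459 (leaf 459 0)) (move 492 (branch (move 491 (leaf 459 1)) (move 464 (branch (move 493 (leaf 460 1)) (move 465 (branch (move 466 (leaf 462 1)) (move 433 (branch (move 432 (leaf 429 2)) (move 434 (leaf 430 2)))))))))))))))) (move 461 (branch (move 429 (leaf 429 7)) (move 496 (branch (move 497 (leaf 493 1)) (move 463 (branch (move 460 (leaf 460 0)) (move 431 (leaf 430 6)))))))))))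
theorem a6p23 : a6e23.Valid :=
  pos_of_chk [] forall_nil a6c23 a6e23 (by decide +kernel)

def a6e24 : Pos := ⟨329510287737415994579416980733722186736624252428700757911207193430083519529241516494081496768250825407278789577167987883422514687502483595796043537515003510784, 34808659509396432475757358581462937460693454083348811496094519799440994321089509783578484873138638524268850669998734041564734450992981592147597988213602549783702087257050391410141420322816, 10⟩
def a6c24 : Cert := (move 558 (branch (move 463 (branch (move 431 (leaf 430 6)) (move 495 (branch (move 590 (leaf 462 6)) (move 461 (branch (move 429 (leaf 429 7)) (move 496 (branch (move 497 (leaf 493 1)) (move 460 (leaf 460 0)))))))))) (branch (move 559 (branch (move 591 (leaf 462 4)) (move 463 (branch (move 431 (leaf 430 6)) (move 495 (branch (move 590 (leaf 462 6)) (move 524 (branch (move 523 (leaf 523 0)) (move 496 (branch (move 493 (leaf 492 1)) (move 497 (leaf 493 1)))))))))))) (branch (move 461 (branch (move 429 (leaf 429 7)) (move 590 (branch (move 493 (leaf 461 7)) (move 591 (branch (move 623 (leaf 494 4)) (move 559 (leaf 462 4)))))))) (ref 0)))))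
theorem a6p24 : a6e24.Valid :=
  pos_of_chk [a6e23] (forall_cons a6p23 forall_nil) a6c24 a6e24 (by decide +kernel)

def a6e25 : Pos := ⟨329510287737415994579416980733722186736624252428700757911207193430083519529241516494081496768250825407278789577167987883422514687502483595796043537515003510784, 52212989258016256765617784933774229441032758035353925003771403534301808349157592963992555302011654811684453634059546125051778835208200644770860990752791236761427339940306935430893583466496, 11⟩
def a6c25 : Cert := (move 429 (branch (move 461 (branch (move 558 (leaf 429 7)) (move 397 (branch (move 430 (leaf 397 7)) (move 365 (leaf 365 4)))))) (branch (move 397 (branch (move 430 (leaf 397 7)) (move 461 (branch (move 493 (leaf 397 4)) (move 365 (leaf 365 4)))))) (branch (move 558 (branch (move 461 (leaf 429 7)) (move 591 (branch (move 559 (leaf 462 4)) (move 590 (branch (move 623 (leaf 494 4)) (move 495 (branch (move 463 (leaf 462 6)) (move 493 (branch (move 622 (leaf 493 7)) (move 524 (branch (move 523 (leaf 491 2)) (move 496 (leaf 492 1)))))))))))))) (move 430 (branch (move 397 (leaf 397 7)) (move 493 (branch (move 398 (leaf 397 5)) (move 495 (branch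 (move 496 (branch (move 497 (leaf 493 1)) (move 464 (branch (move 465 (leaf 461 2)) (move 492 (branch (move 463 (leaf 460 2)) (move 491 (branch (move 490 (leaf 490 0)) (move 459 (branch (move 458 (leaf 458 3)) (move 460 (leaf 459 3)))))))))))) (branch (move 524 (branch (move 523 (leaf 491 2)) (move 496 (leaf 492 1)))) (move 524 (branch (move 523 (leaf 491 2)) (move 492 (branch (move 491 (branch (move 490 (leaf 490 0)) (move 459 (branch (move 458 (leaf 458 3)) (move 460 (leaf 459 3)))))) (branch (move 463 (branch (move 464 (leaf 460 2)) (move 558 (branch (move 590 (leaf 462 6)) (move 428 (branch (move 427 (leaf 427 0)) (move 460 (branch (move 459 (leaf 459 3)) (move 396 (leaf 396 4)))))))))) (move 463 (branch (move 491 (leaf 459 2)) (move 464 (leaf 460 2))))))))))))))))))))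
theorem a6p25 : a6e25.Valid :=
  pos_of_chk [] forall_nil a6c25 a6e25 (by decide +kernel)

def a6e26 : Pos := ⟨329510287737415994579416980733722186736624252428700757911207193430083519529241516494081496768250825407278789577167987883422514687502483595796043537515003510784, 74751027131335035722259343006524738071772755976621725189599755547498630664629622728611792866110229399517570598182758799830519296203562267238802287710871231542160861288403682582829915068864397312000, 6⟩
def a6c26 : Cert := (move 558 (branch (move 559 (branch (move 591 (leaf 462 4)) (move 557 (branch (move 589 (leaf 461 5)) (move 524 (branch (move 560 (leaf 524 3)) (move 523 (leaf 523 0)))))))) (branch (move 463 (branch (move 431 (leaf 430 6)) (move 590 (branch (move 495 (leaf 462 6)) (move 591 (branch (move 623 (leaf 494 4)) (move 559 (leaf 462 4)))))))) (move 557 (branch (move 589 (leaf 461 5)) (move 463 (branch (move 431 (leaf 430 6)) (move 590 (branch (move 495 (leaf 462 6)) (move 622 (branch (move 654 (leaf 525 7)) (move 493 (leaf 493 7)))))))))))))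
theorem a6p26 : a6e26.Valid :=
  pos_of_chk [] forall_nil a6c26 a6e26 (by decide +kernel)

def a6e27 : Pos := ⟨329510287762989358691697063434341007948329749536956207605068577044420714242840626355117422631826461427798601630014987845021544588264928353297742257660910108672, 4009835079091347560906804078708606607111429342488051832170343185528375527942891093101688044231438361166768377495636340650005240812593176152693483980871268760277720498176, 10⟩
def a6c27 : Cert := (move 495 (branch (move 496 (branch (move 497 (leaf 493 1)) (move 464 (branch (move 465 (leaf 461 2)) (move 463 (branch (move 492 (leaf 460 2)) (move 431 (branch (move 399 (leaf 398 5)) (move 528 (branch (move 529 (leaf 493 0)) (move 560 (leaf 431 7)))))))))))) (branch (move 524 (branch (move 523 (leaf 491 2)) (move 496 (leaf 492 1)))) (move 492 (branch (move 491 (branch (move 490 (leaf 490 0)) (move 463 (branch (move 462 (leaf 459 2)) (move 464 (leaf 460 2)))))) (branch (move 524 (branch (move 523 (leaf 491 1)) (move 460 (branch (move 459 (leaf 459 3)) (move 428 (branch (move 396 (leaf 396 4)) (move 429 (branch (move 397 (leaf 396 6)) (move 461 (branch (move 556 (leaf 428 5))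 (move 463 (branch (move 464 (leaf 460 2)) (move 427 (branch (move 462 (leaf 427 3)) (move 395 (leaf 395 7)))))))))))))))) (move 524 (branch (move 523 (leaf 491 1)) (move 491 (branch (move 490 (leaf 490 0)) (move 459 (branch (move 458 (leaf 458 3)) (move 460 (leaf 459 3))))))))))))))
theorem a6p27 : a6e27.Valid :=
  pos_of_chk [] forall_nil a6c27 a6e27 (by decide +kernel)

def a6e28 : Pos := ⟨329510287762989358691697063434341007948329749536956207605068577044420714242840626355117422631826461427798601630014987845021544588264928353297742257660910108672, 13053247314504064195178408660880586621556936217162843688341045390236996455109160434835000527996844769845595927220839774502999704623943941634613783186669305520771154989973247705479169179648, 9⟩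
def a6c28 : Cert := (move 495 (branch (move 496 (branch (move 497 (leaf 493 1)) (move 464 (branch (move 465 (leaf 461 2)) (move 463 (branch (move 492 (leaf 460 2)) (move 431 (branch (move 399 (leaf 398 5)) (move 528 (branch (move 529 (leaf 493 0)) (move 560 (leaf 431 7)))))))))))) (branch (move 492 (branch (move 491 (branch (move 490 (leaf 490 0)) (move 463 (branch (move 462 (leaf 459 2)) (move 464 (leaf 460 2)))))) (move 460 (branch (move 459 (leaf 459 3)) (move 557 (branch (move 589 (leaf 460 7)) (move 428 (branch (move 461 (leaf 428 7)) (move 396 (leaf 396 4)))))))))) (move 496 (branch (move 497 (leaf 493 1)) (move 461 (branch (move 460 (leaf 460 3)) (move 429 (branch (move 397 (leaf 397 4)) (move 430 (branch (move 398 (leaf 397 6)) (move 557 (branch (move 462 (leaf 429 5)) (move 589 (branch (move 621 (leaf 493 6)) (move 588 (branch (move 620 (leaf 492 5)) (move 556 (leaf 460 5)))))))))))))))))))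
theorem a6p28 : a6e28.Valid :=
  pos_of_chk [] forall_nil a6c28 a6e28 (by decide +kernel)

def a6e29 : Pos := ⟨329510287762989358691697063434341007948329749536956207605068577044420714242840626355117422631826461427798601630014987845021544588264928353297742257660910108672, 13053247314504064191404446233477881348674721863578977971673753853563821028886544155532623545521272422251713128848432988601242302040334418147399109654317416524135737881925737157826334162944, 7⟩
def a6c29 : Cert := (move 557 (branch (move 589 (branch (move 621 (leaf 493 6)) (move 588 (branch (move 620 (leaf 492 5)) (move 461 (branch (move 556 (leaf 460 5)) (move 429 (branch (move 397 (leaf 397 4)) (move 428 (branch (move 460 (leaf 428 7)) (move 396 (leaf 396 7)))))))))))) (branch (move 462 (branch (move 589 (leaf 461 6)) (move 430 (leaf 429 5)))) (move 461 (branch (move 429 (branch (move 397 (leaf 397 4)) (move 556 (branch (move 588 (leaf 460 5)) (move 524 (leaf 428 5)))))) (move 462 (branch (move 430 (leaf 429 5)) (move 460 (branch (move 428 (leaf 428 7)) (move 495 (branch (move 496 (leaf 460 3)) (move 459 (leaf 459 0)))))))))))))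
theorem a6p29 : a6e29.Valid :=
  pos_of_chk [] forall_nil a6c29 a6e29 (by decide +kernel)

def a6e30 : Pos := ⟨329510287762989358691697063434341007948329749536956207605068577044420714242840626355117422631826461427798601630014987845021544588264928353297742257660910108672, 3039195977783088896729495208226423072483834236244559181238857620551608729515816661840275498479111950228803969009249161390789146643281620376321393013326130709729507482737076862976, 11⟩
def a6c30 : Cert := (move 495 (branch (move 496 (branch (move 497 (leaf 493 1)) (move 464 (branch (move 465 (leaf 461 2)) (move 463 (branch (move 492 (leaf 460 2)) (move 431 (branch (move 399 (leaf 398 5)) (move 528 (branch (move 529 (leaf 493 0)) (move 560 (leaf 431 7)))))))))))) (branch (move 524 (branch (move 523 (leaf 491 2)) (move 496 (leaf 492 1)))) (move 492 (branch (move 491 (branch (move 490 (leaf 490 0)) (move 463 (branch (move 462 (leaf 459 2)) (move 464 (leaf 460 2)))))) (branch (move 524 (branch (move 523 (leaf 491 1)) (move 491 (branch (move 490 (leaf 490 0)) (move 459 (branch (move 458 (leaf 458 3)) (move 460 (leaf 459 3)))))))) (move 524 (branch (move 523 (leaf 491 1)) (move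 460 (branch (move 459 (leaf 459 3)) (move 557 (branch (move 589 (leaf 460 7)) (move 462 (branch (move 430 (leaf 429 5)) (move 463 (branch (move 464 (leaf 460 2)) (move 431 (branch (move 399 (leaf 398 5)) (move 461 (branch (move 432 (leaf 428 2)) (move 556 (branch (move 588 (leaf 460 5)) (move 429 (leaf 428 5))))))))))))))))))))))))
theorem a6p30 : a6e30.Valid :=
  pos_of_chk [] forall_nil a6c30 a6e30 (by decide +kernel)

def a6e31 : Pos := ⟨329510287737415994579416980733722186736624252428700757911207193430083519529241516494081496768250825407278789577167987883422514687502483595796043537515003510784, 34808659511422563128870738652410808133729798918290995050343662697259297370590586485979845888470483283005502646051901729623600332952090398173945683327543001362397279886683112125692563685376, 7⟩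
def a6c31 : Cert := (move 558 (branch (move 559 (branch (move 591 (leaf 462 4)) (move 557 (branch (move 589 (leaf 461 5)) (move 524 (branch (move 560 (leaf 524 3)) (move 523 (leaf 523 0)))))))) (branch (move 461 (branch (move 429 (leaf 429 7)) (move 590 (branch (move 493 (leaf 461 7)) (move 591 (branch (move 623 (leaf 494 4)) (move 559 (leaf 462 4)))))))) (move 557 (branch (move 589 (leaf 461 5)) (move 461 (branch (move 429 (leaf 429 7)) (move 493 (branch (move 590 (leaf 461 4)) (move 460 (branch (move 428 (leaf 428 7)) (move 495 (branch (move 496 (leaf 460 3)) (move 459 (leaf 459 0)))))))))))))))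
theorem a6p31 : a6e31.Valid :=
  pos_of_chk [] forall_nil a6c31 a6e31 (by decide +kernel)

def a6e32 : Pos := ⟨471745303432202956908263819874079412417993695626540493208887524159044635700429501450924079069761848184932283143879463078842158115673747202801597415648814398562652651520, 82377571921567316951552095044291184264153664043003811891808394984754277033514345519299132206172633431345916606446596797425537966139552938514434679670965272576, 10⟩
def a6c32 : Cert := (move 431 (branch (move 463 (branch (move 464 (leaf 460 2)) (move 399 (leaf 398 5)))) (branch (move 524 (branch (move 523 (leaf 491 1)) (move 430 (branch (move 462 (leaf 429 5)) (move 464 (branch (move 463 (leaf 460 2)) (move 432 (branch (move 465 (leaf 429 0)) (move 397 (branch (move 396 (leaf 396 3)) (move 433 (branch (move 398 (leaf 397 3)) (move 401 (branch (move 400 (leaf 397 2)) (move 402 (leaf 398 2)))))))))))))))) (branch (move 524 (branch (move 523 (leaf 491 1)) (move 430 (branch (move 462 (leaf 429 5)) (move 399 (branch (move 463 (leaf 398 5)) (move 400 (branch (move 428 (leaf 396 2)) (move 401 (branch (move 432 (leaf 397 2)) (move 398 (leaf 397 1)))))))))))) (move 430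 (branch (move 462 (leaf 429 5)) (move 428 (branch (move 399 (branch (move 400 (leaf 396 2)) (move 427 (branch (move 398 (leaf 395 2)) (move 395 (branch (move 394 (leaf 394 3)) (move 396 (leaf 395 3)))))))) (branch (move 524 (branch (move 523 (leaf 491 1)) (move 399 (branch (move 400 (leaf 396 2)) (move 427 (branch (move 398 (leaf 395 2)) (move 458 (branch (move 459 (leaf 426 1)) (move 426 (branch (move 457 (leaf 425 1)) (move 394 (branch (move 393 (leaf 393 3)) (move 395 (leaf 394 3)))))))))))))) (branch (move 524 (branch (move 523 (leaf 491 1)) (move 396 (branch (move 395 (leaf 395 3)) (move 432 (branch (move 397 (leaf 396 3)) (move 465 (branch (move 464 (leaf 429 0)) (move 433 (branch (move 466 (leaf 430 0)) (move 401 (branch (move 400 (leaf 397 2)) (move 402 (leaf 398 2)))))))))))))) (branch (move 524 (branch (move 523 (leaf 491 1)) (move 400 (branch (move 399 (leaf 396 2)) (move 432 (branch (move 401 (leaf 397 2)) (move 465 (branch (move 464 (leaf 429 0)) (move 433 (branch (move 466 (leaf 430 0)) (move 397 (branch (move 396 (leaf 396 3)) (move 398 (leaf 397 3)))))))))))))) (move 524 (branch (move 523 (leaf 491 1)) (move 395 (branch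 (move 396 (leaf 395 3)) (move 427 (branch (move 394 (leaf 394 3)) (move 458 (branch (move 459 (leaf 426 1)) (move 426 (branch (move 457 (leaf 425 1)) (move 398 (branch (move 397 (leaf 394 2)) (move 399 (leaf 395 2)))))))))))))))))))))))))
theorem a6p32 : a6e32.Valid :=
  pos_of_chk [] forall_nil a6c32 a6e32 (by decide +kernel)

def a6e33 : Pos := ⟨329510287737415994567508455074862963441864131160263691620357133376582500429589581070705902671800913831502475402273685625274981533505418536533012624431780986880, 30457577075280672378421773560093315433204466954758414977427601034814466094068321791817079530993241144251686489976891075492367942404367944992680949116706553034662424661635625375339728863232, 15⟩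
def a6c33 : Cert := (move 493 (branch (ref 0) (branch (ref 1) (branch (ref 2) (branch (ref 3) (branch (move 557 (branch (move 589 (branch (move 621 (leaf 493 6)) (move 588 (branch (move 620 (leaf 492 5)) (move 461 (branch (move 556 (leaf 460 5)) (move 429 (branch (move 397 (leaf 397 4)) (move 428 (branch (move 460 (leaf 428 7)) (move 396 (leaf 396 7)))))))))))) (branch (move 462 (branch (move 589 (leaf 461 6)) (move 430 (leaf 429 5)))) (move 461 (branch (move 462 (branch (move 430 (leaf 429 5)) (move 460 (branch (move 428 (leaf 428 7)) (move 459 (branch (move 458 (leaf 458 0)) (move 491 (branch (move 490 (leaf 458 1)) (move 463 (branch (move 492 (leaf 459 1)) (move 464 (branch (move 465 (leaf 461 1)) (move 432 (branch (move 431 (leaf 428 2)) (move 433 (leaf 429 2)))))))))))))))) (move 429 (branch (move 397 (leaf 397 4)) (move 556 (branch (move 588 (leaf 460 5)) (move 524 (leaf 428 5))))))))))) (branch (move 557 (branch (move 589 (branch (move 621 (leaf 493 6)) (move 588 (branch (move 620 (leaf 492 5)) (move 461 (branch (move 556 (leaf 460 5)) (move 429 (branch (move 397 (leaf 397 4)) (move 428 (branch (move 460 (leaf 428 7)) (move 396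 (leaf 396 7)))))))))))) (branch (move 589 (branch (move 621 (leaf 493 6)) (move 462 (leaf 461 6)))) (move 495 (branch (move 496 (branch (move 497 (leaf 493 1)) (move 464 (branch (move 465 (leaf 461 2)) (move 463 (branch (move 492 (leaf 460 2)) (move 528 (branch (move 529 (leaf 493 0)) (move 431 (branch (move 560 (leaf 431 7)) (move 399 (leaf 399 4)))))))))))) (branch (move 524 (branch (move 523 (leaf 491 2)) (move 496 (leaf 492 1)))) (move 492 (branch (move 462 (branch (move 430 (leaf 429 5)) (move 463 (branch (move 491 (leaf 459 2)) (move 464 (leaf 460 2)))))) (branch (move 523 (branch (move 524 (leaf 491 1)) (move 491 (branch (move 490 (leaf 490 0)) (move 522 (leaf 490 1)))))) (move 524 (branch (move 523 (leaf 491 1)) (move 462 (branch (move 430 (leaf 429 5)) (move 463 (branch (move 464 (leaf 460 2)) (move 460 (branch (move 428 (leaf 428 4)) (move 431 (branch (move 399 (leaf 398 5)) (move 461 (branch (move 432 (leaf 428 2)) (move 556 (branch (move 588 (leaf 460 5)) (move 429 (leaf 428 5))))))))))))))))))))))))) (branch (ref 4) (move 557 (branch (move 462 (branch (move 589 (leaf 461 6)) (move 430 (leaf 429 5)))) (branch (move 589 (branch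 (move 621 (leaf 493 6)) (move 588 (branch (move 620 (leaf 492 5)) (move 556 (branch (move 461 (leaf 460 5)) (move 555 (branch (move 554 (leaf 522 2)) (move 590 (branch (move 591 (leaf 555 3)) (move 622 (leaf 493 4)))))))))))) (move 495 (branch (move 496 (branch (move 497 (leaf 493 1)) (move 464 (branch (move 465 (leaf 461 2)) (move 463 (branch (move 492 (leaf 460 2)) (move 528 (branch (move 529 (leaf 493 0)) (move 431 (branch (move 560 (leaf 431 7)) (move 399 (leaf 399 4)))))))))))) (branch (move 524 (branch (move 523 (leaf 491 2)) (move 496 (leaf 492 1)))) (move 429 (branch (move 461 (branch (move 397 (leaf 397 4)) (move 524 (branch (move 523 (leaf 491 2)) (move 556 (leaf 428 5)))))) (branch (move 430 (branch (move 462 (leaf 429 5)) (move 461 (branch (move 398 (leaf 397 6)) (move 397 (leaf 397 4)))))) (branch (move 430 (branch (move 462 (leaf 429 5)) (move 524 (branch (move 523 (leaf 491 2)) (move 461 (branch (move 398 (leaf 397 6)) (move 556 (leaf 428 5)))))))) (move 492 (branch (move 462 (branch (move 430 (leaf 429 5)) (move 463 (branch (move 491 (leaf 459 2)) (move 464 (leaf 460 2)))))) (branch (move 523 (branch (move 524 (leaf 491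 1)) (move 491 (branch (move 490 (leaf 490 0)) (move 522 (leaf 490 1)))))) (ref 5))))))))))))))))))))))
theorem a6p33 : a6e33.Valid :=
  pos_of_chk [a6e27, a6e16, a6e28, a6e29, a6e30, a6e32] (forall_cons a6p27 (forall_cons a6p16 (forall_cons a6p28 (forall_cons a6p29 (forall_cons a6p30 (forall_cons a6p32 forall_nil)))))) a6c33 a6e33 (by decide +kernel)

def a6e34 : Pos := ⟨329510287686269266319131238355906874428932894406878659650934246040906072803087490501882862751749818638910222946791081185781855423986398903003553357973522743296, 112126540683949306314472889923035518766118401559363506936424635366994868167324754028732518314781377642869895317977565692163175538687317911233383345466669676540268566820929301011007855037384795095040, 16⟩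
def a6c34 : Cert := (move 494 (branch (move 462 (branch (move 558 (branch (move 559 (branch (move 591 (leaf 462 4)) (move 463 (branch (move 431 (leaf 430 6)) (move 495 (branch (move 590 (leaf 462 6)) (move 524 (branch (move 523 (leaf 523 0)) (move 461 (branch (move 429 (leaf 429 7)) (move 496 (branch (move 497 (leaf 493 1)) (move 460 (leaf 460 0)))))))))))))) (branch (move 557 (branch (move 589 (leaf 461 5)) (move 463 (branch (move 431 (leaf 430 6)) (move 495 (branch (move 590 (leaf 462 6)) (move 461 (branch (move 429 (leaf 429 7)) (move 496 (branch (move 497 (leaf 493 1)) (move 460 (leaf 460 0)))))))))))) (move 559 (branch (move 591 (leaf 462 4)) (move 557 (branch (move 589 (leaf 461 5)) (move 524 (branch (move 560 (leaf 524 3)) (move 523 (leaf 523 0))))))))))) (branch (move 430 (branch (move 557 (leaf 429 5)) (move 399 (branch (move 431 (leaf 398 6)) (move 398 (branch (move 367 (leaf 366 6)) (move 397 (branch (move 429 (leaf 397 7)) (move 365 (leaf 365 7)))))))))) (branch (move 557 (branch (move 430 (leaf 429 5)) (move 589 (branch (move 621 (leaf 493 6)) (move 558 (leaf 461 5)))))) (ref 0))))) (branch (move 493 (branch (move 461 (branch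 (move 429 (branch (move 397 (leaf 397 4)) (move 428 (branch (move 396 (leaf 396 7)) (move 460 (branch (move 557 (leaf 428 7)) (move 459 (branch (move 458 (leaf 458 0)) (move 430 (branch (move 431 (leaf 427 1)) (move 398 (leaf 397 6)))))))))))) (branch (move 558 (branch (move 590 (leaf 461 7)) (move 429 (leaf 429 4)))) (move 557 (branch (move 460 (branch (move 428 (leaf 428 7)) (move 495 (branch (move 496 (leaf 460 3)) (move 459 (branch (move 492 (leaf 459 3)) (move 458 (leaf 458 0)))))))) (move 590 (branch (move 558 (leaf 461 4)) (move 589 (branch (move 621 (leaf 493 6)) (move 622 (leaf 493 4))))))))))) (branch (ref 1) (branch (ref 2) (branch (ref 3) (ref 4)))))) (branch (move 462 (branch (ref 0) (branch (ref 5) (branch (ref 6) (branch (ref 7) (branch (ref 8) (branch (ref 9) (ref 10)))))))) (branch (move 462 (branch (move 557 (branch (move 430 (leaf 429 5)) (move 589 (branch (move 621 (leaf 493 6)) (move 558 (leaf 461 5)))))) (branch (ref 5) (move 558 (branch (move 559 (branch (move 591 (leaf 462 4)) (move 557 (branch (move 589 (leaf 461 5)) (move 524 (branch (move 560 (leaf 524 3)) (move 523 (leaf 523 0)))))))) (branch (move 461 (branch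 (move 429 (leaf 429 7)) (move 590 (branch (move 493 (leaf 461 7)) (move 591 (branch (move 623 (leaf 494 4)) (move 559 (leaf 462 4)))))))) (move 557 (branch (move 589 (leaf 461 5)) (move 461 (branch (move 429 (leaf 429 7)) (move 493 (branch (move 590 (leaf 461 4)) (move 463 (branch (move 431 (leaf 430 6)) (move 492 (branch (move 491 (leaf 459 2)) (move 464 (leaf 460 1)))))))))))))))))) (branch (move 462 (branch (move 430 (branch (move 557 (leaf 429 5)) (move 399 (branch (move 431 (leaf 398 6)) (move 398 (branch (move 367 (leaf 366 6)) (move 397 (branch (move 429 (leaf 397 7)) (move 365 (leaf 365 7)))))))))) (branch (move 557 (branch (move 430 (leaf 429 5)) (move 589 (branch (move 621 (leaf 493 6)) (move 558 (leaf 461 5)))))) (branch (ref 0) (move 558 (branch (move 463 (branch (move 431 (leaf 430 6)) (move 495 (branch (move 590 (leaf 462 6)) (move 461 (branch (move 429 (leaf 429 7)) (move 496 (branch (move 497 (leaf 493 1)) (move 460 (leaf 460 0)))))))))) (branch (move 591 (branch (move 559 (leaf 462 4)) (move 590 (branch (move 623 (leaf 494 4)) (move 493 (branch (move 622 (leaf 493 7)) (move 461 (leaf 461 7)))))))) (branch (move 463 (branch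 (move 431 (leaf 430 6)) (move 590 (branch (move 495 (leaf 462 6)) (move 591 (branch (move 623 (leaf 494 4)) (move 559 (leaf 462 4)))))))) (move 557 (branch (move 589 (leaf 461 5)) (move 461 (branch (move 429 (leaf 429 7)) (move 463 (branch (move 431 (leaf 430 6)) (move 559 (branch (move 591 (leaf 462 4)) (move 560 (branch (move 561 (leaf 525 3)) (move 528 (branch (move 529 (leaf 525 2)) (move 592 (branch (move 593 (leaf 557 0)) (move 496 (branch (move 495 (leaf 463 7)) (move 464 (branch (move 497 (leaf 461 0)) (move 493 (branch (move 492 (leaf 460 1)) (move 465 (leaf 461 1)))))))))))))))))))))))))))))) (branch (move 462 (branch (ref 0) (branch (ref 8) (branch (ref 9) (move 430 (branch (move 557 (leaf 429 5)) (move 398 (branch (move 493 (leaf 397 5)) (move 397 (branch (move 429 (leaf 397 7)) (move 365 (leaf 365 7)))))))))))) (branch (move 493 (branch (ref 1) (branch (ref 2) (branch (ref 3) (branch (ref 4) (move 558 (branch (move 590 (branch (move 622 (leaf 493 7)) (move 591 (branch (move 623 (leaf 494 4)) (move 559 (branch (move 462 (leaf 462 4)) (move 560 (branch (move 561 (leaf 525 3)) (move 589 (branch (move 588 (leaf 556 2)) (move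 621 (leaf 493 5)))))))))))) (branch (move 461 (branch (move 590 (leaf 461 7)) (move 429 (leaf 429 4)))) (move 462 (branch (move 461 (branch (move 429 (leaf 429 4)) (move 463 (branch (move 431 (leaf 430 6)) (move 492 (branch (move 491 (leaf 459 2)) (move 464 (leaf 460 1)))))))) (branch (move 557 (branch (move 589 (leaf 461 5)) (move 463 (branch (move 431 (leaf 430 6)) (move 492 (branch (move 491 (leaf 459 2)) (move 464 (branch (move 495 (leaf 460 2)) (move 465 (leaf 461 1)))))))))) (move 461 (branch (move 429 (leaf 429 4)) (move 557 (branch (move 589 (leaf 461 5)) (move 460 (branch (move 428 (leaf 428 7)) (move 459 (branch (move 458 (leaf 458 0)) (move 495 (leaf 459 0))))))))))))))))))))) (branch (move 462 (branch (move 430 (branch (move 557 (leaf 429 5)) (move 399 (branch (move 431 (leaf 398 6)) (move 398 (branch (move 367 (leaf 366 6)) (move 397 (branch (move 429 (leaf 397 7)) (move 365 (leaf 365 7)))))))))) (branch (move 557 (branch (move 430 (leaf 429 5)) (move 589 (branch (move 621 (leaf 493 6)) (move 558 (leaf 461 5)))))) (branch (ref 6) (ref 11))))) (branch (move 493 (branch (ref 12) (branch (ref 2) (branch (ref 13) (branch (ref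 14) (branch (ref 15) (move 462 (branch (move 430 (branch (move 398 (leaf 397 5)) (move 431 (branch (move 399 (leaf 398 6)) (move 463 (branch (move 558 (leaf 430 6)) (move 429 (branch (move 397 (leaf 397 7)) (move 464 (branch (move 465 (leaf 461 1)) (move 428 (leaf 428 0)))))))))))) (branch (move 557 (branch (move 589 (leaf 461 6)) (move 430 (leaf 429 5)))) (move 558 (branch (move 461 (branch (move 429 (leaf 429 4)) (move 463 (branch (move 431 (leaf 430 6)) (move 492 (branch (move 491 (leaf 459 2)) (move 464 (leaf 460 1)))))))) (move 557 (branch (move 589 (leaf 461 5)) (move 559 (branch (move 591 (leaf 462 4)) (move 524 (branch (move 560 (leaf 524 3)) (move 523 (leaf 523 0))))))))))))))))))) (branch (move 462 (branch (move 557 (branch (move 430 (leaf 429 5)) (move 589 (branch (move 621 (leaf 493 6)) (move 558 (leaf 461 5)))))) (branch (ref 8) (branch (move 430 (branch (move 557 (leaf 429 5)) (move 398 (branch (move 493 (leaf 397 5)) (move 399 (branch (move 431 (leaf 398 6)) (move 367 (leaf 366 6)))))))) (ref 11))))) (branch (move 462 (branch (move 430 (branch (move 557 (leaf 429 5)) (move 399 (branch (move 431 (leaf 398 6)) (move 398 (branch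 (move 367 (leaf 366 6)) (move 397 (branch (move 429 (leaf 397 7)) (move 365 (leaf 365 7)))))))))) (branch (move 557 (branch (move 430 (leaf 429 5)) (move 589 (branch (move 621 (leaf 493 6)) (move 558 (leaf 461 5)))))) (branch (ref 7) (ref 16))))) (branch (move 462 (branch (move 430 (branch (move 557 (leaf 429 5)) (move 399 (branch (move 431 (leaf 398 6)) (move 398 (branch (move 367 (leaf 366 6)) (move 397 (branch (move 429 (leaf 397 7)) (move 365 (leaf 365 7)))))))))) (branch (move 557 (branch (move 430 (leaf 429 5)) (move 589 (branch (move 621 (leaf 493 6)) (move 558 (leaf 461 5)))))) (branch (ref 0) (move 558 (branch (move 463 (branch (move 431 (leaf 430 6)) (move 495 (branch (move 590 (leaf 462 6)) (move 461 (branch (move 429 (leaf 429 7)) (move 496 (branch (move 497 (leaf 493 1)) (move 460 (leaf 460 0)))))))))) (branch (ref 17) (branch (move 557 (branch (move 589 (leaf 461 5)) (move 461 (branch (move 429 (leaf 429 7)) (move 493 (branch (move 590 (leaf 461 4)) (move 463 (branch (move 431 (leaf 430 6)) (move 492 (branch (move 491 (leaf 459 2)) (move 464 (leaf 460 1)))))))))))) (branch (move 557 (branch (move 589 (leaf 461 5)) (move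 463 (branch (move 431 (leaf 430 6)) (move 590 (branch (move 495 (leaf 462 6)) (move 622 (branch (move 654 (leaf 525 7)) (move 493 (leaf 493 7)))))))))) (move 557 (branch (move 589 (leaf 461 5)) (move 461 (branch (move 429 (leaf 429 7)) (move 493 (branch (move 590 (leaf 461 4)) (move 460 (branch (move 428 (leaf 428 7)) (move 495 (branch (move 496 (leaf 460 3)) (move 459 (leaf 459 0))))))))))))))))))))) (branch (move 462 (branch (move 557 (branch (move 430 (leaf 429 5)) (move 589 (branch (move 621 (leaf 493 6)) (move 558 (leaf 461 5)))))) (branch (move 430 (branch (move 557 (leaf 429 5)) (move 398 (branch (move 493 (leaf 397 5)) (move 397 (branch (move 429 (leaf 397 7)) (move 365 (leaf 365 7)))))))) (branch (ref 10) (ref 16))))) (branch (move 462 (branch (move 557 (branch (move 430 (leaf 429 5)) (move 589 (branch (move 621 (leaf 493 6)) (move 558 (leaf 461 5)))))) (branch (ref 9) (move 430 (branch (move 557 (leaf 429 5)) (move 398 (branch (move 493 (leaf 397 5)) (move 399 (branch (move 431 (leaf 398 6)) (move 367 (leaf 366 6))))))))))) (ref 18))))))))))))))))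
theorem a6p34 : a6e34.Valid :=
  pos_of_chk [a6e14, a6e15, a6e16, a6e17, a6e18, a6e19, a6e20, a6e21, a6e22, a6e24, a6e25, a6e26, a6e27, a6e28, a6e29, a6e30, a6e31, a6e23, a6e33] (forall_cons a6p14 (forall_cons a6p15 (forall_cons a6p16 (forall_cons a6p17 (forall_cons a6p18 (forall_cons a6p19 (forall_cons a6p20 (forall_cons a6p21 (forall_cons a6p22 (forall_cons a6p24 (forall_cons a6p25 (forall_cons a6p26 (forall_cons a6p27 (forall_cons a6p28 (forall_cons a6p29 (forall_cons a6p30 (forall_cons a6p31 (forall_cons a6p23 (forall_cons a6p33 forall_nil))))))))))))))))))) a6c34 a6e34 (by decide +kernel)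

def a6e35 : Pos := ⟨4052261298678835292472332167570467717662080071974089673208741147724665484307446983010438509877662724071904849030382066452897207911551845438777377979320708828006228271112317304832, 802633041804976552704400022719427434484648683810651899086597201498014763784082903632228048839124287438838570869023718069615736151366983240067803108873799237723920347984244823500478303851560682631076985700352, 9⟩
def a6c35 : Cert := (move 623 (branch (move 622 (branch (move 655 (leaf 526 4)) (move 621 (branch (move 653 (leaf 525 5)) (move 589 (branch (move 494 (leaf 493 5)) (move 588 (branch (move 587 (leaf 587 0)) (move 624 (leaf 588 3)))))))))) (branch (move 591 (branch (move 494 (leaf 494 4)) (move 655 (branch (move 559 (leaf 526 7)) (move 687 (leaf 558 7)))))) (branch (move 655 (branch (move 622 (leaf 526 4)) (move 591 (branch (move 559 (leaf 526 7)) (move 687 (leaf 558 7)))))) (move 589 (branch (move 621 (branch (move 494 (leaf 493 5)) (move 653 (branch (move 622 (leaf 525 5)) (move 685 (leaf 557 6)))))) (branch (move 591 (branch (move 494 (leaf 494 4)) (move 588 (branch (move 624 (leaf 588 0)) (move 559 (branch (move 587 (leaf 555 2))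 (move 560 (leaf 556 2)))))))) (move 588 (branch (move 591 (branch (move 624 (leaf 588 0)) (move 559 (branch (move 560 (leaf 556 2)) (move 620 (branch (move 619 (leaf 587 1)) (move 621 (branch (move 592 (leaf 588 1)) (move 653 (branch (move 622 (leaf 525 5)) (move 685 (leaf 557 6)))))))))))) (branch (move 591 (branch (move 624 (leaf 588 0)) (move 559 (branch (move 587 (leaf 555 2)) (move 560 (leaf 556 2)))))) (branch (move 587 (branch (move 622 (leaf 587 0)) (move 559 (leaf 555 2)))) (move 622 (branch (move 587 (leaf 587 0)) (move 624 (branch (move 591 (leaf 588 0)) (move 621 (leaf 588 3)))))))))))))))))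
theorem a6p35 : a6e35.Valid :=
  pos_of_chk [] forall_nil a6c35 a6e35 (by decide +kernel)

def a6e36 : Pos := ⟨1415235909637588294776852234189732072449752332085098055047956022243043306937961892335385012443504900579800459275446664784205050422003652661196936747290814374342045990912, 13053247314504064191109605419079887216999904682362640254031507772267431334208961850225675376366373391984376402954071942382203932820510111997162040814276423010700119775169781734577383931904, 10⟩
def a6c36 : Cert := (move 494 (branch (move 589 (branch (move 462 (leaf 461 5)) (move 621 (leaf 493 6)))) (branch (move 493 (branch (move 589 (branch (move 621 (leaf 493 6)) (move 492 (branch (move 460 (leaf 460 7)) (move 491 (branch (move 490 (leaf 490 0)) (move 523 (branch (move 522 (leaf 490 1)) (move 495 (branch (move 524 (leaf 491 1)) (move 496 (branch (move 497 (leaf 493 1)) (move 464 (branch (move 463 (leaf 460 2)) (move 465 (leaf 461 2)))))))))))))))) (branch (move 461 (branch (move 429 (leaf 429 4)) (move 556 (branch (move 588 (leaf 460 5)) (move 555 (branch (move 554 (leaf 522 2)) (move 523 (branch (move 522 (leaf 522 3)) (move 495 (branch (move 524 (leaf 491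 2)) (move 496 (branch (move 497 (leaf 493 1)) (move 460 (leaf 460 3)))))))))))))) (move 589 (branch (move 621 (leaf 493 6)) (move 588 (branch (move 620 (leaf 492 5)) (move 461 (branch (move 429 (leaf 429 4)) (move 556 (leaf 460 5))))))))))) (move 493 (branch (move 462 (branch (move 430 (leaf 429 5)) (move 463 (branch (move 431 (leaf 430 6)) (move 492 (branch (move 491 (leaf 459 2)) (move 464 (branch (move 465 (leaf 461 1)) (move 495 (leaf 460 2)))))))))) (branch (move 461 (branch (move 429 (leaf 429 4)) (move 556 (branch (move 588 (leaf 460 5)) (move 555 (branch (move 554 (leaf 522 2)) (move 523 (branch (move 522 (leaf 522 3)) (move 495 (branch (move 524 (leaf 491 2)) (move 496 (branch (move 497 (leaf 493 1)) (move 460 (leaf 460 3)))))))))))))) (move 461 (branch (move 429 (leaf 429 4)) (move 462 (branch (move 430 (leaf 429 5)) (move 463 (branch (move 431 (leaf 430 6)) (move 492 (branch (move 464 (leaf 460 1)) (move 491 (leaf 459 2))))))))))))))))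
theorem a6p36 : a6e36.Valid :=
  pos_of_chk [] forall_nil a6c36 a6e36 (by decide +kernel)

def a6e37 : Pos := ⟨1415235909637588294776852234189732072449752332085098055047956022243043306937961892335385012443504900579800459275446664784205050422003652661196936747290814374342045990912, 149502054197403834917333038327448789961431667300557482118108681186221508603584821349536802714415947173820001630393804989842303420731765830782911773902936468229909735187846943201316757793464454742016, 7⟩
def a6c37 : Cert := (move 559 (branch (move 560 (branch (move 561 (leaf 525 3)) (move 592 (branch (move 593 (leaf 557 0)) (move 591 (branch (move 556 (leaf 556 0)) (move 623 (branch (move 655 (leaf 526 7)) (move 528 (branch (move 529 (leaf 525 2)) (move 496 (leaf 495 5)))))))))))) (branch (move 524 (branch (move 523 (leaf 523 0)) (move 560 (leaf 524 3)))) (move 556 (branch (move 523 (branch (move 524 (leaf 523 0)) (move 555 (branch (move 554 (leaf 522 2)) (move 522 (leaf 522 3)))))) (branch (move 555 (branch (move 554 (leaf 522 2)) (move 587 (branch (move 586 (leaf 554 1)) (move 588 (leaf 555 1)))))) (move 524 (branch (move 523 (leaf 523 0)) (move 588 (branch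 (move 587 (leaf 555 1)) (move 493 (branch (move 461 (leaf 460 5)) (move 620 (leaf 492 6))))))))))))))
theorem a6p37 : a6e37.Valid :=
  pos_of_chk [] forall_nil a6c37 a6e37 (by decide +kernel)

def a6e38 : Pos := ⟨1415235909637588294776852234189732072449752332085098055047956022243043306937961892335385012443504900579800459275446664784205050422003652661196936747290814374342045990912, 56063270322394782218658238056783856439538963852126595918679125439851003265265655646730033029822688690600160106130790773047109589348268201252696901746579062080924842216688395030302474243827151405056, 8⟩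
def a6c38 : Cert := (move 494 (branch (move 589 (branch (move 462 (leaf 461 5)) (move 621 (leaf 493 6)))) (branch (move 559 (branch (move 560 (branch (move 561 (leaf 525 3)) (move 592 (branch (move 593 (leaf 557 0)) (move 556 (branch (move 591 (leaf 556 0)) (move 555 (branch (move 554 (leaf 522 2)) (move 587 (branch (move 586 (leaf 554 1)) (move 588 (leaf 555 1)))))))))))) (branch (move 524 (branch (move 523 (leaf 523 0)) (move 560 (leaf 524 3)))) (move 556 (branch (move 555 (branch (move 554 (leaf 522 2)) (move 587 (branch (move 586 (leaf 554 1)) (move 588 (leaf 555 1)))))) (branch (move 523 (branch (move 524 (leaf 523 0)) (move 555 (branch (move 554 (leaf 522 2)) (move 522 (leaf 522 3)))))) (move 524 (branch (move 523 (leaf 523 0)) (move 621 (branch (move 589 (leaf 493 6)) (move 588 (branch (move 587 (leaf 555 1)) (move 620 (branch (move 653 (leaf 524 4)) (move 652 (leaf 524 6)))))))))))))))) (move 462 (branch (move 430 (leaf 429 5)) (move 559 (branch (move 591 (leaf 462 4)) (move 524 (branch (move 523 (leaf 523 0)) (move 560 (leaf 524 3)))))))))))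
theorem a6p38 : a6e38.Valid :=
  pos_of_chk [] forall_nil a6c38 a6e38 (by decide +kernel)

def a6e39 : Pos := ⟨1415235909637588294776852234189732072449752332085098055047956022243043306937961892335385012443504900579800459275446664784205050422003652661196936747290814374342045990912, 37375513548263188107444520593355615690033029769546757022903207306468949071510292750236451343733853352435073738702079003655009000936397203600682443701675207974677753767436353514458917232767594921984, 8⟩
def a6c39 : Cert := (move 589 (branch (move 494 (branch (move 462 (leaf 461 5)) (move 621 (leaf 493 6)))) (branch (move 621 (branch (move 653 (leaf 525 6)) (move 524 (branch (move 492 (leaf 492 7)) (move 559 (branch (move 523 (leaf 523 0)) (move 560 (leaf 524 3)))))))) (move 493 (branch (move 462 (branch (move 494 (leaf 461 5)) (move 461 (branch (move 429 (leaf 429 4)) (move 430 (leaf 429 6)))))) (branch (move 461 (branch (move 429 (leaf 429 4)) (move 460 (branch (move 428 (leaf 428 7)) (move 492 (leaf 460 7)))))) (move 494 (branch (move 462 (leaf 461 5)) (move 492 (branch (move 460 (leaf 460 7)) (move 491 (branch (move 490 (leaf 490 0)) (move 523 (branch (move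 522 (leaf 490 1)) (move 524 (branch (move 559 (leaf 523 0)) (move 495 (leaf 491 1))))))))))))))))))
theorem a6p39 : a6e39.Valid :=
  pos_of_chk [] forall_nil a6c39 a6e39 (by decide +kernel)

def a6e40 : Pos := ⟨4052261298678835292582168930132557473101790484759391964685052112526958370857758398357407200812025220905865803280965339332533948893815539167371329787316175129007412723770158219264, 802633041907759214939280607214644386927454613655053319159566660125994489016519974813162023521312538088282595405224886489524699285465929392131169449747299093860961097686570165336192835266369049422129679826944, 8⟩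
def a6c40 : Cert := (move 622 (branch (move 655 (branch (move 623 (leaf 526 4)) (move 654 (branch (move 687 (leaf 558 4)) (move 653 (branch (move 621 (leaf 525 5)) (move 685 (leaf 557 5)))))))) (branch (move 654 (branch (move 557 (leaf 525 7)) (move 655 (branch (move 623 (leaf 526 4)) (move 687 (leaf 558 4)))))) (branch (move 654 (branch (move 557 (leaf 525 7)) (move 653 (branch (move 621 (leaf 525 5)) (move 685 (leaf 557 5)))))) (move 621 (branch (move 653 (leaf 525 5)) (move 620 (branch (move 619 (branch (move 591 (leaf 587 2)) (move 618 (branch (move 589 (leaf 586 2)) (move 586 (branch (move 585 (leaf 585 3)) (move 587 (leaf 586 3)))))))) (branch (move 623 (branch (move 655 (leaf 526 4)) (move 588 (branch (move 587 (leaf 587 3)) (move 589 (branch (move 624 (leaf 588 3)) (move 652 (branch (move 651 (leaf 619 1)) (move 557 (leaf 524 5)))))))))) (move 623 (branch (move 655 (leaf 526 4)) (move 591 (branch (move 619 (leaf 587 2)) (move 592 (leaf 588 2)))))))))))))))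
theorem a6p40 : a6e40.Valid :=
  pos_of_chk [] forall_nil a6c40 a6e40 (by decide +kernel)

def a6e41 : Pos := ⟨4052261298678835292582168930132557473101790484759391964685052112526958370857758398357407200812025220905865803280965339332533948893815539167371329787316175129007412723770158219264, 802633041879727579707378126511677884972653887907730575817276033588470510920303181367163783323905799703004429808054141347345396435425243565803384462108595091343654216933108917550987504044975275477983779880960, 9⟩
def a6c41 : Cert := (move 622 (branch (move 655 (branch (move 623 (leaf 526 4)) (move 654 (branch (move 687 (leaf 558 4)) (move 653 (branch (move 621 (leaf 525 5)) (move 685 (leaf 557 5)))))))) (branch (move 654 (branch (move 557 (leaf 525 7)) (move 655 (branch (move 623 (leaf 526 4)) (move 687 (leaf 558 4)))))) (branch (move 654 (branch (move 557 (leaf 525 7)) (move 653 (branch (move 621 (leaf 525 5)) (move 685 (leaf 557 5)))))) (move 623 (branch (move 655 (leaf 526 4)) (move 494 (branch (move 591 (leaf 494 4)) (move 621 (branch (move 653 (leaf 525 5)) (move 463 (branch (move 495 (leaf 462 6)) (move 462 (branch (move 431 (leaf 430 6)) (move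 430 (branch (move 557 (leaf 429 5)) (move 429 (branch (move 397 (leaf 397 7)) (move 461 (leaf 429 7))))))))))))))))))))
theorem a6p41 : a6e41.Valid :=
  pos_of_chk [] forall_nil a6c41 a6e41 (by decide +kernel)

def a6e42 : Pos := ⟨4052261298678835292582168930132557473101790484759391964685052112526958370857758398357407200812025220905865803280965339332533948893815539167371329787316175129007412723770158219264, 802633041879727579776995445501598388172143330545172561271084032251922063858013563012583799940893558100973313161561868045827334298241619676513629940853197499158709498934685431763602608063099112332059828289536, 6⟩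
def a6c42 : Cert := (move 622 (branch (move 654 (branch (move 557 (leaf 525 7)) (move 655 (branch (move 623 (leaf 526 4)) (move 687 (leaf 558 4)))))) (branch (move 654 (branch (move 557 (leaf 525 7)) (move 653 (branch (move 621 (leaf 525 5)) (move 685 (leaf 557 5)))))) (move 621 (branch (move 653 (leaf 525 5)) (move 589 (branch (move 494 (leaf 493 5)) (move 623 (branch (move 655 (leaf 526 4)) (move 588 (branch (move 587 (leaf 587 0)) (move 624 (leaf 588 3)))))))))))))
theorem a6p42 : a6e42.Valid :=
  pos_of_chk [] forall_nil a6c42 a6e42 (by decide +kernel)

def a6e43 : Pos := ⟨4052261298678835292582168930132557473101790484759391964685052112526958370857758398357407200812025220905865803280965339332533948893815539167371329787316175129007412723770158219264, 3447282665562428320232422303290811407800722649778642530953791694997860700500792638001991175493251525841364127800682408988361324943553163238083990675270682285096661292773210700784916596853570953723453118808815115960320, 9⟩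
def a6c43 : Cert := (move 494 (branch (move 463 (branch (move 495 (leaf 462 6)) (move 462 (branch (move 431 (leaf 430 6)) (move 557 (branch (move 430 (leaf 429 5)) (move 589 (leaf 461 5)))))))) (branch (move 591 (branch (move 623 (leaf 494 4)) (move 462 (branch (move 559 (leaf 462 4)) (move 557 (branch (move 430 (leaf 429 5)) (move 589 (leaf 461 5)))))))) (branch (move 591 (branch (move 623 (leaf 494 4)) (move 462 (branch (move 559 (leaf 462 4)) (move 463 (branch (move 431 (leaf 430 6)) (move 495 (leaf 462 6)))))))) (move 622 (branch (move 654 (branch (move 557 (leaf 525 7)) (move 495 (branch (move 463 (leaf 462 6)) (move 524 (branch (move 523 (leaf 491 2)) (move 687 (branch (move 655 (leaf 558 4)) (move 686 (branch (move 719 (leaf 590 4)) (move 685 (branch (move 653 (leaf 557 5)) (move 717 (leaf 589 5)))))))))))))) (branch (move 623 (branch (move 591 (leaf 494 4)) (move 655 (leaf 526 4)))) (move 495 (branch (move 463 (leaf 462 6)) (move 654 (branch (move 557 (leaf 525 7)) (move 591 (branch (move 623 (leaf 494 4)) (move 686 (branch (move 559 (leaf 558 6)) (move 685 (branch (move 653 (leaf 557 5)) (move 717 (leaf 589 5)))))))))))))))))))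
theorem a6p43 : a6e43.Valid :=
  pos_of_chk [] forall_nil a6c43 a6e43 (by decide +kernel)

def a6e44 : Pos := ⟨4052261298678835292582168930183704201350167701478348053697983349280343402827181285693083628438527311474688843201016434525126201349298143606864455896835194762536871990228416462848, 530832057458018208422356193694591453148735769468262464290310152375399279779926747394785677278638117037476266630600231965123332863906523994791615667217139111922669327721281294621432772296704, 9⟩
def a6c44 : Cert := (move 559 (branch (move 524 (branch (move 523 (leaf 523 0)) (move 560 (branch (move 557 (leaf 524 3)) (move 561 (leaf 525 3)))))) (branch (move 589 (branch (move 621 (leaf 493 5)) (move 591 (branch (move 623 (leaf 494 4)) (move 588 (branch (move 587 (leaf 555 2)) (move 556 (branch (move 555 (leaf 555 3)) (move 592 (branch (move 557 (leaf 556 0)) (move 593 (branch (move 594 (leaf 558 3)) (move 625 (branch (move 624 (leaf 589 0)) (move 626 (leaf 590 0)))))))))))))))) (move 589 (branch (move 621 (leaf 493 5)) (move 560 (branch (move 561 (leaf 557 1)) (move 591 (branch (move 588 (leaf 556 2)) (move 623 (leaf 494 4)))))))))))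
theorem a6p44 : a6e44.Valid :=
  pos_of_chk [] forall_nil a6c44 a6e44 (by decide +kernel)

def a6e45 : Pos := ⟨4052261298678835292582168930132557473101790484759391964685052112526958370857758398357407200812025220905865803280965339332533948893815539167371329787316175129007412723770158219264, 530832057458018208422356193694591453148889209653043321517449143651710595483711370517934782288212522251805480341727168826334065126827240945928826336122269368869412364221581572303715162914816, 10⟩
def a6c45 : Cert := (move 494 (branch (move 591 (branch (move 623 (leaf 494 4)) (move 559 (branch (move 462 (leaf 462 4)) (move 589 (branch (move 621 (leaf 493 5)) (move 560 (branch (move 561 (leaf 557 1)) (move 588 (leaf 556 2)))))))))) (branch (move 495 (branch (move 463 (leaf 462 6)) (move 591 (branch (move 623 (leaf 494 4)) (move 559 (branch (move 462 (leaf 462 4)) (move 524 (branch (move 523 (leaf 523 0)) (move 560 (branch (move 557 (leaf 524 3)) (move 561 (leaf 525 3)))))))))))) (branch (move 589 (branch (move 621 (leaf 493 5)) (move 462 (branch (move 557 (leaf 461 5)) (move 463 (branch (move 431 (leaf 430 6)) (move 495 (leaf 462 6)))))))) (ref 0)))))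
theorem a6p45 : a6e45.Valid :=
  pos_of_chk [a6e44] (forall_cons a6p44 forall_nil) a6c45 a6e45 (by decide +kernel)

def a6e46 : Pos := ⟨4052261298678835292582168930132557473101790484759391964685052112526958370857758398357407200812025220905865803280965339332533948893815539167371329787316175129007412723770158219264, 160526608454434094395003861601201422532126645508982090084273909835487647527925383093846489457712358055300939203757584028809857351622253574791291466164434907995722428544164566824810402196813850324634966163456, 11⟩
def a6c46 : Cert := (move 621 (branch (move 589 (branch (move 494 (leaf 493 5)) (move 653 (branch (move 622 (leaf 525 5)) (move 685 (leaf 557 6)))))) (branch (move 653 (branch (move 622 (leaf 525 5)) (move 589 (branch (move 557 (leaf 525 6)) (move 685 (leaf 557 6)))))) (branch (move 494 (branch (move 589 (leaf 493 5)) (move 463 (branch (move 495 (leaf 462 6)) (move 462 (branch (move 431 (leaf 430 6)) (move 559 (branch (move 591 (leaf 462 4)) (move 557 (branch (move 430 (leaf 429 5)) (move 524 (branch (move 523 (leaf 523 0)) (move 560 (leaf 524 3)))))))))))))) (move 622 (branch (move 653 (leaf 525 5)) (move 557 (branch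 (move 654 (leaf 525 7)) (move 559 (branch (move 560 (branch (move 561 (leaf 525 3)) (move 592 (branch (move 593 (leaf 557 0)) (move 556 (branch (move 591 (leaf 556 0)) (move 555 (branch (move 554 (leaf 522 2)) (move 587 (branch (move 586 (leaf 554 1)) (move 588 (leaf 555 1)))))))))))) (branch (move 524 (branch (move 523 (leaf 523 0)) (move 560 (leaf 524 3)))) (move 524 (branch (move 523 (leaf 523 0)) (move 556 (branch (move 555 (branch (move 554 (leaf 522 2)) (move 587 (branch (move 586 (leaf 554 1)) (move 588 (leaf 555 1)))))) (branch (move 591 (branch (move 592 (leaf 556 0)) (move 494 (branch (move 462 (leaf 462 4)) (move 620 (branch (move 619 (leaf 587 2)) (move 588 (branch (move 587 (leaf 555 1)) (move 652 (leaf 524 6)))))))))) (move 591 (branch (move 555 (leaf 555 0)) (move 592 (leaf 556 0))))))))))))))))))))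
theorem a6p46 : a6e46.Valid :=
  pos_of_chk [] forall_nil a6c46 a6e46 (by decide +kernel)

def a6e47 : Pos := ⟨4052261298678835292582168930132557473101790484759391964685052112526958370857758398357407200812025220905865803280965339332533948893815539167371329787316175129007412723770158219264, 34808659505344171177550268592312971486900153078031907997765829050984827119567891896499328731004450684568001600713000756588814899620439341688034035383496722291711840674290763281714485657600, 6⟩
def a6c47 : Cert := (move 494 (branch (move 495 (branch (move 463 (leaf 462 6)) (move 493 (branch (move 461 (leaf 461 7)) (move 524 (branch (move 496 (leaf 492 1)) (move 523 (leaf 491 2)))))))) (branch (move 591 (branch (move 623 (leaf 494 4)) (move 462 (branch (move 559 (leaf 462 4)) (move 463 (branch (move 431 (leaf 430 6)) (move 495 (leaf 462 6)))))))) (move 493 (branch (move 461 (leaf 461 7)) (move 591 (branch (move 623 (leaf 494 4)) (move 462 (branch (move 559 (leaf 462 4)) (move 430 (branch (move 398 (leaf 397 5)) (move 557 (leaf 429 5)))))))))))))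
theorem a6p47 : a6e47.Valid :=
  pos_of_chk [] forall_nil a6c47 a6e47 (by decide +kernel)

def a6e48 : Pos := ⟨1415235909637588294776852234189732072449752332085098055047956022243043306937961892335385012443504900579800459275446664784205050422003652661196936747290814374342045990912, 214909202902513331670738656594533949894352729029428705774746974576854184108425547194552013511021389096237168720597570152132878729067914056468897705104603053778971162034691771721493195041869582565376, 10⟩
def a6c48 : Cert := (move 559 (branch (move 560 (branch (move 561 (leaf 525 3)) (move 592 (branch (move 593 (leaf 557 0)) (move 591 (branch (move 556 (leaf 556 0)) (move 623 (branch (move 655 (leaf 526 7)) (move 528 (branch (move 529 (leaf 525 2)) (move 496 (leaf 495 5)))))))))))) (branch (move 524 (branch (move 523 (leaf 523 0)) (move 560 (leaf 524 3)))) (move 556 (branch (move 555 (branch (move 554 (leaf 522 2)) (move 591 (branch (move 590 (leaf 555 0)) (move 592 (leaf 556 0)))))) (branch (move 524 (branch (move 523 (leaf 523 0)) (move 588 (branch (move 587 (leaf 555 1)) (move 620 (branch (move 652 (leaf 524 6)) (move 621 (branch (move 653 (leaf 524 4)) (move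 589 (branch (move 492 (leaf 492 4)) (move 591 (branch (move 592 (leaf 556 0)) (move 619 (branch (move 590 (leaf 587 1)) (move 651 (leaf 523 5)))))))))))))))) (move 524 (branch (move 523 (leaf 523 0)) (move 555 (branch (move 554 (leaf 522 2)) (move 587 (branch (move 586 (leaf 554 1)) (move 588 (leaf 555 1))))))))))))))
theorem a6p48 : a6e48.Valid :=
  pos_of_chk [] forall_nil a6c48 a6e48 (by decide +kernel)

def a6e49 : Pos := ⟨1415235909637588294776852234189732072449752332085098055047956022243043306937961892335385012443504900579800459275446664784205050422003652661196936747290814374342045990912, 280316351611973910854967572656372740343334101238718042135957100506969739557580009603262992780803626856405349742400051538957074021055215424296785507296854599395430436726263473933009235660734231216128, 9⟩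
def a6c49 : Cert := (move 559 (branch (move 560 (branch (move 561 (leaf 525 3)) (move 592 (branch (move 593 (leaf 557 0)) (move 591 (branch (move 556 (leaf 556 0)) (move 623 (branch (move 655 (leaf 526 7)) (move 528 (branch (move 529 (leaf 525 2)) (move 496 (leaf 495 5)))))))))))) (branch (move 556 (branch (move 555 (branch (move 554 (leaf 522 2)) (move 591 (branch (move 590 (leaf 555 0)) (move 592 (leaf 556 0)))))) (move 588 (branch (move 587 (leaf 555 1)) (move 493 (branch (move 461 (leaf 460 5)) (move 620 (branch (move 589 (leaf 492 5)) (move 652 (leaf 524 6)))))))))) (move 560 (branch (move 561 (leaf 525 3)) (move 589 (branch (move 588 (leaf 556 1)) (move 621 (branch (move 653 (leaf 525 6)) (move 622 (branch (move 654 (leaf 525 4)) (move 493 (branch (move 590 (leaf 493 4)) (move 461 (branch (move 429 (leaf 429 4)) (move 460 (branch (move 428 (leaf 428 7)) (move 492 (leaf 460 7)))))))))))))))))))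
theorem a6p49 : a6e49.Valid :=
  pos_of_chk [] forall_nil a6c49 a6e49 (by decide +kernel)

def a6e50 : Pos := ⟨1415235909637588294776852234189732072449752332085098055047956022243043306937961892335385012443504900579800459275446664784205050422003652661196936747290814374342045990912, 56063270339799111914345399137015640840458620718063790643172744157837919600648361799845676666351957224430552734486022847282498087682842348208854262118199863414827477537186145675266363472220577071104, 7⟩
def a6c50 : Cert := (move 493 (branch (move 461 (branch (move 429 (leaf 429 4)) (move 460 (branch (move 428 (leaf 428 7)) (move 589 (branch (move 492 (leaf 460 7)) (move 621 (branch (move 653 (leaf 525 6)) (move 620 (branch (move 588 (leaf 492 5)) (move 652 (leaf 524 5)))))))))))) (branch (move 590 (branch (move 461 (leaf 461 4)) (move 622 (leaf 493 7)))) (move 589 (branch (move 621 (branch (move 653 (leaf 525 6)) (move 492 (branch (move 460 (leaf 460 7)) (move 524 (leaf 492 7)))))) (move 590 (branch (move 622 (leaf 493 4)) (move 588 (branch (move 620 (leaf 492 5)) (move 559 (branch (move 560 (leaf 556 1)) (move 587 (leaf 555 2)))))))))))))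
theorem a6p50 : a6e50.Valid :=
  pos_of_chk [] forall_nil a6c50 a6e50 (by decide +kernel)

def a6e51 : Pos := ⟨1415235909637588294776852234189732072449752332085098055047956022243043306937961892335385012443504900579800459275446664784205050422003652661196936747290814374342045990912, 149502054288776566103665507795819045340123130558593420151863932667575955805847044194963146855283957241018545250380026388078418395592443550384019001830968991911581625665111838765962626570560278102016, 11⟩
def a6c51 : Cert := (move 559 (branch (move 560 (branch (move 561 (leaf 525 3)) (move 592 (branch (move 593 (leaf 557 0)) (move 591 (branch (move 556 (leaf 556 0)) (move 623 (branch (move 655 (leaf 526 7)) (move 528 (branch (move 529 (leaf 525 2)) (move 496 (leaf 495 5)))))))))))) (branch (move 524 (branch (move 523 (leaf 523 0)) (move 560 (leaf 524 3)))) (move 556 (branch (move 555 (branch (move 554 (leaf 522 2)) (move 591 (branch (move 590 (leaf 555 0)) (move 592 (leaf 556 0)))))) (branch (move 524 (branch (move 523 (leaf 523 0)) (move 555 (branch (move 554 (leaf 522 2)) (move 587 (branch (move 586 (leaf 554 1)) (move 588 (leaf 555 1)))))))) (move 524 (branch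 (move 523 (leaf 523 0)) (move 588 (branch (move 587 (leaf 555 1)) (move 493 (branch (move 461 (leaf 460 5)) (move 590 (branch (move 622 (leaf 493 7)) (move 591 (branch (move 592 (leaf 556 0)) (move 623 (branch (move 655 (leaf 526 7)) (move 589 (branch (move 624 (leaf 588 0)) (move 492 (branch (move 460 (leaf 460 4)) (move 621 (leaf 492 4))))))))))))))))))))))))
theorem a6p51 : a6e51.Valid :=
  pos_of_chk [] forall_nil a6c51 a6e51 (by decide +kernel)

def a6e52 : Pos := ⟨4052261298678835292582168930132557473101790484759391964685052112526958370857758398357407200812025220905865803280965339332533948893815539167371329787316175129007412723770158219264, 13053247315010596859046435304942215396287436550193408287797209067721961108810208539653704361433098901251631341862360777358535618531083150220704458676258735341398425532446477684757313355776, 7⟩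
def a6c52 : Cert := (move 494 (branch (move 495 (branch (move 463 (leaf 462 6)) (move 493 (branch (move 461 (leaf 461 7)) (move 524 (branch (move 496 (leaf 492 1)) (move 523 (leaf 491 2)))))))) (branch (move 589 (branch (move 621 (leaf 493 5)) (move 462 (branch (move 557 (leaf 461 5)) (move 463 (branch (move 431 (leaf 430 6)) (move 495 (leaf 462 6)))))))) (move 493 (branch (move 461 (leaf 461 7)) (move 589 (branch (move 621 (leaf 493 5)) (move 557 (branch (move 462 (leaf 461 5)) (move 588 (branch (move 620 (leaf 492 5)) (move 559 (branch (move 560 (leaf 556 1)) (move 587 (leaf 555 2)))))))))))))))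
theorem a6p52 : a6e52.Valid :=
  pos_of_chk [] forall_nil a6c52 a6e52 (by decide +kernel)

def a6e53 : Pos := ⟨8702164874309912148468302949755351295606353690959512961649691323351223339146467727154356779064900451846165114943012149917340323694649409178552881828194678746019984871853518032739793633280, 2389696897204362263459823368810671412718701915602279251613241647095858382245967067629937796303831814273059001734754519408422801499800381183466312363101753930225153285699374578231396438136958207655936, 10⟩
def a6c53 : Cert := (move 623 (branch (move 591 (branch (move 592 (leaf 556 0)) (move 655 (leaf 526 7)))) (branch (move 524 (branch (move 523 (leaf 523 0)) (move 622 (branch (move 590 (leaf 493 7)) (move 592 (branch (move 591 (leaf 556 0)) (move 624 (branch (move 593 (leaf 589 2)) (move 653 (branch (move 652 (leaf 620 1)) (move 625 (branch (move 654 (leaf 621 1)) (move 657 (branch (move 656 (leaf 621 0)) (move 658 (leaf 622 0)))))))))))))))) (branch (move 524 (branch (move 523 (leaf 523 0)) (move 622 (branch (move 590 (leaf 493 7)) (move 655 (branch (move 591 (leaf 526 7)) (move 656 (branch (move 620 (leaf 620 0)) (move 657 (branch (move 624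 (leaf 621 0)) (move 654 (leaf 621 3)))))))))))) (move 622 (branch (move 590 (leaf 493 7)) (move 620 (branch (move 655 (branch (move 656 (leaf 620 0)) (move 619 (branch (move 654 (leaf 619 0)) (move 651 (branch (move 650 (leaf 618 1)) (move 652 (leaf 619 1)))))))) (branch (move 524 (branch (move 523 (leaf 523 0)) (move 655 (branch (move 656 (leaf 620 0)) (move 619 (branch (move 654 (leaf 619 0)) (move 586 (branch (move 587 (leaf 586 3)) (move 618 (branch (move 585 (leaf 585 3)) (move 650 (branch (move 649 (leaf 617 1)) (move 651 (leaf 618 1)))))))))))))) (branch (move 524 (branch (move 523 (leaf 523 0)) (move 652 (branch (move 651 (leaf 619 1)) (move 624 (branch (move 653 (leaf 620 1)) (move 593 (branch (move 592 (leaf 589 2)) (move 625 (branch (move 594 (leaf 590 2)) (move 657 (branch (move 656 (leaf 621 0)) (move 658 (leaf 622 0)))))))))))))) (branch (move 524 (branch (move 523 (leaf 523 0)) (move 656 (branch (move 655 (leaf 620 0)) (move 624 (branch (move 657 (leaf 621 0)) (move 593 (branch (move 592 (leaf 589 2)) (move 625 (branch (move 594 (leaf 590 2)) (move 653 (branch (move 652 (leaf 620 1)) (move 654 (leaf 621 1))))))))))))))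 (move 524 (branch (move 523 (leaf 523 0)) (move 651 (branch (move 652 (leaf 619 1)) (move 619 (branch (move 650 (leaf 618 1)) (move 586 (branch (move 587 (leaf 586 3)) (move 618 (branch (move 585 (leaf 585 3)) (move 654 (branch (move 653 (leaf 618 0)) (move 655 (leaf 619 0)))))))))))))))))))))))))
theorem a6p53 : a6e53.Valid :=
  pos_of_chk [] forall_nil a6c53 a6e53 (by decide +kernel)

def a6e54 : Pos := ⟨943490606534895625746657911566198461085137179533043001500930234712340286638943285824619171796297554637116912396601184171733727343263053582126757465861727368885871575040, 2389696897213064428337172476942996525342235771955076737634365131970052481508286543000770971660247295548541711773606237954040038416984713318974354271043612200703783548637536191596440861165011318341632, 15⟩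
def a6c54 : Cert := (move 557 (branch (ref 0) (branch (ref 1) (branch (ref 2) (branch (ref 3) (branch (move 493 (branch (move 461 (branch (move 429 (leaf 429 4)) (move 460 (branch (move 428 (leaf 428 7)) (move 589 (branch (move 492 (leaf 460 7)) (move 621 (branch (move 653 (leaf 525 6)) (move 620 (branch (move 588 (leaf 492 5)) (move 652 (leaf 524 5)))))))))))) (branch (move 590 (branch (move 461 (leaf 461 4)) (move 622 (leaf 493 7)))) (move 589 (branch (move 590 (branch (move 622 (leaf 493 4)) (move 588 (branch (move 620 (leaf 492 5)) (move 587 (branch (move 586 (leaf 554 2)) (move 555 (branch (move 554 (leaf 554 3)) (move 591 (branch (move 556 (leaf 555 0)) (move 592 (branch (move 593 (leaf 557 3)) (move 624 (branch (move 623 (leaf 588 0)) (move 625 (leaf 589 0)))))))))))))))) (move 621 (branch (move 653 (leaf 525 6)) (move 492 (branch (move 460 (leaf 460 7)) (move 524 (leaf 492 7))))))))))) (branch (move 493 (branch (move 461 (branch (move 429 (leaf 429 4)) (move 460 (branch (move 428 (leaf 428 7)) (move 589 (branch (move 492 (leaf 460 7)) (move 621 (branch (move 653 (leaf 525 6)) (move 620 (branch (move 588 (leaf 492 5)) (move 652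 (leaf 524 5)))))))))))) (branch (move 461 (branch (move 429 (leaf 429 4)) (move 590 (leaf 461 4)))) (move 559 (branch (move 560 (branch (move 561 (leaf 525 3)) (move 592 (branch (move 593 (leaf 557 0)) (move 591 (branch (move 556 (leaf 556 0)) (move 528 (branch (move 529 (leaf 525 2)) (move 623 (branch (move 496 (leaf 495 5)) (move 655 (leaf 527 6)))))))))))) (branch (move 524 (branch (move 523 (leaf 523 0)) (move 560 (leaf 524 3)))) (move 556 (branch (move 590 (branch (move 622 (leaf 493 7)) (move 591 (branch (move 555 (leaf 555 0)) (move 592 (leaf 556 0)))))) (branch (move 523 (branch (move 524 (leaf 523 0)) (move 555 (branch (move 554 (leaf 522 2)) (move 522 (leaf 522 3)))))) (move 524 (branch (move 523 (leaf 523 0)) (move 590 (branch (move 622 (leaf 493 7)) (move 591 (branch (move 592 (leaf 556 0)) (move 588 (branch (move 620 (leaf 492 6)) (move 623 (branch (move 655 (leaf 526 7)) (move 589 (branch (move 624 (leaf 588 0)) (move 492 (branch (move 460 (leaf 460 4)) (move 621 (leaf 492 4))))))))))))))))))))))))) (branch (ref 4) (move 493 (branch (move 590 (branch (move 461 (leaf 461 4)) (move 622 (leaf 493 7)))) (branch (move 461 (branch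 (move 429 (leaf 429 4)) (move 460 (branch (move 428 (leaf 428 7)) (move 492 (branch (move 589 (leaf 460 7)) (move 491 (branch (move 490 (leaf 490 0)) (move 462 (branch (move 463 (leaf 459 1)) (move 430 (leaf 429 6)))))))))))) (move 559 (branch (move 560 (branch (move 561 (leaf 525 3)) (move 592 (branch (move 593 (leaf 557 0)) (move 591 (branch (move 556 (leaf 556 0)) (move 528 (branch (move 529 (leaf 525 2)) (move 623 (branch (move 496 (leaf 495 5)) (move 655 (leaf 527 6)))))))))))) (branch (move 524 (branch (move 523 (leaf 523 0)) (move 560 (leaf 524 3)))) (move 621 (branch (move 589 (branch (move 653 (leaf 525 6)) (move 524 (branch (move 523 (leaf 523 0)) (move 492 (leaf 492 7)))))) (branch (move 622 (branch (move 590 (leaf 493 7)) (move 589 (branch (move 654 (leaf 525 4)) (move 653 (leaf 525 6)))))) (branch (move 622 (branch (move 590 (leaf 493 7)) (move 524 (branch (move 523 (leaf 523 0)) (move 589 (branch (move 654 (leaf 525 4)) (move 492 (leaf 492 7)))))))) (move 556 (branch (move 590 (branch (move 622 (leaf 493 7)) (move 591 (branch (move 555 (leaf 555 0)) (move 592 (leaf 556 0)))))) (branch (move 523 (branch (move 524 (leaf 523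 0)) (move 555 (branch (move 554 (leaf 522 2)) (move 522 (leaf 522 3)))))) (ref 5))))))))))))))))))))))
theorem a6p54 : a6e54.Valid :=
  pos_of_chk [a6e48, a6e37, a6e49, a6e50, a6e51, a6e53] (forall_cons a6p48 (forall_cons a6p37 (forall_cons a6p49 (forall_cons a6p50 (forall_cons a6p51 (forall_cons a6p53 forall_nil)))))) a6c54 a6e54 (by decide +kernel)

def a6e55 : Pos := ⟨329510287686269266319131238355906874428932894406878659650934246040906072803087490501882862751749818638910222946791081185781855423986398903003553357973522743296, 3447282665562428322360490605953204960242062844686793495516888328338077686775661351759629783493204100186585167640787381976397547303432153080286217267573785419107391848845106837500700542500360853447413437033652116520960, 16⟩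
def a6c55 : Cert := (move 558 (branch (move 590 (branch (move 494 (branch (move 495 (branch (move 463 (leaf 462 6)) (move 591 (branch (move 623 (leaf 494 4)) (move 559 (branch (move 462 (leaf 462 4)) (move 524 (branch (move 523 (leaf 523 0)) (move 589 (branch (move 621 (leaf 493 5)) (move 560 (branch (move 561 (leaf 557 1)) (move 588 (leaf 556 2)))))))))))))) (branch (move 493 (branch (move 461 (leaf 461 7)) (move 591 (branch (move 623 (leaf 494 4)) (move 559 (branch (move 462 (leaf 462 4)) (move 589 (branch (move 621 (leaf 493 5)) (move 560 (branch (move 561 (leaf 557 1)) (move 588 (leaf 556 2)))))))))))) (move 495 (branch (move 463 (leaf 462 6)) (move 493 (branch (move 461 (leaf 461 7)) (move 524 (branch (move 496 (leaf 492 1)) (move 523 (leaf 491 2))))))))))) (branch (move 622 (branch (move 493 (leaf 493 7)) (move 655 (branch (move 623 (leaf 526 4)) (move 654 (branch (move 687 (leaf 558 4)) (move 653 (branch (move 621 (leaf 525 5)) (move 685 (leaf 557 5)))))))))) (branch (move 493 (branch (move 622 (leaf 493 7)) (move 461 (branch (move 429 (leaf 429 4)) (move 494 (leaf 461 7)))))) (ref 0))))) (branch (move 557 (branch (move 589 (branch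 (move 621 (branch (move 653 (leaf 525 6)) (move 620 (branch (move 652 (leaf 524 5)) (move 588 (branch (move 493 (leaf 492 5)) (move 587 (branch (move 586 (leaf 554 2)) (move 622 (branch (move 623 (leaf 587 3)) (move 654 (leaf 525 4)))))))))))) (branch (move 494 (branch (move 462 (leaf 461 5)) (move 621 (leaf 493 6)))) (move 493 (branch (move 588 (branch (move 620 (leaf 492 5)) (move 559 (branch (move 560 (leaf 556 1)) (move 587 (branch (move 556 (leaf 555 1)) (move 586 (leaf 554 2)))))))) (move 462 (branch (move 494 (leaf 461 5)) (move 461 (branch (move 429 (leaf 429 4)) (move 430 (leaf 429 6))))))))))) (branch (ref 1) (branch (ref 2) (branch (ref 3) (ref 4)))))) (branch (move 590 (branch (ref 0) (branch (ref 5) (branch (ref 6) (branch (ref 7) (branch (ref 8) (branch (ref 9) (ref 10)))))))) (branch (move 590 (branch (move 493 (branch (move 622 (leaf 493 7)) (move 461 (branch (move 429 (leaf 429 4)) (move 494 (leaf 461 7)))))) (branch (ref 5) (move 494 (branch (move 495 (branch (move 463 (leaf 462 6)) (move 493 (branch (move 461 (leaf 461 7)) (move 524 (branch (move 496 (leaf 492 1)) (move 523 (leaf 491 2)))))))) (branch (move 589 (branch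 (move 621 (leaf 493 5)) (move 462 (branch (move 557 (leaf 461 5)) (move 463 (branch (move 431 (leaf 430 6)) (move 495 (leaf 462 6)))))))) (move 493 (branch (move 461 (leaf 461 7)) (move 589 (branch (move 621 (leaf 493 5)) (move 557 (branch (move 462 (leaf 461 5)) (move 591 (branch (move 623 (leaf 494 4)) (move 556 (branch (move 555 (leaf 555 0)) (move 592 (leaf 556 3)))))))))))))))))) (branch (move 590 (branch (move 622 (branch (move 493 (leaf 493 7)) (move 655 (branch (move 623 (leaf 526 4)) (move 654 (branch (move 687 (leaf 558 4)) (move 653 (branch (move 621 (leaf 525 5)) (move 685 (leaf 557 5)))))))))) (branch (move 493 (branch (move 622 (leaf 493 7)) (move 461 (branch (move 429 (leaf 429 4)) (move 494 (leaf 461 7)))))) (branch (ref 0) (move 494 (branch (move 591 (branch (move 623 (leaf 494 4)) (move 559 (branch (move 462 (leaf 462 4)) (move 589 (branch (move 621 (leaf 493 5)) (move 560 (branch (move 561 (leaf 557 1)) (move 588 (leaf 556 2)))))))))) (branch (move 463 (branch (move 495 (leaf 462 6)) (move 462 (branch (move 431 (leaf 430 6)) (move 557 (branch (move 430 (leaf 429 5)) (move 589 (leaf 461 5)))))))) (branch (move 591 (branch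 (move 623 (leaf 494 4)) (move 462 (branch (move 559 (leaf 462 4)) (move 463 (branch (move 431 (leaf 430 6)) (move 495 (leaf 462 6)))))))) (move 493 (branch (move 461 (leaf 461 7)) (move 589 (branch (move 621 (leaf 493 5)) (move 591 (branch (move 623 (leaf 494 4)) (move 495 (branch (move 463 (leaf 462 6)) (move 496 (branch (move 497 (leaf 493 1)) (move 528 (branch (move 529 (leaf 493 0)) (move 464 (branch (move 465 (leaf 461 2)) (move 560 (branch (move 559 (leaf 463 5)) (move 592 (branch (move 561 (leaf 557 2)) (move 557 (branch (move 556 (leaf 556 3)) (move 593 (leaf 557 3)))))))))))))))))))))))))))))) (branch (move 590 (branch (ref 0) (branch (ref 8) (branch (ref 9) (move 622 (branch (move 493 (leaf 493 7)) (move 654 (branch (move 557 (leaf 525 7)) (move 653 (branch (move 621 (leaf 525 5)) (move 685 (leaf 557 5)))))))))))) (branch (move 557 (branch (ref 1) (branch (ref 2) (branch (ref 3) (branch (ref 4) (move 494 (branch (move 462 (branch (move 430 (leaf 429 5)) (move 463 (branch (move 431 (leaf 430 6)) (move 495 (branch (move 590 (leaf 462 6)) (move 496 (branch (move 497 (leaf 493 1)) (move 461 (branch (move 460 (leaf 460 0)) (move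 429 (leaf 429 7)))))))))))) (branch (move 589 (branch (move 462 (leaf 461 5)) (move 621 (leaf 493 6)))) (move 590 (branch (move 589 (branch (move 621 (leaf 493 5)) (move 591 (branch (move 623 (leaf 494 4)) (move 556 (branch (move 555 (leaf 555 0)) (move 592 (leaf 556 3)))))))) (branch (move 493 (branch (move 461 (leaf 461 4)) (move 591 (branch (move 623 (leaf 494 4)) (move 556 (branch (move 555 (leaf 555 0)) (move 592 (branch (move 559 (leaf 556 0)) (move 593 (leaf 557 3)))))))))) (move 589 (branch (move 621 (leaf 493 5)) (move 493 (branch (move 461 (leaf 461 4)) (move 588 (branch (move 620 (leaf 492 5)) (move 587 (branch (move 586 (leaf 554 2)) (move 559 (leaf 555 2))))))))))))))))))))) (branch (move 590 (branch (move 622 (branch (move 493 (leaf 493 7)) (move 655 (branch (move 623 (leaf 526 4)) (move 654 (branch (move 687 (leaf 558 4)) (move 653 (branch (move 621 (leaf 525 5)) (move 685 (leaf 557 5)))))))))) (branch (move 493 (branch (move 622 (leaf 493 7)) (move 461 (branch (move 429 (leaf 429 4)) (move 494 (leaf 461 7)))))) (branch (ref 6) (ref 11))))) (branch (move 557 (branch (ref 12) (branch (ref 2) (branch (ref 13) (branch (ref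 14) (branch (ref 15) (move 590 (branch (move 622 (branch (move 654 (leaf 525 7)) (move 623 (branch (move 655 (leaf 526 4)) (move 591 (branch (move 494 (leaf 494 4)) (move 621 (branch (move 653 (leaf 525 5)) (move 592 (branch (move 593 (leaf 589 1)) (move 620 (leaf 588 2)))))))))))) (branch (move 493 (branch (move 461 (leaf 461 4)) (move 622 (leaf 493 7)))) (move 494 (branch (move 589 (branch (move 621 (leaf 493 5)) (move 591 (branch (move 623 (leaf 494 4)) (move 556 (branch (move 555 (leaf 555 0)) (move 592 (leaf 556 3)))))))) (move 493 (branch (move 461 (leaf 461 4)) (move 495 (branch (move 463 (leaf 462 6)) (move 524 (branch (move 496 (leaf 492 1)) (move 523 (leaf 491 2))))))))))))))))))) (branch (move 590 (branch (move 493 (branch (move 622 (leaf 493 7)) (move 461 (branch (move 429 (leaf 429 4)) (move 494 (leaf 461 7)))))) (branch (ref 8) (branch (move 622 (branch (move 493 (leaf 493 7)) (move 654 (branch (move 557 (leaf 525 7)) (move 655 (branch (move 623 (leaf 526 4)) (move 687 (leaf 558 4)))))))) (ref 11))))) (branch (move 590 (branch (move 622 (branch (move 493 (leaf 493 7)) (move 655 (branch (move 623 (leaf 526 4)) (move 654 (branch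 (move 687 (leaf 558 4)) (move 653 (branch (move 621 (leaf 525 5)) (move 685 (leaf 557 5)))))))))) (branch (move 493 (branch (move 622 (leaf 493 7)) (move 461 (branch (move 429 (leaf 429 4)) (move 494 (leaf 461 7)))))) (branch (ref 7) (ref 16))))) (branch (move 590 (branch (move 622 (branch (move 493 (leaf 493 7)) (move 655 (branch (move 623 (leaf 526 4)) (move 654 (branch (move 687 (leaf 558 4)) (move 653 (branch (move 621 (leaf 525 5)) (move 685 (leaf 557 5)))))))))) (branch (move 493 (branch (move 622 (leaf 493 7)) (move 461 (branch (move 429 (leaf 429 4)) (move 494 (leaf 461 7)))))) (branch (ref 0) (move 494 (branch (move 591 (branch (move 623 (leaf 494 4)) (move 559 (branch (move 462 (leaf 462 4)) (move 589 (branch (move 621 (leaf 493 5)) (move 560 (branch (move 561 (leaf 557 1)) (move 588 (leaf 556 2)))))))))) (branch (ref 17) (branch (move 493 (branch (move 461 (leaf 461 7)) (move 589 (branch (move 621 (leaf 493 5)) (move 557 (branch (move 462 (leaf 461 5)) (move 591 (branch (move 623 (leaf 494 4)) (move 556 (branch (move 555 (leaf 555 0)) (move 592 (leaf 556 3)))))))))))) (branch (move 493 (branch (move 461 (leaf 461 7)) (move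 591 (branch (move 623 (leaf 494 4)) (move 462 (branch (move 559 (leaf 462 4)) (move 430 (branch (move 398 (leaf 397 5)) (move 557 (leaf 429 5)))))))))) (move 493 (branch (move 461 (leaf 461 7)) (move 589 (branch (move 621 (leaf 493 5)) (move 557 (branch (move 462 (leaf 461 5)) (move 588 (branch (move 620 (leaf 492 5)) (move 559 (branch (move 560 (leaf 556 1)) (move 587 (leaf 555 2))))))))))))))))))))) (branch (move 590 (branch (move 493 (branch (move 622 (leaf 493 7)) (move 461 (branch (move 429 (leaf 429 4)) (move 494 (leaf 461 7)))))) (branch (move 622 (branch (move 493 (leaf 493 7)) (move 654 (branch (move 557 (leaf 525 7)) (move 653 (branch (move 621 (leaf 525 5)) (move 685 (leaf 557 5)))))))) (branch (ref 10) (ref 16))))) (branch (move 590 (branch (move 493 (branch (move 622 (leaf 493 7)) (move 461 (branch (move 429 (leaf 429 4)) (move 494 (leaf 461 7)))))) (branch (ref 9) (move 622 (branch (move 493 (leaf 493 7)) (move 654 (branch (move 557 (leaf 525 7)) (move 655 (branch (move 623 (leaf 526 4)) (move 687 (leaf 558 4))))))))))) (ref 18))))))))))))))))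
theorem a6p55 : a6e55.Valid :=
  pos_of_chk [a6e35, a6e36, a6e37, a6e38, a6e39, a6e40, a6e41, a6e42, a6e43, a6e45, a6e46, a6e47, a6e48, a6e49, a6e50, a6e51, a6e52, a6e44, a6e54] (forall_cons a6p35 (forall_cons a6p36 (forall_cons a6p37 (forall_cons a6p38 (forall_cons a6p39 (forall_cons a6p40 (forall_cons a6p41 (forall_cons a6p42 (forall_cons a6p43 (forall_cons a6p45 (forall_cons a6p46 (forall_cons a6p47 (forall_cons a6p48 (forall_cons a6p49 (forall_cons a6p50 (forall_cons a6p51 (forall_cons a6p52 (forall_cons a6p44 (forall_cons a6p54 forall_nil))))))))))))))))))) a6c55 a6e55 (by decide +kernel)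

def a6e56 : Pos := ⟨411887859607836582898914047944883593036166118008598324563667807551132591003859363127353578439687273298637778683488851482227319279982998628754441697466903429120, 80263304189841533649238742666689859074202979517836224938084467572956360791981183309247752366694217425814763937231756521687761424690585516196986888950856400294879597663187015217371901735261400375932422717440, 8⟩
def a6c56 : Cert := (move 555 (branch (move 554 (leaf 522 1)) (move 587 (branch (move 619 (branch (move 492 (leaf 491 6)) (move 651 (branch (move 556 (leaf 523 6)) (move 652 (branch (move 684 (leaf 555 4)) (move 620 (leaf 523 4)))))))) (branch (move 491 (branch (move 490 (leaf 490 3)) (move 588 (branch (move 620 (leaf 491 4)) (move 556 (branch (move 459 (leaf 459 4)) (move 558 (branch (move 559 (leaf 523 0)) (move 586 (branch (move 557 (leaf 554 1)) (move 618 (leaf 490 5)))))))))))) (move 491 (branch (move 490 (leaf 490 3)) (move 492 (branch (move 619 (leaf 491 6)) (move 460 (leaf 459 6)))))))))))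
theorem a6p56 : a6e56.Valid :=
  pos_of_chk [] forall_nil a6c56 a6e56 (by decide +kernel)

def a6e57 : Pos := ⟨411887859607836582898914047944883593036166118008598324563667807551132591003859363127353578439687273298637778683488851482227319279982998628754441697466903429120, 80263304194513472841683870570578418795137860712808042246474646232374783192128973068597614066636007656364118810745733488025405704217822810487556254041102363734645947391134028524509562780576245373256876425216, 11⟩
def a6c57 : Cert := (move 555 (branch (move 554 (leaf 522 1)) (move 587 (branch (move 619 (branch (move 492 (leaf 491 6)) (move 651 (branch (move 556 (leaf 523 6)) (move 652 (branch (move 684 (leaf 555 4)) (move 620 (leaf 523 4)))))))) (branch (move 491 (branch (move 490 (leaf 490 3)) (move 492 (branch (move 619 (leaf 491 6)) (move 460 (leaf 459 6)))))) (branch (move 491 (branch (move 490 (leaf 490 3)) (move 588 (branch (move 620 (leaf 491 4)) (move 459 (branch (move 556 (leaf 459 4)) (move 618 (branch (move 586 (leaf 490 5)) (move 619 (branch (move 650 (leaf 522 5)) (move 428 (branch (move 460 (leaf 427 6)) (move 427 (branch (move 396 (leaf 395 6)) (move 426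 (branch (move 458 (leaf 426 7)) (move 394 (leaf 394 7)))))))))))))))))) (move 491 (branch (move 490 (leaf 490 3)) (move 492 (branch (move 460 (leaf 459 6)) (move 588 (branch (move 620 (leaf 491 4)) (move 459 (branch (move 556 (leaf 459 4)) (move 494 (branch (move 495 (leaf 491 2)) (move 458 (branch (move 493 (leaf 458 3)) (move 426 (leaf 426 7))))))))))))))))))))
theorem a6p57 : a6e57.Valid :=
  pos_of_chk [] forall_nil a6c57 a6e57 (by decide +kernel)

def a6e58 : Pos := ⟨411887859607836582898914047944883593036166118008598324563667807551132591003859363127353578439687273298637778683488851482227319279982998628754441697466903429120, 160526608435746337618696726275462488327547628821449493973206466571138413418244664369937038180697698125143559484378371798663020635839073436705014965321704193427871126406357555527778165176634752809845213102080, 11⟩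
def a6c58 : Cert := (move 558 (branch (move 559 (leaf 523 0)) (move 590 (branch (move 622 (branch (move 493 (leaf 493 7)) (move 654 (branch (move 557 (leaf 525 7)) (move 653 (branch (move 685 (leaf 557 5)) (move 621 (leaf 525 5)))))))) (branch (move 494 (branch (move 495 (leaf 491 2)) (move 589 (branch (move 621 (leaf 493 5)) (move 462 (branch (move 557 (leaf 461 5)) (move 555 (branch (move 554 (leaf 522 1)) (move 491 (branch (move 490 (leaf 490 3)) (move 431 (branch (move 463 (leaf 430 6)) (move 430 (branch (move 399 (leaf 398 6)) (move 429 (branch (move 461 (leaf 429 7)) (move 397 (leaf 397 7)))))))))))))))))) (move 494 (branch (move 495 (leaf 491 2)) (move 493 (branch (move 622 (leaf 493 7)) (move 461 (leaf 461 7)))))))))))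
theorem a6p58 : a6e58.Valid :=
  pos_of_chk [] forall_nil a6c58 a6e58 (by decide +kernel)

def a6e59 : Pos := ⟨411887859607836582898914047944883593036166118008598324563667807551132591003859363127353578439687273298637778683488851482227319279982998628754441697466903429120, 6078391949905234150789758639982009831784120025481795884390064254567073308054830593323699640296244053360495561950750443024456393639328687494886867659937972802136277261916280193024, 8⟩
def a6c59 : Cert := (move 494 (branch (move 495 (leaf 491 2)) (move 462 (branch (move 430 (branch (move 557 (leaf 429 5)) (move 398 (branch (move 493 (leaf 397 5)) (move 397 (branch (move 429 (leaf 397 7)) (move 365 (leaf 365 7)))))))) (branch (move 558 (branch (move 559 (leaf 523 0)) (move 557 (branch (move 589 (leaf 461 5)) (move 430 (leaf 429 5)))))) (move 558 (branch (move 559 (leaf 523 0)) (move 461 (branch (move 429 (leaf 429 7)) (move 493 (branch (move 590 (leaf 461 7)) (move 463 (branch (move 431 (leaf 430 6)) (move 464 (branch (move 492 (leaf 460 1)) (move 465 (leaf 461 1)))))))))))))))))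
theorem a6p59 : a6e59.Valid :=
  pos_of_chk [] forall_nil a6c59 a6e59 (by decide +kernel)

def a6e60 : Pos := ⟨54918381293831559784926641987104973815078321906601967840223944520778707148719754915030135629416888131910512148726073538707140719876754323698714771214290649088, 235872651551346334526285508160012010217626639495979642508174403919934917349227939200780126553163650495912401083118798572036539059319719756119143456181860253698474639360, 8⟩
def a6c60 : Cert := (move 427 (branch (move 428 (branch (move 395 (leaf 395 7)) (move 429 (branch (move 397 (leaf 396 6)) (move 461 (branch (move 556 (leaf 428 6)) (move 462 (branch (move 463 (leaf 427 3)) (move 426 (leaf 426 0)))))))))) (branch (move 459 (branch (move 556 (leaf 427 7)) (move 395 (branch (move 491 (leaf 395 4)) (move 363 (leaf 363 4)))))) (branch (move 395 (branch (move 428 (leaf 395 7)) (move 459 (branch (move 491 (leaf 395 4)) (move 363 (leaf 363 4)))))) (move 461 (branch (move 459 (branch (move 556 (leaf 427 7)) (move 462 (branch (move 426 (leaf 426 3)) (move 463 (branch (move 428 (leaf 427 3)) (move 491 (leaf 459 1)))))))) (branch (move 429 (branch (move 556 (leaf 428 6)) (move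 397 (branch (move 428 (leaf 396 6)) (move 365 (leaf 364 5)))))) (branch (move 556 (branch (move 429 (leaf 428 6)) (move 459 (leaf 427 7)))) (move 462 (branch (move 459 (branch (move 426 (leaf 426 3)) (move 490 (branch (move 491 (leaf 458 1)) (move 458 (branch (move 489 (leaf 457 1)) (move 430 (branch (move 429 (leaf 426 2)) (move 431 (leaf 427 2)))))))))) (branch (move 463 (branch (move 428 (leaf 427 3)) (move 491 (leaf 459 1)))) (move 428 (branch (move 463 (leaf 427 3)) (move 426 (branch (move 459 (leaf 426 3)) (move 425 (leaf 425 0)))))))))))))))))
theorem a6p60 : a6e60.Valid :=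
  pos_of_chk [] forall_nil a6c60 a6e60 (by decide +kernel)

def a6e61 : Pos := ⟨384428668980100826104057880343011848244011216313480627491158190561684779951807245416912998381166706770820735095517154724488996143863153226702268129187813392384, 2175541220097076023237116528633658488649573383447540527977745263528430192379093982150947996708216442088813641148378302651162843312830880904081066845495217244327778309740106148724242120704, 7⟩
def a6c61 : Cert := (move 556 (branch (move 459 (branch (move 427 (leaf 427 7)) (move 588 (branch (move 491 (leaf 459 7)) (move 587 (branch (move 619 (leaf 491 5)) (move 555 (leaf 459 5)))))))) (branch (move 461 (branch (move 429 (leaf 428 6)) (move 588 (branch (move 493 (leaf 460 6)) (move 587 (branch (move 619 (leaf 491 5)) (move 555 (leaf 459 5)))))))) (move 490 (branch (move 461 (branch (move 429 (leaf 428 6)) (move 459 (branch (move 427 (leaf 427 7)) (move 458 (branch (move 489 (leaf 457 1)) (move 493 (branch (move 457 (leaf 457 0)) (move 494 (leaf 458 0)))))))))) (branch (move 491 (branch (move 489 (leaf 489 0)) (move 493 (leaf 490 0)))) (branch (move 491 (branch (move 489 (leaf 489 0)) (move 459 (branch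 (move 427 (leaf 427 7)) (move 461 (branch (move 462 (leaf 458 1)) (move 429 (leaf 428 6)))))))) (move 493 (branch (move 491 (leaf 490 0)) (move 461 (branch (move 429 (leaf 428 5)) (move 459 (branch (move 427 (leaf 427 7)) (move 494 (branch (move 495 (leaf 459 3)) (move 458 (leaf 458 0)))))))))))))))))
theorem a6p61 : a6e61.Valid :=
  pos_of_chk [] forall_nil a6c61 a6e61 (by decide +kernel)

def a6e62 : Pos := ⟨164755143855921315224637054772407265291389286708894854390535359867747398083082251748991089880000161011547253130989767267301092527872220624699899223872131563520, 6526623657252032095702223116711481483575365013335944078663250800380770921862125996851765321950634385337646968136197760843363716400878207476455858835715734984271327935343871890002053955584, 7⟩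
def a6c62 : Cert := (move 428 (branch (move 427 (branch (move 395 (leaf 395 7)) (move 556 (branch (move 459 (leaf 427 7)) (move 587 (branch (move 555 (leaf 459 5)) (move 588 (branch (move 619 (leaf 491 5)) (move 493 (branch (move 620 (leaf 492 6)) (move 461 (leaf 460 6)))))))))))) (branch (move 396 (branch (move 493 (leaf 396 4)) (move 365 (branch (move 397 (leaf 364 6)) (move 364 (branch (move 333 (leaf 332 6)) (move 363 (branch (move 395 (leaf 363 7)) (move 331 (leaf 331 7)))))))))) (branch (move 396 (branch (move 493 (leaf 396 4)) (move 365 (branch (move 397 (leaf 364 6)) (move 364 (branch (move 333 (leaf 332 6)) (move 459 (branch (move 491 (leaf 363 5)) (move 427 (branch (move 556 (leaf 427 7)) (move 332 (leaf 331 5)))))))))))) (move 396 (branch (move 365 (branch (move 397 (leaf 364 6)) (move 364 (branch (move 333 (leaf 332 6)) (move 459 (branch (move 491 (leaf 363 5)) (move 427 (branch (move 556 (leaf 427 7)) (move 332 (leaf 331 5)))))))))) (branch (move 365 (branch (move 397 (leaf 364 6)) (move 364 (branch (move 333 (leaf 332 6)) (move 363 (branch (move 395 (leaf 363 7)) (move 331 (leaf 331 7)))))))) (move 395 (branch (move 427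 (leaf 395 7)) (move 363 (leaf 363 7)))))))))))
theorem a6p62 : a6e62.Valid :=
  pos_of_chk [] forall_nil a6c62 a6e62 (by decide +kernel)

def a6e63 : Pos := ⟨384428668980100826104057880343011848244011216313480627491158190561684779951807245416912998381166706770820735095517154724488996143863153226702268129187813392384, 1179363257756731672601059170724702476579622585257066807775491779721727768559308731389396186761867186864958286077903626387738085509363209434468729730648053159743801262080, 6⟩
def a6c63 : Cert := (move 428 (branch (move 396 (branch (move 493 (leaf 396 4)) (move 395 (branch (move 427 (leaf 395 7)) (move 363 (leaf 363 7)))))) (branch (move 429 (branch (move 397 (leaf 396 6)) (move 461 (branch (move 556 (leaf 428 6)) (move 427 (branch (move 395 (leaf 395 7)) (move 462 (branch (move 463 (leaf 427 3)) (move 426 (leaf 426 0)))))))))) (move 493 (branch (move 396 (leaf 396 4)) (move 429 (branch (move 397 (leaf 396 6)) (move 461 (branch (move 556 (leaf 428 5)) (move 558 (leaf 429 4)))))))))))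
theorem a6p63 : a6e63.Valid :=
  pos_of_chk [] forall_nil a6c63 a6e63 (by decide +kernel)

def a6e64 : Pos := ⟨384428668980100826104057880343011848244011216313480627491158190561684779951807245416912998381166706770820735095517154724488996143863153226702268129187813392384, 5065326623348544115315823303451050731979270702544209087540900252427057702740366224224859957762421907942548391975519529685753599947932766046758894449198305984371827679051053531136, 10⟩
def a6c64 : Cert := (move 429 (branch (move 461 (branch (move 556 (leaf 428 6)) (move 397 (branch (move 428 (leaf 396 6)) (move 365 (leaf 364 5)))))) (branch (move 461 (branch (move 556 (leaf 428 6)) (move 493 (branch (move 558 (leaf 429 4)) (move 428 (branch (move 396 (leaf 396 4)) (move 491 (branch (move 490 (leaf 490 0)) (move 462 (branch (move 463 (leaf 459 1)) (move 430 (branch (move 398 (leaf 397 6)) (move 459 (branch (move 458 (leaf 426 2)) (move 431 (leaf 427 1)))))))))))))))) (branch (move 397 (branch (move 428 (leaf 396 6)) (move 461 (branch (move 493 (leaf 396 5)) (move 365 (leaf 364 5)))))) (branch (move 461 (branch (move 556 (leaf 428 6)) (move 493 (branch (move 558 (leaf 429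 4)) (move 397 (leaf 396 5)))))) (move 493 (branch (move 428 (branch (move 397 (leaf 396 6)) (move 396 (leaf 396 4)))) (branch (move 494 (branch (move 491 (branch (move 490 (leaf 490 0)) (move 462 (branch (move 463 (leaf 459 2)) (move 430 (branch (move 397 (leaf 397 7)) (move 398 (leaf 397 5)))))))) (move 495 (branch (move 459 (leaf 459 3)) (move 496 (leaf 492 1)))))) (move 494 (branch (move 495 (branch (move 496 (leaf 492 1)) (move 463 (branch (move 464 (leaf 460 2)) (move 558 (branch (move 590 (leaf 462 6)) (move 431 (branch (move 462 (leaf 430 6)) (move 399 (leaf 398 5)))))))))) (branch (move 495 (branch (move 459 (leaf 459 3)) (move 496 (leaf 492 1)))) (move 491 (branch (move 490 (leaf 490 0)) (move 459 (branch (move 458 (leaf 458 3)) (move 556 (branch (move 588 (leaf 459 7)) (move 428 (branch (move 396 (leaf 396 4)) (move 430 (branch (move 431 (leaf 427 1)) (move 462 (branch (move 463 (leaf 459 2)) (move 398 (leaf 397 5)))))))))))))))))))))))))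
theorem a6p64 : a6e64.Valid :=
  pos_of_chk [] forall_nil a6c64 a6e64 (by decide +kernel)

def a6e65 : Pos := ⟨164755143855921315224637054772407265291389286708894854390535359867747398083082251748991089880000161011547253130989767267301092527872220624699899223872131563520, 235872651551346334547063866469607556124729342681879721294521703231285735804738169894196284928320210908910058063164894795702318449689930280206731971398155304397929709568, 7⟩
def a6c65 : Cert := (move 428 (branch (move 396 (branch (move 493 (leaf 396 4)) (move 395 (branch (move 427 (leaf 395 7)) (move 363 (leaf 363 7)))))) (branch (move 396 (branch (move 493 (leaf 396 4)) (move 365 (branch (move 397 (leaf 364 6)) (move 364 (branch (move 333 (leaf 332 6)) (move 363 (branch (move 395 (leaf 363 7)) (move 331 (leaf 331 7)))))))))) (branch (move 396 (branch (move 493 (leaf 396 4)) (move 365 (branch (move 397 (leaf 364 6)) (move 364 (branch (move 333 (leaf 332 6)) (move 459 (branch (move 491 (leaf 363 5)) (move 427 (branch (move 556 (leaf 427 7)) (move 332 (leaf 331 5)))))))))))) (move 427 (branch (move 395 (leaf 395 7)) (move 429 (branch (move 397 (leaf 396 6)) (move 459 (branch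 (move 556 (leaf 427 7)) (move 458 (branch (move 457 (leaf 425 2)) (move 430 (leaf 426 1))))))))))))))
theorem a6p65 : a6e65.Valid :=
  pos_of_chk [] forall_nil a6c65 a6e65 (by decide +kernel)

def a6e66 : Pos := ⟨384428668980100826104057880343011848244011216313480627491158190561684779951807245416912998381166706770820735095517154724488996143863153226702268129187813392384, 10877706096433118817565715513803470383485736863344918046945815796137602625108876966100909061092788318795710942383635471199836422311425663574989395421841173775808675522610102665445176770560, 5⟩
def a6c66 : Cert := (move 556 (branch (move 459 (branch (move 427 (leaf 427 7)) (move 588 (branch (move 491 (leaf 459 7)) (move 587 (branch (move 619 (leaf 491 5)) (move 555 (leaf 459 5)))))))) (branch (move 589 (branch (move 557 (leaf 460 4)) (move 588 (branch (move 621 (leaf 492 4)) (move 459 (branch (move 491 (leaf 459 7)) (move 427 (leaf 427 7)))))))) (move 557 (branch (move 589 (leaf 460 4)) (move 555 (branch (move 554 (leaf 522 2)) (move 587 (leaf 459 5)))))))))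
theorem a6p66 : a6e66.Valid :=
  pos_of_chk [] forall_nil a6c66 a6e66 (by decide +kernel)

def a6e67 : Pos := ⟨20839919903003640765830212219764866008987605093626783424390886990907289668787345257608549806065028951758183019494863853710304097895639416832, 727242542641102168571564405488212426790402850000158065430970327329470439201993104807830979009994652939614827340513906218973548103098429346665277161472, 8⟩
def a6c67 : Cert := (move 427 (branch (move 428 (branch (move 463 (leaf 427 3)) (move 426 (branch (move 425 (leaf 425 0)) (move 429 (leaf 426 0)))))) (branch (move 459 (branch (move 426 (leaf 426 3)) (move 490 (branch (move 491 (leaf 458 1)) (move 458 (branch (move 489 (leaf 457 1)) (move 430 (branch (move 429 (leaf 426 2)) (move 431 (leaf 427 2)))))))))) (branch (move 463 (branch (move 428 (leaf 427 3)) (move 431 (branch (move 432 (leaf 428 2)) (move 496 (branch (move 495 (leaf 460 0)) (move 464 (branch (move 497 (leaf 461 0)) (move 430 (branch (move 459 (leaf 427 2)) (move 465 (branch (move 429 (leaf 429 3)) (move 466 (leaf 430 3)))))))))))))) (move 459 (branch (move 426 (leaf 426 3)) (move 463 (branch (move 428 (leaf 427 3)) (move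 431 (branch (move 430 (leaf 427 2)) (move 432 (leaf 428 2))))))))))))
theorem a6p67 : a6e67.Valid :=
  pos_of_chk [] forall_nil a6c67 a6e67 (by decide +kernel)

def a6e68 : Pos := ⟨329510287686269266339971158258910515194763106626643525659921851134532856227478377492790152420537163896518772752856110137540038443481262756713857455869162160128, 8702164880388304092948466114534633954195513048776137467676126488046826888136773628892236084406780123999791351947342759673544115895048455852997326540338797306240166431533626615388719546368, 5⟩
def a6c68 : Cert := (move 494 (branch (move 558 (branch (move 429 (leaf 429 7)) (move 463 (branch (move 431 (leaf 430 6)) (move 495 (branch (move 496 (leaf 460 0)) (move 590 (leaf 462 6)))))))) (branch (move 430 (branch (move 557 (leaf 429 5)) (move 431 (branch (move 399 (leaf 398 6)) (move 432 (branch (move 463 (leaf 428 2)) (move 429 (leaf 428 1)))))))) (move 557 (branch (move 430 (leaf 429 5)) (move 589 (branch (move 621 (leaf 493 6)) (move 558 (leaf 461 5)))))))))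
theorem a6p68 : a6e68.Valid :=
  pos_of_chk [] forall_nil a6c68 a6e68 (by decide +kernel)

def a6e69 : Pos := ⟨384428668967314144059826364651561660932918589027789968935077558808017201694659625909770629545828800336337143243987957001837014347478995907214449682198082617344, 2026130655943851889564026687810493151672497197191841562160304861250084147298006510298198087896621266071071292819005759366095347596509107467016428615436721359684433097132995510272, 9⟩
def a6c69 : Cert := (move 494 (branch (move 429 (branch (move 558 (leaf 429 7)) (move 397 (branch (move 430 (leaf 397 7)) (move 365 (leaf 365 4)))))) (branch (move 459 (branch (move 495 (leaf 459 0)) (move 558 (branch (move 429 (leaf 429 7)) (move 557 (branch (move 589 (leaf 461 5)) (move 559 (branch (move 560 (leaf 524 3)) (move 426 (branch (move 427 (leaf 426 3)) (move 458 (branch (move 425 (leaf 425 3)) (move 490 (branch (move 489 (leaf 457 1)) (move 491 (leaf 458 1)))))))))))))))) (move 430 (branch (move 557 (leaf 429 5)) (move 459 (branch (move 431 (leaf 427 2)) (move 495 (leaf 459 0)))))))))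
theorem a6p69 : a6e69.Valid :=
  pos_of_chk [] forall_nil a6c69 a6e69 (by decide +kernel)

def a6e70 : Pos := ⟨329510287686269266339971158258910515194763106626643525659921851134532856227478377492790152420537163896518772752856110137540038443481262756713857455869162160128, 8702164876336042795213121428487360649809613487242034009709055813950780241340576475146665287463539059082630806229748305317963514074349878801337304098117454021669294950110732401400524832768, 6⟩
def a6c70 : Cert := (move 427 (branch (move 459 (branch (move 426 (leaf 426 3)) (move 463 (branch (move 428 (leaf 427 3)) (move 431 (branch (move 430 (leaf 427 2)) (move 432 (leaf 428 2)))))))) (branch (move 463 (branch (move 428 (leaf 427 3)) (move 431 (branch (move 432 (leaf 428 2)) (move 494 (branch (move 558 (leaf 430 6)) (move 399 (branch (move 430 (leaf 398 6)) (move 495 (leaf 398 5)))))))))) (branch (move 459 (branch (move 426 (leaf 426 3)) (move 494 (branch (move 495 (leaf 459 0)) (move 557 (branch (move 430 (leaf 429 5)) (move 589 (branch (move 621 (leaf 493 6)) (move 558 (leaf 461 5)))))))))) (move 459 (branch (move 426 (leaf 426 3)) (move 463 (branch (move 428 (leaf 427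 3)) (move 495 (branch (move 494 (leaf 459 0)) (move 496 (leaf 460 0))))))))))))
theorem a6p70 : a6e70.Valid :=
  pos_of_chk [] forall_nil a6c70 a6e70 (by decide +kernel)

def a6e71 : Pos := ⟨219673525124179510900260745473608223718452141824350639109610435787564165293115880658829198169953891016882031770592416408946086635485796455712673003211321245696, 943490606205385338122723720325826855506307301172224185513254607610092848753186952353385604143606254788351640820519859157251573153768359318088898686426718913276411904000, 6⟩
def a6c71 : Cert := (move 427 (branch (move 428 (branch (move 463 (leaf 427 3)) (move 426 (branch (move 425 (leaf 425 0)) (move 429 (leaf 426 0)))))) (branch (move 459 (branch (move 426 (leaf 426 3)) (move 490 (branch (move 491 (leaf 458 1)) (move 458 (branch (move 489 (leaf 457 1)) (move 430 (branch (move 429 (leaf 426 2)) (move 431 (leaf 427 2)))))))))) (move 463 (branch (move 428 (leaf 427 3)) (move 431 (branch (move 432 (leaf 428 2)) (move 494 (branch (move 558 (leaf 430 6)) (move 430 (branch (move 459 (leaf 427 2)) (move 399 (leaf 398 6)))))))))))))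
theorem a6p71 : a6e71.Valid :=
  pos_of_chk [] forall_nil a6c71 a6e71 (by decide +kernel)

def a6e72 : Pos := ⟨219673525124179510900260745473608223718452141824350639109610435787564165293115880658829198169953891016882031770592416408946086635485796455712673003211321245696, 4052261298678835292252658642804315304594239483137933917727090739199180877013369351582546864876035740409580617571971387397008098599349909679994073922393631411747016704595171737600, 5⟩
def a6c72 : Cert := (move 463 (branch (move 428 (branch (move 427 (leaf 427 3)) (move 464 (branch (move 429 (leaf 428 3)) (move 432 (branch (move 431 (leaf 428 2)) (move 433 (leaf 429 2)))))))) (branch (move 495 (branch (move 496 (leaf 460 0)) (move 494 (branch (move 459 (leaf 459 0)) (move 558 (branch (move 590 (leaf 462 6)) (move 429 (leaf 429 7)))))))) (move 495 (branch (move 496 (leaf 460 0)) (move 494 (branch (move 459 (leaf 459 0)) (move 431 (branch (move 432 (leaf 428 2)) (move 558 (leaf 430 6)))))))))))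
theorem a6p72 : a6e72.Valid :=
  pos_of_chk [] forall_nil a6c72 a6e72 (by decide +kernel)

def a6e73 : Pos := ⟨164755143868707997292685621781575899192002156531459645528316111728417014539533742102884646908237890597583473332307569506248140632250508062713779497028307386368, 58968162901566179319649497690029773783697241393232268280037131663126418591313908459963356028547953613962236566195757873255953670114092556736059443895927976988101312512, 10⟩
def a6c73 : Cert := (move 459 (branch (move 462 (branch (move 427 (branch (move 426 (leaf 426 3)) (move 463 (branch (move 428 (leaf 427 3)) (move 431 (branch (move 430 (leaf 427 2)) (move 432 (leaf 428 2)))))))) (branch (move 494 (branch (move 495 (leaf 459 0)) (move 430 (branch (move 431 (leaf 427 2)) (move 398 (leaf 397 5)))))) (move 495 (branch (move 494 (leaf 459 0)) (move 463 (branch (move 496 (leaf 460 0)) (move 427 (branch (move 426 (leaf 426 3)) (move 428 (leaf 427 3))))))))))) (branch (move 458 (branch (move 494 (leaf 458 0)) (move 425 (branch (move 426 (leaf 425 3)) (move 457 (branch (move 424 (leaf 424 3)) (move 489 (branch (move 488 (leaf 456 1)) (move 490 (leaf 457 1)))))))))) (branch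 (move 494 (branch (move 458 (leaf 458 0)) (move 495 (branch (move 496 (leaf 492 1)) (move 462 (leaf 459 0)))))) (move 490 (branch (move 462 (branch (move 491 (leaf 458 1)) (move 427 (branch (move 426 (leaf 426 3)) (move 463 (branch (move 428 (leaf 427 3)) (move 431 (branch (move 430 (leaf 427 2)) (move 432 (leaf 428 2)))))))))) (branch (move 458 (branch (move 489 (leaf 457 1)) (move 426 (branch (move 425 (leaf 425 3)) (move 427 (branch (move 462 (leaf 426 3)) (move 395 (branch (move 522 (leaf 394 6)) (move 363 (leaf 362 5)))))))))) (branch (move 491 (branch (move 462 (leaf 458 1)) (move 489 (branch (move 488 (leaf 456 2)) (move 458 (leaf 457 1)))))) (move 458 (branch (move 489 (leaf 457 1)) (move 427 (branch (move 395 (branch (move 363 (leaf 362 5)) (move 522 (branch (move 554 (leaf 426 6)) (move 491 (leaf 394 5)))))) (branch (move 425 (branch (move 426 (leaf 425 3)) (move 457 (branch (move 424 (leaf 424 3)) (move 456 (branch (move 428 (leaf 424 2)) (move 455 (branch (move 491 (leaf 455 0)) (move 487 (branch (move 486 (leaf 454 1)) (move 488 (leaf 455 1)))))))))))) (move 426 (branch (move 425 (leaf 425 3)) (move 395 (branch (move 522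 (leaf 394 6)) (move 363 (leaf 362 5)))))))))))))))))))
theorem a6p73 : a6e73.Valid :=
  pos_of_chk [] forall_nil a6c73 a6e73 (by decide +kernel)

def a6e74 : Pos := ⟨329510287711842630452251240959529336406468603734898975353783234748870050941077487353826078284112799917038584805703110099139068344243707514215556176015068758016, 21755412192866237635013494701831267601297875386653768223386362233206401546383504986308085945315537747263632008103170982354337643852240588665455333480657474121813463970407385010644275167232, 8⟩
def a6c74 : Cert := (move 462 (branch (move 557 (branch (move 430 (leaf 429 6)) (move 588 (branch (move 556 (leaf 460 5)) (move 589 (branch (move 620 (leaf 492 5)) (move 590 (branch (move 622 (leaf 493 4)) (move 558 (leaf 461 4)))))))))) (branch (move 459 (branch (move 494 (branch (move 495 (leaf 459 0)) (move 430 (branch (move 431 (leaf 427 2)) (move 398 (leaf 397 5)))))) (move 490 (branch (move 491 (leaf 458 1)) (move 458 (branch (move 489 (leaf 457 1)) (move 426 (branch (move 425 (leaf 425 3)) (move 427 (leaf 426 3)))))))))) (move 459 (branch (move 490 (branch (move 491 (leaf 458 1)) (move 458 (branch (move 489 (leaf 457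 1)) (move 426 (branch (move 425 (leaf 425 3)) (move 427 (leaf 426 3)))))))) (move 463 (branch (move 496 (branch (move 495 (leaf 460 0)) (move 464 (branch (move 497 (leaf 461 0)) (move 432 (branch (move 431 (leaf 428 2)) (move 433 (leaf 429 2)))))))) (branch (move 494 (branch (move 495 (leaf 459 0)) (move 558 (branch (move 431 (leaf 430 6)) (move 590 (leaf 461 7)))))) (branch (move 495 (branch (move 494 (leaf 459 0)) (move 496 (leaf 460 0)))) (move 432 (branch (move 431 (leaf 428 2)) (move 464 (branch (move 433 (leaf 429 2)) (move 465 (branch (move 494 (leaf 461 1)) (move 497 (branch (move 496 (leaf 461 0)) (move 498 (leaf 462 0)))))))))))))))))))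
theorem a6p74 : a6e74.Valid :=
  pos_of_chk [] forall_nil a6c74 a6e74 (by decide +kernel)

def a6e75 : Pos := ⟨384428668967314144041963576163272825990778407125134369498802468727765673045181722774707238401153932972672671981646503614615714616483398318319903312573248831488, 30457577067176149785663619678120791798804268316405640186229582378049324258921263180401380328452828088374358932970089704308260943652507175057780960331957066387803473242037074125635459219456, 12⟩
def a6c75 : Cert := (move 461 (branch (move 462 (branch (ref 0) (branch (ref 1) (branch (ref 2) (branch (move 494 (branch (move 495 (branch (move 459 (leaf 459 0)) (move 496 (branch (move 497 (leaf 493 1)) (move 463 (leaf 460 0)))))) (move 429 (branch (move 558 (leaf 429 7)) (move 397 (branch (move 430 (leaf 397 7)) (move 365 (leaf 365 4)))))))) (branch (ref 3) (branch (ref 4) (ref 5)))))))) (branch (move 493 (branch (move 429 (branch (move 558 (leaf 429 4)) (move 556 (leaf 428 5)))) (ref 6))) (branch (move 493 (branch (move 557 (branch (move 428 (leaf 428 7)) (move 588 (branch (move 556 (leaf 460 5)) (move 589 (branch (move 620 (leaf 492 5)) (move 590 (branch (move 622 (leaf 493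 4)) (move 558 (leaf 461 4)))))))))) (branch (move 429 (branch (move 558 (leaf 429 4)) (move 556 (leaf 428 5)))) (branch (move 429 (branch (move 558 (leaf 429 4)) (move 428 (branch (move 557 (leaf 428 7)) (move 396 (leaf 396 7)))))) (move 429 (branch (move 556 (leaf 428 5)) (move 428 (branch (move 557 (leaf 428 7)) (move 396 (leaf 396 7)))))))))) (branch (move 493 (branch (move 429 (branch (move 556 (leaf 428 5)) (move 428 (branch (move 557 (leaf 428 7)) (move 396 (leaf 396 7)))))) (branch (ref 6) (move 429 (branch (move 556 (leaf 428 5)) (move 494 (branch (move 397 (leaf 397 4)) (move 495 (branch (move 496 (leaf 492 1)) (move 459 (branch (move 458 (leaf 458 0)) (move 462 (leaf 459 0))))))))))))) (branch (move 493 (branch (move 557 (branch (move 428 (leaf 428 7)) (move 588 (branch (move 556 (leaf 460 5)) (move 589 (branch (move 620 (leaf 492 5)) (move 590 (branch (move 622 (leaf 493 4)) (move 558 (leaf 461 4)))))))))) (branch (ref 6) (ref 7)))) (move 493 (branch (move 429 (branch (move 558 (leaf 429 4)) (move 556 (leaf 428 5)))) (branch (move 429 (branch (move 556 (leaf 428 5)) (move 494 (branch (move 397 (leaf 397 4)) (move 495 (branch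 (move 496 (leaf 492 1)) (move 459 (branch (move 458 (leaf 458 0)) (move 462 (leaf 459 0)))))))))) (branch (move 558 (branch (move 429 (leaf 429 4)) (move 590 (branch (move 622 (leaf 493 7)) (move 494 (leaf 461 7)))))) (ref 7)))))))))))
theorem a6p75 : a6e75.Valid :=
  pos_of_chk [a6e67, a6e68, a6e69, a6e70, a6e71, a6e72, a6e73, a6e74] (forall_cons a6p67 (forall_cons a6p68 (forall_cons a6p69 (forall_cons a6p70 (forall_cons a6p71 (forall_cons a6p72 (forall_cons a6p73 (forall_cons a6p74 forall_nil)))))))) a6c75 a6e75 (by decide +kernel)

def a6e76 : Pos := ⟨384428668967314144053872101822132049285538528393571435789652528781266692144833658198082832497603844548448986156540805872763247770480463377582934225656471355392, 4052261298678835292252658643239062494711400088059081598127800076863975401164500091997629677434982926117647207137470371243432541940447171722916004727033246579494231126097757470720, 8⟩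
def a6c76 : Cert := (move 494 (branch (move 430 (branch (move 431 (branch (move 399 (leaf 398 6)) (move 429 (branch (move 397 (leaf 397 7)) (move 463 (branch (move 558 (leaf 430 6)) (move 428 (branch (move 427 (leaf 427 0)) (move 464 (leaf 428 0)))))))))) (branch (move 398 (branch (move 493 (leaf 397 5)) (move 397 (branch (move 429 (leaf 397 7)) (move 365 (leaf 365 7)))))) (move 398 (branch (move 493 (leaf 397 5)) (move 399 (branch (move 431 (leaf 398 6)) (move 367 (leaf 366 6))))))))) (branch (move 461 (branch (move 495 (branch (move 459 (leaf 459 0)) (move 496 (branch (move 497 (leaf 493 1)) (move 463 (leaf 460 0)))))) (move 429 (branch (move 558 (leaf 429 7)) (move 397 (branch (move 430 (leaf 397 7)) (move 365 (leaf 365 4)))))))) (branch (move 430 (branch (move 398 (branch (move 493 (leaf 397 5)) (move 365 (branch (move 397 (leaf 365 7)) (move 366 (branch (move 333 (leaf 333 7)) (move 367 (branch (move 399 (leaf 366 6)) (move 335 (leaf 334 6)))))))))) (branch (move 431 (branch (move 399 (leaf 398 6)) (move 461 (branch (move 459 (leaf 427 2)) (move 463 (branch (move 432 (leaf 428 2)) (move 558 (leaf 430 6)))))))) (move 398 (branch (move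 493 (leaf 397 5)) (move 365 (branch (move 397 (leaf 365 7)) (move 366 (branch (move 333 (leaf 333 7)) (move 463 (branch (move 495 (leaf 366 4)) (move 431 (branch (move 558 (leaf 430 6)) (move 334 (leaf 334 4))))))))))))))) (branch (move 430 (branch (move 398 (branch (move 493 (leaf 397 5)) (move 397 (branch (move 429 (leaf 397 7)) (move 365 (leaf 365 7)))))) (branch (move 398 (branch (move 493 (leaf 397 5)) (move 399 (branch (move 431 (leaf 398 6)) (move 367 (leaf 366 6)))))) (move 431 (branch (move 399 (leaf 398 6)) (move 461 (branch (move 459 (leaf 427 2)) (move 429 (branch (move 432 (leaf 428 1)) (move 397 (leaf 397 7))))))))))) (branch (move 430 (branch (move 398 (branch (move 493 (leaf 397 5)) (move 399 (branch (move 431 (leaf 398 6)) (move 367 (leaf 366 6)))))) (branch (move 431 (branch (move 399 (leaf 398 6)) (move 461 (branch (move 459 (leaf 427 2)) (move 463 (branch (move 432 (leaf 428 2)) (move 558 (leaf 430 6)))))))) (move 493 (branch (move 398 (leaf 397 5)) (move 495 (branch (move 496 (leaf 492 1)) (move 461 (branch (move 459 (leaf 459 0)) (move 558 (branch (move 590 (leaf 461 7)) (move 429 (leaf 429 4))))))))))))) (move 461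 (branch (move 495 (branch (move 459 (leaf 459 0)) (move 496 (branch (move 497 (leaf 493 1)) (move 463 (leaf 460 0)))))) (move 429 (branch (move 558 (leaf 429 7)) (move 397 (branch (move 493 (leaf 397 4)) (move 365 (leaf 365 4))))))))))))))
theorem a6p76 : a6e76.Valid :=
  pos_of_chk [] forall_nil a6c76 a6e76 (by decide +kernel)

def a6e77 : Pos := ⟨384428668967314144041963576163272825990778407125134369498802468727765673045181722774707238401153932972672671981646503614615714616483398318319903312573248831488, 8702164880388304098609409751766945983016567139589708322020509980042701740962683285648733974199974813389489879910858942624837641827606746449712903550147476397319983739411987896874035052544, 11⟩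
def a6c77 : Cert := (move 462 (branch (move 428 (branch (move 461 (branch (move 427 (branch (move 463 (leaf 427 3)) (move 426 (branch (move 459 (leaf 426 3)) (move 425 (leaf 425 0)))))) (move 493 (branch (move 557 (leaf 428 7)) (move 429 (branch (move 396 (leaf 396 7)) (move 558 (leaf 429 4)))))))) (branch (move 492 (branch (move 557 (leaf 428 4)) (move 427 (branch (move 395 (leaf 395 7)) (move 461 (branch (move 463 (leaf 427 3)) (move 426 (branch (move 459 (leaf 426 3)) (move 425 (leaf 425 0)))))))))) (branch (move 492 (branch (move 557 (leaf 428 4)) (move 396 (branch (move 493 (leaf 396 4)) (move 397 (branch (move 429 (leaf 396 6)) (move 365 (leaf 364 6)))))))) (move 492 (branch (move 427 (branch (move 395 (leaf 395 7)) (move 461 (branch (move 463 (leaf 427 3)) (move 429 (branch (move 426 (leaf 426 0)) (move 397 (leaf 396 6)))))))) (branch (move 396 (branch (move 493 (leaf 396 4)) (move 397 (branch (move 429 (leaf 396 6)) (move 365 (leaf 364 6)))))) (move 396 (branch (move 493 (leaf 396 4)) (move 395 (branch (move 427 (leaf 395 7)) (move 363 (leaf 363 7))))))))))))) (branch (ref 0) (branch (move 461 (branch (ref 1) (branch (ref 2) (branch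 (ref 3) (branch (move 494 (branch (move 495 (branch (move 459 (leaf 459 0)) (move 496 (branch (move 497 (leaf 493 1)) (move 463 (leaf 460 0)))))) (move 429 (branch (move 558 (leaf 429 7)) (move 397 (branch (move 430 (leaf 397 7)) (move 365 (leaf 365 4)))))))) (branch (ref 4) (branch (ref 5) (ref 6)))))))) (branch (move 494 (branch (move 557 (branch (move 430 (leaf 429 5)) (move 589 (branch (move 621 (leaf 493 6)) (move 493 (leaf 461 6)))))) (branch (move 461 (branch (move 495 (branch (move 459 (leaf 459 0)) (move 496 (branch (move 497 (leaf 493 1)) (move 463 (leaf 460 0)))))) (move 429 (branch (move 558 (leaf 429 7)) (move 397 (branch (move 430 (leaf 397 7)) (move 365 (leaf 365 4)))))))) (move 461 (branch (move 495 (branch (move 459 (leaf 459 0)) (move 496 (branch (move 497 (leaf 493 1)) (move 463 (leaf 460 0)))))) (move 429 (branch (move 558 (leaf 429 7)) (move 397 (branch (move 493 (leaf 397 4)) (move 365 (leaf 365 4))))))))))) (branch (move 428 (branch (move 492 (branch (move 557 (leaf 428 4)) (move 427 (branch (move 395 (leaf 395 7)) (move 461 (branch (move 463 (leaf 427 3)) (move 426 (branch (move 459 (leaf 426 3)) (move 425 (leaf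 425 0)))))))))) (branch (move 492 (branch (move 557 (leaf 428 4)) (move 396 (branch (move 493 (leaf 396 4)) (move 397 (branch (move 429 (leaf 396 6)) (move 365 (leaf 364 6)))))))) (branch (move 492 (branch (move 427 (branch (move 395 (leaf 395 7)) (move 461 (branch (move 463 (leaf 427 3)) (move 429 (branch (move 426 (leaf 426 0)) (move 397 (leaf 396 6)))))))) (branch (move 396 (branch (move 493 (leaf 396 4)) (move 397 (branch (move 429 (leaf 396 6)) (move 365 (leaf 364 6)))))) (move 396 (branch (move 493 (leaf 396 4)) (move 395 (branch (move 427 (leaf 395 7)) (move 363 (leaf 363 7))))))))) (move 461 (branch (move 493 (branch (move 557 (leaf 428 7)) (move 463 (branch (move 427 (leaf 427 3)) (move 432 (branch (move 431 (leaf 428 2)) (move 464 (branch (move 433 (leaf 429 2)) (move 496 (branch (move 495 (leaf 460 0)) (move 497 (leaf 461 0)))))))))))) (branch (move 427 (branch (move 463 (leaf 427 3)) (move 426 (branch (move 459 (leaf 426 3)) (move 425 (leaf 425 0)))))) (move 493 (branch (move 557 (leaf 428 7)) (move 429 (branch (move 396 (leaf 396 7)) (move 430 (branch (move 398 (leaf 397 6)) (move 459 (branch (move 458 (leaf 426 2)) (move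 431 (leaf 427 1))))))))))))))))) (branch (move 557 (branch (move 494 (branch (move 430 (leaf 429 5)) (move 589 (branch (move 621 (leaf 493 6)) (move 558 (leaf 461 5)))))) (branch (move 492 (branch (move 428 (leaf 428 4)) (move 589 (branch (move 621 (leaf 492 7)) (move 493 (leaf 460 7)))))) (move 430 (branch (move 494 (leaf 429 5)) (move 461 (branch (move 493 (leaf 429 6)) (move 459 (branch (move 431 (leaf 427 2)) (move 458 (branch (move 429 (leaf 426 2)) (move 490 (branch (move 489 (leaf 457 1)) (move 491 (leaf 458 1))))))))))))))) (branch (move 557 (branch (move 494 (branch (move 430 (leaf 429 5)) (move 589 (branch (move 621 (leaf 493 6)) (move 558 (leaf 461 5)))))) (branch (move 492 (branch (move 428 (leaf 428 4)) (move 589 (branch (move 621 (leaf 492 7)) (move 493 (leaf 460 7)))))) (move 428 (branch (move 492 (leaf 428 4)) (move 461 (branch (move 493 (leaf 428 7)) (move 463 (branch (move 427 (leaf 427 3)) (move 431 (branch (move 432 (leaf 428 2)) (move 494 (branch (move 558 (leaf 430 6)) (move 430 (leaf 429 5))))))))))))))) (move 557 (branch (move 494 (branch (move 430 (leaf 429 5)) (move 589 (branch (move 621 (leaf 493 6)) (move 558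 (leaf 461 5)))))) (branch (move 492 (branch (move 428 (leaf 428 4)) (move 589 (branch (move 621 (leaf 492 7)) (move 493 (leaf 460 7)))))) (move 494 (branch (move 430 (leaf 429 5)) (move 492 (branch (move 428 (leaf 428 4)) (move 493 (branch (move 491 (branch (move 463 (leaf 459 2)) (move 490 (leaf 490 0)))) (move 495 (branch (move 459 (leaf 459 3)) (move 496 (leaf 492 1)))))))))))))))))))))
theorem a6p77 : a6e77.Valid :=
  pos_of_chk [a6e76, a6e67, a6e68, a6e69, a6e70, a6e71, a6e72] (forall_cons a6p76 (forall_cons a6p67 (forall_cons a6p68 (forall_cons a6p69 (forall_cons a6p70 (forall_cons a6p71 (forall_cons a6p72 forall_nil))))))) a6c77 a6e77 (by decide +kernel)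

def a6e78 : Pos := ⟨384428668980100826104057880343011848244011216313480627491158190561684779951807245416912998381166706770820735095517154724488996143863153226702268129187813392384, 2175541222123206672635502337647824393346453257185130475752998135381196050735348319780086690878380733376502623870687798018290363355634645742661020016585406352789400015188000245132828868608, 7⟩
def a6c78 : Cert := (move 556 (branch (move 557 (branch (move 589 (leaf 460 4)) (move 555 (branch (move 554 (leaf 522 2)) (move 587 (leaf 459 5)))))) (branch (move 461 (branch (move 429 (leaf 428 6)) (move 588 (branch (move 493 (leaf 460 6)) (move 587 (branch (move 619 (leaf 491 5)) (move 555 (leaf 459 5)))))))) (move 461 (branch (move 429 (leaf 428 6)) (move 493 (branch (move 588 (leaf 460 6)) (move 557 (branch (move 589 (leaf 460 4)) (move 462 (branch (move 430 (leaf 429 6)) (move 491 (branch (move 490 (leaf 490 0)) (move 463 (leaf 459 1)))))))))))))))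
theorem a6p78 : a6e78.Valid :=
  pos_of_chk [] forall_nil a6c78 a6e78 (by decide +kernel)

def a6e79 : Pos := ⟨384428668992887508166152184522750870497244025501826885483513912395603886858432768059118758361179480568968798209387805834362277671242908135084632945802377953280, 17404329754698216243539622927922591973157449080762016480951175620764351071652756808586180797251241455658690281167041957147917549541911853236526155511161443835076674690094716040536452497408, 12⟩
def a6c79 : Cert := (move 461 (branch (move 558 (branch (move 429 (leaf 429 4)) (move 590 (branch (move 622 (leaf 493 7)) (move 494 (leaf 461 7)))))) (branch (move 429 (branch (move 558 (leaf 429 4)) (move 492 (branch (move 397 (leaf 396 5)) (move 491 (branch (move 490 (leaf 490 0)) (move 430 (branch (move 398 (leaf 397 6)) (move 462 (branch (move 463 (leaf 459 1)) (move 557 (leaf 429 6)))))))))))) (branch (move 494 (branch (move 429 (branch (move 397 (leaf 397 4)) (move 430 (branch (move 398 (leaf 397 6)) (move 462 (branch (move 557 (leaf 429 5)) (move 459 (branch (move 458 (leaf 458 0)) (move 431 (leaf 427 2)))))))))) (branch (move 495 (branch (move 496 (leaf 492 1)) (move 429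 (branch (move 397 (leaf 397 4)) (move 430 (branch (move 398 (leaf 397 6)) (move 462 (branch (move 557 (leaf 429 5)) (move 431 (branch (move 432 (leaf 428 1)) (move 399 (leaf 398 6)))))))))))) (move 495 (branch (move 496 (leaf 492 1)) (move 459 (branch (move 492 (leaf 459 3)) (move 458 (leaf 458 0))))))))) (move 557 (branch (move 462 (branch (move 430 (leaf 429 6)) (move 494 (branch (move 589 (leaf 461 6)) (move 495 (branch (move 496 (leaf 492 1)) (move 459 (leaf 459 0)))))))) (branch (move 589 (branch (move 492 (leaf 460 7)) (move 590 (branch (move 622 (leaf 493 4)) (move 558 (leaf 461 4)))))) (move 459 (branch (move 462 (branch (move 430 (leaf 429 6)) (move 494 (branch (move 458 (leaf 458 0)) (move 495 (leaf 459 0)))))) (branch (move 462 (branch (move 430 (leaf 429 6)) (move 491 (branch (move 490 (leaf 458 1)) (move 463 (branch (move 492 (leaf 459 1)) (move 558 (branch (move 590 (leaf 461 4)) (move 560 (branch (move 559 (leaf 524 3)) (move 496 (branch (move 495 (leaf 460 0)) (move 464 (branch (move 497 (leaf 461 0)) (move 432 (branch (move 431 (leaf 428 2)) (move 433 (leaf 429 2)))))))))))))))))) (branch (move 494 (branch (move 458 (leaf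 458 0)) (move 495 (branch (move 492 (leaf 459 3)) (move 496 (leaf 492 1)))))) (move 462 (branch (move 430 (leaf 429 6)) (move 491 (branch (move 490 (leaf 458 1)) (move 492 (branch (move 463 (leaf 459 1)) (move 458 (branch (move 494 (leaf 458 0)) (move 457 (leaf 457 0)))))))))))))))))))))
theorem a6p79 : a6e79.Valid :=
  pos_of_chk [] forall_nil a6c79 a6e79 (by decide +kernel)

def a6e80 : Pos := ⟨384428668967314144041963576163272825990778407125134369498802468727765673045181722774707238401153932972672671981646503614615714616483398318319903312573248831488, 32633118286513426815339486426569240208188373781208987967993325630871480758103520973129564848450206030312671293632738281318357906628515185749310490786258512723844753710939494635970511241216, 13⟩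
def a6c80 : Cert := (move 493 (branch (move 492 (branch (move 556 (branch (move 557 (branch (move 589 (leaf 460 4)) (move 555 (branch (move 554 (leaf 522 2)) (move 587 (leaf 459 5)))))) (branch (move 588 (branch (move 620 (leaf 492 6)) (move 587 (branch (move 619 (leaf 491 5)) (move 555 (leaf 459 5)))))) (move 589 (branch (move 557 (leaf 460 4)) (move 588 (branch (move 620 (leaf 492 6)) (move 621 (leaf 492 4))))))))) (branch (move 556 (branch (move 588 (branch (move 620 (leaf 492 6)) (move 587 (branch (move 619 (leaf 491 5)) (move 555 (leaf 459 5)))))) (move 459 (branch (move 427 (leaf 427 7)) (move 494 (branch (move 495 (leaf 459 3)) (move 491 (branch (move 458 (leaf 458 3)) (move 490 (leaf 490 0)))))))))) (move 494 (branch (move 495 (branch (move 459 (leaf 459 3)) (move 496 (leaf 492 1)))) (move 557 (branch (move 589 (leaf 460 7)) (move 491 (branch (move 490 (leaf 490 0)) (move 462 (branch (move 463 (leaf 459 2)) (move 430 (leaf 429 5))))))))))))) (branch (move 461 (branch (move 429 (branch (move 558 (leaf 429 4)) (move 556 (leaf 428 5)))) (branch (move 429 (branch (move 556 (leaf 428 5)) (move 494 (branch (move 397 (leaf 397 4)) (move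 495 (branch (move 496 (leaf 492 1)) (move 459 (branch (move 458 (leaf 458 0)) (move 462 (leaf 459 0)))))))))) (branch (move 558 (branch (move 429 (leaf 429 4)) (move 590 (branch (move 622 (leaf 493 7)) (move 494 (leaf 461 7)))))) (ref 0))))) (branch (move 461 (branch (move 429 (branch (move 558 (leaf 429 4)) (move 556 (leaf 428 5)))) (branch (move 558 (branch (move 429 (leaf 429 4)) (move 590 (branch (move 622 (leaf 493 7)) (move 494 (leaf 461 7)))))) (move 459 (branch (move 458 (branch (move 494 (leaf 458 0)) (move 425 (branch (move 426 (leaf 425 3)) (move 457 (branch (move 424 (leaf 424 3)) (move 489 (branch (move 488 (leaf 456 1)) (move 490 (leaf 457 1)))))))))) (branch (move 494 (branch (move 458 (leaf 458 0)) (move 495 (branch (move 496 (leaf 492 1)) (move 462 (leaf 459 0)))))) (branch (move 490 (branch (move 458 (branch (move 489 (leaf 457 1)) (move 426 (branch (move 425 (leaf 425 3)) (move 427 (branch (move 462 (leaf 426 3)) (move 395 (branch (move 522 (leaf 394 6)) (move 363 (leaf 362 5)))))))))) (branch (move 491 (branch (move 492 (leaf 490 0)) (move 462 (leaf 458 1)))) (move 492 (branch (move 491 (leaf 490 0)) (move 458 (branch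 (move 457 (leaf 457 0)) (move 489 (leaf 457 1))))))))) (move 462 (branch (move 494 (branch (move 495 (leaf 459 0)) (move 430 (branch (move 431 (leaf 427 2)) (move 398 (leaf 397 5)))))) (move 491 (branch (move 490 (leaf 458 1)) (move 492 (branch (move 463 (leaf 459 1)) (move 556 (branch (move 588 (leaf 460 6)) (move 427 (leaf 427 7))))))))))))))))) (branch (move 461 (branch (move 429 (branch (move 558 (leaf 429 4)) (move 556 (leaf 428 5)))) (branch (move 429 (branch (move 558 (leaf 429 4)) (move 492 (branch (move 397 (leaf 396 5)) (move 491 (branch (move 490 (leaf 490 0)) (move 430 (branch (move 398 (leaf 397 6)) (move 462 (branch (move 463 (leaf 459 1)) (move 557 (leaf 429 6)))))))))))) (move 492 (branch (move 490 (branch (move 491 (leaf 490 0)) (move 556 (branch (move 588 (leaf 460 6)) (move 459 (branch (move 427 (leaf 427 7)) (move 458 (branch (move 457 (leaf 457 0)) (move 489 (leaf 457 1)))))))))) (branch (move 491 (branch (move 490 (leaf 490 0)) (move 557 (branch (move 589 (leaf 460 7)) (move 462 (branch (move 463 (leaf 459 1)) (move 430 (leaf 429 6)))))))) (move 557 (branch (move 589 (leaf 460 7)) (move 556 (branch (move 588 (leaf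 460 5)) (move 555 (branch (move 554 (leaf 522 2)) (move 587 (leaf 459 5)))))))))))))) (branch (move 461 (branch (move 558 (branch (move 429 (leaf 429 4)) (move 590 (branch (move 622 (leaf 493 7)) (move 494 (leaf 461 7)))))) (branch (move 556 (branch (move 429 (leaf 428 5)) (move 588 (branch (move 620 (leaf 492 6)) (move 492 (leaf 460 6)))))) (move 557 (branch (move 588 (branch (move 556 (leaf 460 5)) (move 589 (branch (move 620 (leaf 492 5)) (move 590 (branch (move 622 (leaf 493 4)) (move 558 (leaf 461 4)))))))) (branch (move 556 (branch (move 588 (leaf 460 5)) (move 558 (branch (move 590 (leaf 461 4)) (move 555 (branch (move 554 (leaf 522 2)) (move 587 (branch (move 586 (leaf 554 1)) (move 492 (leaf 459 5)))))))))) (branch (move 589 (branch (move 492 (leaf 460 7)) (move 590 (branch (move 622 (leaf 493 4)) (move 558 (leaf 461 4)))))) (move 589 (branch (move 492 (leaf 460 7)) (move 588 (branch (move 620 (leaf 492 5)) (move 556 (leaf 460 5))))))))))))) (ref 1)))))))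
theorem a6p80 : a6e80.Valid :=
  pos_of_chk [a6e74, a6e79] (forall_cons a6p74 (forall_cons a6p79 forall_nil)) a6c80 a6e80 (by decide +kernel)

def a6e81 : Pos := ⟨384428668967314144038986444748558020167088376808025102926089953714390418270268738918863339877041455078728593437922928050078831327984132053504145584302443200512, 32633118286513426815339486426569240208188973157124441286529035956549115551321394710493352392456805798546941504653426348572463078119646064799641848580921880197675798631677944758285706985472, 14⟩
def a6c81 : Cert := (move 460 (branch (move 492 (branch (ref 0) (branch (move 428 (branch (move 395 (branch (move 427 (leaf 395 7)) (move 396 (branch (move 363 (leaf 363 7)) (move 397 (branch (move 429 (leaf 396 6)) (move 365 (leaf 364 6)))))))) (branch (move 396 (branch (move 493 (leaf 396 4)) (move 395 (branch (move 427 (leaf 395 7)) (move 363 (leaf 363 7)))))) (branch (move 493 (branch (move 396 (leaf 396 4)) (move 429 (branch (move 397 (leaf 396 6)) (move 461 (branch (move 558 (leaf 429 4)) (move 491 (branch (move 490 (leaf 490 0)) (move 462 (branch (move 463 (leaf 459 1)) (move 430 (branch (move 398 (leaf 397 6)) (move 459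 (branch (move 458 (leaf 426 2)) (move 431 (leaf 427 1)))))))))))))))) (move 461 (branch (move 427 (branch (move 395 (leaf 395 7)) (move 462 (branch (move 463 (leaf 427 3)) (move 426 (branch (move 459 (leaf 426 3)) (move 425 (leaf 425 0)))))))) (branch (move 429 (branch (move 397 (leaf 396 6)) (move 493 (branch (move 558 (leaf 429 4)) (move 430 (branch (move 398 (leaf 397 6)) (move 459 (branch (move 458 (leaf 426 2)) (move 431 (leaf 427 1)))))))))) (move 429 (branch (move 397 (leaf 396 6)) (move 427 (branch (move 395 (leaf 395 7)) (move 462 (branch (move 463 (leaf 427 3)) (move 426 (leaf 426 0))))))))))))))) (branch (ref 1) (branch (ref 2) (branch (ref 3) (branch (ref 4) (ref 5)))))))) (branch (move 492 (branch (ref 6) (branch (move 428 (branch (move 557 (leaf 428 4)) (move 395 (branch (move 427 (leaf 395 7)) (move 396 (branch (move 363 (leaf 363 7)) (move 397 (branch (move 429 (leaf 396 6)) (move 365 (leaf 364 6)))))))))) (branch (move 557 (branch (move 428 (leaf 428 4)) (move 589 (branch (move 621 (leaf 492 7)) (move 556 (leaf 460 4)))))) (ref 0))))) (branch (ref 7) (branch (move 492 (branch (ref 6) (branch (move 428 (branch (move 557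 (leaf 428 4)) (move 395 (branch (move 427 (leaf 395 7)) (move 396 (branch (move 363 (leaf 363 7)) (move 397 (branch (move 429 (leaf 396 6)) (move 365 (leaf 364 6)))))))))) (branch (move 557 (branch (move 428 (leaf 428 4)) (move 589 (branch (move 621 (leaf 492 7)) (move 556 (leaf 460 4)))))) (ref 5))))) (branch (ref 8) (branch (move 492 (branch (ref 6) (branch (ref 2) (move 557 (branch (move 428 (leaf 428 4)) (move 589 (branch (move 621 (leaf 492 7)) (move 493 (leaf 460 7))))))))) (branch (move 492 (branch (move 428 (branch (move 557 (leaf 428 4)) (move 395 (branch (move 427 (leaf 395 7)) (move 396 (branch (move 363 (leaf 363 7)) (move 397 (branch (move 429 (leaf 396 6)) (move 365 (leaf 364 6)))))))))) (branch (move 557 (branch (move 428 (leaf 428 4)) (move 589 (branch (move 621 (leaf 492 7)) (move 556 (leaf 460 4)))))) (branch (ref 3) (ref 9))))) (branch (move 492 (branch (move 428 (branch (move 557 (leaf 428 4)) (move 395 (branch (move 427 (leaf 395 7)) (move 396 (branch (move 363 (leaf 363 7)) (move 397 (branch (move 429 (leaf 396 6)) (move 365 (leaf 364 6)))))))))) (branch (move 557 (branch (move 428 (leaf 428 4)) (move 589 (branch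 (move 621 (leaf 492 7)) (move 556 (leaf 460 4)))))) (branch (move 427 (branch (move 556 (branch (move 459 (leaf 427 7)) (move 461 (branch (move 429 (leaf 428 6)) (move 588 (branch (move 493 (leaf 460 6)) (move 587 (branch (move 619 (leaf 491 5)) (move 555 (leaf 459 5)))))))))) (branch (move 428 (branch (move 395 (leaf 395 7)) (move 429 (branch (move 397 (leaf 396 6)) (move 493 (branch (move 396 (leaf 396 4)) (move 461 (branch (move 558 (leaf 429 4)) (move 462 (branch (move 463 (leaf 427 3)) (move 426 (leaf 426 0)))))))))))) (move 459 (branch (move 556 (leaf 427 7)) (move 395 (branch (move 428 (leaf 395 7)) (move 363 (leaf 363 4))))))))) (move 556 (branch (move 557 (branch (move 589 (leaf 460 4)) (move 555 (branch (move 554 (leaf 522 2)) (move 587 (leaf 459 5)))))) (branch (move 461 (branch (move 429 (leaf 428 6)) (move 588 (branch (move 493 (leaf 460 6)) (move 587 (branch (move 619 (leaf 491 5)) (move 555 (leaf 459 5)))))))) (move 557 (branch (move 589 (leaf 460 4)) (move 461 (branch (move 429 (leaf 428 6)) (move 493 (branch (move 588 (leaf 460 5)) (move 459 (branch (move 427 (leaf 427 7)) (move 494 (branch (move 495 (leaf 459 3)) (move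 458 (leaf 458 0))))))))))))))))))) (branch (move 492 (branch (move 557 (branch (move 428 (leaf 428 4)) (move 589 (branch (move 621 (leaf 492 7)) (move 556 (leaf 460 4)))))) (branch (ref 4) (branch (ref 9) (move 557 (branch (move 428 (leaf 428 4)) (move 589 (branch (move 621 (leaf 492 7)) (move 493 (leaf 460 7)))))))))) (branch (move 492 (branch (move 557 (branch (move 428 (leaf 428 4)) (move 589 (branch (move 621 (leaf 492 7)) (move 556 (leaf 460 4)))))) (branch (ref 1) (move 557 (branch (move 428 (leaf 428 4)) (move 589 (branch (move 621 (leaf 492 7)) (move 493 (leaf 460 7))))))))) (ref 10))))))))))))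
theorem a6p81 : a6e81.Valid :=
  pos_of_chk [a6e60, a6e61, a6e62, a6e63, a6e64, a6e65, a6e66, a6e75, a6e77, a6e78, a6e80] (forall_cons a6p60 (forall_cons a6p61 (forall_cons a6p62 (forall_cons a6p63 (forall_cons a6p64 (forall_cons a6p65 (forall_cons a6p66 (forall_cons a6p75 (forall_cons a6p77 (forall_cons a6p78 (forall_cons a6p80 forall_nil))))))))))) a6c81 a6e81 (by decide +kernel)

def a6e82 : Pos := ⟨329510287686269266319131238355906874428932894406878659650934246040906072803087490501882862751749818638910222946791081185781855423986398903003553357973522743296, 240789912630259810460380596846040907126312031551955593281339061904172422258926431297537143237837048641037718075854485550839732886437888726757997772997639232578335665525107431947005002416684835549493810167808, 15⟩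
def a6c82 : Cert := (move 524 (branch (move 523 (branch (move 490 (branch (move 491 (leaf 490 3)) (move 522 (branch (move 489 (leaf 489 3)) (move 554 (branch (move 553 (leaf 521 1)) (move 555 (leaf 522 1)))))))) (branch (move 558 (branch (move 559 (leaf 523 0)) (move 522 (branch (move 557 (leaf 522 0)) (move 490 (branch (move 489 (leaf 489 3)) (move 491 (leaf 490 3)))))))) (branch (move 558 (branch (move 559 (leaf 523 0)) (move 522 (branch (move 557 (leaf 522 0)) (move 554 (branch (move 553 (leaf 521 1)) (move 555 (leaf 522 1)))))))) (ref 0))))) (branch (move 523 (branch (move 490 (branch (move 491 (leaf 490 3)) (move 522 (branch (move 489 (leaf 489 3)) (move 554 (branch (move 553 (leaf 521 1)) (move 555 (leaf 522 1)))))))) (branch (move 494 (branch (move 495 (leaf 491 2)) (move 522 (branch (move 493 (leaf 490 2)) (move 554 (branch (move 553 (leaf 521 1)) (move 555 (leaf 522 1)))))))) (branch (move 494 (branch (move 495 (leaf 491 2)) (move 522 (branch (move 493 (leaf 490 2)) (move 490 (branch (move 489 (leaf 489 3)) (move 491 (leaf 490 3)))))))) (ref 1))))) (branch (move 523 (branch (move 490 (branch (move 491 (leaf 490 3)) (move 522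 (branch (move 489 (leaf 489 3)) (move 554 (branch (move 553 (leaf 521 1)) (move 555 (leaf 522 1)))))))) (branch (move 558 (branch (move 559 (leaf 523 0)) (move 522 (branch (move 557 (leaf 522 0)) (move 490 (branch (move 489 (leaf 489 3)) (move 491 (leaf 490 3)))))))) (branch (move 558 (branch (move 559 (leaf 523 0)) (move 522 (branch (move 557 (leaf 522 0)) (move 554 (branch (move 553 (leaf 521 1)) (move 555 (leaf 522 1)))))))) (ref 2))))) (branch (move 523 (branch (move 558 (branch (move 559 (leaf 523 0)) (move 522 (branch (move 557 (leaf 522 0)) (move 490 (branch (move 489 (leaf 489 3)) (move 491 (leaf 490 3)))))))) (branch (move 494 (branch (move 495 (leaf 491 2)) (move 522 (branch (move 493 (leaf 490 2)) (move 490 (branch (move 489 (leaf 489 3)) (move 491 (leaf 490 3)))))))) (branch (move 494 (branch (move 495 (leaf 491 2)) (move 558 (branch (move 559 (leaf 523 0)) (move 522 (branch (move 493 (leaf 490 2)) (move 557 (leaf 522 0)))))))) (move 494 (branch (move 495 (leaf 491 2)) (move 462 (branch (move 558 (branch (move 559 (leaf 523 0)) (move 461 (branch (move 429 (leaf 429 7)) (move 493 (branch (move 590 (leaf 461 7)) (move 491 (branch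 (move 490 (leaf 490 3)) (move 463 (branch (move 492 (leaf 459 2)) (move 431 (leaf 430 6)))))))))))) (branch (move 430 (branch (move 557 (leaf 429 5)) (move 398 (branch (move 493 (leaf 397 5)) (move 397 (branch (move 429 (leaf 397 7)) (move 365 (leaf 365 7)))))))) (move 558 (branch (move 559 (leaf 523 0)) (move 557 (branch (move 589 (leaf 461 5)) (move 430 (leaf 429 5))))))))))))))) (branch (move 523 (branch (move 558 (branch (move 559 (leaf 523 0)) (move 522 (branch (move 557 (leaf 522 0)) (move 554 (branch (move 553 (leaf 521 1)) (move 555 (leaf 522 1)))))))) (branch (move 494 (branch (move 495 (leaf 491 2)) (move 522 (branch (move 493 (leaf 490 2)) (move 554 (branch (move 553 (leaf 521 1)) (move 555 (leaf 522 1)))))))) (ref 3)))) (branch (move 523 (branch (ref 0) (branch (ref 1) (branch (ref 3) (ref 2))))) (ref 4))))))))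
theorem a6p82 : a6e82.Valid :=
  pos_of_chk [a6e56, a6e57, a6e58, a6e59, a6e81] (forall_cons a6p56 (forall_cons a6p57 (forall_cons a6p58 (forall_cons a6p59 (forall_cons a6p81 forall_nil))))) a6c82 a6e82 (by decide +kernel)

def a6e83 : Pos := ⟨329510287762989358691697063434341007948329749536956207605068577044420714242840626355117422631826461427798601630014987845021544588264928353297742257660910108672, 2175541220097076023767829994720294909098599525805797945155280847028921392607841133225855788655459679975507093403859500822087643698073277732016964149634012030471680223393763610314827366400, 7⟩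
def a6c83 : Cert := (move 492 (branch (move 491 (branch (move 490 (leaf 490 0)) (move 459 (branch (move 458 (leaf 458 3)) (move 460 (branch (move 495 (leaf 459 3)) (move 523 (branch (move 522 (leaf 490 1)) (move 428 (branch (move 555 (leaf 427 6)) (move 396 (leaf 396 4)))))))))))) (branch (move 524 (branch (move 495 (branch (move 496 (leaf 492 1)) (move 460 (branch (move 459 (leaf 459 3)) (move 428 (branch (move 557 (leaf 428 4)) (move 396 (leaf 396 4)))))))) (branch (move 523 (branch (move 522 (leaf 490 2)) (move 495 (leaf 491 1)))) (move 523 (branch (move 522 (leaf 490 2)) (move 555 (branch (move 554 (leaf 522 1)) (move 460 (branch (move 428 (leaf 427 5)) (move 587 (branch (move 619 (leaf 491 6)) (move 556 (leaf 459 5))))))))))))) (branch (move 491 (branch (move 490 (leaf 490 0)) (move 459 (branch (move 458 (leaf 458 3)) (move 495 (branch (move 460 (leaf 459 3)) (move 496 (branch (move 524 (leaf 492 1)) (move 497 (leaf 493 1)))))))))) (branch (move 491 (branch (move 490 (leaf 490 0)) (move 523 (branch (move 522 (leaf 490 1)) (move 524 (branch (move 495 (leaf 491 1)) (move 459 (branch (move 458 (leaf 458 3)) (move 556 (branch (move 588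 (leaf 459 7)) (move 427 (leaf 427 4)))))))))))) (branch (move 491 (branch (move 490 (leaf 490 0)) (move 523 (branch (move 522 (leaf 490 1)) (move 524 (branch (move 495 (leaf 491 1)) (move 555 (branch (move 554 (leaf 522 1)) (move 460 (branch (move 587 (leaf 459 6)) (move 428 (leaf 427 5)))))))))))) (move 524 (branch (move 491 (branch (move 490 (leaf 490 0)) (move 459 (branch (move 458 (leaf 458 3)) (move 556 (branch (move 588 (leaf 459 7)) (move 427 (branch (move 460 (leaf 427 7)) (move 395 (leaf 395 4)))))))))) (branch (move 523 (branch (move 522 (leaf 490 2)) (move 555 (branch (move 554 (leaf 522 1)) (move 460 (branch (move 428 (leaf 427 5)) (move 587 (branch (move 619 (leaf 491 6)) (move 491 (leaf 459 6)))))))))) (branch (move 523 (branch (move 522 (leaf 490 2)) (move 555 (branch (move 554 (leaf 522 1)) (move 460 (branch (move 428 (leaf 427 5)) (move 587 (branch (move 619 (leaf 491 6)) (move 556 (leaf 459 5)))))))))) (move 523 (branch (move 522 (leaf 490 2)) (move 491 (branch (move 490 (leaf 490 0)) (move 459 (branch (move 458 (leaf 458 3)) (move 556 (branch (move 588 (leaf 459 7)) (move 427 (leaf 427 4))))))))))))))))))))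
theorem a6p83 : a6e83.Valid :=
  pos_of_chk [] forall_nil a6c83 a6e83 (by decide +kernel)

def a6e84 : Pos := ⟨356969478409905138582671818720536091944023895331702558238824291798122440429744011884710541184478666546781818432516236832106673303953672382739220779132652617728, 100329130234965947516451083029892295393313230220831279339289220161448756692141870768031124910293484117290469461069070901627331288747941630880612673370131894494780336790812549530272285382155149372546791505920, 12⟩
def a6c84 : Cert := (move 555 (branch (move 459 (branch (move 426 (branch (move 458 (leaf 426 7)) (move 427 (branch (move 394 (leaf 394 7)) (move 428 (branch (move 460 (leaf 427 6)) (move 396 (leaf 395 6)))))))) (move 554 (branch (move 586 (leaf 458 5)) (move 556 (branch (move 557 (leaf 522 2)) (move 588 (leaf 459 4)))))))) (branch (move 587 (branch (move 618 (branch (move 586 (leaf 490 5)) (move 619 (branch (move 650 (leaf 522 5)) (move 620 (branch (move 652 (leaf 523 4)) (move 588 (leaf 491 4)))))))) (branch (move 490 (branch (move 458 (leaf 458 7)) (move 619 (branch (move 522 (leaf 490 7)) (move 618 (branch (move 650 (leaf 522 5)) (move 586 (leaf 490 5))))))))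 (move 588 (branch (move 620 (leaf 491 4)) (move 459 (branch (move 556 (leaf 459 4)) (move 458 (branch (move 490 (leaf 458 7)) (move 426 (leaf 426 7))))))))))) (branch (move 587 (branch (move 490 (branch (move 458 (leaf 458 7)) (move 619 (branch (move 522 (leaf 490 7)) (move 652 (branch (move 620 (leaf 523 4)) (move 651 (branch (move 684 (leaf 555 4)) (move 650 (branch (move 682 (leaf 554 5)) (move 618 (leaf 522 5)))))))))))) (branch (move 588 (branch (move 620 (leaf 491 4)) (move 556 (branch (move 459 (leaf 459 4)) (move 557 (branch (move 554 (leaf 522 2)) (move 558 (branch (move 522 (leaf 522 3)) (move 559 (leaf 555 1)))))))))) (move 458 (branch (move 490 (leaf 458 7)) (move 459 (branch (move 426 (leaf 426 7)) (move 428 (branch (move 460 (leaf 427 6)) (move 427 (branch (move 396 (leaf 395 6)) (move 430 (branch (move 429 (leaf 426 1)) (move 462 (branch (move 557 (leaf 429 5)) (move 398 (leaf 397 5))))))))))))))))) (branch (move 587 (branch (move 618 (branch (move 586 (leaf 490 5)) (move 619 (branch (move 650 (leaf 522 5)) (move 620 (branch (move 652 (leaf 523 4)) (move 588 (leaf 491 4)))))))) (branch (move 588 (branch (move 620 (leaf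 491 4)) (move 556 (branch (move 459 (leaf 459 4)) (move 557 (branch (move 554 (leaf 522 2)) (move 558 (branch (move 522 (leaf 522 3)) (move 559 (leaf 555 1)))))))))) (move 586 (branch (move 618 (leaf 490 5)) (move 459 (branch (move 554 (leaf 458 5)) (move 428 (branch (move 460 (leaf 427 6)) (move 427 (branch (move 396 (leaf 395 6)) (move 394 (branch (move 426 (leaf 394 7)) (move 395 (branch (move 362 (leaf 362 7)) (move 430 (branch (move 429 (leaf 394 3)) (move 462 (branch (move 557 (leaf 429 5)) (move 398 (leaf 397 5))))))))))))))))))))) (branch (move 587 (branch (move 490 (branch (move 458 (leaf 458 7)) (move 619 (branch (move 522 (leaf 490 7)) (move 652 (branch (move 620 (leaf 523 4)) (move 651 (branch (move 684 (leaf 555 4)) (move 650 (branch (move 682 (leaf 554 5)) (move 618 (leaf 522 5)))))))))))) (branch (move 458 (branch (move 490 (leaf 458 7)) (move 459 (branch (move 426 (leaf 426 7)) (move 428 (branch (move 460 (leaf 427 6)) (move 427 (branch (move 396 (leaf 395 6)) (move 430 (branch (move 429 (leaf 426 1)) (move 462 (branch (move 557 (leaf 429 5)) (move 398 (leaf 397 5)))))))))))))) (move 586 (branch (move 618 (leaf 490 5))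 (move 459 (branch (move 554 (leaf 458 5)) (move 428 (branch (move 460 (leaf 427 6)) (move 427 (branch (move 396 (leaf 395 6)) (move 394 (branch (move 426 (leaf 394 7)) (move 395 (branch (move 362 (leaf 362 7)) (move 430 (branch (move 429 (leaf 394 3)) (move 462 (branch (move 557 (leaf 429 5)) (move 398 (leaf 397 5))))))))))))))))))))) (move 587 (branch (move 490 (branch (move 458 (leaf 458 7)) (move 619 (branch (move 522 (leaf 490 7)) (move 620 (branch (move 652 (leaf 523 4)) (move 588 (leaf 491 4)))))))) (branch (move 618 (branch (move 586 (leaf 490 5)) (move 619 (branch (move 650 (leaf 522 5)) (move 620 (branch (move 652 (leaf 523 4)) (move 588 (leaf 491 4)))))))) (branch (move 490 (branch (move 458 (leaf 458 7)) (move 619 (branch (move 522 (leaf 490 7)) (move 618 (branch (move 650 (leaf 522 5)) (move 586 (leaf 490 5)))))))) (move 558 (branch (move 586 (branch (move 618 (leaf 490 5)) (move 556 (branch (move 557 (leaf 554 1)) (move 588 (branch (move 620 (leaf 491 4)) (move 585 (branch (move 584 (leaf 552 2)) (move 553 (branch (move 552 (leaf 552 3)) (move 617 (branch (move 616 (leaf 584 1)) (move 490 (branch (move 458 (leaf 458 7)) (move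 522 (branch (move 521 (leaf 489 6)) (move 554 (leaf 489 5)))))))))))))))))) (move 590 (branch (move 622 (leaf 493 7)) (move 591 (branch (move 623 (leaf 494 4)) (move 462 (branch (move 559 (leaf 462 4)) (move 430 (branch (move 398 (leaf 397 5)) (move 431 (branch (move 463 (leaf 430 6)) (move 399 (leaf 398 6))))))))))))))))))))))))
theorem a6p84 : a6e84.Valid :=
  pos_of_chk [] forall_nil a6c84 a6e84 (by decide +kernel)

def a6e85 : Pos := ⟨329510287762989358691697063434341007948329749536956207605068577044420714242840626355117422631826461427798601630014987845021544588264928353297742257660910108672, 100329130234965947516451083029892295404635117495378280967954631244086487630751219681267851414041102933502316082403123012930712834093800942102078246238940660554347942791171019244182837453707160964406798450688, 14⟩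
def a6c85 : Cert := (move 491 (branch (move 462 (branch (move 463 (branch (move 492 (leaf 459 2)) (move 558 (branch (move 431 (leaf 430 6)) (move 559 (branch (move 591 (leaf 462 4)) (move 524 (branch (move 523 (leaf 523 0)) (move 560 (branch (move 557 (leaf 524 3)) (move 561 (leaf 525 3)))))))))))) (branch (move 430 (branch (move 557 (leaf 429 5)) (move 398 (leaf 397 5)))) (move 430 (branch (move 398 (leaf 397 5)) (move 463 (branch (move 492 (leaf 459 2)) (move 431 (branch (move 558 (leaf 430 6)) (move 399 (leaf 398 6))))))))))) (branch (move 492 (branch (move 490 (leaf 490 0)) (move 462 (branch (move 463 (leaf 459 2)) (move 430 (branch (move 557 (leaf 429 5)) (move 398 (leaf 397 5)))))))) (branch (move 523 (branch (move 492 (branch (move 490 (leaf 490 0)) (move 522 (leaf 490 1)))) (branch (move 522 (branch (move 524 (leaf 490 2)) (move 492 (leaf 490 1)))) (move 524 (branch (move 490 (leaf 490 3)) (move 558 (branch (move 559 (leaf 523 0)) (move 555 (branch (move 554 (leaf 522 1)) (move 590 (branch (move 622 (leaf 493 7)) (move 591 (branch (move 623 (leaf 494 4)) (move 556 (branch (move 557 (leaf 555 0)) (move 588 (branch (move 620 (leaf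 492 6)) (move 459 (leaf 459 4))))))))))))))))))) (branch (move 492 (branch (move 490 (leaf 490 0)) (move 523 (branch (move 522 (leaf 490 1)) (move 459 (branch (move 458 (leaf 458 3)) (move 462 (branch (move 463 (leaf 459 2)) (move 430 (branch (move 398 (leaf 397 5)) (move 431 (branch (move 399 (leaf 398 6)) (move 429 (branch (move 397 (leaf 397 7)) (move 428 (branch (move 460 (leaf 427 1)) (move 427 (branch (move 396 (leaf 395 6)) (move 524 (branch (move 556 (leaf 427 4)) (move 395 (leaf 395 4)))))))))))))))))))))) (move 523 (branch (move 524 (branch (move 490 (leaf 490 3)) (move 558 (branch (move 559 (leaf 523 0)) (move 555 (branch (move 554 (leaf 522 1)) (move 590 (branch (move 622 (leaf 493 7)) (move 591 (branch (move 623 (leaf 494 4)) (move 556 (branch (move 557 (leaf 555 0)) (move 588 (branch (move 620 (leaf 492 6)) (move 459 (leaf 459 4)))))))))))))))) (branch (move 524 (branch (move 522 (leaf 490 2)) (move 558 (branch (move 559 (leaf 523 0)) (move 555 (branch (move 554 (leaf 522 1)) (move 590 (branch (move 622 (leaf 493 7)) (move 591 (branch (move 623 (leaf 494 4)) (move 556 (branch (move 557 (leaf 555 0)) (move 588 (branch (move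 620 (leaf 492 6)) (move 459 (leaf 459 4)))))))))))))))) (branch (move 524 (branch (move 522 (leaf 490 2)) (move 490 (leaf 490 3)))) (ref 0))))))))))
theorem a6p85 : a6e85.Valid :=
  pos_of_chk [a6e84] (forall_cons a6p84 forall_nil) a6c85 a6e85 (by decide +kernel)

def a6e86 : Pos := ⟨109836762587663119569853283974209947630156643813203935680447889041557414297439509830060271258833776263821024297452147077414281439753508647397429542428581298176, 4351082438168021397606560714298598706019624754607330259419651097809473472191420405257338398515382298285882652416897493258684870149701601602536629470700749936715350440029875698430908563456, 7⟩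
def a6c86 : Cert := (move 556 (branch (move 557 (branch (move 588 (leaf 460 5)) (move 428 (branch (move 460 (leaf 428 7)) (move 429 (branch (move 396 (leaf 396 7)) (move 430 (branch (move 462 (leaf 429 6)) (move 398 (leaf 397 6)))))))))) (branch (move 524 (branch (move 429 (leaf 428 5)) (move 588 (branch (move 620 (leaf 492 6)) (move 492 (leaf 460 6)))))) (branch (move 588 (branch (move 557 (leaf 460 5)) (move 524 (branch (move 620 (leaf 492 6)) (move 492 (leaf 460 6)))))) (move 429 (branch (move 524 (leaf 428 5)) (move 428 (branch (move 396 (leaf 396 7)) (move 430 (branch (move 398 (leaf 397 6)) (move 462 (branch (move 557 (leaf 429 6)) (move 463 (branch (move 464 (leaf 428 3)) (move 427 (leaf 427 0))))))))))))))))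
theorem a6p86 : a6e86.Valid :=
  pos_of_chk [] forall_nil a6c86 a6e86 (by decide +kernel)

def a6e87 : Pos := ⟨329510287711842630449274109544814530582778573417789708781070719735494796166164503497982179760000322023094506261979534534602185055744441249399798447744263127040, 62556783798826265128227911730273344318885811360536261692188727892365500810949902551395857575978770817026012581346025852192312110252485593696957785669118650036693250115563274895360, 12⟩
def a6c87 : Cert := (move 557 (branch (move 462 (branch (move 430 (leaf 429 6)) (move 463 (branch (move 464 (branch (move 492 (leaf 460 1)) (move 558 (branch (move 590 (leaf 461 4)) (move 496 (branch (move 497 (leaf 461 0)) (move 433 (branch (move 432 (leaf 429 2)) (move 465 (branch (move 434 (leaf 430 2)) (move 560 (branch (move 528 (leaf 432 6)) (move 559 (branch (move 524 (leaf 524 3)) (move 561 (leaf 525 3)))))))))))))))) (branch (move 460 (branch (move 428 (leaf 428 7)) (move 558 (branch (move 590 (leaf 461 4)) (move 496 (branch (move 495 (leaf 460 0)) (move 464 (branch (move 497 (leaf 461 0)) (move 432 (branch (move 431 (leaf 428 2)) (move 433 (leaf 429 2)))))))))))) (branch (move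 460 (branch (move 428 (leaf 428 7)) (move 491 (branch (move 492 (leaf 459 1)) (move 558 (branch (move 590 (leaf 461 4)) (move 459 (branch (move 490 (leaf 458 1)) (move 426 (branch (move 427 (leaf 426 3)) (move 458 (branch (move 425 (leaf 425 3)) (move 523 (branch (move 555 (leaf 426 7)) (move 524 (branch (move 522 (leaf 522 0)) (move 559 (leaf 523 0)))))))))))))))))) (move 460 (branch (move 428 (leaf 428 7)) (move 492 (branch (move 491 (leaf 459 1)) (move 464 (leaf 460 1)))))))))))) (branch (move 491 (branch (move 556 (branch (move 588 (leaf 460 5)) (move 460 (branch (move 428 (leaf 428 7)) (move 462 (branch (move 430 (leaf 429 6)) (move 463 (branch (move 492 (leaf 459 1)) (move 496 (branch (move 495 (leaf 460 0)) (move 464 (branch (move 497 (leaf 461 0)) (move 432 (branch (move 431 (leaf 428 2)) (move 433 (leaf 429 2)))))))))))))))) (branch (move 490 (branch (move 492 (leaf 490 0)) (move 460 (branch (move 428 (leaf 428 7)) (move 462 (branch (move 459 (leaf 458 1)) (move 430 (leaf 429 6)))))))) (branch (move 556 (branch (move 588 (leaf 460 5)) (move 555 (branch (move 554 (leaf 522 2)) (move 460 (branch (move 428 (leaf 428 7)) (move 462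 (branch (move 430 (leaf 429 6)) (move 459 (branch (move 490 (leaf 458 1)) (move 426 (branch (move 427 (leaf 426 3)) (move 458 (branch (move 425 (leaf 425 3)) (move 523 (leaf 426 7)))))))))))))))) (move 490 (branch (move 492 (leaf 490 0)) (move 523 (branch (move 524 (leaf 490 3)) (move 556 (branch (move 588 (leaf 460 5)) (move 555 (branch (move 554 (leaf 522 2)) (move 458 (branch (move 587 (leaf 458 7)) (move 426 (branch (move 459 (leaf 426 7)) (move 522 (leaf 426 4)))))))))))))))))) (branch (move 558 (branch (move 590 (leaf 461 4)) (move 556 (branch (move 588 (leaf 460 5)) (move 555 (branch (move 554 (leaf 522 2)) (move 523 (branch (move 522 (leaf 522 3)) (move 559 (branch (move 524 (leaf 523 0)) (move 560 (branch (move 561 (leaf 525 3)) (move 592 (branch (move 591 (leaf 556 0)) (move 593 (leaf 557 0)))))))))))))))) (branch (move 558 (branch (move 590 (leaf 461 4)) (move 556 (branch (move 588 (leaf 460 5)) (move 555 (branch (move 554 (leaf 522 2)) (move 462 (branch (move 430 (leaf 429 6)) (move 460 (branch (move 428 (leaf 428 7)) (move 587 (branch (move 586 (leaf 554 1)) (move 523 (branch (move 522 (leaf 522 3)) (move 491 (branch (move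 492 (leaf 459 6)) (move 490 (branch (move 459 (leaf 458 1)) (move 458 (leaf 458 7)))))))))))))))))))) (branch (move 558 (branch (move 590 (leaf 461 4)) (move 556 (branch (move 588 (leaf 460 5)) (move 555 (branch (move 554 (leaf 522 2)) (move 460 (branch (move 428 (leaf 428 7)) (move 462 (branch (move 430 (leaf 429 6)) (move 587 (branch (move 586 (leaf 554 1)) (move 492 (branch (move 524 (leaf 459 5)) (move 491 (branch (move 490 (leaf 490 0)) (move 463 (leaf 459 1)))))))))))))))))) (move 460 (branch (move 428 (leaf 428 7)) (move 462 (branch (move 430 (leaf 429 6)) (move 459 (branch (move 558 (branch (move 590 (leaf 461 4)) (move 556 (branch (move 588 (leaf 460 5)) (move 427 (branch (move 426 (leaf 426 3)) (move 524 (branch (move 492 (leaf 427 7)) (move 559 (branch (move 523 (leaf 523 0)) (move 560 (leaf 524 3)))))))))))) (branch (move 491 (branch (move 490 (leaf 458 1)) (move 463 (branch (move 492 (leaf 459 1)) (move 426 (branch (move 427 (leaf 426 3)) (move 458 (branch (move 425 (leaf 425 3)) (move 496 (branch (move 495 (leaf 460 0)) (move 464 (branch (move 497 (leaf 461 0)) (move 432 (branch (move 431 (leaf 428 2)) (move 433 (leaf 429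 2)))))))))))))))) (branch (move 558 (branch (move 590 (leaf 461 4)) (move 490 (branch (move 491 (leaf 458 1)) (move 458 (branch (move 489 (leaf 457 1)) (move 426 (branch (move 425 (leaf 425 3)) (move 427 (leaf 426 3)))))))))) (move 491 (branch (move 490 (leaf 458 1)) (move 463 (branch (move 492 (leaf 459 1)) (move 558 (branch (move 590 (leaf 461 4)) (move 556 (branch (move 588 (leaf 460 5)) (move 496 (branch (move 495 (leaf 460 0)) (move 464 (branch (move 497 (leaf 461 0)) (move 432 (branch (move 431 (leaf 428 2)) (move 433 (leaf 429 2))))))))))))))))))))))))))))))
theorem a6p87 : a6e87.Valid :=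
  pos_of_chk [] forall_nil a6c87 a6e87 (by decide +kernel)

def a6e88 : Pos := ⟨329510287711842630455228372374244142230158634052008241926495749762245305715990471209669976808225277810982663349426685663675951632742973779031313904285874388992, 52212989258016256765617784933691851868519806673401536343032454353192731902420710552220655923546778544489918390136685416290536422304772489858061975366040450534315841256438167283496235565056, 8⟩
def a6c88 : Cert := (move 494 (branch (move 463 (branch (move 492 (branch (move 491 (leaf 459 2)) (move 464 (branch (move 495 (leaf 460 2)) (move 465 (leaf 461 1)))))) (move 558 (branch (move 431 (leaf 430 6)) (move 590 (branch (move 622 (leaf 493 7)) (move 591 (branch (move 623 (leaf 494 4)) (move 559 (leaf 462 4)))))))))) (branch (move 463 (branch (move 492 (branch (move 491 (leaf 459 2)) (move 464 (branch (move 495 (leaf 460 2)) (move 465 (leaf 461 1)))))) (move 430 (branch (move 398 (leaf 397 5)) (move 429 (branch (move 397 (leaf 397 7)) (move 431 (branch (move 399 (leaf 398 6)) (move 428 (branch (move 427 (leaf 427 0)) (move 396 (branch (move 395 (leaf 395 3)) (move 461 (leaf 396 7)))))))))))))) (branch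 (move 430 (branch (move 398 (leaf 397 5)) (move 429 (branch (move 397 (leaf 397 7)) (move 461 (branch (move 558 (leaf 429 4)) (move 431 (branch (move 399 (leaf 398 6)) (move 460 (branch (move 459 (leaf 427 2)) (move 432 (leaf 428 1)))))))))))) (move 430 (branch (move 398 (leaf 397 5)) (move 429 (branch (move 397 (leaf 397 7)) (move 461 (branch (move 558 (leaf 429 4)) (move 428 (branch (move 396 (leaf 396 7)) (move 463 (branch (move 464 (leaf 428 3)) (move 427 (leaf 427 0))))))))))))))))
theorem a6p88 : a6e88.Valid :=
  pos_of_chk [] forall_nil a6c88 a6e88 (by decide +kernel)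

def a6e89 : Pos := ⟨329510287711842630455228372374244142230158634052008241926495749762245305715990471209669976808225277810982663349426685663675951632742973779031313904285874388992, 52212989258016256766089530236794544537553197666539104964731874188699627773677293164082719361396274945511251400454548463107497601126728568970270384126579319836893801397390031859293075013632, 7⟩
def a6c89 : Cert := (move 558 (branch (move 494 (branch (move 463 (branch (move 431 (leaf 430 6)) (move 492 (branch (move 491 (leaf 459 2)) (move 464 (branch (move 495 (leaf 460 2)) (move 465 (leaf 461 1)))))))) (move 590 (branch (move 622 (leaf 493 7)) (move 591 (branch (move 623 (leaf 494 4)) (move 559 (leaf 462 4)))))))) (branch (move 461 (branch (move 429 (leaf 429 4)) (move 590 (branch (move 622 (leaf 493 7)) (move 557 (leaf 461 4)))))) (move 463 (branch (move 461 (branch (move 429 (leaf 429 4)) (move 492 (branch (move 464 (leaf 460 1)) (move 491 (branch (move 490 (leaf 490 0)) (move 460 (leaf 459 1)))))))) (branch (move 494 (branch (move 431 (leaf 430 6)) (move 492 (branch (move 491 (leaf 459 2)) (move 464 (branch (move 495 (leaf 460 2)) (move 465 (leaf 461 1))))))))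 (move 461 (branch (move 429 (leaf 429 4)) (move 431 (branch (move 494 (leaf 430 6)) (move 460 (branch (move 432 (leaf 428 2)) (move 428 (branch (move 427 (leaf 427 3)) (move 557 (leaf 428 7))))))))))))))))
theorem a6p89 : a6e89.Valid :=
  pos_of_chk [] forall_nil a6c89 a6e89 (by decide +kernel)

def a6e90 : Pos := ⟨329510287711842630443319846715384918935398512783571175635645689708744286616338535786294382711775366235206349174532383405528418478745908719768282991202651865088, 52212989259789121084261520677196271479584232415310551164050555272349446556841082300018125935831289189883211503766010708964331843787466744652176304264306585873689594588078573677533737254912, 12⟩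
def a6c90 : Cert := (move 462 (branch (move 494 (branch (move 430 (branch (move 557 (leaf 429 5)) (move 398 (leaf 397 5)))) (move 463 (branch (move 492 (branch (move 491 (leaf 459 2)) (move 464 (branch (move 495 (leaf 460 2)) (move 465 (leaf 461 1)))))) (move 558 (branch (move 431 (leaf 430 6)) (move 590 (branch (move 622 (leaf 493 7)) (move 591 (branch (move 623 (leaf 494 4)) (move 559 (leaf 462 4)))))))))))) (branch (move 461 (branch (move 430 (branch (move 557 (leaf 429 6)) (move 398 (branch (move 429 (leaf 397 6)) (move 366 (leaf 365 5)))))) (branch (move 557 (branch (move 430 (leaf 429 6)) (move 460 (branch (move 428 (leaf 428 7)) (move 558 (branch (move 590 (leaf 461 4)) (move 556 (branch (move 588 (leaf 460 5)) (move 555 (branch (move 554 (leaf 522 2)) (move 587 (branch (move 586 (leaf 554 1)) (move 523 (branch (move 522 (leaf 522 3)) (move 491 (branch (move 492 (leaf 459 6)) (move 490 (branch (move 459 (leaf 458 1)) (move 458 (leaf 458 7)))))))))))))))))))) (branch (move 429 (branch (move 558 (leaf 429 4)) (move 428 (branch (move 396 (leaf 396 7)) (move 430 (branch (move 398 (leaf 397 6)) (move 463 (branch (move 464 (leaf 428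 3)) (move 427 (leaf 427 0)))))))))) (move 558 (branch (move 429 (leaf 429 4)) (move 590 (branch (move 622 (leaf 493 7)) (move 557 (leaf 461 4)))))))))) (branch (move 430 (branch (move 461 (branch (move 557 (leaf 429 6)) (move 398 (branch (move 429 (leaf 397 6)) (move 366 (leaf 365 5)))))) (branch (move 494 (branch (move 557 (leaf 429 5)) (move 398 (leaf 397 5)))) (branch (move 398 (branch (move 494 (leaf 397 5)) (move 461 (branch (move 429 (leaf 397 6)) (move 366 (leaf 365 5)))))) (move 557 (branch (move 461 (leaf 429 6)) (move 494 (leaf 429 5)))))))) (branch (ref 0) (ref 1))))))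
theorem a6p90 : a6e90.Valid :=
  pos_of_chk [a6e88, a6e89] (forall_cons a6p88 (forall_cons a6p89 forall_nil)) a6c90 a6e90 (by decide +kernel)

def a6e91 : Pos := ⟨329510287711842630455228372374244142230158634052008241926495749762245305715990471209669976808225277810982663349426685663675951632742973779031313904285874388992, 17404329810416809095361314351026645864800348164809446310653802193850713987874391542712543010752959435087325939846088310853330196757386224898794177069584376278187331268616728928664009310208, 10⟩
def a6c91 : Cert := (move 461 (branch (move 557 (branch (move 430 (leaf 429 6)) (move 558 (branch (move 590 (leaf 461 4)) (move 556 (branch (move 588 (leaf 460 5)) (move 555 (branch (move 554 (leaf 522 2)) (move 523 (branch (move 522 (leaf 522 3)) (move 559 (branch (move 524 (leaf 523 0)) (move 560 (branch (move 561 (leaf 525 3)) (move 592 (branch (move 591 (leaf 556 0)) (move 593 (leaf 557 0)))))))))))))))))) (branch (move 430 (branch (move 557 (leaf 429 6)) (move 398 (branch (move 429 (leaf 397 6)) (move 366 (leaf 365 5)))))) (branch (move 429 (branch (move 558 (leaf 429 4)) (move 428 (branch (move 396 (leaf 396 7)) (move 430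 (branch (move 398 (leaf 397 6)) (move 463 (branch (move 464 (leaf 428 3)) (move 427 (leaf 427 0)))))))))) (move 558 (branch (move 429 (leaf 429 4)) (move 590 (branch (move 622 (leaf 493 7)) (move 557 (leaf 461 4))))))))))
theorem a6p91 : a6e91.Valid :=
  pos_of_chk [] forall_nil a6c91 a6e91 (by decide +kernel)

def a6e92 : Pos := ⟨329510287711842630455228372374244142230158634052008241926495749762245305715990471209669976808225277810982663349426685663675951632742973779031313904285874388992, 52212989258016256765617784934625464350892150310526459996087569723069586554066238182122561941426617291072020145383259289901229235753122832748420417629697572132925033435187055704172780322816, 10⟩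
def a6c92 : Cert := (move 494 (branch (move 430 (branch (move 398 (leaf 397 5)) (move 431 (branch (move 399 (leaf 398 6)) (move 463 (branch (move 558 (leaf 430 6)) (move 429 (branch (move 397 (leaf 397 7)) (move 464 (branch (move 465 (leaf 461 1)) (move 428 (leaf 428 0)))))))))))) (branch (move 430 (branch (move 398 (leaf 397 5)) (move 429 (branch (move 397 (leaf 397 7)) (move 461 (branch (move 558 (leaf 429 4)) (move 431 (branch (move 399 (leaf 398 6)) (move 460 (branch (move 459 (leaf 427 2)) (move 432 (leaf 428 1)))))))))))) (branch (move 430 (branch (move 398 (leaf 397 5)) (move 429 (branch (move 397 (leaf 397 7)) (move 461 (branch (move 558 (leaf 429 4)) (move 428 (branch (move 396 (leaf 396 7)) (move 463 (branch (move 464 (leaf 428 3)) (move 427 (leaf 427 0)))))))))))) (branch (move 430 (branch (move 398 (leaf 397 5)) (move 431 (branch (move 399 (leaf 398 6)) (move 558 (branch (move 463 (leaf 430 6)) (move 590 (branch (move 622 (leaf 493 7)) (move 461 (leaf 461 7)))))))))) (branch (move 558 (branch (move 590 (branch (move 622 (leaf 493 7)) (move 591 (branch (move 623 (leaf 494 4)) (move 559 (leaf 462 4)))))) (move 461 (branch (move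 429 (leaf 429 4)) (move 463 (branch (move 431 (leaf 430 6)) (move 464 (branch (move 465 (leaf 461 1)) (move 496 (branch (move 497 (leaf 461 0)) (move 495 (branch (move 460 (leaf 460 0)) (move 524 (leaf 492 1)))))))))))))) (move 496 (branch (move 495 (branch (move 524 (leaf 492 1)) (move 497 (leaf 493 1)))) (branch (move 495 (branch (move 524 (leaf 492 1)) (move 461 (branch (move 460 (leaf 460 3)) (move 430 (branch (move 398 (leaf 397 5)) (move 429 (branch (move 397 (leaf 397 4)) (move 464 (branch (move 465 (leaf 461 2)) (move 428 (branch (move 463 (leaf 428 3)) (move 396 (leaf 396 7)))))))))))))) (move 463 (branch (move 464 (branch (move 465 (leaf 461 1)) (move 461 (branch (move 497 (leaf 461 0)) (move 429 (branch (move 428 (leaf 428 3)) (move 397 (leaf 397 4)))))))) (branch (move 430 (branch (move 398 (leaf 397 5)) (move 429 (branch (move 397 (leaf 397 7)) (move 431 (branch (move 399 (leaf 398 6)) (move 428 (branch (move 427 (leaf 427 0)) (move 461 (branch (move 396 (leaf 396 7)) (move 460 (branch (move 459 (leaf 427 1)) (move 432 (leaf 428 1)))))))))))))) (branch (move 430 (branch (move 398 (leaf 397 5)) (move 464 (branch (move 465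 (leaf 461 1)) (move 431 (branch (move 399 (leaf 398 6)) (move 429 (branch (move 428 (leaf 428 0)) (move 397 (leaf 397 7)))))))))) (move 464 (branch (move 465 (leaf 461 1)) (move 461 (branch (move 497 (leaf 461 0)) (move 432 (branch (move 433 (leaf 429 2)) (move 431 (branch (move 460 (leaf 428 2)) (move 399 (branch (move 430 (leaf 398 6)) (move 528 (leaf 399 7)))))))))))))))))))))))))
theorem a6p92 : a6e92.Valid :=
  pos_of_chk [] forall_nil a6c92 a6e92 (by decide +kernel)

def a6e93 : Pos := ⟨329510287711842630443319846715384918935398512783571175635645689708744286616338535786294382711775366235206349174532383405528418478745908719768282991202651865088, 52212989307656457675082167056527923926736481695523194410609955496064499407733822307733388826350105898092042763027823407678858012585791370107039345921414556839813330373734427847507761430528, 11⟩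
def a6c93 : Cert := (move 462 (branch (move 430 (branch (move 461 (branch (move 557 (leaf 429 6)) (move 398 (branch (move 429 (leaf 397 6)) (move 366 (leaf 365 5)))))) (branch (move 494 (branch (move 557 (leaf 429 5)) (move 398 (leaf 397 5)))) (branch (move 398 (branch (move 494 (leaf 397 5)) (move 461 (branch (move 429 (leaf 397 6)) (move 366 (leaf 365 5)))))) (move 557 (branch (move 461 (leaf 429 6)) (move 494 (leaf 429 5)))))))) (branch (move 494 (branch (move 430 (branch (move 557 (leaf 429 5)) (move 398 (leaf 397 5)))) (branch (move 430 (branch (move 398 (leaf 397 5)) (move 431 (branch (move 399 (leaf 398 6)) (move 463 (branch (move 558 (leaf 430 6)) (move 429 (branch (move 397 (leaf 397 7)) (move 464 (branch (move 465 (leaf 461 1)) (move 428 (leaf 428 0)))))))))))) (move 558 (branch (move 559 (branch (move 591 (leaf 462 4)) (move 524 (branch (move 523 (leaf 523 0)) (move 560 (branch (move 557 (leaf 524 3)) (move 561 (leaf 525 3)))))))) (move 590 (branch (move 622 (leaf 493 7)) (move 463 (branch (move 495 (leaf 462 6)) (move 431 (leaf 430 6))))))))))) (branch (ref 0) (branch (move 558 (branch (move 461 (branch (move 429 (leaf 429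 4)) (move 590 (branch (move 622 (leaf 493 7)) (move 557 (leaf 461 4)))))) (branch (move 494 (branch (move 559 (branch (move 591 (leaf 462 4)) (move 524 (branch (move 523 (leaf 523 0)) (move 560 (branch (move 557 (leaf 524 3)) (move 561 (leaf 525 3)))))))) (branch (move 461 (branch (move 429 (leaf 429 4)) (move 463 (branch (move 431 (leaf 430 6)) (move 464 (branch (move 465 (leaf 461 1)) (move 496 (branch (move 497 (leaf 461 0)) (move 495 (branch (move 460 (leaf 460 0)) (move 524 (leaf 492 1)))))))))))) (move 461 (branch (move 429 (leaf 429 4)) (move 463 (branch (move 431 (leaf 430 6)) (move 464 (branch (move 465 (leaf 461 1)) (move 496 (branch (move 497 (leaf 461 0)) (move 460 (branch (move 495 (leaf 460 0)) (move 428 (branch (move 427 (leaf 427 3)) (move 557 (leaf 428 7))))))))))))))))) (branch (move 590 (branch (move 622 (leaf 493 7)) (move 494 (branch (move 461 (leaf 461 7)) (move 463 (branch (move 495 (leaf 462 6)) (move 431 (leaf 430 6)))))))) (move 494 (branch (move 559 (branch (move 591 (leaf 462 4)) (move 524 (branch (move 523 (leaf 523 0)) (move 560 (branch (move 557 (leaf 524 3)) (move 561 (leaf 525 3)))))))) (move 590 (branch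 (move 622 (leaf 493 7)) (move 463 (branch (move 495 (leaf 462 6)) (move 431 (leaf 430 6)))))))))))) (branch (move 494 (branch (move 430 (branch (move 557 (leaf 429 5)) (move 398 (leaf 397 5)))) (branch (move 558 (branch (move 559 (branch (move 591 (leaf 462 4)) (move 524 (branch (move 523 (leaf 523 0)) (move 560 (branch (move 557 (leaf 524 3)) (move 561 (leaf 525 3)))))))) (move 590 (branch (move 622 (leaf 493 7)) (move 463 (branch (move 495 (leaf 462 6)) (move 431 (leaf 430 6)))))))) (move 430 (branch (move 398 (leaf 397 5)) (move 431 (branch (move 399 (leaf 398 6)) (move 558 (branch (move 463 (leaf 430 6)) (move 590 (branch (move 622 (leaf 493 7)) (move 461 (leaf 461 7))))))))))))) (ref 1)))))))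
theorem a6p93 : a6e93.Valid :=
  pos_of_chk [a6e91, a6e92] (forall_cons a6p91 (forall_cons a6p92 forall_nil)) a6c93 a6e93 (by decide +kernel)

def a6e94 : Pos := ⟨329510287762989358691697063434341007948329749536956207605068577044420714242840626355117422631826461427798601630014987845021544588264928353297742257660910108672, 4009835079091347560906804078708606607114202012182818209499443326859932591439328283145646287254816146625590663642577128178549425517354727069110909649691648125099881529344, 12⟩
def a6c94 : Cert := (move 495 (branch (move 496 (branch (move 497 (leaf 493 1)) (move 464 (branch (move 465 (leaf 461 2)) (move 463 (branch (move 492 (leaf 460 2)) (move 528 (branch (move 529 (leaf 493 0)) (move 431 (branch (move 560 (leaf 431 7)) (move 399 (leaf 399 4)))))))))))) (branch (move 524 (branch (move 523 (leaf 491 2)) (move 496 (leaf 492 1)))) (move 492 (branch (move 491 (branch (move 490 (leaf 490 0)) (move 459 (branch (move 458 (leaf 458 3)) (move 460 (leaf 459 3)))))) (branch (move 491 (branch (move 490 (leaf 490 0)) (move 463 (branch (move 462 (leaf 459 2)) (move 464 (leaf 460 2)))))) (move 524 (branch (move 523 (leaf 491 1)) (move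 460 (branch (move 459 (leaf 459 3)) (move 428 (branch (move 396 (leaf 396 4)) (move 429 (branch (move 397 (leaf 396 6)) (move 556 (branch (move 461 (leaf 428 5)) (move 463 (branch (move 464 (leaf 460 2)) (move 427 (branch (move 395 (leaf 395 7)) (move 430 (branch (move 462 (leaf 427 0)) (move 399 (branch (move 398 (leaf 395 2)) (move 431 (leaf 398 5))))))))))))))))))))))))))
theorem a6p94 : a6e94.Valid :=
  pos_of_chk [] forall_nil a6c94 a6e94 (by decide +kernel)

def a6e95 : Pos := ⟨329510287762989358691697063434341007948329749536956207605068577044420714242840626355117422631826461427798601630014987845021544588264928353297742257660910108672, 4052261298914707943900112144941644793201282972460120730808025966408580135408580815725921557628404139771633045875093851458275144624142500024245965460227062583850383428723578765312, 8⟩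
def a6c95 : Cert := (move 495 (branch (move 524 (branch (move 523 (leaf 491 2)) (move 496 (leaf 492 1)))) (branch (move 496 (branch (move 497 (leaf 493 1)) (move 461 (branch (move 460 (leaf 460 3)) (move 558 (branch (move 590 (leaf 461 7)) (move 429 (leaf 429 4)))))))) (move 492 (branch (move 491 (branch (move 490 (leaf 490 0)) (move 459 (branch (move 458 (leaf 458 3)) (move 460 (leaf 459 3)))))) (branch (move 523 (branch (move 524 (leaf 491 1)) (move 491 (branch (move 490 (leaf 490 0)) (move 522 (leaf 490 1)))))) (move 524 (branch (move 523 (leaf 491 1)) (move 460 (branch (move 459 (leaf 459 3)) (move 428 (branch (move 396 (leaf 396 4)) (move 429 (branch (move 397 (leaf 396 6)) (move 461 (branch (move 556 (leaf 428 5)) (move 558 (leaf 429 4))))))))))))))))))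
theorem a6p95 : a6e95.Valid :=
  pos_of_chk [] forall_nil a6c95 a6e95 (by decide +kernel)

def a6e96 : Pos := ⟨329510287711842630443319846715384918935398512783571175635645689708744286616338535786294382711775366235206349174532383405528418478745908719768282991202651865088, 52212989258016256769627620012796929024625398491773071542839932720051117519774572973499247485323978879560253526955809163227241365234606883560801817610361123290105080497060328549225278210048, 13⟩
def a6c96 : Cert := (move 494 (branch (move 495 (branch (move 524 (branch (move 523 (leaf 491 2)) (move 496 (leaf 492 1)))) (move 492 (branch (move 463 (branch (move 464 (leaf 460 2)) (move 558 (branch (move 590 (leaf 462 6)) (move 431 (branch (move 462 (leaf 430 6)) (move 399 (leaf 398 5)))))))) (move 491 (branch (move 490 (leaf 490 0)) (move 459 (branch (move 458 (leaf 458 3)) (move 460 (leaf 459 3)))))))))) (branch (ref 0) (branch (move 558 (branch (move 461 (branch (move 590 (leaf 461 7)) (move 429 (leaf 429 4)))) (branch (move 590 (branch (move 622 (leaf 493 7)) (move 495 (branch (move 463 (leaf 462 6)) (move 524 (branch (move 523 (leaf 491 2)) (move 496 (leaf 492 1))))))))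 (move 462 (branch (move 430 (branch (move 398 (leaf 397 5)) (move 431 (branch (move 463 (leaf 430 6)) (move 399 (leaf 398 6)))))) (branch (move 461 (branch (move 429 (leaf 429 4)) (move 463 (branch (move 431 (leaf 430 6)) (move 464 (branch (move 465 (leaf 461 1)) (move 496 (branch (move 497 (leaf 461 0)) (move 495 (branch (move 460 (leaf 460 0)) (move 524 (leaf 492 1)))))))))))) (move 429 (branch (move 461 (leaf 429 4)) (move 430 (branch (move 397 (leaf 397 7)) (move 398 (leaf 397 5)))))))))))) (branch (ref 1) (move 558 (branch (move 461 (branch (move 590 (leaf 461 7)) (move 429 (leaf 429 4)))) (branch (move 590 (branch (move 622 (leaf 493 7)) (move 591 (branch (move 623 (leaf 494 4)) (move 462 (branch (move 559 (leaf 462 4)) (move 430 (branch (move 398 (leaf 397 5)) (move 431 (branch (move 463 (leaf 430 6)) (move 399 (leaf 398 6)))))))))))) (move 462 (branch (move 430 (branch (move 398 (leaf 397 5)) (move 431 (branch (move 463 (leaf 430 6)) (move 399 (leaf 398 6)))))) (branch (move 429 (branch (move 461 (leaf 429 4)) (move 430 (branch (move 397 (leaf 397 7)) (move 398 (leaf 397 5)))))) (move 461 (branch (move 429 (leaf 429 4)) (move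 463 (branch (move 431 (leaf 430 6)) (move 492 (branch (move 491 (leaf 459 2)) (move 464 (leaf 460 1)))))))))))))))))))
theorem a6p96 : a6e96.Valid :=
  pos_of_chk [a6e94, a6e95] (forall_cons a6p94 (forall_cons a6p95 forall_nil)) a6c96 a6e96 (by decide +kernel)

def a6e97 : Pos := ⟨329510287762989358709559851922629842890469931439611807041343667124672242892318529490180813776501328791463072892356441232242844319260525942192288627285743894528, 471745303102692669052571016404127982918968896522342375592273246843216922779057987056017910754566202010659543860033954026341649780218553391273890570902398557948309667840, 7⟩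
def a6c97 : Cert := (move 460 (branch (move 459 (branch (move 458 (leaf 458 0)) (move 428 (branch (move 557 (leaf 428 7)) (move 427 (branch (move 426 (leaf 426 3)) (move 463 (leaf 427 3)))))))) (branch (move 459 (branch (move 458 (leaf 458 0)) (move 491 (branch (move 490 (leaf 458 1)) (move 463 (branch (move 492 (leaf 459 1)) (move 464 (branch (move 465 (leaf 461 1)) (move 432 (branch (move 431 (leaf 428 2)) (move 433 (leaf 429 2)))))))))))) (branch (move 428 (branch (move 557 (leaf 428 7)) (move 492 (branch (move 396 (leaf 396 4)) (move 491 (branch (move 490 (leaf 490 0)) (move 463 (leaf 459 1)))))))) (move 459 (branch (move 458 (leaf 458 0)) (move 491 (branch (move 490 (leaf 458 1)) (move 428 (branch (move 557 (leaf 428 7)) (move 396 (branch (move 492 (leaf 396 4)) (move 364 (leaf 364 4))))))))))))))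
theorem a6p97 : a6e97.Valid :=
  pos_of_chk [] forall_nil a6c97 a6e97 (by decide +kernel)

def a6e98 : Pos := ⟨329510287762989358691697063434341007948329749536956207605068577044420714242840626355117422631826461427798601630014987845021544588264928353297742257660910108672, 707617954750146171106787071520477401235247083019096332487902299659372429963284350763831476270611528304218294582345333202876605863130814729793948170988331493002034806784, 7⟩
def a6c98 : Cert := (move 461 (branch (move 429 (branch (move 397 (leaf 397 4)) (move 430 (branch (move 398 (leaf 397 6)) (move 462 (branch (move 557 (leaf 429 5)) (move 431 (branch (move 399 (leaf 398 6)) (move 432 (branch (move 460 (leaf 428 1)) (move 433 (leaf 429 1)))))))))))) (branch (move 429 (branch (move 397 (leaf 397 4)) (move 524 (branch (move 556 (leaf 428 5)) (move 523 (branch (move 522 (leaf 490 2)) (move 495 (leaf 491 2)))))))) (move 460 (branch (move 495 (branch (move 496 (leaf 460 3)) (move 459 (branch (move 458 (leaf 458 0)) (move 462 (leaf 459 0)))))) (move 428 (branch (move 557 (leaf 428 7)) (move 396 (branch (move 492 (leaf 396 4)) (move 364 (leaf 364 4)))))))))))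
theorem a6p98 : a6e98.Valid :=
  pos_of_chk [] forall_nil a6c98 a6e98 (by decide +kernel)

def a6e99 : Pos := ⟨219673525315979741810835388270848921292295289719147264262173283757878641081171558163764027572280084693202867107147115714443335893833343044179946512277611479040, 82377571921567316939643569382659291275272727914988331416815251227816820858486593520753058529108100547763976808512320133173865234045096668290000194758768590848, 9⟩
def a6c99 : Cert := (move 431 (branch (move 463 (branch (move 464 (leaf 460 2)) (move 399 (leaf 398 5)))) (branch (move 524 (branch (move 523 (leaf 491 1)) (move 464 (branch (move 463 (leaf 460 2)) (move 432 (branch (move 465 (leaf 429 0)) (move 397 (branch (move 396 (leaf 396 3)) (move 433 (branch (move 398 (leaf 397 3)) (move 401 (branch (move 400 (leaf 397 2)) (move 402 (leaf 398 2)))))))))))))) (branch (move 524 (branch (move 523 (leaf 491 1)) (move 399 (branch (move 463 (leaf 398 5)) (move 400 (branch (move 428 (leaf 396 2)) (move 401 (branch (move 432 (leaf 397 2)) (move 398 (leaf 397 1)))))))))) (move 428 (branch (move 399 (branch (move 400 (leaf 396 2)) (move 427 (branch (move 398 (leaf 395 2)) (move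 395 (branch (move 394 (leaf 394 3)) (move 396 (leaf 395 3)))))))) (branch (move 524 (branch (move 523 (leaf 491 1)) (move 399 (branch (move 400 (leaf 396 2)) (move 427 (branch (move 398 (leaf 395 2)) (move 458 (branch (move 459 (leaf 426 1)) (move 426 (branch (move 457 (leaf 425 1)) (move 394 (branch (move 393 (leaf 393 3)) (move 395 (leaf 394 3)))))))))))))) (branch (move 524 (branch (move 523 (leaf 491 1)) (move 396 (branch (move 395 (leaf 395 3)) (move 432 (branch (move 397 (leaf 396 3)) (move 465 (branch (move 464 (leaf 429 0)) (move 433 (branch (move 466 (leaf 430 0)) (move 401 (branch (move 400 (leaf 397 2)) (move 402 (leaf 398 2)))))))))))))) (branch (move 524 (branch (move 523 (leaf 491 1)) (move 400 (branch (move 399 (leaf 396 2)) (move 432 (branch (move 401 (leaf 397 2)) (move 465 (branch (move 464 (leaf 429 0)) (move 433 (branch (move 466 (leaf 430 0)) (move 397 (branch (move 396 (leaf 396 3)) (move 398 (leaf 397 3)))))))))))))) (move 524 (branch (move 523 (leaf 491 1)) (move 395 (branch (move 396 (leaf 395 3)) (move 427 (branch (move 394 (leaf 394 3)) (move 458 (branch (move 459 (leaf 426 1)) (move 426 (branch (move 457 (leaf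 425 1)) (move 398 (branch (move 397 (leaf 394 2)) (move 399 (leaf 395 2)))))))))))))))))))))))
theorem a6p99 : a6e99.Valid :=
  pos_of_chk [] forall_nil a6c99 a6e99 (by decide +kernel)

def a6e100 : Pos := ⟨329510287711842630443319846715384918935398512783571175635645689708744286616338535786294382711775366235206349174532383405528418478745908719768282991202651865088, 6526623657252032100036383091699659849779868931554801024922602535710021610488337387857292465649427844481435984617075876574149825252469772098384777303603445345263693515587664296230369886208, 14⟩
def a6c100 : Cert := (move 494 (branch (move 461 (branch (move 429 (branch (move 397 (leaf 397 4)) (move 428 (branch (move 396 (leaf 396 7)) (move 460 (branch (move 557 (leaf 428 7)) (move 524 (branch (move 556 (leaf 428 5)) (move 523 (branch (move 522 (leaf 490 2)) (move 555 (branch (move 554 (leaf 522 1)) (move 492 (leaf 427 5)))))))))))))) (branch (move 429 (branch (move 397 (leaf 397 4)) (move 430 (branch (move 398 (leaf 397 6)) (move 428 (branch (move 396 (leaf 396 7)) (move 524 (branch (move 556 (leaf 428 5)) (move 523 (branch (move 522 (leaf 490 2)) (move 491 (branch (move 490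 (leaf 490 3)) (move 555 (branch (move 554 (leaf 522 1)) (move 460 (branch (move 459 (leaf 427 6)) (move 492 (leaf 427 5)))))))))))))))))) (branch (move 429 (branch (move 397 (leaf 397 4)) (move 430 (branch (move 398 (leaf 397 6)) (move 462 (branch (move 557 (leaf 429 5)) (move 428 (branch (move 396 (leaf 396 7)) (move 463 (branch (move 464 (leaf 428 3)) (move 427 (leaf 427 0)))))))))))) (branch (move 429 (branch (move 397 (leaf 397 4)) (move 430 (branch (move 398 (leaf 397 6)) (move 462 (branch (move 557 (leaf 429 5)) (move 431 (branch (move 399 (leaf 398 6)) (move 432 (branch (move 460 (leaf 428 1)) (move 433 (leaf 429 1)))))))))))) (move 462 (branch (move 430 (branch (move 398 (leaf 397 5)) (move 431 (branch (move 399 (leaf 398 6)) (move 460 (branch (move 459 (leaf 427 2)) (move 463 (branch (move 432 (leaf 428 2)) (move 492 (branch (move 491 (leaf 459 1)) (move 464 (leaf 460 1)))))))))))) (branch (move 430 (branch (move 557 (leaf 429 5)) (move 398 (leaf 397 5)))) (ref 0))))))))) (branch (ref 1) (branch (move 524 (branch (move 523 (branch (move 522 (leaf 490 2)) (move 495 (leaf 491 2)))) (branch (move 461 (branch (move 429 (branch (move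 397 (leaf 397 4)) (move 556 (leaf 428 5)))) (move 462 (branch (move 495 (branch (move 496 (leaf 492 1)) (move 430 (branch (move 398 (leaf 397 5)) (move 431 (branch (move 399 (leaf 398 6)) (move 460 (branch (move 459 (leaf 459 0)) (move 432 (branch (move 463 (leaf 428 2)) (move 433 (leaf 429 1)))))))))))) (branch (move 495 (branch (move 496 (leaf 492 1)) (move 460 (branch (move 459 (leaf 459 0)) (move 428 (branch (move 557 (leaf 428 7)) (move 463 (branch (move 427 (leaf 427 3)) (move 431 (branch (move 432 (leaf 428 2)) (move 399 (leaf 398 5)))))))))))) (move 430 (branch (move 557 (leaf 429 5)) (move 398 (leaf 397 5))))))))) (move 556 (branch (move 461 (branch (move 429 (leaf 428 5)) (move 588 (branch (move 620 (leaf 492 6)) (move 557 (leaf 460 5)))))) (branch (move 523 (branch (move 522 (leaf 490 2)) (move 555 (branch (move 554 (leaf 522 1)) (move 491 (branch (move 490 (leaf 490 3)) (move 588 (branch (move 620 (leaf 492 6)) (move 459 (leaf 459 4)))))))))) (move 523 (branch (move 522 (leaf 490 2)) (move 555 (branch (move 554 (leaf 522 1)) (move 461 (branch (move 429 (leaf 428 5)) (move 491 (branch (move 490 (leaf 490 3)) (move 459 (branch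 (move 427 (leaf 427 4)) (move 460 (branch (move 458 (leaf 458 0)) (move 428 (leaf 427 6)))))))))))))))))))) (branch (move 492 (branch (move 462 (branch (move 463 (branch (move 491 (leaf 459 2)) (move 464 (branch (move 461 (leaf 460 1)) (move 465 (leaf 461 1)))))) (move 430 (branch (move 557 (leaf 429 5)) (move 398 (leaf 397 5)))))) (branch (move 491 (branch (move 490 (leaf 490 0)) (move 459 (branch (move 458 (leaf 458 3)) (move 460 (branch (move 495 (leaf 459 3)) (move 523 (branch (move 522 (leaf 490 1)) (move 428 (branch (move 555 (leaf 427 6)) (move 396 (leaf 396 4)))))))))))) (move 460 (branch (move 495 (branch (move 459 (leaf 459 3)) (move 496 (branch (move 497 (leaf 493 1)) (move 464 (branch (move 463 (leaf 460 2)) (move 465 (leaf 461 2)))))))) (branch (move 428 (branch (move 396 (leaf 396 4)) (move 461 (branch (move 557 (leaf 428 7)) (move 429 (branch (move 397 (leaf 397 4)) (move 430 (branch (move 398 (leaf 397 6)) (move 459 (branch (move 458 (leaf 458 0)) (move 431 (leaf 427 1)))))))))))) (move 428 (branch (move 396 (leaf 396 4)) (move 461 (branch (move 557 (leaf 428 7)) (move 429 (branch (move 397 (leaf 397 4)) (move 430 (branch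 (move 398 (leaf 397 6)) (move 431 (branch (move 432 (leaf 428 1)) (move 463 (branch (move 464 (leaf 428 0)) (move 462 (branch (move 427 (leaf 427 0)) (move 399 (leaf 398 6)))))))))))))))))))))) (branch (ref 2) (branch (ref 3) (branch (move 495 (branch (move 492 (branch (move 491 (branch (move 490 (leaf 490 0)) (move 459 (branch (move 458 (leaf 458 3)) (move 460 (leaf 459 3)))))) (branch (move 460 (branch (move 459 (leaf 459 3)) (move 428 (branch (move 396 (leaf 396 4)) (move 461 (branch (move 557 (leaf 428 7)) (move 463 (branch (move 464 (leaf 460 2)) (move 429 (branch (move 397 (leaf 397 4)) (move 462 (branch (move 427 (leaf 427 3)) (move 430 (branch (move 398 (leaf 397 5)) (move 431 (branch (move 432 (leaf 428 1)) (move 399 (leaf 398 5)))))))))))))))))) (move 491 (branch (move 490 (leaf 490 0)) (move 463 (branch (move 462 (leaf 459 2)) (move 464 (leaf 460 2))))))))) (move 496 (branch (move 524 (leaf 492 1)) (move 497 (leaf 493 1)))))) (branch (move 492 (branch (move 462 (branch (move 463 (branch (move 491 (leaf 459 2)) (move 464 (branch (move 461 (leaf 460 1)) (move 465 (leaf 461 1)))))) (move 430 (branch (move 557 (leaf 429 5)) (move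 398 (leaf 397 5)))))) (branch (move 491 (branch (move 490 (leaf 490 0)) (move 523 (branch (move 522 (leaf 490 1)) (move 524 (branch (move 495 (leaf 491 1)) (move 555 (branch (move 554 (leaf 522 1)) (move 460 (branch (move 587 (leaf 459 6)) (move 428 (leaf 427 5)))))))))))) (move 524 (branch (move 523 (branch (move 522 (leaf 490 2)) (move 555 (branch (move 554 (leaf 522 1)) (move 460 (branch (move 428 (leaf 427 5)) (move 587 (branch (move 619 (leaf 491 6)) (move 556 (leaf 459 5)))))))))) (branch (move 495 (branch (move 523 (leaf 491 1)) (move 496 (leaf 492 1)))) (move 556 (branch (move 588 (branch (move 620 (leaf 492 6)) (move 587 (branch (move 619 (leaf 491 5)) (move 555 (branch (move 460 (leaf 459 5)) (move 554 (branch (move 553 (leaf 521 2)) (move 557 (leaf 522 2)))))))))) (branch (move 461 (branch (move 588 (leaf 460 6)) (move 429 (leaf 428 5)))) (move 460 (branch (move 555 (branch (move 587 (leaf 459 5)) (move 554 (branch (move 553 (leaf 521 2)) (move 557 (leaf 522 2)))))) (move 461 (branch (move 429 (leaf 428 5)) (move 495 (branch (move 496 (leaf 492 1)) (move 463 (branch (move 464 (leaf 460 2)) (move 428 (branch (move 396 (leaf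 396 4)) (move 427 (branch (move 462 (leaf 427 3)) (move 395 (leaf 395 7))))))))))))))))))))))) (branch (move 495 (branch (move 496 (branch (move 497 (leaf 493 1)) (move 464 (branch (move 465 (leaf 461 2)) (move 463 (branch (move 492 (leaf 460 2)) (move 528 (branch (move 529 (leaf 493 0)) (move 431 (branch (move 560 (leaf 431 7)) (move 399 (leaf 399 4)))))))))))) (branch (move 524 (branch (move 523 (leaf 491 2)) (move 496 (leaf 492 1)))) (move 492 (branch (move 491 (branch (move 490 (leaf 490 0)) (move 459 (branch (move 458 (leaf 458 3)) (move 460 (leaf 459 3)))))) (branch (move 524 (branch (move 523 (leaf 491 1)) (move 463 (branch (move 464 (leaf 460 2)) (move 462 (branch (move 491 (leaf 459 2)) (move 430 (branch (move 557 (leaf 429 5)) (move 398 (leaf 397 5)))))))))) (move 462 (branch (move 430 (branch (move 557 (leaf 429 5)) (move 398 (leaf 397 5)))) (move 524 (branch (move 523 (leaf 491 1)) (move 463 (branch (move 464 (leaf 460 2)) (move 460 (branch (move 459 (leaf 459 3)) (move 431 (branch (move 399 (leaf 398 5)) (move 461 (branch (move 432 (leaf 428 2)) (move 429 (branch (move 556 (leaf 428 5)) (move 397 (leaf 397 4))))))))))))))))))))))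 (move 495 (branch (move 496 (branch (move 497 (leaf 493 1)) (move 464 (branch (move 465 (leaf 461 2)) (move 463 (branch (move 492 (leaf 460 2)) (move 528 (branch (move 529 (leaf 493 0)) (move 431 (branch (move 560 (leaf 431 7)) (move 399 (leaf 399 4)))))))))))) (branch (move 524 (branch (move 523 (leaf 491 2)) (move 496 (leaf 492 1)))) (move 492 (branch (move 491 (branch (move 490 (leaf 490 0)) (move 463 (branch (move 462 (leaf 459 2)) (move 464 (leaf 460 2)))))) (branch (move 523 (branch (move 524 (leaf 491 1)) (move 491 (branch (move 490 (leaf 490 0)) (move 522 (leaf 490 1)))))) (move 430 (branch (move 462 (branch (move 557 (leaf 429 5)) (move 398 (leaf 397 5)))) (branch (move 524 (branch (move 523 (leaf 491 1)) (move 462 (branch (move 557 (leaf 429 5)) (move 429 (branch (move 397 (leaf 397 7)) (move 463 (branch (move 464 (leaf 460 2)) (move 431 (branch (move 399 (leaf 398 5)) (move 461 (branch (move 556 (leaf 428 5)) (move 428 (branch (move 427 (leaf 427 0)) (move 396 (leaf 396 7)))))))))))))))) (move 429 (branch (move 461 (branch (move 398 (leaf 397 6)) (move 397 (leaf 397 4)))) (branch (move 524 (branch (move 523 (leaf 491 1)) (move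 461 (branch (move 398 (leaf 397 6)) (move 556 (leaf 428 5)))))) (branch (move 524 (branch (move 523 (leaf 491 1)) (move 461 (branch (move 397 (leaf 397 4)) (move 556 (leaf 428 5)))))) (ref 4))))))))))))))))))))))))
theorem a6p100 : a6e100.Valid :=
  pos_of_chk [a6e97, a6e83, a6e98, a6e94, a6e99] (forall_cons a6p97 (forall_cons a6p83 (forall_cons a6p98 (forall_cons a6p94 (forall_cons a6p99 forall_nil))))) a6c100 a6e100 (by decide +kernel)

def a6e101 : Pos := ⟨329510287711842630449274109544814530582778573417789708781070719735494796166164503497982179760000322023094506261979534534602185055744441249399798447744263127040, 62556783798826265128227911731038946907353707823298135649601042342517733008242201396201764102012973985228082460149290683356427389195490828900620517120981475176087343510360327979008, 12⟩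
def a6c101 : Cert := (move 557 (branch (move 558 (branch (move 590 (leaf 461 4)) (move 556 (branch (move 588 (leaf 460 5)) (move 555 (branch (move 554 (leaf 522 2)) (move 523 (branch (move 522 (leaf 522 3)) (move 559 (branch (move 524 (leaf 523 0)) (move 560 (branch (move 561 (leaf 525 3)) (move 592 (branch (move 591 (leaf 556 0)) (move 593 (leaf 557 0)))))))))))))))) (branch (move 558 (branch (move 590 (leaf 461 4)) (move 556 (branch (move 588 (leaf 460 5)) (move 555 (branch (move 554 (leaf 522 2)) (move 462 (branch (move 430 (leaf 429 6)) (move 460 (branch (move 428 (leaf 428 7)) (move 587 (branch (move 586 (leaf 554 1)) (move 523 (branch (move 522 (leaf 522 3)) (move 491 (branch (move 492 (leaf 459 6)) (move 490 (branch (move 459 (leaf 458 1)) (move 458 (leaf 458 7)))))))))))))))))))) (branch (move 491 (branch (move 490 (branch (move 492 (leaf 490 0)) (move 460 (branch (move 428 (leaf 428 7)) (move 462 (branch (move 459 (leaf 458 1)) (move 430 (leaf 429 6)))))))) (branch (move 556 (branch (move 588 (leaf 460 5)) (move 555 (branch (move 554 (leaf 522 2)) (move 460 (branch (move 428 (leaf 428 7)) (move 462 (branch (move 430 (leaf 429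 6)) (move 459 (branch (move 490 (leaf 458 1)) (move 426 (branch (move 427 (leaf 426 3)) (move 458 (branch (move 425 (leaf 425 3)) (move 523 (leaf 426 7)))))))))))))))) (branch (move 490 (branch (move 492 (leaf 490 0)) (move 523 (branch (move 524 (leaf 490 3)) (move 556 (branch (move 588 (leaf 460 5)) (move 555 (branch (move 554 (leaf 522 2)) (move 458 (branch (move 587 (leaf 458 7)) (move 426 (branch (move 459 (leaf 426 7)) (move 522 (leaf 426 4)))))))))))))) (move 462 (branch (move 430 (leaf 429 6)) (move 460 (branch (move 428 (leaf 428 7)) (move 463 (branch (move 492 (leaf 459 1)) (move 556 (branch (move 588 (leaf 460 5)) (move 555 (branch (move 554 (leaf 522 2)) (move 432 (branch (move 431 (leaf 428 2)) (move 464 (branch (move 433 (leaf 429 2)) (move 465 (branch (move 494 (leaf 461 1)) (move 497 (branch (move 496 (leaf 461 0)) (move 498 (leaf 462 0)))))))))))))))))))))))) (move 462 (branch (move 430 (leaf 429 6)) (move 463 (branch (move 464 (branch (move 492 (leaf 460 1)) (move 558 (branch (move 590 (leaf 461 4)) (move 496 (branch (move 497 (leaf 461 0)) (move 433 (branch (move 432 (leaf 429 2)) (move 465 (branch (move 434 (leaf 430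 2)) (move 560 (branch (move 528 (leaf 432 6)) (move 559 (branch (move 524 (leaf 524 3)) (move 561 (leaf 525 3)))))))))))))))) (branch (move 460 (branch (move 428 (leaf 428 7)) (move 492 (branch (move 491 (leaf 459 1)) (move 464 (leaf 460 1)))))) (move 558 (branch (move 590 (leaf 461 4)) (move 460 (branch (move 428 (leaf 428 7)) (move 431 (branch (move 432 (leaf 428 2)) (move 494 (leaf 430 6)))))))))))))))))
theorem a6p101 : a6e101.Valid :=
  pos_of_chk [] forall_nil a6c101 a6e101 (by decide +kernel)

def a6e102 : Pos := ⟨329510287762989358697651326263770619595709810171174740750493607071171223792666594066805219680051417215686758717462138974095311165263460882929257714202521370624, 12156783900400149930540260688103003131733875411964150750002099133759147264769395718855699367530580035524580270083046084940673269522972927135006283246619203748550896340728511725568, 8⟩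
def a6c102 : Cert := (move 460 (branch (move 495 (branch (move 496 (leaf 460 3)) (move 459 (branch (move 458 (leaf 458 0)) (move 462 (leaf 459 0)))))) (branch (move 495 (branch (move 496 (leaf 460 3)) (move 523 (branch (move 524 (leaf 491 2)) (move 428 (branch (move 557 (leaf 428 7)) (move 459 (branch (move 458 (leaf 458 0)) (move 491 (branch (move 555 (leaf 427 6)) (move 396 (branch (move 427 (leaf 395 6)) (move 364 (leaf 364 4)))))))))))))) (move 557 (branch (move 428 (leaf 428 7)) (move 558 (branch (move 590 (leaf 461 4)) (move 462 (branch (move 430 (leaf 429 5)) (move 559 (branch (move 591 (leaf 462 4)) (move 524 (branch (move 560 (leaf 524 3)) (move 523 (leaf 523 0)))))))))))))))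
theorem a6p102 : a6e102.Valid :=
  pos_of_chk [] forall_nil a6c102 a6e102 (by decide +kernel)

def a6e103 : Pos := ⟨329510287711842630443319846715384918935398512783571175635645689708744286616338535786294382711775366235206349174532383405528418478745908719768282991202651865088, 52212989258016256777529353839767031230881153395717259533197236525297958971378602275426420709190061676184057183882944305453197350468308105237052968236335815182335998337739320215740562276352, 10⟩
def a6c103 : Cert := (move 494 (branch (move 462 (branch (move 430 (branch (move 557 (leaf 429 5)) (move 398 (leaf 397 5)))) (move 463 (branch (move 492 (branch (move 491 (leaf 459 2)) (move 464 (branch (move 495 (leaf 460 2)) (move 465 (leaf 461 1)))))) (move 558 (branch (move 431 (leaf 430 6)) (move 590 (branch (move 622 (leaf 493 7)) (move 591 (branch (move 623 (leaf 494 4)) (move 559 (leaf 462 4)))))))))))) (branch (move 495 (branch (move 496 (branch (move 497 (leaf 493 1)) (move 464 (branch (move 465 (leaf 461 2)) (move 463 (branch (move 492 (leaf 460 2)) (move 528 (branch (move 529 (leaf 493 0)) (move 431 (branch (move 560 (leaf 431 7)) (move 399 (leaf 399 4))))))))))))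 (branch (move 524 (branch (move 523 (leaf 491 2)) (move 496 (leaf 492 1)))) (move 492 (branch (move 491 (branch (move 490 (leaf 490 0)) (move 459 (branch (move 458 (leaf 458 3)) (move 460 (leaf 459 3)))))) (branch (move 524 (branch (move 523 (leaf 491 1)) (move 460 (branch (move 459 (leaf 459 3)) (move 428 (branch (move 557 (leaf 428 4)) (move 396 (leaf 396 4)))))))) (move 523 (branch (move 524 (leaf 491 1)) (move 491 (branch (move 490 (leaf 490 0)) (move 522 (leaf 490 1)))))))))))) (branch (move 495 (branch (move 524 (branch (move 523 (leaf 491 2)) (move 496 (leaf 492 1)))) (move 492 (branch (move 463 (branch (move 464 (leaf 460 2)) (move 558 (branch (move 590 (leaf 462 6)) (move 431 (branch (move 462 (leaf 430 6)) (move 399 (leaf 398 5)))))))) (move 491 (branch (move 490 (leaf 490 0)) (move 459 (branch (move 458 (leaf 458 3)) (move 460 (leaf 459 3)))))))))) (branch (move 558 (branch (move 462 (branch (move 559 (branch (move 591 (leaf 462 4)) (move 524 (branch (move 523 (leaf 523 0)) (move 560 (branch (move 557 (leaf 524 3)) (move 561 (leaf 525 3)))))))) (move 430 (branch (move 398 (leaf 397 5)) (move 431 (branch (move 463 (leaf 430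 6)) (move 399 (leaf 398 6)))))))) (move 590 (branch (move 622 (leaf 493 7)) (move 461 (leaf 461 7)))))) (branch (move 461 (branch (move 429 (branch (move 397 (leaf 397 4)) (move 428 (branch (move 396 (leaf 396 7)) (move 460 (branch (move 557 (leaf 428 7)) (move 459 (branch (move 458 (leaf 458 0)) (move 430 (branch (move 431 (leaf 427 1)) (move 398 (leaf 397 6)))))))))))) (branch (move 558 (branch (move 590 (leaf 461 7)) (move 429 (leaf 429 4)))) (ref 0)))) (move 461 (branch (move 558 (branch (move 590 (leaf 461 7)) (move 429 (leaf 429 4)))) (branch (move 429 (branch (move 397 (leaf 397 4)) (move 430 (branch (move 398 (leaf 397 6)) (move 462 (branch (move 557 (leaf 429 5)) (move 428 (branch (move 396 (leaf 396 7)) (move 463 (branch (move 464 (leaf 428 3)) (move 427 (leaf 427 0)))))))))))) (ref 0))))))))))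
theorem a6p103 : a6e103.Valid :=
  pos_of_chk [a6e102] (forall_cons a6p102 forall_nil) a6c103 a6e103 (by decide +kernel)

def a6e104 : Pos := ⟨329510287711842630443319846715384918935398512783571175635645689708744286616338535786294382711775366235206349174532383405528418478745908719768282991202651865088, 193623168515699062692415049256570468631031403585004898565919703974865196553369147379965379463637974196006366122157266441677989674939767736263564098486906633389171901637909369690340003414016, 12⟩
def a6c104 : Cert := (move 494 (branch (ref 0) (branch (move 495 (branch (move 524 (branch (move 523 (leaf 491 2)) (move 496 (leaf 492 1)))) (move 492 (branch (move 463 (branch (move 464 (leaf 460 2)) (move 558 (branch (move 590 (leaf 462 6)) (move 431 (branch (move 462 (leaf 430 6)) (move 399 (leaf 398 5)))))))) (move 491 (branch (move 490 (leaf 490 0)) (move 459 (branch (move 458 (leaf 458 3)) (move 460 (leaf 459 3)))))))))) (branch (move 558 (branch (move 590 (branch (move 622 (leaf 493 7)) (move 495 (branch (move 463 (leaf 462 6)) (move 496 (branch (move 497 (leaf 493 1)) (move 591 (branch (move 623 (leaf 494 4)) (move 464 (branch (move 465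 (leaf 461 2)) (move 528 (branch (move 529 (leaf 493 0)) (move 560 (branch (move 559 (leaf 463 5)) (move 593 (branch (move 561 (leaf 464 4)) (move 592 (branch (move 557 (leaf 557 3)) (move 625 (leaf 496 4)))))))))))))))))))) (branch (move 461 (branch (move 590 (leaf 461 7)) (move 429 (leaf 429 4)))) (move 462 (branch (move 559 (branch (move 591 (leaf 462 4)) (move 524 (branch (move 523 (leaf 523 0)) (move 560 (branch (move 557 (leaf 524 3)) (move 561 (leaf 525 3)))))))) (branch (move 461 (branch (move 429 (leaf 429 4)) (move 463 (branch (move 431 (leaf 430 6)) (move 464 (branch (move 465 (leaf 461 1)) (move 496 (branch (move 497 (leaf 461 0)) (move 495 (branch (move 460 (leaf 460 0)) (move 524 (leaf 492 1)))))))))))) (move 461 (branch (move 429 (leaf 429 4)) (move 463 (branch (move 431 (leaf 430 6)) (move 464 (branch (move 465 (leaf 461 1)) (move 496 (branch (move 497 (leaf 461 0)) (move 460 (branch (move 495 (leaf 460 0)) (move 428 (branch (move 427 (leaf 427 3)) (move 557 (leaf 428 7)))))))))))))))))))) (branch (move 461 (branch (move 558 (branch (move 590 (leaf 461 7)) (move 429 (leaf 429 4)))) (branch (move 429 (branch (move 397 (leaf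 397 4)) (move 428 (branch (move 396 (leaf 396 7)) (move 460 (branch (move 557 (leaf 428 7)) (move 524 (branch (move 556 (leaf 428 5)) (move 523 (branch (move 522 (leaf 490 2)) (move 555 (branch (move 554 (leaf 522 1)) (move 492 (leaf 427 5)))))))))))))) (move 462 (branch (ref 1) (branch (move 558 (branch (move 590 (leaf 461 7)) (move 463 (branch (move 431 (leaf 430 6)) (move 492 (branch (move 491 (leaf 459 2)) (move 464 (leaf 460 1)))))))) (move 558 (branch (move 590 (leaf 461 7)) (move 559 (branch (move 591 (leaf 462 4)) (move 524 (branch (move 523 (leaf 523 0)) (move 560 (branch (move 557 (leaf 524 3)) (move 561 (leaf 525 3)))))))))))))))) (branch (move 461 (branch (move 558 (branch (move 590 (leaf 461 7)) (move 429 (leaf 429 4)))) (move 460 (branch (move 495 (branch (move 496 (leaf 460 3)) (move 459 (branch (move 458 (leaf 458 0)) (move 462 (leaf 459 0)))))) (move 428 (branch (move 557 (leaf 428 7)) (move 396 (branch (move 492 (leaf 396 4)) (move 364 (leaf 364 4)))))))))) (move 558 (branch (move 462 (branch (move 559 (branch (move 591 (leaf 462 4)) (move 524 (branch (move 523 (leaf 523 0)) (move 560 (branch (move 557 (leaf 524 3))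 (move 561 (leaf 525 3)))))))) (move 463 (branch (move 431 (leaf 430 6)) (move 492 (branch (move 491 (leaf 459 2)) (move 464 (branch (move 495 (leaf 460 2)) (move 465 (leaf 461 1)))))))))) (move 590 (branch (move 622 (leaf 493 7)) (move 461 (leaf 461 7))))))))))))
theorem a6p104 : a6e104.Valid :=
  pos_of_chk [a6e83, a6e97] (forall_cons a6p83 (forall_cons a6p97 forall_nil)) a6c104 a6e104 (by decide +kernel)

def a6e105 : Pos := ⟨329510287711842630455228372374244142230158634052008241926495749762245305715990471209669976808225277810982663349426685663675951632742973779031313904285874388992, 52212989258016256777411417511341546166196232055565193739599834577257405484782780336605897973408558576264064886580229294735535541313616952983288781944088347266054412337571518770558432968704, 6⟩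
def a6c105 : Cert := (move 558 (branch (move 494 (branch (move 559 (branch (move 591 (leaf 462 4)) (move 524 (branch (move 523 (leaf 523 0)) (move 560 (branch (move 557 (leaf 524 3)) (move 561 (leaf 525 3)))))))) (move 463 (branch (move 431 (leaf 430 6)) (move 492 (branch (move 491 (leaf 459 2)) (move 464 (branch (move 495 (leaf 460 2)) (move 465 (leaf 461 1)))))))))) (branch (move 494 (branch (move 463 (branch (move 431 (leaf 430 6)) (move 492 (branch (move 491 (leaf 459 2)) (move 464 (branch (move 495 (leaf 460 2)) (move 465 (leaf 461 1)))))))) (move 590 (branch (move 622 (leaf 493 7)) (move 591 (branch (move 623 (leaf 494 4)) (move 559 (leaf 462 4)))))))) (move 461 (branch (move 429 (leaf 429 4)) (move 590 (branch (move 622 (leaf 493 7)) (move 557 (leaf 461 4)))))))))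
theorem a6p105 : a6e105.Valid :=
  pos_of_chk [] forall_nil a6c105 a6e105 (by decide +kernel)

def a6e106 : Pos := ⟨329510287711842630443319846715384918935398512783571175635645689708744286616338535786294382711775366235206349174532383405528418478745908719768282991202651865088, 52212989307656457675082167055649229825645182936113660266814328384413781933575463564510997408809942866513249514113782245084829633505120777400067489550832527900063407104416880773438032052224, 11⟩
def a6c106 : Cert := (move 462 (branch (move 494 (branch (move 430 (branch (move 557 (leaf 429 5)) (move 398 (leaf 397 5)))) (move 463 (branch (move 492 (branch (move 491 (leaf 459 2)) (move 464 (branch (move 495 (leaf 460 2)) (move 465 (leaf 461 1)))))) (move 558 (branch (move 431 (leaf 430 6)) (move 590 (branch (move 622 (leaf 493 7)) (move 591 (branch (move 623 (leaf 494 4)) (move 559 (leaf 462 4)))))))))))) (branch (move 430 (branch (move 461 (branch (move 557 (leaf 429 6)) (move 398 (branch (move 429 (leaf 397 6)) (move 366 (leaf 365 5)))))) (branch (move 494 (branch (move 557 (leaf 429 5)) (move 398 (leaf 397 5)))) (branch (move 398 (branch (move 494 (leaf 397 5)) (move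 461 (branch (move 429 (leaf 397 6)) (move 366 (leaf 365 5)))))) (move 557 (branch (move 461 (leaf 429 6)) (move 494 (leaf 429 5)))))))) (branch (ref 0) (branch (move 494 (branch (move 463 (branch (move 492 (branch (move 491 (leaf 459 2)) (move 464 (branch (move 495 (leaf 460 2)) (move 465 (leaf 461 1)))))) (move 558 (branch (move 431 (leaf 430 6)) (move 590 (branch (move 622 (leaf 493 7)) (move 591 (branch (move 623 (leaf 494 4)) (move 559 (leaf 462 4)))))))))) (branch (move 463 (branch (move 492 (branch (move 491 (leaf 459 2)) (move 464 (branch (move 495 (leaf 460 2)) (move 465 (leaf 461 1)))))) (move 430 (branch (move 398 (leaf 397 5)) (move 429 (branch (move 397 (leaf 397 7)) (move 431 (branch (move 399 (leaf 398 6)) (move 428 (branch (move 427 (leaf 427 0)) (move 396 (branch (move 395 (leaf 395 3)) (move 461 (leaf 396 7)))))))))))))) (branch (move 430 (branch (move 398 (leaf 397 5)) (move 431 (branch (move 399 (leaf 398 6)) (move 558 (branch (move 463 (leaf 430 6)) (move 590 (branch (move 622 (leaf 493 7)) (move 461 (leaf 461 7)))))))))) (move 430 (branch (move 398 (leaf 397 5)) (move 429 (branch (move 397 (leaf 397 7)) (move 461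 (branch (move 558 (leaf 429 4)) (move 524 (branch (move 556 (leaf 428 5)) (move 523 (branch (move 522 (leaf 490 2)) (move 495 (leaf 491 2)))))))))))))))) (ref 1))))))
theorem a6p106 : a6e106.Valid :=
  pos_of_chk [a6e91, a6e105] (forall_cons a6p91 (forall_cons a6p105 forall_nil)) a6c106 a6e106 (by decide +kernel)

def a6e107 : Pos := ⟨329510287711842630443319846715384918935398512783571175635645689708744286616338535786294382711775366235206349174532383405528418478745908719768282991202651865088, 52212989307656457675082167055649229825852966519627902689743417275125950124615007192372425780977537902874459413637528062545127970091469355808137447733940009265632474136157261114516617297920, 11⟩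
def a6c107 : Cert := (move 462 (branch (move 494 (branch (move 430 (branch (move 557 (leaf 429 5)) (move 398 (leaf 397 5)))) (move 463 (branch (move 492 (branch (move 491 (leaf 459 2)) (move 464 (branch (move 495 (leaf 460 2)) (move 465 (leaf 461 1)))))) (move 558 (branch (move 431 (leaf 430 6)) (move 590 (branch (move 622 (leaf 493 7)) (move 591 (branch (move 623 (leaf 494 4)) (move 559 (leaf 462 4)))))))))))) (branch (move 430 (branch (move 461 (branch (move 557 (leaf 429 6)) (move 398 (branch (move 429 (leaf 397 6)) (move 366 (leaf 365 5)))))) (branch (move 494 (branch (move 557 (leaf 429 5)) (move 398 (leaf 397 5)))) (branch (move 398 (branch (move 494 (leaf 397 5)) (move 461 (branch (move 429 (leaf 397 6)) (move 366 (leaf 365 5)))))) (move 557 (branch (move 461 (leaf 429 6)) (move 494 (leaf 429 5)))))))) (branch (ref 0) (branch (move 461 (branch (move 557 (branch (move 430 (leaf 429 6)) (move 558 (branch (move 590 (leaf 461 4)) (move 556 (branch (move 588 (leaf 460 5)) (move 555 (branch (move 554 (leaf 522 2)) (move 523 (branch (move 522 (leaf 522 3)) (move 559 (branch (move 524 (leaf 523 0)) (move 560 (branch (move 561 (leaf 525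 3)) (move 592 (branch (move 591 (leaf 556 0)) (move 593 (leaf 557 0)))))))))))))))))) (branch (move 430 (branch (move 557 (leaf 429 6)) (move 398 (branch (move 429 (leaf 397 6)) (move 366 (leaf 365 5)))))) (branch (move 558 (branch (move 429 (leaf 429 4)) (move 590 (branch (move 622 (leaf 493 7)) (move 557 (leaf 461 4)))))) (move 429 (branch (move 558 (leaf 429 4)) (move 430 (branch (move 398 (leaf 397 6)) (move 524 (branch (move 556 (leaf 428 5)) (move 492 (branch (move 397 (leaf 396 5)) (move 491 (branch (move 490 (leaf 490 0)) (move 463 (branch (move 460 (leaf 459 1)) (move 464 (leaf 460 1)))))))))))))))))) (move 494 (branch (move 463 (branch (move 492 (branch (move 491 (leaf 459 2)) (move 464 (branch (move 495 (leaf 460 2)) (move 465 (leaf 461 1)))))) (move 558 (branch (move 431 (leaf 430 6)) (move 590 (branch (move 622 (leaf 493 7)) (move 591 (branch (move 623 (leaf 494 4)) (move 559 (leaf 462 4)))))))))) (branch (move 430 (branch (move 398 (leaf 397 5)) (move 429 (branch (move 397 (leaf 397 7)) (move 461 (branch (move 558 (leaf 429 4)) (move 431 (branch (move 399 (leaf 398 6)) (move 460 (branch (move 459 (leaf 427 2)) (move 432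 (leaf 428 1)))))))))))) (branch (move 430 (branch (move 398 (leaf 397 5)) (move 429 (branch (move 397 (leaf 397 7)) (move 461 (branch (move 558 (leaf 429 4)) (move 524 (branch (move 556 (leaf 428 5)) (move 523 (branch (move 522 (leaf 490 2)) (move 495 (leaf 491 2)))))))))))) (move 492 (branch (move 491 (branch (move 463 (leaf 459 2)) (move 490 (leaf 490 0)))) (branch (move 491 (branch (move 490 (leaf 490 0)) (move 523 (branch (move 522 (leaf 490 1)) (move 524 (branch (move 495 (leaf 491 1)) (move 459 (branch (move 458 (leaf 458 3)) (move 556 (branch (move 588 (leaf 459 7)) (move 427 (leaf 427 4)))))))))))) (move 464 (branch (move 495 (branch (move 463 (leaf 460 2)) (move 496 (branch (move 465 (leaf 461 2)) (move 524 (leaf 492 1)))))) (branch (move 463 (branch (move 495 (leaf 460 2)) (move 461 (leaf 460 1)))) (move 430 (branch (move 398 (leaf 397 5)) (move 429 (branch (move 397 (leaf 397 7)) (move 431 (branch (move 399 (leaf 398 6)) (move 432 (branch (move 465 (leaf 429 0)) (move 461 (branch (move 460 (leaf 428 1)) (move 433 (leaf 429 1)))))))))))))))))))))))))))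
theorem a6p107 : a6e107.Valid :=
  pos_of_chk [a6e105] (forall_cons a6p105 forall_nil) a6c107 a6e107 (by decide +kernel)

def a6e108 : Pos := ⟨329510287711842630449274109544814530582778573417789708781070719735494796166164503497982179760000322023094506261979534534602185055744441249399798447744263127040, 21755412215913473779298524660810929259226853709785465353716318081896811041555311586631273644524564975945591021118122615655286405491037434502307148896462534919843746585920114950117408112640, 9⟩
def a6c108 : Cert := (move 524 (branch (move 523 (branch (move 558 (branch (move 559 (leaf 523 0)) (move 590 (branch (move 622 (leaf 493 7)) (move 557 (leaf 461 4)))))) (move 554 (branch (move 555 (leaf 522 1)) (move 522 (branch (move 553 (leaf 521 1)) (move 521 (branch (move 492 (leaf 489 2)) (move 489 (branch (move 488 (leaf 488 3)) (move 490 (leaf 489 3)))))))))))) (branch (move 523 (branch (move 554 (branch (move 555 (leaf 522 1)) (move 522 (branch (move 553 (leaf 521 1)) (move 490 (branch (move 489 (leaf 489 3)) (move 491 (leaf 490 3)))))))) (branch (move 494 (branch (move 522 (leaf 490 2)) (move 495 (leaf 491 2)))) (move 460 (branch (move 428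 (branch (move 557 (leaf 428 7)) (move 492 (branch (move 396 (leaf 396 4)) (move 555 (leaf 427 5)))))) (branch (move 494 (branch (move 495 (leaf 491 2)) (move 491 (branch (move 490 (leaf 490 3)) (move 459 (branch (move 458 (leaf 458 0)) (move 556 (branch (move 427 (leaf 427 4)) (move 588 (branch (move 620 (leaf 492 6)) (move 492 (leaf 460 6)))))))))))) (move 494 (branch (move 495 (leaf 491 2)) (move 428 (branch (move 557 (leaf 428 7)) (move 459 (branch (move 458 (leaf 458 0)) (move 491 (branch (move 490 (leaf 490 3)) (move 555 (leaf 427 6)))))))))))))))) (branch (move 523 (branch (move 554 (branch (move 555 (leaf 522 1)) (move 522 (branch (move 553 (leaf 521 1)) (move 490 (branch (move 489 (leaf 489 3)) (move 491 (leaf 490 3)))))))) (move 494 (branch (move 495 (leaf 491 2)) (move 558 (branch (move 559 (leaf 523 0)) (move 590 (leaf 461 7)))))))) (branch (move 558 (branch (move 590 (branch (move 622 (leaf 493 7)) (move 494 (leaf 461 7)))) (move 559 (branch (move 523 (leaf 523 0)) (move 560 (branch (move 557 (leaf 524 3)) (move 561 (leaf 525 3)))))))) (move 557 (branch (move 558 (branch (move 590 (leaf 461 4)) (move 462 (branch (move 430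 (leaf 429 6)) (move 559 (branch (move 560 (leaf 524 3)) (move 494 (branch (move 591 (leaf 462 4)) (move 495 (branch (move 496 (leaf 492 1)) (move 460 (branch (move 459 (leaf 459 0)) (move 428 (leaf 428 7)))))))))))))) (branch (move 556 (branch (move 588 (leaf 460 5)) (move 460 (branch (move 428 (leaf 428 7)) (move 555 (branch (move 554 (leaf 522 2)) (move 492 (branch (move 587 (leaf 459 5)) (move 459 (branch (move 427 (leaf 427 7)) (move 458 (branch (move 457 (leaf 457 0)) (move 494 (leaf 458 0)))))))))))))) (branch (move 558 (branch (move 590 (leaf 461 4)) (move 556 (branch (move 588 (leaf 460 5)) (move 559 (branch (move 560 (leaf 524 3)) (move 462 (branch (move 430 (leaf 429 6)) (move 591 (branch (move 592 (leaf 556 0)) (move 494 (leaf 462 4)))))))))))) (move 556 (branch (move 588 (leaf 460 5)) (move 558 (branch (move 590 (leaf 461 4)) (move 555 (branch (move 554 (leaf 522 2)) (move 460 (branch (move 428 (leaf 428 7)) (move 587 (branch (move 586 (leaf 554 1)) (move 492 (leaf 459 5)))))))))))))))))))))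
theorem a6p108 : a6e108.Valid :=
  pos_of_chk [] forall_nil a6c108 a6e108 (by decide +kernel)

def a6e109 : Pos := ⟨1179363258113701150927850875868035741152677984831993948485927399245406124319783485176669729324490783179355007440117393038723765663602170705418756028222812074549159395328, 80263304194513472841683870569565353470939897192871597046575858816684145602892111602313754247320052505102439196733585144609573682024405780240123273707481818811524827878874370696948757175024728470137149063168, 11⟩
def a6c109 : Cert := (move 555 (branch (move 557 (branch (move 554 (leaf 522 2)) (move 460 (branch (move 428 (leaf 428 7)) (move 587 (branch (move 586 (leaf 554 1)) (move 491 (branch (move 492 (leaf 459 6)) (move 458 (branch (move 490 (leaf 458 7)) (move 459 (branch (move 494 (leaf 458 0)) (move 426 (leaf 426 7)))))))))))))) (branch (move 557 (branch (move 522 (leaf 522 3)) (move 460 (branch (move 428 (leaf 428 7)) (move 587 (branch (move 586 (leaf 554 1)) (move 491 (branch (move 492 (leaf 459 6)) (move 458 (branch (move 490 (leaf 458 7)) (move 459 (branch (move 494 (leaf 458 0)) (move 426 (leaf 426 7)))))))))))))) (branch (move 557 (branch (move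 554 (leaf 522 2)) (move 522 (leaf 522 3)))) (move 491 (branch (move 492 (branch (move 490 (leaf 490 0)) (move 522 (branch (move 494 (leaf 490 1)) (move 521 (branch (move 520 (leaf 520 0)) (move 587 (branch (move 460 (leaf 459 6)) (move 618 (branch (move 586 (leaf 490 5)) (move 619 (branch (move 650 (leaf 522 5)) (move 651 (branch (move 554 (leaf 522 7)) (move 652 (branch (move 684 (leaf 555 4)) (move 620 (leaf 523 4)))))))))))))))))) (branch (move 492 (branch (move 490 (leaf 490 0)) (move 460 (branch (move 587 (leaf 459 6)) (move 428 (branch (move 459 (leaf 427 6)) (move 396 (leaf 396 4)))))))) (branch (move 490 (branch (move 492 (leaf 490 0)) (move 458 (branch (move 587 (leaf 458 7)) (move 426 (branch (move 459 (leaf 426 7)) (move 522 (leaf 426 4)))))))) (move 459 (branch (move 554 (branch (move 586 (leaf 458 5)) (move 427 (branch (move 522 (leaf 426 5)) (move 428 (branch (move 460 (leaf 427 6)) (move 396 (leaf 395 6)))))))) (branch (move 458 (branch (move 426 (leaf 426 7)) (move 460 (branch (move 494 (leaf 458 0)) (move 428 (leaf 427 6)))))) (move 554 (branch (move 586 (leaf 458 5)) (move 427 (branch (move 522 (leaf 426 5)) (move 426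 (branch (move 458 (leaf 426 7)) (move 394 (leaf 394 7)))))))))))))))))))
theorem a6p109 : a6e109.Valid :=
  pos_of_chk [] forall_nil a6c109 a6e109 (by decide +kernel)

def a6e110 : Pos := ⟨329510287711842630449274109544814530582778573417789708781070719735494796166164503497982179760000322023094506261979534534602185055744441249399798447744263127040, 80263304194513472859088200379982162565652561752118310896243320360133380200994001023685145971428707402184008195198079841361143863383863484107077917791128118861515773326503265352180416060675351274254225113088, 14⟩
def a6c110 : Cert := (move 558 (branch (move 590 (branch (move 622 (leaf 493 7)) (move 494 (leaf 461 7)))) (branch (move 590 (branch (move 622 (leaf 493 7)) (move 557 (leaf 461 4)))) (move 556 (branch (move 524 (branch (move 588 (branch (move 620 (leaf 492 6)) (move 492 (leaf 460 6)))) (move 523 (branch (move 559 (leaf 523 0)) (move 494 (branch (move 522 (leaf 490 2)) (move 495 (leaf 491 2)))))))) (branch (move 557 (branch (move 588 (leaf 460 5)) (move 555 (branch (move 554 (leaf 522 2)) (move 460 (branch (move 428 (leaf 428 7)) (move 523 (branch (move 522 (leaf 522 3)) (move 587 (branch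 (move 586 (leaf 554 1)) (move 491 (branch (move 492 (leaf 459 6)) (move 458 (branch (move 490 (leaf 458 7)) (move 459 (branch (move 494 (leaf 458 0)) (move 426 (leaf 426 7)))))))))))))))))) (branch (move 588 (branch (move 557 (leaf 460 5)) (move 524 (branch (move 620 (leaf 492 6)) (move 492 (leaf 460 6)))))) (branch (move 557 (branch (move 588 (leaf 460 5)) (move 555 (branch (move 554 (leaf 522 2)) (move 523 (branch (move 522 (leaf 522 3)) (move 559 (branch (move 524 (leaf 523 0)) (move 560 (branch (move 561 (leaf 525 3)) (move 592 (branch (move 591 (leaf 556 0)) (move 593 (leaf 557 0)))))))))))))) (move 523 (branch (move 524 (branch (move 559 (leaf 523 0)) (move 494 (branch (move 522 (leaf 490 2)) (move 495 (leaf 491 2)))))) (branch (move 524 (branch (move 559 (leaf 523 0)) (move 555 (branch (move 554 (leaf 522 1)) (move 491 (branch (move 490 (leaf 490 3)) (move 459 (branch (move 427 (leaf 427 4)) (move 460 (branch (move 428 (leaf 427 6)) (move 494 (branch (move 495 (leaf 491 2)) (move 458 (leaf 458 0)))))))))))))) (branch (move 524 (branch (move 559 (leaf 523 0)) (move 522 (branch (move 557 (leaf 522 0)) (move 490 (branch (move 489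 (leaf 489 3)) (move 491 (leaf 490 3)))))))) (ref 0)))))))))))))
theorem a6p110 : a6e110.Valid :=
  pos_of_chk [a6e109] (forall_cons a6p109 forall_nil) a6c110 a6e110 (by decide +kernel)

def a6e111 : Pos := ⟨329510287686269266319131238355906874428932894406878659650934246040906072803087490501882862751749818638910222946791081185781855423986398903003553357973522743296, 100329130234965947655685721067478025296342664549075411165208023114409479378747023442128509249322856515902553884509651605015508631965119729618325647194802767188355882366794923717825247791853470712675130408960, 16⟩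
def a6c111 : Cert := (move 493 (branch (move 494 (branch (move 462 (branch (move 430 (branch (move 557 (leaf 429 5)) (move 398 (leaf 397 5)))) (move 463 (branch (move 492 (branch (move 491 (leaf 459 2)) (move 464 (branch (move 495 (leaf 460 2)) (move 465 (leaf 461 1)))))) (move 558 (branch (move 431 (leaf 430 6)) (move 590 (branch (move 622 (leaf 493 7)) (move 591 (branch (move 623 (leaf 494 4)) (move 559 (leaf 462 4)))))))))))) (branch (move 462 (branch (move 430 (branch (move 557 (leaf 429 5)) (move 398 (leaf 397 5)))) (branch (move 430 (branch (move 398 (leaf 397 5)) (move 431 (branch (move 399 (leaf 398 6)) (move 463 (branch (move 558 (leaf 430 6)) (move 429 (branch (move 397 (leaf 397 7)) (move 464 (branch (move 465 (leaf 461 1)) (move 428 (leaf 428 0)))))))))))) (move 558 (branch (move 559 (branch (move 591 (leaf 462 4)) (move 524 (branch (move 523 (leaf 523 0)) (move 560 (branch (move 557 (leaf 524 3)) (move 561 (leaf 525 3)))))))) (move 590 (branch (move 622 (leaf 493 7)) (move 463 (branch (move 495 (leaf 462 6)) (move 431 (leaf 430 6))))))))))) (branch (ref 0) (branch (move 495 (branch (move 524 (branch (move 523 (leaf 491 2))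 (move 496 (leaf 492 1)))) (move 492 (branch (move 463 (branch (move 464 (leaf 460 2)) (move 558 (branch (move 590 (leaf 462 6)) (move 431 (branch (move 462 (leaf 430 6)) (move 399 (leaf 398 5)))))))) (move 491 (branch (move 490 (leaf 490 0)) (move 459 (branch (move 458 (leaf 458 3)) (move 460 (leaf 459 3)))))))))) (ref 1)))))) (branch (move 461 (branch (ref 2) (branch (move 429 (branch (move 558 (leaf 429 4)) (move 524 (branch (move 556 (leaf 428 5)) (move 397 (branch (move 492 (leaf 396 5)) (move 398 (branch (move 430 (leaf 397 6)) (move 366 (leaf 365 6)))))))))) (branch (move 429 (branch (move 558 (leaf 429 4)) (move 428 (branch (move 396 (leaf 396 7)) (move 430 (branch (move 398 (leaf 397 6)) (move 557 (branch (move 462 (leaf 429 6)) (move 460 (leaf 428 7)))))))))) (branch (move 429 (branch (move 558 (leaf 429 4)) (move 428 (branch (move 396 (leaf 396 7)) (move 524 (branch (move 556 (leaf 428 5)) (move 492 (branch (move 397 (leaf 396 5)) (move 460 (branch (move 557 (leaf 428 4)) (move 491 (branch (move 490 (leaf 490 0)) (move 427 (branch (move 395 (leaf 395 7)) (move 462 (branch (move 463 (leaf 459 1)) (move 426 (leaf 426 0))))))))))))))))))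 (ref 3)))))) (branch (ref 4) (branch (move 494 (branch (move 462 (branch (move 430 (branch (move 557 (leaf 429 5)) (move 398 (leaf 397 5)))) (move 463 (branch (move 492 (branch (move 491 (leaf 459 2)) (move 464 (branch (move 495 (leaf 460 2)) (move 465 (leaf 461 1)))))) (move 558 (branch (move 431 (leaf 430 6)) (move 590 (branch (move 622 (leaf 493 7)) (move 591 (branch (move 623 (leaf 494 4)) (move 559 (leaf 462 4)))))))))))) (branch (ref 0) (branch (move 495 (branch (move 524 (branch (move 523 (leaf 491 2)) (move 496 (leaf 492 1)))) (move 492 (branch (move 463 (branch (move 464 (leaf 460 2)) (move 558 (branch (move 590 (leaf 462 6)) (move 431 (branch (move 462 (leaf 430 6)) (move 399 (leaf 398 5)))))))) (move 491 (branch (move 490 (leaf 490 0)) (move 459 (branch (move 458 (leaf 458 3)) (move 460 (leaf 459 3)))))))))) (move 558 (branch (move 462 (branch (move 559 (branch (move 591 (leaf 462 4)) (move 524 (branch (move 523 (leaf 523 0)) (move 560 (branch (move 557 (leaf 524 3)) (move 561 (leaf 525 3)))))))) (move 430 (branch (move 398 (leaf 397 5)) (move 431 (branch (move 463 (leaf 430 6)) (move 399 (leaf 398 6)))))))) (move 590 (branch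 (move 622 (leaf 493 7)) (move 461 (leaf 461 7)))))))))) (branch (ref 5) (branch (ref 6) (branch (move 462 (branch (move 494 (branch (move 430 (branch (move 557 (leaf 429 5)) (move 398 (leaf 397 5)))) (move 463 (branch (move 492 (branch (move 491 (leaf 459 2)) (move 464 (branch (move 495 (leaf 460 2)) (move 465 (leaf 461 1)))))) (move 558 (branch (move 431 (leaf 430 6)) (move 590 (branch (move 622 (leaf 493 7)) (move 591 (branch (move 623 (leaf 494 4)) (move 559 (leaf 462 4)))))))))))) (branch (move 430 (branch (move 461 (branch (move 557 (leaf 429 6)) (move 398 (branch (move 429 (leaf 397 6)) (move 366 (leaf 365 5)))))) (branch (move 494 (branch (move 557 (leaf 429 5)) (move 398 (leaf 397 5)))) (branch (move 398 (branch (move 494 (leaf 397 5)) (move 461 (branch (move 429 (leaf 397 6)) (move 366 (leaf 365 5)))))) (move 557 (branch (move 461 (leaf 429 6)) (move 494 (leaf 429 5)))))))) (branch (ref 7) (branch (ref 8) (move 461 (branch (move 430 (branch (move 557 (leaf 429 6)) (move 398 (branch (move 429 (leaf 397 6)) (move 366 (leaf 365 5)))))) (branch (move 429 (branch (move 558 (leaf 429 4)) (move 524 (branch (move 556 (leaf 428 5)) (move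 397 (branch (move 492 (leaf 396 5)) (move 396 (branch (move 428 (leaf 396 7)) (move 364 (leaf 364 7)))))))))) (move 557 (branch (move 430 (leaf 429 6)) (move 460 (branch (move 428 (leaf 428 7)) (move 558 (branch (move 590 (leaf 461 4)) (move 556 (branch (move 588 (leaf 460 5)) (move 555 (branch (move 554 (leaf 522 2)) (move 587 (branch (move 586 (leaf 554 1)) (move 492 (branch (move 524 (leaf 459 5)) (move 491 (branch (move 490 (leaf 490 0)) (move 463 (leaf 459 1)))))))))))))))))))))))))) (branch (ref 9) (branch (move 461 (branch (ref 2) (branch (move 429 (branch (move 558 (leaf 429 4)) (move 524 (branch (move 556 (leaf 428 5)) (move 397 (branch (move 492 (leaf 396 5)) (move 398 (branch (move 430 (leaf 397 6)) (move 366 (leaf 365 6)))))))))) (branch (move 429 (branch (move 558 (leaf 429 4)) (move 428 (branch (move 396 (leaf 396 7)) (move 430 (branch (move 398 (leaf 397 6)) (move 557 (branch (move 462 (leaf 429 6)) (move 460 (leaf 428 7)))))))))) (branch (move 429 (branch (move 558 (leaf 429 4)) (move 428 (branch (move 396 (leaf 396 7)) (move 524 (branch (move 556 (leaf 428 5)) (move 492 (branch (move 397 (leaf 396 5)) (move 460 (branch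 (move 557 (leaf 428 4)) (move 491 (branch (move 490 (leaf 490 0)) (move 427 (branch (move 395 (leaf 395 7)) (move 462 (branch (move 463 (leaf 459 1)) (move 426 (leaf 426 0)))))))))))))))))) (ref 10)))))) (branch (ref 11) (branch (ref 12) (branch (ref 13) (branch (ref 14) (branch (move 461 (branch (move 429 (branch (move 558 (leaf 429 4)) (move 524 (branch (move 556 (leaf 428 5)) (move 397 (branch (move 492 (leaf 396 5)) (move 398 (branch (move 430 (leaf 397 6)) (move 366 (leaf 365 6)))))))))) (branch (move 429 (branch (move 397 (branch (move 494 (leaf 397 4)) (move 396 (branch (move 428 (leaf 396 7)) (move 364 (leaf 364 7)))))) (branch (move 428 (branch (move 396 (leaf 396 7)) (move 430 (branch (move 398 (leaf 397 6)) (move 557 (branch (move 462 (leaf 429 6)) (move 460 (leaf 428 7)))))))) (move 397 (branch (move 494 (leaf 397 4)) (move 398 (branch (move 430 (leaf 397 6)) (move 366 (leaf 365 6))))))))) (branch (move 429 (branch (move 558 (leaf 429 4)) (move 397 (branch (move 494 (leaf 397 4)) (move 396 (branch (move 428 (leaf 396 7)) (move 364 (leaf 364 7)))))))) (ref 15))))) (branch (move 494 (branch (move 462 (branch (move 430 (branch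 (move 557 (leaf 429 5)) (move 398 (leaf 397 5)))) (move 463 (branch (move 492 (branch (move 491 (leaf 459 2)) (move 464 (branch (move 495 (leaf 460 2)) (move 465 (leaf 461 1)))))) (move 558 (branch (move 431 (leaf 430 6)) (move 590 (branch (move 622 (leaf 493 7)) (move 591 (branch (move 623 (leaf 494 4)) (move 559 (leaf 462 4)))))))))))) (branch (ref 16) (branch (move 558 (branch (move 462 (branch (move 559 (branch (move 591 (leaf 462 4)) (move 524 (branch (move 523 (leaf 523 0)) (move 560 (branch (move 557 (leaf 524 3)) (move 561 (leaf 525 3)))))))) (move 430 (branch (move 398 (leaf 397 5)) (move 431 (branch (move 463 (leaf 430 6)) (move 399 (leaf 398 6)))))))) (move 590 (branch (move 622 (leaf 493 7)) (move 461 (leaf 461 7)))))) (ref 17))))) (move 461 (branch (move 429 (branch (move 558 (leaf 429 4)) (move 524 (branch (move 556 (leaf 428 5)) (move 397 (branch (move 492 (leaf 396 5)) (move 398 (branch (move 430 (leaf 397 6)) (move 366 (leaf 365 6)))))))))) (branch (move 558 (branch (move 429 (leaf 429 4)) (move 590 (branch (move 622 (leaf 493 7)) (move 494 (leaf 461 7)))))) (branch (move 494 (branch (move 429 (branch (move 397 (leaf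 397 4)) (move 428 (branch (move 396 (leaf 396 7)) (move 460 (branch (move 557 (leaf 428 7)) (move 459 (branch (move 458 (leaf 458 0)) (move 430 (branch (move 431 (leaf 427 1)) (move 398 (leaf 397 6)))))))))))) (branch (move 460 (branch (move 495 (branch (move 496 (leaf 460 3)) (move 523 (branch (move 524 (leaf 491 2)) (move 428 (branch (move 557 (leaf 428 7)) (move 459 (branch (move 458 (leaf 458 0)) (move 491 (branch (move 555 (leaf 427 6)) (move 396 (branch (move 427 (leaf 395 6)) (move 364 (leaf 364 4)))))))))))))) (branch (move 428 (branch (move 557 (leaf 428 7)) (move 396 (branch (move 492 (leaf 396 4)) (move 364 (leaf 364 4)))))) (move 495 (branch (move 496 (leaf 460 3)) (move 459 (branch (move 492 (leaf 459 3)) (move 458 (leaf 458 0))))))))) (move 429 (branch (move 397 (leaf 397 4)) (move 524 (branch (move 556 (leaf 428 5)) (move 523 (branch (move 522 (leaf 490 2)) (move 495 (leaf 491 2))))))))))) (ref 18)))))))))))))))))))))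
theorem a6p111 : a6e111.Valid :=
  pos_of_chk [a6e83, a6e85, a6e86, a6e87, a6e90, a6e93, a6e96, a6e88, a6e89, a6e100, a6e101, a6e103, a6e104, a6e106, a6e107, a6e108, a6e98, a6e95, a6e110] (forall_cons a6p83 (forall_cons a6p85 (forall_cons a6p86 (forall_cons a6p87 (forall_cons a6p90 (forall_cons a6p93 (forall_cons a6p96 (forall_cons a6p88 (forall_cons a6p89 (forall_cons a6p100 (forall_cons a6p101 (forall_cons a6p103 (forall_cons a6p104 (forall_cons a6p106 (forall_cons a6p107 (forall_cons a6p108 (forall_cons a6p98 (forall_cons a6p95 (forall_cons a6p110 forall_nil))))))))))))))))))) a6c111 a6e111 (by decide +kernel)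

def a6e112 : Pos := ⟨411887859607836582898914047944883593036166118008598324563667807551132591003859363127353578439687273298637778683488851482227319279982998628754441697466903429120, 1519597987063531397482583574747522610354634189629737356586345828686976675592913677687972833725891041407014898485318591509970677381860682355451281634620335025846791308305194024960, 8⟩
def a6c112 : Cert := (move 491 (branch (move 490 (leaf 490 3)) (move 459 (branch (move 427 (branch (move 556 (leaf 427 4)) (move 395 (branch (move 492 (leaf 395 4)) (move 396 (branch (move 364 (leaf 363 6)) (move 428 (leaf 395 6)))))))) (branch (move 555 (branch (move 554 (leaf 522 1)) (move 460 (branch (move 428 (leaf 427 6)) (move 492 (branch (move 587 (leaf 459 6)) (move 494 (branch (move 495 (leaf 491 2)) (move 458 (branch (move 493 (leaf 458 3)) (move 426 (leaf 426 7)))))))))))) (move 555 (branch (move 554 (leaf 522 1)) (move 556 (branch (move 427 (leaf 427 4)) (move 588 (leaf 459 4)))))))))))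
theorem a6p112 : a6e112.Valid :=
  pos_of_chk [] forall_nil a6c112 a6e112 (by decide +kernel)

def a6e113 : Pos := ⟨411887859607836582898914047944883593036166118008598324563667807551132591003859363127353578439687273298637778683488851482227319279982998628754441697466903429120, 23359695969840033786236836069473635674668907037813661822746219054776858058326926445048232788724231919166677788721744681614502659251003896159400740430347569810530398286455683679180597287978318954496, 11⟩
def a6c113 : Cert := (move 491 (branch (move 490 (leaf 490 3)) (move 459 (branch (move 427 (branch (move 556 (leaf 427 4)) (move 395 (branch (move 492 (leaf 395 4)) (move 396 (branch (move 364 (leaf 363 6)) (move 428 (leaf 395 6)))))))) (branch (move 555 (branch (move 554 (leaf 522 1)) (move 556 (branch (move 427 (leaf 427 4)) (move 588 (leaf 459 4)))))) (branch (move 555 (branch (move 554 (leaf 522 1)) (move 460 (branch (move 428 (leaf 427 6)) (move 587 (branch (move 492 (leaf 459 6)) (move 426 (branch (move 458 (leaf 426 7)) (move 427 (branch (move 394 (leaf 394 7)) (move 620 (branch (move 588 (leaf 491 4)) (move 619 (branch (move 652 (leaf 523 4)) (move 618 (branch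 (move 586 (leaf 490 5)) (move 650 (leaf 522 5)))))))))))))))))) (move 555 (branch (move 554 (leaf 522 1)) (move 556 (branch (move 588 (leaf 459 4)) (move 460 (branch (move 428 (leaf 427 6)) (move 587 (branch (move 492 (leaf 459 5)) (move 558 (branch (move 559 (leaf 523 0)) (move 586 (branch (move 557 (leaf 554 1)) (move 618 (leaf 490 5))))))))))))))))))))
theorem a6p113 : a6e113.Valid :=
  pos_of_chk [] forall_nil a6c113 a6e113 (by decide +kernel)

def a6e114 : Pos := ⟨411887859607836582898914047944883593036166118008598324563667807551132591003859363127353578439687273298637778683488851482227319279982998628754441697466903429120, 186877567758720270289894688529548252912263976587714325397558448982869687086618220816528512696560006105486197844368064575648632151296028860335015008369322134569473153112500066525226828886485940305920, 11⟩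
def a6c114 : Cert := (move 494 (branch (move 495 (leaf 491 2)) (move 462 (branch (move 430 (branch (move 557 (leaf 429 5)) (move 398 (branch (move 493 (leaf 397 5)) (move 397 (branch (move 365 (leaf 365 7)) (move 429 (leaf 397 7)))))))) (branch (move 558 (branch (move 559 (leaf 523 0)) (move 461 (branch (move 429 (leaf 429 7)) (move 590 (branch (move 493 (leaf 461 7)) (move 491 (branch (move 490 (leaf 490 3)) (move 555 (branch (move 554 (leaf 522 1)) (move 623 (branch (move 591 (leaf 494 4)) (move 622 (branch (move 655 (leaf 526 4)) (move 621 (branch (move 589 (leaf 493 5)) (move 653 (leaf 525 5)))))))))))))))))) (move 558 (branch (move 559 (leaf 523 0)) (move 557 (branch (move 430 (leaf 429 5)) (move 589 (leaf 461 5)))))))))))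
theorem a6p114 : a6e114.Valid :=
  pos_of_chk [] forall_nil a6c114 a6e114 (by decide +kernel)

def a6e115 : Pos := ⟨411887859607836582898914047944883593036166118008598324563667807551132591003859363127353578439687273298637778683488851482227319279982998628754441697466903429120, 160526608435746337653505385829433795075622275293621740778900459274753019790441352240025338708185820241185502020501339619332337713702560075097902069081705136125925679640455021659634809353496126233858837315584, 8⟩
def a6c115 : Cert := (move 558 (branch (move 559 (leaf 523 0)) (move 590 (branch (move 622 (branch (move 493 (leaf 493 7)) (move 654 (branch (move 557 (leaf 525 7)) (move 653 (branch (move 621 (leaf 525 5)) (move 685 (leaf 557 5)))))))) (branch (move 494 (branch (move 495 (leaf 491 2)) (move 493 (branch (move 461 (leaf 461 7)) (move 622 (leaf 493 7)))))) (move 494 (branch (move 495 (leaf 491 2)) (move 589 (branch (move 621 (leaf 493 5)) (move 557 (branch (move 462 (leaf 461 5)) (move 591 (branch (move 623 (leaf 494 4)) (move 592 (branch (move 556 (leaf 556 3)) (move 593 (leaf 557 3)))))))))))))))))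
theorem a6p115 : a6e115.Valid :=
  pos_of_chk [] forall_nil a6c115 a6e115 (by decide +kernel)

def a6e116 : Pos := ⟨1013065324669708823118083041892616929415520017993522418302185286931166371076861745752609627469415681017976212257595516613224301977887961359694344494830177207001557067778079326208, 200658260451244138210908665185074396629590636168740478085941381747912846982306359729012036771440123752352261883639486636447883327578390166098154202343933717550063189963948658210959833744014533251179573411840, 8⟩
def a6c116 : Cert := (move 619 (branch (move 620 (branch (move 651 (leaf 523 5)) (move 621 (branch (move 653 (leaf 524 4)) (move 589 (branch (move 492 (leaf 492 4)) (move 590 (branch (move 591 (leaf 587 1)) (move 618 (leaf 586 2)))))))))) (branch (move 587 (branch (move 492 (leaf 491 5)) (move 651 (branch (move 555 (leaf 523 6)) (move 683 (leaf 555 6)))))) (branch (move 651 (branch (move 620 (leaf 523 5)) (move 587 (branch (move 555 (leaf 523 6)) (move 683 (leaf 555 6)))))) (move 589 (branch (move 587 (branch (move 492 (leaf 491 5)) (move 590 (branch (move 618 (leaf 586 1)) (move 591 (branch (move 620 (leaf 587 1)) (move 555 (leaf 555 3))))))))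 (branch (move 621 (branch (move 492 (leaf 492 4)) (move 653 (branch (move 620 (leaf 524 4)) (move 685 (leaf 556 7)))))) (branch (move 492 (branch (move 621 (leaf 492 4)) (move 587 (leaf 491 5)))) (move 590 (branch (move 587 (branch (move 618 (leaf 586 1)) (move 554 (branch (move 555 (leaf 554 3)) (move 586 (branch (move 553 (leaf 553 3)) (move 622 (branch (move 621 (leaf 586 0)) (move 623 (leaf 587 0)))))))))) (branch (move 591 (branch (move 620 (leaf 587 1)) (move 555 (leaf 555 3)))) (move 620 (branch (move 591 (leaf 587 1)) (move 618 (branch (move 587 (leaf 586 1)) (move 617 (leaf 585 2)))))))))))))))))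
theorem a6p116 : a6e116.Valid :=
  pos_of_chk [] forall_nil a6c116 a6e116 (by decide +kernel)

def a6e117 : Pos := ⟨1013065324669708823447593329578886195734651256349429292731118181338045030727795991793515700272503171519859075009345335252134524924679042545476199918816576110005110425751602069504, 10877706099852214290153995841164585205554582220049050965731093885257339387397874673678209380115827607464008291417974201303386013744289061373711885448337279017144140102036693696364134006784, 7⟩
def a6c117 : Cert := (move 492 (branch (move 587 (branch (move 619 (leaf 491 5)) (move 460 (branch (move 555 (leaf 459 5)) (move 459 (branch (move 427 (leaf 427 7)) (move 491 (leaf 459 7)))))))) (branch (move 589 (branch (move 621 (leaf 492 4)) (move 460 (branch (move 557 (leaf 460 4)) (move 459 (branch (move 427 (leaf 427 7)) (move 491 (leaf 459 7)))))))) (move 554 (branch (move 589 (branch (move 621 (leaf 492 4)) (move 587 (branch (move 619 (leaf 491 5)) (move 586 (branch (move 553 (leaf 553 3)) (move 557 (branch (move 585 (leaf 553 2)) (move 558 (leaf 554 2)))))))))) (branch (move 555 (branch (move 553 (leaf 521 2)) (move 557 (leaf 522 2)))) (branch (move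 555 (branch (move 553 (leaf 521 2)) (move 587 (branch (move 619 (leaf 491 5)) (move 589 (branch (move 590 (leaf 554 3)) (move 621 (leaf 492 4)))))))) (move 557 (branch (move 555 (leaf 522 2)) (move 589 (branch (move 621 (leaf 492 4)) (move 587 (branch (move 619 (leaf 491 5)) (move 558 (branch (move 559 (leaf 555 1)) (move 586 (leaf 554 2)))))))))))))))))
theorem a6p117 : a6e117.Valid :=
  pos_of_chk [] forall_nil a6c117 a6e117 (by decide +kernel)

def a6e118 : Pos := ⟨1013065324669708823227919804454706684855230430778824709778496251733459257627173161099578318403778177851937166508178789492861042960151655088288296302825643508002741520435920240640, 1206548932834481286228651088780608340519955297653782494912389932127351993506339327130474309751691871385651480329955429693258348449561257839648814036629630743562257184117306465896218534339809709978584010130860806242304, 7⟩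
def a6c118 : Cert := (move 620 (branch (move 619 (branch (move 651 (leaf 523 5)) (move 492 (branch (move 587 (leaf 491 5)) (move 459 (branch (move 491 (leaf 459 7)) (move 460 (branch (move 427 (leaf 427 7)) (move 557 (branch (move 428 (leaf 428 4)) (move 589 (leaf 460 4)))))))))))) (branch (move 652 (branch (move 557 (leaf 524 6)) (move 685 (branch (move 653 (leaf 556 4)) (move 684 (branch (move 717 (leaf 588 4)) (move 683 (branch (move 651 (leaf 555 5)) (move 715 (leaf 587 5)))))))))) (branch (move 652 (branch (move 557 (leaf 524 6)) (move 685 (branch (move 653 (leaf 556 4)) (move 684 (branch (move 717 (leaf 588 4)) (move 587 (branch (move 555 (leaf 555 7)) (move 619 (branch (move 492 (leaf 491 5)) (move 716 (leaf 587 7)))))))))))) (move 652 (branch (move 685 (branch (move 653 (leaf 556 4)) (move 684 (branch (move 717 (leaf 588 4)) (move 587 (branch (move 555 (leaf 555 7)) (move 619 (branch (move 492 (leaf 491 5)) (move 716 (leaf 587 7)))))))))) (branch (move 685 (branch (move 653 (leaf 556 4)) (move 684 (branch (move 717 (leaf 588 4)) (move 683 (branch (move 651 (leaf 555 5)) (move 715 (leaf 587 5)))))))) (move 651 (branch (move 619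 (leaf 523 5)) (move 683 (leaf 555 5)))))))))))
theorem a6p118 : a6e118.Valid :=
  pos_of_chk [] forall_nil a6c118 a6e118 (by decide +kernel)

def a6e119 : Pos := ⟨1013065324669708823447593329578886195734651256349429292731118181338045030727795991793515700272503171519859075009345335252134524924679042545476199918816576110005110425751602069504, 40131652146312097954025140296236067593855100606467635300349372130315198273279314346543508897716365575723654692325912811290226589099782993173972080071966224537484021646854036271237253722543649748585744957440, 6⟩
def a6c119 : Cert := (move 620 (branch (move 652 (branch (move 557 (leaf 524 6)) (move 651 (branch (move 619 (leaf 523 5)) (move 683 (leaf 555 5)))))) (branch (move 621 (branch (move 653 (leaf 524 4)) (move 589 (branch (move 492 (leaf 492 4)) (move 619 (branch (move 651 (leaf 523 5)) (move 590 (branch (move 591 (leaf 587 1)) (move 618 (leaf 586 2)))))))))) (move 557 (branch (move 652 (leaf 524 6)) (move 621 (branch (move 653 (leaf 524 4)) (move 589 (branch (move 492 (leaf 492 4)) (move 494 (leaf 493 6)))))))))))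
theorem a6p119 : a6e119.Valid :=
  pos_of_chk [] forall_nil a6c119 a6e119 (by decide +kernel)

def a6e120 : Pos := ⟨1013065324669708823447593329578886195734651256349429292731118181338045030727795991793515700272503171519859075009345335252134524924679042545476199918816576110005110425751602069504, 160526608603936148585881072774918609835780535184752921543178259203645906920638941195388304900499649364772593796033593001151491880747679990688745047539999009584796249958072329782093758151706093962277553176576, 10⟩
def a6c120 : Cert := (move 621 (branch (move 589 (branch (move 492 (leaf 492 4)) (move 653 (branch (move 620 (leaf 524 4)) (move 685 (leaf 556 7)))))) (branch (move 589 (branch (move 492 (leaf 492 4)) (move 557 (branch (move 494 (leaf 493 6)) (move 620 (branch (move 652 (leaf 524 5)) (move 555 (branch (move 554 (leaf 522 2)) (move 590 (branch (move 591 (leaf 555 3)) (move 622 (branch (move 654 (leaf 525 4)) (move 587 (branch (move 586 (leaf 586 0)) (move 623 (leaf 587 0)))))))))))))))) (branch (move 653 (branch (move 620 (leaf 524 4)) (move 589 (branch (move 557 (leaf 524 7)) (move 685 (leaf 556 7)))))) (branch (move 589 (branch (move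 492 (leaf 492 4)) (move 557 (branch (move 494 (leaf 493 6)) (move 653 (leaf 524 7)))))) (move 557 (branch (move 620 (branch (move 653 (leaf 524 4)) (move 652 (leaf 524 6)))) (branch (move 558 (branch (move 555 (branch (move 554 (leaf 522 2)) (move 590 (branch (move 591 (leaf 555 0)) (move 622 (branch (move 653 (leaf 525 5)) (move 654 (leaf 525 7)))))))) (move 559 (branch (move 587 (leaf 555 1)) (move 560 (leaf 524 3)))))) (move 558 (branch (move 559 (branch (move 560 (leaf 524 3)) (move 591 (branch (move 592 (leaf 556 0)) (move 494 (branch (move 462 (leaf 462 4)) (move 623 (branch (move 590 (leaf 494 4)) (move 655 (leaf 526 7)))))))))) (branch (move 559 (branch (move 587 (leaf 555 1)) (move 560 (leaf 524 3)))) (move 555 (branch (move 554 (leaf 522 2)) (move 587 (branch (move 586 (leaf 554 1)) (move 492 (branch (move 460 (leaf 459 5)) (move 620 (branch (move 652 (leaf 524 6)) (move 622 (branch (move 623 (leaf 587 3)) (move 590 (branch (move 591 (leaf 555 0)) (move 654 (leaf 525 7)))))))))))))))))))))))))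
theorem a6p120 : a6e120.Valid :=
  pos_of_chk [] forall_nil a6c120 a6e120 (by decide +kernel)

def a6e121 : Pos := ⟨1013065324669708823227919804454706684855230430778824709778496251733459257627173161099578318403778177851937166508178789492861042960151655088288296302825643508002741520435920240640, 1206548932834481286228651088806714835141238802936368150662150165317942989390949053110742740555052656702935586900587368606887461233775924286785482295905476800993423105699256776534978830615969405121506977617137209704448, 7⟩
def a6c121 : Cert := (move 620 (branch (move 652 (branch (move 557 (leaf 524 6)) (move 651 (branch (move 619 (leaf 523 5)) (move 683 (leaf 555 5)))))) (branch (move 652 (branch (move 557 (leaf 524 6)) (move 685 (branch (move 653 (leaf 556 4)) (move 684 (branch (move 717 (leaf 588 4)) (move 683 (branch (move 651 (leaf 555 5)) (move 715 (leaf 587 5)))))))))) (branch (move 652 (branch (move 557 (leaf 524 6)) (move 685 (branch (move 653 (leaf 556 4)) (move 684 (branch (move 717 (leaf 588 4)) (move 587 (branch (move 555 (leaf 555 7)) (move 619 (branch (move 492 (leaf 491 5)) (move 716 (leaf 587 7)))))))))))) (move 619 (branch (move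 651 (leaf 523 5)) (move 621 (branch (move 653 (leaf 524 4)) (move 587 (branch (move 492 (leaf 491 5)) (move 586 (branch (move 585 (leaf 585 0)) (move 622 (leaf 586 3))))))))))))))
theorem a6p121 : a6e121.Valid :=
  pos_of_chk [] forall_nil a6c121 a6e121 (by decide +kernel)

def a6e122 : Pos := ⟨1013065324669708823447593329578886195734651256349429292731118181338045030727795991793515700272503171519859075009345335252134524924679042545476199918816576110005110425751602069504, 2175541219084010698567407705570493827895749493801028763852614898742231533308478159501379815056599610885038948639370330222337241742966482190446891222445610562710537253732150389524083507200, 5⟩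
def a6c122 : Cert := (move 492 (branch (move 587 (branch (move 619 (leaf 491 5)) (move 460 (branch (move 555 (leaf 459 5)) (move 459 (branch (move 427 (leaf 427 7)) (move 491 (leaf 459 7)))))))) (branch (move 461 (branch (move 493 (leaf 460 6)) (move 460 (branch (move 429 (leaf 428 6)) (move 587 (branch (move 555 (leaf 459 5)) (move 619 (leaf 491 5)))))))) (move 493 (branch (move 461 (leaf 460 6)) (move 491 (branch (move 490 (leaf 490 0)) (move 459 (leaf 459 7)))))))))
theorem a6p122 : a6e122.Valid :=
  pos_of_chk [] forall_nil a6c122 a6e122 (by decide +kernel)

def a6e123 : Pos := ⟨7091457271036853200582728282675324232687286041429945874016015944295549238254481695507311851227960585941744435126734747137882338263643170692189483359081480910504949371047501627392, 138690752806641862748626247262015493619998848964344997073686663094364718175207507816844288978751142130192605416348736751308536549143513604319611801347485663594786990462387915721794211807232, 8⟩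
def a6c123 : Cert := (move 619 (branch (move 620 (branch (move 591 (leaf 587 1)) (move 618 (branch (move 617 (leaf 585 2)) (move 621 (leaf 586 2)))))) (branch (move 587 (branch (move 618 (leaf 586 1)) (move 554 (branch (move 555 (leaf 554 3)) (move 586 (branch (move 553 (leaf 553 3)) (move 622 (branch (move 621 (leaf 586 0)) (move 623 (leaf 587 0)))))))))) (branch (move 591 (branch (move 620 (leaf 587 1)) (move 623 (branch (move 624 (leaf 588 0)) (move 560 (branch (move 559 (leaf 556 2)) (move 592 (branch (move 561 (leaf 557 2)) (move 622 (branch (move 587 (leaf 587 0)) (move 593 (branch (move 621 (leaf 589 1)) (move 594 (leaf 590 1)))))))))))))) (move 587 (branch (move 618 (leaf 586 1)) (move 591 (branch (move 620 (leaf 587 1)) (move 623 (branch (move 622 (leaf 587 0)) (move 624 (leaf 588 0))))))))))))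
theorem a6p123 : a6e123.Valid :=
  pos_of_chk [] forall_nil a6c123 a6e123 (by decide +kernel)

def a6e124 : Pos := ⟨7091457271036853200912238570361593499006417279785852748444948838702427897905415941548217924031048076443627297878484565776792561210434251877971338783067879813508502729021024370688, 149502054288776566047187115951615467391968245553312856150005429092040071092566505888601737829027362055207973155846235967852510097141931021330430458057788638502415867304837302915789884882155940610048, 5⟩
def a6c124 : Cert := (move 558 (branch (move 494 (branch (move 621 (leaf 493 5)) (move 591 (branch (move 623 (leaf 494 4)) (move 559 (branch (move 560 (leaf 556 2)) (move 462 (leaf 462 4)))))))) (branch (move 622 (branch (move 493 (leaf 493 7)) (move 623 (branch (move 655 (leaf 526 4)) (move 624 (branch (move 591 (leaf 588 0)) (move 621 (leaf 588 3)))))))) (move 493 (branch (move 622 (leaf 493 7)) (move 461 (branch (move 429 (leaf 429 4)) (move 494 (leaf 461 7)))))))))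
theorem a6p124 : a6e124.Valid :=
  pos_of_chk [] forall_nil a6c124 a6e124 (by decide +kernel)

def a6e125 : Pos := ⟨7091457271036853200967156951642638376726272486178503894183104321103574341180571649221702269498229324860607775003776202216610931701566098742268314687065612964009094955349944827904, 160526608360995310578190536437677174929161975601493696602789495249191237419303278618629127943520865944124760517297746262697178252255646209381615336789977051245091952759938344424253600982104508274896894164992, 9⟩
def a6c125 : Cert := (move 558 (branch (move 621 (branch (move 494 (leaf 493 5)) (move 653 (branch (move 622 (leaf 525 5)) (move 685 (leaf 557 6)))))) (branch (move 587 (branch (move 559 (leaf 555 2)) (move 494 (branch (move 621 (leaf 493 5)) (move 493 (branch (move 461 (leaf 461 7)) (move 495 (branch (move 496 (leaf 492 1)) (move 618 (branch (move 619 (leaf 586 1)) (move 586 (branch (move 617 (leaf 585 1)) (move 554 (branch (move 553 (leaf 553 3)) (move 555 (leaf 554 3)))))))))))))))) (move 622 (branch (move 493 (leaf 493 7)) (move 587 (branch (move 623 (leaf 587 0)) (move 559 (leaf 555 2)))))))))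
theorem a6p125 : a6e125.Valid :=
  pos_of_chk [] forall_nil a6c125 a6e125 (by decide +kernel)

def a6e126 : Pos := ⟨7091457271036853200912238570361593499006417279785852748444948838702427897905415941548217924031048076443627297878484565776792561210434251877971338783067879813508502729021024370688, 149502054287688795438404909595716108830704698967590086890080508190628032122381320415616528886624884454480090549070124441779997700046532368638132995046843865805767897779707948621749179325856274710528, 6⟩
def a6c126 : Cert := (move 619 (branch (move 587 (branch (move 618 (leaf 586 1)) (move 591 (branch (move 620 (leaf 587 1)) (move 623 (branch (move 622 (leaf 587 0)) (move 624 (leaf 588 0)))))))) (branch (move 591 (branch (move 620 (leaf 587 1)) (move 623 (branch (move 624 (leaf 588 0)) (move 558 (branch (move 494 (leaf 494 4)) (move 655 (branch (move 622 (leaf 526 4)) (move 559 (leaf 526 7)))))))))) (branch (move 587 (branch (move 618 (leaf 586 1)) (move 558 (branch (move 559 (leaf 555 2)) (move 493 (branch (move 622 (leaf 493 7)) (move 461 (branch (move 429 (leaf 429 4)) (move 494 (leaf 461 7)))))))))) (move 587 (branch (move 618 (leaf 586 1))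 (move 591 (branch (move 620 (leaf 587 1)) (move 559 (branch (move 558 (leaf 555 2)) (move 560 (leaf 556 2))))))))))))
theorem a6p126 : a6e126.Valid :=
  pos_of_chk [] forall_nil a6c126 a6e126 (by decide +kernel)

def a6e127 : Pos := ⟨7091457271036853200802401807799503743566706867000550456968637873900135011355104526201249233096685579609666343627901292897155820228170558149377386975072413512507318276363183456256, 149502054296934845617612457575358364306123143427980567386603904158569939911861903512035185562191352238141896368999367813778905311001089823606749154757206789185332841392614816094997544441168621731840, 6⟩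
def a6c127 : Cert := (move 619 (branch (move 620 (branch (move 591 (leaf 587 1)) (move 618 (branch (move 617 (leaf 585 2)) (move 621 (leaf 586 2)))))) (branch (move 587 (branch (move 618 (leaf 586 1)) (move 554 (branch (move 555 (leaf 554 3)) (move 586 (branch (move 553 (leaf 553 3)) (move 622 (branch (move 621 (leaf 586 0)) (move 623 (leaf 587 0)))))))))) (move 591 (branch (move 620 (leaf 587 1)) (move 623 (branch (move 624 (leaf 588 0)) (move 558 (branch (move 494 (leaf 494 4)) (move 622 (branch (move 587 (leaf 587 0)) (move 655 (leaf 526 4)))))))))))))
theorem a6p127 : a6e127.Valid :=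
  pos_of_chk [] forall_nil a6c127 a6e127 (by decide +kernel)

def a6e128 : Pos := ⟨7091457271036853200802401807799503743566706867000550456968637873900135011355104526201249233096685579609666343627901292897155820228170558149377386975072413512507318276363183456256, 258889405035539986766907262436107714563337097874376065580053097625286022674330649022474344669978148755047450381353421511061933365130826652589672393352997311561153791175237735447915229347840, 5⟩
def a6c128 : Cert := (move 591 (branch (move 620 (branch (move 619 (leaf 587 1)) (move 592 (branch (move 621 (leaf 588 1)) (move 624 (branch (move 623 (leaf 588 0)) (move 625 (leaf 589 0)))))))) (branch (move 559 (branch (move 560 (leaf 556 2)) (move 558 (branch (move 587 (leaf 555 2)) (move 494 (branch (move 462 (leaf 462 4)) (move 621 (leaf 493 5)))))))) (move 559 (branch (move 560 (leaf 556 2)) (move 558 (branch (move 587 (leaf 555 2)) (move 623 (branch (move 624 (leaf 588 0)) (move 494 (leaf 494 4)))))))))))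
theorem a6p128 : a6e128.Valid :=
  pos_of_chk [] forall_nil a6c128 a6e128 (by decide +kernel)

end Crest.Agent.SN
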