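import Crest.Agent.Lib_SN_A6x0

set_option autoImplicit false
set_option linter.all false
set_option maxRecDepth 1000000

namespace Crest.Agent.SN
open Cert

def a6e129 : Pos := ⟨3039195973773253817747984409881708749214938041905608532892372851618839776190078019434835233685682874313344486676153139960431795136296375675415758040957708829789535474277230313472, 40131652164999854837749623233740995029025955178366317141705785676911103681949499633794537333471750380431177029744843862788766305594803355641817574914523238837175294151491326294160519083044016936001577418752, 10⟩
def a6c129 : Cert := (move 587 (branch (move 590 (branch (move 619 (branch (move 618 (leaf 586 1)) (move 591 (branch (move 620 (leaf 587 1)) (move 623 (branch (move 622 (leaf 587 0)) (move 624 (leaf 588 0)))))))) (branch (move 558 (branch (move 559 (leaf 555 2)) (move 622 (branch (move 623 (leaf 587 0)) (move 654 (leaf 525 7)))))) (move 559 (branch (move 558 (leaf 555 2)) (move 591 (branch (move 560 (leaf 556 2)) (move 619 (branch (move 618 (leaf 586 1)) (move 620 (leaf 587 1))))))))))) (branch (move 586 (branch (move 558 (leaf 554 2)) (move 617 (branch (move 618 (leaf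 585 1)) (move 585 (branch (move 616 (leaf 584 1)) (move 553 (branch (move 552 (leaf 552 3)) (move 554 (leaf 553 3)))))))))) (branch (move 558 (branch (move 586 (leaf 554 2)) (move 559 (branch (move 560 (leaf 556 1)) (move 590 (leaf 555 2)))))) (move 554 (branch (move 590 (branch (move 555 (leaf 554 3)) (move 619 (branch (move 618 (leaf 586 1)) (move 591 (branch (move 620 (leaf 587 1)) (move 623 (branch (move 622 (leaf 587 0)) (move 624 (leaf 588 0)))))))))) (branch (move 586 (branch (move 553 (leaf 553 3)) (move 618 (branch (move 617 (leaf 585 1)) (move 619 (branch (move 590 (leaf 586 1)) (move 651 (branch (move 522 (leaf 522 4)) (move 683 (leaf 554 7)))))))))) (branch (move 555 (branch (move 590 (leaf 554 3)) (move 553 (branch (move 552 (leaf 552 0)) (move 586 (leaf 553 3)))))) (move 586 (branch (move 553 (leaf 553 3)) (move 619 (branch (move 651 (branch (move 683 (leaf 554 7)) (move 522 (branch (move 490 (leaf 490 4)) (move 555 (leaf 522 7)))))) (branch (move 617 (branch (move 618 (leaf 585 1)) (move 585 (branch (move 616 (leaf 584 1)) (move 584 (branch (move 620 (leaf 584 0)) (move 583 (branch (move 555 (leaf 551 2)) (move 551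 (branch (move 550 (leaf 550 3)) (move 552 (leaf 551 3)))))))))))) (move 618 (branch (move 617 (leaf 585 1)) (move 651 (branch (move 522 (leaf 522 4)) (move 683 (leaf 554 7)))))))))))))))))))
theorem a6p129 : a6e129.Valid :=
  pos_of_chk [] forall_nil a6c129 a6e129 (by decide +kernel)

def a6e130 : Pos := ⟨3039195973773253817967657935005888260094358867476213115844994781223425549290700850128772615554407867981266395177319685719705277100823763132603661656948641431791904379592912142336, 74751027343994189885568624987917081398105467521523652979751769698041668501051007435064445344073746857820438642703013574682505984075567113715520454458738762967484522160417396601860712887721595502592, 8⟩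
def a6c130 : Cert := (move 590 (branch (move 493 (branch (move 622 (leaf 493 4)) (move 460 (branch (move 492 (leaf 460 7)) (move 461 (branch (move 428 (leaf 428 7)) (move 462 (branch (move 430 (leaf 429 6)) (move 494 (leaf 461 6)))))))))) (branch (move 587 (branch (move 558 (branch (move 559 (leaf 555 2)) (move 622 (branch (move 623 (leaf 587 0)) (move 654 (leaf 525 7)))))) (move 554 (branch (move 555 (leaf 554 3)) (move 586 (branch (move 553 (leaf 553 3)) (move 618 (branch (move 617 (leaf 585 1)) (move 619 (leaf 586 1)))))))))) (move 587 (branch (move 554 (branch (move 555 (leaf 554 3)) (move 586 (branch (move 553 (leaf 553 3)) (move 618 (branch (move 617 (leaf 585 1)) (move 619 (leaf 586 1)))))))) (move 591 (branch (move 560 (branch (move 559 (leaf 556 2)) (move 592 (branch (move 561 (leaf 557 2)) (move 624 (branch (move 623 (leaf 588 0)) (move 625 (leaf 589 0)))))))) (branch (move 558 (branch (move 559 (leaf 555 2)) (move 494 (branch (move 623 (leaf 494 4)) (move 462 (leaf 461 5)))))) (branch (move 559 (branch (move 558 (leaf 555 2)) (move 560 (leaf 556 2)))) (move 624 (branch (move 623 (leaf 588 0)) (move 592 (branch (move 625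 (leaf 589 0)) (move 593 (branch (move 558 (leaf 557 3)) (move 561 (branch (move 560 (leaf 557 2)) (move 562 (leaf 558 2)))))))))))))))))))
theorem a6p130 : a6e130.Valid :=
  pos_of_chk [] forall_nil a6c130 a6e130 (by decide +kernel)

def a6e131 : Pos := ⟨1013065324433836171896246995063789034422884450667121716455090654564532136962444481644006397017120251196255402038003561812711784618443381006105900379281486469290566923023514861568, 200658260694184976427179215936724502928829239564734136372724421022220818017836906294987470542963890277460450666268261048281660797110277076229674138271796816020335734812672236591671274154607667834575269134336, 12⟩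
def a6c131 : Cert := (move 589 (branch (move 590 (branch (ref 0) (branch (ref 1) (branch (ref 2) (branch (move 558 (branch (move 559 (branch (move 587 (leaf 555 2)) (move 560 (branch (move 561 (leaf 557 1)) (move 591 (leaf 556 2)))))) (move 621 (branch (move 494 (leaf 493 5)) (move 653 (branch (move 622 (leaf 525 5)) (move 685 (leaf 557 6)))))))) (branch (ref 3) (branch (ref 4) (ref 5)))))))) (branch (move 557 (branch (move 621 (branch (move 494 (leaf 493 6)) (move 492 (leaf 492 7)))) (ref 6))) (branch (move 557 (branch (move 493 (branch (move 620 (leaf 492 5)) (move 460 (branch (move 492 (leaf 460 7)) (move 461 (branch (move 428 (leaf 428 7)) (move 462 (branch (move 430 (leaf 429 6)) (move 494 (leaf 461 6)))))))))) (branch (move 621 (branch (move 494 (leaf 493 6)) (move 492 (leaf 492 7)))) (branch (move 621 (branch (move 494 (leaf 493 6)) (move 620 (branch (move 493 (leaf 492 5)) (move 652 (leaf 524 5)))))) (move 621 (branch (move 492 (leaf 492 7)) (move 620 (branch (move 493 (leaf 492 5)) (move 652 (leaf 524 5)))))))))) (branch (move 557 (branch (move 621 (branch (move 492 (leaf 492 7)) (move 620 (branch (move 493 (leaf 492 5))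 (move 652 (leaf 524 5)))))) (branch (ref 6) (move 621 (branch (move 492 (leaf 492 7)) (move 558 (branch (move 653 (leaf 525 6)) (move 559 (branch (move 560 (leaf 556 1)) (move 587 (branch (move 586 (leaf 554 2)) (move 590 (leaf 555 2))))))))))))) (branch (move 557 (branch (move 493 (branch (move 620 (leaf 492 5)) (move 460 (branch (move 492 (leaf 460 7)) (move 461 (branch (move 428 (leaf 428 7)) (move 462 (branch (move 430 (leaf 429 6)) (move 494 (leaf 461 6)))))))))) (branch (ref 6) (ref 7)))) (move 557 (branch (move 621 (branch (move 494 (leaf 493 6)) (move 492 (leaf 492 7)))) (branch (move 621 (branch (move 492 (leaf 492 7)) (move 558 (branch (move 653 (leaf 525 6)) (move 559 (branch (move 560 (leaf 556 1)) (move 587 (branch (move 586 (leaf 554 2)) (move 590 (leaf 555 2)))))))))) (branch (move 494 (branch (move 621 (leaf 493 6)) (move 462 (branch (move 430 (leaf 429 5)) (move 558 (leaf 461 5)))))) (ref 7)))))))))))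
theorem a6p131 : a6e131.Valid :=
  pos_of_chk [a6e123, a6e124, a6e125, a6e126, a6e127, a6e128, a6e129, a6e130] (forall_cons a6p123 (forall_cons a6p124 (forall_cons a6p125 (forall_cons a6p126 (forall_cons a6p127 (forall_cons a6p128 (forall_cons a6p129 (forall_cons a6p130 forall_nil)))))))) a6c131 a6e131 (by decide +kernel)

def a6e132 : Pos := ⟨5065326622169180857943520299449688595958476474341376501607099765590560273107862593362470312004526300305823650681851988748644549340525192830214176584470904132436252277907801505792, 4826195731337925144914604355233385964243988148328413872356159226659401972661479417272511549994689429657203269286053585985594134696960157802499710206406836556182141096606010407933024845234224297081560206189539119595520, 8⟩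
def a6c132 : Cert := (move 558 (branch (move 622 (branch (move 623 (branch (move 655 (leaf 526 4)) (move 621 (branch (move 653 (leaf 525 5)) (move 591 (branch (move 494 (leaf 494 4)) (move 620 (branch (move 619 (leaf 587 2)) (move 592 (leaf 588 2)))))))))) (branch (move 654 (branch (move 557 (leaf 525 7)) (move 653 (branch (move 621 (leaf 525 5)) (move 685 (leaf 557 5)))))) (move 654 (branch (move 557 (leaf 525 7)) (move 655 (branch (move 623 (leaf 526 4)) (move 687 (leaf 558 4))))))))) (branch (move 589 (branch (move 559 (branch (move 587 (leaf 555 2)) (move 560 (branch (move 561 (leaf 557 1)) (move 591 (leaf 556 2)))))) (move 621 (branch (move 494 (leaf 493 5)) (move 653 (branch (move 622 (leaf 525 5)) (move 685 (leaf 557 6)))))))) (branch (move 622 (branch (move 654 (branch (move 557 (leaf 525 7)) (move 685 (branch (move 653 (leaf 557 5)) (move 686 (branch (move 717 (leaf 589 5)) (move 687 (branch (move 655 (leaf 558 4)) (move 719 (leaf 590 4)))))))))) (branch (move 623 (branch (move 655 (leaf 526 4)) (move 589 (branch (move 587 (leaf 587 0)) (move 591 (branch (move 624 (leaf 588 0)) (move 494 (leaf 494 4)))))))) (move 654 (branch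 (move 557 (leaf 525 7)) (move 685 (branch (move 653 (leaf 557 5)) (move 686 (branch (move 717 (leaf 589 5)) (move 591 (branch (move 559 (leaf 558 6)) (move 623 (branch (move 494 (leaf 494 4)) (move 718 (leaf 590 6))))))))))))))) (branch (move 622 (branch (move 654 (branch (move 557 (leaf 525 7)) (move 653 (branch (move 621 (leaf 525 5)) (move 685 (leaf 557 5)))))) (branch (move 654 (branch (move 557 (leaf 525 7)) (move 655 (branch (move 623 (leaf 526 4)) (move 687 (leaf 558 4)))))) (move 623 (branch (move 655 (leaf 526 4)) (move 589 (branch (move 587 (leaf 587 0)) (move 621 (branch (move 624 (leaf 588 3)) (move 653 (leaf 525 5))))))))))) (branch (move 622 (branch (move 654 (branch (move 557 (leaf 525 7)) (move 655 (branch (move 623 (leaf 526 4)) (move 687 (leaf 558 4)))))) (branch (move 623 (branch (move 655 (leaf 526 4)) (move 589 (branch (move 587 (leaf 587 0)) (move 591 (branch (move 624 (leaf 588 0)) (move 494 (leaf 494 4)))))))) (move 557 (branch (move 654 (leaf 525 7)) (move 559 (branch (move 560 (leaf 524 3)) (move 589 (branch (move 587 (leaf 555 2)) (move 494 (branch (move 462 (leaf 461 5)) (move 621 (leaf 493 5)))))))))))))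 (move 589 (branch (move 559 (branch (move 587 (leaf 555 2)) (move 560 (branch (move 561 (leaf 557 1)) (move 591 (leaf 556 2)))))) (move 621 (branch (move 494 (leaf 493 5)) (move 653 (branch (move 557 (leaf 525 6)) (move 685 (leaf 557 6))))))))))))))
theorem a6p132 : a6e132.Valid :=
  pos_of_chk [] forall_nil a6c132 a6e132 (by decide +kernel)

def a6e133 : Pos := ⟨1013065324433836171896246995063789034422884450667121716455090654564532136962444481644006397017120251196255402038003561812711784618443381006105900379281486469290566923023514861568, 4826195731378056797023540939772399816160053239935074748224279629596926502048765115112108020574519309054464926356819860127672075757571041134487399731278377016863653448496765269294946375487499931386472719763518179508224, 11⟩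
def a6c133 : Cert := (move 590 (branch (move 620 (branch (move 589 (branch (move 619 (branch (move 591 (leaf 587 1)) (move 618 (branch (move 587 (leaf 586 1)) (move 617 (leaf 585 2)))))) (move 557 (branch (move 493 (leaf 492 5)) (move 621 (branch (move 652 (leaf 524 5)) (move 494 (leaf 493 6)))))))) (branch (move 556 (branch (move 493 (leaf 492 6)) (move 619 (branch (move 651 (leaf 523 5)) (move 589 (branch (move 591 (leaf 587 1)) (move 618 (branch (move 587 (leaf 586 1)) (move 617 (leaf 585 2)))))))))) (branch (move 556 (branch (move 493 (leaf 492 6)) (move 652 (branch (move 557 (leaf 524 6)) (move 653 (branch (move 621 (leaf 524 4)) (move 685 (leaf 556 4)))))))) (move 556 (branch (move 619 (branch (move 651 (leaf 523 5)) (move 589 (branch (move 591 (leaf 587 1)) (move 621 (branch (move 618 (leaf 586 2)) (move 653 (leaf 524 4)))))))) (branch (move 652 (branch (move 557 (leaf 524 6)) (move 653 (branch (move 621 (leaf 524 4)) (move 685 (leaf 556 4)))))) (move 652 (branch (move 557 (leaf 524 6)) (move 651 (branch (move 619 (leaf 523 5)) (move 683 (leaf 555 5))))))))))))) (branch (ref 0) (branch (move 589 (branch (ref 1) (branch (ref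 2) (branch (ref 3) (branch (move 558 (branch (move 559 (branch (move 587 (leaf 555 2)) (move 560 (branch (move 561 (leaf 557 1)) (move 591 (leaf 556 2)))))) (move 621 (branch (move 494 (leaf 493 5)) (move 653 (branch (move 622 (leaf 525 5)) (move 685 (leaf 557 6)))))))) (branch (ref 4) (branch (ref 5) (ref 6)))))))) (branch (move 558 (branch (move 493 (branch (move 622 (leaf 493 7)) (move 461 (branch (move 429 (leaf 429 4)) (move 557 (leaf 461 4)))))) (branch (move 589 (branch (move 559 (branch (move 587 (leaf 555 2)) (move 560 (branch (move 561 (leaf 557 1)) (move 591 (leaf 556 2)))))) (move 621 (branch (move 494 (leaf 493 5)) (move 653 (branch (move 622 (leaf 525 5)) (move 685 (leaf 557 6)))))))) (move 589 (branch (move 559 (branch (move 587 (leaf 555 2)) (move 560 (branch (move 561 (leaf 557 1)) (move 591 (leaf 556 2)))))) (move 621 (branch (move 494 (leaf 493 5)) (move 653 (branch (move 557 (leaf 525 6)) (move 685 (leaf 557 6))))))))))) (branch (move 620 (branch (move 556 (branch (move 493 (leaf 492 6)) (move 619 (branch (move 651 (leaf 523 5)) (move 589 (branch (move 591 (leaf 587 1)) (move 618 (branch (move 587 (leaf 586 1))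 (move 617 (leaf 585 2)))))))))) (branch (move 556 (branch (move 493 (leaf 492 6)) (move 652 (branch (move 557 (leaf 524 6)) (move 653 (branch (move 621 (leaf 524 4)) (move 685 (leaf 556 4)))))))) (branch (move 556 (branch (move 619 (branch (move 651 (leaf 523 5)) (move 589 (branch (move 591 (leaf 587 1)) (move 621 (branch (move 618 (leaf 586 2)) (move 653 (leaf 524 4)))))))) (branch (move 652 (branch (move 557 (leaf 524 6)) (move 653 (branch (move 621 (leaf 524 4)) (move 685 (leaf 556 4)))))) (move 652 (branch (move 557 (leaf 524 6)) (move 651 (branch (move 619 (leaf 523 5)) (move 683 (leaf 555 5))))))))) (move 589 (branch (move 557 (branch (move 493 (leaf 492 5)) (move 591 (branch (move 619 (leaf 587 1)) (move 624 (branch (move 623 (leaf 588 0)) (move 592 (branch (move 625 (leaf 589 0)) (move 560 (branch (move 559 (leaf 556 2)) (move 561 (leaf 557 2)))))))))))) (branch (move 619 (branch (move 591 (leaf 587 1)) (move 618 (branch (move 587 (leaf 586 1)) (move 617 (leaf 585 2)))))) (move 557 (branch (move 493 (leaf 492 5)) (move 621 (branch (move 652 (leaf 524 5)) (move 622 (branch (move 654 (leaf 525 4)) (move 587 (branch (move 586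 (leaf 586 0)) (move 623 (leaf 587 0))))))))))))))))) (branch (move 493 (branch (move 558 (branch (move 622 (leaf 493 7)) (move 461 (branch (move 429 (leaf 429 4)) (move 494 (leaf 461 7)))))) (branch (move 556 (branch (move 620 (leaf 492 6)) (move 461 (branch (move 429 (leaf 428 5)) (move 557 (leaf 460 5)))))) (move 622 (branch (move 558 (leaf 493 7)) (move 589 (branch (move 557 (leaf 493 4)) (move 587 (branch (move 623 (leaf 587 0)) (move 586 (branch (move 621 (leaf 586 0)) (move 554 (branch (move 553 (leaf 553 3)) (move 555 (leaf 554 3))))))))))))))) (branch (move 493 (branch (move 558 (branch (move 622 (leaf 493 7)) (move 461 (branch (move 429 (leaf 429 4)) (move 494 (leaf 461 7)))))) (branch (move 556 (branch (move 620 (leaf 492 6)) (move 461 (branch (move 429 (leaf 428 5)) (move 557 (leaf 460 5)))))) (move 620 (branch (move 556 (leaf 492 6)) (move 589 (branch (move 557 (leaf 492 5)) (move 591 (branch (move 619 (leaf 587 1)) (move 623 (branch (move 624 (leaf 588 0)) (move 558 (branch (move 494 (leaf 494 4)) (move 622 (leaf 493 7))))))))))))))) (move 493 (branch (move 558 (branch (move 622 (leaf 493 7)) (move 461 (branch (move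 429 (leaf 429 4)) (move 494 (leaf 461 7)))))) (branch (move 556 (branch (move 620 (leaf 492 6)) (move 461 (branch (move 429 (leaf 428 5)) (move 557 (leaf 460 5)))))) (move 558 (branch (move 622 (leaf 493 7)) (move 556 (branch (move 620 (leaf 492 6)) (move 557 (branch (move 555 (branch (move 591 (leaf 555 0)) (move 554 (leaf 522 2)))) (move 559 (branch (move 587 (leaf 555 1)) (move 560 (leaf 524 3)))))))))))))))))))))
theorem a6p133 : a6e133.Valid :=
  pos_of_chk [a6e132, a6e123, a6e124, a6e125, a6e126, a6e127, a6e128] (forall_cons a6p132 (forall_cons a6p123 (forall_cons a6p124 (forall_cons a6p125 (forall_cons a6p126 (forall_cons a6p127 (forall_cons a6p128 forall_nil))))))) a6c133 a6e133 (by decide +kernel)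

def a6e134 : Pos := ⟨1013065324669708823447593329578886195734651256349429292731118181338045030727795991793515700272503171519859075009345335252134524924679042545476199918816576110005110425751602069504, 26106494637112650977512995721398596955819276639244277488211185601161646603922496571727841000153263732851935656157008543537992840873818293383818589552649506659311339691735336434175802605568, 7⟩
def a6c134 : Cert := (move 492 (branch (move 493 (branch (move 461 (leaf 460 6)) (move 491 (branch (move 490 (leaf 490 0)) (move 459 (leaf 459 7)))))) (branch (move 589 (branch (move 621 (leaf 492 4)) (move 460 (branch (move 557 (leaf 460 4)) (move 459 (branch (move 427 (leaf 427 7)) (move 491 (leaf 459 7)))))))) (move 589 (branch (move 621 (leaf 492 4)) (move 557 (branch (move 460 (leaf 460 4)) (move 493 (branch (move 461 (leaf 460 5)) (move 590 (branch (move 622 (leaf 493 4)) (move 555 (branch (move 554 (leaf 554 0)) (move 591 (leaf 555 3)))))))))))))))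
theorem a6p134 : a6e134.Valid :=
  pos_of_chk [] forall_nil a6c134 a6e134 (by decide +kernel)

def a6e135 : Pos := ⟨1013065324905581474998939664093983357046418062031736869007145708111557924493147501943025003527886091843462747980687108691557265230914704084846499458351665750719653928479689277440, 261628595046694273752645012956573942224225348189790595938648780764607889887122181095770559367648928729785833701312318866730089330566874406394958460353325531869562803663777950032787609765643307450368, 12⟩
def a6c135 : Cert := (move 589 (branch (move 494 (branch (move 621 (leaf 493 6)) (move 462 (branch (move 430 (leaf 429 5)) (move 558 (leaf 461 5)))))) (branch (move 621 (branch (move 494 (leaf 493 6)) (move 556 (branch (move 653 (leaf 524 7)) (move 555 (branch (move 554 (leaf 522 2)) (move 622 (branch (move 654 (leaf 525 4)) (move 590 (branch (move 591 (leaf 555 3)) (move 493 (leaf 493 4)))))))))))) (branch (move 558 (branch (move 621 (branch (move 653 (leaf 525 6)) (move 622 (branch (move 654 (leaf 525 4)) (move 590 (branch (move 493 (leaf 493 4)) (move 587 (branch (move 586 (leaf 586 0)) (move 623 (leaf 587 0)))))))))) (branch (move 559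 (branch (move 560 (leaf 556 1)) (move 621 (branch (move 653 (leaf 525 6)) (move 622 (branch (move 654 (leaf 525 4)) (move 590 (branch (move 493 (leaf 493 4)) (move 623 (branch (move 624 (leaf 588 3)) (move 655 (leaf 526 4)))))))))))) (move 559 (branch (move 560 (leaf 556 1)) (move 587 (branch (move 556 (leaf 555 1)) (move 586 (leaf 554 2))))))))) (move 493 (branch (move 590 (branch (move 622 (leaf 493 4)) (move 558 (branch (move 461 (leaf 461 4)) (move 559 (branch (move 560 (leaf 556 1)) (move 587 (leaf 555 2)))))))) (branch (move 461 (branch (move 556 (leaf 460 5)) (move 462 (branch (move 430 (leaf 429 6)) (move 494 (leaf 461 6)))))) (move 587 (branch (move 590 (branch (move 622 (leaf 493 4)) (move 558 (branch (move 586 (leaf 554 2)) (move 559 (leaf 555 2)))))) (branch (move 590 (branch (move 622 (leaf 493 4)) (move 555 (branch (move 554 (leaf 554 3)) (move 591 (branch (move 556 (leaf 555 3)) (move 494 (branch (move 462 (leaf 461 6)) (move 496 (branch (move 495 (leaf 492 1)) (move 560 (branch (move 559 (leaf 556 2)) (move 592 (branch (move 561 (leaf 557 2)) (move 624 (branch (move 623 (leaf 588 0)) (move 625 (leaf 589 0))))))))))))))))))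 (branch (move 558 (branch (move 586 (leaf 554 2)) (move 559 (branch (move 556 (leaf 555 1)) (move 560 (leaf 556 1)))))) (move 590 (branch (move 622 (leaf 493 4)) (move 555 (branch (move 554 (leaf 554 3)) (move 556 (branch (move 591 (leaf 555 3)) (move 586 (branch (move 558 (leaf 554 1)) (move 585 (leaf 553 2)))))))))))))))))))))
theorem a6p135 : a6e135.Valid :=
  pos_of_chk [] forall_nil a6c135 a6e135 (by decide +kernel)

def a6e136 : Pos := ⟨1013065324433836171896246995063789034422884450667121716455090654564532136962444481644006397017120251196255402038003561812711784618443381006105900379281486469290566923023514861568, 40131652351877422679140459865955225760724877660114616731098889780918609106685170080555067630095451727669306100367670658116539571465455405872833944484227639828316903979479248302675504474587053404159314231296, 13⟩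
def a6c136 : Cert := (move 557 (branch (move 556 (branch (move 492 (branch (move 493 (branch (move 461 (leaf 460 5)) (move 491 (branch (move 490 (leaf 490 0)) (move 459 (leaf 459 7)))))) (branch (move 460 (branch (move 428 (leaf 428 4)) (move 459 (branch (move 427 (leaf 427 7)) (move 491 (leaf 459 7)))))) (move 461 (branch (move 493 (leaf 460 5)) (move 460 (branch (move 428 (leaf 428 4)) (move 429 (leaf 428 6))))))))) (branch (move 492 (branch (move 460 (branch (move 428 (leaf 428 4)) (move 459 (branch (move 427 (leaf 427 7)) (move 491 (leaf 459 7)))))) (move 587 (branch (move 619 (leaf 491 5)) (move 558 (branch (move 559 (leaf 555 1)) (move 555 (branch (move 586 (leaf 554 1)) (move 554 (leaf 522 2)))))))))) (move 558 (branch (move 559 (branch (move 587 (leaf 555 1)) (move 560 (leaf 524 3)))) (move 493 (branch (move 461 (leaf 460 5)) (move 555 (branch (move 554 (leaf 522 2)) (move 590 (branch (move 591 (leaf 555 0)) (move 622 (leaf 493 7))))))))))))) (branch (move 589 (branch (move 621 (branch (move 494 (leaf 493 6)) (move 492 (leaf 492 7)))) (branch (move 621 (branch (move 492 (leaf 492 7)) (move 558 (branch (move 653 (leaf 525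 6)) (move 559 (branch (move 560 (leaf 556 1)) (move 587 (branch (move 586 (leaf 554 2)) (move 590 (leaf 555 2)))))))))) (branch (move 494 (branch (move 621 (leaf 493 6)) (move 462 (branch (move 430 (leaf 429 5)) (move 558 (leaf 461 5)))))) (ref 0))))) (branch (move 589 (branch (move 621 (branch (move 494 (leaf 493 6)) (move 492 (leaf 492 7)))) (branch (move 494 (branch (move 621 (leaf 493 6)) (move 462 (branch (move 430 (leaf 429 5)) (move 558 (leaf 461 5)))))) (move 587 (branch (move 586 (branch (move 558 (leaf 554 2)) (move 617 (branch (move 618 (leaf 585 1)) (move 585 (branch (move 616 (leaf 584 1)) (move 553 (branch (move 552 (leaf 552 3)) (move 554 (leaf 553 3)))))))))) (branch (move 558 (branch (move 586 (leaf 554 2)) (move 559 (branch (move 560 (leaf 556 1)) (move 590 (leaf 555 2)))))) (branch (move 554 (branch (move 586 (branch (move 553 (leaf 553 3)) (move 618 (branch (move 617 (leaf 585 1)) (move 619 (branch (move 590 (leaf 586 1)) (move 651 (branch (move 522 (leaf 522 4)) (move 683 (leaf 554 7)))))))))) (branch (move 555 (branch (move 556 (leaf 522 2)) (move 590 (leaf 554 3)))) (move 556 (branch (move 555 (leaf 522 2))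 (move 586 (branch (move 585 (leaf 553 2)) (move 553 (leaf 553 3))))))))) (move 590 (branch (move 558 (branch (move 559 (leaf 555 2)) (move 622 (branch (move 623 (leaf 587 0)) (move 654 (leaf 525 7)))))) (move 555 (branch (move 554 (leaf 554 3)) (move 556 (branch (move 591 (leaf 555 3)) (move 492 (branch (move 460 (leaf 460 4)) (move 619 (leaf 491 5))))))))))))))))) (branch (move 589 (branch (move 621 (branch (move 494 (leaf 493 6)) (move 492 (leaf 492 7)))) (branch (move 621 (branch (move 494 (leaf 493 6)) (move 556 (branch (move 653 (leaf 524 7)) (move 555 (branch (move 554 (leaf 522 2)) (move 622 (branch (move 654 (leaf 525 4)) (move 590 (branch (move 591 (leaf 555 3)) (move 493 (leaf 493 4)))))))))))) (move 556 (branch (move 554 (branch (move 555 (leaf 522 2)) (move 492 (branch (move 460 (leaf 460 4)) (move 587 (branch (move 619 (leaf 491 5)) (move 586 (branch (move 585 (leaf 553 2)) (move 553 (leaf 553 3)))))))))) (branch (move 555 (branch (move 554 (leaf 522 2)) (move 493 (branch (move 461 (leaf 460 5)) (move 590 (branch (move 591 (leaf 555 3)) (move 622 (leaf 493 4)))))))) (move 493 (branch (move 461 (leaf 460 5)) (move 492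 (branch (move 460 (leaf 460 4)) (move 491 (branch (move 490 (leaf 490 0)) (move 459 (leaf 459 7)))))))))))))) (branch (move 589 (branch (move 494 (branch (move 621 (leaf 493 6)) (move 462 (branch (move 430 (leaf 429 5)) (move 558 (leaf 461 5)))))) (branch (move 492 (branch (move 621 (leaf 492 7)) (move 460 (branch (move 428 (leaf 428 4)) (move 556 (leaf 460 4)))))) (move 493 (branch (move 460 (branch (move 492 (leaf 460 7)) (move 461 (branch (move 428 (leaf 428 7)) (move 462 (branch (move 430 (leaf 429 6)) (move 494 (leaf 461 6)))))))) (branch (move 492 (branch (move 460 (leaf 460 7)) (move 494 (branch (move 462 (leaf 461 6)) (move 491 (branch (move 490 (leaf 490 0)) (move 459 (branch (move 458 (leaf 458 3)) (move 556 (leaf 459 7)))))))))) (branch (move 461 (branch (move 556 (leaf 460 5)) (move 462 (branch (move 430 (leaf 429 6)) (move 494 (leaf 461 6)))))) (move 461 (branch (move 556 (leaf 460 5)) (move 460 (branch (move 428 (leaf 428 7)) (move 492 (leaf 460 7))))))))))))) (ref 1)))))))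
theorem a6p136 : a6e136.Valid :=
  pos_of_chk [a6e130, a6e135] (forall_cons a6p130 (forall_cons a6p135 forall_nil)) a6c136 a6e136 (by decide +kernel)

def a6e137 : Pos := ⟨384428668967314144038986444748558020167088376808025102926089953714390418270268738918863339877041455078728593437922928050078831327984132053504145584302443200512, 5343288131124131410441169107706273508128435165326100732101223503432812703564030146042223076563727018822483917818779401406347744526519664937290131261756410685664861639704892521117875001506602471008478035326987405361152, 14⟩
def a6c137 : Cert := (move 588 (branch (move 556 (branch (ref 0) (branch (move 620 (branch (move 651 (branch (move 619 (leaf 523 5)) (move 652 (branch (move 683 (leaf 555 5)) (move 653 (branch (move 621 (leaf 524 4)) (move 685 (leaf 556 4)))))))) (branch (move 652 (branch (move 557 (leaf 524 6)) (move 651 (branch (move 619 (leaf 523 5)) (move 683 (leaf 555 5)))))) (branch (move 557 (branch (move 652 (leaf 524 6)) (move 621 (branch (move 653 (leaf 524 4)) (move 589 (branch (move 494 (leaf 493 6)) (move 555 (branch (move 554 (leaf 522 2)) (move 590 (branch (move 591 (leaf 555 3)) (move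 622 (branch (move 654 (leaf 525 4)) (move 587 (branch (move 586 (leaf 586 0)) (move 623 (leaf 587 0)))))))))))))))) (move 589 (branch (move 619 (branch (move 651 (leaf 523 5)) (move 590 (branch (move 591 (leaf 587 1)) (move 618 (branch (move 587 (leaf 586 1)) (move 617 (leaf 585 2)))))))) (branch (move 621 (branch (move 653 (leaf 524 4)) (move 557 (branch (move 494 (leaf 493 6)) (move 622 (branch (move 654 (leaf 525 4)) (move 587 (branch (move 586 (leaf 586 0)) (move 623 (leaf 587 3)))))))))) (move 621 (branch (move 653 (leaf 524 4)) (move 619 (branch (move 651 (leaf 523 5)) (move 590 (branch (move 591 (leaf 587 1)) (move 618 (leaf 586 2))))))))))))))) (branch (ref 1) (branch (ref 2) (branch (ref 3) (branch (ref 4) (ref 5)))))))) (branch (move 556 (branch (ref 6) (branch (move 620 (branch (move 493 (leaf 492 6)) (move 651 (branch (move 619 (leaf 523 5)) (move 652 (branch (move 683 (leaf 555 5)) (move 653 (branch (move 621 (leaf 524 4)) (move 685 (leaf 556 4)))))))))) (branch (move 493 (branch (move 620 (leaf 492 6)) (move 461 (branch (move 429 (leaf 428 5)) (move 492 (leaf 460 6)))))) (ref 0))))) (branch (ref 7) (branch (move 556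 (branch (ref 6) (branch (move 620 (branch (move 493 (leaf 492 6)) (move 651 (branch (move 619 (leaf 523 5)) (move 652 (branch (move 683 (leaf 555 5)) (move 653 (branch (move 621 (leaf 524 4)) (move 685 (leaf 556 4)))))))))) (branch (move 493 (branch (move 620 (leaf 492 6)) (move 461 (branch (move 429 (leaf 428 5)) (move 492 (leaf 460 6)))))) (ref 5))))) (branch (ref 8) (branch (move 556 (branch (ref 6) (branch (ref 2) (move 493 (branch (move 620 (leaf 492 6)) (move 461 (branch (move 429 (leaf 428 5)) (move 557 (leaf 460 5))))))))) (branch (move 556 (branch (move 620 (branch (move 493 (leaf 492 6)) (move 651 (branch (move 619 (leaf 523 5)) (move 652 (branch (move 683 (leaf 555 5)) (move 653 (branch (move 621 (leaf 524 4)) (move 685 (leaf 556 4)))))))))) (branch (move 493 (branch (move 620 (leaf 492 6)) (move 461 (branch (move 429 (leaf 428 5)) (move 492 (leaf 460 6)))))) (branch (ref 3) (ref 9))))) (branch (move 556 (branch (move 620 (branch (move 493 (leaf 492 6)) (move 651 (branch (move 619 (leaf 523 5)) (move 652 (branch (move 683 (leaf 555 5)) (move 653 (branch (move 621 (leaf 524 4)) (move 685 (leaf 556 4)))))))))) (branch (move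 493 (branch (move 620 (leaf 492 6)) (move 461 (branch (move 429 (leaf 428 5)) (move 492 (leaf 460 6)))))) (branch (move 619 (branch (move 492 (branch (move 587 (leaf 491 5)) (move 589 (branch (move 621 (leaf 492 4)) (move 460 (branch (move 557 (leaf 460 4)) (move 459 (branch (move 427 (leaf 427 7)) (move 491 (leaf 459 7)))))))))) (branch (move 620 (branch (move 651 (leaf 523 5)) (move 621 (branch (move 653 (leaf 524 4)) (move 557 (branch (move 652 (leaf 524 6)) (move 589 (branch (move 494 (leaf 493 6)) (move 590 (branch (move 591 (leaf 587 1)) (move 618 (leaf 586 2)))))))))))) (move 587 (branch (move 492 (leaf 491 5)) (move 651 (branch (move 620 (leaf 523 5)) (move 683 (leaf 555 6))))))))) (move 492 (branch (move 493 (branch (move 461 (leaf 460 6)) (move 491 (branch (move 490 (leaf 490 0)) (move 459 (leaf 459 7)))))) (branch (move 589 (branch (move 621 (leaf 492 4)) (move 460 (branch (move 557 (leaf 460 4)) (move 459 (branch (move 427 (leaf 427 7)) (move 491 (leaf 459 7)))))))) (move 493 (branch (move 461 (leaf 460 6)) (move 589 (branch (move 621 (leaf 492 4)) (move 557 (branch (move 460 (leaf 460 4)) (move 587 (branch (move 619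 (leaf 491 5)) (move 558 (branch (move 559 (leaf 555 1)) (move 586 (leaf 554 2))))))))))))))))))) (branch (move 556 (branch (move 493 (branch (move 620 (leaf 492 6)) (move 461 (branch (move 429 (leaf 428 5)) (move 492 (leaf 460 6)))))) (branch (ref 4) (branch (ref 9) (move 493 (branch (move 620 (leaf 492 6)) (move 461 (branch (move 429 (leaf 428 5)) (move 557 (leaf 460 5)))))))))) (branch (move 556 (branch (move 493 (branch (move 620 (leaf 492 6)) (move 461 (branch (move 429 (leaf 428 5)) (move 492 (leaf 460 6)))))) (branch (ref 1) (move 493 (branch (move 620 (leaf 492 6)) (move 461 (branch (move 429 (leaf 428 5)) (move 557 (leaf 460 5))))))))) (ref 10))))))))))))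
theorem a6p137 : a6e137.Valid :=
  pos_of_chk [a6e116, a6e117, a6e118, a6e119, a6e120, a6e121, a6e122, a6e131, a6e133, a6e134, a6e136] (forall_cons a6p116 (forall_cons a6p117 (forall_cons a6p118 (forall_cons a6p119 (forall_cons a6p120 (forall_cons a6p121 (forall_cons a6p122 (forall_cons a6p131 (forall_cons a6p133 (forall_cons a6p134 (forall_cons a6p136 forall_nil))))))))))) a6c137 a6e137 (by decide +kernel)

def a6e138 : Pos := ⟨329510287686269266319131238355906874428932894406878659650934246040906072803087490501882862751749818638910222946791081185781855423986398903003553357973522743296, 5343288131124131410445841046898718636032323725050337830417996546996158394584780783778163551723194725119229770212008764419035883089349611001288686773951701549370924606282207622019060412496978862671370904661327272214528, 15⟩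
def a6c138 : Cert := (move 524 (branch (move 523 (branch (move 554 (branch (move 555 (leaf 522 1)) (move 522 (branch (move 553 (leaf 521 1)) (move 490 (branch (move 489 (leaf 489 3)) (move 491 (leaf 490 3)))))))) (branch (move 494 (branch (move 495 (leaf 491 2)) (move 522 (branch (move 493 (leaf 490 2)) (move 554 (branch (move 553 (leaf 521 1)) (move 555 (leaf 522 1)))))))) (branch (move 494 (branch (move 495 (leaf 491 2)) (move 522 (branch (move 493 (leaf 490 2)) (move 490 (branch (move 489 (leaf 489 3)) (move 491 (leaf 490 3)))))))) (ref 0))))) (branch (move 523 (branch (move 554 (branch (move 555 (leaf 522 1)) (move 522 (branch (move 553 (leaf 521 1)) (move 490 (branch (move 489 (leaf 489 3)) (move 491 (leaf 490 3)))))))) (branch (move 558 (branch (move 559 (leaf 523 0)) (move 522 (branch (move 557 (leaf 522 0)) (move 490 (branch (move 489 (leaf 489 3)) (move 491 (leaf 490 3)))))))) (branch (move 558 (branch (move 559 (leaf 523 0)) (move 522 (branch (move 557 (leaf 522 0)) (move 554 (branch (move 553 (leaf 521 1)) (move 555 (leaf 522 1)))))))) (ref 1))))) (branch (move 523 (branch (move 554 (branch (move 555 (leaf 522 1)) (move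 522 (branch (move 553 (leaf 521 1)) (move 490 (branch (move 489 (leaf 489 3)) (move 491 (leaf 490 3)))))))) (branch (move 494 (branch (move 495 (leaf 491 2)) (move 522 (branch (move 493 (leaf 490 2)) (move 554 (branch (move 553 (leaf 521 1)) (move 555 (leaf 522 1)))))))) (branch (move 494 (branch (move 495 (leaf 491 2)) (move 522 (branch (move 493 (leaf 490 2)) (move 490 (branch (move 489 (leaf 489 3)) (move 491 (leaf 490 3)))))))) (ref 2))))) (branch (move 523 (branch (move 494 (branch (move 495 (leaf 491 2)) (move 522 (branch (move 493 (leaf 490 2)) (move 554 (branch (move 553 (leaf 521 1)) (move 555 (leaf 522 1)))))))) (branch (move 558 (branch (move 559 (leaf 523 0)) (move 522 (branch (move 557 (leaf 522 0)) (move 554 (branch (move 553 (leaf 521 1)) (move 555 (leaf 522 1)))))))) (branch (move 558 (branch (move 559 (leaf 523 0)) (move 494 (branch (move 495 (leaf 491 2)) (move 522 (branch (move 557 (leaf 522 0)) (move 493 (leaf 490 2)))))))) (move 558 (branch (move 559 (leaf 523 0)) (move 590 (branch (move 494 (branch (move 495 (leaf 491 2)) (move 589 (branch (move 621 (leaf 493 5)) (move 557 (branch (move 462 (leaf 461 5)) (move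 555 (branch (move 554 (leaf 522 1)) (move 591 (branch (move 556 (leaf 555 0)) (move 623 (leaf 494 4)))))))))))) (branch (move 622 (branch (move 493 (leaf 493 7)) (move 654 (branch (move 557 (leaf 525 7)) (move 653 (branch (move 621 (leaf 525 5)) (move 685 (leaf 557 5)))))))) (move 494 (branch (move 495 (leaf 491 2)) (move 493 (branch (move 461 (leaf 461 7)) (move 622 (leaf 493 7))))))))))))))) (branch (move 523 (branch (move 494 (branch (move 495 (leaf 491 2)) (move 522 (branch (move 493 (leaf 490 2)) (move 490 (branch (move 489 (leaf 489 3)) (move 491 (leaf 490 3)))))))) (branch (move 558 (branch (move 559 (leaf 523 0)) (move 522 (branch (move 557 (leaf 522 0)) (move 490 (branch (move 489 (leaf 489 3)) (move 491 (leaf 490 3)))))))) (ref 3)))) (branch (move 523 (branch (ref 0) (branch (ref 1) (branch (ref 3) (ref 2))))) (ref 4))))))))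
theorem a6p138 : a6e138.Valid :=
  pos_of_chk [a6e112, a6e113, a6e114, a6e115, a6e137] (forall_cons a6p112 (forall_cons a6p113 (forall_cons a6p114 (forall_cons a6p115 (forall_cons a6p137 forall_nil))))) a6c138 a6e138 (by decide +kernel)

def a6e139 : Pos := ⟨1415235909637588294776852234189732072449752332085098055047956022243043306937961892335385012443504900579800459275446664784205050422003652661196936747290814374342045990912, 28031635161197391080836656785501108709592770497366663161781747589742244826919961739498153540860371946374892730389034261911066221789434370890603861012218745865499105847558250706629332035198978621440, 7⟩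
def a6c139 : Cert := (move 556 (branch (move 555 (branch (move 554 (leaf 522 2)) (move 587 (branch (move 586 (leaf 554 1)) (move 588 (branch (move 559 (leaf 555 1)) (move 523 (branch (move 522 (leaf 522 3)) (move 620 (branch (move 491 (leaf 491 4)) (move 652 (leaf 524 6)))))))))))) (branch (move 524 (branch (move 559 (branch (move 560 (leaf 524 3)) (move 588 (branch (move 587 (leaf 555 1)) (move 620 (branch (move 493 (leaf 492 6)) (move 652 (leaf 524 6)))))))) (branch (move 523 (branch (move 522 (leaf 522 0)) (move 559 (leaf 523 0)))) (move 523 (branch (move 522 (leaf 522 0)) (move 491 (branch (move 490 (leaf 490 3)) (move 588 (branch (move 620 (leaf 491 7)) (move 459 (branch (move 427 (leaf 427 4)) (move 492 (leaf 459 7))))))))))))) (branch (move 555 (branch (move 554 (leaf 522 2)) (move 587 (branch (move 586 (leaf 554 1)) (move 559 (branch (move 588 (leaf 555 1)) (move 560 (branch (move 524 (leaf 524 3)) (move 561 (leaf 525 3)))))))))) (branch (move 555 (branch (move 554 (leaf 522 2)) (move 523 (branch (move 522 (leaf 522 3)) (move 524 (branch (move 559 (leaf 523 0)) (move 587 (branch (move 586 (leaf 554 1)) (move 492 (branch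 (move 460 (leaf 459 5)) (move 619 (leaf 491 6)))))))))))) (branch (move 555 (branch (move 554 (leaf 522 2)) (move 523 (branch (move 522 (leaf 522 3)) (move 524 (branch (move 559 (leaf 523 0)) (move 491 (branch (move 490 (leaf 490 3)) (move 588 (branch (move 459 (leaf 459 4)) (move 620 (leaf 491 7)))))))))))) (move 524 (branch (move 555 (branch (move 554 (leaf 522 2)) (move 587 (branch (move 586 (leaf 554 1)) (move 492 (branch (move 460 (leaf 459 5)) (move 619 (branch (move 588 (leaf 491 5)) (move 651 (leaf 523 6)))))))))) (branch (move 523 (branch (move 522 (leaf 522 0)) (move 491 (branch (move 490 (leaf 490 3)) (move 588 (branch (move 620 (leaf 491 7)) (move 459 (branch (move 427 (leaf 427 4)) (move 555 (leaf 459 4)))))))))) (branch (move 523 (branch (move 522 (leaf 522 0)) (move 491 (branch (move 490 (leaf 490 3)) (move 588 (branch (move 620 (leaf 491 7)) (move 459 (branch (move 427 (leaf 427 4)) (move 492 (leaf 459 7)))))))))) (move 523 (branch (move 522 (leaf 522 0)) (move 555 (branch (move 554 (leaf 522 1)) (move 587 (branch (move 586 (leaf 554 1)) (move 492 (branch (move 460 (leaf 459 5)) (move 619 (leaf 491 6))))))))))))))))))))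
theorem a6p139 : a6e139.Valid :=
  pos_of_chk [] forall_nil a6c139 a6e139 (by decide +kernel)

def a6e140 : Pos := ⟨1533172235440720652674923253705543078487231693092189559635285690763296915849458716696667096813796975628117164215067220182888804623837290382963348142898382238870549823488, 20065826297409130274749978357132107005513113083027437638663871414814744414569758902373368932967355842117979207093499807678299217381858431412994815844187810018135571070769854876164348966671838928934105251840, 12⟩
def a6c140 : Cert := (move 491 (branch (move 587 (branch (move 618 (branch (move 586 (leaf 490 5)) (move 619 (branch (move 650 (leaf 522 5)) (move 620 (branch (move 588 (leaf 491 4)) (move 652 (leaf 523 4)))))))) (move 490 (branch (move 458 (leaf 458 7)) (move 492 (branch (move 493 (leaf 490 0)) (move 460 (leaf 459 6)))))))) (branch (move 459 (branch (move 426 (branch (move 458 (leaf 426 7)) (move 427 (branch (move 394 (leaf 394 7)) (move 428 (branch (move 396 (leaf 395 6)) (move 460 (leaf 427 6)))))))) (branch (move 554 (branch (move 586 (leaf 458 5)) (move 427 (branch (move 522 (leaf 426 5)) (move 426 (branch (move 394 (leaf 394 7)) (move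 458 (leaf 426 7)))))))) (move 460 (branch (move 428 (leaf 427 6)) (move 587 (branch (move 492 (leaf 459 6)) (move 586 (branch (move 554 (leaf 458 5)) (move 618 (leaf 490 5))))))))))) (branch (move 459 (branch (move 554 (branch (move 586 (leaf 458 5)) (move 427 (branch (move 522 (leaf 426 5)) (move 396 (branch (move 428 (leaf 395 6)) (move 395 (branch (move 364 (leaf 363 6)) (move 394 (branch (move 362 (leaf 362 7)) (move 426 (leaf 394 7)))))))))))) (branch (move 460 (branch (move 428 (leaf 427 6)) (move 492 (branch (move 587 (leaf 459 6)) (move 493 (branch (move 490 (leaf 490 0)) (move 494 (branch (move 522 (leaf 490 1)) (move 495 (leaf 459 3)))))))))) (move 586 (branch (move 554 (leaf 458 5)) (move 587 (branch (move 618 (leaf 490 5)) (move 620 (branch (move 588 (leaf 491 4)) (move 619 (branch (move 652 (leaf 523 4)) (move 622 (branch (move 621 (leaf 586 3)) (move 590 (branch (move 493 (leaf 493 7)) (move 654 (leaf 525 7))))))))))))))))) (branch (move 459 (branch (move 426 (branch (move 458 (leaf 426 7)) (move 427 (branch (move 394 (leaf 394 7)) (move 428 (branch (move 396 (leaf 395 6)) (move 460 (leaf 427 6)))))))) (branch (move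 460 (branch (move 428 (leaf 427 6)) (move 492 (branch (move 587 (leaf 459 6)) (move 493 (branch (move 490 (leaf 490 0)) (move 494 (branch (move 522 (leaf 490 1)) (move 495 (leaf 459 3)))))))))) (move 458 (branch (move 426 (leaf 426 7)) (move 587 (branch (move 490 (leaf 458 7)) (move 620 (branch (move 588 (leaf 491 4)) (move 619 (branch (move 652 (leaf 523 4)) (move 650 (branch (move 618 (leaf 522 5)) (move 651 (branch (move 682 (leaf 554 5)) (move 622 (branch (move 621 (leaf 618 1)) (move 590 (branch (move 493 (leaf 493 7)) (move 654 (leaf 525 7))))))))))))))))))))) (branch (move 459 (branch (move 554 (branch (move 586 (leaf 458 5)) (move 427 (branch (move 522 (leaf 426 5)) (move 396 (branch (move 428 (leaf 395 6)) (move 395 (branch (move 364 (leaf 363 6)) (move 394 (branch (move 362 (leaf 362 7)) (move 426 (leaf 394 7)))))))))))) (branch (move 586 (branch (move 554 (leaf 458 5)) (move 587 (branch (move 618 (leaf 490 5)) (move 620 (branch (move 588 (leaf 491 4)) (move 619 (branch (move 652 (leaf 523 4)) (move 622 (branch (move 621 (leaf 586 3)) (move 590 (branch (move 493 (leaf 493 7)) (move 654 (leaf 525 7)))))))))))))) (move 458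 (branch (move 426 (leaf 426 7)) (move 587 (branch (move 490 (leaf 458 7)) (move 620 (branch (move 588 (leaf 491 4)) (move 619 (branch (move 652 (leaf 523 4)) (move 650 (branch (move 618 (leaf 522 5)) (move 651 (branch (move 682 (leaf 554 5)) (move 622 (branch (move 621 (leaf 618 1)) (move 590 (branch (move 493 (leaf 493 7)) (move 654 (leaf 525 7))))))))))))))))))))) (move 459 (branch (move 554 (branch (move 586 (leaf 458 5)) (move 427 (branch (move 522 (leaf 426 5)) (move 428 (branch (move 396 (leaf 395 6)) (move 460 (leaf 427 6)))))))) (branch (move 426 (branch (move 458 (leaf 426 7)) (move 427 (branch (move 394 (leaf 394 7)) (move 428 (branch (move 396 (leaf 395 6)) (move 460 (leaf 427 6)))))))) (branch (move 554 (branch (move 586 (leaf 458 5)) (move 427 (branch (move 522 (leaf 426 5)) (move 426 (branch (move 394 (leaf 394 7)) (move 458 (leaf 426 7)))))))) (move 494 (branch (move 458 (branch (move 426 (leaf 426 7)) (move 492 (branch (move 493 (leaf 458 3)) (move 460 (branch (move 428 (leaf 427 6)) (move 457 (branch (move 456 (leaf 456 0)) (move 489 (branch (move 488 (leaf 456 1)) (move 425 (branch (move 424 (leaf 424 3)) (move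 554 (branch (move 586 (leaf 458 5)) (move 522 (branch (move 521 (leaf 425 4)) (move 490 (leaf 425 7)))))))))))))))))) (move 462 (branch (move 430 (leaf 429 5)) (move 463 (branch (move 431 (leaf 430 6)) (move 590 (branch (move 495 (leaf 462 6)) (move 622 (branch (move 654 (leaf 525 7)) (move 623 (branch (move 591 (leaf 494 4)) (move 655 (leaf 526 4))))))))))))))))))))))))
theorem a6p140 : a6e140.Valid :=
  pos_of_chk [] forall_nil a6c140 a6e140 (by decide +kernel)

def a6e141 : Pos := ⟨1415235909637588294776852234189732072449752332085098055047956022243043306937961892335385012443504900579800459275446664784205050422003652661196936747290814374342045990912, 20065826334784643814311001588240584799763708593962162644352048163647449139940532223323303438026402981623721188842745212307055942007773004676065661055842307211142465580348621728051109226926959102902893805568, 14⟩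
def a6c141 : Cert := (move 555 (branch (move 590 (branch (move 591 (branch (move 556 (leaf 555 0)) (move 494 (branch (move 623 (leaf 494 4)) (move 495 (branch (move 463 (leaf 462 6)) (move 524 (branch (move 523 (leaf 491 2)) (move 496 (branch (move 493 (leaf 492 1)) (move 497 (leaf 493 1)))))))))))) (branch (move 622 (branch (move 493 (leaf 493 7)) (move 654 (leaf 525 7)))) (move 622 (branch (move 654 (leaf 525 7)) (move 591 (branch (move 556 (leaf 555 0)) (move 623 (branch (move 494 (leaf 494 4)) (move 655 (leaf 526 4))))))))))) (branch (move 556 (branch (move 554 (leaf 522 2)) (move 590 (branch (move 591 (leaf 555 0)) (move 622 (branch (move 493 (leaf 493 7)) (move 654 (leaf 525 7)))))))) (branch (move 523 (branch (move 556 (branch (move 554 (leaf 522 2)) (move 522 (leaf 522 3)))) (branch (move 522 (branch (move 524 (leaf 522 0)) (move 556 (leaf 522 3)))) (move 524 (branch (move 554 (leaf 522 1)) (move 494 (branch (move 495 (leaf 491 2)) (move 491 (branch (move 490 (leaf 490 3)) (move 462 (branch (move 430 (leaf 429 5)) (move 463 (branch (move 431 (leaf 430 6)) (move 492 (branch (move 493 (leaf 459 2)) (move 460 (branch (move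 428 (leaf 428 4)) (move 587 (leaf 459 6))))))))))))))))))) (branch (move 556 (branch (move 554 (leaf 522 2)) (move 523 (branch (move 522 (leaf 522 3)) (move 587 (branch (move 586 (leaf 554 1)) (move 590 (branch (move 591 (leaf 555 0)) (move 622 (branch (move 654 (leaf 525 7)) (move 623 (branch (move 655 (leaf 526 4)) (move 621 (branch (move 653 (leaf 525 5)) (move 620 (branch (move 588 (leaf 587 3)) (move 619 (branch (move 652 (leaf 523 4)) (move 524 (branch (move 492 (leaf 491 6)) (move 651 (leaf 523 6)))))))))))))))))))))) (move 523 (branch (move 524 (branch (move 554 (leaf 522 1)) (move 494 (branch (move 495 (leaf 491 2)) (move 491 (branch (move 490 (leaf 490 3)) (move 462 (branch (move 430 (leaf 429 5)) (move 463 (branch (move 431 (leaf 430 6)) (move 492 (branch (move 493 (leaf 459 2)) (move 460 (branch (move 428 (leaf 428 4)) (move 587 (leaf 459 6)))))))))))))))) (branch (move 524 (branch (move 522 (leaf 522 0)) (move 494 (branch (move 495 (leaf 491 2)) (move 491 (branch (move 490 (leaf 490 3)) (move 462 (branch (move 430 (leaf 429 5)) (move 463 (branch (move 431 (leaf 430 6)) (move 492 (branch (move 493 (leaf 459 2)) (move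 460 (branch (move 428 (leaf 428 4)) (move 587 (leaf 459 6)))))))))))))))) (branch (move 524 (branch (move 522 (leaf 522 0)) (move 554 (leaf 522 1)))) (ref 0))))))))))
theorem a6p141 : a6e141.Valid :=
  pos_of_chk [a6e140] (forall_cons a6p140 forall_nil) a6c141 a6e141 (by decide +kernel)

def a6e142 : Pos := ⟨2026130649339417646236166083785233858831040035987044836604370573862332742153723491505219254938831362035952424515191033226448603955775922719388688989660354414003114135556158652416, 93438783881535676385812259437047387369845988464212982437764628355618934229839675319202262137864514385865130528708665396069097446200501764489690165940788020694955018530646199099548380457559650205696, 7⟩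
def a6c142 : Cert := (move 492 (branch (move 493 (branch (move 460 (leaf 460 7)) (move 620 (branch (move 588 (leaf 492 5)) (move 621 (branch (move 652 (leaf 524 5)) (move 622 (branch (move 590 (leaf 493 4)) (move 654 (leaf 525 4)))))))))) (branch (move 524 (branch (move 621 (leaf 492 7)) (move 460 (branch (move 428 (leaf 428 4)) (move 556 (leaf 460 4)))))) (branch (move 460 (branch (move 493 (leaf 460 7)) (move 524 (branch (move 428 (leaf 428 4)) (move 556 (leaf 460 4)))))) (move 621 (branch (move 524 (leaf 492 7)) (move 620 (branch (move 652 (leaf 524 5)) (move 622 (branch (move 654 (leaf 525 4)) (move 590 (branch (move 493 (leaf 493 4)) (move 591 (branch (move 592 (leaf 588 1)) (move 619 (leaf 587 2))))))))))))))))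
theorem a6p142 : a6e142.Valid :=
  pos_of_chk [] forall_nil a6c142 a6e142 (by decide +kernel)

def a6e143 : Pos := ⟨2026130649339417646455839608909413369710460861557649419556992503466918515254346322199156636807556355703874333016357578985722085920303310176576592605651287016005483040871840481280, 547692501839436879418985805074659721521274146273642039595845832087701682548535574045283018765581201837831360485471735772212403137468481919069737860296357509028670382699090786566162329108480, 12⟩
def a6c143 : Cert := (move 493 (branch (move 590 (branch (move 622 (leaf 493 4)) (move 591 (branch (move 592 (branch (move 556 (leaf 556 3)) (move 494 (branch (move 462 (leaf 461 6)) (move 560 (branch (move 561 (leaf 557 2)) (move 625 (branch (move 624 (leaf 589 0)) (move 593 (branch (move 626 (leaf 590 0)) (move 496 (branch (move 528 (leaf 496 4)) (move 495 (branch (move 524 (leaf 492 1)) (move 497 (leaf 493 1)))))))))))))))) (branch (move 588 (branch (move 620 (leaf 492 5)) (move 494 (branch (move 462 (leaf 461 6)) (move 560 (branch (move 559 (leaf 556 2)) (move 592 (branch (move 561 (leaf 557 2)) (move 624 (branch (move 623 (leaf 588 0)) (move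 625 (leaf 589 0)))))))))))) (branch (move 588 (branch (move 620 (leaf 492 5)) (move 555 (branch (move 556 (leaf 555 3)) (move 494 (branch (move 462 (leaf 461 6)) (move 587 (branch (move 554 (leaf 554 3)) (move 618 (branch (move 619 (leaf 586 1)) (move 586 (branch (move 617 (leaf 585 1)) (move 523 (branch (move 491 (leaf 490 5)) (move 524 (branch (move 522 (leaf 490 2)) (move 495 (leaf 491 2)))))))))))))))))) (move 588 (branch (move 620 (leaf 492 5)) (move 556 (branch (move 555 (leaf 555 3)) (move 592 (leaf 556 3)))))))))))) (branch (move 555 (branch (move 492 (branch (move 460 (leaf 460 7)) (move 588 (branch (move 620 (leaf 492 5)) (move 590 (branch (move 622 (leaf 493 4)) (move 591 (branch (move 556 (leaf 555 3)) (move 560 (branch (move 559 (leaf 556 2)) (move 592 (branch (move 561 (leaf 557 2)) (move 624 (branch (move 623 (leaf 588 0)) (move 625 (leaf 589 0)))))))))))))))) (branch (move 554 (branch (move 556 (leaf 522 2)) (move 588 (branch (move 620 (leaf 492 5)) (move 590 (branch (move 587 (leaf 554 3)) (move 622 (leaf 493 4)))))))) (branch (move 492 (branch (move 460 (leaf 460 7)) (move 491 (branch (move 490 (leaf 490 0)) (move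 588 (branch (move 620 (leaf 492 5)) (move 590 (branch (move 622 (leaf 493 4)) (move 587 (branch (move 554 (leaf 554 3)) (move 618 (branch (move 619 (leaf 586 1)) (move 586 (branch (move 617 (leaf 585 1)) (move 523 (leaf 490 5)))))))))))))))) (move 554 (branch (move 556 (leaf 522 2)) (move 523 (branch (move 524 (leaf 522 1)) (move 492 (branch (move 460 (leaf 460 7)) (move 491 (branch (move 490 (leaf 490 0)) (move 586 (branch (move 459 (leaf 458 5)) (move 618 (branch (move 587 (leaf 490 5)) (move 522 (leaf 490 6)))))))))))))))))) (branch (move 494 (branch (move 462 (leaf 461 6)) (move 492 (branch (move 460 (leaf 460 7)) (move 491 (branch (move 490 (leaf 490 0)) (move 523 (branch (move 522 (leaf 490 1)) (move 495 (branch (move 524 (leaf 491 1)) (move 496 (branch (move 497 (leaf 493 1)) (move 464 (branch (move 463 (leaf 460 2)) (move 465 (leaf 461 2)))))))))))))))) (branch (move 494 (branch (move 462 (leaf 461 6)) (move 492 (branch (move 460 (leaf 460 7)) (move 491 (branch (move 490 (leaf 490 0)) (move 590 (branch (move 622 (leaf 493 4)) (move 588 (branch (move 620 (leaf 492 5)) (move 459 (branch (move 458 (leaf 458 3)) (move 523 (branch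 (move 522 (leaf 490 1)) (move 555 (branch (move 556 (leaf 459 4)) (move 554 (branch (move 587 (leaf 554 3)) (move 586 (leaf 458 5)))))))))))))))))))) (branch (move 494 (branch (move 462 (leaf 461 6)) (move 492 (branch (move 460 (leaf 460 7)) (move 491 (branch (move 490 (leaf 490 0)) (move 588 (branch (move 620 (leaf 492 5)) (move 590 (branch (move 622 (leaf 493 4)) (move 459 (branch (move 458 (leaf 458 3)) (move 556 (branch (move 524 (leaf 459 7)) (move 555 (branch (move 554 (leaf 554 0)) (move 591 (leaf 555 3)))))))))))))))))) (move 588 (branch (move 620 (leaf 492 5)) (move 590 (branch (move 622 (leaf 493 4)) (move 587 (branch (move 494 (branch (move 462 (leaf 461 6)) (move 492 (branch (move 460 (leaf 460 7)) (move 619 (branch (move 618 (leaf 586 1)) (move 524 (branch (move 556 (leaf 491 5)) (move 495 (branch (move 523 (leaf 491 1)) (move 496 (leaf 492 1)))))))))))) (branch (move 555 (branch (move 554 (leaf 554 3)) (move 591 (branch (move 556 (leaf 555 3)) (move 618 (branch (move 619 (leaf 586 1)) (move 586 (branch (move 617 (leaf 585 1)) (move 560 (branch (move 559 (leaf 556 2)) (move 592 (branch (move 561 (leaf 557 2)) (move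 624 (branch (move 623 (leaf 588 0)) (move 625 (leaf 589 0)))))))))))))))) (branch (move 494 (branch (move 462 (leaf 461 6)) (move 554 (branch (move 555 (leaf 554 3)) (move 586 (branch (move 553 (leaf 553 3)) (move 618 (branch (move 617 (leaf 585 1)) (move 619 (leaf 586 1)))))))))) (move 555 (branch (move 554 (leaf 554 3)) (move 591 (branch (move 556 (leaf 555 3)) (move 494 (branch (move 462 (leaf 461 6)) (move 492 (branch (move 460 (leaf 460 7)) (move 560 (branch (move 559 (leaf 556 2)) (move 592 (branch (move 561 (leaf 557 2)) (move 624 (branch (move 623 (leaf 588 0)) (move 625 (leaf 589 0))))))))))))))))))))))))))))))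
theorem a6p143 : a6e143.Valid :=
  pos_of_chk [] forall_nil a6c143 a6e143 (by decide +kernel)

def a6e144 : Pos := ⟨4052261298207089989479476261102363150478256873394776812132997058979932583327055378058388594301259380258658457338281792453688468281344216088630730708245995847578325718313983803392, 289660230068657026871749205992348486160169081732190925556168548750166798944950191386059386227601268705792697639283839359183526203840544088888400205717070770840847019740942998527593154296896066420736, 8⟩
def a6c144 : Cert := (move 558 (branch (move 591 (branch (move 556 (branch (move 555 (leaf 555 0)) (move 592 (branch (move 559 (leaf 556 0)) (move 593 (leaf 557 3)))))) (move 494 (branch (move 623 (leaf 494 4)) (move 462 (branch (move 430 (leaf 429 5)) (move 463 (branch (move 431 (leaf 430 6)) (move 495 (leaf 462 6)))))))))) (branch (move 591 (branch (move 556 (branch (move 555 (leaf 555 0)) (move 592 (branch (move 559 (leaf 556 0)) (move 593 (leaf 557 3)))))) (move 622 (branch (move 654 (leaf 525 7)) (move 621 (branch (move 653 (leaf 525 5)) (move 623 (branch (move 655 (leaf 526 4)) (move 620 (branch (move 619 (leaf 587 2)) (move 652 (branch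 (move 651 (leaf 619 1)) (move 589 (leaf 524 5)))))))))))))) (branch (move 622 (branch (move 654 (leaf 525 7)) (move 621 (branch (move 653 (leaf 525 5)) (move 589 (branch (move 494 (leaf 493 5)) (move 623 (branch (move 655 (leaf 526 4)) (move 588 (branch (move 587 (leaf 587 0)) (move 624 (leaf 588 3)))))))))))) (move 622 (branch (move 654 (leaf 525 7)) (move 621 (branch (move 653 (leaf 525 5)) (move 589 (branch (move 494 (leaf 493 5)) (move 620 (branch (move 652 (leaf 524 5)) (move 591 (branch (move 592 (leaf 588 1)) (move 619 (leaf 587 2))))))))))))))))
theorem a6p144 : a6e144.Valid :=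
  pos_of_chk [] forall_nil a6c144 a6e144 (by decide +kernel)

def a6e145 : Pos := ⟨4052261298207089989479476261102363150478256873394776812132997058979932583327055378058388594301259380258658457338281792453688468281344216088630730708245995847578325718313983803392, 119654767081532146137630014250168425704264355611137573421199004699086328983243404595014988459659629006530983098463812780341363507108291548743615676919456450920657639313047627417862633684992, 7⟩
def a6c145 : Cert := (move 494 (branch (move 558 (branch (move 591 (branch (move 623 (leaf 494 4)) (move 556 (branch (move 555 (leaf 555 0)) (move 592 (branch (move 559 (leaf 556 0)) (move 593 (leaf 557 3)))))))) (move 462 (branch (move 430 (leaf 429 5)) (move 463 (branch (move 431 (leaf 430 6)) (move 495 (leaf 462 6)))))))) (branch (move 589 (branch (move 621 (leaf 493 6)) (move 462 (branch (move 430 (leaf 429 5)) (move 493 (leaf 461 6)))))) (move 591 (branch (move 589 (branch (move 621 (leaf 493 6)) (move 556 (branch (move 592 (leaf 556 3)) (move 555 (branch (move 554 (leaf 554 0)) (move 588 (leaf 555 3)))))))) (branch (move 558 (branch (move 623 (leaf 494 4)) (move 556 (branch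 (move 555 (leaf 555 0)) (move 592 (branch (move 559 (leaf 556 0)) (move 593 (leaf 557 3)))))))) (move 589 (branch (move 621 (leaf 493 6)) (move 623 (branch (move 558 (leaf 494 4)) (move 588 (branch (move 624 (leaf 588 0)) (move 620 (branch (move 619 (leaf 587 1)) (move 493 (leaf 492 5))))))))))))))))
theorem a6p145 : a6e145.Valid :=
  pos_of_chk [] forall_nil a6c145 a6e145 (by decide +kernel)

def a6e146 : Pos := ⟨471745303432202956716463588942664849720522026980987947953904447181637266339924679313853331149090208694433365517755703559262404264522454503056578184432640363429697159168, 321053216936899824016471350782312586743220240157929942623131573371847183529106969047773997449628923355961470686162380776588792091088334726459041739502801067341121577608014951374483288847532775592745817341952, 12⟩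
def a6c146 : Cert := (move 590 (branch (move 558 (branch (move 622 (branch (move 493 (leaf 493 7)) (move 654 (leaf 525 7)))) (move 591 (branch (move 556 (branch (move 555 (leaf 555 0)) (move 592 (branch (move 559 (leaf 556 0)) (move 593 (leaf 557 3)))))) (move 494 (branch (move 623 (leaf 494 4)) (move 462 (branch (move 430 (leaf 429 5)) (move 463 (branch (move 431 (leaf 430 6)) (move 495 (leaf 462 6)))))))))))) (branch (move 589 (branch (move 622 (branch (move 493 (leaf 493 4)) (move 654 (branch (move 621 (leaf 525 4)) (move 686 (leaf 557 7)))))) (branch (move 493 (branch (move 622 (leaf 493 4)) (move 588 (branch (move 620 (leaf 492 5)) (move 494 (branch (move 462 (leaf 461 6)) (move 492 (branch (move 460 (leaf 460 7)) (move 491 (branch (move 490 (leaf 490 0)) (move 459 (branch (move 458 (leaf 458 3)) (move 523 (branch (move 522 (leaf 490 1)) (move 555 (branch (move 556 (leaf 459 4)) (move 554 (branch (move 587 (leaf 554 3)) (move 586 (leaf 458 5)))))))))))))))))))) (branch (move 621 (branch (move 494 (leaf 493 6)) (move 620 (branch (move 652 (leaf 524 5)) (move 622 (branch (move 654 (leaf 525 4)) (move 591 (branch (move 592 (leaf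 588 1)) (move 619 (leaf 587 2)))))))))) (move 494 (branch (move 621 (leaf 493 6)) (move 462 (branch (move 430 (leaf 429 5)) (move 493 (leaf 461 6)))))))))) (branch (move 622 (branch (move 589 (branch (move 493 (leaf 493 4)) (move 654 (branch (move 621 (leaf 525 4)) (move 686 (leaf 557 7)))))) (branch (move 558 (branch (move 493 (leaf 493 7)) (move 654 (leaf 525 7)))) (branch (move 654 (branch (move 558 (leaf 525 7)) (move 589 (branch (move 621 (leaf 525 4)) (move 686 (leaf 557 7)))))) (move 493 (branch (move 589 (leaf 493 4)) (move 558 (leaf 493 7)))))))) (branch (ref 0) (ref 1))))))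
theorem a6p146 : a6e146.Valid :=
  pos_of_chk [a6e144, a6e145] (forall_cons a6p144 (forall_cons a6p145 forall_nil)) a6c146 a6e146 (by decide +kernel)

def a6e147 : Pos := ⟨4052261298207089989479476261102363150478256873394776812132997058979932583327055378058388594301259380258658457338281792453688468281344216088630730708245995847578325718313983803392, 321053216740678377829350000289030916585478988309706983573539156724233087327700974274165235461422267446317344107898286203152583976198322194513587834280970858003076337308342428417163140965677002566947861168128, 10⟩
def a6c147 : Cert := (move 589 (branch (move 493 (branch (move 622 (leaf 493 4)) (move 494 (branch (move 462 (leaf 461 6)) (move 492 (branch (move 460 (leaf 460 7)) (move 491 (branch (move 490 (leaf 490 0)) (move 523 (branch (move 522 (leaf 490 1)) (move 495 (branch (move 524 (leaf 491 1)) (move 496 (branch (move 497 (leaf 493 1)) (move 464 (branch (move 463 (leaf 460 2)) (move 465 (leaf 461 2)))))))))))))))))) (branch (move 622 (branch (move 493 (leaf 493 4)) (move 654 (branch (move 621 (leaf 525 4)) (move 686 (leaf 557 7)))))) (branch (move 621 (branch (move 494 (leaf 493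 6)) (move 620 (branch (move 652 (leaf 524 5)) (move 622 (branch (move 654 (leaf 525 4)) (move 591 (branch (move 592 (leaf 588 1)) (move 619 (leaf 587 2)))))))))) (move 494 (branch (move 621 (leaf 493 6)) (move 462 (branch (move 430 (leaf 429 5)) (move 493 (leaf 461 6))))))))))
theorem a6p147 : a6e147.Valid :=
  pos_of_chk [] forall_nil a6c147 a6e147 (by decide +kernel)

def a6e148 : Pos := ⟨4052261298207089989479476261102363150478256873394776812132997058979932583327055378058388594301259380258658457338281792453688468281344216088630730708245995847578325718313983803392, 280316351823001409052930680873725778643349302628764513994012113921606539341297334090446366206404799325263720525979829419990077403035531170167679764491248539770862728392160012423433088685476063215616, 10⟩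
def a6c148 : Cert := (move 558 (branch (move 622 (branch (move 654 (leaf 525 7)) (move 623 (branch (move 655 (leaf 526 4)) (move 591 (branch (move 494 (leaf 494 4)) (move 621 (branch (move 653 (leaf 525 5)) (move 592 (branch (move 593 (leaf 589 1)) (move 620 (leaf 588 2)))))))))))) (branch (move 622 (branch (move 654 (leaf 525 7)) (move 621 (branch (move 653 (leaf 525 5)) (move 589 (branch (move 494 (leaf 493 5)) (move 623 (branch (move 655 (leaf 526 4)) (move 588 (branch (move 587 (leaf 587 0)) (move 624 (leaf 588 3)))))))))))) (branch (move 622 (branch (move 654 (leaf 525 7)) (move 621 (branch (move 653 (leaf 525 5)) (move 589 (branch (move 494 (leaf 493 5)) (move 620 (branch (move 652 (leaf 524 5)) (move 591 (branch (move 592 (leaf 588 1)) (move 619 (leaf 587 2)))))))))))) (branch (move 622 (branch (move 654 (leaf 525 7)) (move 623 (branch (move 655 (leaf 526 4)) (move 494 (branch (move 591 (leaf 494 4)) (move 462 (branch (move 430 (leaf 429 5)) (move 589 (leaf 461 5)))))))))) (branch (move 494 (branch (move 462 (branch (move 430 (leaf 429 5)) (move 463 (branch (move 431 (leaf 430 6)) (move 495 (leaf 462 6)))))) (move 589 (branch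 (move 621 (leaf 493 5)) (move 591 (branch (move 623 (leaf 494 4)) (move 592 (branch (move 593 (leaf 557 3)) (move 560 (branch (move 561 (leaf 557 2)) (move 559 (branch (move 588 (leaf 556 1)) (move 524 (leaf 524 3)))))))))))))) (move 560 (branch (move 559 (branch (move 524 (leaf 524 3)) (move 561 (leaf 525 3)))) (branch (move 559 (branch (move 524 (leaf 524 3)) (move 589 (branch (move 588 (leaf 556 1)) (move 622 (branch (move 654 (leaf 525 7)) (move 621 (branch (move 653 (leaf 525 5)) (move 592 (branch (move 593 (leaf 557 0)) (move 620 (branch (move 591 (leaf 588 1)) (move 652 (leaf 524 5)))))))))))))) (move 591 (branch (move 592 (branch (move 593 (leaf 557 3)) (move 589 (branch (move 561 (leaf 557 2)) (move 621 (branch (move 620 (leaf 588 1)) (move 653 (leaf 525 6)))))))) (branch (move 622 (branch (move 654 (leaf 525 7)) (move 621 (branch (move 653 (leaf 525 5)) (move 623 (branch (move 655 (leaf 526 4)) (move 620 (branch (move 619 (leaf 587 2)) (move 589 (branch (move 652 (leaf 524 5)) (move 588 (branch (move 587 (leaf 587 0)) (move 624 (leaf 588 0)))))))))))))) (branch (move 622 (branch (move 654 (leaf 525 7)) (move 592 (branch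 (move 593 (leaf 557 3)) (move 623 (branch (move 655 (leaf 526 4)) (move 621 (branch (move 620 (leaf 588 2)) (move 653 (leaf 525 5)))))))))) (move 592 (branch (move 593 (leaf 557 3)) (move 589 (branch (move 561 (leaf 557 2)) (move 624 (branch (move 625 (leaf 589 0)) (move 623 (branch (move 588 (leaf 588 0)) (move 655 (branch (move 622 (leaf 526 4)) (move 528 (leaf 527 5)))))))))))))))))))))))))
theorem a6p148 : a6e148.Valid :=
  pos_of_chk [] forall_nil a6c148 a6e148 (by decide +kernel)

def a6e149 : Pos := ⟨471745303432202956716463588942664849720522026980987947953904447181637266339924679313853331149090208694433365517755703559262404264522454503056578184432640363429697159168, 321053216927555945770815732963240795293430105435344372355166029535888028557619239269304661476407431582008315778523720262416887117759137676175880573538693883900340516612466566573810758344145532629258189406208, 11⟩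
def a6c149 : Cert := (move 590 (branch (move 622 (branch (move 589 (branch (move 493 (leaf 493 4)) (move 654 (branch (move 621 (leaf 525 4)) (move 686 (leaf 557 7)))))) (branch (move 558 (branch (move 493 (leaf 493 7)) (move 654 (leaf 525 7)))) (branch (move 654 (branch (move 558 (leaf 525 7)) (move 589 (branch (move 621 (leaf 525 4)) (move 686 (leaf 557 7)))))) (move 493 (branch (move 589 (leaf 493 4)) (move 558 (leaf 493 7)))))))) (branch (move 558 (branch (move 622 (branch (move 493 (leaf 493 7)) (move 654 (leaf 525 7)))) (branch (move 622 (branch (move 654 (leaf 525 7)) (move 623 (branch (move 655 (leaf 526 4)) (move 591 (branch (move 494 (leaf 494 4)) (move 621 (branch (move 653 (leaf 525 5)) (move 592 (branch (move 593 (leaf 589 1)) (move 620 (leaf 588 2)))))))))))) (move 494 (branch (move 495 (branch (move 463 (leaf 462 6)) (move 524 (branch (move 523 (leaf 491 2)) (move 496 (branch (move 493 (leaf 492 1)) (move 497 (leaf 493 1)))))))) (move 462 (branch (move 430 (leaf 429 5)) (move 591 (branch (move 559 (leaf 462 4)) (move 623 (leaf 494 4))))))))))) (branch (ref 0) (branch (move 494 (branch (move 589 (branch (move 621 (leaf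 493 6)) (move 462 (branch (move 430 (leaf 429 5)) (move 493 (leaf 461 6)))))) (branch (move 558 (branch (move 495 (branch (move 463 (leaf 462 6)) (move 524 (branch (move 523 (leaf 491 2)) (move 496 (branch (move 493 (leaf 492 1)) (move 497 (leaf 493 1)))))))) (branch (move 589 (branch (move 621 (leaf 493 5)) (move 591 (branch (move 623 (leaf 494 4)) (move 592 (branch (move 593 (leaf 557 3)) (move 560 (branch (move 561 (leaf 557 2)) (move 559 (branch (move 588 (leaf 556 1)) (move 524 (leaf 524 3)))))))))))) (move 589 (branch (move 621 (leaf 493 5)) (move 591 (branch (move 623 (leaf 494 4)) (move 592 (branch (move 593 (leaf 557 3)) (move 560 (branch (move 561 (leaf 557 2)) (move 588 (branch (move 559 (leaf 556 1)) (move 620 (branch (move 619 (leaf 587 1)) (move 493 (leaf 492 5))))))))))))))))) (branch (move 462 (branch (move 430 (leaf 429 5)) (move 558 (branch (move 589 (leaf 461 5)) (move 591 (branch (move 559 (leaf 462 4)) (move 623 (leaf 494 4)))))))) (move 558 (branch (move 495 (branch (move 463 (leaf 462 6)) (move 524 (branch (move 523 (leaf 491 2)) (move 496 (branch (move 493 (leaf 492 1)) (move 497 (leaf 493 1)))))))) (move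 462 (branch (move 430 (leaf 429 5)) (move 591 (branch (move 559 (leaf 462 4)) (move 623 (leaf 494 4)))))))))))) (branch (move 558 (branch (move 622 (branch (move 493 (leaf 493 7)) (move 654 (leaf 525 7)))) (branch (move 494 (branch (move 495 (branch (move 463 (leaf 462 6)) (move 524 (branch (move 523 (leaf 491 2)) (move 496 (branch (move 493 (leaf 492 1)) (move 497 (leaf 493 1)))))))) (move 462 (branch (move 430 (leaf 429 5)) (move 591 (branch (move 559 (leaf 462 4)) (move 623 (leaf 494 4)))))))) (move 622 (branch (move 654 (leaf 525 7)) (move 623 (branch (move 655 (leaf 526 4)) (move 494 (branch (move 591 (leaf 494 4)) (move 462 (branch (move 430 (leaf 429 5)) (move 589 (leaf 461 5))))))))))))) (ref 1)))))))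
theorem a6p149 : a6e149.Valid :=
  pos_of_chk [a6e147, a6e148] (forall_cons a6p147 (forall_cons a6p148 forall_nil)) a6c149 a6e149 (by decide +kernel)

def a6e150 : Pos := ⟨1415235909637588294776852234189732072449752332085098055047956022243043306937961892335385012443504900579800459275446664784205050422003652661196936747290814374342045990912, 289660229999039707881575436472187949313714676872525218959035846849515293968523341344585295301722078984437477553449506470116527812493805944368473218987902961703515377127905815746385170808869606129664, 12⟩
def a6c150 : Cert := (move 559 (branch (move 560 (branch (move 561 (leaf 525 3)) (move 592 (branch (move 593 (leaf 557 0)) (move 591 (branch (move 556 (leaf 556 0)) (move 528 (branch (move 529 (leaf 525 2)) (move 623 (branch (move 496 (leaf 495 5)) (move 655 (leaf 527 6)))))))))))) (branch (move 524 (branch (move 523 (leaf 523 0)) (move 560 (leaf 524 3)))) (move 556 (branch (move 555 (branch (move 554 (leaf 522 2)) (move 587 (branch (move 586 (leaf 554 1)) (move 588 (leaf 555 1)))))) (branch (move 555 (branch (move 554 (leaf 522 2)) (move 591 (branch (move 590 (leaf 555 0)) (move 592 (leaf 556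 0)))))) (move 524 (branch (move 523 (leaf 523 0)) (move 588 (branch (move 587 (leaf 555 1)) (move 620 (branch (move 652 (leaf 524 6)) (move 621 (branch (move 653 (leaf 524 4)) (move 492 (branch (move 589 (leaf 492 4)) (move 591 (branch (move 592 (leaf 556 0)) (move 619 (branch (move 651 (leaf 523 5)) (move 622 (branch (move 590 (leaf 587 2)) (move 655 (branch (move 654 (leaf 619 0)) (move 623 (leaf 526 7))))))))))))))))))))))))))
theorem a6p150 : a6e150.Valid :=
  pos_of_chk [] forall_nil a6c150 a6e150 (by decide +kernel)

def a6e151 : Pos := ⟨1415235909637588294776852234189732072449752332085098055047956022243043306937961892335385012443504900579800459275446664784205050422003652661196936747290814374342045990912, 56063270322394782161926579888489030834877137590736788739242931412588402625696640086694406967595047764672147966138355791580189388733788376639980633128264373247178117293318911443683840520232728788992, 8⟩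
def a6c151 : Cert := (move 559 (branch (move 524 (branch (move 523 (leaf 523 0)) (move 560 (leaf 524 3)))) (branch (move 560 (branch (move 561 (leaf 525 3)) (move 589 (branch (move 588 (leaf 556 1)) (move 494 (branch (move 462 (leaf 461 5)) (move 621 (leaf 493 6)))))))) (move 556 (branch (move 555 (branch (move 554 (leaf 522 2)) (move 587 (branch (move 586 (leaf 554 1)) (move 588 (leaf 555 1)))))) (branch (move 523 (branch (move 524 (leaf 523 0)) (move 555 (branch (move 554 (leaf 522 2)) (move 522 (leaf 522 3)))))) (move 524 (branch (move 523 (leaf 523 0)) (move 588 (branch (move 587 (leaf 555 1)) (move 620 (branch (move 652 (leaf 524 6)) (move 621 (branch (move 653 (leaf 524 4)) (move 589 (branch (move 492 (leaf 492 4)) (move 494 (leaf 493 6))))))))))))))))))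
theorem a6p151 : a6e151.Valid :=
  pos_of_chk [] forall_nil a6c151 a6e151 (by decide +kernel)

def a6e152 : Pos := ⟨471745303432202956716463588942664849720522026980987947953904447181637266339924679313853331149090208694433365517755703559262404264522454503056578184432640363429697159168, 289660229999039707881575436473131439919933791806059309008493735100984451006067426840923835024935522045231727504242422991217294964451842831464641349595879212888305215786886035308130174130475549851648, 13⟩
def a6c152 : Cert := (move 558 (branch (move 559 (branch (move 524 (branch (move 523 (leaf 523 0)) (move 560 (leaf 524 3)))) (move 556 (branch (move 591 (branch (move 592 (leaf 556 0)) (move 494 (branch (move 462 (leaf 462 4)) (move 623 (branch (move 590 (leaf 494 4)) (move 655 (leaf 526 7)))))))) (move 555 (branch (move 554 (leaf 522 2)) (move 587 (branch (move 586 (leaf 554 1)) (move 588 (leaf 555 1)))))))))) (branch (ref 0) (branch (move 494 (branch (move 589 (branch (move 462 (leaf 461 5)) (move 621 (leaf 493 6)))) (branch (move 462 (branch (move 430 (leaf 429 5)) (move 559 (branch (move 591 (leaf 462 4)) (move 524 (branch (move 523 (leaf 523 0))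 (move 560 (leaf 524 3)))))))) (move 590 (branch (move 622 (branch (move 654 (leaf 525 7)) (move 623 (branch (move 591 (leaf 494 4)) (move 655 (leaf 526 4)))))) (branch (move 589 (branch (move 621 (leaf 493 5)) (move 591 (branch (move 623 (leaf 494 4)) (move 592 (branch (move 593 (leaf 557 3)) (move 560 (branch (move 561 (leaf 557 2)) (move 559 (branch (move 588 (leaf 556 1)) (move 524 (leaf 524 3)))))))))))) (move 621 (branch (move 589 (leaf 493 5)) (move 622 (branch (move 653 (leaf 525 5)) (move 654 (leaf 525 7)))))))))))) (branch (ref 1) (move 494 (branch (move 589 (branch (move 462 (leaf 461 5)) (move 621 (leaf 493 6)))) (branch (move 462 (branch (move 430 (leaf 429 5)) (move 463 (branch (move 431 (leaf 430 6)) (move 590 (branch (move 495 (leaf 462 6)) (move 622 (branch (move 654 (leaf 525 7)) (move 623 (branch (move 591 (leaf 494 4)) (move 655 (leaf 526 4)))))))))))) (move 590 (branch (move 622 (branch (move 654 (leaf 525 7)) (move 623 (branch (move 591 (leaf 494 4)) (move 655 (leaf 526 4)))))) (branch (move 621 (branch (move 589 (leaf 493 5)) (move 622 (branch (move 653 (leaf 525 5)) (move 654 (leaf 525 7)))))) (move 589 (branch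 (move 621 (leaf 493 5)) (move 591 (branch (move 623 (leaf 494 4)) (move 556 (branch (move 555 (leaf 555 0)) (move 592 (leaf 556 3)))))))))))))))))))
theorem a6p152 : a6e152.Valid :=
  pos_of_chk [a6e150, a6e151] (forall_cons a6p150 (forall_cons a6p151 forall_nil)) a6c152 a6e152 (by decide +kernel)

def a6e153 : Pos := ⟨6078391948018252938488824726231522065613699282390529926860489791982412453360547643821720382947769092439935365044406553920072329902800380700978163352990130640006973501352794128384, 80263304180497655508009103396321937848767360299755958258139349052286134277724988525607430308772432107273016129567343789667968466873139534343811581797050941190413015721771079771475193919677924589388945162240, 7⟩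
def a6c153 : Cert := (move 588 (branch (move 587 (branch (move 586 (leaf 554 2)) (move 620 (branch (move 493 (leaf 492 5)) (move 619 (branch (move 618 (leaf 586 1)) (move 591 (leaf 587 1)))))))) (branch (move 587 (branch (move 586 (leaf 554 2)) (move 555 (branch (move 554 (leaf 554 3)) (move 591 (branch (move 556 (leaf 555 0)) (move 592 (branch (move 593 (leaf 557 3)) (move 624 (branch (move 623 (leaf 588 0)) (move 625 (leaf 589 0)))))))))))) (branch (move 620 (branch (move 493 (leaf 492 5)) (move 556 (branch (move 652 (leaf 524 6)) (move 555 (branch (move 554 (leaf 554 0)) (move 591 (leaf 555 0)))))))) (move 587 (branch (move 586 (leaf 554 2)) (move 555 (branch (move 554 (leaf 554 3)) (move 620 (branch (move 493 (leaf 492 5)) (move 652 (branch (move 556 (leaf 524 6)) (move 684 (leaf 556 6))))))))))))))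
theorem a6p153 : a6e153.Valid :=
  pos_of_chk [] forall_nil a6c153 a6e153 (by decide +kernel)

def a6e154 : Pos := ⟨1415235909637588294776852234189732072449752332085098055047956022243043306937961892335385012443504900579800459275446664784205050422003652661196936747290814374342045990912, 80263304442126250307779448758491535570278906194915817641898790217999057828655062071057313676112205227132837000654598582723028433267866017039254415857868549428396167491085852299089423792369324548759375314944, 7⟩
def a6c154 : Cert := (move 589 (branch (move 621 (branch (move 653 (leaf 525 6)) (move 622 (branch (move 654 (leaf 525 4)) (move 590 (branch (move 493 (leaf 493 4)) (move 623 (branch (move 655 (leaf 526 4)) (move 624 (branch (move 588 (leaf 588 3)) (move 625 (leaf 589 3)))))))))))) (branch (move 621 (branch (move 653 (leaf 525 6)) (move 524 (branch (move 492 (leaf 492 7)) (move 523 (branch (move 522 (leaf 522 0)) (move 559 (leaf 523 0)))))))) (move 588 (branch (move 559 (branch (move 560 (leaf 556 1)) (move 587 (branch (move 586 (leaf 554 2)) (move 590 (leaf 555 2)))))) (move 620 (branch (move 493 (leaf 492 5)) (move 652 (branch (move 556 (leaf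 524 6)) (move 684 (leaf 556 6)))))))))))
theorem a6p154 : a6e154.Valid :=
  pos_of_chk [] forall_nil a6c154 a6e154 (by decide +kernel)

def a6e155 : Pos := ⟨26106494622929736438328729302066643275916887608514706412689598799395581570290181501246522209624095470831079618263925975228191487834557193771782730272671650039755938137822953400742331809792, 2389696897186957933707151283223075641680343350317557244770026673012784741940264234669391361877609519287113504586968947810707907905885656044794175687558700967736821475145689697485516587780842253713408, 9⟩
def a6c155 : Cert := (move 623 (branch (move 591 (branch (move 592 (leaf 556 0)) (move 655 (leaf 526 7)))) (branch (move 524 (branch (move 523 (leaf 523 0)) (move 592 (branch (move 591 (leaf 556 0)) (move 624 (branch (move 593 (leaf 589 2)) (move 653 (branch (move 652 (leaf 620 1)) (move 625 (branch (move 654 (leaf 621 1)) (move 657 (branch (move 656 (leaf 621 0)) (move 658 (leaf 622 0)))))))))))))) (branch (move 524 (branch (move 523 (leaf 523 0)) (move 655 (branch (move 591 (leaf 526 7)) (move 656 (branch (move 620 (leaf 620 0)) (move 657 (branch (move 624 (leaf 621 0)) (move 654 (leaf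 621 3)))))))))) (move 620 (branch (move 655 (branch (move 656 (leaf 620 0)) (move 619 (branch (move 654 (leaf 619 0)) (move 651 (branch (move 650 (leaf 618 1)) (move 652 (leaf 619 1)))))))) (branch (move 524 (branch (move 523 (leaf 523 0)) (move 655 (branch (move 656 (leaf 620 0)) (move 619 (branch (move 654 (leaf 619 0)) (move 586 (branch (move 587 (leaf 586 3)) (move 618 (branch (move 585 (leaf 585 3)) (move 650 (branch (move 649 (leaf 617 1)) (move 651 (leaf 618 1)))))))))))))) (branch (move 524 (branch (move 523 (leaf 523 0)) (move 652 (branch (move 651 (leaf 619 1)) (move 624 (branch (move 653 (leaf 620 1)) (move 593 (branch (move 592 (leaf 589 2)) (move 625 (branch (move 594 (leaf 590 2)) (move 657 (branch (move 656 (leaf 621 0)) (move 658 (leaf 622 0)))))))))))))) (branch (move 524 (branch (move 523 (leaf 523 0)) (move 656 (branch (move 655 (leaf 620 0)) (move 624 (branch (move 657 (leaf 621 0)) (move 593 (branch (move 592 (leaf 589 2)) (move 625 (branch (move 594 (leaf 590 2)) (move 653 (branch (move 652 (leaf 620 1)) (move 654 (leaf 621 1)))))))))))))) (move 524 (branch (move 523 (leaf 523 0)) (move 651 (branch (move 652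 (leaf 619 1)) (move 619 (branch (move 650 (leaf 618 1)) (move 586 (branch (move 587 (leaf 586 3)) (move 618 (branch (move 585 (leaf 585 3)) (move 654 (branch (move 653 (leaf 618 0)) (move 655 (leaf 619 0)))))))))))))))))))))))
theorem a6p155 : a6e155.Valid :=
  pos_of_chk [] forall_nil a6c155 a6e155 (by decide +kernel)

def a6e156 : Pos := ⟨471745303432202956716463588942664849720522026980987947953904447181637266339924679313853331149090208694433365517755703559262404264522454503056578184432640363429697159168, 80263306551506795700018009313736940223960516171815116532956810673504028977067460963317543701278371435250829771353609552030529631841833833427374853773439329481719090809372999060428998978816036148143087157248, 14⟩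
def a6c156 : Cert := (move 558 (branch (move 589 (branch (move 621 (branch (move 653 (leaf 525 6)) (move 620 (branch (move 652 (leaf 524 5)) (move 588 (branch (move 493 (leaf 492 5)) (move 524 (branch (move 492 (leaf 492 7)) (move 523 (branch (move 522 (leaf 522 0)) (move 491 (branch (move 490 (leaf 490 3)) (move 556 (leaf 491 7)))))))))))))) (branch (move 621 (branch (move 653 (leaf 525 6)) (move 622 (branch (move 654 (leaf 525 4)) (move 620 (branch (move 652 (leaf 524 5)) (move 524 (branch (move 492 (leaf 492 7)) (move 523 (branch (move 522 (leaf 522 0)) (move 555 (branch (move 554 (leaf 522 1)) (move 491 (branch (move 490 (leaf 490 3)) (move 588 (branch (move 587 (leaf 491 4)) (move 556 (leaf 491 7)))))))))))))))))) (branch (move 621 (branch (move 653 (leaf 525 6)) (move 622 (branch (move 654 (leaf 525 4)) (move 590 (branch (move 493 (leaf 493 4)) (move 620 (branch (move 652 (leaf 524 5)) (move 591 (branch (move 592 (leaf 588 1)) (move 619 (leaf 587 2)))))))))))) (branch (move 621 (branch (move 653 (leaf 525 6)) (move 622 (branch (move 654 (leaf 525 4)) (move 590 (branch (move 493 (leaf 493 4)) (move 623 (branch (move 655 (leaf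 526 4)) (move 624 (branch (move 588 (leaf 588 3)) (move 625 (leaf 589 3)))))))))))) (move 590 (branch (move 622 (branch (move 654 (leaf 525 7)) (move 623 (branch (move 655 (leaf 526 4)) (move 588 (branch (move 587 (leaf 587 0)) (move 591 (branch (move 624 (leaf 588 0)) (move 556 (branch (move 555 (leaf 555 0)) (move 592 (leaf 556 3)))))))))))) (branch (move 622 (branch (move 493 (leaf 493 4)) (move 654 (leaf 525 7)))) (ref 0))))))))) (branch (ref 1) (branch (move 524 (branch (move 523 (branch (move 522 (leaf 522 0)) (move 559 (leaf 523 0)))) (branch (move 589 (branch (move 621 (branch (move 653 (leaf 525 6)) (move 492 (leaf 492 7)))) (move 590 (branch (move 559 (branch (move 560 (leaf 524 3)) (move 622 (branch (move 654 (leaf 525 7)) (move 623 (branch (move 655 (leaf 526 4)) (move 588 (branch (move 587 (leaf 587 0)) (move 624 (branch (move 591 (leaf 588 0)) (move 625 (leaf 589 3)))))))))))) (branch (move 559 (branch (move 560 (leaf 524 3)) (move 588 (branch (move 587 (leaf 555 2)) (move 620 (branch (move 493 (leaf 492 5)) (move 591 (branch (move 619 (leaf 587 1)) (move 623 (branch (move 624 (leaf 588 0)) (move 655 (leaf 526 7))))))))))))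 (move 622 (branch (move 493 (leaf 493 4)) (move 654 (leaf 525 7))))))))) (move 492 (branch (move 589 (branch (move 621 (leaf 492 7)) (move 460 (branch (move 428 (leaf 428 4)) (move 493 (leaf 460 7)))))) (branch (move 523 (branch (move 522 (leaf 522 0)) (move 491 (branch (move 490 (leaf 490 3)) (move 555 (branch (move 554 (leaf 522 1)) (move 460 (branch (move 428 (leaf 428 4)) (move 587 (leaf 459 6)))))))))) (move 523 (branch (move 522 (leaf 522 0)) (move 491 (branch (move 490 (leaf 490 3)) (move 589 (branch (move 621 (leaf 492 7)) (move 555 (branch (move 554 (leaf 522 1)) (move 587 (branch (move 619 (leaf 491 6)) (move 588 (branch (move 586 (leaf 554 2)) (move 620 (leaf 491 4)))))))))))))))))))) (branch (move 556 (branch (move 590 (branch (move 591 (branch (move 555 (leaf 555 0)) (move 592 (branch (move 589 (leaf 556 3)) (move 593 (leaf 557 3)))))) (move 622 (branch (move 493 (leaf 493 7)) (move 654 (leaf 525 7)))))) (branch (move 555 (branch (move 554 (leaf 522 2)) (move 587 (branch (move 586 (leaf 554 1)) (move 588 (branch (move 559 (leaf 555 1)) (move 523 (branch (move 522 (leaf 522 3)) (move 620 (branch (move 491 (leaf 491 4))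 (move 652 (leaf 524 6)))))))))))) (move 588 (branch (move 559 (branch (move 587 (leaf 555 1)) (move 560 (branch (move 561 (leaf 525 3)) (move 592 (branch (move 591 (leaf 556 0)) (move 593 (leaf 557 0)))))))) (branch (move 620 (branch (move 652 (leaf 524 6)) (move 589 (branch (move 493 (leaf 492 5)) (move 621 (branch (move 653 (leaf 525 6)) (move 622 (branch (move 654 (leaf 525 4)) (move 587 (branch (move 586 (leaf 586 0)) (move 623 (leaf 587 3)))))))))))) (move 620 (branch (move 652 (leaf 524 6)) (move 589 (branch (move 493 (leaf 492 5)) (move 621 (branch (move 653 (leaf 525 6)) (move 622 (branch (move 654 (leaf 525 4)) (move 623 (branch (move 624 (leaf 588 3)) (move 591 (branch (move 592 (leaf 588 2)) (move 590 (branch (move 619 (leaf 587 1)) (move 655 (leaf 526 4)))))))))))))))))))))) (branch (ref 2) (branch (ref 3) (branch (move 559 (branch (move 556 (branch (move 555 (branch (move 554 (leaf 522 2)) (move 587 (branch (move 586 (leaf 554 1)) (move 588 (leaf 555 1)))))) (branch (move 588 (branch (move 587 (leaf 555 1)) (move 620 (branch (move 652 (leaf 524 6)) (move 589 (branch (move 493 (leaf 492 5)) (move 591 (branch (move 592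 (leaf 556 0)) (move 621 (branch (move 653 (leaf 525 6)) (move 590 (branch (move 619 (leaf 587 1)) (move 622 (branch (move 654 (leaf 525 4)) (move 623 (branch (move 624 (leaf 588 0)) (move 655 (leaf 526 4)))))))))))))))))) (move 555 (branch (move 554 (leaf 522 2)) (move 591 (branch (move 590 (leaf 555 0)) (move 592 (leaf 556 0))))))))) (move 560 (branch (move 524 (leaf 524 3)) (move 561 (leaf 525 3)))))) (branch (move 556 (branch (move 590 (branch (move 591 (branch (move 555 (leaf 555 0)) (move 592 (branch (move 589 (leaf 556 3)) (move 593 (leaf 557 3)))))) (move 622 (branch (move 493 (leaf 493 7)) (move 654 (leaf 525 7)))))) (branch (move 555 (branch (move 554 (leaf 522 2)) (move 523 (branch (move 522 (leaf 522 3)) (move 524 (branch (move 559 (leaf 523 0)) (move 491 (branch (move 490 (leaf 490 3)) (move 588 (branch (move 459 (leaf 459 4)) (move 620 (leaf 491 7)))))))))))) (move 524 (branch (move 523 (branch (move 522 (leaf 522 0)) (move 491 (branch (move 490 (leaf 490 3)) (move 588 (branch (move 620 (leaf 491 7)) (move 459 (branch (move 427 (leaf 427 4)) (move 492 (leaf 459 7)))))))))) (branch (move 559 (branch (move 523 (leaf 523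 0)) (move 560 (leaf 524 3)))) (move 492 (branch (move 460 (branch (move 428 (leaf 428 4)) (move 459 (branch (move 427 (leaf 427 7)) (move 491 (branch (move 588 (leaf 459 7)) (move 490 (branch (move 489 (leaf 489 0)) (move 493 (leaf 490 0)))))))))) (branch (move 589 (branch (move 460 (leaf 460 4)) (move 621 (leaf 492 7)))) (move 588 (branch (move 491 (branch (move 459 (leaf 459 7)) (move 490 (branch (move 489 (leaf 489 0)) (move 493 (leaf 490 0)))))) (move 589 (branch (move 621 (leaf 492 4)) (move 559 (branch (move 560 (leaf 556 1)) (move 591 (branch (move 592 (leaf 556 0)) (move 620 (branch (move 652 (leaf 524 6)) (move 619 (branch (move 590 (leaf 587 1)) (move 651 (leaf 523 5))))))))))))))))))))))) (branch (move 559 (branch (move 560 (branch (move 561 (leaf 525 3)) (move 592 (branch (move 593 (leaf 557 0)) (move 591 (branch (move 556 (leaf 556 0)) (move 528 (branch (move 529 (leaf 525 2)) (move 623 (branch (move 496 (leaf 495 5)) (move 655 (leaf 527 6)))))))))))) (branch (move 524 (branch (move 523 (leaf 523 0)) (move 560 (leaf 524 3)))) (move 556 (branch (move 555 (branch (move 554 (leaf 522 2)) (move 587 (branch (move 586 (leaf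 554 1)) (move 588 (leaf 555 1)))))) (branch (move 524 (branch (move 523 (leaf 523 0)) (move 591 (branch (move 592 (leaf 556 0)) (move 590 (branch (move 555 (leaf 555 0)) (move 622 (branch (move 493 (leaf 493 7)) (move 654 (leaf 525 7)))))))))) (move 590 (branch (move 622 (branch (move 493 (leaf 493 7)) (move 654 (leaf 525 7)))) (move 524 (branch (move 523 (leaf 523 0)) (move 591 (branch (move 592 (leaf 556 0)) (move 588 (branch (move 587 (leaf 555 1)) (move 623 (branch (move 655 (leaf 526 7)) (move 589 (branch (move 624 (leaf 588 0)) (move 621 (branch (move 492 (leaf 492 4)) (move 653 (leaf 525 6)))))))))))))))))))))) (move 559 (branch (move 560 (branch (move 561 (leaf 525 3)) (move 592 (branch (move 593 (leaf 557 0)) (move 591 (branch (move 556 (leaf 556 0)) (move 528 (branch (move 529 (leaf 525 2)) (move 623 (branch (move 496 (leaf 495 5)) (move 655 (leaf 527 6)))))))))))) (branch (move 524 (branch (move 523 (leaf 523 0)) (move 560 (leaf 524 3)))) (move 556 (branch (move 555 (branch (move 554 (leaf 522 2)) (move 591 (branch (move 590 (leaf 555 0)) (move 592 (leaf 556 0)))))) (branch (move 523 (branch (move 524 (leaf 523 0)) (move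 555 (branch (move 554 (leaf 522 2)) (move 522 (leaf 522 3)))))) (move 622 (branch (move 590 (branch (move 493 (leaf 493 7)) (move 654 (leaf 525 7)))) (branch (move 524 (branch (move 523 (leaf 523 0)) (move 590 (branch (move 493 (leaf 493 7)) (move 621 (branch (move 653 (leaf 525 5)) (move 591 (branch (move 592 (leaf 556 0)) (move 623 (branch (move 655 (leaf 526 4)) (move 589 (branch (move 492 (leaf 492 7)) (move 620 (branch (move 619 (leaf 587 2)) (move 652 (leaf 524 5)))))))))))))))) (move 621 (branch (move 589 (branch (move 654 (leaf 525 4)) (move 653 (leaf 525 6)))) (branch (move 524 (branch (move 523 (leaf 523 0)) (move 589 (branch (move 654 (leaf 525 4)) (move 492 (leaf 492 7)))))) (branch (move 524 (branch (move 523 (leaf 523 0)) (move 589 (branch (move 653 (leaf 525 6)) (move 492 (leaf 492 7)))))) (ref 4))))))))))))))))))))))))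
theorem a6p156 : a6e156.Valid :=
  pos_of_chk [a6e153, a6e139, a6e154, a6e150, a6e155] (forall_cons a6p153 (forall_cons a6p139 (forall_cons a6p154 (forall_cons a6p150 (forall_cons a6p155 forall_nil))))) a6c156 a6e156 (by decide +kernel)

def a6e157 : Pos := ⟨2026130649339417646455839608909413369710460861557649419556992503466918515254346322199156636807556355703874333016357578985722085920303310176576592605651287016005483040871840481280, 547692501839436879433108680086296583300365588807184077086073998217228830714099658559483440435783071370247412839847505691371491822153918494905598094966154193958333874936874078792006550683648, 12⟩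
def a6c157 : Cert := (move 493 (branch (move 494 (branch (move 462 (leaf 461 6)) (move 492 (branch (move 460 (leaf 460 7)) (move 491 (branch (move 490 (leaf 490 0)) (move 523 (branch (move 522 (leaf 490 1)) (move 495 (branch (move 524 (leaf 491 1)) (move 496 (branch (move 497 (leaf 493 1)) (move 464 (branch (move 463 (leaf 460 2)) (move 465 (leaf 461 2)))))))))))))))) (branch (move 494 (branch (move 462 (leaf 461 6)) (move 492 (branch (move 460 (leaf 460 7)) (move 491 (branch (move 490 (leaf 490 0)) (move 590 (branch (move 622 (leaf 493 4)) (move 588 (branch (move 620 (leaf 492 5)) (move 459 (branch (move 458 (leaf 458 3)) (move 523 (branch (move 522 (leaf 490 1)) (move 555 (branch (move 556 (leaf 459 4)) (move 554 (branch (move 587 (leaf 554 3)) (move 586 (leaf 458 5)))))))))))))))))))) (branch (move 555 (branch (move 554 (branch (move 556 (leaf 522 2)) (move 588 (branch (move 620 (leaf 492 5)) (move 590 (branch (move 587 (leaf 554 3)) (move 622 (leaf 493 4)))))))) (branch (move 492 (branch (move 460 (leaf 460 7)) (move 491 (branch (move 490 (leaf 490 0)) (move 588 (branch (move 620 (leaf 492 5)) (move 590 (branch (move 622 (leaf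 493 4)) (move 587 (branch (move 554 (leaf 554 3)) (move 618 (branch (move 619 (leaf 586 1)) (move 586 (branch (move 617 (leaf 585 1)) (move 523 (leaf 490 5)))))))))))))))) (branch (move 554 (branch (move 556 (leaf 522 2)) (move 523 (branch (move 524 (leaf 522 1)) (move 492 (branch (move 460 (leaf 460 7)) (move 491 (branch (move 490 (leaf 490 0)) (move 586 (branch (move 459 (leaf 458 5)) (move 618 (branch (move 587 (leaf 490 5)) (move 522 (leaf 490 6)))))))))))))) (move 590 (branch (move 622 (leaf 493 4)) (move 588 (branch (move 620 (leaf 492 5)) (move 591 (branch (move 556 (leaf 555 3)) (move 492 (branch (move 460 (leaf 460 7)) (move 491 (branch (move 490 (leaf 490 0)) (move 624 (branch (move 623 (leaf 588 0)) (move 592 (branch (move 625 (leaf 589 0)) (move 593 (branch (move 558 (leaf 557 3)) (move 561 (branch (move 560 (leaf 557 2)) (move 562 (leaf 558 2)))))))))))))))))))))))) (move 590 (branch (move 622 (leaf 493 4)) (move 591 (branch (move 592 (branch (move 556 (leaf 556 3)) (move 494 (branch (move 462 (leaf 461 6)) (move 560 (branch (move 561 (leaf 557 2)) (move 625 (branch (move 624 (leaf 589 0)) (move 593 (branch (move 626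 (leaf 590 0)) (move 496 (branch (move 528 (leaf 496 4)) (move 495 (branch (move 524 (leaf 492 1)) (move 497 (leaf 493 1)))))))))))))))) (branch (move 588 (branch (move 620 (leaf 492 5)) (move 556 (branch (move 555 (leaf 555 3)) (move 592 (leaf 556 3)))))) (move 494 (branch (move 462 (leaf 461 6)) (move 588 (branch (move 620 (leaf 492 5)) (move 623 (branch (move 624 (leaf 588 0)) (move 558 (leaf 494 4)))))))))))))))))
theorem a6p157 : a6e157.Valid :=
  pos_of_chk [] forall_nil a6c157 a6e157 (by decide +kernel)

def a6e158 : Pos := ⟨2026130650282908252661224946969802014957528084286879724661102610560970090315752362797193849829088036998289024901724672743413047145245956334057790763791645578863657051784189313024, 80263304180497655280665046002296086197272162976950660490486701560614400704015816839424450214446076722982545177475452062804168861352135196878631572956905053677969340179894473049524876899262227686626686926848, 8⟩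
def a6c158 : Cert := (move 588 (branch (move 559 (branch (move 560 (leaf 556 1)) (move 587 (branch (move 586 (leaf 554 2)) (move 590 (leaf 555 2)))))) (branch (move 559 (branch (move 560 (leaf 556 1)) (move 523 (branch (move 524 (leaf 523 0)) (move 620 (branch (move 493 (leaf 492 5)) (move 587 (branch (move 586 (leaf 554 2)) (move 555 (branch (move 491 (leaf 491 4)) (move 652 (branch (move 619 (leaf 523 4)) (move 684 (leaf 556 6)))))))))))))) (move 493 (branch (move 620 (leaf 492 5)) (move 494 (branch (move 462 (leaf 461 5)) (move 590 (branch (move 622 (leaf 493 4)) (move 495 (branch (move 463 (leaf 462 6)) (move 524 (branch (move 496 (leaf 492 1)) (move 523 (leaf 491 2)))))))))))))))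
theorem a6p158 : a6e158.Valid :=
  pos_of_chk [] forall_nil a6c158 a6e158 (by decide +kernel)

def a6e159 : Pos := ⟨471745303432202956716463588942664849720522026980987947953904447181637266339924679313853331149090208694433365517755703559262404264522454503056578184432640363429697159168, 80263304442126250101103033050362780305149488813029111732490892501045500896078351933253877736694051353560064529977788459597821330227961846514233803744128879036104900979275869328542168348652620759861907423232, 10⟩
def a6c159 : Cert := (move 558 (branch (move 590 (branch (move 622 (branch (move 493 (leaf 493 7)) (move 654 (leaf 525 7)))) (move 591 (branch (move 556 (branch (move 555 (leaf 555 0)) (move 592 (branch (move 559 (leaf 556 0)) (move 593 (leaf 557 3)))))) (move 494 (branch (move 623 (leaf 494 4)) (move 462 (branch (move 430 (leaf 429 5)) (move 463 (branch (move 431 (leaf 430 6)) (move 495 (leaf 462 6)))))))))))) (branch (move 559 (branch (move 560 (branch (move 561 (leaf 525 3)) (move 592 (branch (move 593 (leaf 557 0)) (move 591 (branch (move 556 (leaf 556 0)) (move 528 (branch (move 529 (leaf 525 2)) (move 623 (branch (move 496 (leaf 495 5))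 (move 655 (leaf 527 6)))))))))))) (branch (move 524 (branch (move 523 (leaf 523 0)) (move 560 (leaf 524 3)))) (move 556 (branch (move 555 (branch (move 554 (leaf 522 2)) (move 587 (branch (move 586 (leaf 554 1)) (move 588 (leaf 555 1)))))) (branch (move 524 (branch (move 523 (leaf 523 0)) (move 588 (branch (move 587 (leaf 555 1)) (move 620 (branch (move 493 (leaf 492 6)) (move 652 (leaf 524 6)))))))) (move 523 (branch (move 524 (leaf 523 0)) (move 555 (branch (move 554 (leaf 522 2)) (move 522 (leaf 522 3)))))))))))) (branch (move 559 (branch (move 524 (branch (move 523 (leaf 523 0)) (move 560 (leaf 524 3)))) (move 556 (branch (move 591 (branch (move 592 (leaf 556 0)) (move 494 (branch (move 462 (leaf 462 4)) (move 623 (branch (move 590 (leaf 494 4)) (move 655 (leaf 526 7)))))))) (move 555 (branch (move 554 (leaf 522 2)) (move 587 (branch (move 586 (leaf 554 1)) (move 588 (leaf 555 1)))))))))) (branch (move 494 (branch (move 590 (branch (move 495 (branch (move 463 (leaf 462 6)) (move 524 (branch (move 523 (leaf 491 2)) (move 496 (branch (move 493 (leaf 492 1)) (move 497 (leaf 493 1)))))))) (move 622 (branch (move 654 (leaf 525 7))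 (move 623 (branch (move 591 (leaf 494 4)) (move 655 (leaf 526 4)))))))) (move 462 (branch (move 430 (leaf 429 5)) (move 589 (leaf 461 5)))))) (branch (move 589 (branch (move 621 (branch (move 653 (leaf 525 6)) (move 620 (branch (move 652 (leaf 524 5)) (move 588 (branch (move 493 (leaf 492 5)) (move 587 (branch (move 586 (leaf 554 2)) (move 622 (branch (move 623 (leaf 587 3)) (move 654 (leaf 525 4)))))))))))) (branch (move 494 (branch (move 462 (leaf 461 5)) (move 621 (leaf 493 6)))) (ref 0)))) (move 589 (branch (move 494 (branch (move 462 (leaf 461 5)) (move 621 (leaf 493 6)))) (branch (move 621 (branch (move 653 (leaf 525 6)) (move 622 (branch (move 654 (leaf 525 4)) (move 590 (branch (move 493 (leaf 493 4)) (move 620 (branch (move 652 (leaf 524 5)) (move 591 (branch (move 592 (leaf 588 1)) (move 619 (leaf 587 2)))))))))))) (ref 0))))))))))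
theorem a6p159 : a6e159.Valid :=
  pos_of_chk [a6e158] (forall_cons a6p158 forall_nil) a6c159 a6e159 (by decide +kernel)

def a6e160 : Pos := ⟨471745303432202956716463588942664849720522026980987947953904447181637266339924679313853331149090208694433365517755703559262404264522454503056578184432640363429697159168, 80263304376719101599406640240029750372411078901803455385059707492565346876855630064597696691981196007575555264432622493609381402308630531198746569306772164807415688980981581169124147709930604257223414644736, 12⟩
def a6c160 : Cert := (move 558 (branch (ref 0) (branch (move 559 (branch (move 524 (branch (move 523 (leaf 523 0)) (move 560 (leaf 524 3)))) (move 556 (branch (move 591 (branch (move 592 (leaf 556 0)) (move 494 (branch (move 462 (leaf 462 4)) (move 623 (branch (move 590 (leaf 494 4)) (move 655 (leaf 526 7)))))))) (move 555 (branch (move 554 (leaf 522 2)) (move 587 (branch (move 586 (leaf 554 1)) (move 588 (leaf 555 1)))))))))) (branch (move 494 (branch (move 462 (branch (move 430 (leaf 429 5)) (move 559 (branch (move 591 (leaf 462 4)) (move 560 (branch (move 561 (leaf 525 3)) (move 463 (branch (move 431 (leaf 430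 6)) (move 592 (branch (move 593 (leaf 557 0)) (move 528 (branch (move 529 (leaf 525 2)) (move 496 (branch (move 495 (leaf 463 7)) (move 465 (branch (move 497 (leaf 464 6)) (move 464 (branch (move 493 (leaf 461 1)) (move 433 (leaf 432 6)))))))))))))))))))) (branch (move 589 (branch (move 462 (leaf 461 5)) (move 621 (leaf 493 6)))) (move 590 (branch (move 495 (branch (move 463 (leaf 462 6)) (move 524 (branch (move 523 (leaf 491 2)) (move 496 (branch (move 493 (leaf 492 1)) (move 497 (leaf 493 1)))))))) (branch (move 589 (branch (move 621 (leaf 493 5)) (move 591 (branch (move 623 (leaf 494 4)) (move 592 (branch (move 593 (leaf 557 3)) (move 560 (branch (move 561 (leaf 557 2)) (move 559 (branch (move 588 (leaf 556 1)) (move 524 (leaf 524 3)))))))))))) (move 589 (branch (move 621 (leaf 493 5)) (move 591 (branch (move 623 (leaf 494 4)) (move 592 (branch (move 593 (leaf 557 3)) (move 560 (branch (move 561 (leaf 557 2)) (move 588 (branch (move 559 (leaf 556 1)) (move 620 (branch (move 619 (leaf 587 1)) (move 493 (leaf 492 5)))))))))))))))))))) (branch (move 589 (branch (move 494 (branch (move 462 (leaf 461 5)) (move 621 (leaf 493 6))))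 (branch (move 621 (branch (move 653 (leaf 525 6)) (move 620 (branch (move 652 (leaf 524 5)) (move 588 (branch (move 493 (leaf 492 5)) (move 524 (branch (move 492 (leaf 492 7)) (move 523 (branch (move 522 (leaf 522 0)) (move 491 (branch (move 490 (leaf 490 3)) (move 556 (leaf 491 7)))))))))))))) (move 590 (branch (ref 1) (branch (move 494 (branch (move 462 (leaf 461 5)) (move 591 (branch (move 623 (leaf 494 4)) (move 556 (branch (move 555 (leaf 555 0)) (move 592 (leaf 556 3)))))))) (move 494 (branch (move 462 (leaf 461 5)) (move 495 (branch (move 463 (leaf 462 6)) (move 524 (branch (move 523 (leaf 491 2)) (move 496 (branch (move 493 (leaf 492 1)) (move 497 (leaf 493 1)))))))))))))))) (branch (move 589 (branch (move 494 (branch (move 462 (leaf 461 5)) (move 621 (leaf 493 6)))) (move 588 (branch (move 559 (branch (move 560 (leaf 556 1)) (move 587 (branch (move 586 (leaf 554 2)) (move 590 (leaf 555 2)))))) (move 620 (branch (move 493 (leaf 492 5)) (move 652 (branch (move 556 (leaf 524 6)) (move 684 (leaf 556 6)))))))))) (move 494 (branch (move 590 (branch (move 495 (branch (move 463 (leaf 462 6)) (move 524 (branch (move 523 (leaf 491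 2)) (move 496 (branch (move 493 (leaf 492 1)) (move 497 (leaf 493 1)))))))) (move 591 (branch (move 623 (leaf 494 4)) (move 556 (branch (move 555 (leaf 555 0)) (move 592 (branch (move 559 (leaf 556 0)) (move 593 (leaf 557 3)))))))))) (move 462 (branch (move 430 (leaf 429 5)) (move 589 (leaf 461 5))))))))))))
theorem a6p160 : a6e160.Valid :=
  pos_of_chk [a6e139, a6e153] (forall_cons a6p139 (forall_cons a6p153 forall_nil)) a6c160 a6e160 (by decide +kernel)

def a6e161 : Pos := ⟨4052261298207089989479476261102363150478256873394776812132997058979932583327055378058388594301259380258658457338281792453688468281344216088630730708245995847578325718313983803392, 43510824430307349544997844624489245953103965128638746614204002243081873546784081866996767938987708958197108540408568609106030940139395147847276547992971821380033696828224997860063475400704, 6⟩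
def a6c161 : Cert := (move 494 (branch (move 558 (branch (move 495 (branch (move 463 (leaf 462 6)) (move 524 (branch (move 523 (leaf 491 2)) (move 496 (branch (move 493 (leaf 492 1)) (move 497 (leaf 493 1)))))))) (move 591 (branch (move 623 (leaf 494 4)) (move 556 (branch (move 555 (leaf 555 0)) (move 592 (branch (move 559 (leaf 556 0)) (move 593 (leaf 557 3)))))))))) (branch (move 558 (branch (move 591 (branch (move 623 (leaf 494 4)) (move 556 (branch (move 555 (leaf 555 0)) (move 592 (branch (move 559 (leaf 556 0)) (move 593 (leaf 557 3)))))))) (move 462 (branch (move 430 (leaf 429 5)) (move 463 (branch (move 431 (leaf 430 6)) (move 495 (leaf 462 6)))))))) (move 589 (branch (move 621 (leaf 493 6)) (move 462 (branch (move 430 (leaf 429 5)) (move 493 (leaf 461 6)))))))))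
theorem a6p161 : a6e161.Valid :=
  pos_of_chk [] forall_nil a6c161 a6e161 (by decide +kernel)

def a6e162 : Pos := ⟨471745303432202956716463588942664849720522026980987947953904447181637266339924679313853331149090208694433365517755703559262404264522454503056578184432640363429697159168, 321053216936899823946854031786060425265960353285706174429384344513470943346096762392060375439705212335117901577923624821875138842532177479781235121653442265562629312455813092855663593644189898453998836383744, 11⟩
def a6c162 : Cert := (move 590 (branch (move 558 (branch (move 622 (branch (move 493 (leaf 493 7)) (move 654 (leaf 525 7)))) (move 591 (branch (move 556 (branch (move 555 (leaf 555 0)) (move 592 (branch (move 559 (leaf 556 0)) (move 593 (leaf 557 3)))))) (move 494 (branch (move 623 (leaf 494 4)) (move 462 (branch (move 430 (leaf 429 5)) (move 463 (branch (move 431 (leaf 430 6)) (move 495 (leaf 462 6)))))))))))) (branch (move 622 (branch (move 589 (branch (move 493 (leaf 493 4)) (move 654 (branch (move 621 (leaf 525 4)) (move 686 (leaf 557 7)))))) (branch (move 558 (branch (move 493 (leaf 493 7)) (move 654 (leaf 525 7)))) (branch (move 654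 (branch (move 558 (leaf 525 7)) (move 589 (branch (move 621 (leaf 525 4)) (move 686 (leaf 557 7)))))) (move 493 (branch (move 589 (leaf 493 4)) (move 558 (leaf 493 7)))))))) (branch (ref 0) (branch (move 558 (branch (move 591 (branch (move 556 (branch (move 555 (leaf 555 0)) (move 592 (branch (move 559 (leaf 556 0)) (move 593 (leaf 557 3)))))) (move 494 (branch (move 623 (leaf 494 4)) (move 462 (branch (move 430 (leaf 429 5)) (move 463 (branch (move 431 (leaf 430 6)) (move 495 (leaf 462 6)))))))))) (branch (move 591 (branch (move 556 (branch (move 555 (leaf 555 0)) (move 592 (branch (move 559 (leaf 556 0)) (move 593 (leaf 557 3)))))) (move 622 (branch (move 654 (leaf 525 7)) (move 621 (branch (move 653 (leaf 525 5)) (move 623 (branch (move 655 (leaf 526 4)) (move 620 (branch (move 619 (leaf 587 2)) (move 652 (branch (move 651 (leaf 619 1)) (move 589 (leaf 524 5)))))))))))))) (branch (move 622 (branch (move 654 (leaf 525 7)) (move 623 (branch (move 655 (leaf 526 4)) (move 494 (branch (move 591 (leaf 494 4)) (move 462 (branch (move 430 (leaf 429 5)) (move 589 (leaf 461 5)))))))))) (move 622 (branch (move 654 (leaf 525 7)) (move 621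 (branch (move 653 (leaf 525 5)) (move 589 (branch (move 494 (leaf 493 5)) (move 524 (branch (move 492 (leaf 492 7)) (move 523 (branch (move 522 (leaf 522 0)) (move 559 (leaf 523 0)))))))))))))))) (ref 1))))))
theorem a6p162 : a6e162.Valid :=
  pos_of_chk [a6e147, a6e161] (forall_cons a6p147 (forall_cons a6p161 forall_nil)) a6c162 a6e162 (by decide +kernel)

def a6e163 : Pos := ⟨471745303432202956716463588942664849720522026980987947953904447181637266339924679313853331149090208694433365517755703559262404264522454503056578184432640363429697159168, 321053216908868188996684138910784866647989916913074919256337612789213155816761380214191893105021129764037857433657641097940382601871874679471893298667663981102907341475634104528431393902244727443401086074880, 11⟩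
def a6c163 : Cert := (move 590 (branch (move 558 (branch (move 622 (branch (move 493 (leaf 493 7)) (move 654 (leaf 525 7)))) (move 591 (branch (move 556 (branch (move 555 (leaf 555 0)) (move 592 (branch (move 559 (leaf 556 0)) (move 593 (leaf 557 3)))))) (move 494 (branch (move 623 (leaf 494 4)) (move 462 (branch (move 430 (leaf 429 5)) (move 463 (branch (move 431 (leaf 430 6)) (move 495 (leaf 462 6)))))))))))) (branch (move 622 (branch (move 589 (branch (move 493 (leaf 493 4)) (move 654 (branch (move 621 (leaf 525 4)) (move 686 (leaf 557 7)))))) (branch (move 558 (branch (move 493 (leaf 493 7)) (move 654 (leaf 525 7)))) (branch (move 654 (branch (move 558 (leaf 525 7)) (move 589 (branch (move 621 (leaf 525 4)) (move 686 (leaf 557 7)))))) (move 493 (branch (move 589 (leaf 493 4)) (move 558 (leaf 493 7)))))))) (branch (ref 0) (branch (move 589 (branch (move 493 (branch (move 622 (leaf 493 4)) (move 494 (branch (move 462 (leaf 461 6)) (move 492 (branch (move 460 (leaf 460 7)) (move 491 (branch (move 490 (leaf 490 0)) (move 523 (branch (move 522 (leaf 490 1)) (move 495 (branch (move 524 (leaf 491 1)) (move 496 (branch (move 497 (leaf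 493 1)) (move 464 (branch (move 463 (leaf 460 2)) (move 465 (leaf 461 2)))))))))))))))))) (branch (move 622 (branch (move 493 (leaf 493 4)) (move 654 (branch (move 621 (leaf 525 4)) (move 686 (leaf 557 7)))))) (branch (move 494 (branch (move 621 (leaf 493 6)) (move 462 (branch (move 430 (leaf 429 5)) (move 493 (leaf 461 6)))))) (move 621 (branch (move 494 (leaf 493 6)) (move 622 (branch (move 654 (leaf 525 4)) (move 524 (branch (move 492 (leaf 492 7)) (move 556 (branch (move 653 (leaf 524 7)) (move 555 (branch (move 554 (leaf 554 0)) (move 591 (branch (move 588 (leaf 555 3)) (move 592 (leaf 556 3)))))))))))))))))) (move 558 (branch (move 591 (branch (move 556 (branch (move 555 (leaf 555 0)) (move 592 (branch (move 559 (leaf 556 0)) (move 593 (leaf 557 3)))))) (move 494 (branch (move 623 (leaf 494 4)) (move 462 (branch (move 430 (leaf 429 5)) (move 463 (branch (move 431 (leaf 430 6)) (move 495 (leaf 462 6)))))))))) (branch (move 622 (branch (move 654 (leaf 525 7)) (move 621 (branch (move 653 (leaf 525 5)) (move 589 (branch (move 494 (leaf 493 5)) (move 623 (branch (move 655 (leaf 526 4)) (move 588 (branch (move 587 (leaf 587 0))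 (move 624 (leaf 588 3)))))))))))) (branch (move 622 (branch (move 654 (leaf 525 7)) (move 621 (branch (move 653 (leaf 525 5)) (move 589 (branch (move 494 (leaf 493 5)) (move 524 (branch (move 492 (leaf 492 7)) (move 523 (branch (move 522 (leaf 522 0)) (move 559 (leaf 523 0)))))))))))) (move 556 (branch (move 555 (branch (move 591 (leaf 555 0)) (move 554 (leaf 522 2)))) (branch (move 555 (branch (move 554 (leaf 522 2)) (move 523 (branch (move 522 (leaf 522 3)) (move 524 (branch (move 559 (leaf 523 0)) (move 587 (branch (move 586 (leaf 554 1)) (move 492 (branch (move 460 (leaf 459 5)) (move 619 (leaf 491 6)))))))))))) (move 592 (branch (move 559 (branch (move 591 (leaf 556 0)) (move 560 (branch (move 593 (leaf 557 0)) (move 524 (leaf 524 3)))))) (branch (move 591 (branch (move 559 (leaf 556 0)) (move 589 (leaf 556 3)))) (move 622 (branch (move 654 (leaf 525 7)) (move 621 (branch (move 653 (leaf 525 5)) (move 623 (branch (move 655 (leaf 526 4)) (move 624 (branch (move 593 (leaf 589 2)) (move 589 (branch (move 588 (leaf 588 3)) (move 625 (leaf 589 3)))))))))))))))))))))))))))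
theorem a6p163 : a6e163.Valid :=
  pos_of_chk [a6e161] (forall_cons a6p161 forall_nil) a6c163 a6e163 (by decide +kernel)

def a6e164 : Pos := ⟨2026130649339417646455839608909413369710460861557649419556992503466918515254346322199156636807556355703874333016357578985722085920303310176576592605651287016005483040871840481280, 18687756793711465025858256083616704514744025959733468698267514265933513211156429469736539114746467502549493713766250273477517002962758230743953159021841693496260042743417115108018511012508760801280, 9⟩
def a6c164 : Cert := (move 524 (branch (move 523 (branch (move 494 (branch (move 495 (leaf 491 2)) (move 462 (branch (move 430 (leaf 429 5)) (move 493 (leaf 461 6)))))) (move 490 (branch (move 491 (leaf 490 3)) (move 522 (branch (move 489 (leaf 489 3)) (move 521 (branch (move 556 (leaf 521 0)) (move 553 (branch (move 552 (leaf 520 1)) (move 554 (leaf 521 1)))))))))))) (branch (move 523 (branch (move 490 (branch (move 491 (leaf 490 3)) (move 522 (branch (move 489 (leaf 489 3)) (move 554 (branch (move 553 (leaf 521 1)) (move 555 (leaf 522 1)))))))) (branch (move 558 (branch (move 522 (leaf 522 0)) (move 559 (leaf 523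 0)))) (move 588 (branch (move 620 (branch (move 493 (leaf 492 5)) (move 556 (branch (move 652 (leaf 524 6)) (move 491 (leaf 491 7)))))) (branch (move 558 (branch (move 559 (leaf 523 0)) (move 555 (branch (move 554 (leaf 522 1)) (move 587 (branch (move 586 (leaf 554 2)) (move 492 (branch (move 619 (leaf 491 6)) (move 460 (branch (move 428 (leaf 428 4)) (move 556 (leaf 460 4)))))))))))) (move 558 (branch (move 559 (leaf 523 0)) (move 620 (branch (move 493 (leaf 492 5)) (move 587 (branch (move 586 (leaf 554 2)) (move 555 (branch (move 554 (leaf 522 1)) (move 491 (leaf 491 4)))))))))))))))) (branch (move 523 (branch (move 490 (branch (move 491 (leaf 490 3)) (move 522 (branch (move 489 (leaf 489 3)) (move 554 (branch (move 553 (leaf 521 1)) (move 555 (leaf 522 1)))))))) (move 558 (branch (move 559 (leaf 523 0)) (move 494 (branch (move 495 (leaf 491 2)) (move 462 (leaf 461 5)))))))) (branch (move 494 (branch (move 462 (branch (move 430 (leaf 429 5)) (move 558 (leaf 461 5)))) (move 495 (branch (move 523 (leaf 491 2)) (move 496 (branch (move 493 (leaf 492 1)) (move 497 (leaf 493 1)))))))) (move 493 (branch (move 494 (branch (move 462 (leaf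 461 6)) (move 590 (branch (move 622 (leaf 493 4)) (move 495 (branch (move 496 (leaf 492 1)) (move 558 (branch (move 463 (leaf 462 6)) (move 559 (branch (move 560 (leaf 524 3)) (move 588 (branch (move 587 (leaf 555 2)) (move 620 (leaf 492 5)))))))))))))) (branch (move 492 (branch (move 460 (leaf 460 7)) (move 588 (branch (move 620 (leaf 492 5)) (move 491 (branch (move 490 (leaf 490 0)) (move 556 (branch (move 459 (leaf 459 7)) (move 587 (branch (move 619 (leaf 491 5)) (move 586 (branch (move 585 (leaf 553 2)) (move 558 (leaf 554 2)))))))))))))) (branch (move 494 (branch (move 462 (leaf 461 6)) (move 492 (branch (move 460 (leaf 460 7)) (move 495 (branch (move 496 (leaf 492 1)) (move 590 (branch (move 622 (leaf 493 4)) (move 463 (branch (move 464 (leaf 460 2)) (move 558 (leaf 462 6)))))))))))) (move 492 (branch (move 460 (leaf 460 7)) (move 494 (branch (move 462 (leaf 461 6)) (move 491 (branch (move 490 (leaf 490 0)) (move 588 (branch (move 620 (leaf 492 5)) (move 459 (branch (move 458 (leaf 458 3)) (move 556 (leaf 459 7)))))))))))))))))))))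
theorem a6p164 : a6e164.Valid :=
  pos_of_chk [] forall_nil a6c164 a6e164 (by decide +kernel)

def a6e165 : Pos := ⟨2026130649339417646483298799613869218880859985652670103692234290609223026853702785205494344074274593123393371479067266196371586735222489158091488194548928133167603237109123514368, 23359695969840033786236836067114909159179470484485934025690104823515591388256636979734842411423240646599278009441519813347256749735801548611797859028008212965293728087984284168945778448060108505088, 11⟩
def a6c165 : Cert := (move 491 (branch (move 493 (branch (move 490 (leaf 490 0)) (move 588 (branch (move 620 (leaf 492 5)) (move 459 (branch (move 458 (leaf 458 3)) (move 555 (branch (move 556 (leaf 459 4)) (move 586 (branch (move 554 (leaf 458 5)) (move 587 (branch (move 558 (leaf 554 2)) (move 618 (leaf 490 5)))))))))))))) (branch (move 493 (branch (move 522 (leaf 490 1)) (move 588 (branch (move 620 (leaf 492 5)) (move 459 (branch (move 458 (leaf 458 3)) (move 555 (branch (move 556 (leaf 459 4)) (move 586 (branch (move 554 (leaf 458 5)) (move 587 (branch (move 558 (leaf 554 2)) (move 618 (leaf 490 5)))))))))))))) (branch (move 493 (branch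 (move 490 (leaf 490 0)) (move 522 (leaf 490 1)))) (move 555 (branch (move 556 (branch (move 554 (leaf 522 2)) (move 522 (branch (move 558 (leaf 522 3)) (move 521 (branch (move 520 (leaf 520 0)) (move 459 (branch (move 588 (leaf 459 4)) (move 426 (branch (move 458 (leaf 426 7)) (move 427 (branch (move 394 (leaf 394 7)) (move 395 (branch (move 490 (leaf 394 5)) (move 396 (branch (move 364 (leaf 363 6)) (move 428 (leaf 395 6)))))))))))))))))) (branch (move 556 (branch (move 554 (leaf 522 2)) (move 588 (branch (move 459 (leaf 459 4)) (move 620 (branch (move 587 (leaf 491 4)) (move 652 (leaf 524 6)))))))) (branch (move 554 (branch (move 556 (leaf 522 2)) (move 586 (branch (move 459 (leaf 458 5)) (move 618 (branch (move 587 (leaf 490 5)) (move 522 (leaf 490 6)))))))) (move 587 (branch (move 490 (branch (move 458 (leaf 458 7)) (move 619 (branch (move 522 (leaf 490 7)) (move 620 (branch (move 588 (leaf 491 4)) (move 652 (leaf 523 4)))))))) (branch (move 586 (branch (move 618 (leaf 490 5)) (move 588 (branch (move 558 (leaf 554 2)) (move 620 (leaf 491 4)))))) (move 490 (branch (move 458 (leaf 458 7)) (move 619 (branch (move 522 (leaf 490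 7)) (move 618 (branch (move 586 (leaf 490 5)) (move 650 (leaf 522 5)))))))))))))))))))
theorem a6p165 : a6e165.Valid :=
  pos_of_chk [] forall_nil a6c165 a6e165 (by decide +kernel)

def a6e166 : Pos := ⟨2026130649339417646455839608909413369710460861557649419556992503466918515254346322199156636807556355703874333016357578985722085920303310176576592605651287016005483040871840481280, 23359695969840033786236836069031374453116537025122653383897350500537773346493007883063719750832760759462660116241502626558206956648145886992261446489158534814247069049421170001549211557055753617408, 14⟩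
def a6c166 : Cert := (move 494 (branch (move 462 (branch (move 430 (leaf 429 5)) (move 558 (leaf 461 5)))) (branch (move 462 (branch (move 430 (leaf 429 5)) (move 493 (leaf 461 6)))) (move 492 (branch (move 524 (branch (move 460 (branch (move 428 (leaf 428 4)) (move 556 (leaf 460 4)))) (move 523 (branch (move 495 (leaf 491 2)) (move 558 (branch (move 522 (leaf 522 0)) (move 559 (leaf 523 0)))))))) (branch (move 493 (branch (move 460 (leaf 460 7)) (move 491 (branch (move 490 (leaf 490 0)) (move 588 (branch (move 620 (leaf 492 5)) (move 523 (branch (move 522 (leaf 490 1)) (move 459 (branch (move 458 (leaf 458 3)) (move 555 (branch (move 556 (leaf 459 4)) (move 586 (branch (move 554 (leaf 458 5)) (move 587 (branch (move 558 (leaf 554 2)) (move 618 (leaf 490 5)))))))))))))))))) (branch (move 460 (branch (move 493 (leaf 460 7)) (move 524 (branch (move 428 (leaf 428 4)) (move 556 (leaf 460 4)))))) (branch (move 493 (branch (move 460 (leaf 460 7)) (move 491 (branch (move 490 (leaf 490 0)) (move 523 (branch (move 522 (leaf 490 1)) (move 495 (branch (move 524 (leaf 491 1)) (move 496 (branch (move 497 (leaf 493 1)) (move 464 (branch (move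 463 (leaf 460 2)) (move 465 (leaf 461 2)))))))))))))) (move 523 (branch (move 524 (branch (move 495 (leaf 491 2)) (move 558 (branch (move 522 (leaf 522 0)) (move 559 (leaf 523 0)))))) (branch (move 524 (branch (move 495 (leaf 491 2)) (move 491 (branch (move 490 (leaf 490 3)) (move 555 (branch (move 554 (leaf 522 1)) (move 587 (branch (move 619 (leaf 491 6)) (move 588 (branch (move 620 (leaf 491 4)) (move 558 (branch (move 559 (leaf 523 0)) (move 586 (leaf 554 2)))))))))))))) (branch (move 524 (branch (move 495 (leaf 491 2)) (move 522 (branch (move 493 (leaf 490 2)) (move 554 (branch (move 553 (leaf 521 1)) (move 555 (leaf 522 1)))))))) (ref 0)))))))))))))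
theorem a6p166 : a6e166.Valid :=
  pos_of_chk [a6e165] (forall_cons a6p165 forall_nil) a6c166 a6e166 (by decide +kernel)

def a6e167 : Pos := ⟨329510287686269266319131238355906874428932894406878659650934246040906072803087490501882862751749818638910222946791081185781855423986398903003553357973522743296, 421382349239198864548583889746697467328489340744396319418096824610878241324291620959251880414467460374785217545024777661977008845547361049292433031714082700977227908796763535880357768621169019855826761809920, 16⟩
def a6c167 : Cert := (move 557 (branch (move 558 (branch (move 590 (branch (move 622 (branch (move 493 (leaf 493 7)) (move 654 (leaf 525 7)))) (move 591 (branch (move 556 (branch (move 555 (leaf 555 0)) (move 592 (branch (move 559 (leaf 556 0)) (move 593 (leaf 557 3)))))) (move 494 (branch (move 623 (leaf 494 4)) (move 462 (branch (move 430 (leaf 429 5)) (move 463 (branch (move 431 (leaf 430 6)) (move 495 (leaf 462 6)))))))))))) (branch (move 590 (branch (move 622 (branch (move 493 (leaf 493 7)) (move 654 (leaf 525 7)))) (branch (move 622 (branch (move 654 (leaf 525 7)) (move 623 (branch (move 655 (leaf 526 4)) (move 591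 (branch (move 494 (leaf 494 4)) (move 621 (branch (move 653 (leaf 525 5)) (move 592 (branch (move 593 (leaf 589 1)) (move 620 (leaf 588 2)))))))))))) (move 494 (branch (move 495 (branch (move 463 (leaf 462 6)) (move 524 (branch (move 523 (leaf 491 2)) (move 496 (branch (move 493 (leaf 492 1)) (move 497 (leaf 493 1)))))))) (move 462 (branch (move 430 (leaf 429 5)) (move 591 (branch (move 559 (leaf 462 4)) (move 623 (leaf 494 4))))))))))) (branch (ref 0) (branch (move 559 (branch (move 524 (branch (move 523 (leaf 523 0)) (move 560 (leaf 524 3)))) (move 556 (branch (move 591 (branch (move 592 (leaf 556 0)) (move 494 (branch (move 462 (leaf 462 4)) (move 623 (branch (move 590 (leaf 494 4)) (move 655 (leaf 526 7)))))))) (move 555 (branch (move 554 (leaf 522 2)) (move 587 (branch (move 586 (leaf 554 1)) (move 588 (leaf 555 1)))))))))) (ref 1)))))) (branch (move 589 (branch (ref 2) (branch (move 621 (branch (move 494 (leaf 493 6)) (move 524 (branch (move 492 (leaf 492 7)) (move 653 (branch (move 556 (leaf 524 7)) (move 654 (branch (move 622 (leaf 525 4)) (move 686 (leaf 557 4)))))))))) (branch (move 621 (branch (move 494 (leaf 493 6))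 (move 620 (branch (move 652 (leaf 524 5)) (move 622 (branch (move 654 (leaf 525 4)) (move 493 (branch (move 590 (leaf 493 4)) (move 588 (leaf 492 5)))))))))) (branch (move 621 (branch (move 494 (leaf 493 6)) (move 620 (branch (move 652 (leaf 524 5)) (move 524 (branch (move 492 (leaf 492 7)) (move 556 (branch (move 653 (leaf 524 7)) (move 588 (branch (move 493 (leaf 492 5)) (move 555 (branch (move 554 (leaf 522 2)) (move 619 (branch (move 651 (leaf 523 5)) (move 590 (branch (move 591 (leaf 587 1)) (move 618 (leaf 586 2)))))))))))))))))) (ref 3)))))) (branch (ref 4) (branch (move 558 (branch (move 590 (branch (move 622 (branch (move 493 (leaf 493 7)) (move 654 (leaf 525 7)))) (move 591 (branch (move 556 (branch (move 555 (leaf 555 0)) (move 592 (branch (move 559 (leaf 556 0)) (move 593 (leaf 557 3)))))) (move 494 (branch (move 623 (leaf 494 4)) (move 462 (branch (move 430 (leaf 429 5)) (move 463 (branch (move 431 (leaf 430 6)) (move 495 (leaf 462 6)))))))))))) (branch (ref 0) (branch (move 559 (branch (move 524 (branch (move 523 (leaf 523 0)) (move 560 (leaf 524 3)))) (move 556 (branch (move 591 (branch (move 592 (leaf 556 0)) (move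 494 (branch (move 462 (leaf 462 4)) (move 623 (branch (move 590 (leaf 494 4)) (move 655 (leaf 526 7)))))))) (move 555 (branch (move 554 (leaf 522 2)) (move 587 (branch (move 586 (leaf 554 1)) (move 588 (leaf 555 1)))))))))) (move 494 (branch (move 590 (branch (move 495 (branch (move 463 (leaf 462 6)) (move 524 (branch (move 523 (leaf 491 2)) (move 496 (branch (move 493 (leaf 492 1)) (move 497 (leaf 493 1)))))))) (move 622 (branch (move 654 (leaf 525 7)) (move 623 (branch (move 591 (leaf 494 4)) (move 655 (leaf 526 4)))))))) (move 462 (branch (move 430 (leaf 429 5)) (move 589 (leaf 461 5)))))))))) (branch (ref 5) (branch (ref 6) (branch (move 590 (branch (move 558 (branch (move 622 (branch (move 493 (leaf 493 7)) (move 654 (leaf 525 7)))) (move 591 (branch (move 556 (branch (move 555 (leaf 555 0)) (move 592 (branch (move 559 (leaf 556 0)) (move 593 (leaf 557 3)))))) (move 494 (branch (move 623 (leaf 494 4)) (move 462 (branch (move 430 (leaf 429 5)) (move 463 (branch (move 431 (leaf 430 6)) (move 495 (leaf 462 6)))))))))))) (branch (move 622 (branch (move 589 (branch (move 493 (leaf 493 4)) (move 654 (branch (move 621 (leaf 525 4))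 (move 686 (leaf 557 7)))))) (branch (move 558 (branch (move 493 (leaf 493 7)) (move 654 (leaf 525 7)))) (branch (move 654 (branch (move 558 (leaf 525 7)) (move 589 (branch (move 621 (leaf 525 4)) (move 686 (leaf 557 7)))))) (move 493 (branch (move 589 (leaf 493 4)) (move 558 (leaf 493 7)))))))) (branch (ref 7) (branch (ref 8) (move 589 (branch (move 622 (branch (move 493 (leaf 493 4)) (move 654 (branch (move 621 (leaf 525 4)) (move 686 (leaf 557 7)))))) (branch (move 621 (branch (move 494 (leaf 493 6)) (move 524 (branch (move 492 (leaf 492 7)) (move 653 (branch (move 556 (leaf 524 7)) (move 652 (branch (move 620 (leaf 524 5)) (move 684 (leaf 556 5)))))))))) (move 493 (branch (move 622 (leaf 493 4)) (move 588 (branch (move 620 (leaf 492 5)) (move 494 (branch (move 462 (leaf 461 6)) (move 492 (branch (move 460 (leaf 460 7)) (move 491 (branch (move 490 (leaf 490 0)) (move 459 (branch (move 458 (leaf 458 3)) (move 556 (branch (move 524 (leaf 459 7)) (move 555 (branch (move 554 (leaf 554 0)) (move 591 (leaf 555 3)))))))))))))))))))))))))) (branch (ref 9) (branch (move 589 (branch (ref 2) (branch (move 621 (branch (move 494 (leaf 493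 6)) (move 524 (branch (move 492 (leaf 492 7)) (move 653 (branch (move 556 (leaf 524 7)) (move 654 (branch (move 622 (leaf 525 4)) (move 686 (leaf 557 4)))))))))) (branch (move 621 (branch (move 494 (leaf 493 6)) (move 620 (branch (move 652 (leaf 524 5)) (move 622 (branch (move 654 (leaf 525 4)) (move 493 (branch (move 590 (leaf 493 4)) (move 588 (leaf 492 5)))))))))) (branch (move 621 (branch (move 494 (leaf 493 6)) (move 620 (branch (move 652 (leaf 524 5)) (move 524 (branch (move 492 (leaf 492 7)) (move 556 (branch (move 653 (leaf 524 7)) (move 588 (branch (move 493 (leaf 492 5)) (move 555 (branch (move 554 (leaf 522 2)) (move 619 (branch (move 651 (leaf 523 5)) (move 590 (branch (move 591 (leaf 587 1)) (move 618 (leaf 586 2)))))))))))))))))) (ref 10)))))) (branch (ref 11) (branch (ref 12) (branch (ref 13) (branch (ref 14) (branch (move 589 (branch (move 621 (branch (move 494 (leaf 493 6)) (move 524 (branch (move 492 (leaf 492 7)) (move 653 (branch (move 556 (leaf 524 7)) (move 654 (branch (move 622 (leaf 525 4)) (move 686 (leaf 557 4)))))))))) (branch (move 621 (branch (move 653 (branch (move 558 (leaf 525 6)) (move 652 (branch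 (move 620 (leaf 524 5)) (move 684 (leaf 556 5)))))) (branch (move 620 (branch (move 652 (leaf 524 5)) (move 622 (branch (move 654 (leaf 525 4)) (move 493 (branch (move 590 (leaf 493 4)) (move 588 (leaf 492 5)))))))) (move 653 (branch (move 558 (leaf 525 6)) (move 654 (branch (move 622 (leaf 525 4)) (move 686 (leaf 557 4))))))))) (branch (move 621 (branch (move 494 (leaf 493 6)) (move 653 (branch (move 558 (leaf 525 6)) (move 652 (branch (move 620 (leaf 524 5)) (move 684 (leaf 556 5)))))))) (ref 15))))) (branch (move 558 (branch (move 590 (branch (move 622 (branch (move 493 (leaf 493 7)) (move 654 (leaf 525 7)))) (move 591 (branch (move 556 (branch (move 555 (leaf 555 0)) (move 592 (branch (move 559 (leaf 556 0)) (move 593 (leaf 557 3)))))) (move 494 (branch (move 623 (leaf 494 4)) (move 462 (branch (move 430 (leaf 429 5)) (move 463 (branch (move 431 (leaf 430 6)) (move 495 (leaf 462 6)))))))))))) (branch (ref 16) (branch (move 494 (branch (move 590 (branch (move 495 (branch (move 463 (leaf 462 6)) (move 524 (branch (move 523 (leaf 491 2)) (move 496 (branch (move 493 (leaf 492 1)) (move 497 (leaf 493 1)))))))) (move 622 (branch (move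 654 (leaf 525 7)) (move 623 (branch (move 591 (leaf 494 4)) (move 655 (leaf 526 4)))))))) (move 462 (branch (move 430 (leaf 429 5)) (move 589 (leaf 461 5)))))) (ref 17))))) (move 589 (branch (move 621 (branch (move 494 (leaf 493 6)) (move 524 (branch (move 492 (leaf 492 7)) (move 653 (branch (move 556 (leaf 524 7)) (move 654 (branch (move 622 (leaf 525 4)) (move 686 (leaf 557 4)))))))))) (branch (move 494 (branch (move 621 (leaf 493 6)) (move 462 (branch (move 430 (leaf 429 5)) (move 558 (leaf 461 5)))))) (branch (move 558 (branch (move 621 (branch (move 653 (leaf 525 6)) (move 620 (branch (move 652 (leaf 524 5)) (move 588 (branch (move 493 (leaf 492 5)) (move 587 (branch (move 586 (leaf 554 2)) (move 622 (branch (move 623 (leaf 587 3)) (move 654 (leaf 525 4)))))))))))) (branch (move 588 (branch (move 559 (branch (move 560 (leaf 556 1)) (move 523 (branch (move 524 (leaf 523 0)) (move 620 (branch (move 493 (leaf 492 5)) (move 587 (branch (move 586 (leaf 554 2)) (move 555 (branch (move 491 (leaf 491 4)) (move 652 (branch (move 619 (leaf 523 4)) (move 684 (leaf 556 6)))))))))))))) (branch (move 620 (branch (move 493 (leaf 492 5)) (move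 652 (branch (move 556 (leaf 524 6)) (move 684 (leaf 556 6)))))) (move 559 (branch (move 560 (leaf 556 1)) (move 587 (branch (move 556 (leaf 555 1)) (move 586 (leaf 554 2))))))))) (move 621 (branch (move 653 (leaf 525 6)) (move 524 (branch (move 492 (leaf 492 7)) (move 523 (branch (move 522 (leaf 522 0)) (move 559 (leaf 523 0))))))))))) (ref 18)))))))))))))))))))))
theorem a6p167 : a6e167.Valid :=
  pos_of_chk [a6e139, a6e141, a6e142, a6e143, a6e146, a6e149, a6e152, a6e144, a6e145, a6e156, a6e157, a6e159, a6e160, a6e162, a6e163, a6e164, a6e154, a6e151, a6e166] (forall_cons a6p139 (forall_cons a6p141 (forall_cons a6p142 (forall_cons a6p143 (forall_cons a6p146 (forall_cons a6p149 (forall_cons a6p152 (forall_cons a6p144 (forall_cons a6p145 (forall_cons a6p156 (forall_cons a6p157 (forall_cons a6p159 (forall_cons a6p160 (forall_cons a6p162 (forall_cons a6p163 (forall_cons a6p164 (forall_cons a6p154 (forall_cons a6p151 (forall_cons a6p166 forall_nil))))))))))))))))))) a6c167 a6e167 (by decide +kernel)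

def a6e168 : Pos := ⟨4052261298678835292472332167570467717662080071974089673208741147724665484307446983010438509877662724071904849030382066452897207911551845438777377979320708828006228271112317304832, 802633041804976552704400022719427434484648683810651899086597201498014763784082903632228048839124287438838570869023718069615736151366983240067803108873799237723920347984244823500478303851560682631076985700352, 9⟩
def a6c168 : Cert := (move 623 (branch (move 622 (branch (move 655 (leaf 526 4)) (move 621 (branch (move 653 (leaf 525 5)) (move 589 (branch (move 494 (leaf 493 5)) (move 588 (branch (move 587 (leaf 587 0)) (move 624 (leaf 588 3)))))))))) (branch (move 591 (branch (move 494 (leaf 494 4)) (move 655 (branch (move 559 (leaf 526 7)) (move 687 (leaf 558 7)))))) (branch (move 655 (branch (move 622 (leaf 526 4)) (move 591 (branch (move 559 (leaf 526 7)) (move 687 (leaf 558 7)))))) (move 589 (branch (move 621 (branch (move 494 (leaf 493 5)) (move 653 (branch (move 622 (leaf 525 5)) (move 685 (leaf 557 6)))))) (branch (move 591 (branch (move 494 (leaf 494 4)) (move 588 (branch (move 624 (leaf 588 0)) (move 559 (branch (move 587 (leaf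 555 2)) (move 560 (leaf 556 2)))))))) (move 588 (branch (move 591 (branch (move 624 (leaf 588 0)) (move 559 (branch (move 560 (leaf 556 2)) (move 620 (branch (move 619 (leaf 587 1)) (move 621 (branch (move 592 (leaf 588 1)) (move 653 (branch (move 622 (leaf 525 5)) (move 685 (leaf 557 6)))))))))))) (branch (move 591 (branch (move 624 (leaf 588 0)) (move 559 (branch (move 587 (leaf 555 2)) (move 560 (leaf 556 2)))))) (branch (move 587 (branch (move 622 (leaf 587 0)) (move 559 (leaf 555 2)))) (move 622 (branch (move 587 (leaf 587 0)) (move 624 (branch (move 591 (leaf 588 0)) (move 621 (leaf 588 3)))))))))))))))))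
theorem a6p168 : a6e168.Valid :=
  pos_of_chk [] forall_nil a6c168 a6e168 (by decide +kernel)

def a6e169 : Pos := ⟨1415235909637588294776852234189732072449752332085098055047956022243043306937961892335385012443504900579800459275446664784205050422003652661196936747290814374342045990912, 214909202902513331670738656594533949894366458624748966994176938378452346894860086065152300121840178023155539806964365464237123848349236965578852297727386015495045406010691205009118343098451812679680, 10⟩
def a6c169 : Cert := (move 559 (branch (move 560 (branch (move 561 (leaf 525 3)) (move 592 (branch (move 593 (leaf 557 0)) (move 591 (branch (move 556 (leaf 556 0)) (move 528 (branch (move 529 (leaf 525 2)) (move 623 (branch (move 496 (leaf 495 5)) (move 655 (leaf 527 6)))))))))))) (branch (move 524 (branch (move 523 (leaf 523 0)) (move 560 (leaf 524 3)))) (move 556 (branch (move 555 (branch (move 554 (leaf 522 2)) (move 587 (branch (move 586 (leaf 554 1)) (move 588 (leaf 555 1)))))) (branch (move 523 (branch (move 524 (leaf 523 0)) (move 555 (branch (move 554 (leaf 522 2)) (move 522 (leaf 522 3)))))) (move 524 (branch (move 523 (leaf 523 0)) (move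 588 (branch (move 587 (leaf 555 1)) (move 620 (branch (move 652 (leaf 524 6)) (move 621 (branch (move 653 (leaf 524 4)) (move 589 (branch (move 492 (leaf 492 4)) (move 591 (branch (move 592 (leaf 556 0)) (move 619 (branch (move 590 (leaf 587 1)) (move 651 (leaf 523 5))))))))))))))))))))))
theorem a6p169 : a6e169.Valid :=
  pos_of_chk [] forall_nil a6c169 a6e169 (by decide +kernel)

def a6e170 : Pos := ⟨1415235909637588294776852234189732072449752332085098055047956022243043306937961892335385012443504900579800459275446664784205050422003652661196936747290814374342045990912, 56063270322394782161926579888489030834877137590736788739242931412588402625696640086694406967595047764672147966138355791580189388733788376639980633128264373247178117293318911443683840520232728788992, 8⟩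
def a6c170 : Cert := (move 559 (branch (move 524 (branch (move 523 (leaf 523 0)) (move 560 (leaf 524 3)))) (branch (move 560 (branch (move 561 (leaf 525 3)) (move 589 (branch (move 588 (leaf 556 1)) (move 494 (branch (move 462 (leaf 461 5)) (move 621 (leaf 493 6)))))))) (move 556 (branch (move 555 (branch (move 554 (leaf 522 2)) (move 587 (branch (move 586 (leaf 554 1)) (move 588 (leaf 555 1)))))) (branch (move 523 (branch (move 524 (leaf 523 0)) (move 555 (branch (move 554 (leaf 522 2)) (move 522 (leaf 522 3)))))) (move 524 (branch (move 523 (leaf 523 0)) (move 588 (branch (move 587 (leaf 555 1)) (move 620 (branch (move 652 (leaf 524 6)) (move 621 (branch (move 653 (leaf 524 4)) (move 589 (branch (move 492 (leaf 492 4)) (move 494 (leaf 493 6))))))))))))))))))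
theorem a6p170 : a6e170.Valid :=
  pos_of_chk [] forall_nil a6c170 a6e170 (by decide +kernel)

def a6e171 : Pos := ⟨943490606534895625746657911566198461085137179533043001500930234712340286638943285824619171796297554637116912396601184171733727343263053582126757465861727368885871575040, 289660229999039707881575436472659694616831099137438288511866150617617015317936952179785006499970411210509964301606100734975788873232212790462268937069959439222172345238514507494864736227412345356288, 11⟩
def a6c171 : Cert := (move 557 (branch (move 494 (branch (move 462 (branch (move 430 (leaf 429 5)) (move 463 (branch (move 431 (leaf 430 6)) (move 495 (branch (move 590 (leaf 462 6)) (move 461 (branch (move 429 (leaf 429 7)) (move 496 (branch (move 460 (leaf 460 0)) (move 497 (leaf 493 1)))))))))))) (branch (move 589 (branch (move 462 (leaf 461 5)) (move 621 (leaf 493 6)))) (move 590 (branch (move 622 (branch (move 654 (leaf 525 7)) (move 623 (branch (move 591 (leaf 494 4)) (move 655 (leaf 526 4)))))) (branch (move 589 (branch (move 621 (leaf 493 5)) (move 591 (branch (move 623 (leaf 494 4)) (move 556 (branch (move 555 (leaf 555 0)) (move 592 (leaf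 556 3)))))))) (move 621 (branch (move 589 (leaf 493 5)) (move 622 (branch (move 653 (leaf 525 5)) (move 654 (leaf 525 7)))))))))))) (branch (move 559 (branch (move 524 (branch (move 523 (leaf 523 0)) (move 560 (leaf 524 3)))) (move 556 (branch (move 555 (branch (move 554 (leaf 522 2)) (move 587 (branch (move 586 (leaf 554 1)) (move 588 (leaf 555 1)))))) (move 591 (branch (move 592 (leaf 556 0)) (move 494 (branch (move 462 (leaf 462 4)) (move 623 (branch (move 590 (leaf 494 4)) (move 655 (leaf 526 7)))))))))))) (branch (ref 0) (branch (move 494 (branch (move 462 (branch (move 430 (leaf 429 5)) (move 463 (branch (move 431 (leaf 430 6)) (move 495 (branch (move 590 (leaf 462 6)) (move 461 (branch (move 429 (leaf 429 7)) (move 496 (branch (move 460 (leaf 460 0)) (move 497 (leaf 493 1)))))))))))) (branch (move 589 (branch (move 462 (leaf 461 5)) (move 621 (leaf 493 6)))) (move 590 (branch (move 622 (branch (move 654 (leaf 525 7)) (move 623 (branch (move 591 (leaf 494 4)) (move 655 (leaf 526 4)))))) (branch (move 621 (branch (move 589 (leaf 493 5)) (move 622 (branch (move 653 (leaf 525 5)) (move 654 (leaf 525 7)))))) (move 589 (branch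 (move 621 (leaf 493 5)) (move 591 (branch (move 623 (leaf 494 4)) (move 592 (branch (move 593 (leaf 557 3)) (move 560 (branch (move 561 (leaf 557 2)) (move 559 (branch (move 588 (leaf 556 1)) (move 524 (leaf 524 3)))))))))))))))))) (ref 1))))))
theorem a6p171 : a6e171.Valid :=
  pos_of_chk [a6e169, a6e170] (forall_cons a6p169 (forall_cons a6p170 forall_nil)) a6c171 a6e171 (by decide +kernel)

def a6e172 : Pos := ⟨1415235909637588294776852234189732072449752332085098055047956022243043306937961892335385012443504900579800459275446664784205050422003652661196936747290814374342045990912, 149502054197403834917333038327448789961431667300557482118108681186221508603584821349536802714415947173820001630393804989842303420731765830782911773902936468229909735187846943201316757793464454742016, 7⟩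
def a6c172 : Cert := (move 559 (branch (move 560 (branch (move 561 (leaf 525 3)) (move 592 (branch (move 593 (leaf 557 0)) (move 591 (branch (move 556 (leaf 556 0)) (move 528 (branch (move 529 (leaf 525 2)) (move 623 (branch (move 496 (leaf 495 5)) (move 655 (leaf 527 6)))))))))))) (branch (move 524 (branch (move 523 (leaf 523 0)) (move 560 (leaf 524 3)))) (move 556 (branch (move 555 (branch (move 554 (leaf 522 2)) (move 587 (branch (move 586 (leaf 554 1)) (move 588 (leaf 555 1)))))) (branch (move 524 (branch (move 523 (leaf 523 0)) (move 588 (branch (move 587 (leaf 555 1)) (move 493 (branch (move 461 (leaf 460 5)) (move 620 (leaf 492 6)))))))) (move 523 (branch (move 524 (leaf 523 0)) (move 555 (branch (move 554 (leaf 522 2)) (move 522 (leaf 522 3))))))))))))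
theorem a6p172 : a6e172.Valid :=
  pos_of_chk [] forall_nil a6c172 a6e172 (by decide +kernel)

def a6e173 : Pos := ⟨1415235909637588294776852234189732072449752332085098055047956022243043306937961892335385012443504900579800459275446664784205050422003652661196936747290814374342045990912, 130814297418921158376562354724809213907454358199543151668062379164706992794457176617957405723700614530730343989072612368243841348712565887932407494689396773810851182377906993466923582011660012879872, 7⟩
def a6c173 : Cert := (move 493 (branch (move 590 (branch (move 461 (leaf 461 4)) (move 622 (leaf 493 7)))) (branch (move 461 (branch (move 429 (leaf 429 4)) (move 460 (branch (move 428 (leaf 428 7)) (move 589 (branch (move 492 (leaf 460 7)) (move 621 (branch (move 653 (leaf 525 6)) (move 620 (branch (move 588 (leaf 492 5)) (move 652 (leaf 524 5)))))))))))) (move 589 (branch (move 622 (branch (move 590 (leaf 493 4)) (move 621 (branch (move 654 (leaf 525 4)) (move 653 (leaf 525 6)))))) (branch (move 621 (branch (move 653 (leaf 525 6)) (move 620 (branch (move 588 (leaf 492 5)) (move 652 (leaf 524 5)))))) (move 590 (branch (move 622 (leaf 493 4)) (move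 588 (branch (move 620 (leaf 492 5)) (move 559 (branch (move 560 (leaf 556 1)) (move 587 (leaf 555 2))))))))))))))
theorem a6p173 : a6e173.Valid :=
  pos_of_chk [] forall_nil a6c173 a6e173 (by decide +kernel)

def a6e174 : Pos := ⟨1415235909637588294776852234189732072449752332085098055047956022243043306937961892335385012443504900579800459275446664784205050422003652661196936747290814374342045990912, 280316351824089179666524947506946277065494449796048286277015043965447087890424446237146779743679802306987245986582255216241663933994923632775942217677114497905697406817443979219617776865531345764352, 10⟩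
def a6c174 : Cert := (move 589 (branch (move 621 (branch (move 653 (leaf 525 6)) (move 620 (branch (move 652 (leaf 524 5)) (move 588 (branch (move 493 (leaf 492 5)) (move 622 (branch (move 654 (leaf 525 4)) (move 587 (branch (move 586 (leaf 586 0)) (move 623 (leaf 587 3)))))))))))) (branch (move 493 (branch (move 590 (branch (move 622 (leaf 493 4)) (move 588 (branch (move 620 (leaf 492 5)) (move 587 (branch (move 586 (leaf 554 2)) (move 555 (branch (move 554 (leaf 554 3)) (move 591 (branch (move 556 (leaf 555 0)) (move 592 (branch (move 593 (leaf 557 3)) (move 624 (branch (move 623 (leaf 588 0)) (move 625 (leaf 589 0)))))))))))))))) (move 461 (branch (move 429 (leaf 429 4)) (move 460 (branch (move 428 (leaf 428 7)) (move 492 (leaf 460 7)))))))) (branch (move 621 (branch (move 653 (leaf 525 6)) (move 620 (branch (move 652 (leaf 524 5)) (move 493 (branch (move 588 (leaf 492 5)) (move 461 (branch (move 429 (leaf 429 4)) (move 590 (leaf 461 4)))))))))) (branch (move 621 (branch (move 653 (leaf 525 6)) (move 622 (branch (move 654 (leaf 525 4)) (move 590 (branch (move 493 (leaf 493 4)) (move 620 (branch (move 652 (leaf 524 5)) (move 591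 (branch (move 592 (leaf 588 1)) (move 619 (leaf 587 2)))))))))))) (branch (move 621 (branch (move 653 (leaf 525 6)) (move 622 (branch (move 654 (leaf 525 4)) (move 590 (branch (move 493 (leaf 493 4)) (move 623 (branch (move 655 (leaf 526 4)) (move 624 (branch (move 588 (leaf 588 3)) (move 625 (leaf 589 3)))))))))))) (move 590 (branch (move 622 (branch (move 654 (leaf 525 7)) (move 623 (branch (move 655 (leaf 526 4)) (move 588 (branch (move 587 (leaf 587 0)) (move 591 (branch (move 624 (leaf 588 0)) (move 556 (branch (move 555 (leaf 555 0)) (move 592 (leaf 556 3)))))))))))) (branch (move 621 (branch (move 653 (leaf 525 6)) (move 620 (branch (move 652 (leaf 524 5)) (move 591 (branch (move 592 (leaf 588 1)) (move 619 (branch (move 588 (leaf 587 1)) (move 618 (leaf 586 2)))))))))) (branch (move 621 (branch (move 653 (leaf 525 6)) (move 622 (branch (move 654 (leaf 525 4)) (move 623 (branch (move 655 (leaf 526 4)) (move 588 (branch (move 587 (leaf 587 0)) (move 624 (leaf 588 3)))))))))) (move 621 (branch (move 653 (leaf 525 6)) (move 622 (branch (move 654 (leaf 525 4)) (move 620 (branch (move 652 (leaf 524 5)) (move 591 (branch (move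 592 (leaf 588 1)) (move 619 (leaf 587 2))))))))))))))))))))
theorem a6p174 : a6e174.Valid :=
  pos_of_chk [] forall_nil a6c174 a6e174 (by decide +kernel)

def a6e175 : Pos := ⟨26106494622929736438328729302066643275916887608514706412689598799395581570290181501246522209624095470831079618263925975228191487834557193771782730272671650039755938137822953400742331809792, 2389696897186957933707151283223075641680343350317557244770026673012784741940264234669391361877609519287113504586968947810707907905885656044794175687558700967736821475145689697485516587780842253713408, 9⟩
def a6c175 : Cert := (move 623 (branch (move 591 (branch (move 592 (leaf 556 0)) (move 655 (leaf 526 7)))) (branch (move 524 (branch (move 523 (leaf 523 0)) (move 592 (branch (move 591 (leaf 556 0)) (move 624 (branch (move 593 (leaf 589 2)) (move 653 (branch (move 652 (leaf 620 1)) (move 625 (branch (move 654 (leaf 621 1)) (move 657 (branch (move 656 (leaf 621 0)) (move 658 (leaf 622 0)))))))))))))) (branch (move 524 (branch (move 523 (leaf 523 0)) (move 655 (branch (move 591 (leaf 526 7)) (move 656 (branch (move 620 (leaf 620 0)) (move 657 (branch (move 624 (leaf 621 0))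 (move 654 (leaf 621 3)))))))))) (move 620 (branch (move 655 (branch (move 656 (leaf 620 0)) (move 619 (branch (move 654 (leaf 619 0)) (move 651 (branch (move 650 (leaf 618 1)) (move 652 (leaf 619 1)))))))) (branch (move 524 (branch (move 523 (leaf 523 0)) (move 655 (branch (move 656 (leaf 620 0)) (move 619 (branch (move 654 (leaf 619 0)) (move 586 (branch (move 587 (leaf 586 3)) (move 618 (branch (move 585 (leaf 585 3)) (move 650 (branch (move 649 (leaf 617 1)) (move 651 (leaf 618 1)))))))))))))) (branch (move 524 (branch (move 523 (leaf 523 0)) (move 652 (branch (move 651 (leaf 619 1)) (move 624 (branch (move 653 (leaf 620 1)) (move 593 (branch (move 592 (leaf 589 2)) (move 625 (branch (move 594 (leaf 590 2)) (move 657 (branch (move 656 (leaf 621 0)) (move 658 (leaf 622 0)))))))))))))) (branch (move 524 (branch (move 523 (leaf 523 0)) (move 656 (branch (move 655 (leaf 620 0)) (move 624 (branch (move 657 (leaf 621 0)) (move 593 (branch (move 592 (leaf 589 2)) (move 625 (branch (move 594 (leaf 590 2)) (move 653 (branch (move 652 (leaf 620 1)) (move 654 (leaf 621 1)))))))))))))) (move 524 (branch (move 523 (leaf 523 0)) (move 651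 (branch (move 652 (leaf 619 1)) (move 619 (branch (move 650 (leaf 618 1)) (move 586 (branch (move 587 (leaf 586 3)) (move 618 (branch (move 585 (leaf 585 3)) (move 654 (branch (move 653 (leaf 618 0)) (move 655 (leaf 619 0)))))))))))))))))))))))
theorem a6p175 : a6e175.Valid :=
  pos_of_chk [] forall_nil a6c175 a6e175 (by decide +kernel)

def a6e176 : Pos := ⟨943490606534895625746657911566198461085137179533043001500930234712340286638943285824619171796297554637116912396601184171733727343263053582126757465861727368885871575040, 2389696897213064428337172476942996525342235771955067147622782835664938326902018217215214822353696335493302332949051937189213086835129739382590608655560486331190831848451912789026403591241471753191424, 14⟩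
def a6c176 : Cert := (move 557 (branch (ref 0) (branch (ref 1) (branch (ref 2) (branch (ref 3) (branch (move 559 (branch (move 560 (branch (move 561 (leaf 525 3)) (move 592 (branch (move 593 (leaf 557 0)) (move 591 (branch (move 556 (leaf 556 0)) (move 528 (branch (move 529 (leaf 525 2)) (move 623 (branch (move 496 (leaf 495 5)) (move 655 (leaf 527 6)))))))))))) (branch (move 524 (branch (move 523 (leaf 523 0)) (move 560 (leaf 524 3)))) (move 556 (branch (move 523 (branch (move 524 (leaf 523 0)) (move 555 (branch (move 554 (leaf 522 2)) (move 522 (leaf 522 3)))))) (branch (move 555 (branch (move 554 (leaf 522 2)) (move 591 (branch (move 590 (leaf 555 0)) (move 592 (leaf 556 0)))))) (move 588 (branch (move 493 (branch (move 461 (leaf 460 5)) (move 620 (branch (move 589 (leaf 492 5)) (move 652 (leaf 524 6)))))) (branch (move 524 (branch (move 523 (leaf 523 0)) (move 620 (branch (move 652 (leaf 524 6)) (move 621 (branch (move 653 (leaf 524 4)) (move 589 (branch (move 492 (leaf 492 4)) (move 591 (branch (move 592 (leaf 556 0)) (move 619 (branch (move 590 (leaf 587 1)) (move 651 (leaf 523 5)))))))))))))) (branch (move 524 (branch (move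 523 (leaf 523 0)) (move 493 (branch (move 461 (leaf 460 5)) (move 590 (branch (move 622 (leaf 493 7)) (move 591 (branch (move 592 (leaf 556 0)) (move 623 (branch (move 655 (leaf 526 7)) (move 589 (branch (move 624 (leaf 588 0)) (move 621 (branch (move 492 (leaf 492 4)) (move 653 (leaf 525 6)))))))))))))))) (move 524 (branch (move 523 (leaf 523 0)) (move 493 (branch (move 461 (leaf 460 5)) (move 620 (leaf 492 6)))))))))))))))) (branch (move 559 (branch (move 560 (branch (move 561 (leaf 525 3)) (move 592 (branch (move 593 (leaf 557 0)) (move 591 (branch (move 556 (leaf 556 0)) (move 528 (branch (move 529 (leaf 525 2)) (move 623 (branch (move 496 (leaf 495 5)) (move 655 (leaf 527 6)))))))))))) (branch (move 524 (branch (move 523 (leaf 523 0)) (move 560 (leaf 524 3)))) (move 556 (branch (move 555 (branch (move 554 (leaf 522 2)) (move 587 (branch (move 586 (leaf 554 1)) (move 588 (leaf 555 1)))))) (branch (move 524 (branch (move 523 (leaf 523 0)) (move 591 (branch (move 592 (leaf 556 0)) (move 590 (branch (move 555 (leaf 555 0)) (move 622 (branch (move 493 (leaf 493 7)) (move 654 (leaf 525 7)))))))))) (move 524 (branch (move 523 (leaf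 523 0)) (move 588 (branch (move 587 (leaf 555 1)) (move 493 (branch (move 461 (leaf 460 5)) (move 590 (branch (move 622 (leaf 493 7)) (move 591 (branch (move 592 (leaf 556 0)) (move 623 (branch (move 655 (leaf 526 7)) (move 589 (branch (move 624 (leaf 588 0)) (move 621 (branch (move 492 (leaf 492 4)) (move 653 (leaf 525 6)))))))))))))))))))))))) (move 559 (branch (move 560 (branch (move 561 (leaf 525 3)) (move 592 (branch (move 593 (leaf 557 0)) (move 591 (branch (move 556 (leaf 556 0)) (move 528 (branch (move 529 (leaf 525 2)) (move 623 (branch (move 496 (leaf 495 5)) (move 655 (leaf 527 6)))))))))))) (branch (move 524 (branch (move 523 (leaf 523 0)) (move 560 (leaf 524 3)))) (move 556 (branch (move 523 (branch (move 524 (leaf 523 0)) (move 555 (branch (move 554 (leaf 522 2)) (move 522 (leaf 522 3)))))) (branch (move 555 (branch (move 554 (leaf 522 2)) (move 591 (branch (move 590 (leaf 555 0)) (move 592 (leaf 556 0)))))) (move 622 (branch (move 590 (branch (move 493 (leaf 493 7)) (move 654 (leaf 525 7)))) (branch (move 524 (branch (move 523 (leaf 523 0)) (move 590 (branch (move 493 (leaf 493 7)) (move 621 (branch (move 653 (leaf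 525 5)) (move 591 (branch (move 592 (leaf 556 0)) (move 623 (branch (move 655 (leaf 526 4)) (move 589 (branch (move 492 (leaf 492 7)) (move 620 (branch (move 619 (leaf 587 2)) (move 652 (leaf 524 5)))))))))))))))) (move 621 (branch (move 589 (branch (move 654 (leaf 525 4)) (move 653 (leaf 525 6)))) (branch (move 524 (branch (move 523 (leaf 523 0)) (move 589 (branch (move 654 (leaf 525 4)) (move 492 (leaf 492 7)))))) (branch (move 524 (branch (move 523 (leaf 523 0)) (move 589 (branch (move 653 (leaf 525 6)) (move 492 (leaf 492 7)))))) (ref 4)))))))))))))))))))))
theorem a6p176 : a6e176.Valid :=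
  pos_of_chk [a6e172, a6e169, a6e173, a6e174, a6e175] (forall_cons a6p172 (forall_cons a6p169 (forall_cons a6p173 (forall_cons a6p174 (forall_cons a6p175 forall_nil))))) a6c176 a6e176 (by decide +kernel)

def a6e177 : Pos := ⟨1415235909637588294776852234189732072449752332085098055047956022243043306937961892335385012443504900579800459275446664784205050422003652661196936747290814374342045990912, 13053247371995521365761772153127437339172708457122933519977803657682595410056754243991437622282808633659808160816588447498778546936228174080695343408530187943566519582782350139084704317440, 12⟩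
def a6c177 : Cert := (move 494 (branch (move 493 (branch (move 589 (branch (move 621 (leaf 493 6)) (move 588 (branch (move 620 (leaf 492 5)) (move 559 (branch (move 560 (leaf 556 1)) (move 587 (branch (move 556 (leaf 555 1)) (move 586 (leaf 554 2)))))))))) (move 461 (branch (move 429 (leaf 429 4)) (move 460 (branch (move 428 (leaf 428 7)) (move 495 (branch (move 496 (leaf 460 3)) (move 459 (branch (move 458 (leaf 458 0)) (move 492 (leaf 459 3)))))))))))) (branch (move 462 (branch (move 430 (leaf 429 5)) (move 589 (leaf 461 5)))) (move 462 (branch (move 430 (leaf 429 5)) (move 461 (branch (move 429 (leaf 429 7)) (move 463 (branch (move 431 (leaf 430 6)) (move 559 (branch (move 591 (leaf 462 4)) (move 560 (branch (move 561 (leaf 525 3)) (move 592 (branch (move 593 (leaf 557 0)) (move 528 (branch (move 529 (leaf 525 2)) (move 496 (branch (move 495 (leaf 463 7)) (move 464 (branch (move 497 (leaf 461 0)) (move 433 (branch (move 432 (leaf 429 2)) (move 465 (leaf 432 6)))))))))))))))))))))))))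
theorem a6p177 : a6e177.Valid :=
  pos_of_chk [] forall_nil a6c177 a6e177 (by decide +kernel)

def a6e178 : Pos := ⟨943490606534895625746657911566198461085137179533043001500930234712340286638943285824619171796297554637116912396601184171733727343263053582126757465861727368885871575040, 205565324515447534644384059110298945270048907813980284543810493075734056757491268339363169320592334412221595102911285138546823602251122372521935353067752340272755436459440490527671376130873155911680, 13⟩
def a6c178 : Cert := (move 557 (branch (ref 0) (branch (ref 1) (branch (ref 2) (branch (move 494 (branch (move 462 (branch (move 430 (leaf 429 5)) (move 463 (branch (move 431 (leaf 430 6)) (move 495 (branch (move 590 (leaf 462 6)) (move 461 (branch (move 429 (leaf 429 7)) (move 496 (branch (move 460 (leaf 460 0)) (move 497 (leaf 493 1)))))))))))) (branch (move 589 (branch (move 462 (leaf 461 5)) (move 621 (leaf 493 6)))) (move 590 (branch (move 493 (branch (move 461 (leaf 461 4)) (move 495 (branch (move 463 (leaf 462 6)) (move 524 (branch (move 496 (leaf 492 1)) (move 523 (leaf 491 2)))))))) (move 589 (branch (move 621 (leaf 493 5)) (move 591 (branch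 (move 623 (leaf 494 4)) (move 556 (branch (move 555 (leaf 555 0)) (move 592 (leaf 556 3))))))))))))) (move 494 (branch (move 462 (branch (move 430 (leaf 429 5)) (move 463 (branch (move 431 (leaf 430 6)) (move 495 (branch (move 590 (leaf 462 6)) (move 461 (branch (move 429 (leaf 429 7)) (move 496 (branch (move 460 (leaf 460 0)) (move 497 (leaf 493 1)))))))))))) (branch (move 589 (branch (move 462 (leaf 461 5)) (move 621 (leaf 493 6)))) (move 590 (branch (move 493 (branch (move 461 (leaf 461 4)) (move 495 (branch (move 463 (leaf 462 6)) (move 524 (branch (move 496 (leaf 492 1)) (move 523 (leaf 491 2)))))))) (branch (move 589 (branch (move 621 (leaf 493 5)) (move 591 (branch (move 623 (leaf 494 4)) (move 592 (branch (move 593 (leaf 557 3)) (move 560 (branch (move 561 (leaf 557 2)) (move 559 (branch (move 588 (leaf 556 1)) (move 524 (leaf 524 3)))))))))))) (move 589 (branch (move 621 (leaf 493 5)) (move 493 (branch (move 461 (leaf 461 4)) (move 588 (branch (move 620 (leaf 492 5)) (move 559 (branch (move 560 (leaf 556 1)) (move 587 (leaf 555 2)))))))))))))))))))))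
theorem a6p178 : a6e178.Valid :=
  pos_of_chk [a6e172, a6e177, a6e170] (forall_cons a6p172 (forall_cons a6p177 (forall_cons a6p170 forall_nil))) a6c178 a6e178 (by decide +kernel)

def a6e179 : Pos := ⟨943490606534895625746657911566198461085137179533043001500930234712340286638943285824619171796297554637116912396601184171733727343263053582126757465861727368885871575040, 3447282665562428320232422303290811407851375916011892099455398581694154366201387763514418549892229942355780612544675965936953592769300566444593254128332400547555558813706171727474588336383700900622711089216559826075648, 9⟩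
def a6c179 : Cert := (move 590 (branch (move 493 (branch (move 622 (leaf 493 7)) (move 461 (branch (move 429 (leaf 429 4)) (move 494 (leaf 461 7)))))) (branch (move 622 (branch (move 493 (leaf 493 7)) (move 654 (branch (move 557 (leaf 525 7)) (move 655 (branch (move 623 (leaf 526 4)) (move 687 (leaf 558 4)))))))) (branch (move 494 (branch (move 461 (branch (move 493 (leaf 461 7)) (move 462 (branch (move 429 (leaf 429 7)) (move 591 (branch (move 559 (leaf 462 4)) (move 623 (leaf 494 4)))))))) (branch (move 495 (branch (move 463 (leaf 462 6)) (move 493 (branch (move 461 (leaf 461 7)) (move 524 (branch (move 496 (leaf 492 1)) (move 523 (leaf 491 2)))))))) (move 495 (branch (move 463 (leaf 462 6)) (move 591 (branch (move 623 (leaf 494 4)) (move 559 (branch (move 462 (leaf 462 4)) (move 524 (branch (move 523 (leaf 523 0)) (move 560 (branch (move 557 (leaf 524 3)) (move 561 (leaf 525 3))))))))))))))) (move 494 (branch (move 463 (branch (move 495 (leaf 462 6)) (move 462 (branch (move 431 (leaf 430 6)) (move 430 (branch (move 557 (leaf 429 5)) (move 429 (branch (move 397 (leaf 397 7)) (move 461 (leaf 429 7)))))))))) (branch (move 591 (branch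 (move 623 (leaf 494 4)) (move 559 (branch (move 462 (leaf 462 4)) (move 560 (branch (move 561 (leaf 525 3)) (move 557 (branch (move 524 (leaf 524 3)) (move 592 (branch (move 556 (leaf 556 0)) (move 593 (leaf 557 0)))))))))))) (branch (move 591 (branch (move 623 (leaf 494 4)) (move 462 (branch (move 559 (leaf 462 4)) (move 463 (branch (move 431 (leaf 430 6)) (move 495 (leaf 462 6)))))))) (move 622 (branch (move 654 (branch (move 557 (leaf 525 7)) (move 495 (branch (move 463 (leaf 462 6)) (move 687 (branch (move 655 (leaf 558 4)) (move 686 (branch (move 719 (leaf 590 4)) (move 685 (branch (move 653 (leaf 557 5)) (move 717 (leaf 589 5)))))))))))) (branch (move 623 (branch (move 591 (leaf 494 4)) (move 655 (leaf 526 4)))) (move 495 (branch (move 463 (leaf 462 6)) (move 654 (branch (move 557 (leaf 525 7)) (move 591 (branch (move 623 (leaf 494 4)) (move 686 (branch (move 559 (leaf 558 6)) (move 685 (branch (move 653 (leaf 557 5)) (move 717 (leaf 589 5)))))))))))))))))))))))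
theorem a6p179 : a6e179.Valid :=
  pos_of_chk [] forall_nil a6c179 a6e179 (by decide +kernel)

def a6e180 : Pos := ⟨1415235909637588294776852234189732072449752332085098055047956022243043306937961892335385012443504900579800459275446664784205050422003652661196936747290814374342045990912, 17404329754698216236463443381464579509232911084534366153858264470424117227998635330313237488108121965172224871539616734325829908660699652074748093455041295916582469753087531159068872802304, 7⟩
def a6c180 : Cert := (move 494 (branch (move 493 (branch (move 461 (branch (move 429 (leaf 429 4)) (move 460 (branch (move 428 (leaf 428 7)) (move 495 (branch (move 496 (leaf 460 3)) (move 459 (branch (move 458 (leaf 458 0)) (move 492 (leaf 459 3)))))))))) (branch (move 590 (branch (move 622 (leaf 493 7)) (move 495 (branch (move 463 (leaf 462 6)) (move 524 (branch (move 496 (leaf 492 1)) (move 523 (leaf 491 2)))))))) (move 461 (branch (move 429 (leaf 429 4)) (move 590 (leaf 461 4))))))) (move 462 (branch (move 430 (leaf 429 5)) (move 589 (leaf 461 5))))))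
theorem a6p180 : a6e180.Valid :=
  pos_of_chk [] forall_nil a6c180 a6e180 (by decide +kernel)

def a6e181 : Pos := ⟨1415235909637588294776852234189732072449752332085098055047956022243043306937961892335385012443504900579800459275446664784205050422003652661196936747290814374342045990912, 130814297453729817870003008332478109983322764911515380142416946953741478448841825436406625665139056397757049189415471841920051949817548502150111970411871933582311924833740755651423182166358860234752, 11⟩
def a6c181 : Cert := (move 589 (branch (move 621 (branch (move 653 (leaf 525 6)) (move 620 (branch (move 652 (leaf 524 5)) (move 588 (branch (move 493 (leaf 492 5)) (move 622 (branch (move 654 (leaf 525 4)) (move 587 (branch (move 586 (leaf 586 0)) (move 623 (leaf 587 3)))))))))))) (branch (move 494 (branch (move 462 (leaf 461 5)) (move 621 (leaf 493 6)))) (move 460 (branch (move 493 (branch (move 492 (leaf 460 7)) (move 461 (branch (move 429 (leaf 429 4)) (move 428 (leaf 428 7)))))) (branch (move 524 (branch (move 492 (branch (move 428 (leaf 428 4)) (move 556 (leaf 460 4)))) (move 523 (branch (move 522 (leaf 522 0)) (move 494 (branch (move 495 (leaf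 491 2)) (move 462 (leaf 461 5)))))))) (branch (move 493 (branch (move 492 (leaf 460 7)) (move 494 (branch (move 462 (leaf 461 5)) (move 461 (branch (move 429 (leaf 429 4)) (move 588 (branch (move 556 (leaf 460 5)) (move 620 (leaf 492 5)))))))))) (move 461 (branch (move 493 (branch (move 429 (leaf 429 4)) (move 428 (leaf 428 7)))) (branch (move 462 (branch (move 494 (leaf 461 5)) (move 493 (branch (move 430 (leaf 429 6)) (move 428 (leaf 428 7)))))) (branch (move 462 (branch (move 494 (leaf 461 5)) (move 493 (branch (move 429 (leaf 429 4)) (move 430 (leaf 429 6)))))) (move 462 (branch (move 494 (leaf 461 5)) (move 463 (branch (move 428 (branch (move 427 (leaf 427 3)) (move 464 (branch (move 429 (leaf 428 3)) (move 496 (branch (move 495 (leaf 460 0)) (move 497 (leaf 461 0)))))))) (branch (move 431 (branch (move 432 (leaf 428 2)) (move 496 (branch (move 495 (leaf 460 0)) (move 464 (branch (move 497 (leaf 461 0)) (move 430 (branch (move 459 (leaf 427 2)) (move 465 (branch (move 429 (leaf 429 3)) (move 466 (leaf 430 3)))))))))))) (move 431 (branch (move 432 (leaf 428 2)) (move 459 (branch (move 430 (leaf 427 2)) (move 427 (branch (move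 426 (leaf 426 3)) (move 428 (leaf 427 3))))))))))))))))))))))))
theorem a6p181 : a6e181.Valid :=
  pos_of_chk [] forall_nil a6c181 a6e181 (by decide +kernel)

def a6e182 : Pos := ⟨1415235909472833150933717601048029241760087729812771789747172291853851273997760384583319170327626860348600417319656024573150963216334024680199334884683584064980118405120, 48627135586033004722078756690150273736643371337962449421154742000035080503453753868533114966429322366395609642129710455537632822955927485095190381448243695568916965828626630049792, 10⟩
def a6c182 : Cert := (move 463 (branch (move 464 (branch (move 429 (branch (move 428 (leaf 428 3)) (move 465 (branch (move 430 (leaf 429 3)) (move 497 (branch (move 496 (leaf 461 0)) (move 498 (leaf 462 0)))))))) (branch (move 559 (branch (move 560 (leaf 524 3)) (move 429 (branch (move 428 (leaf 428 3)) (move 465 (branch (move 430 (leaf 429 3)) (move 433 (branch (move 432 (leaf 429 2)) (move 434 (leaf 430 2)))))))))) (move 560 (branch (move 559 (leaf 524 3)) (move 496 (branch (move 497 (leaf 461 0)) (move 528 (branch (move 431 (leaf 431 7)) (move 432 (branch (move 433 (leaf 429 2)) (move 561 (branch (move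 529 (leaf 432 4)) (move 593 (leaf 464 4))))))))))))))) (branch (move 464 (branch (move 432 (branch (move 433 (leaf 429 2)) (move 496 (branch (move 497 (leaf 461 0)) (move 431 (branch (move 460 (leaf 428 2)) (move 399 (branch (move 367 (leaf 367 4)) (move 528 (leaf 399 7)))))))))) (branch (move 560 (branch (move 559 (leaf 524 3)) (move 496 (branch (move 497 (leaf 461 0)) (move 528 (branch (move 431 (leaf 431 7)) (move 495 (branch (move 460 (leaf 460 0)) (move 592 (leaf 463 7)))))))))) (branch (move 559 (branch (move 560 (leaf 524 3)) (move 433 (branch (move 432 (leaf 429 2)) (move 465 (branch (move 434 (leaf 430 2)) (move 498 (branch (move 497 (leaf 462 0)) (move 466 (branch (move 499 (leaf 463 0)) (move 430 (branch (move 429 (leaf 429 3)) (move 431 (leaf 430 3)))))))))))))) (branch (move 560 (branch (move 559 (leaf 524 3)) (move 433 (branch (move 432 (leaf 429 2)) (move 465 (branch (move 434 (leaf 430 2)) (move 496 (branch (move 528 (leaf 432 6)) (move 430 (branch (move 429 (leaf 429 3)) (move 466 (branch (move 431 (leaf 430 3)) (move 495 (branch (move 460 (leaf 460 0)) (move 467 (leaf 463 1)))))))))))))))) (move 559 (branch (move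 560 (leaf 524 3)) (move 497 (branch (move 496 (leaf 461 0)) (move 465 (branch (move 498 (leaf 462 0)) (move 433 (branch (move 432 (leaf 429 2)) (move 434 (leaf 430 2))))))))))))))) (branch (move 460 (branch (move 428 (branch (move 427 (leaf 427 3)) (move 492 (leaf 428 4)))) (move 560 (branch (move 559 (leaf 524 3)) (move 496 (branch (move 495 (leaf 460 0)) (move 464 (branch (move 497 (leaf 461 0)) (move 431 (branch (move 528 (leaf 431 7)) (move 430 (branch (move 459 (leaf 427 2)) (move 465 (branch (move 429 (leaf 429 3)) (move 466 (leaf 430 3)))))))))))))))) (branch (move 460 (branch (move 428 (branch (move 427 (leaf 427 3)) (move 492 (leaf 428 4)))) (move 560 (branch (move 559 (leaf 524 3)) (move 496 (branch (move 495 (leaf 460 0)) (move 464 (branch (move 497 (leaf 461 0)) (move 433 (branch (move 432 (leaf 429 2)) (move 465 (branch (move 434 (leaf 430 2)) (move 528 (leaf 432 6)))))))))))))) (branch (move 428 (branch (move 464 (branch (move 429 (leaf 428 3)) (move 432 (branch (move 433 (leaf 429 2)) (move 460 (branch (move 431 (leaf 428 2)) (move 492 (leaf 428 4)))))))) (branch (move 429 (branch (move 464 (leaf 428 3)) (move 427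 (branch (move 426 (leaf 426 0)) (move 430 (leaf 427 0)))))) (move 460 (branch (move 427 (leaf 427 3)) (move 492 (leaf 428 4))))))) (move 460 (branch (move 428 (branch (move 427 (leaf 427 3)) (move 492 (leaf 428 4)))) (move 431 (branch (move 432 (leaf 428 2)) (move 495 (branch (move 496 (leaf 460 0)) (move 399 (branch (move 559 (branch (move 560 (leaf 524 3)) (move 366 (branch (move 398 (leaf 366 7)) (move 367 (branch (move 334 (leaf 334 7)) (move 368 (branch (move 336 (leaf 335 6)) (move 400 (leaf 367 6)))))))))) (branch (move 559 (branch (move 560 (leaf 524 3)) (move 430 (branch (move 459 (leaf 427 2)) (move 367 (branch (move 335 (leaf 334 5)) (move 368 (branch (move 336 (leaf 335 6)) (move 400 (leaf 367 6)))))))))) (branch (move 430 (branch (move 459 (leaf 427 2)) (move 398 (branch (move 366 (leaf 366 4)) (move 400 (branch (move 368 (leaf 367 6)) (move 401 (branch (move 429 (leaf 397 1)) (move 402 (leaf 398 1)))))))))) (move 430 (branch (move 459 (leaf 427 2)) (move 366 (branch (move 398 (leaf 366 4)) (move 367 (branch (move 335 (leaf 334 5)) (move 334 (leaf 334 7))))))))))))))))))))))))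
theorem a6p182 : a6e182.Valid :=
  pos_of_chk [] forall_nil a6c182 a6e182 (by decide +kernel)

def a6e183 : Pos := ⟨329510287686269266319131238355906874428932894406878659650934246040906072803087490501882862751749818638910222946791081185781855423986398903003553357973522743296, 3447282665562428322360490605674735684264145656049026673879907656655145423213740616563879136619860344038093770483801001273378032476180633112533313328839516199847830321102741345183825372719848458644452617141188401561600, 16⟩
def a6c183 : Cert := (move 558 (branch (move 590 (branch (move 494 (branch (move 461 (branch (move 493 (leaf 461 7)) (move 462 (branch (move 429 (leaf 429 7)) (move 591 (branch (move 559 (leaf 462 4)) (move 623 (leaf 494 4)))))))) (branch (move 495 (branch (move 463 (leaf 462 6)) (move 591 (branch (move 623 (leaf 494 4)) (move 559 (branch (move 462 (leaf 462 4)) (move 589 (branch (move 621 (leaf 493 5)) (move 560 (branch (move 561 (leaf 557 1)) (move 588 (leaf 556 2)))))))))))) (move 495 (branch (move 463 (leaf 462 6)) (move 493 (branch (move 461 (leaf 461 7)) (move 524 (branch (move 496 (leaf 492 1)) (move 523 (leaf 491 2))))))))))) (branch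 (move 622 (branch (move 493 (leaf 493 7)) (move 655 (branch (move 623 (leaf 526 4)) (move 654 (branch (move 687 (leaf 558 4)) (move 653 (branch (move 621 (leaf 525 5)) (move 685 (leaf 557 5)))))))))) (branch (move 493 (branch (move 622 (leaf 493 7)) (move 461 (branch (move 429 (leaf 429 4)) (move 494 (leaf 461 7)))))) (ref 0))))) (branch (ref 1) (branch (ref 2) (branch (move 590 (branch (move 622 (branch (move 493 (leaf 493 7)) (move 655 (branch (move 623 (leaf 526 4)) (move 654 (branch (move 687 (leaf 558 4)) (move 653 (branch (move 621 (leaf 525 5)) (move 685 (leaf 557 5)))))))))) (branch (move 493 (branch (move 622 (leaf 493 7)) (move 461 (branch (move 429 (leaf 429 4)) (move 494 (leaf 461 7)))))) (branch (move 623 (branch (move 494 (branch (move 591 (leaf 494 4)) (move 589 (branch (move 621 (leaf 493 5)) (move 462 (branch (move 557 (leaf 461 5)) (move 463 (branch (move 431 (leaf 430 6)) (move 495 (leaf 462 6)))))))))) (branch (move 622 (branch (move 655 (leaf 526 4)) (move 654 (branch (move 557 (leaf 525 7)) (move 653 (branch (move 621 (leaf 525 5)) (move 685 (leaf 557 5)))))))) (move 591 (branch (move 494 (leaf 494 4)) (move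 655 (branch (move 622 (leaf 526 4)) (move 687 (leaf 558 7))))))))) (move 494 (branch (move 495 (branch (move 463 (leaf 462 6)) (move 493 (branch (move 461 (leaf 461 7)) (move 524 (branch (move 496 (leaf 492 1)) (move 523 (leaf 491 2)))))))) (branch (move 589 (branch (move 621 (leaf 493 5)) (move 462 (branch (move 557 (leaf 461 5)) (move 463 (branch (move 431 (leaf 430 6)) (move 495 (leaf 462 6)))))))) (move 493 (branch (move 461 (leaf 461 7)) (move 589 (branch (move 621 (leaf 493 5)) (move 557 (branch (move 462 (leaf 461 5)) (move 591 (branch (move 623 (leaf 494 4)) (move 556 (branch (move 555 (leaf 555 0)) (move 592 (leaf 556 3))))))))))))))))))) (branch (move 590 (branch (move 622 (branch (move 493 (leaf 493 7)) (move 655 (branch (move 623 (leaf 526 4)) (move 654 (branch (move 687 (leaf 558 4)) (move 653 (branch (move 621 (leaf 525 5)) (move 685 (leaf 557 5)))))))))) (branch (move 493 (branch (move 622 (leaf 493 7)) (move 461 (branch (move 429 (leaf 429 4)) (move 494 (leaf 461 7)))))) (branch (ref 0) (move 494 (branch (move 461 (branch (move 493 (leaf 461 7)) (move 462 (branch (move 429 (leaf 429 7)) (move 591 (branch (move 559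 (leaf 462 4)) (move 623 (leaf 494 4)))))))) (branch (move 589 (branch (move 621 (leaf 493 5)) (move 462 (branch (move 557 (leaf 461 5)) (move 463 (branch (move 431 (leaf 430 6)) (move 495 (leaf 462 6)))))))) (move 589 (branch (move 621 (leaf 493 5)) (move 493 (branch (move 461 (leaf 461 7)) (move 591 (branch (move 623 (leaf 494 4)) (move 495 (branch (move 463 (leaf 462 6)) (move 496 (branch (move 497 (leaf 493 1)) (move 528 (branch (move 529 (leaf 493 0)) (move 464 (branch (move 465 (leaf 461 2)) (move 560 (branch (move 559 (leaf 463 5)) (move 592 (branch (move 561 (leaf 557 2)) (move 557 (branch (move 556 (leaf 556 3)) (move 593 (leaf 557 3))))))))))))))))))))))))))))) (branch (move 590 (branch (ref 0) (branch (move 622 (branch (move 493 (leaf 493 7)) (move 654 (branch (move 557 (leaf 525 7)) (move 655 (branch (move 623 (leaf 526 4)) (move 687 (leaf 558 4)))))))) (branch (move 622 (branch (move 493 (leaf 493 7)) (move 654 (branch (move 557 (leaf 525 7)) (move 653 (branch (move 621 (leaf 525 5)) (move 685 (leaf 557 5)))))))) (move 494 (branch (move 495 (branch (move 463 (leaf 462 6)) (move 591 (branch (move 623 (leaf 494 4)) (move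 559 (branch (move 462 (leaf 462 4)) (move 524 (branch (move 523 (leaf 523 0)) (move 560 (branch (move 557 (leaf 524 3)) (move 561 (leaf 525 3)))))))))))) (branch (move 589 (branch (move 621 (leaf 493 5)) (move 462 (branch (move 557 (leaf 461 5)) (move 463 (branch (move 431 (leaf 430 6)) (move 495 (leaf 462 6)))))))) (branch (move 589 (branch (move 621 (leaf 493 5)) (move 462 (branch (move 557 (leaf 461 5)) (move 591 (branch (move 559 (leaf 462 4)) (move 623 (leaf 494 4)))))))) (move 589 (branch (move 621 (leaf 493 5)) (move 591 (branch (move 623 (leaf 494 4)) (move 495 (branch (move 463 (leaf 462 6)) (move 524 (branch (move 523 (leaf 491 2)) (move 496 (branch (move 493 (leaf 492 1)) (move 497 (leaf 493 1)))))))))))))))))))) (branch (ref 3) (branch (ref 4) (branch (move 590 (branch (move 622 (branch (move 493 (leaf 493 7)) (move 655 (branch (move 623 (leaf 526 4)) (move 654 (branch (move 687 (leaf 558 4)) (move 653 (branch (move 621 (leaf 525 5)) (move 685 (leaf 557 5)))))))))) (branch (move 493 (branch (move 622 (leaf 493 7)) (move 461 (branch (move 429 (leaf 429 4)) (move 494 (leaf 461 7)))))) (branch (move 494 (branch (move 495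 (branch (move 463 (leaf 462 6)) (move 493 (branch (move 461 (leaf 461 7)) (move 524 (branch (move 496 (leaf 492 1)) (move 523 (leaf 491 2)))))))) (branch (move 589 (branch (move 621 (leaf 493 5)) (move 462 (branch (move 557 (leaf 461 5)) (move 463 (branch (move 431 (leaf 430 6)) (move 495 (leaf 462 6)))))))) (move 493 (branch (move 461 (leaf 461 7)) (move 589 (branch (move 621 (leaf 493 5)) (move 557 (branch (move 462 (leaf 461 5)) (move 588 (branch (move 620 (leaf 492 5)) (move 559 (branch (move 560 (leaf 556 1)) (move 587 (leaf 555 2))))))))))))))) (move 622 (branch (move 654 (branch (move 557 (leaf 525 7)) (move 655 (branch (move 623 (leaf 526 4)) (move 687 (leaf 558 4)))))) (branch (move 654 (branch (move 557 (leaf 525 7)) (move 653 (branch (move 621 (leaf 525 5)) (move 685 (leaf 557 5)))))) (move 621 (branch (move 653 (leaf 525 5)) (move 589 (branch (move 494 (leaf 493 5)) (move 623 (branch (move 655 (leaf 526 4)) (move 588 (branch (move 587 (leaf 587 0)) (move 624 (leaf 588 3))))))))))))))))) (branch (move 557 (branch (ref 5) (branch (ref 6) (branch (move 559 (branch (move 524 (branch (move 523 (leaf 523 0)) (move 560 (leaf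 524 3)))) (branch (move 556 (branch (move 555 (branch (move 554 (leaf 522 2)) (move 587 (branch (move 586 (leaf 554 1)) (move 588 (leaf 555 1)))))) (branch (move 524 (branch (move 523 (leaf 523 0)) (move 588 (branch (move 587 (leaf 555 1)) (move 493 (branch (move 461 (leaf 460 5)) (move 620 (leaf 492 6)))))))) (move 523 (branch (move 524 (leaf 523 0)) (move 555 (branch (move 554 (leaf 522 2)) (move 522 (leaf 522 3))))))))) (move 560 (branch (move 561 (leaf 525 3)) (move 592 (branch (move 593 (leaf 557 0)) (move 556 (branch (move 591 (leaf 556 0)) (move 555 (branch (move 554 (leaf 522 2)) (move 587 (branch (move 586 (leaf 554 1)) (move 588 (leaf 555 1))))))))))))))) (ref 7))))) (branch (move 557 (branch (ref 8) (branch (ref 9) (branch (move 559 (branch (move 524 (branch (move 523 (leaf 523 0)) (move 560 (leaf 524 3)))) (move 556 (branch (move 555 (branch (move 554 (leaf 522 2)) (move 587 (branch (move 586 (leaf 554 1)) (move 588 (leaf 555 1)))))) (move 591 (branch (move 592 (leaf 556 0)) (move 494 (branch (move 462 (leaf 462 4)) (move 623 (branch (move 590 (leaf 494 4)) (move 655 (leaf 526 7)))))))))))) (ref 7))))) (branch (move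 590 (branch (move 622 (branch (move 493 (leaf 493 7)) (move 655 (branch (move 623 (leaf 526 4)) (move 654 (branch (move 687 (leaf 558 4)) (move 653 (branch (move 621 (leaf 525 5)) (move 685 (leaf 557 5)))))))))) (branch (move 493 (branch (move 622 (leaf 493 7)) (move 461 (branch (move 429 (leaf 429 4)) (move 494 (leaf 461 7)))))) (branch (ref 0) (move 494 (branch (move 461 (branch (move 493 (leaf 461 7)) (move 462 (branch (move 429 (leaf 429 7)) (move 591 (branch (move 559 (leaf 462 4)) (move 623 (leaf 494 4)))))))) (branch (move 589 (branch (move 621 (leaf 493 5)) (move 462 (branch (move 557 (leaf 461 5)) (move 463 (branch (move 431 (leaf 430 6)) (move 495 (leaf 462 6)))))))) (move 557 (branch (move 591 (branch (move 623 (leaf 494 4)) (move 556 (branch (move 555 (leaf 555 0)) (move 559 (branch (move 592 (leaf 556 0)) (move 524 (branch (move 523 (leaf 523 0)) (move 560 (leaf 524 3)))))))))) (branch (move 589 (branch (move 621 (leaf 493 5)) (move 591 (branch (move 623 (leaf 494 4)) (move 556 (branch (move 555 (leaf 555 0)) (move 592 (leaf 556 3)))))))) (move 589 (branch (move 621 (leaf 493 5)) (move 493 (branch (move 461 (leaf 461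 4)) (move 588 (branch (move 620 (leaf 492 5)) (move 559 (branch (move 560 (leaf 556 1)) (move 587 (leaf 555 2)))))))))))))))))))) (move 557 (branch (ref 8) (branch (ref 9) (branch (ref 5) (branch (ref 10) (move 524 (branch (move 523 (branch (move 522 (leaf 522 0)) (move 494 (branch (move 495 (leaf 491 2)) (move 589 (branch (move 462 (leaf 461 5)) (move 621 (leaf 493 6)))))))) (branch (move 559 (branch (move 523 (leaf 523 0)) (move 560 (leaf 524 3)))) (move 589 (branch (move 621 (branch (move 653 (leaf 525 6)) (move 492 (leaf 492 7)))) (branch (move 494 (branch (move 462 (leaf 461 5)) (move 621 (leaf 493 6)))) (move 461 (branch (move 493 (branch (move 429 (leaf 429 4)) (move 462 (branch (move 494 (leaf 461 5)) (move 430 (leaf 429 6)))))) (branch (move 493 (branch (move 429 (leaf 429 4)) (move 460 (branch (move 428 (leaf 428 7)) (move 492 (leaf 460 7)))))) (branch (move 462 (branch (move 494 (leaf 461 5)) (move 493 (branch (move 430 (leaf 429 6)) (move 460 (branch (move 428 (leaf 428 7)) (move 492 (leaf 460 7)))))))) (move 462 (branch (move 494 (leaf 461 5)) (ref 11)))))))))))))))))))))))))))))))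
theorem a6p183 : a6e183.Valid :=
  pos_of_chk [a6e168, a6e171, a6e176, a6e178, a6e179, a6e170, a6e173, a6e180, a6e172, a6e177, a6e181, a6e182] (forall_cons a6p168 (forall_cons a6p171 (forall_cons a6p176 (forall_cons a6p178 (forall_cons a6p179 (forall_cons a6p170 (forall_cons a6p173 (forall_cons a6p180 (forall_cons a6p172 (forall_cons a6p177 (forall_cons a6p181 (forall_cons a6p182 forall_nil)))))))))))) a6c183 a6e183 (by decide +kernel)

def a6e184 : Pos := ⟨219673525175326239139706567948419895260313287626407871360895778083114828594879019660120542517667552527642048594904294154828562879507017294794859084857162596352, 943490606205385338367269014819201636969458773175988684528226694009443074443441426376178196317426041419451443072827009010882078457936210123255532417178322740230301417472, 9⟩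
def a6c184 : Cert := (move 431 (branch (move 430 (branch (move 399 (leaf 398 6)) (move 429 (branch (move 397 (leaf 397 7)) (move 461 (branch (move 558 (leaf 429 7)) (move 460 (branch (move 459 (leaf 427 2)) (move 432 (leaf 428 1)))))))))) (branch (move 463 (branch (move 558 (leaf 430 6)) (move 399 (branch (move 495 (leaf 398 5)) (move 367 (leaf 366 5)))))) (branch (move 399 (branch (move 430 (leaf 398 6)) (move 463 (branch (move 495 (leaf 398 5)) (move 367 (leaf 366 5)))))) (move 461 (branch (move 429 (branch (move 558 (leaf 429 7)) (move 397 (branch (move 430 (leaf 397 7)) (move 365 (leaf 365 4)))))) (branch (move 463 (branch (move 558 (leaf 430 6)) (move 460 (branch (move 432 (leaf 428 2)) (move 495 (branch (move 459 (leaf 459 0)) (move 496 (leaf 460 0)))))))) (move 460 (branch (move 463 (branch (move 432 (leaf 428 2)) (move 495 (branch (move 496 (leaf 460 0)) (move 428 (branch (move 427 (leaf 427 3)) (move 429 (branch (move 464 (leaf 428 3)) (move 397 (branch (move 430 (leaf 397 7)) (move 365 (leaf 365 4)))))))))))) (branch (move 463 (branch (move 432 (leaf 428 2)) (move 495 (branch (move 459 (leaf 459 0)) (move 496 (leaf 460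 0)))))) (branch (move 459 (branch (move 430 (leaf 427 2)) (move 495 (leaf 459 0)))) (move 430 (branch (move 459 (leaf 427 2)) (move 432 (branch (move 463 (leaf 428 2)) (move 429 (leaf 428 1)))))))))))))))))
theorem a6p184 : a6e184.Valid :=
  pos_of_chk [] forall_nil a6c184 a6e184 (by decide +kernel)

def a6e185 : Pos := ⟨329510287762989358691697063434341007948329749536956207605068577044420714242840626355117422631826461427798601630014987845021544588264928353297742257660910108672, 4009835079105077156227065298138570408709592128922590702770629796347164454861262179468483356335683480448091286605590933272788202528667420128692917268496416816859950612480, 10⟩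
def a6c185 : Cert := (move 495 (branch (move 496 (branch (move 497 (leaf 493 1)) (move 464 (branch (move 465 (leaf 461 2)) (move 463 (branch (move 492 (leaf 460 2)) (move 528 (branch (move 529 (leaf 493 0)) (move 431 (branch (move 560 (leaf 431 7)) (move 399 (leaf 399 4)))))))))))) (branch (move 524 (branch (move 523 (leaf 491 2)) (move 496 (leaf 492 1)))) (move 492 (branch (move 491 (branch (move 490 (leaf 490 0)) (move 459 (branch (move 458 (leaf 458 3)) (move 460 (leaf 459 3)))))) (branch (move 523 (branch (move 524 (leaf 491 1)) (move 491 (branch (move 490 (leaf 490 0)) (move 522 (leaf 490 1)))))) (move 524 (branch (move 523 (leaf 491 1)) (move 460 (branch (move 459 (leaf 459 3)) (move 428 (branch (move 396 (leaf 396 4)) (move 429 (branch (move 397 (leaf 396 6)) (move 461 (branch (move 556 (leaf 428 5)) (move 463 (branch (move 464 (leaf 460 2)) (move 427 (branch (move 462 (leaf 427 3)) (move 395 (leaf 395 7))))))))))))))))))))))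
theorem a6p185 : a6e185.Valid :=
  pos_of_chk [] forall_nil a6c185 a6e185 (by decide +kernel)

def a6e186 : Pos := ⟨329510287762989358691697063434341007948329749536956207605068577044420714242840626355117422631826461427798601630014987845021544588264928353297742257660910108672, 4052261298914707943900112144941644793201282972460120730808025966408580135408580815725921557628404139771633045875093851458275144624142500024245965460227062583850383428723578765312, 8⟩
def a6c186 : Cert := (move 495 (branch (move 524 (branch (move 523 (leaf 491 2)) (move 496 (leaf 492 1)))) (branch (move 496 (branch (move 497 (leaf 493 1)) (move 461 (branch (move 460 (leaf 460 3)) (move 558 (branch (move 590 (leaf 461 7)) (move 429 (leaf 429 4)))))))) (move 492 (branch (move 491 (branch (move 490 (leaf 490 0)) (move 459 (branch (move 458 (leaf 458 3)) (move 460 (leaf 459 3)))))) (branch (move 523 (branch (move 524 (leaf 491 1)) (move 491 (branch (move 490 (leaf 490 0)) (move 522 (leaf 490 1)))))) (move 524 (branch (move 523 (leaf 491 1)) (move 460 (branch (move 459 (leaf 459 3)) (move 428 (branch (move 396 (leaf 396 4)) (move 429 (branch (move 397 (leaf 396 6))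 (move 461 (branch (move 556 (leaf 428 5)) (move 558 (leaf 429 4))))))))))))))))))
theorem a6p186 : a6e186.Valid :=
  pos_of_chk [] forall_nil a6c186 a6e186 (by decide +kernel)

def a6e187 : Pos := ⟨329510287737415994567508455074862963441864131160263691620357133376582500429589581070705902671800913831502475402273685625274981533505418536533012624431780986880, 60915154135365364895407266553131112697540412601616805763769680965516951516180017305153286387342802922558893243161554037468477243769889976084648618850657119828608233971887337520073988374528, 11⟩
def a6c187 : Cert := (move 493 (branch (move 558 (branch (move 590 (branch (move 622 (leaf 493 7)) (move 591 (branch (move 623 (leaf 494 4)) (move 559 (branch (move 462 (leaf 462 4)) (move 589 (branch (move 621 (leaf 493 5)) (move 560 (branch (move 588 (leaf 556 2)) (move 561 (leaf 557 1)))))))))))) (branch (move 461 (branch (move 590 (leaf 461 7)) (move 429 (leaf 429 4)))) (move 462 (branch (move 430 (branch (move 398 (leaf 397 5)) (move 431 (branch (move 463 (leaf 430 6)) (move 399 (leaf 398 6)))))) (branch (move 461 (branch (move 429 (leaf 429 4)) (move 463 (branch (move 431 (leaf 430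 6)) (move 492 (branch (move 491 (leaf 459 2)) (move 464 (leaf 460 1)))))))) (move 429 (branch (move 461 (leaf 429 4)) (move 430 (branch (move 397 (leaf 397 7)) (move 398 (leaf 397 5)))))))))))) (branch (move 495 (branch (move 524 (branch (move 523 (leaf 491 2)) (move 496 (leaf 492 1)))) (move 492 (branch (move 491 (branch (move 490 (leaf 490 0)) (move 459 (branch (move 458 (leaf 458 3)) (move 460 (leaf 459 3)))))) (move 463 (branch (move 464 (leaf 460 2)) (move 558 (branch (move 590 (leaf 462 6)) (move 431 (branch (move 462 (leaf 430 6)) (move 399 (leaf 398 5)))))))))))) (branch (ref 0) (branch (move 558 (branch (move 590 (branch (move 622 (leaf 493 7)) (move 591 (branch (move 623 (leaf 494 4)) (move 559 (branch (move 462 (leaf 462 4)) (move 589 (branch (move 621 (leaf 493 5)) (move 560 (branch (move 588 (leaf 556 2)) (move 561 (leaf 557 1)))))))))))) (branch (move 461 (branch (move 590 (leaf 461 7)) (move 429 (leaf 429 4)))) (move 462 (branch (move 430 (branch (move 398 (leaf 397 5)) (move 431 (branch (move 463 (leaf 430 6)) (move 399 (leaf 398 6)))))) (branch (move 429 (branch (move 461 (leaf 429 4)) (move 430 (branch (move 397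 (leaf 397 7)) (move 398 (leaf 397 5)))))) (move 461 (branch (move 429 (leaf 429 4)) (move 463 (branch (move 431 (leaf 430 6)) (move 464 (branch (move 465 (leaf 461 1)) (move 496 (branch (move 497 (leaf 461 0)) (move 495 (branch (move 460 (leaf 460 0)) (move 524 (leaf 492 1)))))))))))))))))) (ref 1))))))
theorem a6p187 : a6e187.Valid :=
  pos_of_chk [a6e185, a6e186] (forall_cons a6p185 (forall_cons a6p186 forall_nil)) a6c187 a6e187 (by decide +kernel)

def a6e188 : Pos := ⟨329510287762989358691697063434341007948329749536956207605068577044420714242840626355117422631826461427798601630014987845021544588264928353297742257660910108672, 2026130653113380073680060142935112240200270437739005344273092226706433138629873271156228479548471889577344944215366561097693801996007148577730235882486218494411775576143199993856, 7⟩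
def a6c188 : Cert := (move 495 (branch (move 496 (branch (move 497 (leaf 493 1)) (move 464 (branch (move 465 (leaf 461 2)) (move 463 (branch (move 492 (leaf 460 2)) (move 528 (branch (move 529 (leaf 493 0)) (move 431 (branch (move 560 (leaf 431 7)) (move 399 (leaf 399 4)))))))))))) (branch (move 524 (branch (move 523 (leaf 491 2)) (move 496 (leaf 492 1)))) (move 492 (branch (move 491 (branch (move 490 (leaf 490 0)) (move 459 (branch (move 458 (leaf 458 3)) (move 460 (leaf 459 3)))))) (branch (move 524 (branch (move 523 (leaf 491 1)) (move 460 (branch (move 459 (leaf 459 3)) (move 557 (branch (move 589 (leaf 460 7)) (move 428 (leaf 428 4)))))))) (move 523 (branch (move 524 (leaf 491 1)) (move 491 (branch (move 490 (leaf 490 0)) (move 522 (leaf 490 1))))))))))))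
theorem a6p188 : a6e188.Valid :=
  pos_of_chk [] forall_nil a6c188 a6e188 (by decide +kernel)

def a6e189 : Pos := ⟨329510287762989358691697063434341007948329749536956207605068577044420714242840626355117422631826461427798601630014987845021544588264928353297742257660910108672, 13053247314504064191404446233422962967393676985859122765281102707826311108954919439404881817640788829753114306879659817354158330439651209561771473088677851958458039189284120724490600579072, 7⟩
def a6c189 : Cert := (move 557 (branch (move 462 (branch (move 589 (leaf 461 6)) (move 430 (leaf 429 5)))) (branch (move 589 (branch (move 621 (leaf 493 6)) (move 588 (branch (move 620 (leaf 492 5)) (move 461 (branch (move 556 (leaf 460 5)) (move 429 (branch (move 397 (leaf 397 4)) (move 428 (branch (move 460 (leaf 428 7)) (move 396 (leaf 396 7)))))))))))) (move 461 (branch (move 430 (branch (move 462 (leaf 429 5)) (move 429 (branch (move 398 (leaf 397 6)) (move 397 (leaf 397 4)))))) (branch (move 429 (branch (move 397 (leaf 397 4)) (move 428 (branch (move 460 (leaf 428 7)) (move 396 (leaf 396 7)))))) (move 462 (branch (move 430 (leaf 429 5)) (move 460 (branch (move 428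 (leaf 428 7)) (move 495 (branch (move 496 (leaf 460 3)) (move 459 (leaf 459 0))))))))))))))
theorem a6p189 : a6e189.Valid :=
  pos_of_chk [] forall_nil a6c189 a6e189 (by decide +kernel)

def a6e190 : Pos := ⟨329510287762989358691697063434341007948329749536956207605068577044420714242840626355117422631826461427798601630014987845021544588264928353297742257660910108672, 13053247314504064191404446233422962967109173310144988139398954541561075495610923649322403935966952739113611020538446740586586264447973860700488668883114325893239026594895740531359300452352, 10⟩
def a6c190 : Cert := (move 461 (branch (move 429 (branch (move 397 (leaf 397 4)) (move 428 (branch (move 396 (leaf 396 7)) (move 460 (branch (move 557 (leaf 428 7)) (move 430 (branch (move 398 (leaf 397 6)) (move 459 (branch (move 458 (leaf 458 0)) (move 431 (leaf 427 1)))))))))))) (branch (move 557 (branch (move 462 (branch (move 430 (leaf 429 5)) (move 460 (branch (move 428 (leaf 428 7)) (move 459 (branch (move 458 (leaf 458 0)) (move 491 (branch (move 490 (leaf 458 1)) (move 463 (branch (move 492 (leaf 459 1)) (move 464 (branch (move 465 (leaf 461 1)) (move 432 (branch (move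 431 (leaf 428 2)) (move 433 (leaf 429 2)))))))))))))))) (move 589 (branch (move 621 (leaf 493 6)) (move 588 (branch (move 620 (leaf 492 5)) (move 556 (leaf 460 5)))))))) (branch (move 429 (branch (move 397 (leaf 397 4)) (move 428 (branch (move 396 (leaf 396 7)) (move 557 (branch (move 460 (leaf 428 7)) (move 589 (branch (move 621 (leaf 493 6)) (move 462 (leaf 461 6)))))))))) (branch (move 429 (branch (move 397 (leaf 397 4)) (move 430 (branch (move 398 (leaf 397 6)) (move 462 (branch (move 557 (leaf 429 5)) (move 428 (branch (move 396 (leaf 396 7)) (move 463 (branch (move 464 (leaf 428 3)) (move 427 (leaf 427 0)))))))))))) (branch (move 429 (branch (move 397 (leaf 397 4)) (move 430 (branch (move 398 (leaf 397 6)) (move 462 (branch (move 557 (leaf 429 5)) (move 431 (branch (move 399 (leaf 398 6)) (move 432 (branch (move 460 (leaf 428 1)) (move 433 (leaf 429 1)))))))))))) (move 462 (branch (move 430 (branch (move 398 (leaf 397 5)) (move 431 (branch (move 399 (leaf 398 6)) (move 460 (branch (move 459 (leaf 427 2)) (move 463 (branch (move 432 (leaf 428 2)) (move 492 (branch (move 491 (leaf 459 1)) (move 464 (leaf 460 1)))))))))))) (branch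 (move 429 (branch (move 397 (leaf 397 4)) (move 428 (branch (move 396 (leaf 396 7)) (move 463 (branch (move 464 (leaf 428 3)) (move 427 (branch (move 460 (leaf 427 3)) (move 426 (leaf 426 0)))))))))) (branch (move 429 (branch (move 397 (leaf 397 4)) (move 430 (branch (move 398 (leaf 397 5)) (move 431 (branch (move 399 (leaf 398 6)) (move 460 (branch (move 459 (leaf 427 2)) (move 432 (leaf 428 1)))))))))) (move 429 (branch (move 397 (leaf 397 4)) (move 430 (branch (move 398 (leaf 397 5)) (move 428 (branch (move 396 (leaf 396 7)) (move 463 (branch (move 464 (leaf 428 3)) (move 427 (leaf 427 0))))))))))))))))))))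
theorem a6p190 : a6e190.Valid :=
  pos_of_chk [] forall_nil a6c190 a6e190 (by decide +kernel)

def a6e191 : Pos := ⟨219673525315979741810835388270848921292295289719147264262173283757878641081171558163764027572280084693202867107147115714443335893833343044179946512277611479040, 82377571921567316939643569382659291275272727914988331416815251227816820858486593520753058529108100547763976808512320133173865234045096668290000194758768590848, 9⟩
def a6c191 : Cert := (move 431 (branch (move 463 (branch (move 464 (leaf 460 2)) (move 399 (leaf 398 5)))) (branch (move 524 (branch (move 523 (leaf 491 1)) (move 464 (branch (move 463 (leaf 460 2)) (move 432 (branch (move 465 (leaf 429 0)) (move 397 (branch (move 396 (leaf 396 3)) (move 433 (branch (move 398 (leaf 397 3)) (move 401 (branch (move 400 (leaf 397 2)) (move 402 (leaf 398 2)))))))))))))) (branch (move 524 (branch (move 523 (leaf 491 1)) (move 399 (branch (move 463 (leaf 398 5)) (move 400 (branch (move 428 (leaf 396 2)) (move 401 (branch (move 432 (leaf 397 2)) (move 398 (leaf 397 1)))))))))) (move 428 (branch (move 399 (branch (move 400 (leaf 396 2)) (move 427 (branch (move 398 (leaf 395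 2)) (move 395 (branch (move 394 (leaf 394 3)) (move 396 (leaf 395 3)))))))) (branch (move 524 (branch (move 523 (leaf 491 1)) (move 399 (branch (move 400 (leaf 396 2)) (move 427 (branch (move 398 (leaf 395 2)) (move 458 (branch (move 459 (leaf 426 1)) (move 426 (branch (move 457 (leaf 425 1)) (move 394 (branch (move 393 (leaf 393 3)) (move 395 (leaf 394 3)))))))))))))) (branch (move 524 (branch (move 523 (leaf 491 1)) (move 396 (branch (move 395 (leaf 395 3)) (move 432 (branch (move 397 (leaf 396 3)) (move 465 (branch (move 464 (leaf 429 0)) (move 433 (branch (move 466 (leaf 430 0)) (move 401 (branch (move 400 (leaf 397 2)) (move 402 (leaf 398 2)))))))))))))) (branch (move 524 (branch (move 523 (leaf 491 1)) (move 400 (branch (move 399 (leaf 396 2)) (move 432 (branch (move 401 (leaf 397 2)) (move 465 (branch (move 464 (leaf 429 0)) (move 433 (branch (move 466 (leaf 430 0)) (move 397 (branch (move 396 (leaf 396 3)) (move 398 (leaf 397 3)))))))))))))) (move 524 (branch (move 523 (leaf 491 1)) (move 395 (branch (move 396 (leaf 395 3)) (move 427 (branch (move 394 (leaf 394 3)) (move 458 (branch (move 459 (leaf 426 1)) (move 426 (branch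 (move 457 (leaf 425 1)) (move 398 (branch (move 397 (leaf 394 2)) (move 399 (leaf 395 2)))))))))))))))))))))))
theorem a6p191 : a6e191.Valid :=
  pos_of_chk [] forall_nil a6c191 a6e191 (by decide +kernel)

def a6e192 : Pos := ⟨329510287737415994567508455074862963441864131160263691620357133376582500429589581070705902671800913831502475402273685625274981533505418536533012624431780986880, 13053247314504064195178408660976693788824338117488431742743720476600594266389696422979934688998684189049765603800158229561439619780798684775787616825630465415947391358928496682409136226304, 14⟩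
def a6c192 : Cert := (move 493 (branch (ref 0) (branch (ref 1) (branch (ref 2) (branch (ref 3) (branch (move 495 (branch (move 496 (branch (move 497 (leaf 493 1)) (move 464 (branch (move 465 (leaf 461 2)) (move 463 (branch (move 492 (leaf 460 2)) (move 528 (branch (move 529 (leaf 493 0)) (move 431 (branch (move 560 (leaf 431 7)) (move 399 (leaf 399 4)))))))))))) (branch (move 524 (branch (move 523 (leaf 491 2)) (move 496 (leaf 492 1)))) (move 492 (branch (move 523 (branch (move 524 (leaf 491 1)) (move 491 (branch (move 490 (leaf 490 0)) (move 522 (leaf 490 1)))))) (branch (move 491 (branch (move 490 (leaf 490 0)) (move 463 (branch (move 462 (leaf 459 2)) (move 464 (leaf 460 2)))))) (move 460 (branch (move 557 (branch (move 589 (leaf 460 7)) (move 428 (branch (move 461 (leaf 428 7)) (move 396 (leaf 396 4)))))) (branch (move 524 (branch (move 523 (leaf 491 1)) (move 428 (branch (move 396 (leaf 396 4)) (move 429 (branch (move 397 (leaf 396 6)) (move 461 (branch (move 556 (leaf 428 5)) (move 463 (branch (move 464 (leaf 460 2)) (move 427 (branch (move 462 (leaf 427 3)) (move 395 (leaf 395 7)))))))))))))) (branch (move 524 (branch (move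 523 (leaf 491 1)) (move 557 (branch (move 589 (leaf 460 7)) (move 462 (branch (move 430 (leaf 429 5)) (move 463 (branch (move 464 (leaf 460 2)) (move 431 (branch (move 399 (leaf 398 5)) (move 461 (branch (move 432 (leaf 428 2)) (move 429 (branch (move 556 (leaf 428 5)) (move 397 (leaf 397 4)))))))))))))))) (move 524 (branch (move 523 (leaf 491 1)) (move 557 (branch (move 589 (leaf 460 7)) (move 428 (leaf 428 4)))))))))))))))) (branch (move 495 (branch (move 496 (branch (move 497 (leaf 493 1)) (move 464 (branch (move 465 (leaf 461 2)) (move 463 (branch (move 492 (leaf 460 2)) (move 528 (branch (move 529 (leaf 493 0)) (move 431 (branch (move 560 (leaf 431 7)) (move 399 (leaf 399 4)))))))))))) (branch (move 524 (branch (move 523 (leaf 491 2)) (move 496 (leaf 492 1)))) (move 492 (branch (move 491 (branch (move 490 (leaf 490 0)) (move 459 (branch (move 458 (leaf 458 3)) (move 460 (leaf 459 3)))))) (branch (move 524 (branch (move 523 (leaf 491 1)) (move 463 (branch (move 464 (leaf 460 2)) (move 462 (branch (move 491 (leaf 459 2)) (move 430 (branch (move 557 (leaf 429 5)) (move 398 (leaf 397 5)))))))))) (move 524 (branch (move 523 (leaf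 491 1)) (move 460 (branch (move 459 (leaf 459 3)) (move 557 (branch (move 589 (leaf 460 7)) (move 462 (branch (move 430 (leaf 429 5)) (move 463 (branch (move 464 (leaf 460 2)) (move 431 (branch (move 399 (leaf 398 5)) (move 461 (branch (move 432 (leaf 428 2)) (move 429 (branch (move 556 (leaf 428 5)) (move 397 (leaf 397 4)))))))))))))))))))))))) (move 495 (branch (move 496 (branch (move 497 (leaf 493 1)) (move 464 (branch (move 465 (leaf 461 2)) (move 463 (branch (move 492 (leaf 460 2)) (move 528 (branch (move 529 (leaf 493 0)) (move 431 (branch (move 560 (leaf 431 7)) (move 399 (leaf 399 4)))))))))))) (branch (move 524 (branch (move 523 (leaf 491 2)) (move 496 (leaf 492 1)))) (move 492 (branch (move 523 (branch (move 524 (leaf 491 1)) (move 491 (branch (move 490 (leaf 490 0)) (move 522 (leaf 490 1)))))) (branch (move 491 (branch (move 490 (leaf 490 0)) (move 463 (branch (move 462 (leaf 459 2)) (move 464 (leaf 460 2)))))) (move 430 (branch (move 462 (branch (move 557 (leaf 429 5)) (move 398 (leaf 397 5)))) (branch (move 524 (branch (move 523 (leaf 491 1)) (move 462 (branch (move 557 (leaf 429 5)) (move 429 (branch (move 397 (leaf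 397 7)) (move 463 (branch (move 464 (leaf 460 2)) (move 431 (branch (move 399 (leaf 398 5)) (move 461 (branch (move 556 (leaf 428 5)) (move 428 (branch (move 427 (leaf 427 0)) (move 396 (leaf 396 7)))))))))))))))) (move 429 (branch (move 461 (branch (move 398 (leaf 397 6)) (move 397 (leaf 397 4)))) (branch (move 524 (branch (move 523 (leaf 491 1)) (move 461 (branch (move 398 (leaf 397 6)) (move 556 (leaf 428 5)))))) (branch (move 524 (branch (move 523 (leaf 491 1)) (move 461 (branch (move 397 (leaf 397 4)) (move 556 (leaf 428 5)))))) (ref 4)))))))))))))))))))))
theorem a6p192 : a6e192.Valid :=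
  pos_of_chk [a6e188, a6e185, a6e189, a6e190, a6e191] (forall_cons a6p188 (forall_cons a6p185 (forall_cons a6p189 (forall_cons a6p190 (forall_cons a6p191 forall_nil))))) a6c192 a6e192 (by decide +kernel)

def a6e193 : Pos := ⟨329510287762989358691697063434341007948329749536956207605068577044420714242840626355117422631826461427798601630014987845021544588264928353297742257660910108672, 274118193605345147012818748033152168355614080119335382917957803306527158225237763266874987261695264643481952641043491565348082416570006965751040559423263960623661958657249498138607301427200, 12⟩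
def a6c193 : Cert := (move 558 (branch (move 557 (branch (move 461 (branch (move 429 (leaf 429 4)) (move 460 (branch (move 428 (leaf 428 7)) (move 495 (branch (move 496 (leaf 460 3)) (move 459 (branch (move 492 (leaf 459 3)) (move 458 (leaf 458 0)))))))))) (move 589 (branch (move 621 (leaf 493 6)) (move 588 (branch (move 620 (leaf 492 5)) (move 559 (branch (move 560 (leaf 556 1)) (move 587 (branch (move 586 (leaf 554 2)) (move 556 (leaf 555 1)))))))))))) (branch (move 590 (branch (move 622 (leaf 493 7)) (move 461 (leaf 461 7)))) (move 590 (branch (move 622 (leaf 493 7)) (move 589 (branch (move 621 (leaf 493 5)) (move 591 (branch (move 623 (leaf 494 4)) (move 495 (branch (move 463 (leaf 462 6)) (move 496 (branch (move 497 (leaf 493 1)) (move 464 (branch (move 465 (leaf 461 2)) (move 528 (branch (move 529 (leaf 493 0)) (move 560 (branch (move 559 (leaf 463 5)) (move 592 (branch (move 561 (leaf 557 2)) (move 625 (branch (move 624 (leaf 589 0)) (move 593 (leaf 496 4)))))))))))))))))))))))))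
theorem a6p193 : a6e193.Valid :=
  pos_of_chk [] forall_nil a6c193 a6e193 (by decide +kernel)

def a6e194 : Pos := ⟨329510287737415994567508455074862963441864131160263691620357133376582500429589581070705902671800913831502475402273685625274981533505418536533012624431780986880, 274118193605345147012818748033248275522891072031027797391303629685450097592486500396400012657058265755956745254345559884685128140783605548334776411379598886146524259908975059267845399511040, 13⟩
def a6c194 : Cert := (move 493 (branch (ref 0) (branch (ref 1) (branch (ref 2) (branch (move 558 (branch (move 590 (branch (move 622 (leaf 493 7)) (move 591 (branch (move 623 (leaf 494 4)) (move 559 (branch (move 462 (leaf 462 4)) (move 589 (branch (move 621 (leaf 493 5)) (move 560 (branch (move 588 (leaf 556 2)) (move 561 (leaf 557 1)))))))))))) (branch (move 461 (branch (move 590 (leaf 461 7)) (move 429 (leaf 429 4)))) (move 462 (branch (move 557 (branch (move 589 (leaf 461 5)) (move 559 (branch (move 591 (leaf 462 4)) (move 524 (branch (move 560 (leaf 524 3)) (move 523 (leaf 523 0)))))))) (move 461 (branch (move 429 (leaf 429 4)) (move 463 (branch (move 431 (leaf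 430 6)) (move 492 (branch (move 491 (leaf 459 2)) (move 464 (leaf 460 1))))))))))))) (move 558 (branch (move 590 (branch (move 622 (leaf 493 7)) (move 591 (branch (move 623 (leaf 494 4)) (move 559 (branch (move 462 (leaf 462 4)) (move 589 (branch (move 621 (leaf 493 5)) (move 560 (branch (move 588 (leaf 556 2)) (move 561 (leaf 557 1)))))))))))) (branch (move 461 (branch (move 590 (leaf 461 7)) (move 429 (leaf 429 4)))) (move 462 (branch (move 557 (branch (move 589 (leaf 461 5)) (move 559 (branch (move 591 (leaf 462 4)) (move 524 (branch (move 560 (leaf 524 3)) (move 523 (leaf 523 0)))))))) (branch (move 461 (branch (move 429 (leaf 429 4)) (move 463 (branch (move 431 (leaf 430 6)) (move 464 (branch (move 465 (leaf 461 1)) (move 496 (branch (move 497 (leaf 461 0)) (move 495 (branch (move 460 (leaf 460 0)) (move 524 (leaf 492 1)))))))))))) (move 461 (branch (move 429 (leaf 429 4)) (move 557 (branch (move 589 (leaf 461 5)) (move 460 (branch (move 428 (leaf 428 7)) (move 495 (branch (move 496 (leaf 460 3)) (move 459 (leaf 459 0)))))))))))))))))))))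
theorem a6p194 : a6e194.Valid :=
  pos_of_chk [a6e188, a6e193, a6e186] (forall_cons a6p188 (forall_cons a6p193 (forall_cons a6p186 forall_nil))) a6c194 a6e194 (by decide +kernel)

def a6e195 : Pos := ⟨329510287737415994567508455074862963441864131160263691620357133376582500429589581070705902671800913831502475402273685625274981533505418536533012624431780986880, 37375513600476177365460777357558164714403074036036123300332133208942615918068219013337637296981963321852976537871151980143097969935878840292618472410865218081108163607383315360308317634656812924928, 9⟩
def a6c195 : Cert := (move 462 (branch (move 557 (branch (move 430 (leaf 429 5)) (move 589 (branch (move 621 (leaf 493 6)) (move 558 (leaf 461 5)))))) (branch (move 430 (branch (move 557 (leaf 429 5)) (move 398 (branch (move 493 (leaf 397 5)) (move 399 (branch (move 431 (leaf 398 6)) (move 367 (leaf 366 6)))))))) (branch (move 558 (branch (move 589 (branch (move 557 (leaf 461 5)) (move 590 (branch (move 621 (leaf 493 5)) (move 463 (branch (move 495 (leaf 462 6)) (move 431 (leaf 430 6)))))))) (branch (move 559 (branch (move 591 (leaf 462 4)) (move 557 (branch (move 589 (leaf 461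 5)) (move 524 (branch (move 560 (leaf 524 3)) (move 523 (leaf 523 0)))))))) (move 559 (branch (move 591 (leaf 462 4)) (move 463 (branch (move 431 (leaf 430 6)) (move 495 (branch (move 590 (leaf 462 6)) (move 524 (branch (move 523 (leaf 523 0)) (move 496 (branch (move 493 (leaf 492 1)) (move 497 (leaf 493 1))))))))))))))) (move 558 (branch (move 591 (branch (move 559 (leaf 462 4)) (move 590 (branch (move 623 (leaf 494 4)) (move 622 (branch (move 493 (leaf 493 7)) (move 621 (branch (move 653 (leaf 525 5)) (move 589 (leaf 493 5)))))))))) (branch (move 463 (branch (move 431 (leaf 430 6)) (move 495 (branch (move 590 (leaf 462 6)) (move 496 (branch (move 497 (leaf 493 1)) (move 493 (branch (move 524 (leaf 492 1)) (move 464 (branch (move 492 (leaf 460 2)) (move 465 (leaf 461 1)))))))))))) (branch (move 463 (branch (move 431 (leaf 430 6)) (move 590 (branch (move 495 (leaf 462 6)) (move 591 (branch (move 623 (leaf 494 4)) (move 559 (leaf 462 4)))))))) (move 430 (branch (move 398 (branch (move 493 (leaf 397 5)) (move 559 (branch (move 591 (leaf 462 4)) (move 367 (branch (move 399 (leaf 366 6)) (move 366 (branch (move 335 (leaf 334 6)) (move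 365 (branch (move 397 (leaf 365 7)) (move 333 (leaf 333 7)))))))))))) (branch (move 431 (branch (move 463 (leaf 430 6)) (move 399 (leaf 398 6)))) (move 559 (branch (move 591 (leaf 462 4)) (move 398 (branch (move 493 (leaf 397 5)) (move 463 (branch (move 431 (leaf 430 6)) (move 366 (branch (move 495 (leaf 366 4)) (move 365 (branch (move 397 (leaf 365 7)) (move 333 (leaf 333 7)))))))))))))))))))))))
theorem a6p195 : a6e195.Valid :=
  pos_of_chk [] forall_nil a6c195 a6e195 (by decide +kernel)

def a6e196 : Pos := ⟨329510287762989358691697063434341007948329749536956207605068577044420714242840626355117422631826461427798601630014987845021544588264928353297742257660910108672, 30457577076040471374400718016030013543497246583747728771397875965300325161668550178966166894717462707502197150795662781784009346551894707145281353530067711558477759831178611702530188509184, 7⟩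
def a6c196 : Cert := (move 558 (branch (move 557 (branch (move 589 (branch (move 621 (leaf 493 6)) (move 588 (branch (move 620 (leaf 492 5)) (move 559 (branch (move 560 (leaf 556 1)) (move 587 (branch (move 586 (leaf 554 2)) (move 556 (leaf 555 1)))))))))) (branch (move 462 (branch (move 430 (leaf 429 5)) (move 559 (branch (move 591 (leaf 462 4)) (move 524 (branch (move 560 (leaf 524 3)) (move 523 (leaf 523 0)))))))) (move 589 (branch (move 621 (leaf 493 6)) (move 462 (leaf 461 5))))))) (move 590 (branch (move 622 (leaf 493 7)) (move 461 (leaf 461 7))))))
theorem a6p196 : a6e196.Valid :=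
  pos_of_chk [] forall_nil a6c196 a6e196 (by decide +kernel)

def a6e197 : Pos := ⟨329510287762989358691697063434341007948329749536956207605068577044420714242840626355117422631826461427798601630014987845021544588264928353297742257660910108672, 138146867508835684180941223087058642912924136453001404767267327711970114213378778433407618809710511554255925793081877548933647407715486192384010000806001773873479387354163359781884916662272, 11⟩
def a6c197 : Cert := (move 461 (branch (move 429 (branch (move 397 (leaf 397 4)) (move 428 (branch (move 396 (leaf 396 7)) (move 460 (branch (move 557 (leaf 428 7)) (move 430 (branch (move 398 (leaf 397 6)) (move 459 (branch (move 458 (leaf 458 0)) (move 431 (leaf 427 1)))))))))))) (branch (move 558 (branch (move 590 (leaf 461 7)) (move 429 (leaf 429 4)))) (move 588 (branch (move 557 (branch (move 556 (leaf 460 5)) (move 589 (branch (move 621 (leaf 493 6)) (move 620 (leaf 492 5)))))) (branch (move 524 (branch (move 556 (branch (move 620 (leaf 492 6)) (move 492 (leaf 460 6)))) (move 523 (branch (move 522 (leaf 490 2)) (move 558 (branch (move 559 (leaf 523 0)) (move 590 (leaf 461 7)))))))) (branch (move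 557 (branch (move 556 (leaf 460 5)) (move 558 (branch (move 590 (leaf 461 4)) (move 589 (branch (move 621 (leaf 493 6)) (move 460 (branch (move 492 (leaf 460 7)) (move 428 (leaf 428 7)))))))))) (move 589 (branch (move 557 (branch (move 621 (leaf 493 6)) (move 620 (leaf 492 5)))) (branch (move 590 (branch (move 558 (leaf 461 7)) (move 557 (branch (move 622 (leaf 493 4)) (move 620 (leaf 492 5)))))) (branch (move 590 (branch (move 558 (leaf 461 7)) (move 557 (branch (move 621 (leaf 493 6)) (move 622 (leaf 493 4)))))) (move 590 (branch (move 558 (leaf 461 7)) (move 591 (branch (move 620 (branch (move 619 (leaf 587 1)) (move 592 (branch (move 621 (leaf 588 1)) (move 560 (branch (move 559 (leaf 556 2)) (move 561 (leaf 557 2)))))))) (branch (move 623 (branch (move 624 (leaf 588 0)) (move 560 (branch (move 559 (leaf 556 2)) (move 592 (branch (move 561 (leaf 557 2)) (move 622 (branch (move 587 (leaf 587 0)) (move 593 (branch (move 621 (leaf 589 1)) (move 594 (leaf 590 1)))))))))))) (move 623 (branch (move 624 (leaf 588 0)) (move 587 (branch (move 622 (leaf 587 0)) (move 619 (branch (move 618 (leaf 586 1)) (move 620 (leaf 587 1))))))))))))))))))))))))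
theorem a6p197 : a6e197.Valid :=
  pos_of_chk [] forall_nil a6c197 a6e197 (by decide +kernel)

def a6e198 : Pos := ⟨6078391946603017029235665100498704067835519479767769748461876968872559081997728621601663550322405954768528364221724192512242637239742164988293031184055855396514493611000578703360, 9652391462675850291623233360647433631586033972736722039048199908151192799601831067387181570904052735225649891640259781431845562886749550456160588813172240571850693033163171115113118689875871270637029144806777392463872, 10⟩
def a6c198 : Cert := (move 591 (branch (move 592 (branch (move 621 (branch (move 620 (leaf 588 1)) (move 593 (branch (move 622 (leaf 589 1)) (move 561 (branch (move 560 (leaf 557 2)) (move 562 (leaf 558 2)))))))) (branch (move 495 (branch (move 496 (leaf 492 1)) (move 621 (branch (move 620 (leaf 588 1)) (move 593 (branch (move 622 (leaf 589 1)) (move 625 (branch (move 624 (leaf 589 0)) (move 626 (leaf 590 0)))))))))) (move 496 (branch (move 495 (leaf 492 1)) (move 560 (branch (move 561 (leaf 557 2)) (move 528 (branch (move 623 (leaf 495 5)) (move 624 (branch (move 625 (leaf 589 0)) (move 497 (branch (move 529 (leaf 496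 6)) (move 465 (leaf 464 6))))))))))))))) (branch (move 592 (branch (move 624 (branch (move 625 (leaf 589 0)) (move 560 (branch (move 561 (leaf 557 2)) (move 623 (branch (move 588 (leaf 588 0)) (move 655 (branch (move 687 (leaf 559 6)) (move 528 (leaf 527 5)))))))))) (branch (move 496 (branch (move 495 (leaf 492 1)) (move 560 (branch (move 561 (leaf 557 2)) (move 528 (branch (move 623 (leaf 495 5)) (move 559 (branch (move 588 (leaf 556 2)) (move 464 (leaf 463 5)))))))))) (branch (move 495 (branch (move 496 (leaf 492 1)) (move 625 (branch (move 624 (leaf 589 0)) (move 593 (branch (move 626 (leaf 590 0)) (move 562 (branch (move 561 (leaf 558 2)) (move 594 (branch (move 563 (leaf 559 2)) (move 622 (branch (move 621 (leaf 589 1)) (move 623 (leaf 590 1)))))))))))))) (branch (move 496 (branch (move 495 (leaf 492 1)) (move 625 (branch (move 624 (leaf 589 0)) (move 593 (branch (move 626 (leaf 590 0)) (move 560 (branch (move 528 (leaf 496 4)) (move 622 (branch (move 621 (leaf 589 1)) (move 594 (branch (move 623 (leaf 590 1)) (move 559 (branch (move 588 (leaf 556 2)) (move 595 (leaf 559 3)))))))))))))))) (move 495 (branch (move 496 (leaf 492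 1)) (move 561 (branch (move 560 (leaf 557 2)) (move 593 (branch (move 562 (leaf 558 2)) (move 625 (branch (move 624 (leaf 589 0)) (move 626 (leaf 590 0))))))))))))))) (branch (move 588 (branch (move 620 (branch (move 619 (leaf 587 1)) (move 556 (leaf 492 6)))) (move 496 (branch (move 495 (leaf 492 1)) (move 560 (branch (move 559 (leaf 556 2)) (move 592 (branch (move 561 (leaf 557 2)) (move 623 (branch (move 528 (leaf 495 5)) (move 622 (branch (move 587 (leaf 587 0)) (move 593 (branch (move 621 (leaf 589 1)) (move 594 (leaf 590 1)))))))))))))))) (branch (move 588 (branch (move 620 (branch (move 619 (leaf 587 1)) (move 556 (leaf 492 6)))) (move 496 (branch (move 495 (leaf 492 1)) (move 560 (branch (move 559 (leaf 556 2)) (move 592 (branch (move 561 (leaf 557 2)) (move 625 (branch (move 624 (leaf 589 0)) (move 593 (branch (move 626 (leaf 590 0)) (move 528 (leaf 496 4)))))))))))))) (branch (move 620 (branch (move 592 (branch (move 621 (leaf 588 1)) (move 624 (branch (move 625 (leaf 589 0)) (move 588 (branch (move 623 (leaf 588 0)) (move 556 (leaf 492 6)))))))) (branch (move 621 (branch (move 592 (leaf 588 1)) (move 619 (branch (move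 618 (leaf 586 2)) (move 622 (leaf 587 2)))))) (move 588 (branch (move 619 (leaf 587 1)) (move 556 (leaf 492 6))))))) (move 588 (branch (move 620 (branch (move 619 (leaf 587 1)) (move 556 (leaf 492 6)))) (move 623 (branch (move 624 (leaf 588 0)) (move 559 (branch (move 560 (leaf 556 2)) (move 655 (branch (move 495 (branch (move 496 (leaf 492 1)) (move 686 (branch (move 654 (leaf 558 5)) (move 687 (branch (move 718 (leaf 590 5)) (move 688 (branch (move 720 (leaf 591 4)) (move 656 (leaf 559 4)))))))))) (branch (move 495 (branch (move 496 (leaf 492 1)) (move 622 (branch (move 587 (leaf 587 0)) (move 687 (branch (move 719 (leaf 590 7)) (move 688 (branch (move 720 (leaf 591 4)) (move 656 (leaf 559 4)))))))))) (branch (move 622 (branch (move 587 (leaf 587 0)) (move 654 (branch (move 686 (leaf 558 5)) (move 656 (branch (move 688 (leaf 559 4)) (move 657 (branch (move 621 (leaf 621 3)) (move 658 (leaf 622 3)))))))))) (move 622 (branch (move 587 (leaf 587 0)) (move 686 (branch (move 654 (leaf 558 5)) (move 687 (branch (move 719 (leaf 590 7)) (move 718 (leaf 590 5))))))))))))))))))))))))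
theorem a6p198 : a6e198.Valid :=
  pos_of_chk [] forall_nil a6c198 a6e198 (by decide +kernel)

def a6e199 : Pos := ⟨329510287686269266319131238355906874428932894406878659650934246040906072803087490501882862751749818638910222946791081185781855423986398903003553357973522743296, 9652391462675850291660608874186994654823474108809745537563078285795107478908134551705271953099224655621538947922901004160327225133200472118983538663867221902987951659790768731014462115053267208118502087368341171732480, 16⟩
def a6c199 : Cert := (move 494 (branch (move 462 (branch (move 558 (branch (move 589 (branch (move 557 (leaf 461 5)) (move 590 (branch (move 621 (leaf 493 5)) (move 463 (branch (move 495 (leaf 462 6)) (move 431 (leaf 430 6)))))))) (branch (move 559 (branch (move 591 (leaf 462 4)) (move 463 (branch (move 431 (leaf 430 6)) (move 495 (branch (move 590 (leaf 462 6)) (move 461 (branch (move 429 (leaf 429 7)) (move 496 (branch (move 497 (leaf 493 1)) (move 460 (leaf 460 0)))))))))))) (move 559 (branch (move 591 (leaf 462 4)) (move 557 (branch (move 589 (leaf 461 5)) (move 524 (branch (move 560 (leaf 524 3)) (move 523 (leaf 523 0))))))))))) (branch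 (move 430 (branch (move 557 (leaf 429 5)) (move 399 (branch (move 431 (leaf 398 6)) (move 398 (branch (move 367 (leaf 366 6)) (move 397 (branch (move 429 (leaf 397 7)) (move 365 (leaf 365 7)))))))))) (branch (move 557 (branch (move 430 (leaf 429 5)) (move 589 (branch (move 621 (leaf 493 6)) (move 558 (leaf 461 5)))))) (ref 0))))) (branch (ref 1) (branch (ref 2) (branch (move 462 (branch (move 430 (branch (move 557 (leaf 429 5)) (move 399 (branch (move 431 (leaf 398 6)) (move 398 (branch (move 367 (leaf 366 6)) (move 397 (branch (move 429 (leaf 397 7)) (move 365 (leaf 365 7)))))))))) (branch (move 557 (branch (move 430 (leaf 429 5)) (move 589 (branch (move 621 (leaf 493 6)) (move 558 (leaf 461 5)))))) (branch (move 431 (branch (move 558 (branch (move 463 (leaf 430 6)) (move 461 (branch (move 429 (leaf 429 7)) (move 590 (branch (move 493 (leaf 461 7)) (move 591 (branch (move 623 (leaf 494 4)) (move 559 (leaf 462 4)))))))))) (branch (move 430 (branch (move 399 (leaf 398 6)) (move 398 (branch (move 493 (leaf 397 5)) (move 397 (branch (move 429 (leaf 397 7)) (move 365 (leaf 365 7)))))))) (move 463 (branch (move 558 (leaf 430 6)) (move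 399 (branch (move 430 (leaf 398 6)) (move 367 (leaf 366 5))))))))) (move 558 (branch (move 559 (branch (move 591 (leaf 462 4)) (move 557 (branch (move 589 (leaf 461 5)) (move 524 (branch (move 560 (leaf 524 3)) (move 523 (leaf 523 0)))))))) (branch (move 461 (branch (move 429 (leaf 429 7)) (move 590 (branch (move 493 (leaf 461 7)) (move 591 (branch (move 623 (leaf 494 4)) (move 559 (leaf 462 4)))))))) (move 557 (branch (move 589 (leaf 461 5)) (move 461 (branch (move 429 (leaf 429 7)) (move 493 (branch (move 590 (leaf 461 4)) (move 463 (branch (move 431 (leaf 430 6)) (move 492 (branch (move 491 (leaf 459 2)) (move 464 (leaf 460 1))))))))))))))))))) (branch (move 462 (branch (move 430 (branch (move 557 (leaf 429 5)) (move 399 (branch (move 431 (leaf 398 6)) (move 398 (branch (move 367 (leaf 366 6)) (move 397 (branch (move 429 (leaf 397 7)) (move 365 (leaf 365 7)))))))))) (branch (move 557 (branch (move 430 (leaf 429 5)) (move 589 (branch (move 621 (leaf 493 6)) (move 558 (leaf 461 5)))))) (branch (ref 0) (move 558 (branch (move 589 (branch (move 557 (leaf 461 5)) (move 590 (branch (move 621 (leaf 493 5)) (move 463 (branch (move 495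 (leaf 462 6)) (move 431 (leaf 430 6)))))))) (branch (move 461 (branch (move 429 (leaf 429 7)) (move 590 (branch (move 493 (leaf 461 7)) (move 591 (branch (move 623 (leaf 494 4)) (move 559 (leaf 462 4)))))))) (move 461 (branch (move 429 (leaf 429 7)) (move 557 (branch (move 589 (leaf 461 5)) (move 463 (branch (move 431 (leaf 430 6)) (move 559 (branch (move 591 (leaf 462 4)) (move 560 (branch (move 561 (leaf 525 3)) (move 528 (branch (move 529 (leaf 525 2)) (move 592 (branch (move 593 (leaf 557 0)) (move 496 (branch (move 495 (leaf 463 7)) (move 464 (branch (move 497 (leaf 461 0)) (move 493 (branch (move 492 (leaf 460 1)) (move 465 (leaf 461 1))))))))))))))))))))))))))))) (branch (move 462 (branch (ref 0) (branch (move 430 (branch (move 557 (leaf 429 5)) (move 398 (branch (move 493 (leaf 397 5)) (move 399 (branch (move 431 (leaf 398 6)) (move 367 (leaf 366 6)))))))) (branch (move 430 (branch (move 557 (leaf 429 5)) (move 398 (branch (move 493 (leaf 397 5)) (move 397 (branch (move 429 (leaf 397 7)) (move 365 (leaf 365 7)))))))) (move 558 (branch (move 559 (branch (move 591 (leaf 462 4)) (move 463 (branch (move 431 (leaf 430 6)) (move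 495 (branch (move 590 (leaf 462 6)) (move 524 (branch (move 523 (leaf 523 0)) (move 496 (branch (move 493 (leaf 492 1)) (move 497 (leaf 493 1)))))))))))) (branch (move 461 (branch (move 429 (leaf 429 7)) (move 590 (branch (move 493 (leaf 461 7)) (move 591 (branch (move 623 (leaf 494 4)) (move 559 (leaf 462 4)))))))) (branch (move 461 (branch (move 429 (leaf 429 7)) (move 590 (branch (move 493 (leaf 461 7)) (move 463 (branch (move 495 (leaf 462 6)) (move 431 (leaf 430 6)))))))) (move 461 (branch (move 429 (leaf 429 7)) (move 463 (branch (move 431 (leaf 430 6)) (move 559 (branch (move 591 (leaf 462 4)) (move 524 (branch (move 523 (leaf 523 0)) (move 560 (branch (move 557 (leaf 524 3)) (move 561 (leaf 525 3)))))))))))))))))))) (branch (ref 3) (branch (ref 4) (branch (move 462 (branch (move 430 (branch (move 557 (leaf 429 5)) (move 399 (branch (move 431 (leaf 398 6)) (move 398 (branch (move 367 (leaf 366 6)) (move 397 (branch (move 429 (leaf 397 7)) (move 365 (leaf 365 7)))))))))) (branch (move 557 (branch (move 430 (leaf 429 5)) (move 589 (branch (move 621 (leaf 493 6)) (move 558 (leaf 461 5)))))) (branch (move 558 (branch (move 559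 (branch (move 591 (leaf 462 4)) (move 557 (branch (move 589 (leaf 461 5)) (move 524 (branch (move 560 (leaf 524 3)) (move 523 (leaf 523 0)))))))) (branch (move 461 (branch (move 429 (leaf 429 7)) (move 590 (branch (move 493 (leaf 461 7)) (move 591 (branch (move 623 (leaf 494 4)) (move 559 (leaf 462 4)))))))) (move 557 (branch (move 589 (leaf 461 5)) (move 461 (branch (move 429 (leaf 429 7)) (move 493 (branch (move 590 (leaf 461 4)) (move 460 (branch (move 428 (leaf 428 7)) (move 495 (branch (move 496 (leaf 460 3)) (move 459 (leaf 459 0))))))))))))))) (move 430 (branch (move 398 (branch (move 493 (leaf 397 5)) (move 399 (branch (move 431 (leaf 398 6)) (move 367 (leaf 366 6)))))) (branch (move 398 (branch (move 493 (leaf 397 5)) (move 397 (branch (move 429 (leaf 397 7)) (move 365 (leaf 365 7)))))) (move 429 (branch (move 397 (leaf 397 7)) (move 461 (branch (move 558 (leaf 429 7)) (move 431 (branch (move 399 (leaf 398 6)) (move 460 (branch (move 459 (leaf 427 2)) (move 432 (leaf 428 1))))))))))))))))) (branch (move 493 (branch (ref 5) (branch (ref 6) (branch (move 495 (branch (move 524 (branch (move 523 (leaf 491 2)) (move 496 (leaf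 492 1)))) (branch (move 492 (branch (move 491 (branch (move 490 (leaf 490 0)) (move 459 (branch (move 458 (leaf 458 3)) (move 460 (leaf 459 3)))))) (branch (move 524 (branch (move 523 (leaf 491 1)) (move 460 (branch (move 459 (leaf 459 3)) (move 557 (branch (move 589 (leaf 460 7)) (move 428 (leaf 428 4)))))))) (move 523 (branch (move 524 (leaf 491 1)) (move 491 (branch (move 490 (leaf 490 0)) (move 522 (leaf 490 1))))))))) (move 496 (branch (move 497 (leaf 493 1)) (move 464 (branch (move 465 (leaf 461 2)) (move 492 (branch (move 463 (leaf 460 2)) (move 491 (branch (move 490 (leaf 490 0)) (move 459 (branch (move 458 (leaf 458 3)) (move 460 (leaf 459 3))))))))))))))) (ref 7))))) (branch (move 493 (branch (ref 8) (branch (ref 9) (branch (move 495 (branch (move 524 (branch (move 523 (leaf 491 2)) (move 496 (leaf 492 1)))) (move 492 (branch (move 491 (branch (move 490 (leaf 490 0)) (move 459 (branch (move 458 (leaf 458 3)) (move 460 (leaf 459 3)))))) (move 463 (branch (move 464 (leaf 460 2)) (move 558 (branch (move 590 (leaf 462 6)) (move 431 (branch (move 462 (leaf 430 6)) (move 399 (leaf 398 5)))))))))))) (ref 7))))) (branch (move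 462 (branch (move 430 (branch (move 557 (leaf 429 5)) (move 399 (branch (move 431 (leaf 398 6)) (move 398 (branch (move 367 (leaf 366 6)) (move 397 (branch (move 429 (leaf 397 7)) (move 365 (leaf 365 7)))))))))) (branch (move 557 (branch (move 430 (leaf 429 5)) (move 589 (branch (move 621 (leaf 493 6)) (move 558 (leaf 461 5)))))) (branch (ref 0) (move 558 (branch (move 589 (branch (move 557 (leaf 461 5)) (move 590 (branch (move 621 (leaf 493 5)) (move 463 (branch (move 495 (leaf 462 6)) (move 431 (leaf 430 6)))))))) (branch (move 461 (branch (move 429 (leaf 429 7)) (move 590 (branch (move 493 (leaf 461 7)) (move 591 (branch (move 623 (leaf 494 4)) (move 559 (leaf 462 4)))))))) (move 493 (branch (move 463 (branch (move 431 (leaf 430 6)) (move 492 (branch (move 491 (leaf 459 2)) (move 495 (branch (move 464 (leaf 460 2)) (move 524 (branch (move 523 (leaf 491 1)) (move 496 (leaf 492 1)))))))))) (branch (move 461 (branch (move 429 (leaf 429 4)) (move 463 (branch (move 431 (leaf 430 6)) (move 492 (branch (move 491 (leaf 459 2)) (move 464 (leaf 460 1)))))))) (move 461 (branch (move 429 (leaf 429 4)) (move 557 (branch (move 589 (leaf 461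 5)) (move 460 (branch (move 428 (leaf 428 7)) (move 495 (branch (move 496 (leaf 460 3)) (move 459 (leaf 459 0)))))))))))))))))))) (move 493 (branch (ref 8) (branch (ref 9) (branch (ref 5) (branch (ref 10) (move 524 (branch (move 523 (branch (move 522 (leaf 490 2)) (move 558 (branch (move 559 (leaf 523 0)) (move 461 (branch (move 590 (leaf 461 7)) (move 429 (leaf 429 4)))))))) (branch (move 495 (branch (move 523 (leaf 491 2)) (move 496 (leaf 492 1)))) (move 461 (branch (move 429 (branch (move 397 (leaf 397 4)) (move 556 (leaf 428 5)))) (branch (move 558 (branch (move 590 (leaf 461 7)) (move 429 (leaf 429 4)))) (move 589 (branch (move 557 (branch (move 621 (leaf 493 6)) (move 590 (branch (move 558 (leaf 461 4)) (move 622 (leaf 493 4)))))) (branch (move 557 (branch (move 621 (leaf 493 6)) (move 588 (branch (move 620 (leaf 492 5)) (move 556 (leaf 460 5)))))) (branch (move 590 (branch (move 558 (leaf 461 7)) (move 557 (branch (move 622 (leaf 493 4)) (move 588 (branch (move 620 (leaf 492 5)) (move 556 (leaf 460 5)))))))) (move 590 (branch (move 558 (leaf 461 7)) (ref 11)))))))))))))))))))))))))))))))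
theorem a6p199 : a6e199.Valid :=
  pos_of_chk [a6e184, a6e187, a6e192, a6e194, a6e195, a6e186, a6e189, a6e196, a6e188, a6e193, a6e197, a6e198] (forall_cons a6p184 (forall_cons a6p187 (forall_cons a6p192 (forall_cons a6p194 (forall_cons a6p195 (forall_cons a6p186 (forall_cons a6p189 (forall_cons a6p196 (forall_cons a6p188 (forall_cons a6p193 (forall_cons a6p197 (forall_cons a6p198 forall_nil)))))))))))) a6c199 a6e199 (by decide +kernel)

def a6e200 : Pos := ⟨471745303432202956742036953072807720909429683134833626964815496311773740034513402676930344145189525702683868901939986874450857613342784134814620530828885453200437542912, 1519597987063531397564961146848103475886352654496168918040115451158796289613938096443645091645864310287689166893060354775917919554008170305726974720920101422878195390125352943616, 9⟩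
def a6c200 : Cert := (move 492 (branch (move 462 (branch (move 430 (leaf 429 6)) (move 491 (branch (move 490 (leaf 490 0)) (move 463 (branch (move 494 (leaf 459 2)) (move 464 (leaf 460 1)))))))) (branch (move 460 (branch (move 428 (leaf 428 7)) (move 556 (branch (move 588 (leaf 460 5)) (move 491 (branch (move 490 (leaf 490 0)) (move 555 (branch (move 554 (leaf 522 2)) (move 587 (branch (move 523 (leaf 459 6)) (move 524 (leaf 459 5)))))))))))) (move 460 (branch (move 428 (leaf 428 7)) (move 462 (branch (move 430 (leaf 429 6)) (move 556 (branch (move 588 (leaf 460 5)) (move 463 (branch (move 464 (leaf 460 1)) (move 495 (branch (move 496 (leaf 460 0)) (move 459 (branch (move 494 (leaf 459 0)) (move 427 (branch (move 426 (leaf 426 3)) (move 524 (leaf 427 7)))))))))))))))))))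
theorem a6p200 : a6e200.Valid :=
  pos_of_chk [] forall_nil a6c200 a6e200 (by decide +kernel)

def a6e201 : Pos := ⟨329510287711842630443319846715384918935398512783571175635645689708744286616338535786294382711775366235206349174532383405528418478745908719768282991202651865088, 93438783879360135145453876926136006180110374162225277307532259675349747565109478720707241401104837005563919165749851668099380937178828934086345840569154908354799682175870512221812513309630583013376, 11⟩
def a6c201 : Cert := (move 557 (branch (move 589 (branch (move 588 (branch (move 620 (leaf 492 5)) (move 461 (branch (move 556 (leaf 460 5)) (move 460 (branch (move 492 (leaf 460 7)) (move 428 (leaf 428 7)))))))) (branch (move 492 (branch (move 460 (leaf 460 7)) (move 621 (branch (move 524 (leaf 492 7)) (move 622 (branch (move 654 (leaf 525 4)) (move 590 (leaf 493 4)))))))) (move 622 (branch (move 590 (leaf 493 4)) (move 621 (branch (move 654 (leaf 525 4)) (move 620 (branch (move 652 (leaf 524 5)) (move 588 (leaf 492 5))))))))))) (branch (move 461 (branch (move 430 (branch (move 462 (leaf 429 6)) (move 429 (branch (move 398 (leaf 397 6)) (move 428 (branch (move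 460 (leaf 428 7)) (move 396 (leaf 396 7)))))))) (branch (move 460 (branch (move 428 (leaf 428 7)) (move 589 (branch (move 492 (leaf 460 7)) (move 588 (branch (move 620 (leaf 492 5)) (move 556 (leaf 460 5)))))))) (move 462 (branch (move 430 (leaf 429 6)) (move 589 (branch (move 494 (leaf 461 6)) (move 588 (branch (move 620 (leaf 492 5)) (move 556 (leaf 460 5))))))))))) (branch (move 461 (branch (move 556 (branch (move 588 (leaf 460 5)) (move 429 (branch (move 524 (leaf 428 5)) (move 430 (branch (move 462 (leaf 429 6)) (move 398 (leaf 397 6)))))))) (branch (move 462 (branch (move 430 (leaf 429 6)) (move 589 (branch (move 494 (leaf 461 6)) (move 622 (branch (move 590 (leaf 493 4)) (move 621 (branch (move 654 (leaf 525 4)) (move 620 (branch (move 652 (leaf 524 5)) (move 588 (leaf 492 5)))))))))))) (branch (move 556 (branch (move 588 (leaf 460 5)) (move 429 (branch (move 524 (leaf 428 5)) (move 397 (branch (move 494 (leaf 397 4)) (move 396 (branch (move 428 (leaf 396 7)) (move 364 (leaf 364 7)))))))))) (move 462 (branch (move 430 (leaf 429 6)) (move 494 (branch (move 589 (leaf 461 6)) (move 429 (branch (move 397 (leaf 397 4)) (move 524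 (branch (move 556 (leaf 428 5)) (move 523 (branch (move 522 (leaf 490 2)) (move 495 (leaf 491 2)))))))))))))))) (branch (move 589 (branch (move 492 (branch (move 460 (leaf 460 7)) (move 621 (branch (move 524 (leaf 492 7)) (move 622 (branch (move 654 (leaf 525 4)) (move 590 (leaf 493 4)))))))) (branch (move 494 (branch (move 462 (leaf 461 6)) (move 492 (branch (move 460 (leaf 460 7)) (move 491 (branch (move 490 (leaf 490 0)) (move 523 (branch (move 522 (leaf 490 1)) (move 495 (branch (move 524 (leaf 491 1)) (move 496 (branch (move 497 (leaf 493 1)) (move 464 (branch (move 463 (leaf 460 2)) (move 465 (leaf 461 2)))))))))))))))) (move 494 (branch (move 621 (leaf 493 6)) (move 462 (leaf 461 6))))))) (move 461 (branch (move 556 (branch (move 588 (leaf 460 5)) (move 429 (branch (move 524 (leaf 428 5)) (move 430 (branch (move 462 (leaf 429 6)) (move 398 (leaf 397 6)))))))) (branch (move 556 (branch (move 588 (leaf 460 5)) (move 429 (branch (move 524 (leaf 428 5)) (move 428 (branch (move 460 (leaf 428 7)) (move 396 (leaf 396 7)))))))) (branch (move 430 (branch (move 462 (leaf 429 6)) (move 429 (branch (move 398 (leaf 397 6)) (move 428 (branch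 (move 460 (leaf 428 7)) (move 396 (leaf 396 7)))))))) (ref 0))))))))))
theorem a6p201 : a6e201.Valid :=
  pos_of_chk [a6e200] (forall_cons a6p200 forall_nil) a6c201 a6e201 (by decide +kernel)

def a6e202 : Pos := ⟨329510287762989358691697063434341007948329749536956207605068577044420714242840626355117422631826461427798601630014987845021544588264928353297742257660910108672, 4052261298678835292348765810426547632056979808858986819233020616633838663022754604449316823016824365118470896708606817236882806813038194871027289544297482425047686347256009588736, 7⟩
def a6c202 : Cert := (move 495 (branch (move 496 (branch (move 497 (leaf 493 1)) (move 464 (branch (move 465 (leaf 461 2)) (move 463 (branch (move 492 (leaf 460 2)) (move 431 (branch (move 399 (leaf 398 5)) (move 558 (branch (move 590 (leaf 462 6)) (move 462 (leaf 430 6)))))))))))) (branch (move 524 (branch (move 523 (leaf 491 2)) (move 496 (leaf 492 1)))) (move 492 (branch (move 463 (branch (move 464 (leaf 460 2)) (move 491 (branch (move 462 (leaf 459 2)) (move 490 (leaf 490 0)))))) (branch (move 524 (branch (move 523 (leaf 491 1)) (move 463 (branch (move 464 (leaf 460 2)) (move 558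 (branch (move 590 (leaf 462 6)) (move 431 (branch (move 462 (leaf 430 6)) (move 399 (leaf 398 5)))))))))) (move 523 (branch (move 524 (leaf 491 1)) (move 491 (branch (move 490 (leaf 490 0)) (move 522 (leaf 490 1))))))))))))
theorem a6p202 : a6e202.Valid :=
  pos_of_chk [] forall_nil a6c202 a6e202 (by decide +kernel)

def a6e203 : Pos := ⟨329510287762989358691697063434341007948329749536956207605068577044420714242840626355117422631826461427798601630014987845021544588264928353297742257660910108672, 52212989258016256765617784933691851868366366488568579316129368884443061646869105882681461835020269551182491487248372702199548196319320117636404716005020875288984328074131679951008487702528, 7⟩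
def a6c203 : Cert := (move 558 (branch (move 590 (branch (move 622 (leaf 493 7)) (move 591 (branch (move 623 (leaf 494 4)) (move 462 (branch (move 559 (leaf 462 4)) (move 430 (branch (move 398 (leaf 397 5)) (move 431 (branch (move 463 (leaf 430 6)) (move 399 (leaf 398 6)))))))))))) (branch (move 461 (branch (move 590 (leaf 461 7)) (move 429 (leaf 429 4)))) (move 462 (branch (move 430 (branch (move 398 (leaf 397 5)) (move 431 (branch (move 463 (leaf 430 6)) (move 399 (leaf 398 6)))))) (branch (move 461 (branch (move 429 (leaf 429 4)) (move 463 (branch (move 431 (leaf 430 6)) (move 492 (branch (move 491 (leaf 459 2)) (move 464 (leaf 460 1)))))))) (move 429 (branch (move 461 (leaf 429 4)) (move 430 (branch (move 397 (leaf 397 7)) (move 398 (leaf 397 5))))))))))))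
theorem a6p203 : a6e203.Valid :=
  pos_of_chk [] forall_nil a6c203 a6e203 (by decide +kernel)

def a6e204 : Pos := ⟨329510287762989358691697063434341007948329749536956207605068577044420714242840626355117422631826461427798601630014987845021544588264928353297742257660910108672, 52212989258016256765617784933746770250344285538770819437003385335164176230499729183439517378083728630632892186908415749531247775258362519776365041987128842955654490470391159715767762550784, 8⟩
def a6c204 : Cert := (move 558 (branch (move 590 (branch (move 622 (leaf 493 7)) (move 591 (branch (move 623 (leaf 494 4)) (move 462 (branch (move 559 (leaf 462 4)) (move 430 (branch (move 398 (leaf 397 5)) (move 431 (branch (move 463 (leaf 430 6)) (move 399 (leaf 398 6)))))))))))) (branch (move 461 (branch (move 590 (leaf 461 7)) (move 429 (leaf 429 4)))) (move 462 (branch (move 430 (branch (move 398 (leaf 397 5)) (move 431 (branch (move 463 (leaf 430 6)) (move 399 (leaf 398 6)))))) (branch (move 429 (branch (move 461 (leaf 429 4)) (move 430 (branch (move 397 (leaf 397 7)) (move 398 (leaf 397 5)))))) (move 461 (branch (move 429 (leaf 429 4)) (move 463 (branch (move 431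 (leaf 430 6)) (move 464 (branch (move 465 (leaf 461 1)) (move 496 (branch (move 497 (leaf 461 0)) (move 495 (branch (move 460 (leaf 460 0)) (move 524 (leaf 492 1))))))))))))))))))
theorem a6p204 : a6e204.Valid :=
  pos_of_chk [] forall_nil a6c204 a6e204 (by decide +kernel)

def a6e205 : Pos := ⟨329510287711842630443319846715384918935398512783571175635645689708744286616338535786294382711775366235206349174532383405528418478745908719768282991202651865088, 58739612915268288861320008050499440519921990927093251429069178823267944262568869235095741096471842878341212906690052204693114469045956280127397252108895872128499651913058873856092457140224, 11⟩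
def a6c205 : Cert := (move 494 (branch (ref 0) (branch (move 495 (branch (move 524 (branch (move 523 (leaf 491 2)) (move 496 (leaf 492 1)))) (branch (move 496 (branch (move 497 (leaf 493 1)) (move 461 (branch (move 460 (leaf 460 3)) (move 429 (branch (move 397 (leaf 397 4)) (move 464 (branch (move 465 (leaf 461 2)) (move 463 (branch (move 492 (leaf 460 2)) (move 428 (branch (move 462 (leaf 428 3)) (move 396 (leaf 396 7)))))))))))))) (move 492 (branch (move 463 (branch (move 464 (leaf 460 2)) (move 491 (branch (move 462 (leaf 459 2)) (move 490 (leaf 490 0)))))) (move 524 (branch (move 523 (leaf 491 1)) (move 460 (branch (move 459 (leaf 459 3)) (move 428 (branch (move 396 (leaf 396 4)) (move 429 (branch (move 397 (leaf 396 6)) (move 556 (branch (move 461 (leaf 428 5)) (move 588 (branch (move 620 (leaf 492 6)) (move 587 (branch (move 619 (leaf 491 5)) (move 555 (leaf 459 5))))))))))))))))))))) (branch (ref 1) (branch (ref 2) (move 495 (branch (move 524 (branch (move 523 (leaf 491 2)) (move 496 (leaf 492 1)))) (branch (move 496 (branch (move 497 (leaf 493 1)) (move 461 (branch (move 460 (leaf 460 3)) (move 429 (branch (move 558 (leaf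 429 4)) (move 397 (leaf 397 4)))))))) (move 492 (branch (move 523 (branch (move 524 (leaf 491 1)) (move 491 (branch (move 490 (leaf 490 0)) (move 522 (leaf 490 1)))))) (branch (move 524 (branch (move 523 (leaf 491 1)) (move 460 (branch (move 459 (leaf 459 3)) (move 428 (branch (move 396 (leaf 396 4)) (move 429 (branch (move 397 (leaf 396 6)) (move 556 (branch (move 461 (leaf 428 5)) (move 588 (branch (move 620 (leaf 492 6)) (move 587 (branch (move 619 (leaf 491 5)) (move 555 (leaf 459 5)))))))))))))))) (move 491 (branch (move 490 (leaf 490 0)) (move 459 (branch (move 458 (leaf 458 3)) (move 460 (leaf 459 3)))))))))))))))))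
theorem a6p205 : a6e205.Valid :=
  pos_of_chk [a6e202, a6e203, a6e204] (forall_cons a6p202 (forall_cons a6p203 (forall_cons a6p204 forall_nil))) a6c205 a6e205 (by decide +kernel)

def a6e206 : Pos := ⟨109836762587663119569853283974209947630156643813203935680447889041557414297439509830060271258833776263821024297452147077414281439753508647397429542428581298176, 4351082440194152046474233057267316976982676385832197127629581510179927952588603362506196388252870668706572929511374305849092245252308277675682482608302821873586781497683224491024432758784, 5⟩
def a6c206 : Cert := (move 557 (branch (move 430 (branch (move 462 (leaf 429 6)) (move 429 (branch (move 398 (leaf 397 6)) (move 428 (branch (move 460 (leaf 428 7)) (move 396 (leaf 396 7)))))))) (branch (move 460 (branch (move 428 (leaf 428 7)) (move 589 (branch (move 492 (leaf 460 7)) (move 588 (branch (move 620 (leaf 492 5)) (move 556 (leaf 460 5)))))))) (move 462 (branch (move 430 (leaf 429 6)) (move 589 (branch (move 494 (leaf 461 6)) (move 588 (branch (move 620 (leaf 492 5)) (move 556 (leaf 460 5)))))))))))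
theorem a6p206 : a6e206.Valid :=
  pos_of_chk [] forall_nil a6c206 a6e206 (by decide +kernel)

def a6e207 : Pos := ⟨329510287711842630443319846715384918935398512783571175635645689708744286616338535786294382711775366235206349174532383405528418478745908719768282991202651865088, 21755412192866237637077380403001655194317684270764871429999396996685075877152054872134671312338499331863632791509784395531874878624605458635268655198855542154244423379744214496818354978816, 13⟩
def a6c207 : Cert := (move 461 (branch (move 429 (branch (move 558 (leaf 429 4)) (move 430 (branch (move 398 (leaf 397 6)) (move 428 (branch (move 396 (leaf 396 7)) (move 557 (branch (move 462 (leaf 429 6)) (move 460 (leaf 428 7)))))))))) (branch (move 558 (branch (move 429 (leaf 429 4)) (move 590 (branch (move 622 (leaf 493 7)) (move 494 (leaf 461 7)))))) (branch (move 557 (branch (move 556 (branch (move 588 (leaf 460 5)) (move 429 (branch (move 524 (leaf 428 5)) (move 428 (branch (move 460 (leaf 428 7)) (move 396 (leaf 396 7)))))))) (branch (move 430 (branch (move 462 (leaf 429 6)) (move 429 (branch (move 398 (leaf 397 6)) (move 428 (branch (move 460 (leaf 428 7))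 (move 396 (leaf 396 7)))))))) (move 462 (branch (move 430 (leaf 429 6)) (move 589 (branch (move 494 (leaf 461 6)) (move 588 (branch (move 620 (leaf 492 5)) (move 556 (leaf 460 5))))))))))) (move 557 (branch (move 590 (branch (move 558 (leaf 461 4)) (move 589 (branch (move 622 (leaf 493 4)) (move 588 (branch (move 620 (leaf 492 5)) (move 556 (leaf 460 5)))))))) (branch (move 462 (branch (move 430 (leaf 429 6)) (move 589 (branch (move 494 (leaf 461 6)) (move 588 (branch (move 620 (leaf 492 5)) (move 556 (leaf 460 5)))))))) (branch (move 558 (branch (move 590 (leaf 461 4)) (move 462 (branch (move 430 (leaf 429 6)) (move 494 (branch (move 589 (leaf 461 5)) (move 460 (branch (move 428 (leaf 428 7)) (move 495 (branch (move 496 (leaf 460 3)) (move 459 (leaf 459 0)))))))))))) (move 558 (branch (move 590 (leaf 461 4)) (move 556 (branch (move 588 (leaf 460 5)) (move 555 (branch (move 554 (leaf 522 2)) (move 523 (branch (move 522 (leaf 522 3)) (move 524 (branch (move 559 (leaf 523 0)) (move 494 (branch (move 495 (leaf 491 2)) (move 462 (branch (move 430 (leaf 429 5)) (move 460 (branch (move 428 (leaf 428 7)) (move 459 (branch (move 458 (leaf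 458 0)) (move 491 (branch (move 490 (leaf 458 1)) (move 427 (leaf 427 4))))))))))))))))))))))))))))))
theorem a6p207 : a6e207.Valid :=
  pos_of_chk [] forall_nil a6c207 a6e207 (by decide +kernel)

def a6e208 : Pos := ⟨329510287762989358691697063434341007948329749536956207605068577044420714242840626355117422631826461427798601630014987845021544588264928353297742257660910108672, 2026130649339417646222436489203403528658951639969283789035655888416997278513661013443956664949728754337867703742255064661766598464819545052027498025198741681309893939061300658176, 7⟩
def a6c208 : Cert := (move 495 (branch (move 524 (branch (move 523 (leaf 491 2)) (move 496 (leaf 492 1)))) (branch (move 496 (branch (move 497 (leaf 493 1)) (move 464 (branch (move 465 (leaf 461 2)) (move 492 (branch (move 463 (leaf 460 2)) (move 491 (branch (move 490 (leaf 490 0)) (move 459 (branch (move 458 (leaf 458 3)) (move 460 (leaf 459 3)))))))))))) (move 492 (branch (move 523 (branch (move 524 (leaf 491 1)) (move 491 (branch (move 490 (leaf 490 0)) (move 522 (leaf 490 1)))))) (branch (move 491 (branch (move 490 (leaf 490 0)) (move 459 (branch (move 458 (leaf 458 3)) (move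 460 (leaf 459 3)))))) (move 524 (branch (move 523 (leaf 491 1)) (move 460 (branch (move 459 (leaf 459 3)) (move 557 (branch (move 589 (leaf 460 7)) (move 428 (leaf 428 4))))))))))))))
theorem a6p208 : a6e208.Valid :=
  pos_of_chk [] forall_nil a6c208 a6e208 (by decide +kernel)

def a6e209 : Pos := ⟨329510287711842630443319846715384918935398512783571175635645689708744286616338535786294382711775366235206349174532383405528418478745908719768282991202651865088, 60915154151574410075675407811985701976811283531972864602852772410150354460456266625510963815658428809571371907724446505655366856813134596087508666208935567990930517317395807159343988604928, 10⟩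
def a6c209 : Cert := (move 494 (branch (ref 0) (branch (ref 1) (branch (move 462 (branch (move 557 (branch (move 589 (leaf 461 6)) (move 430 (leaf 429 5)))) (branch (move 430 (branch (move 398 (leaf 397 5)) (move 431 (branch (move 399 (leaf 398 6)) (move 558 (branch (move 463 (leaf 430 6)) (move 590 (branch (move 622 (leaf 493 7)) (move 461 (leaf 461 7)))))))))) (move 558 (branch (move 590 (branch (move 622 (leaf 493 7)) (move 591 (branch (move 623 (leaf 494 4)) (move 559 (leaf 462 4)))))) (move 557 (branch (move 589 (leaf 461 5)) (move 463 (branch (move 431 (leaf 430 6)) (move 492 (branch (move 491 (leaf 459 2)) (move 464 (branch (move 461 (leaf 460 1)) (move 465 (leaf 461 1))))))))))))))) (move 557 (branch (move 589 (branch (move 621 (leaf 493 6)) (move 590 (branch (move 622 (leaf 493 4)) (move 558 (branch (move 461 (leaf 461 4)) (move 591 (branch (move 623 (leaf 494 4)) (move 556 (branch (move 592 (leaf 556 3)) (move 555 (leaf 555 0)))))))))))) (branch (move 462 (branch (move 589 (leaf 461 6)) (move 430 (leaf 429 5)))) (move 461 (branch (move 558 (branch (move 590 (leaf 461 4)) (move 556 (branch (move 588 (leaf 460 5)) (move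 555 (branch (move 554 (leaf 522 2)) (move 523 (branch (move 522 (leaf 522 3)) (move 524 (branch (move 495 (leaf 491 2)) (move 559 (leaf 523 0)))))))))))) (branch (move 462 (branch (move 430 (leaf 429 5)) (move 460 (branch (move 428 (leaf 428 7)) (move 495 (branch (move 496 (leaf 460 3)) (move 459 (leaf 459 0)))))))) (move 558 (branch (move 590 (leaf 461 4)) (move 462 (branch (move 430 (leaf 429 5)) (move 556 (branch (move 588 (leaf 460 5)) (move 559 (branch (move 591 (leaf 462 4)) (move 523 (branch (move 524 (leaf 523 0)) (move 555 (branch (move 554 (leaf 522 2)) (move 522 (leaf 522 3))))))))))))))))))))))))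
theorem a6p209 : a6e209.Valid :=
  pos_of_chk [a6e202, a6e208] (forall_cons a6p202 (forall_cons a6p208 forall_nil)) a6c209 a6e209 (by decide +kernel)

def a6e210 : Pos := ⟨329510287711842630443319846715384918935398512783571175635645689708744286616338535786294382711775366235206349174532383405528418478745908719768282991202651865088, 21755412193626036628515776319183559476463239074113807074089272832629993658666490419020259796094353516100321671067406210208162452838866611484471351543654244051267505319326204581511964917760, 11⟩
def a6c210 : Cert := (move 461 (branch (move 557 (branch (move 460 (branch (move 428 (leaf 428 7)) (move 492 (branch (move 589 (leaf 460 7)) (move 491 (branch (move 490 (leaf 490 0)) (move 462 (branch (move 463 (leaf 459 1)) (move 430 (leaf 429 6)))))))))) (branch (move 556 (branch (move 588 (leaf 460 5)) (move 429 (branch (move 524 (leaf 428 5)) (move 430 (branch (move 462 (leaf 429 6)) (move 398 (leaf 397 6)))))))) (move 556 (branch (move 588 (leaf 460 5)) (move 460 (branch (move 428 (leaf 428 7)) (move 492 (branch (move 589 (leaf 460 7)) (move 524 (branch (move 429 (leaf 428 5)) (move 555 (branch (move 554 (leaf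 522 2)) (move 587 (leaf 459 5))))))))))))))) (branch (move 429 (branch (move 558 (leaf 429 4)) (move 524 (branch (move 556 (leaf 428 5)) (move 397 (branch (move 492 (leaf 396 5)) (move 398 (branch (move 430 (leaf 397 6)) (move 366 (leaf 365 6)))))))))) (branch (move 429 (branch (move 558 (leaf 429 4)) (move 430 (branch (move 398 (leaf 397 6)) (move 428 (branch (move 396 (leaf 396 7)) (move 557 (branch (move 462 (leaf 429 6)) (move 460 (leaf 428 7)))))))))) (branch (move 429 (branch (move 558 (leaf 429 4)) (move 428 (branch (move 396 (leaf 396 7)) (move 524 (branch (move 556 (leaf 428 5)) (move 492 (branch (move 397 (leaf 396 5)) (move 460 (branch (move 557 (leaf 428 4)) (move 491 (branch (move 490 (leaf 490 0)) (move 427 (branch (move 395 (leaf 395 7)) (move 462 (branch (move 463 (leaf 459 1)) (move 426 (leaf 426 0)))))))))))))))))) (move 557 (branch (move 460 (branch (move 428 (leaf 428 7)) (move 492 (branch (move 589 (leaf 460 7)) (move 491 (branch (move 490 (leaf 490 0)) (move 462 (branch (move 463 (leaf 459 1)) (move 430 (leaf 429 6)))))))))) (branch (move 590 (branch (move 558 (leaf 461 4)) (move 589 (branch (move 622 (leaf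 493 4)) (move 588 (branch (move 620 (leaf 492 5)) (move 556 (leaf 460 5)))))))) (move 462 (branch (move 430 (leaf 429 6)) (move 460 (branch (move 428 (leaf 428 7)) (move 558 (branch (move 590 (leaf 461 4)) (move 556 (branch (move 588 (leaf 460 5)) (move 555 (branch (move 554 (leaf 522 2)) (move 587 (branch (move 586 (leaf 554 1)) (move 492 (branch (move 524 (leaf 459 5)) (move 491 (branch (move 490 (leaf 490 0)) (move 463 (leaf 459 1))))))))))))))))))))))))))
theorem a6p210 : a6e210.Valid :=
  pos_of_chk [] forall_nil a6c210 a6e210 (by decide +kernel)

def a6e211 : Pos := ⟨329510287762989358691697063434341007948329749536956207605068577044420714242840626355117422631826461427798601630014987845021544588264928353297742257660910108672, 2175541222123206672635502337743931560882375480586576223240759527501395358785084729649754998355155122336120590102033392548827137520409745211009008258410964839624227679498560181966756380672, 8⟩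
def a6c211 : Cert := (move 492 (branch (move 491 (branch (move 490 (leaf 490 0)) (move 459 (branch (move 458 (leaf 458 3)) (move 460 (branch (move 495 (leaf 459 3)) (move 523 (branch (move 522 (leaf 490 1)) (move 428 (branch (move 555 (leaf 427 6)) (move 396 (leaf 396 4)))))))))))) (branch (move 524 (branch (move 495 (branch (move 496 (leaf 492 1)) (move 460 (branch (move 459 (leaf 459 3)) (move 557 (branch (move 589 (leaf 460 7)) (move 428 (leaf 428 4)))))))) (branch (move 523 (branch (move 522 (leaf 490 2)) (move 555 (branch (move 554 (leaf 522 1)) (move 460 (branch (move 428 (leaf 427 5)) (move 557 (branch (move 589 (leaf 460 7)) (move 587 (branch (move 619 (leaf 491 6)) (move 556 (leaf 459 5)))))))))))) (move 523 (branch (move 522 (leaf 490 2)) (move 495 (leaf 491 1))))))) (branch (move 491 (branch (move 490 (leaf 490 0)) (move 459 (branch (move 458 (leaf 458 3)) (move 460 (branch (move 495 (leaf 459 3)) (move 557 (branch (move 589 (leaf 460 7)) (move 428 (branch (move 524 (leaf 428 4)) (move 396 (leaf 396 4)))))))))))) (branch (move 491 (branch (move 490 (leaf 490 0)) (move 523 (branch (move 522 (leaf 490 1)) (move 524 (branch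 (move 495 (leaf 491 1)) (move 459 (branch (move 458 (leaf 458 3)) (move 556 (branch (move 588 (leaf 459 7)) (move 427 (leaf 427 4)))))))))))) (branch (move 491 (branch (move 490 (leaf 490 0)) (move 523 (branch (move 522 (leaf 490 1)) (move 524 (branch (move 495 (leaf 491 1)) (move 555 (branch (move 554 (leaf 522 1)) (move 460 (branch (move 587 (leaf 459 6)) (move 428 (leaf 427 5)))))))))))) (move 524 (branch (move 491 (branch (move 490 (leaf 490 0)) (move 459 (branch (move 458 (leaf 458 3)) (move 556 (branch (move 588 (leaf 459 7)) (move 460 (branch (move 427 (leaf 427 7)) (move 557 (branch (move 589 (leaf 460 4)) (move 428 (leaf 428 4)))))))))))) (branch (move 523 (branch (move 522 (leaf 490 2)) (move 555 (branch (move 554 (leaf 522 1)) (move 460 (branch (move 428 (leaf 427 5)) (move 557 (branch (move 589 (leaf 460 7)) (move 587 (branch (move 619 (leaf 491 6)) (move 556 (leaf 459 5)))))))))))) (branch (move 523 (branch (move 522 (leaf 490 2)) (move 491 (branch (move 490 (leaf 490 0)) (move 555 (branch (move 554 (leaf 522 1)) (move 460 (branch (move 587 (leaf 459 6)) (move 428 (leaf 427 5)))))))))) (move 523 (branch (move 522 (leaf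 490 2)) (move 491 (branch (move 490 (leaf 490 0)) (move 459 (branch (move 458 (leaf 458 3)) (move 556 (branch (move 588 (leaf 459 7)) (move 427 (leaf 427 4))))))))))))))))))))
theorem a6p211 : a6e211.Valid :=
  pos_of_chk [] forall_nil a6c211 a6e211 (by decide +kernel)

def a6e212 : Pos := ⟨329510287711842630443319846715384918935398512783571175635645689708744286616338535786294382711775366235206349174532383405528418478745908719768282991202651865088, 67441777791857597986757066078547206996466081684242234022041748918876808288744845986315610974699570424329919163705163794275588427179809127498516930727340969502384023953291787239905908752384, 12⟩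
def a6c212 : Cert := (move 494 (branch (ref 0) (branch (move 462 (branch (move 430 (branch (move 398 (leaf 397 5)) (move 431 (branch (move 399 (leaf 398 6)) (move 463 (branch (move 558 (leaf 430 6)) (move 429 (branch (move 397 (leaf 397 7)) (move 464 (branch (move 465 (leaf 461 1)) (move 428 (leaf 428 0)))))))))))) (branch (move 557 (branch (move 589 (leaf 461 6)) (move 430 (leaf 429 5)))) (move 558 (branch (move 590 (branch (move 622 (leaf 493 7)) (move 591 (branch (move 623 (leaf 494 4)) (move 559 (leaf 462 4)))))) (move 557 (branch (move 589 (leaf 461 5)) (move 463 (branch (move 431 (leaf 430 6)) (move 492 (branch (move 491 (leaf 459 2)) (move 464 (branch (move 495 (leaf 460 2)) (move 465 (leaf 461 1))))))))))))))) (branch (move 462 (branch (move 430 (branch (move 398 (leaf 397 5)) (move 431 (branch (move 399 (leaf 398 6)) (move 463 (branch (move 558 (leaf 430 6)) (move 429 (branch (move 397 (leaf 397 7)) (move 464 (branch (move 465 (leaf 461 1)) (move 428 (leaf 428 0)))))))))))) (branch (move 557 (branch (move 589 (leaf 461 6)) (move 430 (leaf 429 5)))) (move 558 (branch (move 590 (branch (move 622 (leaf 493 7)) (move 591 (branch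 (move 623 (leaf 494 4)) (move 559 (leaf 462 4)))))) (branch (move 589 (branch (move 557 (leaf 461 5)) (move 590 (branch (move 621 (leaf 493 5)) (move 463 (branch (move 495 (leaf 462 6)) (move 431 (leaf 430 6)))))))) (move 557 (branch (move 589 (leaf 461 5)) (move 556 (branch (move 555 (branch (move 554 (leaf 522 2)) (move 559 (branch (move 591 (leaf 462 4)) (move 587 (branch (move 586 (leaf 554 1)) (move 588 (leaf 555 1)))))))) (branch (move 555 (branch (move 554 (leaf 522 2)) (move 523 (branch (move 522 (leaf 522 3)) (move 524 (branch (move 495 (leaf 491 2)) (move 588 (branch (move 620 (leaf 492 6)) (move 491 (branch (move 490 (leaf 490 3)) (move 459 (leaf 459 4)))))))))))) (branch (move 559 (branch (move 591 (leaf 462 4)) (move 524 (branch (move 523 (leaf 523 0)) (move 588 (branch (move 587 (leaf 555 1)) (move 620 (leaf 492 6)))))))) (move 559 (branch (move 591 (leaf 462 4)) (move 523 (branch (move 524 (leaf 523 0)) (move 555 (branch (move 554 (leaf 522 2)) (move 522 (leaf 522 3)))))))))))))))))))) (branch (move 558 (branch (move 590 (branch (move 622 (leaf 493 7)) (move 591 (branch (move 623 (leaf 494 4)) (move 589 (branch (move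 621 (leaf 493 5)) (move 559 (branch (move 462 (leaf 462 4)) (move 524 (branch (move 523 (leaf 523 0)) (move 588 (branch (move 587 (leaf 555 2)) (move 556 (branch (move 555 (leaf 555 3)) (move 620 (leaf 492 6)))))))))))))))) (branch (move 590 (branch (move 622 (leaf 493 7)) (move 495 (branch (move 463 (leaf 462 6)) (move 524 (branch (move 523 (leaf 491 2)) (move 496 (leaf 492 1)))))))) (branch (move 462 (branch (move 430 (branch (move 398 (leaf 397 5)) (move 431 (branch (move 463 (leaf 430 6)) (move 399 (leaf 398 6)))))) (branch (move 589 (branch (move 557 (leaf 461 5)) (move 590 (branch (move 621 (leaf 493 5)) (move 463 (branch (move 495 (leaf 462 6)) (move 431 (leaf 430 6)))))))) (move 557 (branch (move 589 (leaf 461 5)) (move 430 (leaf 429 5))))))) (move 462 (branch (move 430 (branch (move 398 (leaf 397 5)) (move 431 (branch (move 463 (leaf 430 6)) (move 399 (leaf 398 6)))))) (branch (move 557 (branch (move 589 (leaf 461 5)) (move 430 (leaf 429 5)))) (move 557 (branch (move 589 (leaf 461 5)) (move 463 (branch (move 431 (leaf 430 6)) (move 464 (branch (move 465 (leaf 461 1)) (move 495 (branch (move 492 (leaf 460 2)) (move 524 (branch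 (move 523 (leaf 491 2)) (move 496 (leaf 492 1))))))))))))))))))) (branch (ref 1) (move 462 (branch (move 430 (branch (move 398 (leaf 397 5)) (move 431 (branch (move 399 (leaf 398 6)) (move 463 (branch (move 558 (leaf 430 6)) (move 429 (branch (move 397 (leaf 397 7)) (move 464 (branch (move 465 (leaf 461 1)) (move 428 (leaf 428 0)))))))))))) (branch (move 557 (branch (move 589 (leaf 461 6)) (move 430 (leaf 429 5)))) (move 558 (branch (move 590 (branch (move 622 (leaf 493 7)) (move 591 (branch (move 623 (leaf 494 4)) (move 559 (leaf 462 4)))))) (branch (move 589 (branch (move 557 (leaf 461 5)) (move 590 (branch (move 622 (leaf 493 7)) (move 621 (leaf 493 5)))))) (move 557 (branch (move 589 (leaf 461 5)) (move 556 (branch (move 555 (branch (move 554 (leaf 522 2)) (move 559 (branch (move 591 (leaf 462 4)) (move 587 (branch (move 586 (leaf 554 1)) (move 588 (leaf 555 1)))))))) (branch (move 559 (branch (move 591 (leaf 462 4)) (move 524 (branch (move 523 (leaf 523 0)) (move 588 (branch (move 587 (leaf 555 1)) (move 620 (leaf 492 6)))))))) (branch (move 559 (branch (move 591 (leaf 462 4)) (move 523 (branch (move 524 (leaf 523 0)) (move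 555 (branch (move 554 (leaf 522 2)) (move 522 (leaf 522 3)))))))) (move 555 (branch (move 554 (leaf 522 2)) (move 523 (branch (move 522 (leaf 522 3)) (move 587 (branch (move 586 (leaf 554 1)) (move 463 (branch (move 431 (leaf 430 6)) (move 491 (branch (move 492 (leaf 459 2)) (move 588 (branch (move 620 (leaf 491 4)) (move 459 (leaf 459 4))))))))))))))))))))))))))))))))
theorem a6p212 : a6e212.Valid :=
  pos_of_chk [a6e202, a6e211] (forall_cons a6p202 (forall_cons a6p211 forall_nil)) a6c212 a6e212 (by decide +kernel)

def a6e213 : Pos := ⟨329510287686269266319131238355906874428932894406878659650934246040906072803087490501882862751749818638910222946791081185781855423986398903003553357973522743296, 102782662301234591693614957110914607789930952025330811410602794031162719974371737821302675143571720386345089787602582119838895368634855543058646754030085274015258193795285972925526004745751299620864, 14⟩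
def a6c213 : Cert := (move 493 (branch (ref 0) (branch (ref 1) (branch (move 461 (branch (move 429 (branch (move 558 (leaf 429 4)) (move 430 (branch (move 398 (leaf 397 6)) (move 428 (branch (move 396 (leaf 396 7)) (move 557 (branch (move 462 (leaf 429 6)) (move 460 (leaf 428 7)))))))))) (branch (ref 2) (branch (move 558 (branch (move 429 (leaf 429 4)) (move 590 (branch (move 622 (leaf 493 7)) (move 494 (leaf 461 7)))))) (move 557 (branch (move 460 (branch (move 428 (leaf 428 7)) (move 492 (branch (move 589 (leaf 460 7)) (move 491 (branch (move 490 (leaf 490 0)) (move 462 (branch (move 463 (leaf 459 1)) (move 430 (leaf 429 6)))))))))) (branch (move 590 (branch (move 558 (leaf 461 4)) (move 589 (branch (move 622 (leaf 493 4)) (move 588 (branch (move 620 (leaf 492 5)) (move 556 (leaf 460 5)))))))) (move 462 (branch (move 430 (leaf 429 6)) (move 558 (branch (move 590 (leaf 461 4)) (move 460 (branch (move 428 (leaf 428 7)) (move 556 (branch (move 588 (leaf 460 5)) (move 555 (branch (move 554 (leaf 522 2)) (move 523 (branch (move 522 (leaf 522 3)) (move 587 (branch (move 586 (leaf 554 1)) (move 491 (branch (move 492 (leaf 459 6)) (move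 459 (branch (move 490 (leaf 458 1)) (move 494 (branch (move 458 (leaf 458 0)) (move 495 (leaf 459 0))))))))))))))))))))))))))))) (branch (ref 3) (branch (ref 4) (branch (move 461 (branch (move 429 (branch (move 558 (leaf 429 4)) (move 524 (branch (move 556 (leaf 428 5)) (move 397 (branch (move 492 (leaf 396 5)) (move 398 (branch (move 430 (leaf 397 6)) (move 366 (leaf 365 6)))))))))) (branch (move 429 (branch (move 558 (leaf 429 4)) (move 430 (branch (move 398 (leaf 397 6)) (move 428 (branch (move 396 (leaf 396 7)) (move 557 (branch (move 462 (leaf 429 6)) (move 460 (leaf 428 7)))))))))) (branch (move 429 (branch (move 558 (leaf 429 4)) (move 428 (branch (move 396 (leaf 396 7)) (move 524 (branch (move 556 (leaf 428 5)) (move 492 (branch (move 397 (leaf 396 5)) (move 460 (branch (move 557 (leaf 428 4)) (move 491 (branch (move 490 (leaf 490 0)) (move 427 (branch (move 395 (leaf 395 7)) (move 462 (branch (move 463 (leaf 459 1)) (move 426 (leaf 426 0)))))))))))))))))) (move 557 (branch (move 460 (branch (move 428 (leaf 428 7)) (move 492 (branch (move 589 (leaf 460 7)) (move 491 (branch (move 490 (leaf 490 0)) (move 462 (branch (move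 463 (leaf 459 1)) (move 430 (leaf 429 6)))))))))) (branch (move 460 (branch (move 428 (leaf 428 7)) (move 589 (branch (move 492 (leaf 460 7)) (move 588 (branch (move 620 (leaf 492 5)) (move 556 (leaf 460 5)))))))) (branch (move 462 (branch (move 430 (leaf 429 6)) (move 589 (branch (move 494 (leaf 461 6)) (move 588 (branch (move 620 (leaf 492 5)) (move 556 (leaf 460 5)))))))) (ref 5))))))))) (branch (move 461 (branch (move 429 (branch (move 558 (leaf 429 4)) (move 524 (branch (move 556 (leaf 428 5)) (move 397 (branch (move 492 (leaf 396 5)) (move 398 (branch (move 430 (leaf 397 6)) (move 366 (leaf 365 6)))))))))) (branch (ref 2) (branch (move 429 (branch (move 558 (leaf 429 4)) (move 397 (branch (move 494 (leaf 397 4)) (move 396 (branch (move 428 (leaf 396 7)) (move 364 (leaf 364 7)))))))) (move 557 (branch (move 460 (branch (move 428 (leaf 428 7)) (move 589 (branch (move 492 (leaf 460 7)) (move 588 (branch (move 620 (leaf 492 5)) (move 556 (leaf 460 5)))))))) (branch (move 462 (branch (move 430 (leaf 429 6)) (move 589 (branch (move 494 (leaf 461 6)) (move 622 (branch (move 590 (leaf 493 4)) (move 621 (branch (move 654 (leaf 525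 4)) (move 620 (branch (move 652 (leaf 524 5)) (move 588 (leaf 492 5)))))))))))) (branch (move 558 (branch (move 590 (leaf 461 4)) (move 462 (branch (move 430 (leaf 429 6)) (move 494 (branch (move 589 (leaf 461 5)) (move 460 (branch (move 428 (leaf 428 7)) (move 495 (branch (move 496 (leaf 460 3)) (move 459 (leaf 459 0)))))))))))) (move 558 (branch (move 590 (leaf 461 4)) (move 556 (branch (move 588 (leaf 460 5)) (move 555 (branch (move 554 (leaf 522 2)) (move 523 (branch (move 522 (leaf 522 3)) (move 524 (branch (move 559 (leaf 523 0)) (move 460 (branch (move 428 (leaf 428 7)) (move 587 (branch (move 586 (leaf 554 1)) (move 492 (leaf 459 5)))))))))))))))))))))))) (branch (ref 6) (branch (move 494 (branch (ref 7) (branch (ref 8) (branch (ref 9) (move 495 (branch (move 524 (branch (move 523 (leaf 491 2)) (move 496 (leaf 492 1)))) (branch (move 496 (branch (move 497 (leaf 493 1)) (move 461 (branch (move 460 (leaf 460 3)) (move 429 (branch (move 558 (leaf 429 4)) (move 397 (leaf 397 4)))))))) (move 492 (branch (move 523 (branch (move 524 (leaf 491 1)) (move 491 (branch (move 490 (leaf 490 0)) (move 522 (leaf 490 1)))))) (branch (move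 491 (branch (move 490 (leaf 490 0)) (move 459 (branch (move 458 (leaf 458 3)) (move 460 (leaf 459 3)))))) (move 524 (branch (move 523 (leaf 491 1)) (move 460 (branch (move 459 (leaf 459 3)) (move 557 (branch (move 589 (leaf 460 7)) (move 428 (leaf 428 4)))))))))))))))))) (branch (move 461 (branch (move 558 (branch (move 429 (leaf 429 4)) (move 590 (branch (move 622 (leaf 493 7)) (move 494 (leaf 461 7)))))) (branch (move 557 (branch (move 558 (branch (move 590 (leaf 461 4)) (move 556 (branch (move 588 (leaf 460 5)) (move 555 (branch (move 554 (leaf 522 2)) (move 523 (branch (move 522 (leaf 522 3)) (move 524 (branch (move 559 (leaf 523 0)) (move 491 (branch (move 490 (leaf 490 3)) (move 587 (branch (move 586 (leaf 554 1)) (move 619 (branch (move 651 (leaf 523 6)) (move 492 (leaf 491 6)))))))))))))))))) (branch (move 590 (branch (move 558 (leaf 461 4)) (move 589 (branch (move 622 (leaf 493 4)) (move 588 (branch (move 620 (leaf 492 5)) (move 556 (leaf 460 5)))))))) (branch (move 460 (branch (move 428 (leaf 428 7)) (move 589 (branch (move 492 (leaf 460 7)) (move 588 (branch (move 620 (leaf 492 5)) (move 556 (leaf 460 5)))))))) (move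 590 (branch (move 558 (leaf 461 4)) (move 589 (branch (move 622 (leaf 493 4)) (move 460 (branch (move 492 (leaf 460 7)) (move 428 (leaf 428 7)))))))))))) (move 429 (branch (move 397 (branch (move 494 (leaf 397 4)) (move 396 (branch (move 428 (leaf 396 7)) (move 364 (leaf 364 7)))))) (branch (move 428 (branch (move 396 (leaf 396 7)) (move 557 (branch (move 460 (leaf 428 7)) (move 556 (branch (move 588 (leaf 460 5)) (move 524 (leaf 428 5)))))))) (move 397 (branch (move 494 (leaf 397 4)) (move 524 (branch (move 556 (leaf 428 5)) (move 492 (leaf 396 5)))))))))))) (branch (move 461 (branch (move 429 (branch (move 558 (leaf 429 4)) (move 524 (branch (move 556 (leaf 428 5)) (move 397 (branch (move 492 (leaf 396 5)) (move 398 (branch (move 430 (leaf 397 6)) (move 366 (leaf 365 6)))))))))) (branch (move 558 (branch (move 429 (leaf 429 4)) (move 590 (branch (move 622 (leaf 493 7)) (move 494 (leaf 461 7)))))) (branch (move 557 (branch (move 558 (branch (move 590 (leaf 461 4)) (move 556 (branch (move 588 (leaf 460 5)) (move 555 (branch (move 554 (leaf 522 2)) (move 523 (branch (move 522 (leaf 522 3)) (move 524 (branch (move 559 (leaf 523 0))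 (move 491 (branch (move 490 (leaf 490 3)) (move 587 (branch (move 586 (leaf 554 1)) (move 619 (branch (move 651 (leaf 523 6)) (move 492 (leaf 491 6)))))))))))))))))) (branch (move 462 (branch (move 430 (leaf 429 6)) (move 589 (branch (move 494 (leaf 461 6)) (move 588 (branch (move 620 (leaf 492 5)) (move 556 (leaf 460 5)))))))) (move 558 (branch (move 590 (leaf 461 4)) (move 462 (branch (move 430 (leaf 429 6)) (move 494 (branch (move 589 (leaf 461 5)) (move 463 (branch (move 431 (leaf 430 6)) (move 464 (branch (move 492 (leaf 460 1)) (move 465 (leaf 461 1))))))))))))))) (move 429 (branch (move 397 (branch (move 494 (leaf 397 4)) (move 398 (branch (move 430 (leaf 397 6)) (move 366 (leaf 365 6)))))) (branch (move 397 (branch (move 494 (leaf 397 4)) (move 524 (branch (move 556 (leaf 428 5)) (move 492 (leaf 396 5)))))) (move 430 (branch (move 398 (leaf 397 6)) (move 557 (branch (move 462 (leaf 429 6)) (move 556 (branch (move 588 (leaf 460 5)) (move 524 (leaf 428 5))))))))))))))) (ref 10)))))))))))))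
theorem a6p213 : a6e213.Valid :=
  pos_of_chk [a6e201, a6e205, a6e206, a6e207, a6e209, a6e200, a6e210, a6e203, a6e204, a6e208, a6e212] (forall_cons a6p201 (forall_cons a6p205 (forall_cons a6p206 (forall_cons a6p207 (forall_cons a6p209 (forall_cons a6p200 (forall_cons a6p210 (forall_cons a6p203 (forall_cons a6p204 (forall_cons a6p208 (forall_cons a6p212 forall_nil))))))))))) a6c213 a6e213 (by decide +kernel)

def a6e214 : Pos := ⟨2026130649339417646455839608909413369710460861557649419556992503466918515254346322199156636807556355703874333016357578985722085920303310176576592605651287016005483040871840481280, 321053216787397769754889049940244448819680533778342221513488687228172540617387733142636850960764870012923877391136236265150596432637706412941416029181777194594647250158657451234600646703979502978637825572864, 9⟩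
def a6c214 : Cert := (move 621 (branch (move 620 (branch (move 652 (leaf 524 5)) (move 524 (branch (move 492 (leaf 492 7)) (move 653 (branch (move 556 (leaf 524 7)) (move 654 (branch (move 622 (leaf 525 4)) (move 686 (leaf 557 4)))))))))) (branch (move 622 (branch (move 654 (leaf 525 4)) (move 524 (branch (move 492 (leaf 492 7)) (move 556 (branch (move 653 (leaf 524 7)) (move 555 (branch (move 554 (leaf 522 2)) (move 590 (branch (move 493 (leaf 493 4)) (move 591 (branch (move 588 (leaf 555 3)) (move 592 (leaf 556 3)))))))))))))) (branch (move 620 (branch (move 652 (leaf 524 5)) (move 588 (branch (move 493 (leaf 492 5)) (move 524 (branch (move 492 (leaf 492 7)) (move 556 (branch (move 653 (leaf 524 4)) (move 555 (branch (move 554 (leaf 522 2)) (move 619 (branch (move 651 (leaf 523 5)) (move 590 (branch (move 591 (leaf 587 1)) (move 618 (leaf 586 2)))))))))))))))) (move 620 (branch (move 652 (leaf 524 5)) (move 622 (branch (move 654 (leaf 525 4)) (move 493 (branch (move 590 (leaf 493 4)) (move 588 (leaf 492 5))))))))))))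
theorem a6p214 : a6e214.Valid :=
  pos_of_chk [] forall_nil a6c214 a6e214 (by decide +kernel)

def a6e215 : Pos := ⟨471745303432202956716463588942664849720522026980987947953904447181637266339924679313853331149090208694433365517755703559262404264522454503056578184432640363429697159168, 321053216787397769754889049942270579468548206121407046952419211602690016292065527263292837196248662880569451775003808277141703876937391420912171085535579137246264356709559821228967540766049189316222211063808, 10⟩
def a6c215 : Cert := (move 589 (branch (ref 0) (branch (move 621 (branch (move 494 (leaf 493 6)) (move 620 (branch (move 652 (leaf 524 5)) (move 524 (branch (move 492 (leaf 492 7)) (move 653 (branch (move 556 (leaf 524 7)) (move 654 (branch (move 622 (leaf 525 4)) (move 686 (leaf 557 4)))))))))))) (branch (move 621 (branch (move 494 (leaf 493 6)) (move 622 (branch (move 654 (leaf 525 4)) (move 620 (branch (move 652 (leaf 524 5)) (move 493 (branch (move 590 (leaf 493 4)) (move 588 (leaf 492 5)))))))))) (branch (move 621 (branch (move 494 (leaf 493 6)) (move 622 (branch (move 654 (leaf 525 4)) (move 524 (branch (move 492 (leaf 492 7)) (move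 556 (branch (move 653 (leaf 524 7)) (move 555 (branch (move 554 (leaf 522 2)) (move 590 (branch (move 493 (leaf 493 4)) (move 591 (branch (move 588 (leaf 555 3)) (move 592 (leaf 556 3)))))))))))))))) (branch (move 621 (branch (move 494 (leaf 493 6)) (move 620 (branch (move 652 (leaf 524 5)) (move 588 (branch (move 493 (leaf 492 5)) (move 524 (branch (move 492 (leaf 492 7)) (move 556 (branch (move 653 (leaf 524 4)) (move 555 (branch (move 554 (leaf 522 2)) (move 619 (branch (move 651 (leaf 523 5)) (move 590 (branch (move 591 (leaf 587 1)) (move 618 (leaf 586 2)))))))))))))))))) (move 493 (branch (move 588 (branch (move 620 (leaf 492 5)) (move 556 (branch (move 461 (leaf 460 5)) (move 555 (branch (move 554 (leaf 522 2)) (move 590 (branch (move 591 (leaf 555 3)) (move 622 (leaf 493 4)))))))))) (move 494 (branch (move 462 (leaf 461 6)) (move 492 (branch (move 460 (leaf 460 7)) (move 491 (branch (move 490 (leaf 490 0)) (move 523 (branch (move 522 (leaf 490 1)) (move 495 (branch (move 524 (leaf 491 1)) (move 496 (branch (move 497 (leaf 493 1)) (move 464 (branch (move 463 (leaf 460 2)) (move 465 (leaf 461 2))))))))))))))))))))))))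
theorem a6p215 : a6e215.Valid :=
  pos_of_chk [a6e214] (forall_cons a6p214 forall_nil) a6c215 a6e215 (by decide +kernel)

def a6e216 : Pos := ⟨1415235909637588294776852234189732072449752332085098055047956022243043306937961892335385012443504900579800459275446664784205050422003652661196936747290814374342045990912, 149502054193052752484230343552719028059387388014564667003924606764636661878318431306593353716353493613757924874177951352692394530784822674059023251612180984020708213461671104152549998931229334831104, 7⟩
def a6c216 : Cert := (move 559 (branch (move 560 (branch (move 561 (leaf 525 3)) (move 592 (branch (move 593 (leaf 557 0)) (move 591 (branch (move 556 (leaf 556 0)) (move 528 (branch (move 529 (leaf 525 2)) (move 623 (branch (move 496 (leaf 495 5)) (move 655 (leaf 527 6)))))))))))) (branch (move 524 (branch (move 523 (leaf 523 0)) (move 560 (leaf 524 3)))) (move 524 (branch (move 523 (leaf 523 0)) (move 556 (branch (move 591 (branch (move 592 (leaf 556 0)) (move 494 (branch (move 462 (leaf 462 4)) (move 623 (branch (move 590 (leaf 494 4)) (move 655 (leaf 526 7)))))))) (move 555 (branch (move 554 (leaf 522 2)) (move 587 (branch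 (move 586 (leaf 554 1)) (move 588 (leaf 555 1)))))))))))))
theorem a6p216 : a6e216.Valid :=
  pos_of_chk [] forall_nil a6c216 a6e216 (by decide +kernel)

def a6e217 : Pos := ⟨1415235909637588294776852234189732072449752332085098055047956022243043306937961892335385012443504900579800459275446664784205050422003652661196936747290814374342045990912, 214909202902513331670738656594533949894366458624748966994176938378452346894860086065152300121840178023155539806964365464237123848349236965578852297727386015495045406010691205009118343098451812679680, 10⟩
def a6c217 : Cert := (move 559 (branch (move 560 (branch (move 561 (leaf 525 3)) (move 592 (branch (move 593 (leaf 557 0)) (move 591 (branch (move 556 (leaf 556 0)) (move 528 (branch (move 529 (leaf 525 2)) (move 623 (branch (move 496 (leaf 495 5)) (move 655 (leaf 527 6)))))))))))) (branch (move 524 (branch (move 523 (leaf 523 0)) (move 560 (leaf 524 3)))) (move 556 (branch (move 555 (branch (move 554 (leaf 522 2)) (move 587 (branch (move 586 (leaf 554 1)) (move 588 (leaf 555 1)))))) (branch (move 523 (branch (move 524 (leaf 523 0)) (move 555 (branch (move 554 (leaf 522 2)) (move 522 (leaf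 522 3)))))) (move 524 (branch (move 523 (leaf 523 0)) (move 588 (branch (move 587 (leaf 555 1)) (move 620 (branch (move 652 (leaf 524 6)) (move 621 (branch (move 653 (leaf 524 4)) (move 589 (branch (move 492 (leaf 492 4)) (move 591 (branch (move 592 (leaf 556 0)) (move 619 (branch (move 590 (leaf 587 1)) (move 651 (leaf 523 5))))))))))))))))))))))
theorem a6p217 : a6e217.Valid :=
  pos_of_chk [] forall_nil a6c217 a6e217 (by decide +kernel)

def a6e218 : Pos := ⟨1415235909637588294776852234189732072449752332085098055047956022243043306937961892335385012443504900579800459275446664784205050422003652661196936747290814374342045990912, 56063270322394782161926579888489030834877137590736788739231022886929543402401879965425969901304197704618646947038703856156813794637338465064204318953370070989030584139321846384420809607149506265088, 8⟩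
def a6c218 : Cert := (move 559 (branch (move 524 (branch (move 523 (leaf 523 0)) (move 560 (leaf 524 3)))) (branch (move 560 (branch (move 561 (leaf 525 3)) (move 589 (branch (move 588 (leaf 556 1)) (move 621 (branch (move 494 (leaf 493 6)) (move 653 (leaf 525 6)))))))) (move 556 (branch (move 555 (branch (move 554 (leaf 522 2)) (move 587 (branch (move 586 (leaf 554 1)) (move 588 (leaf 555 1)))))) (branch (move 523 (branch (move 524 (leaf 523 0)) (move 555 (branch (move 554 (leaf 522 2)) (move 522 (leaf 522 3)))))) (move 524 (branch (move 523 (leaf 523 0)) (move 588 (branch (move 587 (leaf 555 1)) (move 620 (branch (move 652 (leaf 524 6)) (move 621 (branch (move 653 (leaf 524 4)) (move 589 (branch (move 492 (leaf 492 4)) (move 494 (leaf 493 6))))))))))))))))))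
theorem a6p218 : a6e218.Valid :=
  pos_of_chk [] forall_nil a6c218 a6e218 (by decide +kernel)

def a6e219 : Pos := ⟨1415235909637588294827998962438109289168708421098029291801341054212466194273638319961887103012327940499851554468038917239687654861496778770715956380820273640800304234496, 261628594837842316801751845024329545259941685109042200150375423651785272793682120005494297905877590144312892903802047172957257871651665280936947170604667107034643853175945235312181487903029401223168, 7⟩
def a6c219 : Cert := (move 590 (branch (move 622 (branch (move 654 (leaf 525 7)) (move 623 (branch (move 591 (leaf 494 4)) (move 655 (leaf 526 4)))))) (branch (move 621 (branch (move 589 (leaf 493 5)) (move 622 (branch (move 653 (leaf 525 5)) (move 654 (leaf 525 7)))))) (move 589 (branch (move 621 (leaf 493 5)) (move 591 (branch (move 623 (leaf 494 4)) (move 592 (branch (move 593 (leaf 557 3)) (move 560 (branch (move 561 (leaf 557 2)) (move 559 (branch (move 588 (leaf 556 1)) (move 524 (leaf 524 3)))))))))))))))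
theorem a6p219 : a6e219.Valid :=
  pos_of_chk [] forall_nil a6c219 a6e219 (by decide +kernel)

def a6e220 : Pos := ⟨471745303432202956716463588942664849720522026980987947953904447181637266339924679313853331149090208694433365517755703559262404264522454503056578184432640363429697159168, 401316520939863789888497722813609244207750846638461412756866809797646010381620259981018962370439047836769056007217478930711424337321895006702585051465085736402925113560885675725638430393548050280284692676608, 13⟩
def a6c220 : Cert := (move 589 (branch (move 621 (branch (move 494 (leaf 493 6)) (move 622 (branch (move 654 (leaf 525 4)) (move 620 (branch (move 652 (leaf 524 5)) (move 493 (branch (move 590 (leaf 493 4)) (move 588 (leaf 492 5)))))))))) (branch (move 494 (branch (move 621 (leaf 493 6)) (move 462 (branch (move 430 (leaf 429 5)) (move 558 (leaf 461 5)))))) (branch (move 621 (branch (move 653 (branch (move 558 (leaf 525 6)) (move 652 (branch (move 620 (leaf 524 5)) (move 684 (leaf 556 5)))))) (branch (move 653 (branch (move 558 (leaf 525 6)) (move 654 (branch (move 622 (leaf 525 4)) (move 686 (leaf 557 4)))))) (move 620 (branch (move 652 (leaf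 524 5)) (move 622 (branch (move 654 (leaf 525 4)) (move 493 (branch (move 590 (leaf 493 4)) (move 588 (leaf 492 5))))))))))) (move 493 (branch (move 588 (branch (move 620 (leaf 492 5)) (move 556 (branch (move 461 (leaf 460 5)) (move 555 (branch (move 554 (leaf 522 2)) (move 590 (branch (move 591 (leaf 555 3)) (move 622 (leaf 493 4)))))))))) (branch (move 590 (branch (move 622 (leaf 493 4)) (move 558 (branch (move 461 (leaf 461 4)) (move 588 (branch (move 620 (leaf 492 5)) (move 559 (branch (move 560 (leaf 556 1)) (move 587 (leaf 555 2)))))))))) (branch (move 588 (branch (move 620 (leaf 492 5)) (move 461 (branch (move 556 (leaf 460 5)) (move 429 (branch (move 558 (leaf 429 4)) (move 430 (branch (move 398 (leaf 397 6)) (move 462 (leaf 429 6)))))))))) (branch (move 494 (branch (move 462 (leaf 461 6)) (move 590 (branch (move 622 (leaf 493 4)) (move 558 (branch (move 461 (leaf 461 4)) (move 591 (branch (move 623 (leaf 494 4)) (move 592 (branch (move 556 (leaf 556 3)) (move 593 (leaf 557 3)))))))))))) (move 494 (branch (move 462 (leaf 461 6)) (move 590 (branch (move 622 (leaf 493 4)) (move 588 (branch (move 620 (leaf 492 5)) (move 492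 (branch (move 460 (leaf 460 7)) (move 491 (branch (move 490 (leaf 490 0)) (move 523 (branch (move 522 (leaf 490 1)) (move 459 (branch (move 458 (leaf 458 3)) (move 555 (branch (move 556 (leaf 459 4)) (move 587 (branch (move 554 (leaf 554 3)) (move 558 (branch (move 586 (leaf 554 2)) (move 559 (leaf 555 2)))))))))))))))))))))))))))))))
theorem a6p220 : a6e220.Valid :=
  pos_of_chk [] forall_nil a6c220 a6e220 (by decide +kernel)

def a6e221 : Pos := ⟨1415235909637588294776852234189732072449752332085098055047956022243043306937961892335385012443504900579800459275446664784205050422003652661196936747290814374342045990912, 224253081289579128644667123526168032316310041014752406015957684663802952947414710558878091366884205219433399065530161785166206769167267478203231074261732431163482238134930228987120336900775936524288, 7⟩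
def a6c221 : Cert := (move 590 (branch (move 493 (branch (move 461 (leaf 461 4)) (move 622 (leaf 493 7)))) (branch (move 494 (branch (move 462 (branch (move 430 (leaf 429 5)) (move 463 (branch (move 431 (leaf 430 6)) (move 495 (leaf 462 6)))))) (branch (move 493 (branch (move 461 (leaf 461 4)) (move 495 (branch (move 463 (leaf 462 6)) (move 524 (branch (move 496 (leaf 492 1)) (move 523 (leaf 491 2)))))))) (move 461 (branch (move 493 (leaf 461 4)) (move 462 (branch (move 430 (leaf 429 5)) (move 429 (leaf 429 7))))))))) (move 622 (branch (move 654 (leaf 525 7)) (move 623 (branch (move 655 (leaf 526 4)) (move 494 (branch (move 591 (leaf 494 4)) (move 462 (branch (move 430 (leaf 429 5)) (move 463 (branch (move 431 (leaf 430 6)) (move 495 (leaf 462 6)))))))))))))))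
theorem a6p221 : a6e221.Valid :=
  pos_of_chk [] forall_nil a6c221 a6e221 (by decide +kernel)

def a6e222 : Pos := ⟨1415235909637588294776852234189732072449752332085098055047956022243043306937961892335385012443504900579800459275446664784205050422003652661196936747290814374342045990912, 28031635161197391080836656777953183859949687792883553999811164070737831997734460943379959473514548651617345535766606779267436483754722576616964328300124727734723287159433914733395455404441799229440, 8⟩
def a6c222 : Cert := (move 556 (branch (move 555 (branch (move 554 (leaf 522 2)) (move 587 (branch (move 586 (leaf 554 1)) (move 588 (branch (move 559 (leaf 555 1)) (move 523 (branch (move 522 (leaf 522 3)) (move 620 (branch (move 491 (leaf 491 4)) (move 652 (leaf 524 6)))))))))))) (branch (move 555 (branch (move 554 (leaf 522 2)) (move 523 (branch (move 522 (leaf 522 3)) (move 524 (branch (move 559 (leaf 523 0)) (move 587 (branch (move 586 (leaf 554 1)) (move 492 (branch (move 460 (leaf 459 5)) (move 619 (leaf 491 6)))))))))))) (branch (move 524 (branch (move 559 (branch (move 560 (leaf 524 3)) (move 588 (branch (move 587 (leaf 555 1)) (move 493 (branch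 (move 461 (leaf 460 5)) (move 620 (leaf 492 6)))))))) (branch (move 523 (branch (move 522 (leaf 522 0)) (move 491 (branch (move 490 (leaf 490 3)) (move 588 (branch (move 620 (leaf 491 7)) (move 493 (branch (move 461 (leaf 460 5)) (move 459 (branch (move 427 (leaf 427 4)) (move 492 (leaf 459 7)))))))))))) (move 523 (branch (move 522 (leaf 522 0)) (move 559 (leaf 523 0))))))) (branch (move 555 (branch (move 554 (leaf 522 2)) (move 587 (branch (move 586 (leaf 554 1)) (move 588 (branch (move 559 (leaf 555 1)) (move 493 (branch (move 461 (leaf 460 5)) (move 620 (branch (move 524 (leaf 492 6)) (move 652 (leaf 524 6)))))))))))) (branch (move 555 (branch (move 554 (leaf 522 2)) (move 523 (branch (move 522 (leaf 522 3)) (move 524 (branch (move 559 (leaf 523 0)) (move 491 (branch (move 490 (leaf 490 3)) (move 588 (branch (move 459 (leaf 459 4)) (move 620 (leaf 491 7)))))))))))) (move 524 (branch (move 555 (branch (move 554 (leaf 522 2)) (move 587 (branch (move 586 (leaf 554 1)) (move 492 (branch (move 460 (leaf 459 5)) (move 588 (branch (move 619 (leaf 491 5)) (move 493 (branch (move 461 (leaf 460 5)) (move 620 (leaf 492 6)))))))))))) (branch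 (move 523 (branch (move 522 (leaf 522 0)) (move 491 (branch (move 490 (leaf 490 3)) (move 588 (branch (move 620 (leaf 491 7)) (move 493 (branch (move 461 (leaf 460 5)) (move 459 (branch (move 427 (leaf 427 4)) (move 492 (leaf 459 7)))))))))))) (branch (move 523 (branch (move 522 (leaf 522 0)) (move 555 (branch (move 554 (leaf 522 1)) (move 587 (branch (move 586 (leaf 554 1)) (move 619 (branch (move 492 (leaf 491 6)) (move 651 (leaf 523 6)))))))))) (move 523 (branch (move 522 (leaf 522 0)) (move 555 (branch (move 554 (leaf 522 1)) (move 491 (branch (move 490 (leaf 490 3)) (move 588 (branch (move 459 (leaf 459 4)) (move 620 (leaf 491 7))))))))))))))))))))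
theorem a6p222 : a6e222.Valid :=
  pos_of_chk [] forall_nil a6c222 a6e222 (by decide +kernel)

def a6e223 : Pos := ⟨2026130649339417646455839608909413369710460861557649419556992503466918515254346322199156636807556355703874333016357578985722085920303310176576592605651287016005483040871840481280, 4351082438168021398255210506105989912699289906003709000925729988044373908938715744241417993884477537318409570616828133289243118412628685381864254996309289718372923133432078080902397165568, 9⟩
def a6c223 : Cert := (move 493 (branch (move 588 (branch (move 620 (leaf 492 5)) (move 556 (branch (move 461 (leaf 460 5)) (move 555 (branch (move 554 (leaf 522 2)) (move 492 (branch (move 460 (leaf 460 7)) (move 491 (branch (move 490 (leaf 490 0)) (move 459 (branch (move 523 (leaf 459 4)) (move 524 (leaf 459 7)))))))))))))) (branch (move 588 (branch (move 620 (leaf 492 5)) (move 461 (branch (move 556 (leaf 460 5)) (move 429 (branch (move 558 (leaf 429 4)) (move 430 (branch (move 398 (leaf 397 6)) (move 462 (leaf 429 6)))))))))) (move 494 (branch (move 462 (leaf 461 6)) (move 492 (branch (move 460 (leaf 460 7)) (move 491 (branch (move 490 (leaf 490 0))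 (move 523 (branch (move 522 (leaf 490 1)) (move 495 (branch (move 524 (leaf 491 1)) (move 496 (branch (move 497 (leaf 493 1)) (move 464 (branch (move 463 (leaf 460 2)) (move 465 (leaf 461 2)))))))))))))))))))
theorem a6p223 : a6e223.Valid :=
  pos_of_chk [] forall_nil a6c223 a6e223 (by decide +kernel)

def a6e224 : Pos := ⟨471745303432202956716463588942664849720522026980987947953904447181637266339924679313853331149090208694433365517755703559262404264522454503056578184432640363429697159168, 321053216787397769754889049942777112137369558450559464695213331710679776904610713624464230549410390376844153260455966470546431204360423663196556760760252990918106486105294770085375830553821698722078113398784, 11⟩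
def a6c224 : Cert := (move 589 (branch (ref 0) (branch (move 621 (branch (move 494 (leaf 493 6)) (move 620 (branch (move 652 (leaf 524 5)) (move 524 (branch (move 492 (leaf 492 7)) (move 653 (branch (move 556 (leaf 524 7)) (move 654 (branch (move 622 (leaf 525 4)) (move 686 (leaf 557 4)))))))))))) (branch (move 621 (branch (move 494 (leaf 493 6)) (move 622 (branch (move 654 (leaf 525 4)) (move 620 (branch (move 652 (leaf 524 5)) (move 493 (branch (move 590 (leaf 493 4)) (move 588 (leaf 492 5)))))))))) (branch (move 621 (branch (move 494 (leaf 493 6)) (move 622 (branch (move 654 (leaf 525 4)) (move 524 (branch (move 492 (leaf 492 7)) (move 556 (branch (move 653 (leaf 524 7)) (move 555 (branch (move 554 (leaf 522 2)) (move 590 (branch (move 493 (leaf 493 4)) (move 591 (branch (move 588 (leaf 555 3)) (move 592 (leaf 556 3)))))))))))))))) (branch (move 621 (branch (move 494 (leaf 493 6)) (move 620 (branch (move 652 (leaf 524 5)) (move 588 (branch (move 493 (leaf 492 5)) (move 524 (branch (move 492 (leaf 492 7)) (move 556 (branch (move 653 (leaf 524 4)) (move 555 (branch (move 554 (leaf 522 2)) (move 619 (branch (move 651 (leaf 523 5))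 (move 590 (branch (move 591 (leaf 587 1)) (move 618 (leaf 586 2)))))))))))))))))) (move 493 (branch (move 590 (branch (move 622 (leaf 493 4)) (move 461 (branch (move 558 (leaf 461 4)) (move 492 (branch (move 460 (leaf 460 7)) (move 491 (branch (move 490 (leaf 490 0)) (move 430 (branch (move 462 (leaf 429 6)) (move 429 (branch (move 398 (leaf 397 6)) (move 524 (branch (move 397 (leaf 396 5)) (move 556 (leaf 428 5)))))))))))))))) (branch (move 590 (branch (move 622 (leaf 493 4)) (move 558 (branch (move 461 (leaf 461 4)) (move 588 (branch (move 620 (leaf 492 5)) (move 559 (branch (move 560 (leaf 556 1)) (move 587 (leaf 555 2)))))))))) (branch (move 588 (branch (move 620 (leaf 492 5)) (move 461 (branch (move 556 (leaf 460 5)) (move 429 (branch (move 558 (leaf 429 4)) (move 430 (branch (move 398 (leaf 397 6)) (move 462 (leaf 429 6)))))))))) (move 494 (branch (move 462 (leaf 461 6)) (move 590 (branch (move 622 (leaf 493 4)) (move 588 (branch (move 620 (leaf 492 5)) (move 492 (branch (move 460 (leaf 460 7)) (move 491 (branch (move 490 (leaf 490 0)) (move 459 (branch (move 458 (leaf 458 3)) (move 556 (branch (move 524 (leaf 459 7)) (move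 555 (branch (move 554 (leaf 554 0)) (move 591 (leaf 555 3))))))))))))))))))))))))))))
theorem a6p224 : a6e224.Valid :=
  pos_of_chk [a6e214] (forall_cons a6p214 forall_nil) a6c224 a6e224 (by decide +kernel)

def a6e225 : Pos := ⟨2026130649339417646455839608909413369710460861557649419556992503466918515254346322199156636807556355703874333016357578985722085920303310176576592605651287016005483040871840481280, 52212989306643392338854698306570094774436380753764637893220401457847971863018057430507909359442048848717502137532615587728700153980175183921017253410543743544470458364587847873018598522880, 11⟩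
def a6c225 : Cert := (move 493 (branch (move 590 (branch (move 622 (leaf 493 4)) (move 461 (branch (move 558 (leaf 461 4)) (move 492 (branch (move 460 (leaf 460 7)) (move 491 (branch (move 490 (leaf 490 0)) (move 430 (branch (move 462 (leaf 429 6)) (move 429 (branch (move 398 (leaf 397 6)) (move 524 (branch (move 397 (leaf 396 5)) (move 556 (leaf 428 5)))))))))))))))) (branch (move 494 (branch (move 462 (leaf 461 6)) (move 492 (branch (move 460 (leaf 460 7)) (move 491 (branch (move 490 (leaf 490 0)) (move 523 (branch (move 522 (leaf 490 1)) (move 495 (branch (move 524 (leaf 491 1)) (move 496 (branch (move 497 (leaf 493 1)) (move 464 (branch (move 463 (leaf 460 2)) (move 465 (leaf 461 2)))))))))))))))) (branch (move 494 (branch (move 462 (leaf 461 6)) (move 590 (branch (move 622 (leaf 493 4)) (move 558 (branch (move 461 (leaf 461 4)) (move 591 (branch (move 623 (leaf 494 4)) (move 592 (branch (move 556 (leaf 556 3)) (move 593 (leaf 557 3)))))))))))) (move 523 (branch (move 590 (branch (move 622 (leaf 493 4)) (move 558 (branch (move 461 (leaf 461 4)) (move 492 (branch (move 460 (leaf 460 7)) (move 491 (branch (move 490 (leaf 490 0))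 (move 494 (branch (move 522 (leaf 490 1)) (move 591 (branch (move 623 (leaf 494 4)) (move 592 (branch (move 556 (leaf 556 3)) (move 593 (leaf 557 3)))))))))))))))) (branch (move 492 (branch (move 460 (leaf 460 7)) (move 491 (branch (move 490 (leaf 490 0)) (move 494 (branch (move 522 (leaf 490 1)) (move 495 (branch (move 524 (leaf 491 1)) (move 496 (branch (move 497 (leaf 493 1)) (move 464 (branch (move 463 (leaf 460 2)) (move 465 (leaf 461 2)))))))))))))) (branch (move 590 (branch (move 622 (leaf 493 4)) (move 558 (branch (move 461 (leaf 461 4)) (move 524 (branch (move 522 (leaf 522 0)) (move 559 (leaf 523 0)))))))) (move 590 (branch (move 622 (leaf 493 4)) (move 558 (branch (move 461 (leaf 461 4)) (move 524 (branch (move 559 (leaf 523 0)) (move 555 (branch (move 554 (leaf 522 1)) (move 492 (branch (move 460 (leaf 460 7)) (move 494 (branch (move 495 (leaf 491 1)) (move 491 (branch (move 490 (leaf 490 0)) (move 591 (branch (move 556 (leaf 555 0)) (move 623 (leaf 494 4))))))))))))))))))))))))))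
theorem a6p225 : a6e225.Valid :=
  pos_of_chk [] forall_nil a6c225 a6e225 (by decide +kernel)

def a6e226 : Pos := ⟨1415235909637588294776852234189732072449752332085098055047956022243043306937961892335385012443504900579800459275446664784205050422003652661196936747290814374342045990912, 149502054197403834917333038327448789961431667300557482118108681186221508603584821349536802714415947173820001630393804989842303420731765830782911773902936468229909735187846943201316757793464454742016, 7⟩
def a6c226 : Cert := (move 559 (branch (move 560 (branch (move 561 (leaf 525 3)) (move 592 (branch (move 593 (leaf 557 0)) (move 591 (branch (move 556 (leaf 556 0)) (move 528 (branch (move 529 (leaf 525 2)) (move 623 (branch (move 496 (leaf 495 5)) (move 655 (leaf 527 6)))))))))))) (branch (move 524 (branch (move 523 (leaf 523 0)) (move 560 (leaf 524 3)))) (move 556 (branch (move 555 (branch (move 554 (leaf 522 2)) (move 587 (branch (move 586 (leaf 554 1)) (move 588 (leaf 555 1)))))) (branch (move 524 (branch (move 523 (leaf 523 0)) (move 588 (branch (move 587 (leaf 555 1)) (move 493 (branch (move 461 (leaf 460 5)) (move 620 (leaf 492 6)))))))) (move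 523 (branch (move 524 (leaf 523 0)) (move 555 (branch (move 554 (leaf 522 2)) (move 522 (leaf 522 3))))))))))))
theorem a6p226 : a6e226.Valid :=
  pos_of_chk [] forall_nil a6c226 a6e226 (by decide +kernel)

def a6e227 : Pos := ⟨3302217122048358970897629524683866517908212942293318269236059172365855388134036318378448375032334284350534646790828587234090342736966048977477653873007162396166743654400, 112126540644789564323346627099075612255641620438585428277527310800044975892688962067688303975029948540680037901920393080057482592659877291557046980220848888560022882856928677294732491530909037625344, 6⟩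
def a6c227 : Cert := (move 493 (branch (move 560 (branch (move 561 (leaf 525 3)) (move 589 (branch (move 588 (leaf 556 1)) (move 622 (branch (move 590 (leaf 493 4)) (move 621 (branch (move 654 (leaf 525 4)) (move 653 (leaf 525 6)))))))))) (branch (move 461 (branch (move 429 (leaf 429 4)) (move 590 (leaf 461 4)))) (move 461 (branch (move 429 (leaf 429 4)) (move 560 (branch (move 561 (leaf 525 3)) (move 588 (branch (move 589 (leaf 556 1)) (move 556 (leaf 460 5)))))))))))
theorem a6p227 : a6e227.Valid :=
  pos_of_chk [] forall_nil a6c227 a6e227 (by decide +kernel)

def a6e228 : Pos := ⟨1415235909637588294776852234189732072449752332085098055047956022243043306937961892335385012443504900579800459275446664784205050422003652661196936747290814374342045990912, 112126540649140646761261382166929981673523694772490739963222785980241075842499682691856029919254781857420812202232240838978105949066818930906216477350524786425108897035453626246884140830204132065280, 7⟩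
def a6c228 : Cert := (move 559 (branch (move 524 (branch (move 523 (leaf 523 0)) (move 560 (leaf 524 3)))) (branch (move 556 (branch (move 555 (branch (move 554 (leaf 522 2)) (move 587 (branch (move 586 (leaf 554 1)) (move 588 (leaf 555 1)))))) (branch (move 524 (branch (move 523 (leaf 523 0)) (move 588 (branch (move 587 (leaf 555 1)) (move 493 (branch (move 461 (leaf 460 5)) (move 620 (leaf 492 6)))))))) (move 523 (branch (move 524 (leaf 523 0)) (move 555 (branch (move 554 (leaf 522 2)) (move 522 (leaf 522 3))))))))) (ref 0))))
theorem a6p228 : a6e228.Valid :=
  pos_of_chk [a6e227] (forall_cons a6p227 forall_nil) a6c228 a6e228 (by decide +kernel)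

end Crest.Agent.SN
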