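import Crest.Agent.Lib_SN_A6x9

set_option autoImplicit false
set_option linter.all false
set_option maxRecDepth 1000000

namespace Crest.Agent.SN
open Cert

def a6e1138 : Pos := ⟨943490606617273197668225228145981270674113898140276225102649899625073848149169804025391044421768270325054367056328739908431497639708517438123357191612615708379252260864, 689456534151895453186265065887994123087130818805988928777748880990961292349144604128468340851676814356123406133898324873436418060675201455418140092765729911342503386015131655505526533080250253833103243110978376695808, 14⟩
def a6c1138 : Cert := (move 622 (branch (move 590 (branch (move 493 (leaf 493 7)) (move 653 (branch (move 621 (leaf 525 5)) (move 654 (branch (move 685 (leaf 557 5)) (move 655 (branch (move 687 (leaf 558 4)) (move 623 (leaf 526 4)))))))))) (branch (move 590 (branch (move 653 (branch (move 621 (leaf 525 5)) (move 654 (branch (move 685 (leaf 557 5)) (move 655 (branch (move 687 (leaf 558 4)) (move 623 (leaf 526 4)))))))) (branch (move 619 (branch (move 555 (branch (move 554 (leaf 522 1)) (move 587 (branch (move 492 (leaf 491 6)) (move 651 (branch (move 556 (leaf 523 6))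 (move 652 (branch (move 684 (leaf 555 4)) (move 620 (leaf 523 4)))))))))) (branch (move 555 (branch (move 554 (leaf 522 1)) (move 587 (branch (move 492 (leaf 491 6)) (move 651 (branch (move 556 (leaf 523 6)) (move 650 (branch (move 682 (leaf 554 5)) (move 618 (leaf 522 5)))))))))) (branch (move 621 (branch (move 653 (leaf 525 5)) (move 620 (branch (move 591 (leaf 587 2)) (move 618 (branch (move 589 (leaf 586 2)) (move 586 (branch (move 585 (leaf 585 3)) (move 587 (leaf 586 3)))))))))) (move 621 (branch (move 653 (leaf 525 5)) (move 620 (branch (move 591 (leaf 587 2)) (move 618 (branch (move 589 (leaf 586 2)) (move 650 (branch (move 649 (leaf 617 1)) (move 651 (leaf 618 1)))))))))))))) (branch (move 555 (branch (move 554 (leaf 522 1)) (move 587 (branch (move 623 (branch (move 655 (leaf 526 4)) (move 588 (branch (move 589 (leaf 587 0)) (move 620 (branch (move 621 (leaf 587 3)) (move 652 (branch (move 684 (leaf 555 7)) (move 556 (leaf 523 7)))))))))) (branch (move 619 (branch (move 492 (leaf 491 6)) (move 620 (branch (move 652 (leaf 523 4)) (move 621 (branch (move 591 (leaf 587 2)) (move 586 (leaf 586 3)))))))) (move 619 (branch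 (move 492 (leaf 491 6)) (move 651 (branch (move 556 (leaf 523 6)) (move 650 (branch (move 682 (leaf 554 5)) (move 618 (leaf 522 5))))))))))))) (ref 0))))) (branch (move 493 (branch (move 590 (leaf 493 7)) (move 461 (branch (move 429 (leaf 429 4)) (move 554 (branch (move 555 (leaf 522 1)) (move 522 (branch (move 553 (leaf 521 1)) (move 521 (branch (move 492 (leaf 489 2)) (move 489 (branch (move 488 (leaf 488 3)) (move 490 (leaf 489 3)))))))))))))) (ref 1)))))
theorem a6p1138 : a6e1138.Valid :=
  pos_of_chk [a6e1134, a6e1137] (forall_cons a6p1134 (forall_cons a6p1137 forall_nil)) a6c1138 a6e1138 (by decide +kernel)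

def a6e1139 : Pos := ⟨356969478326791705179058841552232447298010635607451881288512099877648245536678114710373101314395636858819408192357004617930343375985265478253849471137982971904, 2961193262834797470008301031192006984396083808494903877664991491614420840080943404171951191803203590828261215864109048396129554085920776486256717998008759645843690690360619680104582500787385518795656708098431427636654180925440, 16⟩
def a6c1139 : Cert := (move 558 (branch (move 494 (branch (move 524 (branch (move 495 (leaf 491 2)) (move 522 (branch (move 493 (leaf 490 2)) (move 554 (branch (move 553 (leaf 521 1)) (move 555 (leaf 522 1)))))))) (branch (move 495 (branch (move 524 (leaf 491 2)) (move 463 (branch (move 590 (leaf 462 6)) (move 431 (branch (move 462 (leaf 430 6)) (move 399 (leaf 398 5)))))))) (move 462 (branch (move 431 (branch (move 463 (leaf 430 6)) (move 430 (branch (move 399 (leaf 398 6)) (move 398 (branch (move 493 (leaf 397 5)) (move 397 (branch (move 429 (leaf 397 7)) (move 365 (leaf 365 7)))))))))) (branch (move 431 (branch (move 463 (leaf 430 6)) (move 430 (branch (move 399 (leaf 398 6)) (move 429 (branch (move 461 (leaf 429 7))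 (move 397 (leaf 397 7)))))))) (branch (move 431 (branch (move 463 (leaf 430 6)) (move 430 (branch (move 399 (leaf 398 6)) (move 493 (branch (move 398 (leaf 397 5)) (move 590 (branch (move 622 (leaf 493 7)) (move 461 (leaf 461 7)))))))))) (move 461 (branch (move 429 (leaf 429 7)) (move 590 (branch (move 493 (leaf 461 7)) (move 623 (branch (move 591 (leaf 494 4)) (move 622 (branch (move 655 (leaf 526 4)) (move 621 (branch (move 653 (leaf 525 5)) (move 589 (leaf 493 5))))))))))))))))))) (branch (move 590 (branch (move 494 (branch (move 591 (branch (move 623 (leaf 494 4)) (move 462 (branch (move 559 (leaf 462 4)) (move 463 (branch (move 495 (leaf 462 6)) (move 431 (leaf 430 6)))))))) (branch (move 461 (branch (move 493 (leaf 461 7)) (move 462 (branch (move 429 (leaf 429 7)) (move 463 (branch (move 495 (leaf 462 6)) (move 431 (leaf 430 6)))))))) (branch (move 461 (branch (move 493 (leaf 461 7)) (move 462 (branch (move 429 (leaf 429 7)) (move 591 (branch (move 623 (leaf 494 4)) (move 559 (leaf 462 4)))))))) (move 493 (branch (move 461 (leaf 461 7)) (move 495 (branch (move 463 (leaf 462 6)) (move 496 (branch (move 497 (leaf 493 1)) (move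 591 (branch (move 623 (leaf 494 4)) (move 589 (branch (move 621 (leaf 493 5)) (move 464 (branch (move 465 (leaf 461 2)) (move 528 (branch (move 529 (leaf 493 0)) (move 560 (branch (move 559 (leaf 463 5)) (move 561 (branch (move 592 (leaf 557 2)) (move 593 (leaf 464 4)))))))))))))))))))))))) (branch (move 622 (branch (move 493 (leaf 493 7)) (move 655 (branch (move 623 (leaf 526 4)) (move 654 (branch (move 687 (leaf 558 4)) (move 653 (branch (move 685 (leaf 557 5)) (move 621 (leaf 525 5)))))))))) (branch (move 493 (branch (move 622 (leaf 493 7)) (move 461 (branch (move 494 (leaf 461 7)) (move 429 (leaf 429 4)))))) (ref 0))))) (branch (move 590 (branch (ref 0) (branch (move 494 (branch (move 623 (branch (move 591 (leaf 494 4)) (move 622 (branch (move 655 (leaf 526 4)) (move 621 (branch (move 653 (leaf 525 5)) (move 589 (leaf 493 5)))))))) (move 495 (branch (move 524 (leaf 491 2)) (move 463 (leaf 462 6)))))) (branch (move 494 (branch (move 591 (branch (move 623 (leaf 494 4)) (move 462 (branch (move 559 (leaf 462 4)) (move 463 (branch (move 495 (leaf 462 6)) (move 431 (leaf 430 6)))))))) (branch (move 495 (branch (move 524 (leaf 491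 2)) (move 463 (leaf 462 6)))) (move 559 (branch (move 524 (leaf 523 0)) (move 591 (branch (move 623 (leaf 494 4)) (move 462 (leaf 462 4))))))))) (branch (move 559 (branch (move 524 (leaf 523 0)) (move 589 (branch (move 621 (branch (move 494 (leaf 493 5)) (move 653 (branch (move 685 (leaf 557 6)) (move 622 (leaf 525 5)))))) (move 560 (branch (move 561 (leaf 557 1)) (move 588 (branch (move 587 (leaf 555 2)) (move 591 (leaf 556 2)))))))))) (branch (move 524 (branch (move 559 (leaf 523 0)) (move 494 (branch (move 495 (leaf 491 2)) (move 554 (branch (move 555 (leaf 522 1)) (move 522 (branch (move 553 (leaf 521 1)) (move 490 (branch (move 489 (leaf 489 3)) (move 621 (branch (move 589 (leaf 493 5)) (move 622 (branch (move 653 (leaf 525 5)) (move 655 (branch (move 623 (leaf 526 4)) (move 654 (branch (move 687 (leaf 558 4)) (move 619 (branch (move 620 (leaf 619 0)) (move 586 (branch (move 587 (leaf 490 4)) (move 618 (branch (move 651 (leaf 522 4)) (move 617 (branch (move 649 (leaf 521 5)) (move 585 (leaf 489 5)))))))))))))))))))))))))))) (ref 1))))))) (branch (move 524 (branch (move 559 (leaf 523 0)) (move 554 (branch (move 555 (leaf 522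 1)) (move 522 (branch (move 553 (leaf 521 1)) (move 493 (branch (move 494 (leaf 490 2)) (move 461 (branch (move 429 (leaf 429 4)) (move 489 (branch (move 490 (leaf 489 3)) (move 521 (branch (move 492 (leaf 489 2)) (move 488 (leaf 488 3)))))))))))))))) (move 524 (branch (move 559 (leaf 523 0)) (ref 2))))))))
theorem a6p1139 : a6e1139.Valid :=
  pos_of_chk [a6e1132, a6e1133, a6e1138] (forall_cons a6p1132 (forall_cons a6p1133 (forall_cons a6p1138 forall_nil))) a6c1139 a6e1139 (by decide +kernel)

def a6e1140 : Pos := ⟨27459190646915779892463320993552486907539160953300983920111972260389353574359877457515067814708444065955256074363036769353570359938377161849357385607145324544, 5438853048216559408753373675471546495248742505938451974361128821180642191819828391868305777896068684552686296980521662324788205301661232693972211679002649077369060898827242885004503547904, 5⟩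
def a6c1140 : Cert := (move 555 (branch (move 554 (branch (move 586 (leaf 458 5)) (move 427 (branch (move 522 (leaf 426 5)) (move 426 (branch (move 458 (leaf 426 7)) (move 394 (leaf 394 7)))))))) (branch (move 586 (branch (move 554 (leaf 458 5)) (move 587 (branch (move 618 (leaf 490 5)) (move 588 (branch (move 620 (leaf 491 4)) (move 556 (leaf 459 4)))))))) (move 458 (branch (move 426 (leaf 426 7)) (move 587 (branch (move 490 (leaf 458 7)) (move 588 (branch (move 620 (leaf 491 4)) (move 556 (leaf 459 4)))))))))))
theorem a6p1140 : a6e1140.Valid :=
  pos_of_chk [] forall_nil a6c1140 a6e1140 (by decide +kernel)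

def a6e1141 : Pos := ⟨27459190646915779892463320993552486907539160953300983920111972260389353574359877457515067814708444065955256074363036769353570359938377161849357385607145324544, 4351082438674554059469669822672569986017368250544682026745433617071283813329741965867243039540130359827975097192088880049790354893669751312919797273165644601863927744809185691573914959872, 5⟩
def a6c1141 : Cert := (move 555 (branch (move 426 (branch (move 458 (leaf 426 7)) (move 427 (branch (move 394 (leaf 394 7)) (move 428 (branch (move 460 (leaf 427 6)) (move 396 (leaf 395 6)))))))) (branch (move 458 (branch (move 426 (leaf 426 7)) (move 587 (branch (move 490 (leaf 458 7)) (move 588 (branch (move 620 (leaf 491 4)) (move 556 (leaf 459 4)))))))) (move 460 (branch (move 428 (leaf 427 6)) (move 587 (branch (move 492 (leaf 459 6)) (move 588 (branch (move 620 (leaf 491 4)) (move 556 (leaf 459 4)))))))))))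
theorem a6p1141 : a6e1141.Valid :=
  pos_of_chk [] forall_nil a6c1141 a6e1141 (by decide +kernel)

def a6e1142 : Pos := ⟨27459190646915779892463320993552486907539160953300983920111972260389353574359877457515067814708444065955256074363036769353570359938377161849357385607145324544, 5438853048216559408753373675471546495258332517487255551057489067806103017198126311791773904937121428947082347420942240976411322723281736598769916316953063486106594091629655924572686385152, 5⟩
def a6c1142 : Cert := (move 555 (branch (move 554 (branch (move 586 (leaf 458 5)) (move 427 (branch (move 522 (leaf 426 5)) (move 428 (branch (move 460 (leaf 427 6)) (move 396 (leaf 395 6)))))))) (branch (move 586 (branch (move 554 (leaf 458 5)) (move 587 (branch (move 618 (leaf 490 5)) (move 588 (branch (move 620 (leaf 491 4)) (move 556 (leaf 459 4)))))))) (move 460 (branch (move 428 (leaf 427 6)) (move 587 (branch (move 492 (leaf 459 6)) (move 588 (branch (move 620 (leaf 491 4)) (move 556 (leaf 459 4)))))))))))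
theorem a6p1142 : a6e1142.Valid :=
  pos_of_chk [] forall_nil a6c1142 a6e1142 (by decide +kernel)

def a6e1143 : Pos := ⟨137295953234578899462316604967762434537695804766504919600559861301946767871799387287575339073542220329776280371815183846767851799691885809246786928035726622720, 363621271156436715047159122767552851554107915140676562209864467456519226011560700381325892390646720951123556912048262066186768767793231626299559116800, 5⟩
def a6c1143 : Cert := (move 460 (branch (move 458 (branch (move 494 (leaf 458 0)) (move 490 (branch (move 489 (leaf 457 1)) (move 426 (branch (move 425 (leaf 425 3)) (move 394 (leaf 394 4)))))))) (branch (move 462 (branch (move 490 (leaf 458 1)) (move 494 (branch (move 495 (leaf 459 0)) (move 430 (branch (move 431 (leaf 427 2)) (move 398 (leaf 397 5)))))))) (branch (move 490 (branch (move 462 (leaf 458 1)) (move 489 (branch (move 488 (leaf 456 2)) (move 458 (leaf 457 1)))))) (move 494 (branch (move 458 (leaf 458 0)) (move 495 (branch (move 496 (leaf 460 3)) (move 462 (leaf 459 0))))))))))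
theorem a6p1143 : a6e1143.Valid :=
  pos_of_chk [] forall_nil a6c1143 a6e1143 (by decide +kernel)

def a6e1144 : Pos := ⟨356969478358758410335783167708937405842937673736872159555757661969133640190698413243809450526483810301161605248895420174881988838684285881617640376809797189632, 17404329752672085588539261644577680218473470487738141182698263342750589157084000368219804675783401297958883456942582035312581778531137470183566828674950049066853748740121309989901975945216, 7⟩
def a6c1144 : Cert := (move 461 (branch (move 558 (branch (move 429 (leaf 429 4)) (move 590 (branch (move 622 (leaf 493 7)) (move 494 (leaf 461 7)))))) (branch (move 429 (branch (move 558 (leaf 429 4)) (move 396 (branch (move 428 (leaf 396 7)) (move 397 (branch (move 364 (leaf 364 7)) (move 398 (branch (move 430 (leaf 397 6)) (move 366 (leaf 365 6)))))))))) (move 494 (branch (move 460 (branch (move 458 (leaf 458 0)) (move 495 (branch (move 496 (leaf 460 3)) (move 462 (leaf 459 0)))))) (branch (move 492 (branch (move 458 (leaf 458 3)) (move 522 (leaf 490 1)))) (move 492 (branch (move 522 (leaf 490 1)) (move 462 (branch (move 463 (leaf 459 2)) (move 460 (branch (move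 495 (leaf 459 0)) (move 430 (branch (move 431 (leaf 427 2)) (move 398 (leaf 397 5))))))))))))))))
theorem a6p1144 : a6e1144.Valid :=
  pos_of_chk [] forall_nil a6c1144 a6e1144 (by decide +kernel)

def a6e1145 : Pos := ⟨356969478333185046211594559349459361336472055360179643571046218301295426377447367959397930566458262704865479021154117955135425783924776064852910743580668067840, 17404329752672085588539261644577680218504638025312130151772074040455748788601773221516048775801842910478743794533396140727733160767281355744457760532094656699921794145999265454653907664896, 8⟩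
def a6c1145 : Cert := (move 493 (branch (move 461 (branch (move 558 (branch (move 429 (leaf 429 4)) (move 590 (branch (move 622 (leaf 493 7)) (move 494 (leaf 461 7)))))) (branch (move 429 (branch (move 558 (leaf 429 4)) (move 396 (branch (move 428 (leaf 396 7)) (move 397 (branch (move 364 (leaf 364 7)) (move 398 (branch (move 430 (leaf 397 6)) (move 366 (leaf 365 6)))))))))) (ref 0)))) (branch (move 461 (branch (move 429 (branch (move 558 (leaf 429 4)) (move 396 (branch (move 428 (leaf 396 7)) (move 397 (branch (move 364 (leaf 364 7)) (move 398 (branch (move 430 (leaf 397 6)) (move 366 (leaf 365 6)))))))))) (move 490 (branch (move 492 (leaf 490 0)) (move 460 (branch (move 462 (leaf 458 1)) (move 489 (branch (move 488 (leaf 456 2)) (move 458 (leaf 457 1)))))))))) (branch (move 492 (branch (move 490 (leaf 490 0)) (move 494 (branch (move 522 (leaf 490 1)) (move 495 (branch (move 460 (leaf 459 3)) (move 463 (branch (move 462 (leaf 459 2)) (move 464 (leaf 460 2)))))))))) (branch (move 492 (branch (move 490 (leaf 490 0)) (move 494 (branch (move 458 (leaf 458 3)) (move 522 (leaf 490 1)))))) (ref 1))))))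
theorem a6p1145 : a6e1145.Valid :=
  pos_of_chk [a6e1143, a6e1144] (forall_cons a6p1143 (forall_cons a6p1144 forall_nil)) a6c1145 a6e1145 (by decide +kernel)

def a6e1146 : Pos := ⟨27459190646915779892463320993552486907539160953300983920111972260389353574359877457515067814708444065955256074363036769353570359938377161849357385607145324544, 5438853048453996594219151170709357421718323292329336594834212908836155280553104562941590069666170410382384315914734022505685149676327935813371704981397608615864019729513412145907429801984, 13⟩
def a6c1146 : Cert := (move 555 (branch (move 586 (branch (move 554 (leaf 458 5)) (move 587 (branch (move 618 (leaf 490 5)) (move 588 (branch (move 620 (leaf 491 4)) (move 556 (leaf 459 4)))))))) (branch (move 458 (branch (move 426 (leaf 426 7)) (move 587 (branch (move 490 (leaf 458 7)) (move 588 (branch (move 620 (leaf 491 4)) (move 556 (leaf 459 4)))))))) (branch (move 458 (branch (move 426 (leaf 426 7)) (move 587 (branch (move 490 (leaf 458 7)) (move 586 (branch (move 618 (leaf 490 5)) (move 554 (leaf 458 5)))))))) (move 556 (branch (move 588 (leaf 459 4)) (move 554 (branch (move 586 (leaf 458 5)) (move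 553 (branch (move 520 (branch (move 521 (leaf 520 3)) (move 552 (branch (move 519 (leaf 519 3)) (move 584 (branch (move 583 (leaf 551 1)) (move 585 (leaf 552 1)))))))) (branch (move 458 (branch (move 426 (leaf 426 7)) (move 584 (branch (move 585 (leaf 552 1)) (move 552 (branch (move 583 (leaf 551 1)) (move 551 (branch (move 522 (leaf 519 2)) (move 519 (branch (move 518 (leaf 518 3)) (move 520 (leaf 519 3)))))))))))) (branch (move 458 (branch (move 426 (leaf 426 7)) (move 585 (branch (move 584 (leaf 552 1)) (move 490 (branch (move 522 (leaf 457 5)) (move 489 (branch (move 521 (leaf 457 6)) (move 488 (branch (move 487 (leaf 455 2)) (move 460 (leaf 456 2)))))))))))) (move 520 (branch (move 521 (leaf 520 3)) (move 552 (branch (move 519 (leaf 519 3)) (move 551 (branch (move 522 (leaf 519 2)) (move 583 (branch (move 582 (leaf 550 1)) (move 488 (branch (move 456 (leaf 455 5)) (move 460 (branch (move 428 (leaf 427 6)) (move 458 (branch (move 426 (leaf 426 7)) (move 489 (branch (move 490 (leaf 456 2)) (move 457 (leaf 456 1))))))))))))))))))))))))))))))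
theorem a6p1146 : a6e1146.Valid :=
  pos_of_chk [] forall_nil a6c1146 a6e1146 (by decide +kernel)

def a6e1147 : Pos := ⟨27459190640522438861416168903682975780922756359127854923934111343429800121047116136412187824702057166881224517427711214416929596248499707658174977299863044096, 4671939200059522170920034354688802781438934910689255412483539195713426351862275851988611674428362635489525289363742719013212102676864157383985668310205690833496801336744094374919555885030656966656, 14⟩
def a6c1147 : Cert := (move 491 (branch (ref 0) (branch (move 555 (branch (move 426 (branch (move 458 (leaf 426 7)) (move 427 (branch (move 394 (leaf 394 7)) (move 428 (branch (move 460 (leaf 427 6)) (move 396 (leaf 395 6)))))))) (move 586 (branch (move 554 (leaf 458 5)) (move 587 (branch (move 618 (leaf 490 5)) (move 588 (branch (move 620 (leaf 491 4)) (move 556 (leaf 459 4)))))))))) (branch (move 555 (branch (move 554 (branch (move 586 (leaf 458 5)) (move 427 (branch (move 522 (leaf 426 5)) (move 428 (branch (move 460 (leaf 427 6)) (move 396 (leaf 395 6)))))))) (branch (move 586 (branch (move 554 (leaf 458 5)) (move 587 (branch (move 618 (leaf 490 5))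 (move 588 (branch (move 620 (leaf 491 4)) (move 556 (leaf 459 4)))))))) (branch (move 588 (branch (move 556 (leaf 459 4)) (move 587 (branch (move 620 (leaf 491 4)) (move 490 (branch (move 458 (leaf 458 7)) (move 522 (branch (move 619 (leaf 490 7)) (move 427 (branch (move 554 (leaf 426 5)) (move 395 (leaf 394 5)))))))))))) (move 588 (branch (move 556 (leaf 459 4)) (move 587 (branch (move 620 (leaf 491 4)) (move 490 (branch (move 458 (leaf 458 7)) (move 619 (branch (move 522 (leaf 490 7)) (move 618 (branch (move 650 (leaf 522 5)) (move 586 (leaf 490 5)))))))))))))))) (branch (move 427 (branch (move 396 (branch (move 428 (leaf 395 6)) (move 395 (branch (move 364 (leaf 363 6)) (move 394 (branch (move 426 (leaf 394 7)) (move 362 (leaf 362 7)))))))) (branch (move 522 (branch (move 554 (leaf 426 5)) (move 395 (branch (move 490 (leaf 394 5)) (move 394 (branch (move 426 (leaf 394 7)) (move 362 (leaf 362 7)))))))) (move 428 (branch (move 396 (leaf 395 6)) (move 555 (branch (move 460 (leaf 427 6)) (move 588 (branch (move 556 (leaf 459 4)) (move 587 (branch (move 620 (leaf 491 4)) (move 586 (branch (move 618 (leaf 490 5)) (move 554 (leaf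 458 5))))))))))))))) (branch (move 427 (branch (move 396 (branch (move 428 (leaf 395 6)) (move 395 (branch (move 364 (leaf 363 6)) (move 394 (branch (move 426 (leaf 394 7)) (move 362 (leaf 362 7)))))))) (branch (move 522 (branch (move 554 (leaf 426 5)) (move 395 (branch (move 490 (leaf 394 5)) (move 396 (branch (move 428 (leaf 395 6)) (move 364 (leaf 363 6)))))))) (branch (move 522 (branch (move 554 (leaf 426 5)) (move 395 (branch (move 490 (leaf 394 5)) (move 394 (branch (move 426 (leaf 394 7)) (move 362 (leaf 362 7)))))))) (move 426 (branch (move 394 (leaf 394 7)) (move 425 (branch (move 424 (branch (move 460 (leaf 424 0)) (move 423 (branch (move 458 (leaf 423 0)) (move 455 (branch (move 454 (leaf 422 1)) (move 456 (leaf 423 1)))))))) (branch (move 428 (branch (move 396 (leaf 395 6)) (move 457 (branch (move 456 (leaf 424 1)) (move 393 (branch (move 392 (leaf 392 3)) (move 522 (branch (move 554 (leaf 426 5)) (move 490 (branch (move 458 (leaf 393 7)) (move 489 (leaf 393 4)))))))))))) (move 428 (branch (move 396 (leaf 395 6)) (move 424 (branch (move 460 (leaf 424 0)) (move 392 (branch (move 391 (leaf 391 3)) (move 393 (leaf 392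 3))))))))))))))))) (branch (ref 1) (move 427 (branch (move 396 (branch (move 428 (leaf 395 6)) (move 395 (branch (move 364 (leaf 363 6)) (move 394 (branch (move 426 (leaf 394 7)) (move 362 (leaf 362 7)))))))) (branch (move 428 (branch (move 396 (leaf 395 6)) (move 555 (branch (move 460 (leaf 427 6)) (move 458 (branch (move 426 (leaf 426 7)) (move 587 (branch (move 490 (leaf 458 7)) (move 588 (branch (move 620 (leaf 491 4)) (move 556 (leaf 459 4)))))))))))) (branch (move 396 (branch (move 428 (leaf 395 6)) (move 395 (branch (move 364 (leaf 363 6)) (move 362 (branch (move 394 (leaf 362 7)) (move 363 (branch (move 330 (leaf 330 7)) (move 490 (branch (move 522 (leaf 394 5)) (move 458 (leaf 362 5)))))))))))) (move 395 (branch (move 394 (branch (move 426 (leaf 394 7)) (move 362 (leaf 362 7)))) (branch (move 490 (branch (move 522 (leaf 394 5)) (move 458 (branch (move 363 (leaf 362 5)) (move 555 (branch (move 587 (leaf 458 7)) (move 426 (leaf 426 7)))))))) (move 490 (branch (move 522 (leaf 394 5)) (move 363 (branch (move 458 (leaf 362 5)) (move 362 (branch (move 394 (leaf 362 7)) (move 330 (leaf 330 7))))))))))))))))))))))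
theorem a6p1147 : a6e1147.Valid :=
  pos_of_chk [a6e1140, a6e1146] (forall_cons a6p1140 (forall_cons a6p1146 forall_nil)) a6c1147 a6e1147 (by decide +kernel)

def a6e1148 : Pos := ⟨356969478333185046211594559349805945048237157217626945344064103764224981011869345031294240514035090368341182224034114755898443231186949966223086190059289837568, 943490606205385338137108737662615382612721557454028234239793445060606915646183396824535684210656462094742566375866400890390429604608027874589241127227298158855688552448, 9⟩
def a6c1148 : Cert := (move 428 (branch (move 396 (leaf 395 6)) (move 429 (branch (move 426 (branch (move 394 (leaf 394 7)) (move 462 (branch (move 461 (leaf 426 0)) (move 430 (branch (move 463 (leaf 427 0)) (move 397 (branch (move 398 (leaf 394 2)) (move 494 (leaf 397 7)))))))))) (branch (move 426 (branch (move 394 (leaf 394 7)) (move 457 (branch (move 458 (leaf 425 1)) (move 425 (branch (move 456 (leaf 424 1)) (move 461 (branch (move 462 (leaf 426 0)) (move 493 (branch (move 558 (leaf 429 4)) (move 397 (branch (move 398 (leaf 394 2)) (move 494 (leaf 397 4)))))))))))))) (branch (move 430 (branch (move 458 (leaf 426 1)) (move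 462 (branch (move 463 (leaf 427 0)) (move 494 (branch (move 397 (leaf 397 7)) (move 398 (branch (move 399 (leaf 395 2)) (move 493 (leaf 397 5)))))))))) (move 426 (branch (move 394 (leaf 394 7)) (move 458 (branch (move 457 (leaf 425 1)) (move 430 (leaf 426 1))))))))))))
theorem a6p1148 : a6e1148.Valid :=
  pos_of_chk [] forall_nil a6c1148 a6e1148 (by decide +kernel)

def a6e1149 : Pos := ⟨117936326132642645590733626867477962190613149474485818746936090453721973376050078005138828121199767052129149424576849174271948724820575553692320885210182494944711671808, 52212989258016256765617784933705581464067031499301191695865829341754809864897862944726050071720482408099869720027758532400790416430225001893085045385876954887564262547047667015086568898560, 10⟩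
def a6c1149 : Cert := (move 493 (branch (move 492 (branch (move 490 (leaf 490 0)) (move 494 (branch (move 522 (leaf 490 1)) (move 462 (branch (move 463 (leaf 459 2)) (move 430 (branch (move 398 (leaf 397 5)) (move 429 (branch (move 397 (leaf 397 7)) (move 558 (branch (move 461 (leaf 429 4)) (move 590 (branch (move 622 (leaf 493 7)) (move 591 (branch (move 623 (leaf 494 4)) (move 559 (leaf 462 4)))))))))))))))))) (branch (move 461 (branch (move 558 (branch (move 429 (leaf 429 4)) (move 590 (branch (move 622 (leaf 493 7)) (move 494 (leaf 461 7)))))) (branch (move 460 (branch (move 428 (leaf 427 6)) (move 462 (branch (move 490 (leaf 458 1)) (move 494 (branch (move 495 (leaf 459 0)) (move 430 (branch (move 431 (leaf 427 2)) (move 398 (leaf 397 5)))))))))) (move 429 (branch (move 558 (leaf 429 4)) (move 396 (branch (move 428 (leaf 396 7)) (move 397 (branch (move 364 (leaf 364 7)) (move 398 (branch (move 430 (leaf 397 6)) (move 366 (leaf 365 6))))))))))))) (branch (move 460 (branch (move 428 (leaf 427 6)) (move 461 (branch (move 558 (branch (move 429 (leaf 429 4)) (move 590 (branch (move 622 (leaf 493 7)) (move 494 (leaf 461 7))))))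 (branch (move 462 (branch (move 463 (branch (move 492 (leaf 459 1)) (move 495 (branch (move 494 (leaf 459 0)) (move 496 (leaf 460 0)))))) (branch (move 463 (branch (move 492 (leaf 459 1)) (move 431 (branch (move 430 (leaf 427 2)) (move 432 (leaf 428 2)))))) (move 494 (branch (move 495 (leaf 459 0)) (move 430 (branch (move 431 (leaf 427 2)) (move 398 (leaf 397 5))))))))) (move 429 (branch (move 558 (leaf 429 4)) (move 430 (branch (move 398 (leaf 397 6)) (move 431 (branch (move 462 (leaf 427 2)) (move 432 (leaf 428 1))))))))))))) (branch (move 492 (branch (move 490 (leaf 490 0)) (move 460 (branch (move 428 (leaf 427 6)) (move 494 (branch (move 495 (leaf 459 3)) (move 522 (leaf 490 1)))))))) (move 460 (branch (move 428 (leaf 427 6)) (move 461 (branch (move 429 (branch (move 558 (leaf 429 4)) (move 430 (branch (move 398 (leaf 397 6)) (move 431 (branch (move 462 (leaf 427 2)) (move 432 (leaf 428 1)))))))) (branch (move 429 (branch (move 558 (leaf 429 4)) (move 492 (branch (move 490 (leaf 490 0)) (move 398 (branch (move 430 (leaf 397 6)) (move 397 (branch (move 366 (leaf 365 6)) (move 364 (branch (move 396 (leaf 364 7)) (move 365 (leaf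 364 5)))))))))))) (move 490 (branch (move 492 (leaf 490 0)) (move 462 (leaf 458 1))))))))))))))
theorem a6p1149 : a6e1149.Valid :=
  pos_of_chk [] forall_nil a6c1149 a6e1149 (by decide +kernel)

def a6e1150 : Pos := ⟨329510287692662607352411239006812489923316821738883738576646493217897067337584989714868666634840563958442313411519088414121158654050726055806554062483909246976, 17404329752672085588539261644563950622876697268691384931175867571324133913067651855892324282075477826519799731270416811543874470854736267105869031859050929317805529310722304712243779993600, 5⟩
def a6c1150 : Cert := (move 493 (branch (move 492 (branch (move 494 (leaf 458 3)) (move 490 (leaf 490 0)))) (branch (move 492 (branch (move 494 (leaf 458 3)) (move 457 (branch (move 456 (leaf 456 0)) (move 460 (leaf 457 0)))))) (branch (move 492 (branch (move 490 (leaf 490 0)) (move 457 (branch (move 456 (leaf 456 0)) (move 460 (leaf 457 0)))))) (move 461 (branch (move 558 (branch (move 429 (leaf 429 4)) (move 590 (branch (move 622 (leaf 493 7)) (move 494 (leaf 461 7)))))) (branch (move 460 (branch (move 494 (leaf 458 0)) (move 490 (branch (move 489 (leaf 457 1)) (move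 462 (leaf 458 1)))))) (move 429 (branch (move 558 (leaf 429 4)) (move 430 (branch (move 398 (leaf 397 6)) (move 460 (leaf 426 2)))))))))))))
theorem a6p1150 : a6e1150.Valid :=
  pos_of_chk [] forall_nil a6c1150 a6e1150 (by decide +kernel)

def a6e1151 : Pos := ⟨356969478333185046211594559349459361336472055360179643571046218301295426377447367959397930566458262704865479021154117955135425783924776064852910743580668067840, 5438853048216559409696864281663202238077977122385264684133813313367244747535770138323887431882045555397513328374658759638330573317697480648642837020887308124469524056995647988974967848960, 9⟩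
def a6c1151 : Cert := (move 555 (branch (move 586 (branch (move 554 (leaf 458 5)) (move 587 (branch (move 618 (leaf 490 5)) (move 588 (branch (move 620 (leaf 491 4)) (move 556 (leaf 459 4)))))))) (move 458 (branch (move 426 (leaf 426 7)) (move 460 (branch (move 428 (leaf 427 6)) (move 493 (branch (move 461 (branch (move 494 (leaf 458 0)) (move 429 (branch (move 430 (leaf 426 2)) (move 558 (leaf 429 4)))))) (move 457 (branch (move 492 (leaf 457 0)) (move 488 (branch (move 489 (leaf 456 1)) (move 456 (branch (move 487 (leaf 455 1)) (move 424 (branch (move 423 (leaf 423 3)) (move 425 (leaf 424 3))))))))))))))))))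
theorem a6p1151 : a6e1151.Valid :=
  pos_of_chk [] forall_nil a6c1151 a6e1151 (by decide +kernel)

def a6e1152 : Pos := ⟨117936325803132357904464360548346723834706275045552924340057430802787727335144005202051337619316904300379330785666626227480867539038720129705921982206629136971188928512, 2335969597038391910398773821314391477509690893807034389923716644638707286767984518653589424167506690038224193341441777637726077896460027488214929582647578771264657325837071456438268632765168615424, 9⟩
def a6c1152 : Cert := (move 554 (branch (move 586 (leaf 458 5)) (move 522 (branch (move 427 (leaf 426 5)) (move 553 (branch (move 552 (branch (move 551 (leaf 519 2)) (move 520 (branch (move 519 (leaf 519 3)) (move 521 (branch (move 556 (leaf 520 0)) (move 584 (branch (move 583 (leaf 551 1)) (move 489 (branch (move 616 (leaf 488 6)) (move 457 (leaf 456 5)))))))))))) (branch (move 552 (branch (move 551 (leaf 519 2)) (move 520 (branch (move 519 (leaf 519 3)) (move 521 (branch (move 492 (leaf 488 2)) (move 488 (branch (move 487 (leaf 487 3)) (move 585 (branch (move 617 (leaf 488 7)) (move 456 (leaf 456 4)))))))))))) (branch (move 556 (branch (move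 588 (leaf 459 4)) (move 521 (branch (move 520 (leaf 520 0)) (move 585 (branch (move 584 (leaf 552 1)) (move 617 (branch (move 649 (leaf 521 6)) (move 490 (leaf 489 6)))))))))) (move 556 (branch (move 588 (leaf 459 4)) (move 552 (branch (move 551 (leaf 519 2)) (move 584 (branch (move 583 (leaf 551 1)) (move 585 (leaf 552 1))))))))))))))))
theorem a6p1152 : a6e1152.Valid :=
  pos_of_chk [] forall_nil a6c1152 a6e1152 (by decide +kernel)

def a6e1153 : Pos := ⟨356969478358758410335783167708937405842937673736872159555757661969133640190698413243809450526483810301161605248895420174881988838684285881617640376809797189632, 4052261298678835292266388238137363206106393225925303538871783410021861591293266648438221244921591852914902167899731114789527416174938025478818555187992868237690717898578400903168, 5⟩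
def a6c1153 : Cert := (move 494 (branch (move 492 (branch (move 458 (leaf 458 3)) (move 522 (leaf 490 1)))) (branch (move 492 (branch (move 522 (leaf 490 1)) (move 495 (branch (move 460 (leaf 459 3)) (move 463 (branch (move 462 (leaf 459 2)) (move 464 (leaf 460 2)))))))) (move 461 (branch (move 558 (branch (move 429 (leaf 429 4)) (move 590 (leaf 461 7)))) (move 460 (branch (move 458 (leaf 458 0)) (move 495 (branch (move 496 (leaf 460 3)) (move 462 (leaf 459 0)))))))))))
theorem a6p1153 : a6e1153.Valid :=
  pos_of_chk [] forall_nil a6c1153 a6e1153 (by decide +kernel)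

def a6e1154 : Pos := ⟨356969478333185046211594559349459361336472055360179643571046218301295426377447367959397930566458262704865479021154117955135425783924776064852910743580668067840, 17404329752672085588598229807465516802133412315640443994630927547740561808836921493085141389296622374944658884824645656508521153923945026029245437965114325427366450924456558488113129717760, 10⟩
def a6c1154 : Cert := (move 493 (branch (move 492 (branch (move 490 (leaf 490 0)) (move 494 (branch (move 458 (leaf 458 3)) (move 522 (leaf 490 1)))))) (branch (move 492 (branch (move 490 (leaf 490 0)) (move 494 (branch (move 522 (leaf 490 1)) (move 495 (branch (move 460 (leaf 459 3)) (move 463 (branch (move 462 (leaf 459 2)) (move 464 (leaf 460 2)))))))))) (branch (ref 0) (branch (move 461 (branch (move 558 (branch (move 429 (leaf 429 4)) (move 590 (branch (move 622 (leaf 493 7)) (move 494 (leaf 461 7)))))) (branch (ref 1) (move 429 (branch (move 558 (leaf 429 4)) (move 430 (branch (move 398 (leaf 397 6)) (move 460 (branch (move 458 (leaf 426 2)) (move 462 (branch (move 431 (leaf 427 2)) (move 490 (leaf 458 1))))))))))))) (move 461 (branch (move 490 (branch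 (move 492 (leaf 490 0)) (move 460 (branch (move 462 (leaf 458 1)) (move 489 (branch (move 488 (leaf 456 2)) (move 458 (leaf 457 1)))))))) (branch (move 429 (branch (move 558 (leaf 429 4)) (move 430 (branch (move 398 (leaf 397 6)) (move 460 (branch (move 458 (leaf 426 2)) (move 431 (branch (move 462 (leaf 427 2)) (move 432 (leaf 428 1)))))))))) (branch (move 490 (branch (move 492 (leaf 490 0)) (move 460 (branch (move 462 (leaf 458 1)) (move 429 (branch (move 558 (leaf 429 4)) (move 430 (branch (move 398 (leaf 397 6)) (move 431 (branch (move 428 (leaf 427 1)) (move 432 (leaf 428 1)))))))))))) (branch (move 490 (branch (move 492 (leaf 490 0)) (move 429 (branch (move 558 (leaf 429 4)) (move 430 (branch (move 398 (leaf 397 6)) (move 458 (branch (move 460 (leaf 426 2)) (move 427 (branch (move 428 (leaf 426 1)) (move 522 (branch (move 554 (leaf 426 5)) (move 395 (leaf 394 5)))))))))))))) (move 490 (branch (move 492 (leaf 490 0)) (move 427 (branch (move 522 (branch (move 554 (leaf 426 5)) (move 395 (leaf 394 5)))) (branch (move 394 (branch (move 426 (leaf 394 7)) (move 395 (branch (move 362 (leaf 362 7)) (move 429 (branch (move 558 (leaf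 429 4)) (move 430 (branch (move 428 (leaf 394 3)) (move 398 (leaf 397 6)))))))))) (move 522 (branch (move 554 (leaf 426 5)) (move 426 (branch (move 394 (leaf 394 7)) (move 429 (branch (move 558 (leaf 429 4)) (move 428 (branch (move 462 (leaf 426 0)) (move 458 (branch (move 457 (leaf 425 1)) (move 430 (leaf 426 1)))))))))))))))))))))))))))
theorem a6p1154 : a6e1154.Valid :=
  pos_of_chk [a6e1153, a6e1143] (forall_cons a6p1153 (forall_cons a6p1143 forall_nil)) a6c1154 a6e1154 (by decide +kernel)

def a6e1155 : Pos := ⟨356969478333185046211594559349459361336472055360179643571046218301295426377447367959397930566458262704865479021154117955135425783924776064852910743580668067840, 17404329752672085588657197970353353385762186605968013554613314474521663479798546385895265628505267403704504347310159098082910275350415704079201577358304472622859880288082895080575532531712, 7⟩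
def a6c1155 : Cert := (move 493 (branch (move 492 (branch (move 490 (leaf 490 0)) (move 494 (branch (move 458 (leaf 458 3)) (move 522 (leaf 490 1)))))) (branch (ref 0) (branch (move 461 (branch (move 429 (branch (move 558 (leaf 429 4)) (move 396 (branch (move 428 (leaf 396 7)) (move 397 (branch (move 364 (leaf 364 7)) (move 398 (branch (move 430 (leaf 397 6)) (move 366 (leaf 365 6)))))))))) (move 490 (branch (move 492 (leaf 490 0)) (move 460 (branch (move 462 (leaf 458 1)) (move 489 (branch (move 488 (leaf 456 2)) (move 458 (leaf 457 1)))))))))) (move 461 (branch (move 558 (branch (move 429 (leaf 429 4)) (move 590 (branch (move 622 (leaf 493 7)) (move 494 (leaf 461 7)))))) (branch (move 429 (branch (move 558 (leaf 429 4)) (move 396 (branch (move 428 (leaf 396 7)) (move 397 (branch (move 364 (leaf 364 7)) (move 398 (branch (move 430 (leaf 397 6)) (move 366 (leaf 365 6)))))))))) (move 460 (branch (move 428 (branch (move 555 (leaf 427 6)) (move 396 (branch (move 427 (leaf 395 6)) (move 364 (leaf 364 4)))))) (move 462 (branch (move 490 (leaf 458 1)) (move 494 (branch (move 495 (leaf 459 0)) (move 430 (branch (move 431 (leaf 427 2))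 (move 398 (leaf 397 5)))))))))))))))))
theorem a6p1155 : a6e1155.Valid :=
  pos_of_chk [a6e1153] (forall_cons a6p1153 forall_nil) a6c1155 a6e1155 (by decide +kernel)

def a6e1156 : Pos := ⟨176904488704698536853499870306252226853445955549098676633722265062914531790892417382692379804462941824537683255476903926822744639955538990589127680010413069235440844800, 815827958201227628028415113384837137609830791051940049649534215036490609295435141603228854052768270454391014224005351461602545549600207712018060347549348957247730994368118879174730448896, 7⟩
def a6c1156 : Cert := (move 553 (branch (move 556 (branch (move 588 (leaf 459 4)) (move 552 (branch (move 551 (leaf 519 2)) (move 584 (branch (move 583 (leaf 551 1)) (move 585 (leaf 552 1)))))))) (branch (move 556 (branch (move 588 (leaf 459 4)) (move 521 (branch (move 520 (leaf 520 0)) (move 585 (branch (move 584 (leaf 552 1)) (move 490 (branch (move 617 (leaf 489 6)) (move 458 (leaf 457 5)))))))))) (branch (move 552 (branch (move 551 (leaf 519 2)) (move 520 (branch (move 519 (leaf 519 3)) (move 521 (branch (move 556 (leaf 520 0)) (move 584 (branch (move 583 (leaf 551 1)) (move 489 (branch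 (move 616 (leaf 488 6)) (move 457 (leaf 456 5)))))))))))) (branch (move 552 (branch (move 551 (leaf 519 2)) (move 520 (branch (move 519 (leaf 519 3)) (move 521 (branch (move 556 (leaf 520 0)) (move 488 (branch (move 487 (leaf 487 3)) (move 456 (branch (move 585 (leaf 456 4)) (move 424 (leaf 424 4)))))))))))) (move 520 (branch (move 552 (branch (move 551 (leaf 519 2)) (move 519 (leaf 519 3)))) (branch (move 521 (branch (move 519 (leaf 519 0)) (move 488 (branch (move 487 (leaf 487 3)) (move 585 (branch (move 617 (leaf 488 7)) (move 456 (branch (move 489 (leaf 456 7)) (move 424 (leaf 424 4)))))))))) (move 521 (branch (move 552 (branch (move 551 (leaf 519 1)) (move 488 (branch (move 487 (leaf 487 3)) (move 585 (branch (move 617 (leaf 488 7)) (move 456 (leaf 456 4)))))))) (branch (move 488 (branch (move 487 (leaf 487 3)) (move 585 (branch (move 617 (leaf 488 7)) (move 456 (branch (move 489 (leaf 456 7)) (move 424 (leaf 424 4)))))))) (move 552 (branch (move 551 (leaf 519 1)) (move 584 (branch (move 583 (leaf 551 1)) (move 489 (branch (move 616 (leaf 488 6)) (move 457 (leaf 456 5)))))))))))))))))))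
theorem a6p1156 : a6e1156.Valid :=
  pos_of_chk [] forall_nil a6c1156 a6e1156 (by decide +kernel)

def a6e1157 : Pos := ⟨27459190646915779892463320993552486907539160953300983920111972260389353574359877457515067814708444065955256074363036769353570359938377161849357385607145324544, 4671939200875350127870759472581731576522796461208343353901475249264785976068568708406606686637363888315194731430915031757894567465203160452776783566506556767634652064935351940552598348345976553472, 10⟩
def a6c1157 : Cert := (move 555 (branch (move 586 (branch (move 554 (leaf 458 5)) (move 587 (branch (move 618 (leaf 490 5)) (move 588 (branch (move 620 (leaf 491 4)) (move 556 (leaf 459 4)))))))) (branch (move 588 (branch (move 556 (leaf 459 4)) (move 587 (branch (move 620 (leaf 491 4)) (move 490 (branch (move 458 (leaf 458 7)) (move 522 (branch (move 619 (leaf 490 7)) (move 427 (branch (move 554 (leaf 426 5)) (move 395 (leaf 394 5)))))))))))) (branch (move 587 (branch (move 586 (branch (move 618 (leaf 490 5)) (move 554 (leaf 458 5)))) (branch (move 490 (branch (move 458 (leaf 458 7)) (move 619 (branch (move 522 (leaf 490 7)) (move 618 (branch (move 650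 (leaf 522 5)) (move 586 (leaf 490 5)))))))) (move 490 (branch (move 458 (leaf 458 7)) (move 522 (branch (move 619 (leaf 490 7)) (move 427 (branch (move 554 (leaf 426 5)) (move 395 (leaf 394 5))))))))))) (branch (move 588 (branch (move 556 (leaf 459 4)) (move 587 (branch (move 620 (leaf 491 4)) (move 490 (branch (move 458 (leaf 458 7)) (move 619 (branch (move 522 (leaf 490 7)) (move 618 (branch (move 650 (leaf 522 5)) (move 586 (leaf 490 5)))))))))))) (move 554 (branch (move 586 (leaf 458 5)) (move 522 (branch (move 427 (leaf 426 5)) (ref 0))))))))))
theorem a6p1157 : a6e1157.Valid :=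
  pos_of_chk [a6e1156] (forall_cons a6p1156 forall_nil) a6c1157 a6e1157 (by decide +kernel)

def a6e1158 : Pos := ⟨356969478333185046211594559349459361336472055360179643571046218301295426377447367959397930566458262704865479021154117955135425783924776064852910743580668067840, 17404329752672085588598229807465516802133412315640630065333299867292473638223582754881128744787086392587146834946164095252251603906107669270298855879812380038214126773488489268737229193216, 11⟩
def a6c1158 : Cert := (move 493 (branch (move 492 (branch (move 490 (leaf 490 0)) (move 494 (branch (move 458 (leaf 458 3)) (move 522 (leaf 490 1)))))) (branch (move 492 (branch (move 490 (leaf 490 0)) (move 494 (branch (move 522 (leaf 490 1)) (move 495 (branch (move 460 (leaf 459 3)) (move 463 (branch (move 462 (leaf 459 2)) (move 464 (leaf 460 2)))))))))) (branch (move 461 (branch (move 429 (branch (move 558 (leaf 429 4)) (move 396 (branch (move 428 (leaf 396 7)) (move 397 (branch (move 364 (leaf 364 7)) (move 398 (branch (move 430 (leaf 397 6)) (move 366 (leaf 365 6)))))))))) (move 490 (branch (move 492 (leaf 490 0)) (move 460 (branch (move 462 (leaf 458 1)) (move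 489 (branch (move 488 (leaf 456 2)) (move 458 (leaf 457 1)))))))))) (branch (ref 0) (move 461 (branch (move 558 (branch (move 429 (leaf 429 4)) (move 590 (branch (move 622 (leaf 493 7)) (move 494 (leaf 461 7)))))) (branch (move 429 (branch (move 558 (leaf 429 4)) (move 396 (branch (move 428 (leaf 396 7)) (move 397 (branch (move 364 (leaf 364 7)) (move 398 (branch (move 430 (leaf 397 6)) (move 366 (leaf 365 6)))))))))) (move 460 (branch (move 490 (branch (move 462 (leaf 458 1)) (move 489 (branch (move 488 (leaf 456 2)) (move 458 (leaf 457 1)))))) (branch (move 494 (branch (move 458 (leaf 458 0)) (move 495 (branch (move 496 (leaf 460 3)) (move 462 (leaf 459 0)))))) (branch (move 462 (branch (move 490 (leaf 458 1)) (move 494 (branch (move 495 (leaf 459 0)) (move 430 (branch (move 431 (leaf 427 2)) (move 398 (leaf 397 5)))))))) (move 458 (branch (move 494 (leaf 458 0)) (move 490 (branch (move 489 (leaf 457 1)) (move 425 (branch (move 426 (leaf 425 3)) (move 457 (branch (move 424 (leaf 424 3)) (move 522 (branch (move 554 (leaf 425 7)) (move 427 (branch (move 395 (leaf 394 5)) (move 428 (branch (move 456 (leaf 424 2)) (move 396 (leaf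 395 6))))))))))))))))))))))))))))
theorem a6p1158 : a6e1158.Valid :=
  pos_of_chk [a6e1144] (forall_cons a6p1144 forall_nil) a6c1158 a6e1158 (by decide +kernel)

def a6e1159 : Pos := ⟨356969478333185046211594559349459361336472055360179643571046218301295426377447367959397930566458262704865479021154117955135425783924776064852910743580668067840, 84766734177008080236206632181929989442471400666104288186804490799244776215713112187080214989009864124921704054302101843455782946152155516568505500341639751522955821056, 14⟩
def a6c1159 : Cert := (move 427 (branch (move 396 (branch (move 428 (leaf 395 6)) (move 395 (branch (move 364 (leaf 363 6)) (move 394 (branch (move 426 (leaf 394 7)) (move 362 (leaf 362 7)))))))) (branch (move 522 (branch (move 554 (leaf 426 5)) (move 395 (branch (move 490 (leaf 394 5)) (move 396 (branch (move 428 (leaf 395 6)) (move 364 (leaf 363 6)))))))) (branch (move 522 (branch (move 554 (leaf 426 5)) (move 395 (branch (move 490 (leaf 394 5)) (move 394 (branch (move 426 (leaf 394 7)) (move 362 (leaf 362 7)))))))) (move 428 (branch (move 396 (leaf 395 6)) (move 426 (branch (move 394 (leaf 394 7)) (move 425 (branch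 (move 456 (branch (move 457 (leaf 424 1)) (move 424 (branch (move 455 (leaf 423 1)) (move 392 (branch (move 391 (leaf 391 3)) (move 393 (leaf 392 3)))))))) (branch (move 522 (branch (move 554 (leaf 426 5)) (move 393 (branch (move 392 (leaf 392 3)) (move 490 (branch (move 458 (leaf 393 7)) (move 492 (branch (move 493 (leaf 490 0)) (move 520 (branch (move 521 (leaf 488 2)) (move 489 (branch (move 457 (leaf 393 4)) (move 488 (branch (move 487 (leaf 487 0)) (move 519 (leaf 487 1)))))))))))))))) (branch (move 456 (branch (move 457 (leaf 424 1)) (move 424 (branch (move 455 (leaf 423 1)) (move 423 (branch (move 458 (leaf 423 0)) (move 391 (branch (move 390 (leaf 390 3)) (move 520 (branch (move 488 (leaf 391 7)) (move 522 (branch (move 554 (leaf 426 5)) (move 521 (branch (move 492 (leaf 488 2)) (move 519 (branch (move 490 (leaf 487 2)) (move 551 (branch (move 550 (leaf 518 1)) (move 552 (leaf 519 1)))))))))))))))))))) (move 522 (branch (move 554 (leaf 426 5)) (move 392 (branch (move 393 (leaf 392 3)) (move 424 (branch (move 391 (leaf 391 3)) (move 423 (branch (move 458 (leaf 423 0)) (move 455 (branch (move 454 (leaf 422 1)) (move 456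 (leaf 423 1))))))))))))))))))))))))
theorem a6p1159 : a6e1159.Valid :=
  pos_of_chk [] forall_nil a6c1159 a6e1159 (by decide +kernel)

def a6e1160 : Pos := ⟨356969478333185046211594559349459361336472055360179643571046218301295426377447367959397930566458262704865479021154117955135425783924776064852910743580668067840, 17404329752672085588598229807465516802133412315640071853203828259229260900506545325541644429245182056200554423044443064312110920064723317905925114390210145742618240450195166243717128388608, 8⟩
def a6c1160 : Cert := (move 493 (branch (move 492 (branch (move 490 (leaf 490 0)) (move 494 (branch (move 458 (leaf 458 3)) (move 522 (leaf 490 1)))))) (branch (move 492 (branch (move 490 (leaf 490 0)) (move 494 (branch (move 522 (leaf 490 1)) (move 495 (branch (move 460 (leaf 459 3)) (move 463 (branch (move 462 (leaf 459 2)) (move 464 (leaf 460 2)))))))))) (branch (ref 0) (branch (move 461 (branch (move 429 (branch (move 558 (leaf 429 4)) (move 396 (branch (move 428 (leaf 396 7)) (move 397 (branch (move 364 (leaf 364 7)) (move 398 (branch (move 430 (leaf 397 6)) (move 366 (leaf 365 6)))))))))) (move 490 (branch (move 492 (leaf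 490 0)) (move 460 (branch (move 462 (leaf 458 1)) (move 489 (branch (move 488 (leaf 456 2)) (move 458 (leaf 457 1)))))))))) (move 427 (branch (move 522 (branch (move 554 (leaf 426 5)) (move 395 (branch (move 490 (leaf 394 5)) (move 364 (branch (move 396 (leaf 363 6)) (move 363 (branch (move 332 (leaf 331 6)) (move 362 (branch (move 394 (leaf 362 7)) (move 330 (leaf 330 7)))))))))))) (branch (move 461 (branch (move 558 (branch (move 429 (leaf 429 4)) (move 590 (branch (move 622 (leaf 493 7)) (move 494 (leaf 461 7)))))) (move 522 (branch (move 554 (leaf 426 5)) (move 490 (branch (move 395 (leaf 394 5)) (move 460 (branch (move 462 (leaf 458 1)) (move 489 (branch (move 488 (leaf 456 2)) (move 458 (leaf 457 1)))))))))))) (move 429 (branch (move 461 (branch (move 558 (leaf 429 4)) (move 430 (branch (move 398 (leaf 397 6)) (move 460 (branch (move 458 (leaf 426 2)) (move 431 (branch (move 462 (leaf 427 2)) (move 432 (leaf 428 1)))))))))) (branch (move 428 (branch (move 396 (leaf 395 6)) (move 430 (branch (move 458 (leaf 426 1)) (move 462 (branch (move 463 (leaf 427 0)) (move 494 (branch (move 397 (leaf 397 7)) (move 398 (leaf 397 5))))))))))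 (move 461 (branch (move 558 (leaf 429 4)) (move 396 (branch (move 428 (leaf 395 6)) (move 397 (branch (move 364 (leaf 364 7)) (move 494 (leaf 397 4)))))))))))))))))))
theorem a6p1160 : a6e1160.Valid :=
  pos_of_chk [a6e1153] (forall_cons a6p1153 forall_nil) a6c1160 a6e1160 (by decide +kernel)

def a6e1161 : Pos := ⟨356969478333185046211594559349459361336472055360179643571046218301295426377447367959397930566458262704865479021154117955135425783924776064852910743580668067840, 17404329752672085588598229807465516801926427899759827268921260241406169367488184848131870901287668435443372508039036361841779141132355993447774644241065954233374419478669905052122317062144, 10⟩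
def a6c1161 : Cert := (move 427 (branch (move 396 (branch (move 428 (leaf 395 6)) (move 395 (branch (move 364 (leaf 363 6)) (move 394 (branch (move 426 (leaf 394 7)) (move 362 (leaf 362 7)))))))) (branch (move 522 (branch (move 554 (leaf 426 5)) (move 395 (branch (move 490 (leaf 394 5)) (move 396 (branch (move 428 (leaf 395 6)) (move 364 (leaf 363 6)))))))) (branch (move 522 (branch (move 554 (leaf 426 5)) (move 395 (branch (move 490 (leaf 394 5)) (move 394 (branch (move 426 (leaf 394 7)) (move 362 (leaf 362 7)))))))) (move 461 (branch (move 428 (branch (move 396 (leaf 395 6)) (move 426 (branch (move 394 (leaf 394 7)) (move 425 (branch (move 460 (leaf 425 0)) (move 456 (branch (move 457 (leaf 424 1)) (move 424 (branch (move 455 (leaf 423 1)) (move 392 (branch (move 391 (leaf 391 3)) (move 393 (leaf 392 3)))))))))))))) (branch (move 428 (branch (move 396 (leaf 395 6)) (move 426 (branch (move 394 (leaf 394 7)) (move 429 (branch (move 462 (leaf 426 0)) (move 493 (branch (move 558 (leaf 429 4)) (move 398 (branch (move 397 (leaf 394 2)) (move 430 (leaf 397 6)))))))))))) (branch (move 493 (branch (move 492 (branch (move 490 (leaf 490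 0)) (move 494 (branch (move 522 (leaf 490 1)) (move 495 (branch (move 460 (leaf 459 3)) (move 463 (branch (move 462 (leaf 459 2)) (move 464 (leaf 460 2)))))))))) (move 429 (branch (move 558 (leaf 429 4)) (move 396 (branch (move 428 (leaf 396 7)) (move 397 (branch (move 364 (leaf 364 7)) (move 398 (branch (move 430 (leaf 397 6)) (move 366 (leaf 365 6)))))))))))) (move 493 (branch (move 558 (branch (move 429 (leaf 429 4)) (move 590 (branch (move 622 (leaf 493 7)) (move 494 (leaf 461 7)))))) (branch (move 492 (branch (move 490 (leaf 490 0)) (move 494 (branch (move 522 (leaf 490 1)) (move 495 (branch (move 460 (leaf 459 3)) (move 463 (branch (move 462 (leaf 459 2)) (move 464 (leaf 460 2)))))))))) (move 492 (branch (move 490 (leaf 490 0)) (move 429 (branch (move 558 (leaf 429 4)) (move 426 (branch (move 394 (leaf 394 7)) (move 460 (branch (move 462 (leaf 426 3)) (move 397 (branch (move 365 (leaf 364 5)) (move 398 (branch (move 430 (leaf 397 6)) (move 366 (leaf 365 6)))))))))))))))))))))))))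
theorem a6p1161 : a6e1161.Valid :=
  pos_of_chk [] forall_nil a6c1161 a6e1161 (by decide +kernel)

def a6e1162 : Pos := ⟨356969478358758410335783167709283989554702775594319461328775547432063194825120390315705760474060637964637308451775416975645006285946459782987815823288418959360, 943490606205385338060388645268651425507010930780814179749943570345805614514341196998652906484919993033927459526107485153603425880973315738709215970751308818246728155136, 7⟩
def a6c1162 : Cert := (move 461 (branch (move 426 (branch (move 394 (leaf 394 7)) (move 460 (branch (move 462 (leaf 426 3)) (move 425 (branch (move 458 (leaf 425 3)) (move 424 (leaf 424 0)))))))) (branch (move 429 (branch (move 558 (leaf 429 4)) (move 430 (branch (move 398 (leaf 397 6)) (move 460 (branch (move 458 (leaf 426 2)) (move 431 (branch (move 462 (leaf 427 2)) (move 432 (leaf 428 1)))))))))) (move 429 (branch (move 558 (leaf 429 4)) (move 394 (branch (move 426 (leaf 394 7)) (move 395 (branch (move 362 (leaf 362 7)) (move 396 (branch (move 364 (leaf 363 6)) (move 430 (branch (move 397 (leaf 394 0)) (move 398 (leaf 397 6)))))))))))))))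
theorem a6p1162 : a6e1162.Valid :=
  pos_of_chk [] forall_nil a6c1162 a6e1162 (by decide +kernel)

def a6e1163 : Pos := ⟨356969478333185046211594559349459361336472055360179643571046218301295426377447367959397930566458262704865479021154117955135425783924776064852910743580668067840, 17404329752672085588598229807465516802133412315640443994630277703281506588533784688363920695088434920088663104224568109519642072036021644351332215670322606467480336067408898458981217861632, 10⟩
def a6c1163 : Cert := (move 493 (branch (move 492 (branch (move 490 (leaf 490 0)) (move 494 (branch (move 458 (leaf 458 3)) (move 522 (leaf 490 1)))))) (branch (move 492 (branch (move 490 (leaf 490 0)) (move 494 (branch (move 522 (leaf 490 1)) (move 495 (branch (move 460 (leaf 459 3)) (move 463 (branch (move 462 (leaf 459 2)) (move 464 (leaf 460 2)))))))))) (branch (ref 0) (branch (move 461 (branch (move 558 (branch (move 429 (leaf 429 4)) (move 590 (branch (move 622 (leaf 493 7)) (move 494 (leaf 461 7)))))) (branch (ref 1) (move 429 (branch (move 558 (leaf 429 4)) (move 430 (branch (move 398 (leaf 397 6)) (move 460 (branch (move 458 (leaf 426 2)) (move 462 (branch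 (move 431 (leaf 427 2)) (move 490 (leaf 458 1))))))))))))) (move 427 (branch (move 490 (branch (move 492 (leaf 490 0)) (move 522 (branch (move 554 (leaf 426 5)) (move 395 (leaf 394 5)))))) (branch (ref 2) (move 460 (branch (move 426 (branch (move 394 (leaf 394 7)) (move 461 (branch (move 462 (leaf 426 3)) (move 425 (branch (move 458 (leaf 425 3)) (move 424 (leaf 424 0)))))))) (branch (move 490 (branch (move 492 (leaf 490 0)) (move 522 (branch (move 554 (leaf 426 5)) (move 426 (branch (move 394 (leaf 394 7)) (move 489 (branch (move 488 (leaf 456 2)) (move 425 (branch (move 424 (leaf 424 0)) (move 393 (branch (move 458 (leaf 393 7)) (move 457 (leaf 393 4)))))))))))))) (branch (move 490 (branch (move 492 (leaf 490 0)) (move 522 (branch (move 554 (leaf 426 5)) (move 489 (branch (move 488 (leaf 456 2)) (move 461 (branch (move 458 (leaf 457 1)) (move 462 (leaf 458 1)))))))))) (move 426 (branch (move 394 (leaf 394 7)) (move 461 (branch (move 462 (leaf 426 3)) (move 429 (branch (move 558 (leaf 429 4)) (move 492 (branch (move 490 (leaf 490 0)) (move 397 (branch (move 365 (leaf 364 5)) (move 398 (branch (move 430 (leaf 397 6)) (move 366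 (leaf 365 6))))))))))))))))))))))))))
theorem a6p1163 : a6e1163.Valid :=
  pos_of_chk [a6e1153, a6e1143, a6e1162] (forall_cons a6p1153 (forall_cons a6p1143 (forall_cons a6p1162 forall_nil))) a6c1163 a6e1163 (by decide +kernel)

def a6e1164 : Pos := ⟨356969478358758410335783167708937405842937673736872159555757661969133640190698413243809450526483810301161605248895420174881988838684285881617640376809797189632, 17404329752672085588539261644563950622951819025829447807410593436479179375682272026738576951517675613828692765929863727428507238793551623029294757091088756340883271977293644081765969559552, 10⟩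
def a6c1164 : Cert := (move 427 (branch (move 396 (branch (move 428 (leaf 395 6)) (move 395 (branch (move 364 (leaf 363 6)) (move 394 (branch (move 426 (leaf 394 7)) (move 362 (leaf 362 7)))))))) (branch (move 396 (branch (move 428 (leaf 395 6)) (move 395 (branch (move 364 (leaf 363 6)) (move 492 (branch (move 490 (leaf 490 0)) (move 460 (branch (move 363 (leaf 363 4)) (move 494 (branch (move 495 (leaf 459 3)) (move 462 (branch (move 463 (leaf 459 2)) (move 461 (branch (move 426 (leaf 426 3)) (move 429 (branch (move 558 (leaf 429 4)) (move 397 (leaf 397 4)))))))))))))))))) (branch (move 394 (branch (move 426 (leaf 394 7)) (move 395 (branch (move 362 (leaf 362 7)) (move 492 (branch (move 490 (leaf 490 0)) (move 460 (branch (move 363 (leaf 363 4)) (move 494 (branch (move 495 (leaf 459 3)) (move 462 (branch (move 463 (leaf 459 2)) (move 430 (branch (move 398 (leaf 397 5)) (move 429 (branch (move 428 (leaf 394 3)) (move 397 (leaf 397 7)))))))))))))))))) (branch (move 492 (branch (move 490 (leaf 490 0)) (move 394 (branch (move 426 (leaf 394 7)) (move 395 (branch (move 362 (leaf 362 7)) (move 364 (branch (move 396 (leaf 363 6)) (move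 363 (branch (move 332 (leaf 331 6)) (move 460 (leaf 363 4)))))))))))) (branch (move 396 (branch (move 428 (leaf 395 6)) (move 395 (branch (move 364 (leaf 363 6)) (move 492 (branch (move 490 (leaf 490 0)) (move 363 (branch (move 460 (leaf 363 4)) (move 362 (branch (move 394 (leaf 362 7)) (move 330 (leaf 330 7)))))))))))) (move 461 (branch (move 558 (branch (move 429 (leaf 429 4)) (move 590 (branch (move 622 (leaf 493 7)) (move 494 (leaf 461 7)))))) (move 492 (branch (move 490 (leaf 490 0)) (move 428 (branch (move 396 (leaf 395 6)) (move 426 (branch (move 394 (leaf 394 7)) (move 460 (branch (move 462 (leaf 426 3)) (move 425 (leaf 425 0))))))))))))))))))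
theorem a6p1164 : a6e1164.Valid :=
  pos_of_chk [] forall_nil a6c1164 a6e1164 (by decide +kernel)

def a6e1165 : Pos := ⟨356969478333185046211594559349459361336472055360179643571046218301295426377447367959397930566458262704865479021154117955135425783924776064852910743580668067840, 52212989258016256765617784933691851868749167782759173071284864515223813883791514948482721349193823761509424345294609305857279714730896309580305515542930959259955702877321551195580265398272, 11⟩
def a6c1165 : Cert := (move 493 (branch (move 461 (branch (move 429 (branch (move 558 (leaf 429 4)) (move 396 (branch (move 428 (leaf 396 7)) (move 397 (branch (move 364 (leaf 364 7)) (move 398 (branch (move 430 (leaf 397 6)) (move 366 (leaf 365 6)))))))))) (move 490 (branch (move 492 (leaf 490 0)) (move 460 (branch (move 462 (leaf 458 1)) (move 489 (branch (move 488 (leaf 456 2)) (move 458 (leaf 457 1)))))))))) (branch (move 461 (branch (move 558 (branch (move 429 (leaf 429 4)) (move 590 (branch (move 622 (leaf 493 7)) (move 494 (leaf 461 7)))))) (branch (move 429 (branch (move 558 (leaf 429 4)) (move 396 (branch (move 428 (leaf 396 7)) (move 397 (branch (move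 364 (leaf 364 7)) (move 398 (branch (move 430 (leaf 397 6)) (move 366 (leaf 365 6)))))))))) (ref 0)))) (branch (move 461 (branch (move 558 (branch (move 429 (leaf 429 4)) (move 590 (branch (move 622 (leaf 493 7)) (move 494 (leaf 461 7)))))) (branch (move 429 (branch (move 558 (leaf 429 4)) (move 396 (branch (move 428 (leaf 396 7)) (move 397 (branch (move 364 (leaf 364 7)) (move 398 (branch (move 430 (leaf 397 6)) (move 366 (leaf 365 6)))))))))) (move 427 (branch (move 396 (branch (move 428 (leaf 395 6)) (move 395 (branch (move 364 (leaf 363 6)) (move 394 (branch (move 426 (leaf 394 7)) (move 362 (leaf 362 7)))))))) (branch (move 426 (branch (move 394 (leaf 394 7)) (move 460 (branch (move 462 (leaf 426 3)) (move 425 (branch (move 458 (leaf 425 3)) (move 424 (leaf 424 0)))))))) (branch (move 396 (branch (move 428 (leaf 395 6)) (move 395 (branch (move 364 (leaf 363 6)) (move 362 (branch (move 394 (leaf 362 7)) (move 363 (branch (move 330 (leaf 330 7)) (move 460 (branch (move 492 (leaf 363 4)) (move 494 (branch (move 458 (leaf 458 0)) (move 495 (branch (move 496 (leaf 460 3)) (move 462 (leaf 459 0)))))))))))))))) (move 460 (branch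 (move 428 (branch (move 396 (leaf 395 6)) (move 462 (branch (move 426 (leaf 426 3)) (move 463 (leaf 427 3)))))) (branch (move 494 (branch (move 458 (leaf 458 0)) (move 495 (branch (move 496 (leaf 460 3)) (move 462 (leaf 459 0)))))) (move 428 (branch (move 396 (leaf 395 6)) (move 458 (branch (move 494 (leaf 458 0)) (move 457 (branch (move 456 (leaf 424 2)) (move 492 (leaf 457 0)))))))))))))))))) (branch (move 492 (branch (move 490 (leaf 490 0)) (move 494 (branch (move 458 (leaf 458 3)) (move 462 (branch (move 463 (leaf 459 2)) (move 430 (branch (move 398 (leaf 397 5)) (move 429 (branch (move 397 (leaf 397 7)) (move 558 (branch (move 461 (leaf 429 4)) (move 590 (branch (move 622 (leaf 493 7)) (move 591 (branch (move 623 (leaf 494 4)) (move 559 (leaf 462 4)))))))))))))))))) (branch (move 492 (branch (move 490 (leaf 490 0)) (move 458 (branch (move 494 (leaf 458 3)) (move 457 (branch (move 456 (leaf 456 0)) (move 460 (leaf 457 0)))))))) (ref 1)))))))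
theorem a6p1165 : a6e1165.Valid :=
  pos_of_chk [a6e1143, a6e1164] (forall_cons a6p1143 (forall_cons a6p1164 forall_nil)) a6c1165 a6e1165 (by decide +kernel)

def a6e1166 : Pos := ⟨370699073653446265641558360947968731482776027817913556162853030682596067378664657135539359795357999478295774846817076471972687207186383253848234246641519951872, 52212989258016256765617784933691851868743573609356448601076020594538561727892020372115729049760125172532762792575101993824400882867001574100952775935239316728995683623884502837955955523584, 13⟩
def a6c1166 : Cert := (move 493 (branch (move 492 (branch (move 494 (leaf 490 1)) (move 394 (branch (move 426 (leaf 394 7)) (move 395 (branch (move 362 (leaf 362 7)) (move 363 (branch (move 460 (leaf 363 4)) (move 364 (branch (move 396 (leaf 363 6)) (move 332 (leaf 331 6)))))))))))) (branch (move 494 (branch (move 492 (leaf 490 1)) (branch (move 492 (leaf 490 1)) (move 461 (branch (move 558 (branch (move 429 (leaf 429 4)) (move 590 (leaf 461 7)))) (move 460 (branch (move 458 (leaf 458 0)) (move 495 (branch (move 496 (leaf 460 3)) (move 462 (leaf 459 0))))))))))) (branch (ref 0) (move 429 (branch (move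 494 (branch (move 492 (leaf 490 1)) (move 394 (branch (move 426 (leaf 394 7)) (move 395 (branch (move 362 (leaf 362 7)) (move 396 (branch (move 364 (leaf 363 6)) (move 430 (branch (move 397 (leaf 394 0)) (move 462 (branch (move 398 (leaf 397 5)) (move 431 (branch (move 399 (leaf 398 6)) (move 558 (branch (move 463 (leaf 430 6)) (move 590 (branch (move 622 (leaf 493 7)) (move 591 (branch (move 623 (leaf 494 4)) (move 559 (leaf 462 4)))))))))))))))))))))) (branch (move 461 (branch (move 558 (leaf 429 4)) (move 394 (branch (move 426 (leaf 394 7)) (move 395 (branch (move 362 (leaf 362 7)) (move 396 (branch (move 364 (leaf 363 6)) (move 430 (branch (move 397 (leaf 394 0)) (move 398 (leaf 397 6)))))))))))) (branch (move 494 (branch (move 492 (leaf 490 1)) (move 397 (branch (move 461 (leaf 397 4)) (move 430 (branch (move 462 (leaf 397 7)) (move 394 (branch (move 426 (leaf 394 7)) (move 395 (branch (move 396 (leaf 394 0)) (move 362 (leaf 362 7)))))))))))) (move 494 (branch (move 492 (leaf 490 1)) (move 558 (branch (move 461 (leaf 429 4)) (move 590 (branch (move 622 (leaf 493 7)) (move 591 (branch (move 623 (leaf 494 4)) (move 462 (branch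 (move 559 (leaf 462 4)) (move 463 (branch (move 495 (leaf 462 6)) (move 431 (leaf 430 6))))))))))))))))))))))
theorem a6p1166 : a6e1166.Valid :=
  pos_of_chk [a6e1162] (forall_cons a6p1162 forall_nil) a6c1166 a6e1166 (by decide +kernel)

def a6e1167 : Pos := ⟨356969478333185046211594559349805945048237157217626945344064103764224981011869345031294240514035090368341182224034114755898443231186949966223086190059289837568, 17404329752672085588598229807465516802127818142190829704629971246942240913747735850458493918411636585635201039322114929207327189638273103898742711871006587691868043857665344664350136205312, 9⟩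
def a6c1167 : Cert := (move 461 (branch (move 426 (branch (move 394 (leaf 394 7)) (move 460 (branch (move 462 (leaf 426 3)) (move 425 (branch (move 424 (leaf 424 0)) (move 428 (leaf 425 0)))))))) (branch (move 493 (branch (move 558 (branch (move 429 (leaf 429 4)) (move 590 (branch (move 622 (leaf 493 7)) (move 494 (leaf 461 7)))))) (branch (move 429 (branch (move 558 (leaf 429 4)) (move 430 (branch (move 398 (leaf 397 6)) (move 460 (branch (move 458 (leaf 426 2)) (move 431 (branch (move 462 (leaf 427 2)) (move 432 (leaf 428 1)))))))))) (move 494 (branch (move 460 (branch (move 458 (leaf 458 0)) (move 495 (branch (move 496 (leaf 460 3)) (move 462 (leaf 459 0)))))) (branch (move 492 (branch (move 458 (leaf 458 3)) (move 522 (leaf 490 1)))) (move 492 (branch (move 522 (leaf 490 1)) (move 462 (branch (move 463 (leaf 459 2)) (move 460 (branch (move 495 (leaf 459 0)) (move 430 (branch (move 431 (leaf 427 2)) (move 398 (leaf 397 5)))))))))))))))) (branch (move 493 (branch (move 558 (branch (move 429 (leaf 429 4)) (move 590 (branch (move 622 (leaf 493 7)) (move 494 (leaf 461 7)))))) (branch (move 394 (branch (move 426 (leaf 394 7)) (move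 395 (branch (move 362 (leaf 362 7)) (move 429 (branch (move 558 (leaf 429 4)) (move 430 (branch (move 428 (leaf 394 3)) (move 398 (leaf 397 6)))))))))) (move 426 (branch (move 394 (leaf 394 7)) (move 522 (branch (move 554 (leaf 426 5)) (move 494 (branch (move 492 (leaf 490 1)) (move 460 (branch (move 458 (leaf 458 0)) (move 425 (branch (move 424 (leaf 424 0)) (move 428 (leaf 425 0))))))))))))))) (move 429 (branch (move 426 (branch (move 394 (leaf 394 7)) (move 428 (branch (move 462 (leaf 426 0)) (move 458 (branch (move 457 (leaf 425 1)) (move 430 (leaf 426 1)))))))) (branch (move 493 (branch (move 558 (leaf 429 4)) (move 397 (branch (move 494 (leaf 397 4)) (move 398 (branch (move 430 (leaf 397 6)) (move 366 (leaf 365 6)))))))) (move 426 (branch (move 394 (leaf 394 7)) (move 428 (branch (move 462 (leaf 426 0)) (move 457 (branch (move 458 (leaf 425 1)) (move 425 (branch (move 456 (leaf 424 1)) (move 397 (branch (move 398 (leaf 394 2)) (move 493 (branch (move 558 (leaf 429 4)) (move 494 (leaf 397 4)))))))))))))))))))))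
theorem a6p1167 : a6e1167.Valid :=
  pos_of_chk [] forall_nil a6c1167 a6e1167 (by decide +kernel)

def a6e1168 : Pos := ⟨356969478333185046211594559349805945048237157217626945344064103764224981011869345031294240514035090368341182224034114755898443231186949966223086190059289837568, 52212989258016256765676753096593418047692609119162546418860058682962678692444355119029016477037064319059074192621831151817121436554120502494901406534140300102286255693157115272398039416832, 11⟩
def a6c1168 : Cert := (move 493 (branch (move 458 (branch (move 492 (branch (move 494 (leaf 458 3)) (move 457 (branch (move 456 (leaf 456 0)) (move 460 (leaf 457 0)))))) (branch (move 428 (branch (move 396 (leaf 395 6)) (move 457 (branch (move 456 (leaf 424 2)) (move 429 (branch (move 426 (leaf 425 1)) (move 430 (leaf 426 1)))))))) (move 494 (branch (move 492 (leaf 458 3)) (move 461 (branch (move 460 (leaf 458 0)) (move 429 (branch (move 558 (leaf 429 4)) (move 397 (leaf 397 4))))))))))) (branch (ref 0) (branch (move 428 (branch (move 396 (leaf 395 6)) (move 429 (branch (move 430 (branch (move 458 (leaf 426 1)) (move 431 (branch (move 460 (leaf 427 1)) (move 399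 (branch (move 398 (leaf 395 2)) (move 400 (leaf 396 2)))))))) (branch (move 461 (branch (move 558 (leaf 429 4)) (move 462 (branch (move 426 (leaf 426 0)) (move 463 (branch (move 460 (leaf 427 3)) (move 464 (leaf 428 3)))))))) (move 430 (branch (move 458 (leaf 426 1)) (move 398 (branch (move 399 (leaf 395 2)) (move 461 (leaf 397 6))))))))))) (branch (move 429 (branch (move 461 (branch (move 558 (leaf 429 4)) (move 396 (branch (move 428 (leaf 395 6)) (move 397 (branch (move 364 (leaf 364 7)) (move 494 (leaf 397 4)))))))) (branch (move 428 (branch (move 396 (leaf 395 6)) (move 430 (branch (move 458 (leaf 426 1)) (move 462 (branch (move 463 (leaf 427 0)) (move 494 (branch (move 397 (leaf 397 7)) (move 398 (leaf 397 5)))))))))) (branch (move 461 (branch (move 558 (leaf 429 4)) (move 494 (branch (move 397 (leaf 397 4)) (move 492 (branch (move 458 (leaf 458 3)) (move 522 (leaf 490 1)))))))) (move 428 (branch (move 396 (leaf 395 6)) (move 430 (branch (move 458 (leaf 426 1)) (move 398 (branch (move 399 (leaf 395 2)) (move 461 (leaf 397 6)))))))))))) (branch (move 461 (branch (move 558 (branch (move 429 (leaf 429 4)) (move 590 (branch (move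 622 (leaf 493 7)) (move 494 (leaf 461 7)))))) (branch (move 429 (branch (move 558 (leaf 429 4)) (move 396 (branch (move 428 (leaf 396 7)) (move 397 (branch (move 364 (leaf 364 7)) (move 398 (branch (move 430 (leaf 397 6)) (move 366 (leaf 365 6)))))))))) (move 396 (branch (move 428 (leaf 395 6)) (move 395 (branch (move 364 (leaf 363 6)) (move 522 (branch (move 554 (leaf 426 5)) (move 492 (branch (move 494 (leaf 490 1)) (move 460 (branch (move 363 (leaf 363 4)) (move 462 (branch (move 426 (leaf 426 3)) (move 463 (leaf 459 1))))))))))))))))) (branch (move 458 (branch (move 428 (branch (move 396 (leaf 395 6)) (move 457 (branch (move 456 (leaf 424 2)) (move 429 (branch (move 426 (leaf 425 1)) (move 430 (leaf 426 1)))))))) (branch (move 492 (branch (move 494 (leaf 458 3)) (move 457 (branch (move 456 (leaf 456 0)) (move 460 (leaf 457 0)))))) (move 494 (branch (move 492 (leaf 458 3)) (move 428 (branch (move 396 (leaf 395 6)) (move 430 (branch (move 429 (leaf 426 1)) (move 462 (branch (move 398 (leaf 397 5)) (move 431 (branch (move 399 (leaf 398 6)) (move 558 (branch (move 463 (leaf 430 6)) (move 590 (branch (move 622 (leaf 493 7)) (move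 591 (branch (move 623 (leaf 494 4)) (move 559 (leaf 462 4))))))))))))))))))))) (move 460 (branch (move 522 (branch (move 554 (leaf 426 5)) (move 494 (branch (move 492 (leaf 490 1)) (move 461 (branch (move 458 (leaf 458 0)) (move 462 (branch (move 426 (leaf 426 3)) (move 495 (leaf 459 0)))))))))) (branch (move 461 (branch (move 494 (branch (move 458 (leaf 458 0)) (move 495 (branch (move 496 (leaf 460 3)) (move 462 (leaf 459 0)))))) (branch (move 428 (branch (move 396 (leaf 395 6)) (move 462 (branch (move 426 (leaf 426 3)) (move 463 (leaf 427 3)))))) (move 428 (branch (move 396 (leaf 395 6)) (move 425 (branch (move 426 (leaf 425 0)) (move 458 (branch (move 494 (leaf 458 0)) (move 457 (branch (move 456 (leaf 424 2)) (move 424 (leaf 424 3))))))))))))) (move 395 (branch (move 396 (branch (move 428 (leaf 395 6)) (move 364 (leaf 363 6)))) (branch (move 363 (branch (move 492 (leaf 363 4)) (move 331 (branch (move 428 (leaf 331 4)) (move 332 (branch (move 364 (leaf 331 6)) (move 300 (leaf 299 6)))))))) (branch (move 363 (branch (move 492 (leaf 363 4)) (move 364 (branch (move 396 (leaf 363 6)) (move 332 (leaf 331 6)))))) (move 428 (branch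 (move 396 (leaf 395 6)) (move 363 (branch (move 492 (leaf 363 4)) (move 331 (leaf 331 4))))))))))))))))))))
theorem a6p1168 : a6e1168.Valid :=
  pos_of_chk [a6e1153] (forall_cons a6p1153 forall_nil) a6c1168 a6e1168 (by decide +kernel)

def a6e1169 : Pos := ⟨356969478333185046211594559349459361336472055360179643571046218301295426377447367959397930566458262704865479021154117955135425783924776064852910743580668067840, 52212989258016256765676753096593418047692609119162546418871495945450967401394470579655653353634438509989847367497758957056105714950178378185357868709692832457356050763905853581243782791168, 15⟩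
def a6c1169 : Cert := (move 427 (branch (ref 0) (branch (move 522 (branch (move 554 (leaf 426 5)) (ref 1))) (branch (ref 2) (branch (move 395 (branch (move 362 (branch (move 394 (leaf 362 7)) (move 363 (branch (move 330 (leaf 330 7)) (move 332 (branch (move 364 (leaf 331 6)) (move 331 (branch (move 300 (leaf 299 6)) (move 460 (branch (move 492 (leaf 363 4)) (move 428 (leaf 331 4)))))))))))) (branch (move 396 (branch (move 428 (leaf 395 6)) (move 364 (leaf 363 6)))) (branch (move 364 (branch (move 396 (leaf 363 6)) (move 363 (branch (move 332 (leaf 331 6)) (move 362 (branch (move 394 (leaf 362 7)) (move 330 (leaf 330 7)))))))) (move 428 (branch (move 396 (leaf 395 6)) (move 362 (branch (move 394 (leaf 362 7)) (move 363 (branch (move 330 (leaf 330 7)) (move 460 (branch (move 492 (leaf 363 4)) (move 331 (leaf 331 4)))))))))))))) (ref 3))))))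
theorem a6p1169 : a6e1169.Valid :=
  pos_of_chk [a6e1148, a6e1166, a6e1167, a6e1168] (forall_cons a6p1148 (forall_cons a6p1166 (forall_cons a6p1167 (forall_cons a6p1168 forall_nil)))) a6c1169 a6e1169 (by decide +kernel)

def a6e1170 : Pos := ⟨356969478333185046211594559349459361336472055360179643571046218301295426377447367959397930566458262704865479021154117955135425783924776064852910743580668067840, 4671939217463851925380813408516940486199481935395713948749791369791746914261354103515880087001836052616471187390299471356106919207605326468591957503442591232826766104045769732349841225423540715520, 15⟩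
def a6c1170 : Cert := (move 555 (branch (move 554 (branch (move 586 (leaf 458 5)) (move 427 (branch (move 522 (leaf 426 5)) (move 426 (branch (move 458 (leaf 426 7)) (move 394 (leaf 394 7)))))))) (branch (move 586 (branch (move 554 (leaf 458 5)) (move 587 (branch (move 618 (leaf 490 5)) (move 588 (branch (move 620 (leaf 491 4)) (move 556 (leaf 459 4)))))))) (branch (move 493 (branch (move 458 (branch (move 426 (leaf 426 7)) (move 492 (branch (move 494 (leaf 458 3)) (move 457 (branch (move 456 (leaf 456 0)) (move 460 (leaf 457 0)))))))) (branch (move 588 (branch (move 556 (leaf 459 4)) (move 587 (branch (move 620 (leaf 491 4)) (move 618 (branch (move 586 (leaf 490 5)) (move 619 (branch (move 650 (leaf 522 5)) (move 590 (branch (move 589 (leaf 586 1)) (move 558 (branch (move 622 (leaf 493 7)) (move 461 (branch (move 494 (leaf 461 7)) (move 429 (leaf 429 4)))))))))))))))) (move 426 (branch (move 458 (leaf 426 7)) (move 427 (branch (move 394 (leaf 394 7)) (move 588 (branch (move 556 (leaf 459 4)) (move 587 (branch (move 620 (leaf 491 4)) (move 460 (branch (move 492 (leaf 459 6)) (move 618 (branch (move 586 (leaf 490 5)) (move 619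 (branch (move 650 (leaf 522 5)) (move 461 (branch (move 462 (leaf 426 3)) (move 429 (branch (move 558 (leaf 429 4)) (move 398 (branch (move 430 (leaf 397 6)) (move 397 (branch (move 366 (leaf 365 6)) (move 396 (branch (move 395 (leaf 394 1)) (move 364 (leaf 364 7))))))))))))))))))))))))))))) (move 493 (branch (move 458 (branch (move 426 (leaf 426 7)) (move 492 (branch (move 494 (leaf 458 3)) (move 457 (branch (move 456 (leaf 456 0)) (move 460 (leaf 457 0)))))))) (branch (move 426 (branch (move 458 (leaf 426 7)) (move 427 (branch (move 394 (leaf 394 7)) (move 588 (branch (move 556 (leaf 459 4)) (move 587 (branch (move 620 (leaf 491 4)) (move 554 (branch (move 522 (leaf 426 5)) (move 590 (branch (move 589 (leaf 554 3)) (move 558 (branch (move 622 (leaf 493 7)) (move 461 (branch (move 494 (leaf 461 7)) (move 429 (leaf 429 4)))))))))))))))))) (branch (move 426 (branch (move 458 (leaf 426 7)) (move 427 (branch (move 394 (leaf 394 7)) (move 588 (branch (move 556 (leaf 459 4)) (move 587 (branch (move 620 (leaf 491 4)) (move 554 (branch (move 522 (leaf 426 5)) (move 460 (branch (move 492 (leaf 459 6)) (move 590 (branch (move 589 (leaf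 554 3)) (move 558 (branch (move 622 (leaf 493 7)) (move 461 (branch (move 462 (leaf 426 3)) (move 429 (leaf 429 4)))))))))))))))))))) (move 588 (branch (move 556 (leaf 459 4)) (move 587 (branch (move 620 (leaf 491 4)) (move 492 (branch (move 460 (leaf 459 6)) (move 494 (branch (move 522 (leaf 490 1)) (move 462 (branch (move 463 (leaf 459 2)) (move 430 (branch (move 398 (leaf 397 5)) (move 429 (branch (move 397 (leaf 397 7)) (move 558 (branch (move 461 (leaf 429 4)) (move 590 (branch (move 622 (leaf 493 7)) (move 589 (branch (move 559 (leaf 555 2)) (move 554 (leaf 554 3))))))))))))))))))))))))))))))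
theorem a6p1170 : a6e1170.Valid :=
  pos_of_chk [] forall_nil a6c1170 a6e1170 (by decide +kernel)

def a6e1171 : Pos := ⟨356969478333185046211594559349459361336472055360179643571046218301295426377447367959397930566458262704865479021154117955135425783924776064852910743580668067840, 7007908849310903339857426749185738011583617977549249058990514565304286309926401133180670689231951441864077886739515214347867715305507128645627862298517610797259609549729058575817851063898889781248, 13⟩
def a6c1171 : Cert := (move 555 (branch (move 586 (branch (move 554 (leaf 458 5)) (move 587 (branch (move 618 (leaf 490 5)) (move 588 (branch (move 620 (leaf 491 4)) (move 556 (leaf 459 4)))))))) (branch (move 588 (branch (move 556 (leaf 459 4)) (move 587 (branch (move 620 (leaf 491 4)) (move 618 (branch (move 586 (leaf 490 5)) (move 619 (branch (move 650 (leaf 522 5)) (move 490 (branch (move 522 (leaf 490 7)) (move 590 (branch (move 589 (leaf 586 1)) (move 493 (branch (move 492 (leaf 490 0)) (move 558 (branch (move 622 (leaf 493 7)) (move 461 (branch (move 494 (leaf 461 7)) (move 429 (leaf 429 4)))))))))))))))))))) (branch (ref 0) (branch (move 588 (branch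 (move 556 (leaf 459 4)) (move 587 (branch (move 620 (leaf 491 4)) (move 492 (branch (move 460 (leaf 459 6)) (move 493 (branch (move 490 (leaf 490 0)) (move 494 (branch (move 522 (leaf 490 1)) (move 462 (branch (move 463 (leaf 459 2)) (move 430 (branch (move 398 (leaf 397 5)) (move 429 (branch (move 397 (leaf 397 7)) (move 558 (branch (move 461 (leaf 429 4)) (move 590 (branch (move 622 (leaf 493 7)) (move 589 (branch (move 559 (leaf 555 2)) (move 554 (leaf 554 3)))))))))))))))))))))))) (move 586 (branch (move 554 (leaf 458 5)) (move 587 (branch (move 618 (leaf 490 5)) (move 492 (branch (move 460 (leaf 459 6)) (move 493 (branch (move 490 (leaf 490 0)) (move 494 (branch (move 522 (leaf 490 1)) (move 462 (branch (move 463 (leaf 459 2)) (move 430 (branch (move 398 (leaf 397 5)) (move 429 (branch (move 397 (leaf 397 7)) (move 558 (branch (move 461 (leaf 429 4)) (move 590 (branch (move 622 (leaf 493 7)) (move 591 (branch (move 623 (leaf 494 4)) (move 559 (leaf 462 4)))))))))))))))))))))))))))))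
theorem a6p1171 : a6e1171.Valid :=
  pos_of_chk [a6e1152] (forall_cons a6p1152 forall_nil) a6c1171 a6e1171 (by decide +kernel)

def a6e1172 : Pos := ⟨356969478333185046211594559349459361336472055360179643571046218301295426377447367959397930566458262704865479021154117955135425783924776064852910743580668067840, 57651842306232816174371158609149668769083626224786045221535132978205808264849228111527961399221117242725452056005294161180884730583805948240597696247219002864088585701326092301345008648192, 10⟩
def a6c1172 : Cert := (move 493 (branch (move 492 (branch (move 490 (leaf 490 0)) (move 458 (branch (move 494 (leaf 458 3)) (move 457 (branch (move 456 (leaf 456 0)) (move 460 (leaf 457 0)))))))) (branch (move 461 (branch (move 429 (branch (move 558 (leaf 429 4)) (move 396 (branch (move 428 (leaf 396 7)) (move 397 (branch (move 364 (leaf 364 7)) (move 398 (branch (move 430 (leaf 397 6)) (move 366 (leaf 365 6)))))))))) (move 490 (branch (move 492 (leaf 490 0)) (move 460 (branch (move 462 (leaf 458 1)) (move 489 (branch (move 488 (leaf 456 2)) (move 458 (leaf 457 1)))))))))) (branch (move 492 (branch (move 490 (leaf 490 0)) (move 494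 (branch (move 458 (leaf 458 3)) (move 462 (branch (move 463 (leaf 459 2)) (move 430 (branch (move 398 (leaf 397 5)) (move 429 (branch (move 397 (leaf 397 7)) (move 558 (branch (move 461 (leaf 429 4)) (move 590 (branch (move 622 (leaf 493 7)) (move 591 (branch (move 623 (leaf 494 4)) (move 559 (leaf 462 4)))))))))))))))))) (branch (move 461 (branch (move 558 (branch (move 429 (leaf 429 4)) (move 590 (branch (move 622 (leaf 493 7)) (move 494 (leaf 461 7)))))) (branch (move 429 (branch (move 558 (leaf 429 4)) (move 396 (branch (move 428 (leaf 396 7)) (move 397 (branch (move 364 (leaf 364 7)) (move 398 (branch (move 430 (leaf 397 6)) (move 366 (leaf 365 6)))))))))) (move 555 (branch (move 586 (branch (move 554 (leaf 458 5)) (move 587 (branch (move 618 (leaf 490 5)) (move 588 (branch (move 620 (leaf 491 4)) (move 556 (leaf 459 4)))))))) (move 460 (branch (move 428 (leaf 427 6)) (move 462 (branch (move 490 (leaf 458 1)) (move 494 (branch (move 495 (leaf 459 0)) (move 430 (branch (move 431 (leaf 427 2)) (move 398 (leaf 397 5))))))))))))))) (move 494 (branch (move 492 (branch (move 458 (leaf 458 3)) (move 495 (branch (move 460 (leaf 459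 3)) (move 463 (branch (move 462 (leaf 459 2)) (move 464 (leaf 460 2)))))))) (branch (move 461 (branch (move 558 (branch (move 429 (leaf 429 4)) (move 590 (leaf 461 7)))) (move 460 (branch (move 458 (leaf 458 0)) (move 495 (branch (move 496 (leaf 460 3)) (move 462 (leaf 459 0)))))))) (branch (move 492 (branch (move 458 (leaf 458 3)) (move 462 (branch (move 463 (leaf 459 2)) (move 430 (branch (move 398 (leaf 397 5)) (move 429 (branch (move 397 (leaf 397 7)) (move 558 (branch (move 461 (leaf 429 4)) (move 590 (branch (move 622 (leaf 493 7)) (move 591 (branch (move 623 (leaf 494 4)) (move 559 (leaf 462 4)))))))))))))))) (move 555 (branch (move 586 (branch (move 554 (leaf 458 5)) (move 587 (branch (move 618 (leaf 490 5)) (move 588 (branch (move 620 (leaf 491 4)) (move 556 (leaf 459 4)))))))) (move 460 (branch (move 428 (leaf 427 6)) (move 495 (branch (move 492 (leaf 459 3)) (move 496 (branch (move 461 (leaf 460 3)) (move 497 (leaf 493 1)))))))))))))))))))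
theorem a6p1172 : a6e1172.Valid :=
  pos_of_chk [] forall_nil a6c1172 a6e1172 (by decide +kernel)

def a6e1173 : Pos := ⟨27459190646915779892463320993552486907539160953300983920111972260389353574359877457515067814708444065955256074363036769353570359938377161849357385607145324544, 5438853048461911167069976025980212338733096489279032390248457329948501156366878785908645685160560906489365771896046766237429387138595116333889490124138826313127932741044639966071527309312, 12⟩
def a6c1173 : Cert := (move 555 (branch (move 586 (branch (move 554 (leaf 458 5)) (move 587 (branch (move 618 (leaf 490 5)) (move 588 (branch (move 620 (leaf 491 4)) (move 556 (leaf 459 4)))))))) (branch (move 458 (branch (move 426 (leaf 426 7)) (move 587 (branch (move 490 (leaf 458 7)) (move 588 (branch (move 620 (leaf 491 4)) (move 556 (leaf 459 4)))))))) (branch (move 458 (branch (move 426 (leaf 426 7)) (move 587 (branch (move 490 (leaf 458 7)) (move 586 (branch (move 618 (leaf 490 5)) (move 554 (leaf 458 5)))))))) (move 554 (branch (move 586 (leaf 458 5)) (move 556 (branch (move 588 (leaf 459 4)) (move 553 (branch (move 520 (branch (move 521 (leaf 520 3)) (move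 552 (branch (move 519 (leaf 519 3)) (move 584 (branch (move 583 (leaf 551 1)) (move 585 (leaf 552 1)))))))) (branch (move 520 (branch (move 521 (leaf 520 3)) (move 552 (branch (move 519 (leaf 519 3)) (move 551 (branch (move 522 (leaf 519 2)) (move 583 (branch (move 582 (leaf 550 1)) (move 584 (leaf 551 1)))))))))) (branch (move 521 (branch (move 520 (leaf 520 3)) (move 458 (branch (move 426 (leaf 426 7)) (move 585 (branch (move 584 (leaf 552 1)) (move 490 (branch (move 489 (leaf 457 6)) (move 522 (leaf 457 5)))))))))) (branch (move 552 (branch (move 584 (branch (move 583 (leaf 551 1)) (move 585 (leaf 552 1)))) (branch (move 551 (branch (move 522 (leaf 519 2)) (move 518 (branch (move 519 (leaf 518 3)) (move 550 (branch (move 517 (leaf 517 3)) (move 582 (branch (move 581 (leaf 549 1)) (move 583 (leaf 550 1)))))))))) (move 458 (branch (move 426 (leaf 426 7)) (move 585 (branch (move 584 (leaf 552 1)) (move 522 (branch (move 551 (leaf 519 2)) (move 490 (leaf 457 5))))))))))) (move 520 (branch (move 521 (leaf 520 3)) (move 552 (branch (move 519 (leaf 519 3)) (move 458 (branch (move 426 (leaf 426 7)) (move 522 (branch (move 551 (leaf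 519 2)) (move 490 (branch (move 585 (leaf 457 5)) (move 457 (branch (move 425 (leaf 425 7)) (move 456 (branch (move 455 (leaf 455 0)) (move 492 (leaf 456 0)))))))))))))))))))))))))))))
theorem a6p1173 : a6e1173.Valid :=
  pos_of_chk [] forall_nil a6c1173 a6e1173 (by decide +kernel)

def a6e1174 : Pos := ⟨27459190646915779892463320993552486907539160953300983920111972260389353574359877457515067814708444065955256074363036769353570359938377161849357385607145324544, 506532662334854411545311925629243915794622278440070283666247060937454721460240213447280355709147453051532790108054098693795213222405141685421002396376525317295730482465027915776, 7⟩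
def a6c1174 : Cert := (move 427 (branch (move 396 (branch (move 428 (leaf 395 6)) (move 395 (branch (move 364 (leaf 363 6)) (move 394 (branch (move 426 (leaf 394 7)) (move 362 (leaf 362 7)))))))) (branch (move 396 (branch (move 428 (leaf 395 6)) (move 395 (branch (move 364 (leaf 363 6)) (move 362 (branch (move 394 (leaf 362 7)) (move 363 (branch (move 330 (leaf 330 7)) (move 490 (branch (move 522 (leaf 394 5)) (move 458 (leaf 362 5)))))))))))) (branch (move 396 (branch (move 428 (leaf 395 6)) (move 395 (branch (move 364 (leaf 363 6)) (move 490 (branch (move 522 (leaf 394 5)) (move 458 (branch (move 363 (leaf 362 5)) (move 555 (branch (move 587 (leaf 458 7)) (move 426 (leaf 426 7)))))))))))) (branch (move 395 (branch (move 394 (branch (move 426 (leaf 394 7)) (move 362 (leaf 362 7)))) (branch (move 490 (branch (move 522 (leaf 394 5)) (move 458 (branch (move 363 (leaf 362 5)) (move 555 (branch (move 587 (leaf 458 7)) (move 426 (leaf 426 7)))))))) (move 490 (branch (move 522 (leaf 394 5)) (move 363 (branch (move 458 (leaf 362 5)) (move 362 (branch (move 394 (leaf 362 7)) (move 330 (leaf 330 7))))))))))) (move 426 (branch (move 394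 (leaf 394 7)) (move 458 (branch (move 555 (leaf 426 7)) (move 428 (branch (move 396 (leaf 395 6)) (move 457 (branch (move 456 (leaf 424 2)) (move 429 (leaf 425 1)))))))))))))))
theorem a6p1174 : a6e1174.Valid :=
  pos_of_chk [] forall_nil a6c1174 a6e1174 (by decide +kernel)

def a6e1175 : Pos := ⟨27459190646915779892463320993552486907539160953300983920111972260389353574359877457515067814708444065955256074363036769353570359938377161849357385607145324544, 4351082438674554059469669822672569986014171580047393380615713693106038496016558898338472699009606596516309175058381740397619159391683766849508227564276987775185842962124054556527407661056, 12⟩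
def a6c1175 : Cert := (move 426 (branch (move 555 (branch (move 458 (leaf 426 7)) (move 460 (branch (move 428 (leaf 427 6)) (move 587 (branch (move 492 (leaf 459 6)) (move 588 (branch (move 620 (leaf 491 4)) (move 556 (leaf 459 4)))))))))) (branch (move 427 (branch (move 394 (leaf 394 7)) (move 428 (branch (move 396 (leaf 395 6)) (move 460 (branch (move 555 (leaf 427 6)) (move 461 (branch (move 462 (leaf 426 3)) (move 425 (leaf 425 0)))))))))) (move 394 (branch (move 427 (leaf 394 7)) (move 362 (branch (move 458 (leaf 362 4)) (move 330 (branch (move 425 (branch (move 457 (leaf 329 5)) (move 298 (branch (move 393 (leaf 297 5)) (move 299 (branch (move 331 (leaf 298 6)) (move 267 (leaf 266 6)))))))) (branch (move 299 (branch (move 331 (leaf 298 6)) (move 298 (branch (move 267 (leaf 266 6)) (move 297 (branch (move 329 (leaf 297 7)) (move 265 (leaf 265 7)))))))) (branch (move 425 (branch (move 457 (leaf 329 5)) (move 298 (branch (move 393 (leaf 297 5)) (move 297 (branch (move 329 (leaf 297 7)) (move 265 (leaf 265 7)))))))) (move 329 (branch (move 297 (leaf 297 7)) (move 328 (branch (move 327 (branch (move 363 (leaf 327 0)) (move 326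 (branch (move 361 (leaf 326 0)) (move 358 (branch (move 357 (leaf 325 1)) (move 359 (leaf 326 1)))))))) (branch (move 331 (branch (move 299 (leaf 298 6)) (move 360 (branch (move 359 (leaf 327 1)) (move 361 (branch (move 332 (leaf 328 1)) (move 425 (branch (move 457 (leaf 329 5)) (move 296 (branch (move 295 (leaf 295 3)) (move 393 (leaf 296 7)))))))))))) (move 331 (branch (move 299 (leaf 298 6)) (move 363 (branch (move 327 (leaf 327 0)) (move 364 (leaf 328 0))))))))))))))))))))))
theorem a6p1175 : a6e1175.Valid :=
  pos_of_chk [] forall_nil a6c1175 a6e1175 (by decide +kernel)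

def a6e1176 : Pos := ⟨356969478333185046211594559349459361336472055360179643571046218301295426377447367959397930566458262704865479021154117955135425783924776064852910743580668067840, 52212989258522789427952639345243170492123641982405492877145331012452063014308425173405565841283105457244799299785254855505189136354079228879196721396160218081230555637906419357376579633152, 10⟩
def a6c1176 : Cert := (move 492 (branch (move 493 (branch (move 490 (leaf 490 0)) (move 494 (branch (move 522 (leaf 490 1)) (move 495 (branch (move 460 (leaf 459 3)) (move 463 (branch (move 462 (leaf 459 2)) (move 464 (leaf 460 2)))))))))) (branch (move 493 (branch (move 490 (leaf 490 0)) (move 494 (branch (move 522 (leaf 490 1)) (move 462 (branch (move 463 (leaf 459 2)) (move 430 (branch (move 398 (leaf 397 5)) (move 429 (branch (move 397 (leaf 397 7)) (move 558 (branch (move 461 (leaf 429 4)) (move 590 (branch (move 622 (leaf 493 7)) (move 591 (branch (move 623 (leaf 494 4)) (move 559 (leaf 462 4)))))))))))))))))) (branch (move 490 (branch (move 493 (leaf 490 0)) (move 489 (branch (move 456 (branch (move 457 (leaf 456 3)) (move 488 (branch (move 455 (leaf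 455 3)) (move 487 (branch (move 522 (leaf 487 0)) (move 519 (branch (move 518 (leaf 486 1)) (move 520 (leaf 487 1)))))))))) (move 460 (branch (move 461 (leaf 457 2)) (move 555 (branch (move 587 (leaf 459 6)) (move 428 (leaf 427 6)))))))))) (move 427 (branch (move 396 (branch (move 428 (leaf 395 6)) (move 395 (branch (move 364 (leaf 363 6)) (move 394 (branch (move 426 (leaf 394 7)) (move 362 (leaf 362 7)))))))) (branch (move 428 (branch (move 396 (leaf 395 6)) (move 460 (branch (move 555 (leaf 427 6)) (move 426 (branch (move 394 (leaf 394 7)) (move 461 (branch (move 462 (leaf 426 3)) (move 425 (leaf 425 0)))))))))) (branch (move 394 (branch (move 426 (leaf 394 7)) (move 395 (branch (move 362 (leaf 362 7)) (move 363 (branch (move 460 (leaf 363 4)) (move 364 (branch (move 396 (leaf 363 6)) (move 332 (leaf 331 6)))))))))) (branch (move 394 (branch (move 426 (leaf 394 7)) (move 395 (branch (move 362 (leaf 362 7)) (move 460 (branch (move 363 (leaf 363 4)) (move 555 (branch (move 587 (leaf 459 6)) (move 428 (leaf 427 6)))))))))) (move 395 (branch (move 396 (branch (move 428 (leaf 395 6)) (move 364 (leaf 363 6)))) (branch (move 363 (branch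 (move 460 (leaf 363 4)) (move 332 (branch (move 364 (leaf 331 6)) (move 331 (branch (move 300 (leaf 299 6)) (move 330 (branch (move 362 (leaf 330 7)) (move 298 (leaf 298 7)))))))))) (move 460 (branch (move 363 (leaf 363 4)) (move 428 (branch (move 555 (leaf 427 6)) (move 396 (leaf 395 5))))))))))))))))))
theorem a6p1176 : a6e1176.Valid :=
  pos_of_chk [] forall_nil a6c1176 a6e1176 (by decide +kernel)

def a6e1177 : Pos := ⟨356969478409905138584160384428240078567634012347704493298198434767739622451622480884528800394111733157229560907258021415138132395465479416517275089746677202944, 42424122670083494343077889966259121775029825877894543710351236669729878830701495196321105376475649794609886003555557599665873830102672867328, 11⟩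
def a6c1177 : Cert := (move 430 (branch (move 462 (branch (move 398 (leaf 397 5)) (move 429 (branch (move 397 (leaf 397 7)) (move 428 (branch (move 463 (leaf 427 0)) (move 458 (leaf 426 1)))))))) (branch (move 428 (branch (move 396 (leaf 395 6)) (move 429 (branch (move 458 (leaf 426 1)) (move 398 (branch (move 399 (leaf 395 2)) (move 461 (leaf 397 6)))))))) (branch (move 428 (branch (move 396 (leaf 395 6)) (move 429 (branch (move 458 (leaf 426 1)) (move 462 (branch (move 463 (leaf 427 0)) (move 397 (leaf 397 7)))))))) (branch (move 396 (branch (move 428 (leaf 395 6)) (move 395 (branch (move 364 (leaf 363 6)) (move 398 (branch (move 462 (leaf 397 5)) (move 397 (branch (move 431 (leaf 395 0)) (move 362 (branch (move 363 (leaf 362 3)) (move 394 (leaf 362 7)))))))))))) (move 395 (branch (move 364 (branch (move 396 (leaf 363 6)) (move 363 (branch (move 332 (leaf 331 6)) (move 362 (branch (move 394 (leaf 362 7)) (move 330 (leaf 330 7)))))))) (branch (move 398 (branch (move 462 (leaf 397 5)) (move 396 (branch (move 364 (leaf 363 6)) (move 397 (branch (move 431 (leaf 395 0)) (move 429 (branch (move 394 (leaf 394 0)) (move 461 (leaf 397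 4)))))))))) (branch (move 398 (branch (move 462 (leaf 397 5)) (move 429 (branch (move 461 (leaf 397 6)) (move 364 (branch (move 396 (leaf 363 6)) (move 363 (branch (move 332 (leaf 331 6)) (move 362 (branch (move 330 (leaf 330 7)) (move 365 (branch (move 397 (leaf 362 0)) (move 366 (branch (move 399 (leaf 363 0)) (move 334 (branch (move 333 (leaf 330 2)) (move 335 (leaf 331 2)))))))))))))))))) (branch (move 398 (branch (move 462 (leaf 397 5)) (move 429 (branch (move 461 (leaf 397 6)) (move 362 (branch (move 394 (leaf 362 7)) (move 363 (branch (move 330 (leaf 330 7)) (move 364 (branch (move 332 (leaf 331 6)) (move 365 (branch (move 397 (leaf 362 0)) (move 366 (branch (move 399 (leaf 363 0)) (move 334 (branch (move 333 (leaf 330 2)) (move 335 (leaf 331 2)))))))))))))))))) (move 429 (branch (move 397 (branch (move 461 (leaf 397 4)) (move 462 (leaf 397 7)))) (branch (move 398 (branch (move 461 (leaf 397 6)) (move 462 (leaf 397 5)))) (branch (move 461 (branch (move 398 (leaf 397 6)) (move 397 (leaf 397 4)))) (move 462 (branch (move 397 (leaf 397 7)) (move 398 (leaf 397 5))))))))))))))))))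
theorem a6p1177 : a6e1177.Valid :=
  pos_of_chk [] forall_nil a6c1177 a6e1177 (by decide +kernel)

def a6e1178 : Pos := ⟨356969478333185046211594559349805945048237157217626945344064103764224981011869345031294240514035090368341182224034114755898443231186949966223086190059289837568, 56564071698970207805122554305167579267206475607492615453996878839879323512085683294328227660376121913567931341679175852232298195933103199501006148268497573718670782208861666461580005474304, 15⟩
def a6c1178 : Cert := (move 493 (branch (move 554 (branch (move 522 (leaf 426 5)) (move 555 (branch (move 586 (leaf 458 5)) (move 588 (branch (move 556 (leaf 459 4)) (move 587 (branch (move 620 (leaf 491 4)) (move 590 (branch (move 589 (leaf 554 3)) (move 558 (branch (move 622 (leaf 493 7)) (move 461 (branch (move 494 (leaf 461 7)) (move 429 (leaf 429 4)))))))))))))))) (branch (move 429 (branch (move 461 (branch (move 558 (leaf 429 4)) (move 397 (branch (move 494 (leaf 397 4)) (move 398 (branch (move 430 (leaf 397 6)) (move 366 (leaf 365 6)))))))) (branch (move 461 (branch (move 558 (leaf 429 4)) (move 397 (branch (move 494 (leaf 397 4)) (move 396 (branch (move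 428 (leaf 396 7)) (move 364 (leaf 364 7)))))))) (branch (move 428 (branch (move 396 (leaf 395 6)) (move 430 (branch (move 458 (leaf 426 1)) (move 398 (branch (move 399 (leaf 395 2)) (move 461 (leaf 397 6)))))))) (move 428 (branch (move 396 (leaf 395 6)) (move 430 (branch (move 458 (leaf 426 1)) (move 462 (branch (move 463 (leaf 427 0)) (move 494 (branch (move 397 (leaf 397 7)) (move 398 (leaf 397 5)))))))))))))) (branch (move 554 (branch (move 522 (leaf 426 5)) (move 555 (branch (move 586 (leaf 458 5)) (move 588 (branch (move 556 (leaf 459 4)) (move 587 (branch (move 620 (leaf 491 4)) (move 590 (branch (move 589 (leaf 554 3)) (move 558 (branch (move 622 (leaf 493 7)) (move 428 (branch (move 396 (leaf 395 6)) (move 429 (branch (move 461 (leaf 429 4)) (move 430 (branch (move 458 (leaf 426 1)) (move 399 (branch (move 398 (leaf 395 2)) (move 431 (branch (move 400 (leaf 396 2)) (move 463 (branch (move 462 (leaf 427 0)) (move 464 (leaf 428 0)))))))))))))))))))))))))) (branch (move 396 (branch (move 428 (leaf 395 6)) (move 494 (branch (move 522 (branch (move 492 (leaf 490 1)) (move 554 (leaf 426 5)))) (branch (move 395 (branch (move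 364 (leaf 363 6)) (move 362 (branch (move 394 (leaf 362 7)) (move 363 (branch (move 330 (leaf 330 7)) (move 398 (branch (move 397 (leaf 362 3)) (move 462 (branch (move 430 (leaf 397 5)) (move 492 (branch (move 463 (leaf 459 2)) (move 458 (leaf 458 3)))))))))))))) (move 395 (branch (move 364 (leaf 363 6)) (move 362 (branch (move 394 (leaf 362 7)) (move 554 (branch (move 522 (leaf 426 5)) (move 555 (branch (move 586 (leaf 458 5)) (move 588 (branch (move 556 (leaf 459 4)) (move 587 (branch (move 620 (leaf 491 4)) (move 590 (branch (move 589 (leaf 554 3)) (move 558 (branch (move 622 (leaf 493 7)) (move 591 (branch (move 623 (leaf 494 4)) (move 462 (branch (move 559 (leaf 462 4)) (move 463 (branch (move 495 (leaf 462 6)) (move 431 (leaf 430 6))))))))))))))))))))))))))))) (move 494 (branch (move 522 (branch (move 492 (leaf 490 1)) (move 554 (leaf 426 5)))) (ref 0))))))))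
theorem a6p1178 : a6e1178.Valid :=
  pos_of_chk [a6e1177] (forall_cons a6p1177 forall_nil) a6c1178 a6e1178 (by decide +kernel)

def a6e1179 : Pos := ⟨356969478333185046211594559349459361336472055360179643571046218301295426377447367959397930566458262704865479021154117955135425783924776064852910743580668067840, 57651842308258946823238830952187035015977482312597948974136699661209358909256518298439148357586377729416313777056833638548607291648572508549602287331723181197407417786689784659908768038912, 16⟩
def a6c1179 : Cert := (move 427 (branch (move 396 (branch (move 428 (leaf 395 6)) (move 395 (branch (move 364 (leaf 363 6)) (move 394 (branch (move 426 (leaf 394 7)) (move 362 (leaf 362 7)))))))) (branch (move 426 (branch (move 394 (leaf 394 7)) (move 555 (branch (move 458 (leaf 426 7)) (move 588 (branch (move 556 (leaf 459 4)) (move 587 (branch (move 620 (leaf 491 4)) (move 586 (branch (move 618 (leaf 490 5)) (move 554 (leaf 458 5)))))))))))) (branch (move 428 (branch (move 396 (leaf 395 6)) (move 429 (branch (move 430 (branch (move 458 (leaf 426 1)) (move 462 (branch (move 463 (leaf 427 0)) (move 494 (branch (move 397 (leaf 397 7))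 (move 398 (branch (move 399 (leaf 395 2)) (move 493 (leaf 397 5)))))))))) (branch (move 554 (branch (move 522 (leaf 426 5)) (move 555 (branch (move 586 (leaf 458 5)) (move 426 (branch (move 458 (leaf 426 7)) (move 588 (branch (move 556 (leaf 459 4)) (move 587 (branch (move 620 (leaf 491 4)) (move 461 (branch (move 462 (leaf 426 0)) (move 397 (branch (move 398 (leaf 394 2)) (move 493 (branch (move 558 (leaf 429 4)) (move 494 (leaf 397 4)))))))))))))))))) (branch (move 458 (branch (move 430 (leaf 426 1)) (move 426 (branch (move 457 (leaf 425 1)) (move 555 (leaf 426 7)))))) (move 461 (branch (move 493 (branch (move 558 (leaf 429 4)) (move 397 (branch (move 494 (leaf 397 4)) (move 398 (branch (move 430 (leaf 397 6)) (move 366 (leaf 365 6)))))))) (branch (move 462 (branch (move 426 (leaf 426 0)) (move 463 (branch (move 464 (leaf 428 3)) (move 430 (leaf 427 0)))))) (move 462 (branch (move 426 (leaf 426 0)) (move 558 (branch (move 494 (leaf 429 7)) (move 493 (leaf 429 4))))))))))))))) (ref 0)))))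
theorem a6p1179 : a6e1179.Valid :=
  pos_of_chk [a6e1178] (forall_cons a6p1178 forall_nil) a6c1179 a6e1179 (by decide +kernel)

def a6e1180 : Pos := ⟨412777140575257962564670383364677419693038316428154944863898860365108592792529478666066306551765638086637093501343922712762266078052010972111041258009648887500378210304, 2919961996230004223279604509214917925326716931601228452269794644415199683710742886911325959248860440811499936967526523465125122790730114530973317537558932585420557475734979056797988497102091583488, 12⟩
def a6c1180 : Cert := (move 552 (branch (move 553 (branch (move 519 (leaf 519 3)) (move 584 (branch (move 583 (leaf 551 1)) (move 585 (leaf 552 1)))))) (branch (move 488 (branch (move 456 (branch (move 423 (branch (move 455 (leaf 423 7)) (move 424 (branch (move 391 (leaf 391 7)) (move 425 (branch (move 457 (leaf 424 6)) (move 393 (leaf 392 6)))))))) (branch (move 551 (branch (move 583 (leaf 455 5)) (move 424 (branch (move 519 (leaf 423 5)) (move 425 (branch (move 457 (leaf 424 6)) (move 393 (leaf 392 6)))))))) (move 455 (branch (move 423 (leaf 423 7)) (move 584 (branch (move 487 (leaf 455 7)) (move 583 (branch (move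 615 (leaf 487 5)) (move 551 (leaf 455 5))))))))))) (move 460 (branch (move 428 (leaf 427 6)) (move 490 (branch (move 489 (leaf 456 2)) (move 461 (branch (move 462 (leaf 458 1)) (move 493 (branch (move 492 (leaf 490 0)) (move 429 (branch (move 558 (leaf 429 4)) (move 397 (branch (move 494 (leaf 397 4)) (move 398 (branch (move 430 (leaf 397 6)) (move 366 (leaf 365 6)))))))))))))))))) (branch (move 488 (branch (move 584 (branch (move 583 (branch (move 615 (leaf 487 5)) (move 456 (branch (move 551 (leaf 455 5)) (move 455 (branch (move 487 (leaf 455 7)) (move 423 (leaf 423 7)))))))) (branch (move 617 (branch (move 585 (leaf 488 4)) (move 616 (branch (move 649 (leaf 520 4)) (move 615 (branch (move 647 (leaf 519 5)) (move 583 (leaf 487 5)))))))) (move 585 (branch (move 617 (leaf 488 4)) (move 456 (branch (move 553 (leaf 552 1)) (move 455 (branch (move 487 (leaf 455 7)) (move 423 (leaf 423 7))))))))))) (move 460 (branch (move 428 (leaf 427 6)) (move 490 (branch (move 489 (leaf 456 2)) (move 461 (branch (move 462 (leaf 458 1)) (move 493 (branch (move 492 (leaf 490 0)) (move 429 (branch (move 558 (leaf 429 4)) (move 397 (branch (move 494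 (leaf 397 4)) (move 398 (branch (move 430 (leaf 397 6)) (move 366 (leaf 365 6)))))))))))))))))) (branch (move 553 (branch (move 519 (leaf 519 3)) (move 585 (branch (move 584 (leaf 552 1)) (move 428 (branch (move 460 (leaf 427 6)) (move 427 (branch (move 396 (leaf 395 6)) (move 426 (branch (move 394 (leaf 394 7)) (move 456 (branch (move 488 (leaf 456 4)) (move 425 (branch (move 457 (leaf 424 1)) (move 424 (branch (move 455 (leaf 423 1)) (move 392 (branch (move 391 (leaf 391 3)) (move 393 (leaf 392 3)))))))))))))))))))) (move 488 (branch (move 460 (branch (move 428 (leaf 427 6)) (move 490 (branch (move 489 (leaf 456 2)) (move 461 (branch (move 462 (leaf 458 1)) (move 493 (branch (move 492 (leaf 490 0)) (move 429 (branch (move 558 (leaf 429 4)) (move 397 (branch (move 494 (leaf 397 4)) (move 398 (branch (move 430 (leaf 397 6)) (move 366 (leaf 365 6)))))))))))))))) (branch (move 456 (branch (move 551 (branch (move 583 (leaf 455 5)) (move 424 (branch (move 519 (leaf 423 5)) (move 423 (branch (move 455 (leaf 423 7)) (move 391 (leaf 391 7)))))))) (branch (move 423 (branch (move 455 (leaf 423 7)) (move 424 (branch (move 391 (leaf 391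 7)) (move 425 (branch (move 457 (leaf 424 6)) (move 393 (leaf 392 6)))))))) (branch (move 551 (branch (move 583 (leaf 455 5)) (move 424 (branch (move 519 (leaf 423 5)) (move 425 (branch (move 457 (leaf 424 6)) (move 393 (leaf 392 6)))))))) (move 455 (branch (move 423 (leaf 423 7)) (move 489 (branch (move 490 (leaf 455 3)) (move 457 (branch (move 425 (leaf 424 6)) (move 454 (branch (move 453 (leaf 453 0)) (move 486 (branch (move 485 (leaf 453 1)) (move 422 (branch (move 421 (leaf 421 3)) (move 551 (branch (move 583 (leaf 455 5)) (move 519 (branch (move 487 (leaf 422 7)) (move 518 (leaf 422 4)))))))))))))))))))))) (move 553 (branch (move 519 (leaf 519 3)) (move 456 (branch (move 585 (leaf 456 4)) (move 551 (branch (move 583 (leaf 455 5)) (move 428 (branch (move 460 (leaf 427 6)) (move 427 (branch (move 396 (leaf 395 6)) (move 425 (branch (move 457 (leaf 424 6)) (move 424 (branch (move 393 (leaf 392 6)) (move 426 (branch (move 455 (leaf 423 1)) (move 394 (leaf 394 7))))))))))))))))))))))))))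
theorem a6p1180 : a6e1180.Valid :=
  pos_of_chk [] forall_nil a6c1180 a6e1180 (by decide +kernel)

def a6e1181 : Pos := ⟨412777140571825563734605078507186469293497619819520227213827207660411361062936707074367478525704358266306366223855274557066525649033449978111182936103361873354820681728, 2919961996230004223279604509214917925337014128091424366842267495613821773536727735170296892448705299807683383368103402295009865083329100102434534239782785094937265723438339405396889090055898923008, 13⟩
def a6c1181 : Cert := (move 520 (branch (move 553 (branch (move 521 (leaf 520 3)) (move 552 (branch (move 519 (leaf 519 3)) (move 584 (branch (move 583 (leaf 551 1)) (move 585 (leaf 552 1)))))))) (branch (move 427 (branch (move 428 (branch (move 460 (leaf 427 6)) (move 396 (leaf 395 6)))) (branch (move 396 (branch (move 428 (leaf 395 6)) (move 395 (branch (move 364 (leaf 363 6)) (move 394 (branch (move 426 (leaf 394 7)) (move 362 (leaf 362 7)))))))) (branch (move 460 (branch (move 428 (leaf 427 6)) (move 394 (branch (move 426 (leaf 394 7)) (move 395 (branch (move 362 (leaf 362 7)) (move 492 (branch (move 363 (leaf 363 4)) (move 490 (branch (move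 493 (leaf 490 0)) (move 489 (branch (move 488 (leaf 456 2)) (move 461 (leaf 457 2)))))))))))))) (move 394 (branch (move 426 (leaf 394 7)) (move 395 (branch (move 362 (leaf 362 7)) (move 364 (branch (move 396 (leaf 363 6)) (move 363 (branch (move 332 (leaf 331 6)) (move 492 (branch (move 460 (leaf 363 4)) (move 490 (branch (move 493 (leaf 490 0)) (move 521 (branch (move 553 (leaf 520 3)) (move 489 (leaf 488 1)))))))))))))))))))) (branch (move 427 (branch (move 428 (branch (move 460 (leaf 427 6)) (move 396 (leaf 395 6)))) (branch (move 396 (branch (move 428 (leaf 395 6)) (move 395 (branch (move 364 (leaf 363 6)) (move 394 (branch (move 426 (leaf 394 7)) (move 362 (leaf 362 7)))))))) (branch (move 460 (branch (move 428 (leaf 427 6)) (move 394 (branch (move 426 (leaf 394 7)) (move 395 (branch (move 362 (leaf 362 7)) (move 492 (branch (move 363 (leaf 363 4)) (move 490 (branch (move 493 (leaf 490 0)) (move 489 (branch (move 488 (leaf 456 2)) (move 461 (leaf 457 2)))))))))))))) (move 394 (branch (move 426 (leaf 394 7)) (move 395 (branch (move 362 (leaf 362 7)) (move 364 (branch (move 396 (leaf 363 6)) (move 363 (branch (move 332 (leaf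 331 6)) (move 492 (branch (move 460 (leaf 363 4)) (move 490 (branch (move 493 (leaf 490 0)) (move 489 (branch (move 521 (leaf 488 1)) (move 488 (branch (move 519 (leaf 487 1)) (move 456 (branch (move 455 (leaf 455 3)) (move 457 (leaf 456 3)))))))))))))))))))))))) (ref 0)))))
theorem a6p1181 : a6e1181.Valid :=
  pos_of_chk [a6e1180] (forall_cons a6p1180 forall_nil) a6c1181 a6e1181 (by decide +kernel)

def a6e1182 : Pos := ⟨356969478333185046211594559349459361336472055360179643571046218301295426377447367959397930566458262704865479021154117955135425783924776064852910743580668067840, 2919962001668857271496163917968291600794831028016708982834487809477654475695912346072958731750714889642100512121440393285916571962009862823458636473159470044452515241299948717628004125476822974464, 16⟩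
def a6c1182 : Cert := (move 555 (branch (move 586 (branch (move 554 (leaf 458 5)) (move 587 (branch (move 618 (leaf 490 5)) (move 588 (branch (move 620 (leaf 491 4)) (move 556 (leaf 459 4)))))))) (branch (move 460 (branch (move 428 (leaf 427 6)) (move 587 (branch (move 492 (leaf 459 6)) (move 588 (branch (move 620 (leaf 491 4)) (move 556 (leaf 459 4)))))))) (branch (move 586 (branch (move 554 (leaf 458 5)) (move 587 (branch (move 618 (leaf 490 5)) (move 460 (branch (move 492 (leaf 459 6)) (move 428 (leaf 427 6)))))))) (move 554 (branch (move 586 (leaf 458 5)) (move 556 (branch (move 588 (leaf 459 4)) (ref 0)))))))))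
theorem a6p1182 : a6e1182.Valid :=
  pos_of_chk [a6e1181] (forall_cons a6p1181 forall_nil) a6c1182 a6e1182 (by decide +kernel)

def a6e1183 : Pos := ⟨14742040725391544746848888986047103889489186815811044964675902059298492489376433225129402527940829366049168466063616760238457607634165860755617605737719595526986399744, 2919961996230004223279604508227201196954596056018739630230474671037406676560379831332384867543800441762570779069061485756375043775840618779723210933795488312808182229179385291465482515885915635712, 8⟩
def a6c1183 : Cert := (move 488 (branch (move 489 (branch (move 519 (leaf 487 1)) (move 457 (branch (move 584 (leaf 456 6)) (move 425 (branch (move 456 (leaf 424 6)) (move 393 (leaf 392 5)))))))) (branch (move 584 (branch (move 583 (branch (move 615 (leaf 487 5)) (move 456 (branch (move 551 (leaf 455 5)) (move 455 (branch (move 487 (leaf 455 7)) (move 423 (leaf 423 7)))))))) (branch (move 487 (branch (move 455 (leaf 455 7)) (move 616 (branch (move 519 (leaf 487 7)) (move 617 (branch (move 649 (leaf 520 4)) (move 585 (leaf 488 4)))))))) (move 617 (branch (move 585 (leaf 488 4)) (move 616 (branch (move 649 (leaf 520 4))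 (move 615 (branch (move 647 (leaf 519 5)) (move 583 (leaf 487 5))))))))))) (branch (move 584 (branch (move 617 (branch (move 585 (leaf 488 4)) (move 616 (branch (move 649 (leaf 520 4)) (move 615 (branch (move 647 (leaf 519 5)) (move 583 (leaf 487 5)))))))) (move 457 (branch (move 489 (leaf 456 6)) (move 456 (branch (move 425 (leaf 424 6)) (move 455 (branch (move 487 (leaf 455 7)) (move 423 (leaf 423 7)))))))))) (branch (move 456 (branch (move 489 (branch (move 455 (leaf 455 3)) (move 519 (leaf 487 1)))) (branch (move 455 (branch (move 489 (leaf 455 3)) (move 423 (leaf 423 7)))) (branch (move 519 (branch (move 489 (leaf 487 1)) (move 551 (branch (move 424 (leaf 423 5)) (move 583 (branch (move 615 (leaf 487 6)) (move 487 (leaf 455 6)))))))) (move 424 (branch (move 423 (branch (move 391 (leaf 391 7)) (move 455 (leaf 423 7)))) (branch (move 519 (branch (move 551 (leaf 423 5)) (move 392 (branch (move 487 (leaf 391 5)) (move 393 (branch (move 425 (leaf 392 6)) (move 361 (leaf 360 6)))))))) (move 393 (branch (move 425 (leaf 392 6)) (move 392 (branch (move 361 (leaf 360 6)) (move 391 (branch (move 423 (leaf 391 7)) (move 359 (leaf 359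 7))))))))))))))) (move 489 (branch (move 519 (leaf 487 1)) (move 584 (branch (move 457 (leaf 456 6)) (move 487 (branch (move 455 (leaf 455 7)) (move 615 (branch (move 583 (leaf 487 5)) (move 616 (branch (move 647 (leaf 519 5)) (move 617 (branch (move 649 (leaf 520 4)) (move 585 (leaf 488 4)))))))))))))))))))
theorem a6p1183 : a6e1183.Valid :=
  pos_of_chk [] forall_nil a6c1183 a6e1183 (by decide +kernel)

def a6e1184 : Pos := ⟨412777140575257962564670383364677419693038316428154944863898860365108592792529478666066306551765638086637093501343922712762266078052010972111041258009648887500378210304, 12541141279370743432927783226839941827851105868010502190506587590022159420152829496393975180274447755491344406479097830118228705214206242886069144480673002973684418168380885586940089324965789049757477371904, 12⟩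
def a6c1184 : Cert := (move 552 (branch (move 553 (branch (move 519 (leaf 519 3)) (move 584 (branch (move 583 (leaf 551 1)) (move 585 (leaf 552 1)))))) (branch (move 584 (branch (move 553 (branch (move 519 (leaf 519 3)) (move 583 (leaf 551 1)))) (branch (move 519 (branch (move 553 (leaf 519 3)) (move 487 (branch (move 616 (leaf 487 7)) (move 455 (branch (move 488 (leaf 455 7)) (move 551 (leaf 455 4)))))))) (branch (move 583 (branch (move 553 (leaf 551 1)) (move 615 (branch (move 488 (leaf 487 5)) (move 647 (branch (move 679 (leaf 551 6)) (move 551 (leaf 519 6)))))))) (move 616 (branch (move 519 (branch (move 487 (leaf 487 7)) (move 648 (branch (move 551 (leaf 519 7)) (move 649 (branch (move 681 (leaf 552 4)) (move 617 (leaf 520 4)))))))) (branch (move 649 (branch (move 617 (leaf 520 4)) (move 648 (branch (move 681 (leaf 552 4)) (move 647 (branch (move 679 (leaf 551 5)) (move 615 (leaf 519 5)))))))) (move 615 (branch (move 647 (leaf 519 5)) (move 488 (branch (move 583 (leaf 487 5)) (move 487 (branch (move 519 (leaf 487 7)) (move 455 (leaf 455 7))))))))))))))) (branch (move 584 (branch (move 583 (branch (move 553 (leaf 551 1)) (move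 615 (branch (move 488 (leaf 487 5)) (move 647 (branch (move 679 (leaf 551 6)) (move 616 (leaf 519 5)))))))) (branch (move 488 (branch (move 617 (branch (move 585 (leaf 488 4)) (move 616 (branch (move 649 (leaf 520 4)) (move 615 (branch (move 647 (leaf 519 5)) (move 583 (leaf 487 5)))))))) (move 457 (branch (move 489 (leaf 456 6)) (move 456 (branch (move 425 (leaf 424 6)) (move 455 (branch (move 487 (leaf 455 7)) (move 423 (leaf 423 7)))))))))) (branch (move 585 (branch (move 553 (leaf 552 1)) (move 488 (branch (move 617 (leaf 488 4)) (move 455 (branch (move 487 (leaf 455 7)) (move 456 (branch (move 423 (leaf 423 7)) (move 457 (branch (move 489 (leaf 456 6)) (move 425 (leaf 424 6)))))))))))) (move 553 (branch (move 583 (leaf 551 1)) (move 585 (leaf 552 1)))))))) (branch (move 584 (branch (move 519 (branch (move 553 (leaf 519 3)) (move 487 (branch (move 616 (leaf 487 7)) (move 455 (branch (move 488 (leaf 455 7)) (move 423 (leaf 423 4)))))))) (branch (move 585 (branch (move 553 (leaf 552 1)) (move 488 (branch (move 617 (leaf 488 4)) (move 455 (branch (move 487 (leaf 455 7)) (move 456 (branch (move 423 (leaf 423 7)) (move 457 (branch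 (move 489 (leaf 456 6)) (move 425 (leaf 424 6)))))))))))) (branch (move 616 (branch (move 519 (branch (move 487 (leaf 487 7)) (move 648 (branch (move 551 (leaf 519 7)) (move 647 (branch (move 679 (leaf 551 5)) (move 615 (leaf 519 5)))))))) (branch (move 649 (branch (move 617 (leaf 520 4)) (move 648 (branch (move 681 (leaf 552 4)) (move 647 (branch (move 679 (leaf 551 5)) (move 615 (leaf 519 5)))))))) (move 617 (branch (move 649 (leaf 520 4)) (move 488 (branch (move 585 (leaf 488 4)) (move 487 (branch (move 519 (leaf 487 7)) (move 455 (leaf 455 7))))))))))) (move 553 (branch (move 519 (leaf 519 3)) (move 585 (leaf 552 1)))))))) (branch (move 493 (branch (move 429 (branch (move 461 (branch (move 558 (leaf 429 4)) (move 397 (branch (move 494 (leaf 397 4)) (move 398 (branch (move 430 (leaf 397 6)) (move 366 (leaf 365 6)))))))) (branch (move 426 (branch (move 458 (leaf 426 7)) (move 427 (branch (move 394 (leaf 394 7)) (move 428 (branch (move 396 (leaf 395 6)) (move 398 (branch (move 397 (leaf 394 2)) (move 430 (branch (move 399 (leaf 395 2)) (move 462 (branch (move 463 (leaf 427 0)) (move 494 (leaf 397 5)))))))))))))) (branch (move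 461 (branch (move 558 (leaf 429 4)) (move 428 (branch (move 396 (leaf 396 7)) (move 430 (branch (move 398 (leaf 397 6)) (move 427 (branch (move 458 (leaf 426 1)) (move 394 (branch (move 395 (leaf 394 3)) (move 426 (leaf 394 7)))))))))))) (move 461 (branch (move 558 (leaf 429 4)) (move 397 (branch (move 494 (leaf 397 4)) (move 396 (branch (move 428 (leaf 396 7)) (move 364 (leaf 364 7)))))))))))) (move 490 (branch (move 492 (leaf 490 0)) (ref 0))))) (move 456 (branch (move 458 (branch (move 426 (leaf 426 7)) (move 457 (branch (move 492 (leaf 456 0)) (move 455 (branch (move 490 (leaf 455 0)) (move 423 (branch (move 422 (leaf 422 3)) (move 424 (leaf 423 3)))))))))) (branch (move 553 (branch (move 519 (leaf 519 3)) (move 488 (branch (move 585 (leaf 456 4)) (move 551 (branch (move 583 (leaf 455 5)) (move 425 (branch (move 457 (leaf 424 6)) (move 424 (branch (move 393 (leaf 392 6)) (move 423 (branch (move 455 (leaf 423 7)) (move 391 (leaf 391 7)))))))))))))) (branch (move 553 (branch (move 519 (leaf 519 3)) (move 488 (branch (move 585 (leaf 456 4)) (move 551 (branch (move 583 (leaf 455 5)) (move 426 (branch (move 458 (leaf 426 7)) (move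 427 (branch (move 394 (leaf 394 7)) (move 396 (branch (move 428 (leaf 395 6)) (move 395 (branch (move 364 (leaf 363 6)) (move 424 (branch (move 425 (leaf 392 2)) (move 423 (branch (move 455 (leaf 423 7)) (move 391 (leaf 391 7)))))))))))))))))))) (move 458 (branch (move 426 (leaf 426 7)) (move 457 (branch (move 492 (leaf 456 0)) (move 488 (branch (move 487 (leaf 455 1)) (move 425 (leaf 424 6))))))))))))))))))
theorem a6p1184 : a6e1184.Valid :=
  pos_of_chk [a6e1183] (forall_cons a6p1183 forall_nil) a6c1184 a6e1184 (by decide +kernel)

def a6e1185 : Pos := ⟨412777140571825563734605078507186469293497619819520227213827207660411361062936707074367478525704358266306366223855274557066525649033449978111182936103361873354820681728, 12541141279370743432927783226839941827851105868020799386996783504594632271351451586219879333224690896116431574917335601672411033838945708159013579321018328144866451734344353823260428054588490829807556231168, 13⟩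
def a6c1185 : Cert := (move 520 (branch (move 553 (branch (move 521 (leaf 520 3)) (move 552 (branch (move 519 (leaf 519 3)) (move 584 (branch (move 583 (leaf 551 1)) (move 585 (leaf 552 1)))))))) (branch (move 427 (branch (move 426 (branch (move 458 (leaf 426 7)) (move 394 (leaf 394 7)))) (branch (move 396 (branch (move 428 (leaf 395 6)) (move 395 (branch (move 364 (leaf 363 6)) (move 394 (branch (move 426 (leaf 394 7)) (move 362 (leaf 362 7)))))))) (branch (move 396 (branch (move 428 (leaf 395 6)) (move 395 (branch (move 364 (leaf 363 6)) (move 362 (branch (move 394 (leaf 362 7)) (move 363 (branch (move 330 (leaf 330 7)) (move 490 (branch (move 458 (leaf 362 5)) (move 492 (branch (move 493 (leaf 490 0)) (move 521 (branch (move 553 (leaf 520 3)) (move 489 (leaf 488 1)))))))))))))))) (move 396 (branch (move 428 (leaf 395 6)) (move 395 (branch (move 364 (leaf 363 6)) (move 458 (branch (move 426 (leaf 426 7)) (move 490 (branch (move 363 (leaf 362 5)) (move 492 (branch (move 493 (leaf 490 0)) (move 521 (branch (move 553 (leaf 520 3)) (move 489 (leaf 488 1)))))))))))))))))) (branch (move 427 (branch (move 426 (branch (move 458 (leaf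 426 7)) (move 394 (leaf 394 7)))) (branch (move 396 (branch (move 428 (leaf 395 6)) (move 395 (branch (move 364 (leaf 363 6)) (move 394 (branch (move 426 (leaf 394 7)) (move 362 (leaf 362 7)))))))) (branch (move 396 (branch (move 428 (leaf 395 6)) (move 395 (branch (move 364 (leaf 363 6)) (move 362 (branch (move 394 (leaf 362 7)) (move 363 (branch (move 330 (leaf 330 7)) (move 490 (branch (move 458 (leaf 362 5)) (move 492 (branch (move 493 (leaf 490 0)) (move 489 (branch (move 521 (leaf 488 1)) (move 488 (branch (move 519 (leaf 487 1)) (move 456 (branch (move 455 (leaf 455 3)) (move 457 (leaf 456 3)))))))))))))))))))) (move 396 (branch (move 428 (leaf 395 6)) (move 395 (branch (move 364 (leaf 363 6)) (move 458 (branch (move 426 (leaf 426 7)) (move 490 (branch (move 363 (leaf 362 5)) (move 492 (branch (move 493 (leaf 490 0)) (move 489 (branch (move 521 (leaf 488 1)) (move 488 (branch (move 487 (leaf 455 2)) (move 519 (leaf 487 1)))))))))))))))))))) (ref 0)))))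
theorem a6p1185 : a6e1185.Valid :=
  pos_of_chk [a6e1184] (forall_cons a6p1184 forall_nil) a6c1185 a6e1185 (by decide +kernel)

def a6e1186 : Pos := ⟨356969478333185046211594559349459361336472055360179643571046218301295426377447367959397930566458262704865479021154117955135425783924776064852910743580668067840, 12541141279370743438366636275056501236604479543478616286922068120586852585215284288379063944127352735418441164751752730425748024829852415037694342042042430378243136683859603341122037366819605865228480282624, 16⟩
def a6c1186 : Cert := (move 555 (branch (move 586 (branch (move 554 (leaf 458 5)) (move 587 (branch (move 618 (leaf 490 5)) (move 588 (branch (move 620 (leaf 491 4)) (move 556 (leaf 459 4)))))))) (branch (move 458 (branch (move 426 (leaf 426 7)) (move 587 (branch (move 490 (leaf 458 7)) (move 588 (branch (move 620 (leaf 491 4)) (move 556 (leaf 459 4)))))))) (branch (move 458 (branch (move 426 (leaf 426 7)) (move 587 (branch (move 490 (leaf 458 7)) (move 586 (branch (move 618 (leaf 490 5)) (move 554 (leaf 458 5)))))))) (move 554 (branch (move 586 (leaf 458 5)) (move 556 (branch (move 588 (leaf 459 4)) (ref 0)))))))))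
theorem a6p1186 : a6e1186.Valid :=
  pos_of_chk [a6e1185] (forall_cons a6p1185 forall_nil) a6c1186 a6e1186 (by decide +kernel)

def a6e1187 : Pos := ⟨117936326132642645590733626867477962191652900609781124319277995772775629764838741908404759336888696894859632415003958782911939127109627895478842589320708834380576980992, 6526623657252032096586745560042759833490270784058606893775234576384934465114706806568373141179440883856504675478816879727343337664072754549855241297909457956726951254993745290096145334272, 13⟩
def a6c1187 : Cert := (move 429 (branch (move 426 (branch (move 394 (leaf 394 7)) (move 462 (branch (move 461 (leaf 426 0)) (move 430 (branch (move 463 (leaf 427 0)) (move 397 (branch (move 398 (leaf 394 2)) (move 494 (leaf 397 7)))))))))) (branch (move 588 (branch (move 556 (leaf 459 4)) (move 587 (branch (move 620 (leaf 491 4)) (move 522 (branch (move 554 (leaf 426 5)) (move 490 (branch (move 619 (leaf 490 7)) (move 493 (branch (move 492 (leaf 490 0)) (move 461 (branch (move 558 (leaf 429 4)) (move 430 (branch (move 398 (leaf 397 6)) (move 463 (branch (move 462 (leaf 427 0)) (move 431 (branch (move 464 (leaf 428 0)) (move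 399 (branch (move 400 (leaf 396 2)) (move 494 (branch (move 397 (leaf 397 4)) (move 495 (leaf 398 5)))))))))))))))))))))))) (branch (move 426 (branch (move 394 (leaf 394 7)) (move 398 (branch (move 397 (leaf 394 2)) (move 430 (branch (move 399 (leaf 395 2)) (move 493 (branch (move 461 (leaf 397 6)) (move 522 (branch (move 554 (leaf 426 5)) (move 492 (branch (move 490 (leaf 490 0)) (move 494 (leaf 490 1)))))))))))))) (branch (move 426 (branch (move 394 (leaf 394 7)) (move 461 (branch (move 462 (leaf 426 0)) (move 493 (branch (move 558 (leaf 429 4)) (move 522 (branch (move 554 (leaf 426 5)) (move 492 (branch (move 490 (leaf 490 0)) (move 494 (leaf 490 1)))))))))))) (branch (move 426 (branch (move 394 (leaf 394 7)) (move 588 (branch (move 556 (leaf 459 4)) (move 587 (branch (move 620 (leaf 491 4)) (move 522 (branch (move 554 (leaf 426 5)) (move 490 (branch (move 619 (leaf 490 7)) (move 493 (branch (move 492 (leaf 490 0)) (move 398 (branch (move 397 (leaf 394 2)) (move 430 (branch (move 399 (leaf 395 2)) (move 462 (branch (move 463 (leaf 427 0)) (move 494 (leaf 397 5)))))))))))))))))))) (move 426 (branch (move 394 (leaf 394 7)) (move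 461 (branch (move 462 (leaf 426 0)) (move 398 (branch (move 397 (leaf 394 2)) (move 430 (branch (move 399 (leaf 395 2)) (move 493 (leaf 397 6))))))))))))))))
theorem a6p1187 : a6e1187.Valid :=
  pos_of_chk [] forall_nil a6c1187 a6e1187 (by decide +kernel)

def a6e1188 : Pos := ⟨356969478333185046211594559349459361336472055360179643571046218301295426377447367959397930566458262704865479021154117955135425783924776064852910743580668067840, 4671939217463851925380813406629959273788711259380426785311289410049156104265435839875578142024924063529569673381849783727936700902058869903623391162538011397059210851450110614081401531005004677120, 16⟩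
def a6c1188 : Cert := (move 555 (branch (move 586 (branch (move 554 (leaf 458 5)) (move 587 (branch (move 618 (leaf 490 5)) (move 588 (branch (move 620 (leaf 491 4)) (move 556 (leaf 459 4)))))))) (branch (move 554 (branch (move 586 (leaf 458 5)) (move 427 (branch (move 522 (leaf 426 5)) (move 396 (branch (move 428 (leaf 395 6)) (move 395 (branch (move 364 (leaf 363 6)) (move 394 (branch (move 426 (leaf 394 7)) (move 362 (leaf 362 7)))))))))))) (branch (move 588 (branch (move 556 (leaf 459 4)) (move 587 (branch (move 620 (leaf 491 4)) (move 618 (branch (move 586 (leaf 490 5)) (move 619 (branch (move 650 (leaf 522 5)) (move 490 (branch (move 522 (leaf 490 7)) (move 590 (branch (move 589 (leaf 586 1)) (move 493 (branch (move 492 (leaf 490 0)) (move 558 (branch (move 622 (leaf 493 7)) (move 461 (branch (move 494 (leaf 461 7)) (move 429 (leaf 429 4)))))))))))))))))))) (move 427 (branch (move 396 (branch (move 428 (leaf 395 6)) (move 395 (branch (move 364 (leaf 363 6)) (move 394 (branch (move 426 (leaf 394 7)) (move 362 (leaf 362 7)))))))) (branch (move 522 (branch (move 554 (leaf 426 5)) (move 395 (branch (move 490 (leaf 394 5)) (move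 396 (branch (move 428 (leaf 395 6)) (move 364 (leaf 363 6)))))))) (branch (move 522 (branch (move 554 (leaf 426 5)) (move 395 (branch (move 490 (leaf 394 5)) (move 394 (branch (move 426 (leaf 394 7)) (move 362 (leaf 362 7)))))))) (move 428 (branch (move 396 (leaf 395 6)) (ref 0)))))))))))
theorem a6p1188 : a6e1188.Valid :=
  pos_of_chk [a6e1187] (forall_cons a6p1187 forall_nil) a6c1188 a6e1188 (by decide +kernel)

def a6e1189 : Pos := ⟨27459190640522438870347563147827393251992847310455654642071656383555564445786067703943883397039490848713460148598437908027579461746298502105448162112279937024, 176904488677239346212178263817071588224549359485584318364904875519311060160990167563095226771234189600185104199009138502582434067317938924643633131368156625970988580864, 6⟩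
def a6c1189 : Cert := (move 458 (branch (move 426 (branch (move 425 (leaf 425 3)) (move 490 (branch (move 489 (leaf 457 1)) (move 522 (branch (move 555 (leaf 426 4)) (move 427 (branch (move 554 (leaf 426 6)) (move 395 (leaf 394 6)))))))))) (branch (move 429 (branch (move 430 (leaf 426 2)) (move 457 (branch (move 428 (leaf 425 2)) (move 489 (branch (move 488 (leaf 456 1)) (move 490 (leaf 457 1)))))))) (move 429 (branch (move 430 (leaf 426 2)) (move 457 (branch (move 428 (leaf 425 2)) (move 425 (branch (move 424 (leaf 424 3)) (move 426 (leaf 425 3)))))))))))
theorem a6p1189 : a6e1189.Valid :=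
  pos_of_chk [] forall_nil a6c1189 a6e1189 (by decide +kernel)

def a6e1190 : Pos := ⟨27459190640522438870347563147827393251992847310455654642071656383555564445786067703943883397039490848713460148598437908027579461746298502105448162112279937024, 176904488677239346301685038251731717477870343293502556679066456643550716517410151027566206260126170194198933497385735459357036625748665354631482870862254091572235730944, 6⟩
def a6c1190 : Cert := (move 458 (branch (move 426 (branch (move 425 (leaf 425 3)) (move 490 (branch (move 489 (leaf 457 1)) (move 522 (branch (move 555 (leaf 426 4)) (move 427 (branch (move 554 (leaf 426 6)) (move 395 (leaf 394 6)))))))))) (branch (move 493 (branch (move 494 (leaf 458 0)) (move 457 (branch (move 492 (leaf 457 0)) (move 489 (branch (move 488 (leaf 456 1)) (move 490 (leaf 457 1)))))))) (move 425 (branch (move 426 (leaf 425 3)) (move 457 (branch (move 424 (leaf 424 3)) (move 493 (branch (move 492 (leaf 457 0)) (move 494 (leaf 458 0)))))))))))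
theorem a6p1190 : a6e1190.Valid :=
  pos_of_chk [] forall_nil a6c1190 a6e1190 (by decide +kernel)

def a6e1191 : Pos := ⟨109836762562089755450130372736804111859226070912175319554805217893782082646557940329414599084976945508441015885296208204473043317742898227856336501605660622848, 383600461898554702389370068333547668617665512692363778169925964766523325466072451889850612013822404856507231407223593490907153775859020295200829341696, 8⟩
def a6c1191 : Cert := (move 462 (branch (move 427 (branch (move 426 (leaf 426 3)) (move 463 (branch (move 428 (leaf 427 3)) (move 431 (branch (move 430 (leaf 427 2)) (move 432 (leaf 428 2)))))))) (branch (move 427 (branch (move 426 (leaf 426 3)) (move 463 (branch (move 428 (leaf 427 3)) (move 495 (branch (move 494 (leaf 459 0)) (move 496 (leaf 460 0)))))))) (move 494 (branch (move 495 (leaf 459 0)) (move 430 (branch (move 431 (leaf 427 2)) (move 398 (branch (move 493 (leaf 397 5)) (move 365 (branch (move 397 (leaf 365 7)) (move 366 (branch (move 333 (leaf 333 7)) (move 367 (branch (move 399 (leaf 366 6)) (move 335 (leaf 334 6)))))))))))))))))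
theorem a6p1191 : a6e1191.Valid :=
  pos_of_chk [] forall_nil a6c1191 a6e1191 (by decide +kernel)

def a6e1192 : Pos := ⟨10419959951501820382915106109882433004493802546813391712195443495453644834393672628804274903032514475879091509747431926855152048947819708416, 197394404346605770724495942865878430205867452203145272882529591543935122315257774161744116199187164035568723626408171383974473347826960312030768136192, 5⟩
def a6c1192 : Cert := (move 458 (branch (move 494 (branch (move 493 (leaf 458 0)) (move 462 (branch (move 495 (leaf 459 0)) (move 430 (branch (move 429 (leaf 426 2)) (move 431 (leaf 427 2)))))))) (branch (move 429 (branch (move 430 (leaf 426 2)) (move 457 (branch (move 428 (leaf 425 2)) (move 489 (branch (move 488 (leaf 456 1)) (move 490 (leaf 457 1)))))))) (move 493 (branch (move 494 (leaf 458 0)) (move 457 (branch (move 492 (leaf 457 0)) (move 489 (branch (move 488 (leaf 456 1)) (move 490 (leaf 457 1)))))))))))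
theorem a6p1192 : a6e1192.Valid :=
  pos_of_chk [] forall_nil a6c1192 a6e1192 (by decide +kernel)

def a6e1193 : Pos := ⟨329510287711842630450762675253558268341683996006133549159498519093900642091308903713489368812363871623969358345361309519922696489042769987288379097794153021440, 51146728620518643600936613541466382030615444996374044479192024792729078899034787680050160766087373922175728333498787507675769412123748748216529584128, 7⟩
def a6c1193 : Cert := (move 430 (branch (move 398 (leaf 397 6)) (move 431 (branch (move 428 (branch (move 396 (leaf 396 7)) (move 432 (branch (move 460 (leaf 427 1)) (move 400 (branch (move 399 (leaf 396 2)) (move 401 (leaf 397 2)))))))) (branch (move 432 (branch (move 460 (leaf 428 1)) (move 433 (branch (move 462 (leaf 429 1)) (move 401 (branch (move 400 (leaf 397 2)) (move 402 (leaf 398 2)))))))) (branch (move 428 (branch (move 396 (leaf 396 7)) (move 432 (branch (move 460 (leaf 427 1)) (move 433 (branch (move 462 (leaf 429 1)) (move 465 (branch (move 464 (leaf 429 0)) (move 466 (leaf 430 0)))))))))) (move 428 (branch (move 396 (leaf 396 7)) (move 463 (branch (move 464 (leaf 428 0)) (move 399 (branch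 (move 400 (leaf 396 2)) (move 462 (branch (move 427 (leaf 427 0)) (move 494 (leaf 398 6))))))))))))))))
theorem a6p1193 : a6e1193.Valid :=
  pos_of_chk [] forall_nil a6c1193 a6e1193 (by decide +kernel)

def a6e1194 : Pos := ⟨219673525124179510886863654108777932358907412827148146624475660079093737343695361595116894601755051148036491135356313571582181626287793869522465011907182985216, 943490607084079440142655264646049259684056355071095037533172400047247243321393728061758072432914699101395029937023933213675917629830356298839953943030235581241677053952, 8⟩
def a6c1194 : Cert := (move 462 (branch (move 494 (branch (move 558 (leaf 429 7)) (move 397 (branch (move 430 (leaf 397 7)) (move 365 (leaf 365 4)))))) (branch (move 463 (branch (move 428 (branch (move 464 (leaf 428 3)) (move 427 (branch (move 460 (leaf 427 3)) (move 426 (leaf 426 0)))))) (branch (move 464 (branch (move 428 (leaf 428 3)) (move 465 (branch (move 430 (leaf 429 3)) (move 497 (branch (move 496 (leaf 461 0)) (move 498 (leaf 462 0)))))))) (branch (move 460 (branch (move 431 (branch (move 430 (leaf 427 2)) (move 432 (leaf 428 2)))) (move 427 (branch (move 426 (leaf 426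 3)) (move 428 (leaf 427 3)))))) (move 464 (branch (move 465 (branch (move 430 (leaf 429 3)) (move 497 (branch (move 496 (leaf 461 0)) (move 498 (leaf 462 0)))))) (branch (move 465 (branch (move 430 (leaf 429 3)) (move 433 (branch (move 432 (leaf 429 2)) (move 434 (leaf 430 2)))))) (move 496 (branch (move 497 (leaf 461 0)) (move 432 (branch (move 433 (leaf 429 2)) (move 431 (branch (move 460 (leaf 428 2)) (move 399 (branch (move 528 (leaf 399 7)) (move 367 (leaf 367 4))))))))))))))))) (move 463 (branch (move 460 (branch (move 427 (branch (move 426 (leaf 426 3)) (move 428 (leaf 427 3)))) (move 495 (branch (move 494 (leaf 459 0)) (move 496 (leaf 460 0)))))) (branch (move 464 (branch (move 428 (leaf 428 3)) (move 497 (branch (move 496 (leaf 461 0)) (move 465 (branch (move 498 (leaf 462 0)) (move 433 (branch (move 432 (leaf 429 2)) (move 434 (leaf 430 2)))))))))) (move 431 (branch (move 494 (branch (move 558 (leaf 430 6)) (move 399 (branch (move 495 (leaf 398 5)) (move 367 (leaf 366 5)))))) (move 432 (branch (move 460 (leaf 428 2)) (move 433 (branch (move 464 (leaf 429 2)) (move 434 (leaf 430 1))))))))))))))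
theorem a6p1194 : a6e1194.Valid :=
  pos_of_chk [] forall_nil a6c1194 a6e1194 (by decide +kernel)

def a6e1195 : Pos := ⟨329510287686269266329551198307408694811848000516761092655428048587719464515282933997336507586143491267714497849823595661660946933733830829858705406921342451712, 34808659509396432475757358581380559888816640153797310906257089816801003823258374523531024894563070650048757506323805341052384314258598221024440846758625810269690571174250321097014447702016, 9⟩
def a6c1195 : Cert := (move 462 (branch (move 427 (branch (move 426 (leaf 426 3)) (move 463 (branch (move 428 (leaf 427 3)) (move 496 (branch (move 495 (leaf 460 0)) (move 464 (branch (move 497 (leaf 461 0)) (move 432 (branch (move 431 (leaf 428 2)) (move 433 (leaf 429 2)))))))))))) (branch (move 427 (branch (move 426 (leaf 426 3)) (move 463 (branch (move 428 (leaf 427 3)) (move 432 (branch (move 431 (leaf 428 2)) (move 464 (branch (move 433 (leaf 429 2)) (move 493 (branch (move 492 (leaf 460 1)) (move 558 (branch (move 429 (leaf 429 4)) (move 494 (branch (move 465 (leaf 461 1)) (move 590 (leaf 461 7)))))))))))))))) (move 494 (branch (move 495 (leaf 459 0)) (move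 558 (branch (move 429 (leaf 429 7)) (move 590 (branch (move 493 (leaf 461 7)) (move 591 (branch (move 623 (leaf 494 4)) (move 559 (leaf 462 4)))))))))))))
theorem a6p1195 : a6e1195.Valid :=
  pos_of_chk [] forall_nil a6c1195 a6e1195 (by decide +kernel)

def a6e1196 : Pos := ⟨356969478326791705186501670089019461857235711400225047720293387411086382473960574349982847624676831593679604551665943529272551597233431140293243791814997049344, 1120395094882624685078127879157684990652575973225026325540094071728587844543082469111234518056393006301433994837400073468109300399283476979129150650018835461088483475456, 11⟩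
def a6c1196 : Cert := (move 460 (branch (ref 0) (branch (ref 1) (branch (move 493 (branch (move 458 (branch (move 494 (leaf 458 0)) (move 457 (branch (move 492 (leaf 457 0)) (move 489 (branch (move 488 (leaf 456 1)) (move 490 (leaf 457 1)))))))) (move 429 (branch (move 558 (leaf 429 4)) (move 396 (branch (move 428 (leaf 396 7)) (move 397 (branch (move 364 (leaf 364 7)) (move 398 (branch (move 430 (leaf 397 6)) (move 366 (leaf 365 6)))))))))))) (move 462 (branch (move 494 (branch (move 495 (leaf 459 0)) (move 429 (branch (move 558 (leaf 429 7)) (move 397 (branch (move 430 (leaf 397 7)) (move 365 (leaf 365 4)))))))) (branch (move 427 (branch (move 426 (leaf 426 3)) (move 463 (branch (move 428 (leaf 427 3)) (move 495 (branch (move 494 (leaf 459 0)) (move 496 (leaf 460 0)))))))) (branch (move 427 (branch (move 426 (leaf 426 3)) (move 463 (branch (move 428 (leaf 427 3)) (move 496 (branch (move 495 (leaf 460 0)) (move 464 (branch (move 497 (leaf 461 0)) (move 433 (branch (move 432 (leaf 429 2)) (move 465 (branch (move 434 (leaf 430 2)) (move 493 (branch (move 492 (leaf 460 1)) (move 429 (branch (move 430 (leaf 429 3)) (move 558 (leaf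 429 4)))))))))))))))))) (move 429 (branch (move 494 (branch (move 558 (leaf 429 7)) (move 397 (branch (move 430 (leaf 397 7)) (move 365 (leaf 365 4)))))) (branch (move 493 (branch (move 558 (leaf 429 4)) (move 397 (branch (move 494 (leaf 397 4)) (move 396 (branch (move 428 (leaf 396 7)) (move 364 (leaf 364 7)))))))) (move 427 (branch (move 426 (leaf 426 3)) (move 428 (branch (move 463 (leaf 427 3)) (move 396 (branch (move 493 (leaf 396 7)) (move 364 (branch (move 332 (leaf 332 4)) (move 363 (branch (move 331 (leaf 331 7)) (move 395 (branch (move 492 (leaf 363 4)) (move 394 (branch (move 430 (leaf 394 3)) (move 393 (leaf 393 0)))))))))))))))))))))))))))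
theorem a6p1196 : a6e1196.Valid :=
  pos_of_chk [a6e1189, a6e1190] (forall_cons a6p1189 (forall_cons a6p1190 forall_nil)) a6c1196 a6e1196 (by decide +kernel)

def a6e1197 : Pos := ⟨329510287686269266329551198307408694811848000516761092655428048587719464515282933997336507586143491267714497849823595661660946933733830829858705406921342451712, 943490606205385338456775789184643460815757421976730166247109825673875296013522588618553343601382103254961521946629282123095570464106204978762617252621829788126987419648, 8⟩
def a6c1197 : Cert := (move 493 (branch (move 494 (branch (move 458 (leaf 458 0)) (move 495 (branch (move 496 (leaf 460 3)) (move 462 (leaf 459 0)))))) (move 429 (branch (move 558 (leaf 429 4)) (move 397 (branch (move 396 (branch (move 428 (leaf 396 7)) (move 364 (leaf 364 7)))) (branch (move 366 (branch (move 398 (leaf 365 6)) (move 365 (branch (move 334 (leaf 333 6)) (move 332 (branch (move 364 (leaf 332 7)) (move 333 (branch (move 300 (leaf 300 7)) (move 492 (leaf 364 5)))))))))) (branch (move 428 (branch (move 396 (leaf 396 7)) (move 366 (branch (move 398 (leaf 365 6)) (move 365 (branch (move 334 (leaf 333 6)) (move 492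 (leaf 364 5)))))))) (move 366 (branch (move 398 (leaf 365 6)) (move 365 (branch (move 334 (leaf 333 6)) (move 364 (branch (move 396 (leaf 364 7)) (move 332 (leaf 332 7))))))))))))))))
theorem a6p1197 : a6e1197.Valid :=
  pos_of_chk [] forall_nil a6c1197 a6e1197 (by decide +kernel)

def a6e1198 : Pos := ⟨247132715764701949761676914377291199499374898183478494033544547130993965414162996795241385994655948183763256288020127623363016231734296163370847980511184289792, 51125218652273246383432712027192345941794557486522592654794992909766934281337931141077224678495774851065962581065250342587724996937540840980365314964623798871861472329229458874491794882560, 14⟩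
def a6c1198 : Cert := (move 458 (branch (move 425 (branch (move 426 (leaf 425 3)) (move 457 (branch (move 424 (leaf 424 3)) (move 489 (branch (move 488 (leaf 456 1)) (move 490 (leaf 457 1)))))))) (branch (move 494 (branch (move 495 (leaf 459 0)) (move 429 (branch (move 558 (leaf 429 7)) (move 397 (branch (move 365 (leaf 365 4)) (move 457 (branch (move 428 (leaf 425 2)) (move 425 (branch (move 424 (leaf 424 3)) (move 426 (leaf 425 3)))))))))))) (branch (move 494 (branch (move 495 (leaf 459 0)) (move 429 (branch (move 558 (leaf 429 7)) (move 397 (branch (move 365 (leaf 365 4)) (move 457 (branch (move 428 (leaf 425 2)) (move 489 (branch (move 488 (leaf 456 1)) (move 490 (leaf 457 1)))))))))))) (move 494 (branch (move 495 (leaf 459 0)) (move 558 (branch (move 429 (leaf 429 7)) (move 463 (branch (move 431 (leaf 430 6)) (move 591 (branch (move 559 (leaf 462 4)) (move 590 (branch (move 623 (leaf 494 4)) (move 589 (branch (move 621 (leaf 493 5)) (move 490 (branch (move 489 (leaf 457 1)) (move 426 (branch (move 425 (leaf 425 3)) (move 555 (branch (move 522 (leaf 426 4)) (move 588 (branch (move 556 (leaf 555 3)) (move 587 (branch (move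 554 (leaf 554 3)) (move 619 (branch (move 618 (leaf 586 1)) (move 620 (leaf 587 1))))))))))))))))))))))))))))))
theorem a6p1198 : a6e1198.Valid :=
  pos_of_chk [] forall_nil a6c1198 a6e1198 (by decide +kernel)

def a6e1199 : Pos := ⟨356969478326791705186501670089019461857235711400225047720293387411086382473960574349982847624676831593679604551665943529272551597233431140293243791814997049344, 51125218652273246383432712027192345942446678271751921927684557315450709213987867009975995350243489899982245924237213117273402147715747434397379907562517451390004596172012517617813243822080, 16⟩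
def a6c1199 : Cert := (move 460 (branch (move 458 (branch (move 429 (branch (move 430 (leaf 426 2)) (move 493 (branch (move 494 (leaf 458 0)) (move 558 (leaf 429 4)))))) (move 425 (branch (move 426 (leaf 425 3)) (move 457 (branch (move 424 (leaf 424 3)) (move 489 (branch (move 488 (leaf 456 1)) (move 490 (leaf 457 1)))))))))) (branch (move 494 (branch (move 462 (branch (move 495 (leaf 459 0)) (move 430 (branch (move 431 (leaf 427 2)) (move 429 (branch (move 458 (leaf 426 2)) (move 397 (leaf 397 7)))))))) (branch (move 458 (branch (move 493 (leaf 458 0)) (move 429 (branch (move 430 (leaf 426 2)) (move 457 (branch (move 428 (leaf 425 2)) (move 425 (branch (move 424 (leaf 424 3)) (move 426 (leaf 425 3)))))))))) (move 495 (branch (move 462 (leaf 459 0)) (move 496 (branch (move 493 (leaf 460 3)) (move 497 (leaf 493 1))))))))) (branch (move 458 (branch (move 425 (branch (move 426 (leaf 425 3)) (move 457 (branch (move 424 (leaf 424 3)) (move 489 (branch (move 488 (leaf 456 1)) (move 490 (leaf 457 1)))))))) (move 494 (branch (move 493 (leaf 458 0)) (move 462 (branch (move 495 (leaf 459 0)) (move 431 (branch (move 430 (leaf 427 2)) (move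 463 (branch (move 432 (leaf 428 2)) (move 558 (leaf 430 6)))))))))))) (branch (move 429 (branch (move 430 (branch (move 458 (leaf 426 2)) (move 431 (branch (move 462 (leaf 427 2)) (move 432 (leaf 428 1)))))) (move 493 (branch (move 558 (leaf 429 4)) (move 396 (branch (move 428 (leaf 396 7)) (move 397 (branch (move 364 (leaf 364 7)) (move 365 (branch (move 492 (leaf 364 5)) (move 366 (branch (move 398 (leaf 365 6)) (move 334 (leaf 333 6)))))))))))))) (branch (move 429 (branch (move 493 (branch (move 558 (leaf 429 4)) (move 428 (branch (move 396 (leaf 396 7)) (move 430 (branch (move 431 (leaf 427 1)) (move 398 (leaf 397 6)))))))) (branch (move 493 (branch (move 558 (leaf 429 4)) (move 397 (branch (move 494 (leaf 397 4)) (move 398 (branch (move 430 (leaf 397 6)) (move 366 (leaf 365 6)))))))) (branch (move 493 (branch (move 558 (leaf 429 4)) (move 397 (branch (move 494 (leaf 397 4)) (move 396 (branch (move 428 (leaf 396 7)) (move 364 (leaf 364 7)))))))) (branch (move 493 (branch (move 397 (branch (move 494 (leaf 397 4)) (move 396 (branch (move 428 (leaf 396 7)) (move 364 (leaf 364 7)))))) (branch (move 397 (branch (move 494 (leaf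 397 4)) (move 398 (branch (move 430 (leaf 397 6)) (move 366 (leaf 365 6)))))) (move 428 (branch (move 396 (leaf 396 7)) (move 430 (branch (move 431 (leaf 427 1)) (move 398 (leaf 397 6))))))))) (move 462 (branch (move 494 (branch (move 495 (leaf 459 0)) (move 558 (leaf 429 7)))) (branch (move 494 (branch (move 558 (leaf 429 7)) (move 397 (branch (move 430 (leaf 397 7)) (move 365 (leaf 365 4)))))) (move 431 (branch (move 430 (leaf 427 2)) (move 463 (branch (move 432 (leaf 428 2)) (move 464 (branch (move 428 (leaf 428 3)) (move 496 (branch (move 495 (leaf 460 0)) (move 497 (leaf 461 0)))))))))))))))))) (branch (ref 0) (move 462 (branch (move 494 (branch (move 495 (leaf 459 0)) (move 431 (branch (move 430 (leaf 427 2)) (move 463 (branch (move 432 (leaf 428 2)) (move 558 (leaf 430 6)))))))) (branch (move 494 (branch (move 495 (leaf 459 0)) (move 429 (branch (move 558 (leaf 429 7)) (move 397 (branch (move 430 (leaf 397 7)) (move 365 (leaf 365 4)))))))) (branch (move 430 (branch (move 431 (leaf 427 2)) (move 458 (branch (move 429 (leaf 426 2)) (move 489 (branch (move 490 (leaf 457 1)) (move 457 (branch (move 488 (leaf 456 1)) (move 425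 (branch (move 424 (leaf 424 3)) (move 426 (leaf 425 3)))))))))))) (ref 1))))))))))))
theorem a6p1199 : a6e1199.Valid :=
  pos_of_chk [a6e1197, a6e1198] (forall_cons a6p1197 (forall_cons a6p1198 forall_nil)) a6c1199 a6e1199 (by decide +kernel)

def a6e1200 : Pos := ⟨247132715764701949761676914377291199499374898183478494033544547130993965414162996795241385994655948183763256288020127623363016231734296163370847980511184289792, 51125218652273246383432712027192345941793758318893339619356529963472087456149556610200112507798894411210321166703268971801767309061573196850701820085698840597817028128434343485137469046784, 14⟩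
def a6c1200 : Cert := (move 494 (branch (move 495 (leaf 459 0)) (move 558 (branch (move 429 (leaf 429 7)) (move 463 (branch (move 431 (leaf 430 6)) (move 426 (branch (move 427 (leaf 426 3)) (move 458 (branch (move 425 (leaf 425 3)) (move 490 (branch (move 489 (leaf 457 1)) (move 591 (branch (move 559 (leaf 462 4)) (move 590 (branch (move 623 (leaf 494 4)) (move 589 (branch (move 621 (leaf 493 5)) (move 555 (branch (move 522 (leaf 426 4)) (move 588 (branch (move 556 (leaf 555 3)) (move 587 (branch (move 554 (leaf 554 3)) (move 619 (branch (move 618 (leaf 586 1)) (move 620 (leaf 587 1))))))))))))))))))))))))))))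
theorem a6p1200 : a6e1200.Valid :=
  pos_of_chk [] forall_nil a6c1200 a6e1200 (by decide +kernel)

def a6e1201 : Pos := ⟨329510287686269266329551198307408694811848000516761092655428048587719464515282933997336507586143491267714497849823595661660946933733830829858705406921342451712, 34808659509396432475757358581380559888816640153797310906303012158612300678631412135478694097643169918800545358551041027243251909750709095131034487882103017757011992637775482258505330589696, 9⟩
def a6c1201 : Cert := (move 462 (branch (move 494 (branch (move 495 (leaf 459 0)) (move 429 (branch (move 558 (leaf 429 7)) (move 397 (branch (move 430 (leaf 397 7)) (move 365 (leaf 365 4)))))))) (branch (move 494 (branch (move 495 (leaf 459 0)) (move 558 (branch (move 429 (leaf 429 7)) (move 590 (branch (move 493 (leaf 461 7)) (move 591 (branch (move 623 (leaf 494 4)) (move 559 (leaf 462 4)))))))))) (branch (move 494 (branch (move 495 (leaf 459 0)) (move 430 (branch (move 431 (leaf 427 2)) (move 398 (branch (move 493 (leaf 397 5)) (move 365 (branch (move 397 (leaf 365 7)) (move 366 (branch (move 333 (leaf 333 7)) (move 367 (branch (move 399 (leaf 366 6)) (move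 335 (leaf 334 6)))))))))))))) (branch (move 463 (branch (move 431 (branch (move 430 (leaf 427 2)) (move 432 (leaf 428 2)))) (branch (move 496 (branch (move 495 (leaf 460 0)) (move 464 (branch (move 497 (leaf 461 0)) (move 432 (branch (move 431 (leaf 428 2)) (move 433 (leaf 429 2)))))))) (branch (move 496 (branch (move 495 (leaf 460 0)) (move 464 (branch (move 497 (leaf 461 0)) (move 433 (branch (move 432 (leaf 429 2)) (move 465 (branch (move 434 (leaf 430 2)) (move 493 (branch (move 492 (leaf 460 1)) (move 429 (branch (move 430 (leaf 429 3)) (move 558 (leaf 429 4)))))))))))))) (move 496 (branch (move 495 (leaf 460 0)) (move 464 (branch (move 497 (leaf 461 0)) (move 430 (branch (move 431 (leaf 427 2)) (move 493 (branch (move 492 (leaf 460 1)) (move 429 (branch (move 465 (leaf 429 3)) (move 398 (leaf 397 6)))))))))))))))) (move 429 (branch (move 430 (branch (move 431 (leaf 427 2)) (move 493 (branch (move 398 (leaf 397 6)) (move 558 (leaf 429 4)))))) (branch (move 493 (branch (move 558 (leaf 429 4)) (move 397 (branch (move 494 (leaf 397 4)) (move 364 (branch (move 396 (leaf 364 7)) (move 365 (branch (move 332 (leaf 332 7)) (move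 366 (branch (move 398 (leaf 365 6)) (move 334 (leaf 333 6)))))))))))) (move 430 (branch (move 431 (leaf 427 2)) (move 397 (branch (move 494 (leaf 397 7)) (move 365 (branch (move 333 (leaf 333 4)) (move 492 (leaf 364 5))))))))))))))))
theorem a6p1201 : a6e1201.Valid :=
  pos_of_chk [] forall_nil a6c1201 a6e1201 (by decide +kernel)

def a6e1202 : Pos := ⟨9704343929422852008524449644500792962027529763815358013096678532151174577319689680639910421364488523340869238364912501401409552384, 357255769799741902615715361329430888157661203081025175067894232335506766745688110202206462961511247190249279522236057998563998756066253864960, 5⟩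
def a6c1202 : Cert := (move 432 (branch (move 465 (branch (move 464 (leaf 429 0)) (move 433 (branch (move 466 (leaf 430 0)) (move 401 (branch (move 400 (leaf 397 2)) (move 402 (leaf 398 2)))))))) (branch (move 464 (branch (move 465 (leaf 429 0)) (move 428 (branch (move 463 (leaf 428 0)) (move 396 (branch (move 395 (leaf 395 3)) (move 397 (leaf 396 3)))))))) (move 400 (branch (move 401 (leaf 397 2)) (move 428 (branch (move 399 (leaf 396 2)) (move 396 (branch (move 395 (leaf 395 3)) (move 397 (leaf 396 3)))))))))))
theorem a6p1202 : a6e1202.Valid :=
  pos_of_chk [] forall_nil a6c1202 a6e1202 (by decide +kernel)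

def a6e1203 : Pos := ⟨1488565712209574876556441162816858108606653987701392269364170934470288528131826235631884112181742992950685905920067751590335114836107591680, 167463642117045078888399874564979832883002827972636438848241779282032432664390179981388122111089439374174975234001559238423766818090070835200, 7⟩
def a6c1203 : Cert := (move 431 (branch (move 400 (branch (move 399 (leaf 396 2)) (move 432 (branch (move 401 (leaf 397 2)) (move 464 (branch (move 463 (leaf 428 0)) (move 465 (leaf 429 0)))))))) (branch (move 464 (branch (move 463 (leaf 428 0)) (move 432 (branch (move 465 (leaf 429 0)) (move 401 (branch (move 400 (leaf 397 2)) (move 433 (branch (move 402 (leaf 398 2)) (move 397 (branch (move 396 (leaf 396 3)) (move 398 (leaf 397 3)))))))))))) (branch (move 464 (branch (move 463 (leaf 428 0)) (move 432 (branch (move 465 (leaf 429 0)) (move 397 (branch (move 396 (leaf 396 3)) (move 398 (branch (move 433 (leaf 397 3)) (move 427 (branch (move 426 (leaf 394 2)) (move 399 (leaf 395 2)))))))))))) (move 399 (branch (move 400 (leaf 396 2)) (move 427 (branch (move 398 (leaf 395 2)) (move 458 (leaf 426 1))))))))))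
theorem a6p1203 : a6e1203.Valid :=
  pos_of_chk [] forall_nil a6c1203 a6e1203 (by decide +kernel)

def a6e1204 : Pos := ⟨23817051328115957943764423199336640067064643580890183169128035900055098376619982734094048247196929136500412402499416075349276806511471886336, 102293456508662959096771401321833024406612515708424696204049359675071537055182294529543780888541389048254003868300958321751741340679258993595254833152, 6⟩
def a6c1204 : Cert := (move 367 (branch (move 366 (branch (move 334 (leaf 334 7)) (move 398 (branch (move 495 (leaf 366 7)) (move 396 (branch (move 395 (leaf 395 3)) (move 368 (branch (move 397 (leaf 364 2)) (move 336 (leaf 335 6)))))))))) (branch (move 335 (branch (move 462 (leaf 334 5)) (move 336 (branch (move 368 (leaf 335 6)) (move 304 (leaf 303 6)))))) (move 366 (branch (move 334 (leaf 334 7)) (move 398 (branch (move 495 (leaf 366 7)) (move 335 (branch (move 462 (leaf 334 5)) (move 303 (leaf 302 5)))))))))))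
theorem a6p1204 : a6e1204.Valid :=
  pos_of_chk [] forall_nil a6c1204 a6e1204 (by decide +kernel)

def a6e1205 : Pos := ⟨8931394248996589435781516955590024540387941521139529206646630574080034838413020970492080471490681904292894127168233413629729435513121669120, 12786682062094304179739022255794885240458369325935226605365100338698172402804329508530942142394229627127799727476453395927752573564332313474397896704, 9⟩
def a6c1205 : Cert := (move 396 (branch (move 364 (branch (move 332 (leaf 332 4)) (move 363 (branch (move 331 (leaf 331 7)) (move 395 (branch (move 492 (leaf 363 7)) (move 394 (branch (move 393 (leaf 393 0)) (move 397 (leaf 394 0)))))))))) (branch (move 365 (branch (move 364 (branch (move 333 (leaf 332 6)) (move 331 (branch (move 363 (leaf 331 7)) (move 332 (leaf 332 4)))))) (branch (move 397 (branch (move 492 (leaf 364 5)) (move 333 (leaf 332 5)))) (move 364 (branch (move 332 (leaf 332 4)) (branch (move 397 (branch (move 492 (leaf 364 5)) (move 363 (branch (move 331 (leaf 331 7)) (move 398 (branch (move 399 (leaf 363 3)) (move 362 (leaf 362 0)))))))) (move 397 (branch (move 492 (leaf 364 5)) (move 332 (leaf 332 4))))))))))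 (branch (move 364 (branch (move 332 (leaf 332 4)) (branch (move 332 (leaf 332 4)) (move 363 (branch (move 331 (leaf 331 7)) (move 365 (branch (move 333 (leaf 332 6)) (move 395 (branch (move 492 (leaf 363 7)) (move 394 (branch (move 393 (leaf 393 0)) (move 366 (leaf 362 1))))))))))))) (branch (move 364 (branch (move 332 (leaf 332 4)) (branch (move 332 (leaf 332 4)) (branch (move 333 (branch (move 365 (leaf 332 6)) (move 332 (branch (move 301 (leaf 300 6)) (move 300 (branch (move 397 (leaf 300 4)) (move 299 (branch (move 331 (leaf 299 7)) (move 267 (leaf 267 7)))))))))) (move 365 (branch (move 333 (leaf 332 6)) (move 397 (branch (move 492 (leaf 364 5)) (move 395 (branch (move 394 (leaf 394 0)) (move 366 (branch (move 367 (leaf 363 1)) (move 334 (leaf 333 6)))))))))))))) (branch (move 364 (branch (move 332 (leaf 332 4)) (branch (move 332 (leaf 332 4)) (branch (move 333 (branch (move 365 (leaf 332 6)) (move 332 (branch (move 301 (leaf 300 6)) (move 331 (branch (move 363 (leaf 331 7)) (move 299 (leaf 299 7)))))))) (move 397 (branch (move 363 (branch (move 331 (leaf 331 7)) (move 398 (branch (move 399 (leaf 363 3)) (move 362 (branch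 (move 395 (leaf 362 3)) (move 361 (leaf 361 0)))))))) (branch (move 365 (branch (move 333 (leaf 332 5)) (move 363 (branch (move 331 (leaf 331 7)) (move 362 (branch (move 361 (leaf 361 0)) (move 394 (branch (move 393 (leaf 361 1)) (move 366 (branch (move 395 (leaf 394 0)) (move 334 (leaf 333 6)))))))))))) (branch (move 365 (branch (move 333 (leaf 332 5)) (move 363 (branch (move 331 (leaf 331 7)) (move 398 (branch (move 399 (leaf 363 3)) (move 362 (leaf 362 0)))))))) (move 365 (branch (move 333 (leaf 332 5)) (move 395 (branch (move 394 (leaf 394 0)) (move 366 (branch (move 367 (leaf 363 1)) (move 334 (leaf 333 6)))))))))))))))) (move 397 (branch (move 365 (branch (move 492 (leaf 364 5)) (move 333 (leaf 332 5)))) (branch (move 395 (branch (move 394 (leaf 394 0)) (move 363 (branch (move 492 (leaf 363 7)) (move 398 (branch (move 362 (leaf 362 3)) (move 366 (branch (move 367 (leaf 363 2)) (move 334 (leaf 333 5)))))))))) (move 365 (branch (move 333 (leaf 332 5)) (move 366 (branch (move 334 (leaf 333 6)) (move 395 (branch (move 394 (leaf 394 0)) (move 367 (branch (move 398 (leaf 363 2)) (move 368 (leaf 364 1)))))))))))))))))))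
theorem a6p1205 : a6e1205.Valid :=
  pos_of_chk [] forall_nil a6c1205 a6e1205 (by decide +kernel)

def a6e1206 : Pos := ⟨7442828538173349406285483222562373523852829385156355474970367927194986100588505388763009170828926114394278010296861267520096106591501156352, 115080138931734447353483718119899484506514200592533771647417754629147478293771276956869550020339434684613197769578132568045978387888673502170955382784, 12⟩
def a6c1206 : Cert := (move 430 (branch (move 460 (branch (move 458 (leaf 426 2)) (move 431 (branch (move 462 (leaf 427 2)) (move 432 (leaf 428 1)))))) (branch (move 431 (branch (move 432 (branch (move 460 (leaf 428 1)) (move 433 (branch (move 462 (leaf 429 1)) (move 401 (branch (move 400 (leaf 397 2)) (move 402 (leaf 398 2)))))))) (branch (move 428 (branch (move 460 (leaf 427 1)) (move 463 (branch (move 464 (leaf 428 0)) (move 427 (branch (move 462 (leaf 427 0)) (move 395 (branch (move 394 (leaf 394 3)) (move 396 (leaf 395 3)))))))))) (ref 0)))) (branch (move 428 (branch (move 427 (branch (move 458 (leaf 426 1)) (move 398 (branch (move 399 (leaf 395 2)) (move 426 (branch (move 397 (leaf 394 2)) (move 394 (branch (move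 393 (leaf 393 3)) (move 395 (leaf 394 3)))))))))) (branch (move 431 (branch (move 460 (leaf 427 1)) (move 396 (branch (move 395 (leaf 395 3)) (move 432 (branch (move 397 (leaf 396 3)) (move 464 (branch (move 463 (leaf 428 0)) (move 465 (leaf 429 0)))))))))) (branch (move 427 (branch (move 458 (leaf 426 1)) (move 395 (branch (move 394 (leaf 394 3)) (move 431 (branch (move 396 (leaf 395 3)) (move 464 (branch (move 463 (leaf 428 0)) (move 432 (branch (move 465 (leaf 429 0)) (move 400 (branch (move 399 (leaf 396 2)) (move 401 (leaf 397 2)))))))))))))) (ref 1))))) (branch (move 428 (branch (move 427 (branch (move 458 (leaf 426 1)) (move 398 (branch (move 399 (leaf 395 2)) (move 426 (branch (move 397 (leaf 394 2)) (move 394 (branch (move 393 (leaf 393 3)) (move 395 (leaf 394 3)))))))))) (branch (move 427 (branch (move 458 (leaf 426 1)) (move 395 (branch (move 394 (leaf 394 3)) (move 431 (branch (move 396 (leaf 395 3)) (move 463 (branch (move 462 (leaf 427 0)) (move 464 (leaf 428 0)))))))))) (branch (move 427 (branch (move 458 (leaf 426 1)) (move 398 (branch (move 399 (leaf 395 2)) (move 397 (branch (move 426 (leaf 394 2)) (move 463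 (branch (move 462 (leaf 427 0)) (move 431 (branch (move 464 (leaf 428 0)) (move 432 (branch (move 396 (leaf 396 3)) (move 433 (leaf 397 3)))))))))))))) (move 431 (branch (move 400 (branch (move 399 (leaf 396 2)) (move 432 (branch (move 401 (leaf 397 2)) (move 464 (branch (move 463 (leaf 428 0)) (move 465 (leaf 429 0)))))))) (branch (move 396 (branch (move 395 (leaf 395 3)) (move 432 (branch (move 397 (leaf 396 3)) (move 464 (branch (move 463 (leaf 428 0)) (move 465 (leaf 429 0)))))))) (branch (move 396 (branch (move 395 (leaf 395 3)) (move 432 (branch (move 397 (leaf 396 3)) (move 400 (branch (move 399 (leaf 396 2)) (move 401 (leaf 397 2)))))))) (move 463 (branch (move 464 (leaf 428 0)) (move 399 (branch (move 400 (leaf 396 2)) (ref 2))))))))))))) (move 428 (branch (move 458 (branch (move 427 (leaf 426 1)) (move 460 (leaf 426 2)))) (branch (move 427 (branch (move 462 (branch (move 426 (leaf 426 0)) (move 463 (leaf 427 0)))) (branch (move 394 (branch (move 395 (leaf 394 3)) (move 426 (branch (move 393 (leaf 393 3)) (move 398 (branch (move 397 (leaf 394 2)) (move 399 (leaf 395 2)))))))) (move 398 (branch (move 399 (leaf 395 2))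 (move 462 (branch (move 463 (leaf 427 0)) (move 366 (branch (move 334 (leaf 333 5)) (move 365 (branch (move 333 (leaf 333 7)) (move 367 (branch (move 335 (leaf 334 6)) (move 395 (branch (move 394 (leaf 394 3)) (move 396 (branch (move 397 (leaf 363 2)) (move 364 (leaf 363 1))))))))))))))))))) (move 460 (branch (move 458 (leaf 426 2)) (ref 3)))))))))))
theorem a6p1206 : a6e1206.Valid :=
  pos_of_chk [a6e1202, a6e1203, a6e1204, a6e1205] (forall_cons a6p1202 (forall_cons a6p1203 (forall_cons a6p1204 (forall_cons a6p1205 forall_nil)))) a6c1206 a6e1206 (by decide +kernel)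

def a6e1207 : Pos := ⟨329510287686269266326574066892693888988157970199651826082715533574344209740369950141492609062031013373770419306100020097124063645234564565042947678650536820736, 943490606205385338201042148303548490583924074597428860469453588643039209130017285695653892314380776207081793312324262381258806254315905600564948811391823864662870458368, 13⟩
def a6c1207 : Cert := (move 429 (branch (move 493 (branch (move 558 (leaf 429 4)) (move 430 (branch (move 398 (leaf 397 6)) (move 460 (branch (move 458 (leaf 426 2)) (move 431 (branch (move 462 (leaf 427 2)) (move 432 (leaf 428 1)))))))))) (branch (move 493 (branch (move 558 (leaf 429 4)) (move 396 (branch (move 428 (leaf 396 7)) (move 397 (branch (move 364 (leaf 364 7)) (move 398 (branch (move 430 (leaf 397 6)) (move 366 (leaf 365 6)))))))))) (branch (move 493 (branch (move 558 (leaf 429 4)) (move 397 (branch (move 396 (branch (move 428 (leaf 396 7)) (move 364 (leaf 364 7)))) (branch (move 366 (branch (move 398 (leaf 365 6)) (move 365 (branch (move 334 (leaf 333 6)) (move 332 (branch (move 364 (leaf 332 7)) (move 333 (branch (move 300 (leaf 300 7)) (move 460 (branch (move 492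 (leaf 364 5)) (move 428 (leaf 332 5)))))))))))) (branch (move 428 (branch (move 396 (leaf 396 7)) (move 366 (branch (move 398 (leaf 365 6)) (move 365 (branch (move 334 (leaf 333 6)) (move 460 (branch (move 492 (leaf 364 5)) (move 333 (leaf 332 5)))))))))) (move 366 (branch (move 398 (leaf 365 6)) (move 365 (branch (move 334 (leaf 333 6)) (move 364 (branch (move 396 (leaf 364 7)) (move 332 (leaf 332 7)))))))))))))) (branch (move 493 (branch (move 558 (leaf 429 4)) (move 428 (branch (move 396 (leaf 396 7)) (move 427 (branch (move 462 (branch (move 426 (leaf 426 0)) (move 463 (branch (move 464 (leaf 428 3)) (move 430 (leaf 427 0)))))) (branch (move 426 (branch (move 462 (leaf 426 0)) (move 425 (branch (move 460 (leaf 425 0)) (move 393 (branch (move 392 (leaf 392 3)) (move 394 (leaf 393 3)))))))) (move 458 (branch (move 430 (leaf 426 1)) (move 457 (branch (move 456 (leaf 424 2)) (move 460 (leaf 425 2))))))))))))) (ref 0))))))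
theorem a6p1207 : a6e1207.Valid :=
  pos_of_chk [a6e1206] (forall_cons a6p1206 forall_nil) a6c1207 a6e1207 (by decide +kernel)

def a6e1208 : Pos := ⟨9704343929422852008524449644500792962027529763815358013096678532151174577319689680639910421364488523340869238364912501401409552384, 306880369847519070112785269270337445297782281836805287222689548554790953163487308837547161971627650179027814560218545923806942754288918368677819056128, 9⟩
def a6c1208 : Cert := (move 432 (branch (move 465 (branch (move 464 (leaf 429 0)) (move 433 (branch (move 466 (leaf 430 0)) (move 401 (branch (move 400 (leaf 397 2)) (move 402 (leaf 398 2)))))))) (branch (move 397 (branch (move 396 (leaf 396 3)) (move 433 (branch (move 398 (leaf 397 3)) (move 465 (branch (move 464 (leaf 429 0)) (move 466 (leaf 430 0)))))))) (branch (move 397 (branch (move 396 (leaf 396 3)) (move 433 (branch (move 398 (leaf 397 3)) (move 401 (branch (move 400 (leaf 397 2)) (move 402 (leaf 398 2)))))))) (move 400 (branch (move 401 (leaf 397 2)) (move 368 (branch (move 464 (branch (move 465 (leaf 429 0)) (move 463 (branch (move 495 (leaf 367 5)) (move 336 (leaf 335 5)))))) (branch (move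 336 (branch (move 463 (leaf 335 5)) (move 304 (branch (move 399 (leaf 303 5)) (move 303 (branch (move 335 (leaf 303 7)) (move 271 (leaf 271 7)))))))) (move 464 (branch (move 465 (leaf 429 0)) (move 367 (branch (move 335 (leaf 335 7)) (move 399 (branch (move 496 (leaf 367 7)) (move 397 (branch (move 396 (leaf 396 3)) (move 369 (branch (move 398 (leaf 365 2)) (move 337 (leaf 336 6)))))))))))))))))))))
theorem a6p1208 : a6e1208.Valid :=
  pos_of_chk [] forall_nil a6c1208 a6e1208 (by decide +kernel)

def a6e1209 : Pos := ⟨5954262833588616188561282923586154421639655581905165162889692574443516419146887749596595522007112738229975944144619346073620814285072498688, 306880371002646059161803164765500296924711763292683656650340300007592070797459004851725678099571459711260946117444940401205516920962057364993552154624, 10⟩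
def a6c1209 : Cert := (move 431 (branch (ref 0) (branch (move 428 (branch (move 400 (branch (move 399 (leaf 396 2)) (move 432 (branch (move 401 (leaf 397 2)) (move 464 (branch (move 463 (leaf 428 0)) (move 465 (leaf 429 0)))))))) (branch (move 399 (branch (move 400 (leaf 396 2)) (move 427 (branch (move 398 (leaf 395 2)) (move 395 (branch (move 394 (leaf 394 3)) (move 396 (leaf 395 3)))))))) (move 463 (branch (move 464 (leaf 428 0)) (move 427 (branch (move 462 (leaf 427 0)) (move 395 (branch (move 394 (leaf 394 3)) (move 396 (leaf 395 3))))))))))) (branch (move 432 (branch (move 465 (branch (move 464 (leaf 429 0)) (move 433 (branch (move 466 (leaf 430 0)) (move 401 (branch (move 400 (leaf 397 2)) (move 402 (leaf 398 2)))))))) (branch (move 400 (branch (move 401 (leaf 397 2)) (move 464 (branch (move 465 (leaf 429 0)) (move 428 (branch (move 399 (leaf 396 2)) (move 463 (leaf 428 0)))))))) (branch (move 465 (branch (move 464 (leaf 429 0)) (move 433 (branch (move 466 (leaf 430 0)) (move 402 (branch (move 401 (leaf 398 2)) (move 434 (branch (move 403 (leaf 399 2)) (move 398 (branch (move 397 (leaf 397 3)) (move 399 (leaf 398 3))))))))))))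 (branch (move 401 (branch (move 400 (leaf 397 2)) (move 433 (branch (move 402 (leaf 398 2)) (move 398 (branch (move 397 (leaf 397 3)) (move 434 (branch (move 399 (leaf 398 3)) (move 466 (branch (move 465 (leaf 430 0)) (move 467 (leaf 431 0)))))))))))) (branch (move 401 (branch (move 400 (leaf 397 2)) (move 433 (branch (move 402 (leaf 398 2)) (move 398 (branch (move 397 (leaf 397 3)) (move 399 (branch (move 434 (leaf 398 3)) (move 428 (branch (move 427 (leaf 395 2)) (move 463 (branch (move 464 (leaf 428 0)) (move 366 (branch (move 495 (leaf 366 7)) (move 334 (leaf 334 4)))))))))))))))) (move 464 (branch (move 465 (leaf 429 0)) (move 428 (branch (move 463 (leaf 428 0)) (move 399 (branch (move 400 (leaf 396 2)) (move 398 (branch (move 427 (leaf 395 2)) (move 433 (branch (move 397 (leaf 397 3)) (move 434 (leaf 398 3)))))))))))))))))) (branch (move 432 (branch (move 400 (branch (move 401 (leaf 397 2)) (move 428 (branch (move 399 (leaf 396 2)) (move 396 (branch (move 395 (leaf 395 3)) (move 397 (leaf 396 3)))))))) (branch (move 397 (branch (move 396 (leaf 396 3)) (move 433 (branch (move 398 (leaf 397 3)) (move 402 (branch (move 401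 (leaf 398 2)) (move 434 (branch (move 403 (leaf 399 2)) (move 466 (branch (move 465 (leaf 430 0)) (move 467 (leaf 431 0)))))))))))) (branch (move 433 (branch (move 401 (branch (move 400 (leaf 397 2)) (move 402 (leaf 398 2)))) (branch (move 466 (branch (move 465 (leaf 430 0)) (move 434 (branch (move 467 (leaf 431 0)) (move 402 (branch (move 401 (leaf 398 2)) (move 403 (leaf 399 2)))))))) (branch (move 466 (branch (move 465 (leaf 430 0)) (move 434 (branch (move 467 (leaf 431 0)) (move 399 (branch (move 398 (leaf 398 3)) (move 435 (branch (move 400 (leaf 399 3)) (move 403 (branch (move 402 (leaf 399 2)) (move 404 (leaf 400 2)))))))))))) (move 400 (branch (move 401 (leaf 397 2)) (move 399 (branch (move 428 (leaf 396 2)) (move 434 (branch (move 398 (leaf 398 3)) (move 435 (leaf 399 3)))))))))))) (move 428 (branch (move 396 (branch (move 395 (leaf 395 3)) (move 397 (leaf 396 3)))) (branch (move 399 (branch (move 400 (leaf 396 2)) (move 427 (branch (move 398 (leaf 395 2)) (move 395 (branch (move 394 (leaf 394 3)) (move 396 (leaf 395 3)))))))) (move 399 (branch (move 400 (leaf 396 2)) (move 398 (branch (move 427 (leaf 395 2)) (move 433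 (branch (move 397 (leaf 397 3)) (move 434 (leaf 398 3))))))))))))))) (branch (move 428 (branch (move 399 (branch (move 400 (leaf 396 2)) (move 427 (branch (move 398 (leaf 395 2)) (move 395 (branch (move 394 (leaf 394 3)) (move 396 (leaf 395 3)))))))) (branch (move 463 (branch (move 464 (leaf 428 0)) (move 427 (branch (move 462 (leaf 427 0)) (move 395 (branch (move 394 (leaf 394 3)) (move 396 (leaf 395 3)))))))) (branch (move 399 (branch (move 400 (leaf 396 2)) (move 463 (branch (move 464 (leaf 428 0)) (move 398 (branch (move 427 (leaf 395 2)) (move 366 (branch (move 495 (leaf 366 7)) (move 334 (leaf 334 4)))))))))) (move 463 (branch (move 464 (leaf 428 0)) (move 399 (branch (move 400 (leaf 396 2)) (ref 1))))))))) (branch (ref 2) (move 432 (branch (move 464 (branch (move 465 (leaf 429 0)) (move 428 (branch (move 463 (leaf 428 0)) (move 396 (branch (move 395 (leaf 395 3)) (move 397 (leaf 396 3)))))))) (branch (move 397 (branch (move 396 (leaf 396 3)) (move 433 (branch (move 398 (leaf 397 3)) (move 402 (branch (move 401 (leaf 398 2)) (move 434 (branch (move 403 (leaf 399 2)) (move 466 (branch (move 465 (leaf 430 0)) (move 467 (leaf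 431 0)))))))))))) (branch (move 397 (branch (move 396 (leaf 396 3)) (move 433 (branch (move 398 (leaf 397 3)) (move 402 (branch (move 401 (leaf 398 2)) (move 434 (branch (move 403 (leaf 399 2)) (move 467 (branch (move 466 (leaf 431 0)) (move 435 (branch (move 468 (leaf 432 0)) (move 463 (branch (move 462 (leaf 429 1)) (move 464 (leaf 431 1)))))))))))))))) (move 433 (branch (move 465 (branch (move 464 (leaf 429 0)) (move 466 (leaf 430 0)))) (branch (move 466 (branch (move 465 (leaf 430 0)) (move 434 (branch (move 467 (leaf 431 0)) (move 402 (branch (move 401 (leaf 398 2)) (move 403 (leaf 399 2)))))))) (move 402 (branch (move 401 (leaf 398 2)) (move 434 (branch (move 403 (leaf 399 2)) (move 463 (branch (move 462 (leaf 429 1)) (move 464 (branch (move 428 (leaf 428 0)) (move 435 (leaf 431 1))))))))))))))))))))))))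
theorem a6p1209 : a6e1209.Valid :=
  pos_of_chk [a6e1202, a6e1204, a6e1208] (forall_cons a6p1202 (forall_cons a6p1204 (forall_cons a6p1208 forall_nil))) a6c1209 a6e1209 (by decide +kernel)

def a6e1210 : Pos := ⟨329510287686269266326574066892693888988157970199651826082715533574344209740369950141492609062031013373770419306100020097124063645234564565042947678650536820736, 943490606205385338456775790688094825421759137463054002350259512406204305446499498577335127866758724032563627800617708103617659702552133622028264311272885332448305479680, 14⟩
def a6c1210 : Cert := (move 429 (branch (move 493 (branch (move 558 (leaf 429 4)) (move 397 (branch (move 494 (leaf 397 4)) (move 396 (branch (move 428 (leaf 396 7)) (move 364 (leaf 364 7)))))))) (branch (move 493 (branch (move 558 (leaf 429 4)) (move 430 (branch (move 398 (leaf 397 6)) (move 460 (branch (move 458 (leaf 426 2)) (move 431 (branch (move 462 (leaf 427 2)) (move 432 (leaf 428 1)))))))))) (branch (move 493 (branch (move 397 (branch (move 494 (leaf 397 4)) (move 396 (branch (move 428 (leaf 396 7)) (move 364 (leaf 364 7)))))) (branch (move 397 (branch (move 494 (leaf 397 4)) (move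 398 (branch (move 430 (leaf 397 6)) (move 366 (leaf 365 6)))))) (move 430 (branch (move 398 (leaf 397 6)) (move 460 (branch (move 458 (leaf 426 2)) (move 428 (branch (move 431 (leaf 427 1)) (move 396 (leaf 396 7))))))))))) (move 430 (branch (move 460 (branch (move 458 (leaf 426 2)) (move 431 (branch (move 462 (leaf 427 2)) (move 432 (leaf 428 1)))))) (branch (ref 0) (branch (move 431 (branch (move 460 (branch (move 428 (leaf 427 1)) (move 458 (leaf 426 2)))) (branch (ref 1) (move 428 (branch (move 460 (leaf 427 1)) (move 399 (branch (move 400 (leaf 396 2)) (move 463 (branch (move 464 (leaf 428 0)) (move 495 (branch (move 494 (leaf 398 5)) (move 366 (branch (move 398 (leaf 366 7)) (move 367 (branch (move 334 (leaf 334 7)) (move 396 (branch (move 395 (leaf 395 3)) (move 368 (branch (move 336 (leaf 335 6)) (move 365 (branch (move 397 (leaf 364 1)) (move 332 (branch (move 333 (leaf 332 3)) (move 364 (leaf 332 4))))))))))))))))))))))))) (move 460 (branch (move 458 (leaf 426 2)) (move 428 (branch (move 462 (branch (move 463 (branch (move 427 (leaf 427 0)) (move 464 (leaf 428 3)))) (move 494 (branch (move 495 (leaf 459 0)) (move 558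 (leaf 429 7)))))) (ref 2)))))))))))))
theorem a6p1210 : a6e1210.Valid :=
  pos_of_chk [a6e1209, a6e1208, a6e1205] (forall_cons a6p1209 (forall_cons a6p1208 (forall_cons a6p1205 forall_nil))) a6c1210 a6e1210 (by decide +kernel)

def a6e1211 : Pos := ⟨5954262830815946494763249298843757173852324438261567950902348008252711619201165097221184162808274170258209505398083731990017737449713696768, 9965870624350174937806251514860013703722665914538306271061726274260847089272337173341911252435045595702086847357020798976, 7⟩
def a6c1211 : Cert := (move 364 (branch (move 332 (leaf 332 7)) (move 366 (branch (move 334 (leaf 333 6)) (move 367 (branch (move 336 (branch (move 335 (leaf 332 2)) (move 368 (branch (move 337 (leaf 333 2)) (move 400 (branch (move 399 (leaf 364 0)) (move 401 (leaf 365 0)))))))) (branch (move 399 (branch (move 400 (leaf 364 0)) (move 363 (branch (move 398 (leaf 363 0)) (move 395 (branch (move 394 (leaf 362 1)) (move 396 (leaf 363 1)))))))) (move 396 (branch (move 395 (leaf 363 1)) (move 368 (leaf 364 1)))))))))))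
theorem a6p1211 : a6e1211.Valid :=
  pos_of_chk [] forall_nil a6c1211 a6e1211 (by decide +kernel)

def a6e1212 : Pos := ⟨10419959952888155230298294774432503670272334295031986734174565007142537563804815702274668667304606828259866967956144761265341731358900224000, 12786682109728406858108972737176461676500068279592618211612615677478478186122162267617075915017656037131635436497372403262300997210051116140131778560, 12⟩
def a6c1212 : Cert := (move 395 (branch (move 427 (branch (move 363 (branch (move 492 (leaf 363 4)) (move 332 (branch (move 364 (leaf 331 6)) (move 331 (branch (move 300 (leaf 299 6)) (move 330 (branch (move 362 (leaf 330 7)) (move 298 (leaf 298 7)))))))))) (move 426 (branch (move 396 (branch (move 398 (leaf 394 1)) (move 425 (branch (move 424 (leaf 424 0)) (move 394 (leaf 393 1)))))) (branch (move 398 (branch (move 428 (leaf 394 2)) (move 396 (leaf 394 1)))) (move 425 (branch (move 424 (leaf 424 0)) (move 428 (leaf 425 0))))))))) (branch (move 427 (branch (move 363 (branch (move 492 (leaf 363 4)) (move 332 (branch (move 364 (leaf 331 6)) (move 331 (branch (move 300 (leaf 299 6)) (move 330 (branch (move 362 (leaf 330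 7)) (move 298 (leaf 298 7)))))))))) (move 428 (branch (move 430 (branch (move 394 (leaf 394 3)) (move 431 (leaf 427 1)))) (move 426 (branch (move 398 (leaf 394 2)) (move 425 (leaf 425 0)))))))) (branch (move 430 (branch (move 431 (branch (move 428 (leaf 427 1)) (move 432 (leaf 428 1)))) (branch (move 396 (branch (move 394 (leaf 394 0)) (move 431 (branch (move 432 (leaf 428 1)) (move 398 (leaf 395 0)))))) (move 396 (branch (move 394 (leaf 394 0)) (move 398 (branch (move 366 (branch (move 367 (leaf 363 2)) (move 334 (leaf 333 5)))) (move 363 (branch (move 362 (leaf 362 3)) (move 428 (branch (move 492 (leaf 363 7)) (move 364 (branch (move 399 (leaf 363 3)) (move 331 (leaf 331 7))))))))))))))) (branch (move 430 (branch (move 431 (branch (move 428 (leaf 427 1)) (move 432 (leaf 428 1)))) (branch (move 396 (branch (move 394 (leaf 394 0)) (move 431 (branch (move 432 (leaf 428 1)) (move 398 (leaf 395 0)))))) (move 394 (branch (move 396 (leaf 394 0)) (move 427 (branch (move 428 (leaf 394 3)) (move 363 (branch (move 492 (leaf 363 4)) (move 332 (branch (move 364 (leaf 331 6)) (move 331 (branch (move 300 (leaf 299 6)) (move 299 (branch (move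 426 (leaf 298 5)) (move 298 (branch (move 330 (leaf 298 7)) (move 266 (leaf 266 7))))))))))))))))))) (branch (move 396 (branch (move 430 (branch (move 394 (leaf 394 0)) (move 431 (branch (move 432 (leaf 428 1)) (move 398 (leaf 395 0)))))) (branch (move 394 (branch (move 430 (leaf 394 0)) (move 393 (branch (move 428 (leaf 393 0)) (move 361 (branch (move 360 (leaf 360 3)) (move 362 (leaf 361 3)))))))) (branch (move 398 (branch (move 430 (branch (move 431 (leaf 395 0)) (move 366 (branch (move 367 (leaf 363 2)) (move 334 (leaf 333 5)))))) (branch (move 427 (branch (move 426 (leaf 394 1)) (move 399 (branch (move 428 (leaf 395 1)) (move 367 (branch (move 366 (leaf 363 2)) (move 368 (leaf 364 2)))))))) (move 431 (branch (move 430 (leaf 395 0)) (move 399 (branch (move 432 (leaf 396 0)) (move 428 (branch (move 427 (leaf 395 1)) (move 400 (leaf 396 1))))))))))) (move 394 (branch (move 393 (branch (move 428 (leaf 393 0)) (move 361 (branch (move 360 (leaf 360 3)) (move 362 (leaf 361 3)))))) (branch (move 361 (branch (move 362 (leaf 361 3)) (move 393 (branch (move 360 (leaf 360 3)) (move 425 (branch (move 424 (leaf 392 1)) (move 426 (leaf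 393 1)))))))) (move 426 (branch (move 425 (leaf 393 1)) (move 398 (branch (move 427 (leaf 394 1)) (move 367 (branch (move 366 (leaf 363 2)) (move 399 (branch (move 368 (leaf 364 2)) (move 400 (branch (move 428 (leaf 396 1)) (move 432 (branch (move 431 (leaf 396 0)) (move 433 (leaf 397 0))))))))))))))))))))) (branch (move 363 (branch (move 427 (branch (move 492 (leaf 363 4)) (move 331 (branch (move 428 (leaf 331 4)) (move 330 (branch (move 362 (leaf 330 7)) (move 298 (leaf 298 7)))))))) (branch (move 427 (branch (move 492 (leaf 363 4)) (move 331 (branch (move 428 (leaf 331 4)) (move 332 (branch (move 364 (leaf 331 6)) (move 300 (leaf 299 6)))))))) (branch (move 427 (branch (move 331 (branch (move 428 (leaf 331 4)) (move 330 (branch (move 362 (leaf 330 7)) (move 298 (leaf 298 7)))))) (branch (move 331 (branch (move 428 (leaf 331 4)) (move 332 (branch (move 364 (leaf 331 6)) (move 300 (leaf 299 6)))))) (move 364 (branch (move 332 (leaf 331 6)) (move 362 (branch (move 330 (leaf 330 7)) (move 361 (branch (move 396 (leaf 361 0)) (move 392 (branch (move 393 (leaf 360 1)) (move 360 (branch (move 391 (leaf 359 1)) (move 328 (branch (move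 327 (leaf 327 3)) (move 329 (leaf 328 3))))))))))))))))) (branch (move 427 (branch (move 492 (leaf 363 4)) (move 364 (branch (move 332 (leaf 331 6)) (move 362 (branch (move 330 (leaf 330 7)) (move 361 (branch (move 396 (leaf 361 0)) (move 392 (branch (move 393 (leaf 360 1)) (move 360 (branch (move 391 (leaf 359 1)) (move 328 (branch (move 327 (leaf 327 3)) (move 329 (leaf 328 3)))))))))))))))) (move 396 (branch (move 394 (branch (move 430 (leaf 394 0)) (move 425 (branch (move 426 (leaf 393 1)) (move 393 (branch (move 424 (leaf 392 1)) (move 361 (branch (move 360 (leaf 360 3)) (move 362 (leaf 361 3)))))))))) (move 428 (branch (move 492 (leaf 363 7)) (move 364 (branch (move 331 (leaf 331 7)) (move 332 (leaf 332 4))))))))))))) (branch (move 427 (branch (move 363 (branch (move 492 (leaf 363 4)) (move 332 (branch (move 364 (leaf 331 6)) (move 331 (branch (move 300 (leaf 299 6)) (move 330 (branch (move 362 (leaf 330 7)) (move 298 (leaf 298 7)))))))))) (move 398 (branch (move 396 (branch (move 426 (leaf 394 1)) (move 430 (branch (move 431 (leaf 395 0)) (move 366 (branch (move 367 (leaf 363 2)) (move 334 (leaf 333 5)))))))) (branch (move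 428 (branch (move 426 (leaf 394 2)) (move 430 (branch (move 399 (leaf 395 2)) (move 431 (leaf 427 1)))))) (branch (move 426 (branch (move 428 (leaf 394 2)) (move 396 (leaf 394 1)))) (move 430 (branch (move 431 (branch (move 428 (leaf 427 1)) (move 432 (leaf 428 1)))) (branch (move 396 (branch (move 431 (leaf 395 0)) (move 366 (branch (move 367 (leaf 363 2)) (move 334 (leaf 333 5)))))) (move 399 (branch (move 428 (leaf 395 2)) (move 366 (branch (move 334 (leaf 333 5)) (move 367 (branch (move 396 (leaf 363 2)) (move 400 (branch (move 401 (leaf 397 1)) (move 368 (branch (move 369 (leaf 365 1)) (move 335 (branch (move 303 (leaf 302 5)) (move 432 (branch (move 433 (leaf 397 0)) (move 464 (leaf 335 7))))))))))))))))))))))))) (move 427 (branch (move 363 (branch (move 492 (leaf 363 4)) (move 332 (branch (move 364 (leaf 331 6)) (move 331 (branch (move 300 (leaf 299 6)) (move 330 (branch (move 362 (leaf 330 7)) (move 298 (leaf 298 7)))))))))) (branch (move 396 (branch (move 430 (branch (move 394 (leaf 394 0)) (move 431 (branch (move 432 (leaf 428 1)) (move 398 (leaf 395 0)))))) (branch (move 394 (branch (move 430 (leaf 394 0)) (move 425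 (branch (move 426 (leaf 393 1)) (move 393 (branch (move 424 (leaf 392 1)) (move 361 (branch (move 360 (leaf 360 3)) (move 362 (leaf 361 3)))))))))) (branch (move 398 (branch (move 426 (leaf 394 1)) (move 430 (branch (move 431 (leaf 395 0)) (move 366 (branch (move 367 (leaf 363 2)) (move 334 (leaf 333 5)))))))) (move 426 (branch (move 398 (leaf 394 1)) (move 425 (branch (move 424 (leaf 424 0)) (move 394 (leaf 393 1)))))))))) (move 363 (branch (move 492 (leaf 363 4)) (move 332 (branch (move 364 (leaf 331 6)) (move 331 (branch (move 300 (leaf 299 6)) (move 298 (branch (move 330 (leaf 298 7)) (move 299 (branch (move 266 (leaf 266 7)) (move 426 (branch (move 394 (leaf 298 5)) (move 398 (branch (move 396 (leaf 394 1)) (move 334 (branch (move 333 (leaf 298 3)) (move 366 (branch (move 430 (leaf 333 5)) (move 302 (leaf 301 5)))))))))))))))))))))))))))))))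
theorem a6p1212 : a6e1212.Valid :=
  pos_of_chk [] forall_nil a6c1212 a6e1212 (by decide +kernel)

def a6e1213 : Pos := ⟨22328485610361043677675227378319499295343862600314410811847378918829238930843584204580589077926816734026624663744496986118182962031042232320, 5594173403468753075324557995789238277124749820546819482694623146397539601073685804445867194128706148057448776110898094590577105399946219811409756160, 7⟩
def a6c1213 : Cert := (move 458 (branch (move 426 (branch (move 425 (leaf 425 3)) (move 427 (leaf 426 3)))) (branch (move 425 (branch (move 426 (leaf 425 3)) (move 457 (branch (move 424 (leaf 424 3)) (move 489 (branch (move 488 (leaf 456 1)) (move 490 (leaf 457 1)))))))) (branch (move 489 (branch (move 490 (leaf 457 1)) (move 457 (branch (move 488 (leaf 456 1)) (move 428 (branch (move 429 (leaf 425 2)) (move 427 (branch (move 456 (leaf 424 2)) (move 426 (leaf 426 3)))))))))) (move 489 (branch (move 490 (leaf 457 1)) (move 457 (branch (move 488 (leaf 456 1)) (move 424 (branch (move 425 (leaf 424 3)) (move 456 (branch (move 423 (leaf 423 3)) (move 428 (branch (move 427 (leaf 424 2)) (move 429 (leaf 425 2))))))))))))))))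
theorem a6p1213 : a6e1213.Valid :=
  pos_of_chk [] forall_nil a6c1213 a6e1213 (by decide +kernel)

def a6e1214 : Pos := ⟨219673525124179510921100665376611864484282354044115505118598040881190948717506767649736487838741236274490581576657445360704269654980660309422977101106960662528, 943490606205385338213828830039832975532279560388921928652673409651242146129044864037974492971610791124227845064071809007512022715596180715717766685816867873387720998912, 8⟩
def a6c1214 : Cert := (move 494 (branch (move 558 (branch (move 431 (leaf 430 6)) (move 429 (leaf 429 7)))) (branch (move 431 (branch (move 558 (leaf 430 6)) (move 399 (branch (move 430 (leaf 398 6)) (move 367 (leaf 366 5)))))) (branch (move 429 (branch (move 558 (leaf 429 7)) (move 397 (branch (move 430 (leaf 397 7)) (move 365 (leaf 365 4)))))) (move 430 (branch (move 397 (branch (move 429 (leaf 397 7)) (move 398 (branch (move 365 (leaf 365 7)) (move 366 (branch (move 495 (leaf 366 4)) (move 367 (branch (move 399 (leaf 366 6)) (move 335 (leaf 334 6)))))))))) (branch (move 397 (branch (move 429 (leaf 397 7)) (move 398 (branch (move 365 (leaf 365 7)) (move 366 (branch (move 495 (leaf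 366 4)) (move 334 (branch (move 431 (leaf 334 4)) (move 335 (branch (move 367 (leaf 334 6)) (move 303 (leaf 302 6)))))))))))) (branch (move 398 (branch (move 399 (branch (move 431 (leaf 398 6)) (move 367 (leaf 366 6)))) (branch (move 367 (branch (move 399 (leaf 366 6)) (move 366 (branch (move 335 (leaf 334 6)) (move 365 (branch (move 397 (leaf 365 7)) (move 333 (leaf 333 7)))))))) (branch (move 365 (branch (move 397 (leaf 365 7)) (move 366 (branch (move 333 (leaf 333 7)) (move 334 (branch (move 431 (leaf 334 4)) (move 335 (branch (move 367 (leaf 334 6)) (move 303 (leaf 302 6)))))))))) (move 431 (branch (move 399 (leaf 398 6)) (move 366 (branch (move 334 (leaf 334 4)) (move 365 (branch (move 397 (leaf 365 7)) (move 333 (leaf 333 7)))))))))))) (branch (move 399 (branch (move 431 (leaf 398 6)) (move 398 (branch (move 367 (leaf 366 6)) (move 366 (branch (move 495 (leaf 366 4)) (move 334 (branch (move 429 (leaf 333 5)) (move 333 (branch (move 365 (leaf 333 7)) (move 301 (leaf 301 7)))))))))))) (move 431 (branch (move 399 (leaf 398 6)) (move 429 (branch (move 397 (leaf 397 7)) (move 428 (branch (move 464 (leaf 428 0)) (move 427 (leaf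 427 0)))))))))))))))))
theorem a6p1214 : a6e1214.Valid :=
  pos_of_chk [] forall_nil a6c1214 a6e1214 (by decide +kernel)

def a6e1215 : Pos := ⟨329510287686269266336994026844195709371073076309534259087209336121157601452565393636946253896424686002574694209132534573003155154981996491898099727598356529152, 943490607084079440142655264824677144656883177696186351036975238380973412914322340943345302944181662759012150826214590092508395492776446224480477295989978733654719856640, 9⟩
def a6c1215 : Cert := (move 463 (branch (move 431 (branch (move 494 (branch (move 558 (leaf 430 6)) (move 399 (branch (move 495 (leaf 398 5)) (move 367 (leaf 366 5)))))) (move 432 (branch (move 460 (leaf 428 2)) (move 433 (branch (move 430 (leaf 429 1)) (move 434 (leaf 430 1)))))))) (branch (move 464 (branch (move 429 (branch (move 428 (leaf 428 3)) (move 465 (branch (move 430 (leaf 429 3)) (move 497 (branch (move 496 (leaf 461 0)) (move 498 (leaf 462 0)))))))) (branch (move 433 (branch (move 432 (leaf 429 2)) (move 465 (branch (move 434 (leaf 430 2)) (move 497 (branch (move 496 (leaf 461 0)) (move 498 (leaf 462 0)))))))) (move 428 (branch (move 429 (leaf 428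 3)) (move 432 (branch (move 433 (leaf 429 2)) (move 460 (branch (move 431 (leaf 428 2)) (move 427 (leaf 427 3))))))))))) (branch (move 496 (branch (move 495 (branch (move 460 (leaf 460 0)) (move 497 (branch (move 494 (leaf 493 1)) (move 498 (leaf 462 3)))))) (branch (move 497 (branch (move 464 (leaf 461 0)) (move 495 (branch (move 494 (leaf 493 1)) (move 498 (leaf 462 3)))))) (branch (move 464 (branch (move 497 (leaf 461 0)) (move 432 (branch (move 433 (leaf 429 2)) (move 431 (branch (move 460 (leaf 428 2)) (move 399 (branch (move 528 (leaf 399 7)) (move 367 (leaf 367 4)))))))))) (move 460 (branch (move 495 (leaf 460 0)) (move 428 (branch (move 427 (leaf 427 3)) (move 464 (branch (move 429 (leaf 428 3)) (move 432 (branch (move 431 (leaf 428 2)) (move 433 (leaf 429 2)))))))))))))) (branch (move 429 (branch (move 494 (branch (move 558 (leaf 429 7)) (move 397 (branch (move 430 (leaf 397 7)) (move 365 (leaf 365 4)))))) (branch (move 464 (branch (move 428 (leaf 428 3)) (move 465 (branch (move 430 (leaf 429 3)) (move 497 (branch (move 496 (leaf 461 0)) (move 498 (leaf 462 0)))))))) (move 494 (branch (move 558 (leaf 429 7)) (move 464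 (branch (move 428 (leaf 428 3)) (move 497 (branch (move 496 (leaf 461 0)) (move 465 (branch (move 498 (leaf 462 0)) (move 466 (branch (move 495 (leaf 462 1)) (move 434 (branch (move 433 (leaf 430 2)) (move 435 (leaf 431 2))))))))))))))))) (ref 0))))))
theorem a6p1215 : a6e1215.Valid :=
  pos_of_chk [a6e1214] (forall_cons a6p1214 forall_nil) a6c1215 a6e1215 (by decide +kernel)

def a6e1216 : Pos := ⟨219673525124179510921100665376611864484282354044115505118598040881190948717506767649736487838741236274490581576657445360704269654980660309422977101106960662528, 4717453031905620797294295758011437478942224750397561808403572573096697109759965790009863785661558411253782125552952551294750571078744770320780018496670539831365852987392, 9⟩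
def a6c1216 : Cert := (move 464 (branch (move 433 (branch (move 432 (leaf 429 2)) (move 465 (branch (move 434 (leaf 430 2)) (move 497 (branch (move 496 (leaf 461 0)) (move 498 (leaf 462 0)))))))) (branch (move 497 (branch (move 496 (leaf 461 0)) (move 465 (branch (move 498 (leaf 462 0)) (move 434 (branch (move 433 (leaf 430 2)) (move 466 (branch (move 435 (leaf 431 2)) (move 494 (branch (move 495 (leaf 462 1)) (move 431 (branch (move 430 (leaf 430 3)) (move 558 (leaf 430 6)))))))))))))) (branch (move 433 (branch (move 432 (leaf 429 2)) (move 465 (branch (move 434 (leaf 430 2)) (move 498 (branch (move 497 (leaf 462 0)) (move 466 (branch (move 499 (leaf 463 0)) (move 494 (branch (move 495 (leaf 462 1)) (move 431 (branch (move 430 (leaf 430 3)) (move 558 (leaf 430 6)))))))))))))) (branch (move 431 (branch (move 494 (branch (move 558 (leaf 430 6)) (move 399 (branch (move 495 (leaf 398 5)) (move 367 (leaf 366 5)))))) (branch (move 497 (branch (move 496 (leaf 461 0)) (move 465 (branch (move 498 (leaf 462 0)) (move 466 (branch (move 430 (leaf 430 3)) (move 494 (branch (move 495 (leaf 462 1)) (move 558 (leaf 430 6)))))))))) (move 496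 (branch (move 497 (leaf 461 0)) (move 399 (branch (move 367 (leaf 367 4)) (move 528 (branch (move 560 (leaf 431 7)) (move 432 (leaf 399 7))))))))))) (branch (move 431 (branch (move 494 (branch (move 558 (leaf 430 6)) (move 399 (branch (move 495 (leaf 398 5)) (move 367 (leaf 366 5)))))) (branch (move 432 (branch (move 433 (leaf 429 2)) (move 494 (branch (move 558 (leaf 430 6)) (move 399 (branch (move 430 (leaf 398 6)) (move 367 (leaf 366 5)))))))) (branch (move 433 (branch (move 432 (leaf 429 2)) (move 465 (branch (move 434 (leaf 430 2)) (move 466 (branch (move 430 (leaf 430 3)) (move 494 (branch (move 495 (leaf 462 1)) (move 558 (leaf 430 6)))))))))) (move 496 (branch (move 399 (branch (move 367 (leaf 367 4)) (move 528 (branch (move 560 (leaf 431 7)) (move 495 (leaf 399 4)))))) (branch (move 433 (branch (move 432 (leaf 429 2)) (move 465 (branch (move 434 (leaf 430 2)) (move 466 (branch (move 430 (leaf 430 3)) (move 467 (branch (move 495 (leaf 463 1)) (move 499 (branch (move 498 (leaf 463 0)) (move 500 (leaf 464 0)))))))))))) (move 432 (branch (move 433 (leaf 429 2)) (move 399 (branch (move 528 (leaf 399 7)) (move 367 (leaf 367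 4))))))))))))) (move 432 (branch (move 433 (leaf 429 2)) (move 400 (branch (move 368 (branch (move 495 (leaf 367 5)) (move 336 (branch (move 431 (leaf 335 5)) (move 335 (branch (move 367 (leaf 335 7)) (move 303 (leaf 303 7)))))))) (branch (move 496 (branch (move 497 (leaf 461 0)) (move 399 (branch (move 367 (leaf 367 7)) (move 431 (branch (move 528 (leaf 399 7)) (move 494 (branch (move 558 (leaf 430 6)) (move 430 (leaf 398 6)))))))))) (move 496 (branch (move 497 (leaf 461 0)) (move 368 (branch (move 495 (leaf 367 5)) (move 369 (branch (move 401 (leaf 368 6)) (move 337 (leaf 336 6)))))))))))))))))))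
theorem a6p1216 : a6e1216.Valid :=
  pos_of_chk [] forall_nil a6c1216 a6e1216 (by decide +kernel)

def a6e1217 : Pos := ⟨219673525124179510898772179766250820806607126665796005823254178280876537905659388730907248907897652069909992498730628626677644991236163323304794139075918430208, 943490606205385338232209685460552990850710307490583658446765123038422972536762037008105369452178977523903015398192768053375185965676997841465569112071402935349061615616, 12⟩
def a6c1217 : Cert := (move 429 (branch (move 494 (branch (move 558 (leaf 429 7)) (move 397 (branch (move 430 (leaf 397 7)) (move 365 (leaf 365 4)))))) (branch (move 494 (branch (move 558 (leaf 429 7)) (move 460 (branch (move 495 (leaf 459 0)) (move 426 (branch (move 427 (leaf 426 3)) (move 458 (branch (move 425 (leaf 425 3)) (move 457 (branch (move 428 (leaf 425 2)) (move 489 (branch (move 488 (leaf 456 1)) (move 490 (leaf 457 1)))))))))))))) (move 460 (branch (move 430 (branch (move 458 (leaf 426 2)) (move 431 (leaf 427 2)))) (branch (move 426 (branch (move 427 (leaf 426 3)) (move 458 (branch (move 425 (leaf 425 3)) (move 457 (branch (move 428 (leaf 425 2)) (move 489 (branch (move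 488 (leaf 456 1)) (move 490 (leaf 457 1)))))))))) (move 427 (branch (move 426 (leaf 426 3)) (move 395 (branch (move 363 (branch (move 492 (leaf 363 4)) (move 331 (branch (move 428 (leaf 331 4)) (move 332 (branch (move 364 (leaf 331 6)) (move 300 (leaf 299 6)))))))) (branch (move 430 (branch (move 431 (leaf 427 2)) (move 428 (branch (move 394 (leaf 394 3)) (move 398 (branch (move 399 (leaf 395 2)) (move 366 (branch (move 334 (leaf 333 5)) (move 365 (branch (move 333 (leaf 333 7)) (move 367 (branch (move 335 (leaf 334 6)) (move 396 (branch (move 397 (leaf 363 2)) (move 364 (leaf 363 1)))))))))))))))) (branch (move 363 (branch (move 492 (leaf 363 4)) (move 430 (branch (move 431 (leaf 427 2)) (move 332 (branch (move 364 (leaf 331 6)) (move 331 (branch (move 300 (leaf 299 6)) (move 330 (branch (move 362 (leaf 330 7)) (move 298 (leaf 298 7)))))))))))) (move 430 (branch (move 431 (leaf 427 2)) (move 428 (branch (move 394 (leaf 394 3)) (move 363 (branch (move 492 (leaf 363 4)) (move 331 (leaf 331 4))))))))))))))))))))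
theorem a6p1217 : a6e1217.Valid :=
  pos_of_chk [] forall_nil a6c1217 a6e1217 (by decide +kernel)

def a6e1218 : Pos := ⟨329510287686269266408445180797351049139633803920156656832309696442163716050477006177199818475124155457232579258498348121888354078964386847476285206097691672576, 40522612991505805956189595416971033620092259518632460045420972469082980984951120304866593240581773667181870428352384803171398632989063067501464663939759950091008557817461395685376, 9⟩
def a6c1218 : Cert := (move 432 (branch (move 433 (leaf 429 2)) (move 400 (branch (move 368 (branch (move 495 (leaf 367 5)) (move 336 (branch (move 431 (leaf 335 5)) (move 335 (branch (move 367 (leaf 335 7)) (move 303 (leaf 303 7)))))))) (branch (move 496 (branch (move 497 (leaf 461 0)) (move 368 (branch (move 495 (leaf 367 5)) (move 369 (branch (move 401 (leaf 368 6)) (move 337 (leaf 336 6)))))))) (move 496 (branch (move 497 (leaf 461 0)) (move 399 (branch (move 367 (leaf 367 7)) (move 528 (branch (move 431 (leaf 399 7)) (move 561 (branch (move 529 (leaf 432 4)) (move 560 (branch (move 593 (leaf 464 4)) (move 559 (branch (move 558 (leaf 525 3)) (move 591 (leaf 463 5)))))))))))))))))))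
theorem a6p1218 : a6e1218.Valid :=
  pos_of_chk [] forall_nil a6c1218 a6e1218 (by decide +kernel)

def a6e1219 : Pos := ⟨329510287686269266360811078161914155960593318846408391668909456228159639651869264483697442089324509154127322558921139089298221462976126610424161553764801576960, 40522612991505805956189595422750613912873396547718670009579931373739179774209042864570548988604249345711881157819451806935986299950012618941281640985713931271517562435954764939264, 10⟩
def a6c1219 : Cert := (move 464 (branch (move 433 (branch (move 432 (leaf 429 2)) (move 465 (branch (move 434 (leaf 430 2)) (move 497 (branch (move 496 (leaf 461 0)) (move 498 (leaf 462 0)))))))) (branch (move 497 (branch (move 496 (leaf 461 0)) (move 465 (branch (move 498 (leaf 462 0)) (move 434 (branch (move 433 (leaf 430 2)) (move 466 (branch (move 435 (leaf 431 2)) (move 494 (branch (move 495 (leaf 462 1)) (move 558 (branch (move 431 (leaf 430 6)) (move 429 (leaf 429 7)))))))))))))) (branch (ref 0) (branch (move 431 (branch (move 494 (branch (move 558 (leaf 430 6)) (move 399 (branch (move 495 (leaf 398 5)) (move 367 (leaf 366 5)))))) (branch (move 496 (branch (move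 497 (leaf 461 0)) (move 399 (branch (move 367 (leaf 367 4)) (move 528 (branch (move 560 (leaf 431 7)) (move 432 (leaf 399 7)))))))) (move 494 (branch (move 558 (leaf 430 6)) (move 497 (branch (move 496 (leaf 461 0)) (move 465 (branch (move 498 (leaf 462 0)) (move 466 (branch (move 495 (leaf 462 1)) (move 467 (branch (move 432 (leaf 431 3)) (move 435 (branch (move 434 (leaf 431 2)) (move 436 (leaf 432 2))))))))))))))))) (move 465 (branch (move 433 (branch (move 432 (leaf 429 2)) (move 434 (leaf 430 2)))) (branch (move 429 (branch (move 428 (leaf 428 3)) (move 494 (branch (move 558 (leaf 429 7)) (move 466 (branch (move 495 (leaf 462 1)) (move 435 (branch (move 434 (leaf 431 2)) (move 467 (branch (move 436 (leaf 432 2)) (move 499 (branch (move 498 (leaf 463 0)) (move 500 (leaf 464 0)))))))))))))) (move 429 (branch (move 428 (leaf 428 3)) (move 494 (branch (move 558 (leaf 429 7)) (move 466 (branch (move 495 (leaf 462 1)) (move 432 (branch (move 433 (leaf 429 2)) (move 467 (branch (move 431 (leaf 431 3)) (move 499 (branch (move 498 (leaf 463 0)) (move 500 (leaf 464 0))))))))))))))))))))))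
theorem a6p1219 : a6e1219.Valid :=
  pos_of_chk [a6e1218] (forall_cons a6p1218 forall_nil) a6c1219 a6e1219 (by decide +kernel)

def a6e1220 : Pos := ⟨51146728266240005207244923957008106064605812847939916794930215181727273048508348699348957073662209434336688722686659855474720596000933015062652649472, 80234129312919695335985921591664968687817965218677797071479863815357219670427548059845599637168353731861954045752128539966557913088, 8⟩
def a6c1220 : Cert := (move 397 (branch (move 400 (branch (move 365 (branch (move 364 (leaf 364 3)) (move 401 (branch (move 366 (leaf 365 3)) (move 433 (branch (move 432 (leaf 397 0)) (move 434 (leaf 398 0)))))))) (branch (move 368 (branch (move 369 (leaf 365 2)) (move 396 (branch (move 367 (leaf 364 2)) (move 364 (branch (move 363 (leaf 363 3)) (move 365 (leaf 364 3)))))))) (move 368 (branch (move 369 (leaf 365 2)) (move 433 (branch (move 432 (leaf 397 0)) (move 401 (branch (move 434 (leaf 398 0)) (move 367 (branch (move 396 (leaf 364 2)) (move 402 (branch (move 366 (leaf 366 3)) (move 403 (leaf 367 3))))))))))))))) (branch (move 365 (branch (move 429 (leaf 365 4)) (move 400 (branch (move 364 (leaf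 364 3)) (move 401 (branch (move 366 (leaf 365 3)) (move 369 (branch (move 368 (leaf 365 2)) (move 370 (leaf 366 2)))))))))) (branch (move 429 (branch (move 365 (leaf 365 4)) (move 396 (branch (move 367 (branch (move 368 (leaf 364 2)) (move 395 (branch (move 366 (leaf 363 2)) (move 363 (branch (move 362 (leaf 362 3)) (move 364 (leaf 363 3)))))))) (branch (move 427 (branch (move 428 (leaf 395 1)) (move 395 (branch (move 426 (leaf 394 1)) (move 367 (branch (move 366 (leaf 363 2)) (move 368 (leaf 364 2)))))))) (move 428 (branch (move 427 (leaf 395 1)) (move 364 (branch (move 363 (leaf 363 3)) (move 332 (leaf 332 4))))))))))) (branch (move 429 (branch (move 365 (leaf 365 4)) (move 428 (branch (move 400 (leaf 396 1)) (move 427 (branch (move 426 (leaf 426 0)) (move 396 (leaf 395 1)))))))) (move 396 (branch (move 367 (branch (move 368 (leaf 364 2)) (move 395 (branch (move 366 (leaf 363 2)) (move 363 (branch (move 362 (leaf 362 3)) (move 364 (leaf 363 3)))))))) (branch (move 427 (branch (move 428 (leaf 395 1)) (move 395 (branch (move 426 (leaf 394 1)) (move 363 (branch (move 362 (leaf 362 3)) (move 364 (leaf 363 3)))))))) (move 428 (branch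 (move 427 (leaf 395 1)) (move 400 (branch (move 429 (leaf 396 1)) (move 368 (branch (move 367 (leaf 364 2)) (move 369 (leaf 365 2))))))))))))))))
theorem a6p1220 : a6e1220.Valid :=
  pos_of_chk [] forall_nil a6c1220 a6e1220 (by decide +kernel)

def a6e1221 : Pos := ⟨219673525124179510921100665376611864484282354044115505118598040881190948717506767649736487838741236274490581576657445360704269654980660309422977101106960662528, 943490606205385338213828829992198872974650710540122644677493016556063355799594897609728088168120391641489752269381169272130163594468694120691142300416709434381084655616, 11⟩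
def a6c1221 : Cert := (move 494 (branch (move 558 (branch (move 431 (leaf 430 6)) (move 429 (leaf 429 7)))) (branch (move 431 (branch (move 558 (leaf 430 6)) (move 399 (branch (move 430 (leaf 398 6)) (move 367 (leaf 366 5)))))) (branch (move 429 (branch (move 558 (leaf 429 7)) (move 397 (branch (move 430 (leaf 397 7)) (move 365 (leaf 365 4)))))) (move 399 (branch (move 431 (branch (move 495 (leaf 398 5)) (move 367 (leaf 366 5)))) (branch (move 431 (branch (move 430 (leaf 398 6)) (move 367 (leaf 366 5)))) (branch (move 431 (branch (move 430 (leaf 398 6)) (move 495 (leaf 398 5)))) (move 398 (branch (move 430 (branch (move 367 (leaf 366 6)) (move 366 (branch (move 495 (leaf 366 4)) (move 365 (branch (move 397 (leaf 365 7)) (move 333 (leaf 333 7)))))))) (branch (move 430 (branch (move 367 (leaf 366 6)) (move 366 (branch (move 495 (leaf 366 4)) (move 334 (branch (move 429 (leaf 333 5)) (move 333 (branch (move 365 (leaf 333 7)) (move 301 (leaf 301 7)))))))))) (branch (move 397 (branch (move 429 (branch (move 430 (leaf 397 7)) (move 365 (leaf 365 4)))) (branch (move 365 (branch (move 430 (leaf 365 7)) (move 364 (branch (move 400 (leaf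 364 3)) (move 363 (branch (move 396 (leaf 363 3)) (move 362 (leaf 362 0)))))))) (branch (move 365 (branch (move 429 (leaf 365 4)) (move 364 (branch (move 400 (leaf 364 3)) (move 363 (branch (move 396 (leaf 363 3)) (move 362 (leaf 362 0)))))))) (move 429 (branch (move 430 (leaf 397 7)) (move 428 (branch (move 400 (leaf 396 1)) (move 427 (branch (move 426 (leaf 426 0)) (move 396 (leaf 395 1)))))))))))) (branch (move 430 (branch (move 367 (leaf 366 6)) (move 429 (branch (move 397 (leaf 397 7)) (move 428 (branch (move 427 (leaf 427 0)) (move 366 (branch (move 495 (leaf 366 4)) (move 334 (leaf 333 5)))))))))) (ref 0))))))))))))))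
theorem a6p1221 : a6e1221.Valid :=
  pos_of_chk [a6e1220] (forall_cons a6p1220 forall_nil) a6c1221 a6e1221 (by decide +kernel)

def a6e1222 : Pos := ⟨329510287686269266336994026844195709371073076309534259087209336121157601452565393636946253896424686002574694209132534573003155154981996491898099727598356529152, 40522612991505805956189595422750613912897213599039681001463417512091895541996770742317209472269559775787945785045692235454383391684509911120676084999383049777372208192652985761792, 12⟩
def a6c1222 : Cert := (move 463 (branch (move 464 (branch (move 433 (branch (move 432 (leaf 429 2)) (move 465 (branch (move 434 (leaf 430 2)) (move 497 (branch (move 496 (leaf 461 0)) (move 498 (leaf 462 0)))))))) (move 429 (branch (move 428 (leaf 428 3)) (move 494 (branch (move 558 (leaf 429 7)) (move 397 (branch (move 430 (leaf 397 7)) (move 365 (leaf 365 4)))))))))) (branch (ref 0) (branch (move 464 (branch (move 429 (branch (move 428 (leaf 428 3)) (move 465 (branch (move 430 (leaf 429 3)) (move 497 (branch (move 496 (leaf 461 0)) (move 498 (leaf 462 0)))))))) (branch (move 433 (branch (move 432 (leaf 429 2)) (move 465 (branch (move 434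 (leaf 430 2)) (move 497 (branch (move 496 (leaf 461 0)) (move 498 (leaf 462 0)))))))) (branch (move 429 (branch (move 428 (leaf 428 3)) (move 465 (branch (move 430 (leaf 429 3)) (move 433 (branch (move 432 (leaf 429 2)) (move 434 (leaf 430 2)))))))) (move 432 (branch (move 433 (leaf 429 2)) (move 400 (branch (move 368 (branch (move 495 (leaf 367 5)) (move 336 (branch (move 431 (leaf 335 5)) (move 335 (branch (move 367 (leaf 335 7)) (move 303 (leaf 303 7)))))))) (branch (move 496 (branch (move 497 (leaf 461 0)) (move 368 (branch (move 495 (leaf 367 5)) (move 369 (branch (move 401 (leaf 368 6)) (move 337 (leaf 336 6)))))))) (move 496 (branch (move 497 (leaf 461 0)) (move 399 (branch (move 367 (leaf 367 7)) (move 431 (branch (move 528 (leaf 399 7)) (move 430 (branch (move 494 (leaf 398 6)) (move 429 (branch (move 428 (leaf 428 0)) (move 401 (leaf 397 2))))))))))))))))))))) (branch (ref 1) (branch (move 464 (branch (move 429 (branch (move 428 (leaf 428 3)) (move 465 (branch (move 430 (leaf 429 3)) (move 497 (branch (move 496 (leaf 461 0)) (move 498 (leaf 462 0)))))))) (branch (move 429 (branch (move 428 (leaf 428 3)) (move 465 (branch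 (move 430 (leaf 429 3)) (move 433 (branch (move 432 (leaf 429 2)) (move 434 (leaf 430 2)))))))) (ref 2)))) (branch (ref 3) (ref 4))))))))
theorem a6p1222 : a6e1222.Valid :=
  pos_of_chk [a6e1214, a6e1216, a6e1218, a6e1219, a6e1221] (forall_cons a6p1214 (forall_cons a6p1216 (forall_cons a6p1218 (forall_cons a6p1219 (forall_cons a6p1221 forall_nil))))) a6c1222 a6e1222 (by decide +kernel)

def a6e1223 : Pos := ⟨356969478326791705186501670089019461857235711400225047720293387411086382473960574349982847624676831593679604551665943529272551597233431140293243791814997049344, 51125218684691336776637356792671238741451552837915637868782842966688340978460333634603960500412009587839975930317659758804068762582670031284552807355752581656209123195772921637201640423424, 16⟩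
def a6c1223 : Cert := (move 462 (branch (move 460 (branch (move 494 (branch (move 495 (leaf 459 0)) (move 429 (branch (move 558 (leaf 429 7)) (move 397 (branch (move 430 (leaf 397 7)) (move 365 (leaf 365 4)))))))) (branch (move 427 (branch (move 426 (leaf 426 3)) (move 463 (branch (move 428 (leaf 427 3)) (move 495 (branch (move 494 (leaf 459 0)) (move 496 (leaf 460 0)))))))) (ref 0)))) (branch (move 460 (branch (move 427 (branch (move 426 (leaf 426 3)) (move 463 (branch (move 428 (leaf 427 3)) (move 496 (branch (move 495 (leaf 460 0)) (move 464 (branch (move 497 (leaf 461 0)) (move 432 (branch (move 431 (leaf 428 2)) (move 433 (leaf 429 2)))))))))))) (branch (move 431 (branch (move 430 (leaf 427 2)) (move 463 (branch (move 432 (leaf 428 2)) (move 496 (branch (move 495 (leaf 460 0)) (move 464 (branch (move 497 (leaf 461 0)) (move 428 (branch (move 427 (leaf 427 3)) (move 429 (leaf 428 3)))))))))))) (branch (move 430 (branch (move 431 (leaf 427 2)) (move 458 (branch (move 429 (leaf 426 2)) (move 489 (branch (move 490 (leaf 457 1)) (move 457 (branch (move 488 (leaf 456 1)) (move 425 (branch (move 424 (leaf 424 3)) (move 426 (leaf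 425 3)))))))))))) (ref 1))))) (branch (ref 2) (branch (move 463 (branch (move 460 (branch (move 431 (branch (move 430 (leaf 427 2)) (move 432 (leaf 428 2)))) (move 427 (branch (move 426 (leaf 426 3)) (move 428 (leaf 427 3)))))) (branch (move 460 (branch (move 427 (branch (move 426 (leaf 426 3)) (move 428 (leaf 427 3)))) (move 495 (branch (move 494 (leaf 459 0)) (move 496 (leaf 460 0)))))) (ref 3)))) (branch (ref 4) (branch (ref 5) (branch (move 460 (branch (move 427 (branch (move 426 (leaf 426 3)) (move 463 (branch (move 428 (leaf 427 3)) (move 496 (branch (move 495 (leaf 460 0)) (move 464 (branch (move 497 (leaf 461 0)) (move 432 (branch (move 431 (leaf 428 2)) (move 433 (leaf 429 2)))))))))))) (branch (move 495 (branch (move 494 (leaf 459 0)) (move 463 (branch (move 496 (leaf 460 0)) (move 428 (branch (move 427 (leaf 427 3)) (move 464 (branch (move 429 (leaf 428 3)) (move 432 (branch (move 431 (leaf 428 2)) (move 433 (leaf 429 2)))))))))))) (branch (move 494 (branch (move 495 (leaf 459 0)) (move 429 (branch (move 558 (leaf 429 7)) (move 426 (branch (move 427 (leaf 426 3)) (move 458 (branch (move 425 (leaf 425 3)) (move 457 (branch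 (move 428 (leaf 425 2)) (move 489 (branch (move 488 (leaf 456 1)) (move 490 (leaf 457 1)))))))))))))) (branch (ref 0) (branch (ref 6) (ref 7))))))) (branch (move 460 (branch (move 494 (branch (move 495 (leaf 459 0)) (move 431 (branch (move 430 (leaf 427 2)) (move 463 (branch (move 432 (leaf 428 2)) (move 558 (leaf 430 6)))))))) (branch (move 494 (branch (move 495 (leaf 459 0)) (move 429 (branch (move 558 (leaf 429 7)) (move 397 (branch (move 430 (leaf 397 7)) (move 365 (leaf 365 4)))))))) (branch (move 430 (branch (move 431 (leaf 427 2)) (move 458 (branch (move 429 (leaf 426 2)) (move 489 (branch (move 490 (leaf 457 1)) (move 457 (branch (move 488 (leaf 456 1)) (move 425 (branch (move 424 (leaf 424 3)) (move 426 (leaf 425 3)))))))))))) (ref 7))))) (branch (move 460 (branch (move 494 (branch (move 495 (leaf 459 0)) (move 431 (branch (move 430 (leaf 427 2)) (move 463 (branch (move 432 (leaf 428 2)) (move 558 (leaf 430 6)))))))) (branch (move 494 (branch (move 495 (leaf 459 0)) (move 429 (branch (move 558 (leaf 429 7)) (move 397 (branch (move 430 (leaf 397 7)) (move 365 (leaf 365 4)))))))) (branch (move 430 (branch (move 431 (leaf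 427 2)) (move 458 (branch (move 429 (leaf 426 2)) (move 426 (branch (move 425 (leaf 425 3)) (move 427 (leaf 426 3)))))))) (ref 6))))) (move 460 (branch (move 427 (branch (move 426 (leaf 426 3)) (move 463 (branch (move 428 (leaf 427 3)) (move 431 (branch (move 430 (leaf 427 2)) (move 432 (leaf 428 2)))))))) (branch (move 430 (branch (move 431 (leaf 427 2)) (move 458 (branch (move 429 (leaf 426 2)) (move 489 (branch (move 490 (leaf 457 1)) (move 457 (branch (move 488 (leaf 456 1)) (move 425 (branch (move 424 (leaf 424 3)) (move 426 (leaf 425 3)))))))))))) (branch (ref 0) (move 463 (branch (move 428 (branch (move 427 (leaf 427 3)) (move 464 (branch (move 429 (leaf 428 3)) (move 432 (branch (move 431 (leaf 428 2)) (move 433 (leaf 429 2)))))))) (branch (move 431 (branch (move 432 (leaf 428 2)) (move 494 (branch (move 558 (leaf 430 6)) (move 430 (leaf 427 2)))))) (move 428 (branch (move 427 (leaf 427 3)) (move 429 (branch (move 464 (leaf 428 3)) (move 494 (branch (move 558 (leaf 429 7)) (move 397 (branch (move 430 (leaf 397 7)) (move 365 (leaf 365 4)))))))))))))))))))))))))))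
theorem a6p1223 : a6e1223.Valid :=
  pos_of_chk [a6e1213, a6e1189, a6e1215, a6e1216, a6e1217, a6e1222, a6e1200, a6e1198] (forall_cons a6p1213 (forall_cons a6p1189 (forall_cons a6p1215 (forall_cons a6p1216 (forall_cons a6p1217 (forall_cons a6p1222 (forall_cons a6p1200 (forall_cons a6p1198 forall_nil)))))))) a6c1223 a6e1223 (by decide +kernel)

def a6e1224 : Pos := ⟨219673525124179510885375088404886366564713416243066531068298257201701656300458640386158044815467088835821483892294493796943914454659899750816340612557997867008, 943490606205385338213828830742435989477409730576440776163441355957187744244770495492494821717513591589178667869924318442191772439138855507276388913116105654976953450496, 7⟩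
def a6c1224 : Cert := (move 431 (branch (move 400 (branch (move 399 (leaf 396 2)) (move 432 (branch (move 401 (leaf 397 2)) (move 464 (branch (move 463 (leaf 428 0)) (move 465 (leaf 429 0)))))))) (branch (move 399 (branch (move 400 (leaf 396 2)) (move 463 (branch (move 464 (leaf 428 0)) (move 494 (branch (move 462 (leaf 398 6)) (move 495 (leaf 398 5)))))))) (branch (move 464 (branch (move 463 (leaf 428 0)) (move 432 (branch (move 465 (leaf 429 0)) (move 433 (branch (move 462 (leaf 429 1)) (move 401 (branch (move 400 (leaf 397 2)) (move 402 (leaf 398 2)))))))))) (branch (move 464 (branch (move 463 (leaf 428 0)) (move 432 (branch (move 465 (leaf 429 0)) (move 462 (branch (move 433 (leaf 429 1)) (move 494 (branch (move 399 (leaf 398 6)) (move 558 (leaf 429 7)))))))))) (move 432 (branch (move 400 (branch (move 399 (leaf 396 2)) (move 401 (leaf 397 2)))) (branch (move 433 (branch (move 462 (leaf 429 1)) (move 402 (branch (move 401 (leaf 398 2)) (move 434 (branch (move 403 (leaf 399 2)) (move 466 (branch (move 465 (leaf 430 0)) (move 467 (leaf 431 0)))))))))) (move 462 (branch (move 433 (leaf 429 1)) (move 494 (branch (move 399 (leaf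 398 6)) (move 558 (leaf 429 7))))))))))))))
theorem a6p1224 : a6e1224.Valid :=
  pos_of_chk [] forall_nil a6c1224 a6e1224 (by decide +kernel)

def a6e1225 : Pos := ⟨219673525124179510903237876896641038625795741659238602529580161497250237231321167136599147192325562512513310994444335789110211334917305269130593032955423096832, 153440184745131650156868267039439272730728970133010291167357257498319304140383485681012715070776648877783053758752622773042305762574522523642006339584, 6⟩
def a6c1225 : Cert := (move 367 (branch (move 366 (branch (move 334 (leaf 334 7)) (move 495 (branch (move 398 (leaf 366 7)) (move 494 (leaf 398 5)))))) (branch (move 334 (branch (move 366 (leaf 334 7)) (move 335 (branch (move 302 (leaf 302 7)) (move 336 (branch (move 368 (leaf 335 6)) (move 304 (leaf 303 6)))))))) (branch (move 336 (branch (move 368 (leaf 335 6)) (move 335 (branch (move 304 (leaf 303 6)) (move 302 (branch (move 334 (leaf 302 7)) (move 303 (branch (move 270 (leaf 270 7)) (move 398 (leaf 302 5)))))))))) (move 495 (branch (move 494 (leaf 398 5)) (move 398 (branch (move 366 (leaf 366 7)) (move 335 (branch (move 303 (leaf 302 5)) (move 336 (branch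 (move 368 (leaf 335 6)) (move 304 (leaf 303 6))))))))))))))
theorem a6p1225 : a6e1225.Valid :=
  pos_of_chk [] forall_nil a6c1225 a6e1225 (by decide +kernel)

def a6e1226 : Pos := ⟨219673525124179510886863654111550602053028227686726560808618743782530174419071178170287374182369672455842116758396287977686321204385185080483868583736157143040, 943490606205385338213828830695546169696691289989868881527175536225460915392801168429478672636809279077548576697385965300801540575718984270636396175608533360215783899136, 11⟩
def a6c1226 : Cert := (move 428 (branch (move 427 (branch (move 458 (leaf 426 1)) (move 462 (branch (move 463 (leaf 427 0)) (move 494 (branch (move 558 (leaf 429 7)) (move 397 (leaf 397 7)))))))) (branch (move 427 (branch (move 458 (leaf 426 1)) (move 395 (branch (move 394 (leaf 394 3)) (move 431 (branch (move 396 (leaf 395 3)) (move 399 (branch (move 398 (leaf 395 2)) (move 400 (leaf 396 2)))))))))) (move 431 (branch (move 396 (branch (move 395 (leaf 395 3)) (move 432 (branch (move 397 (leaf 396 3)) (move 400 (branch (move 399 (leaf 396 2)) (move 401 (leaf 397 2)))))))) (branch (move 432 (branch (move 400 (branch (move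 399 (leaf 396 2)) (move 401 (leaf 397 2)))) (branch (move 433 (branch (move 462 (leaf 429 1)) (move 402 (branch (move 401 (leaf 398 2)) (move 434 (branch (move 403 (leaf 399 2)) (move 466 (branch (move 465 (leaf 430 0)) (move 467 (leaf 431 0)))))))))) (move 462 (branch (move 433 (leaf 429 1)) (move 494 (branch (move 399 (leaf 398 6)) (move 558 (leaf 429 7))))))))) (branch (move 396 (branch (move 395 (leaf 395 3)) (move 397 (branch (move 432 (leaf 396 3)) (move 462 (branch (move 494 (leaf 397 7)) (move 365 (branch (move 333 (leaf 333 4)) (move 364 (branch (move 332 (leaf 332 4)) (move 366 (branch (move 334 (leaf 333 6)) (move 367 (branch (move 368 (leaf 364 1)) (move 335 (branch (move 336 (leaf 332 2)) (move 398 (leaf 334 6)))))))))))))))))) (move 399 (branch (move 400 (leaf 396 2)) (move 463 (branch (move 494 (branch (move 462 (leaf 398 6)) (move 495 (leaf 398 5)))) (branch (ref 0) (branch (ref 1) (move 462 (branch (move 494 (leaf 398 6)) (move 367 (branch (move 335 (leaf 334 5)) (move 366 (branch (move 334 (leaf 334 7)) (move 396 (branch (move 395 (leaf 395 3)) (move 368 (branch (move 336 (leaf 335 6)) (move 397 (branch (move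 398 (leaf 364 2)) (move 365 (leaf 364 1)))))))))))))))))))))))))))
theorem a6p1226 : a6e1226.Valid :=
  pos_of_chk [a6e1225, a6e1204] (forall_cons a6p1225 (forall_cons a6p1204 forall_nil)) a6c1226 a6e1226 (by decide +kernel)

def a6e1227 : Pos := ⟨219673525124179510886863654117095941441269857405883389176904911189403048569822811320628333343598915071453368004476236789894600360579967502406675727394105458688, 943490606205385338111535373841535966443267650460315966989180351852230442060036983385008829103772688868022397919588560715378677167706083160921381791846038123214972911616, 7⟩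
def a6c1227 : Cert := (move 428 (branch (move 427 (branch (move 458 (leaf 426 1)) (move 395 (branch (move 394 (leaf 394 3)) (move 396 (leaf 395 3)))))) (branch (move 427 (branch (move 458 (leaf 426 1)) (move 462 (branch (move 426 (leaf 426 0)) (move 494 (branch (move 558 (leaf 429 7)) (move 397 (leaf 397 7)))))))) (move 396 (branch (move 395 (leaf 395 3)) (move 432 (branch (move 397 (leaf 396 3)) (move 401 (branch (move 400 (leaf 397 2)) (move 433 (branch (move 402 (leaf 398 2)) (move 465 (branch (move 464 (leaf 429 0)) (move 466 (leaf 430 0)))))))))))))))
theorem a6p1227 : a6e1227.Valid :=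
  pos_of_chk [] forall_nil a6c1227 a6e1227 (by decide +kernel)

def a6e1228 : Pos := ⟨17862788498686346295093237626074652626811653968138167682137215291952689571979697267935567348741357410111823148860814629999809763983486877696, 5144325931401473725828883501787633408667407235087413006034161197160057393036879193410645438855595392623944894983534804992, 11⟩
def a6c1228 : Cert := (move 397 (branch (move 396 (branch (move 395 (leaf 395 3)) (move 399 (branch (move 400 (leaf 396 2)) (move 364 (branch (move 332 (leaf 332 4)) (move 398 (branch (move 363 (leaf 363 3)) (move 367 (branch (move 368 (leaf 364 2)) (move 335 (leaf 334 5)))))))))))) (branch (move 365 (branch (move 333 (leaf 333 4)) (move 399 (branch (move 400 (leaf 396 2)) (move 366 (branch (move 334 (leaf 333 6)) (move 367 (branch (move 335 (leaf 334 5)) (move 364 (branch (move 332 (leaf 332 7)) (move 363 (branch (move 398 (leaf 363 0)) (move 394 (branch (move 395 (leaf 362 1)) (move 362 (branch (move 393 (leaf 361 1)) (move 330 (branch (move 329 (leaf 329 3)) (move 331 (leaf 330 3)))))))))))))))))))) (branch (move 396 (branch (move 395 (leaf 395 3)) (move 365 (branch (move 333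 (leaf 333 4)) (move 364 (branch (move 332 (leaf 332 4)) (move 366 (branch (move 334 (leaf 333 6)) (move 367 (branch (move 368 (leaf 364 1)) (move 335 (branch (move 336 (leaf 332 2)) (move 398 (leaf 334 6)))))))))))))) (branch (move 365 (branch (move 333 (leaf 333 4)) (move 399 (branch (move 400 (leaf 396 2)) (move 366 (branch (move 334 (leaf 333 6)) (move 367 (branch (move 335 (leaf 334 5)) (move 364 (branch (move 332 (leaf 332 7)) (move 398 (branch (move 363 (leaf 363 0)) (move 368 (branch (move 396 (leaf 364 1)) (move 369 (leaf 365 1)))))))))))))))) (branch (move 396 (branch (move 395 (leaf 395 3)) (move 365 (branch (move 333 (leaf 333 4)) (move 399 (branch (move 400 (leaf 396 2)) (move 367 (branch (move 335 (leaf 334 5)) (move 366 (branch (move 368 (leaf 364 1)) (move 334 (leaf 333 6)))))))))))) (move 396 (branch (move 395 (leaf 395 3)) (move 365 (branch (move 333 (leaf 333 4)) (move 364 (branch (move 332 (leaf 332 4)) (move 399 (branch (move 400 (leaf 396 2)) (move 363 (branch (move 398 (leaf 363 3)) (move 362 (branch (move 361 (leaf 361 0)) (move 366 (branch (move 334 (leaf 333 6)) (move 330 (branch (move 329 (leaf 329 3))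 (move 331 (leaf 330 3))))))))))))))))))))))))
theorem a6p1228 : a6e1228.Valid :=
  pos_of_chk [] forall_nil a6c1228 a6e1228 (by decide +kernel)

def a6e1229 : Pos := ⟨219673525124179510886863654111550602053028227686726560808618743782530174419071178170287374182369672455842116758396287977686321204385185080483868583736157143040, 943490606205385338316122286835044833324637345902239404960015254033960485176234209194380181461540703476605043046653348459861383219297017694990188123004543936444579708928, 14⟩
def a6c1229 : Cert := (move 431 (branch (move 462 (branch (move 494 (branch (move 399 (leaf 398 6)) (move 558 (leaf 429 7)))) (move 432 (branch (move 433 (leaf 429 1)) (move 396 (branch (move 397 (leaf 396 3)) (move 428 (branch (move 395 (leaf 395 3)) (move 427 (branch (move 426 (leaf 426 0)) (move 458 (leaf 426 1)))))))))))) (branch (move 432 (branch (move 397 (branch (move 396 (leaf 396 3)) (move 433 (branch (move 398 (leaf 397 3)) (move 465 (branch (move 464 (leaf 429 0)) (move 466 (leaf 430 0)))))))) (branch (move 397 (branch (move 396 (leaf 396 3)) (move 433 (branch (move 398 (leaf 397 3)) (move 401 (branch (move 400 (leaf 397 2))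 (move 402 (leaf 398 2)))))))) (move 400 (branch (move 401 (leaf 397 2)) (move 399 (branch (move 428 (leaf 396 2)) (move 464 (branch (move 465 (leaf 429 0)) (move 367 (branch (move 496 (leaf 367 7)) (move 335 (leaf 335 4))))))))))))) (branch (move 432 (branch (move 462 (branch (move 433 (leaf 429 1)) (move 494 (branch (move 399 (leaf 398 6)) (move 558 (leaf 429 7)))))) (branch (move 465 (branch (move 464 (leaf 429 0)) (move 433 (branch (move 466 (leaf 430 0)) (move 401 (branch (move 400 (leaf 397 2)) (move 402 (leaf 398 2)))))))) (move 400 (branch (move 401 (leaf 397 2)) (move 399 (branch (move 428 (leaf 396 2)) (move 464 (branch (move 465 (leaf 429 0)) (move 367 (branch (move 496 (leaf 367 7)) (move 335 (leaf 335 4))))))))))))) (branch (ref 0) (branch (move 432 (branch (move 465 (branch (move 464 (leaf 429 0)) (move 433 (branch (move 466 (leaf 430 0)) (move 401 (branch (move 400 (leaf 397 2)) (move 402 (leaf 398 2)))))))) (branch (move 397 (branch (move 396 (leaf 396 3)) (move 433 (branch (move 398 (leaf 397 3)) (move 465 (branch (move 464 (leaf 429 0)) (move 466 (leaf 430 0)))))))) (branch (move 397 (branch (move 396 (leaf 396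 3)) (move 433 (branch (move 398 (leaf 397 3)) (move 401 (branch (move 400 (leaf 397 2)) (move 402 (leaf 398 2)))))))) (move 464 (branch (move 465 (leaf 429 0)) (move 367 (branch (move 400 (branch (move 401 (leaf 397 2)) (move 399 (branch (move 496 (leaf 367 7)) (move 335 (leaf 335 4)))))) (branch (move 400 (branch (move 401 (leaf 397 2)) (move 368 (branch (move 335 (leaf 335 7)) (move 397 (branch (move 396 (leaf 396 3)) (move 369 (branch (move 337 (leaf 336 6)) (move 462 (branch (move 494 (leaf 397 7)) (move 333 (branch (move 365 (leaf 333 4)) (move 366 (branch (move 334 (leaf 333 3)) (move 398 (leaf 365 1)))))))))))))))) (branch (move 400 (branch (move 401 (leaf 397 2)) (move 399 (branch (move 496 (leaf 367 7)) (move 397 (branch (move 396 (leaf 396 3)) (move 462 (branch (move 494 (leaf 398 6)) (move 365 (branch (move 333 (leaf 333 4)) (move 364 (branch (move 398 (leaf 364 3)) (move 366 (leaf 364 0)))))))))))))) (move 335 (branch (move 399 (leaf 335 4)) (move 397 (branch (move 396 (leaf 396 3)) (move 462 (branch (move 494 (leaf 397 7)) (move 366 (branch (move 398 (leaf 334 6)) (move 365 (branch (move 333 (leaf 333 4)) (move 336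 (branch (move 364 (leaf 332 2)) (move 337 (branch (move 368 (leaf 333 2)) (move 334 (leaf 333 1)))))))))))))))))))))))))) (move 462 (branch (move 494 (branch (move 558 (leaf 429 7)) (move 397 (leaf 397 7)))) (branch (move 494 (branch (move 399 (leaf 398 6)) (move 558 (leaf 429 7)))) (move 428 (branch (move 427 (branch (move 426 (leaf 426 0)) (move 458 (leaf 426 1)))) (ref 1))))))))))))
theorem a6p1229 : a6e1229.Valid :=
  pos_of_chk [a6e1227, a6e1228] (forall_cons a6p1227 (forall_cons a6p1228 forall_nil)) a6c1229 a6e1229 (by decide +kernel)

def a6e1230 : Pos := ⟨9704343929422852008524449644500792962027529763815358013096678532151174577319689680639910421364488523340869238364912501401409552384, 357255769799741902615069798859909161010247223288024422099311805887299460867480445363071301056007036891591868183916023540705022963073066991616, 5⟩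
def a6c1230 : Cert := (move 432 (branch (move 465 (branch (move 464 (leaf 429 0)) (move 433 (branch (move 466 (leaf 430 0)) (move 401 (branch (move 400 (leaf 397 2)) (move 402 (leaf 398 2)))))))) (branch (move 397 (branch (move 396 (leaf 396 3)) (move 433 (branch (move 398 (leaf 397 3)) (move 401 (branch (move 400 (leaf 397 2)) (move 402 (leaf 398 2)))))))) (move 464 (branch (move 465 (leaf 429 0)) (move 428 (branch (move 463 (leaf 428 0)) (move 396 (branch (move 395 (leaf 395 3)) (move 397 (leaf 396 3)))))))))))
theorem a6p1230 : a6e1230.Valid :=
  pos_of_chk [] forall_nil a6c1230 a6e1230 (by decide +kernel)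

def a6e1231 : Pos := ⟨219673525124179510886863654117095941441269857405883389176904911189403048569822811320628333343598915071453368004476236789894600360579967502406675727394105458688, 943490606205385338114732044047437875324590564013001225142639976302817919584604491420466601651886151268557411007405939077010601715131250082067970715610393122089346269184, 10⟩
def a6c1231 : Cert := (move 395 (branch (move 396 (branch (move 428 (leaf 395 3)) (move 397 (branch (move 394 (leaf 394 0)) (move 398 (leaf 395 0)))))) (branch (move 428 (branch (move 396 (leaf 395 3)) (move 427 (branch (move 458 (leaf 426 1)) (move 462 (branch (move 426 (leaf 426 0)) (move 463 (leaf 427 0)))))))) (branch (move 397 (branch (move 396 (branch (move 394 (leaf 394 0)) (move 398 (leaf 395 0)))) (branch (move 462 (branch (move 494 (leaf 397 7)) (move 365 (branch (move 333 (leaf 333 4)) (move 366 (branch (move 334 (leaf 333 6)) (move 364 (branch (move 332 (leaf 332 7)) (move 367 (branch (move 396 (leaf 363 1)) (move 335 (branch (move 336 (leaf 332 2)) (move 398 (leaf 334 6)))))))))))))) (move 462 (branch (move 494 (leaf 397 7)) (move 365 (branch (move 333 (leaf 333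 4)) (move 364 (branch (move 332 (leaf 332 7)) (move 366 (branch (move 334 (leaf 333 6)) (move 363 (branch (move 394 (leaf 362 1)) (move 330 (branch (move 331 (leaf 330 3)) (move 362 (branch (move 329 (leaf 329 3)) (move 427 (leaf 330 7))))))))))))))))))) (move 427 (branch (move 428 (branch (move 394 (leaf 394 3)) (move 458 (leaf 426 1)))) (branch (move 462 (branch (move 494 (branch (move 558 (leaf 429 7)) (move 397 (leaf 397 7)))) (move 428 (branch (move 426 (leaf 426 0)) (move 463 (leaf 427 0)))))) (move 363 (branch (move 458 (branch (move 490 (leaf 362 5)) (move 331 (branch (move 426 (leaf 330 5)) (move 332 (branch (move 364 (leaf 331 6)) (move 300 (leaf 299 6)))))))) (branch (move 458 (branch (move 490 (leaf 362 5)) (move 331 (branch (move 426 (leaf 330 5)) (move 330 (branch (move 362 (leaf 330 7)) (move 298 (leaf 298 7)))))))) (move 364 (branch (move 332 (leaf 331 6)) (move 362 (branch (move 330 (leaf 330 7)) (move 365 (branch (move 394 (branch (move 393 (leaf 361 1)) (move 366 (leaf 362 1)))) (move 397 (branch (move 398 (leaf 362 0)) (move 462 (branch (move 494 (leaf 365 4)) (move 333 (leaf 333 4))))))))))))))))))))))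
theorem a6p1231 : a6e1231.Valid :=
  pos_of_chk [] forall_nil a6c1231 a6e1231 (by decide +kernel)

def a6e1232 : Pos := ⟨219673525124179510886863654111550602053028227686726560808618743782530174419071178170287374182369672455842116758396287977686321204385185080483868583736157143040, 943490606205385338217025500877631027249378370027914251348157735794910253817973615415190941923096314522032334768401710608290348999042751942205254566069688255936309755904, 12⟩
def a6c1232 : Cert := (move 431 (branch (ref 0) (branch (move 432 (branch (move 433 (branch (move 462 (leaf 429 1)) (move 401 (branch (move 400 (leaf 397 2)) (move 402 (leaf 398 2)))))) (branch (move 433 (branch (move 462 (leaf 429 1)) (move 465 (branch (move 464 (leaf 429 0)) (move 466 (leaf 430 0)))))) (move 464 (branch (move 465 (leaf 429 0)) (move 463 (branch (move 428 (leaf 428 0)) (move 400 (branch (move 401 (leaf 397 2)) (move 368 (branch (move 495 (leaf 367 5)) (move 336 (leaf 335 5))))))))))))) (branch (ref 1) (branch (move 432 (branch (move 433 (branch (move 462 (leaf 429 1)) (move 401 (branch (move 400 (leaf 397 2)) (move 402 (leaf 398 2)))))) (branch (move 433 (branch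 (move 462 (leaf 429 1)) (move 465 (branch (move 464 (leaf 429 0)) (move 466 (leaf 430 0)))))) (branch (move 465 (branch (move 464 (leaf 429 0)) (move 433 (branch (move 466 (leaf 430 0)) (move 401 (branch (move 400 (leaf 397 2)) (move 402 (leaf 398 2)))))))) (move 400 (branch (move 401 (leaf 397 2)) (move 368 (branch (move 464 (branch (move 465 (leaf 429 0)) (move 463 (branch (move 495 (leaf 367 5)) (move 336 (leaf 335 5)))))) (branch (move 464 (branch (move 465 (leaf 429 0)) (move 397 (branch (move 396 (leaf 396 3)) (move 462 (branch (move 494 (leaf 397 7)) (move 365 (branch (move 333 (leaf 333 4)) (move 366 (branch (move 334 (leaf 333 6)) (move 367 (branch (move 335 (leaf 335 7)) (move 369 (branch (move 398 (leaf 365 1)) (move 337 (leaf 336 6)))))))))))))))) (move 397 (branch (move 396 (leaf 396 3)) (move 462 (branch (move 494 (leaf 397 7)) (move 365 (branch (move 333 (leaf 333 4)) (move 336 (branch (move 463 (leaf 335 5)) (move 366 (branch (move 334 (leaf 333 6)) (move 337 (branch (move 367 (leaf 333 2)) (move 305 (leaf 304 6))))))))))))))))))))))) (branch (move 432 (branch (move 433 (branch (move 462 (leaf 429 1)) (move 401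 (branch (move 400 (leaf 397 2)) (move 402 (leaf 398 2)))))) (branch (move 397 (branch (move 396 (leaf 396 3)) (move 433 (branch (move 398 (leaf 397 3)) (move 401 (branch (move 400 (leaf 397 2)) (move 402 (leaf 398 2)))))))) (move 396 (branch (move 397 (leaf 396 3)) (move 428 (branch (move 395 (leaf 395 3)) (move 427 (branch (move 458 (leaf 426 1)) (move 462 (branch (move 426 (leaf 426 0)) (move 463 (leaf 427 0))))))))))))) (ref 2)))))))
theorem a6p1232 : a6e1232.Valid :=
  pos_of_chk [a6e1230, a6e1227, a6e1231] (forall_cons a6p1230 (forall_cons a6p1227 (forall_cons a6p1231 forall_nil))) a6c1232 a6e1232 (by decide +kernel)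

def a6e1233 : Pos := ⟨23817051327422790520234219484442036521028872655031073900284081756262478481466327407142641841436935534974377507975068272608925913554228346880, 19205483477853436375487887142199794677345809724342871370427142901147268624193296669950751660007462476809412408893738319872, 10⟩
def a6c1233 : Cert := (move 367 (branch (move 334 (branch (move 366 (leaf 334 7)) (move 335 (branch (move 302 (leaf 302 7)) (move 336 (branch (move 368 (leaf 335 6)) (move 304 (leaf 303 6)))))))) (branch (move 336 (branch (move 368 (leaf 335 6)) (move 335 (branch (move 304 (leaf 303 6)) (move 302 (branch (move 334 (leaf 302 7)) (move 303 (branch (move 270 (leaf 270 7)) (move 398 (leaf 302 5)))))))))) (branch (move 400 (branch (move 401 (branch (move 398 (leaf 397 1)) (move 402 (leaf 398 1)))) (branch (move 366 (branch (move 334 (leaf 334 7)) (move 401 (branch (move 402 (leaf 398 1)) (move 365 (branch (move 364 (leaf 364 0)) (move 368 (leaf 365 0)))))))) (move 334 (branch (move 366 (leaf 334 7)) (move 335 (branch (move 302 (leaf 302 7)) (move 303 (branch (move 398 (leaf 302 5)) (move 271 (branch (move 368 (leaf 271 4)) (move 272 (branch (move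 304 (leaf 271 6)) (move 240 (leaf 239 6))))))))))))))) (branch (move 334 (branch (move 366 (leaf 334 7)) (move 335 (branch (move 302 (leaf 302 7)) (move 303 (branch (move 398 (leaf 302 5)) (move 304 (branch (move 336 (leaf 303 6)) (move 272 (leaf 271 6)))))))))) (branch (move 400 (branch (move 401 (branch (move 398 (leaf 397 1)) (move 402 (leaf 398 1)))) (branch (move 366 (branch (move 334 (leaf 334 7)) (move 401 (branch (move 402 (leaf 398 1)) (move 365 (branch (move 364 (leaf 364 0)) (move 368 (leaf 365 0)))))))) (move 366 (branch (move 334 (leaf 334 7)) (move 368 (branch (move 336 (leaf 335 6)) (move 365 (branch (move 364 (leaf 364 0)) (move 397 (branch (move 396 (leaf 364 1)) (move 369 (branch (move 398 (leaf 365 1)) (move 370 (branch (move 371 (leaf 367 1)) (move 338 (branch (move 337 (leaf 334 2)) (move 339 (leaf 335 2))))))))))))))))))) (move 335 (branch (move 303 (branch (move 398 (leaf 302 5)) (move 272 (branch (move 304 (leaf 271 6)) (move 271 (branch (move 240 (leaf 239 6)) (move 270 (branch (move 302 (leaf 270 7)) (move 238 (leaf 238 7)))))))))) (branch (move 336 (branch (move 368 (leaf 335 6)) (move 304 (leaf 303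 6)))) (move 398 (branch (move 303 (leaf 302 5)) (move 368 (branch (move 336 (leaf 335 6)) (move 397 (branch (move 396 (leaf 364 2)) (move 369 (branch (move 400 (leaf 365 2)) (move 366 (leaf 365 1)))))))))))))))))))
theorem a6p1233 : a6e1233.Valid :=
  pos_of_chk [] forall_nil a6c1233 a6e1233 (by decide +kernel)

def a6e1234 : Pos := ⟨219673525124179510885375088404193199141183212528171927522262486275842547031614686242365424920313433508870077486534500195417879560135551948075989719600754327552, 943490607084079439324307613240645892387994297966843968977234727680138933395497465575466979866159956001384372088502031229353112985486348220319597201288587704028954099712, 13⟩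
def a6c1234 : Cert := (move 431 (branch (move 432 (branch (move 465 (branch (move 464 (leaf 429 0)) (move 433 (branch (move 466 (leaf 430 0)) (move 401 (branch (move 400 (leaf 397 2)) (move 402 (leaf 398 2)))))))) (branch (move 397 (branch (move 396 (leaf 396 3)) (move 433 (branch (move 398 (leaf 397 3)) (move 465 (branch (move 464 (leaf 429 0)) (move 466 (leaf 430 0)))))))) (move 400 (branch (move 401 (leaf 397 2)) (move 428 (branch (move 399 (leaf 396 2)) (move 396 (branch (move 395 (leaf 395 3)) (move 397 (leaf 396 3))))))))))) (branch (ref 0) (branch (ref 1) (branch (move 462 (branch (move 494 (branch (move 399 (leaf 398 6)) (move 558 (leaf 429 7)))) (branch (move 494 (branch (move 397 (leaf 397 7)) (move 558 (leaf 429 7)))) (move 432 (branch (move 433 (leaf 429 1)) (move 397 (branch (move 396 (leaf 396 3)) (move 365 (branch (move 333 (leaf 333 4)) (move 400 (branch (move 401 (leaf 397 2)) (move 399 (branch (move 428 (leaf 396 2)) (move 364 (branch (move 398 (leaf 364 3)) (move 332 (leaf 332 7))))))))))))))))) (branch (move 428 (branch (move 400 (branch (move 399 (leaf 396 2)) (move 432 (branch (move 401 (leaf 397 2)) (move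 464 (branch (move 463 (leaf 428 0)) (move 465 (leaf 429 0)))))))) (branch (move 399 (branch (move 400 (leaf 396 2)) (move 463 (branch (move 464 (leaf 428 0)) (move 494 (branch (move 462 (leaf 398 6)) (move 495 (leaf 398 5)))))))) (branch (move 464 (branch (move 463 (leaf 428 0)) (move 432 (branch (move 465 (leaf 429 0)) (move 433 (branch (move 462 (leaf 429 1)) (move 401 (branch (move 400 (leaf 397 2)) (move 402 (leaf 398 2)))))))))) (branch (move 464 (branch (move 463 (leaf 428 0)) (move 432 (branch (move 465 (leaf 429 0)) (move 462 (branch (move 433 (leaf 429 1)) (move 494 (branch (move 399 (leaf 398 6)) (move 558 (leaf 429 7)))))))))) (move 432 (branch (move 400 (branch (move 399 (leaf 396 2)) (move 401 (leaf 397 2)))) (branch (move 433 (branch (move 462 (leaf 429 1)) (move 402 (branch (move 401 (leaf 398 2)) (move 434 (branch (move 403 (leaf 399 2)) (move 466 (branch (move 465 (leaf 430 0)) (move 467 (leaf 431 0)))))))))) (move 462 (branch (move 433 (leaf 429 1)) (move 494 (branch (move 399 (leaf 398 6)) (move 558 (leaf 429 7)))))))))))))) (branch (move 462 (branch (move 494 (branch (move 399 (leaf 398 6)) (move 558 (leaf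 429 7)))) (branch (move 494 (branch (move 397 (leaf 397 7)) (move 558 (leaf 429 7)))) (move 432 (branch (move 433 (leaf 429 1)) (move 464 (branch (move 465 (leaf 429 0)) (move 463 (branch (move 428 (leaf 428 0)) (move 496 (branch (move 497 (leaf 461 0)) (move 399 (branch (move 528 (leaf 399 7)) (move 367 (leaf 367 4))))))))))))))) (move 399 (branch (move 400 (branch (move 428 (leaf 396 2)) (move 401 (branch (move 398 (leaf 397 1)) (move 402 (leaf 398 1)))))) (branch (move 463 (branch (move 495 (branch (move 494 (leaf 398 5)) (move 398 (branch (move 366 (leaf 366 7)) (move 400 (branch (move 401 (leaf 397 1)) (move 368 (leaf 367 6)))))))) (branch (move 495 (branch (move 494 (leaf 398 5)) (move 496 (branch (move 528 (leaf 399 4)) (move 367 (branch (move 464 (leaf 367 4)) (move 366 (branch (move 398 (leaf 366 7)) (move 334 (leaf 334 7)))))))))) (branch (move 495 (branch (move 494 (leaf 398 5)) (move 496 (branch (move 528 (leaf 399 4)) (move 367 (branch (move 464 (leaf 367 4)) (move 368 (branch (move 400 (leaf 367 6)) (move 336 (leaf 335 6)))))))))) (ref 2))))) (move 494 (branch (move 462 (leaf 398 6)) (move 463 (branch (move 495 (leaf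 398 5)) (move 464 (branch (move 428 (leaf 428 0)) (move 367 (branch (move 496 (leaf 367 4)) (move 334 (branch (move 366 (leaf 334 7)) (move 335 (branch (move 302 (leaf 302 7)) (move 336 (branch (move 368 (leaf 335 6)) (move 304 (leaf 303 6))))))))))))))))))))))))))
theorem a6p1234 : a6e1234.Valid :=
  pos_of_chk [a6e1230, a6e1208, a6e1233] (forall_cons a6p1230 (forall_cons a6p1208 (forall_cons a6p1233 forall_nil))) a6c1234 a6e1234 (by decide +kernel)

def a6e1235 : Pos := ⟨219673525124179510886863654111550602053351008921487424382325733679030550903362391394391027121473504875409697711148393127015026873545202309413356480232750579712, 153440184829235612623774574558898360264713094246403635752799179439791264564681189940941486290761018559481760806050711312750610862411991871918983610368, 10⟩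
def a6c1235 : Cert := (move 428 (branch (move 427 (branch (move 458 (leaf 426 1)) (move 462 (branch (move 463 (leaf 427 0)) (move 494 (leaf 397 7)))))) (branch (move 427 (branch (move 458 (leaf 426 1)) (move 398 (branch (move 426 (leaf 394 2)) (move 399 (leaf 395 2)))))) (move 462 (branch (move 494 (leaf 397 7)) (move 365 (branch (move 333 (leaf 333 4)) (move 366 (branch (move 334 (leaf 333 6)) (move 463 (branch (move 464 (leaf 428 3)) (move 398 (branch (move 495 (leaf 366 4)) (move 400 (branch (move 399 (leaf 396 1)) (move 367 (branch (move 335 (leaf 334 6)) (move 368 (branch (move 401 (leaf 365 0)) (move 369 (leaf 365 1)))))))))))))))))))))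
theorem a6p1235 : a6e1235.Valid :=
  pos_of_chk [] forall_nil a6c1235 a6e1235 (by decide +kernel)

def a6e1236 : Pos := ⟨7442828540946019100729079316901651281702902985093169034637397726469118620306959116136215746621005669827123257554269707410987574917068750848, 51146728260285742378161896028776768034182395356688115953505288034330942439023321574394156830770689435019086259966016988348755719064698755228851240960, 9⟩
def a6c1236 : Cert := (move 365 (branch (move 462 (branch (move 494 (leaf 365 4)) (move 333 (leaf 333 4)))) (move 366 (branch (move 334 (leaf 333 6)) (move 364 (branch (move 332 (leaf 332 7)) (move 367 (branch (move 336 (branch (move 335 (leaf 332 2)) (move 368 (branch (move 337 (leaf 333 2)) (move 400 (branch (move 399 (leaf 364 0)) (move 401 (leaf 365 0)))))))) (move 395 (branch (move 396 (leaf 363 1)) (move 363 (branch (move 394 (leaf 362 1)) (move 330 (branch (move 331 (leaf 330 3)) (move 362 (branch (move 329 (leaf 329 3)) (move 427 (leaf 330 7))))))))))))))))))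
theorem a6p1236 : a6e1236.Valid :=
  pos_of_chk [] forall_nil a6c1236 a6e1236 (by decide +kernel)

def a6e1237 : Pos := ⟨219673525124179510886863654111550602053351008921487424382325733679030550903362391394391027121473504875409697711148393127015026873545202309413356480232750579712, 153440184829235612623774574550163093097832346661911149400623690505350285530706214217646907458066115553493642608311408165146447405001774448984176197632, 10⟩
def a6c1237 : Cert := (move 428 (branch (move 427 (branch (move 458 (leaf 426 1)) (move 462 (branch (move 426 (leaf 426 0)) (move 494 (leaf 397 7)))))) (branch (move 427 (branch (move 458 (leaf 426 1)) (move 426 (branch (move 398 (leaf 394 2)) (move 394 (branch (move 393 (leaf 393 3)) (move 395 (leaf 394 3)))))))) (move 462 (branch (move 494 (leaf 397 7)) (move 365 (branch (move 333 (leaf 333 4)) (move 366 (branch (move 334 (leaf 333 6)) (move 364 (branch (move 332 (leaf 332 7)) (move 463 (branch (move 464 (leaf 428 3)) (move 398 (branch (move 495 (leaf 366 4)) (move 367 (branch (move 335 (leaf 334 6)) (move 396 (branch (move 395 (leaf 363 1)) (move 368 (leaf 364 1)))))))))))))))))))))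
theorem a6p1237 : a6e1237.Valid :=
  pos_of_chk [] forall_nil a6c1237 a6e1237 (by decide +kernel)

def a6e1238 : Pos := ⟨5954262833588616188884064158422171357995408141698005026278164583423191199815786405026809785848248576362349083495474942951421309278687854592, 806953086939735615618103081608828295206793872809598314408145719533511745580500137791499662101248395247989442748495167488, 6⟩
def a6c1238 : Cert := (move 333 (branch (move 332 (branch (move 364 (leaf 332 7)) (move 300 (leaf 300 7)))) (branch (move 301 (branch (move 398 (leaf 301 4)) (move 270 (branch (move 302 (leaf 269 6)) (move 269 (branch (move 238 (leaf 237 6)) (move 268 (branch (move 300 (leaf 268 7)) (move 236 (leaf 236 7)))))))))) (move 301 (branch (move 398 (leaf 301 4)) (move 364 (branch (move 332 (leaf 332 7)) (move 269 (branch (move 396 (leaf 268 5)) (move 270 (branch (move 302 (leaf 269 6)) (move 238 (leaf 237 6)))))))))))))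
theorem a6p1238 : a6e1238.Valid :=
  pos_of_chk [] forall_nil a6c1238 a6e1238 (by decide +kernel)

def a6e1239 : Pos := ⟨5954262833588616188884064158422171357995408141698005026278164583423191199815786405026809785848248576362349083495474942951421309278687854592, 645562469672033872772748139893863312496086904910102315068826435825776683010689776284630264576302480024684776782185889792, 5⟩
def a6c1239 : Cert := (move 333 (branch (move 302 (branch (move 334 (leaf 301 6)) (move 301 (branch (move 270 (leaf 269 6)) (move 300 (branch (move 332 (leaf 300 7)) (move 268 (leaf 268 7)))))))) (branch (move 300 (branch (move 332 (leaf 300 7)) (move 301 (branch (move 268 (leaf 268 7)) (move 398 (leaf 301 4)))))) (branch (move 334 (branch (move 366 (leaf 333 6)) (move 302 (leaf 301 6)))) (move 366 (branch (move 334 (leaf 333 6)) (move 300 (branch (move 332 (leaf 300 7)) (move 301 (branch (move 268 (leaf 268 7)) (move 398 (leaf 301 4))))))))))))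
theorem a6p1239 : a6e1239.Valid :=
  pos_of_chk [] forall_nil a6c1239 a6e1239 (by decide +kernel)

def a6e1240 : Pos := ⟨5954262833588616188884064158347017995346645478405541647180905798547169358250720169164176474759217887558681613304636575003108710781665935360, 693167433496074339319931846508283109824109698896520254410932568185066712034556664531380301313875559259220401647969688361694658560, 8⟩
def a6c1240 : Cert := (move 365 (branch (move 332 (branch (move 364 (leaf 332 7)) (move 333 (branch (move 300 (leaf 300 7)) (move 334 (branch (move 366 (leaf 333 6)) (move 302 (leaf 301 6)))))))) (branch (ref 0) (branch (ref 1) (branch (move 334 (branch (move 366 (leaf 333 6)) (move 333 (branch (move 302 (leaf 301 6)) (move 301 (branch (move 398 (leaf 301 4)) (move 396 (branch (move 428 (leaf 300 5)) (move 269 (branch (move 364 (leaf 268 5)) (move 268 (branch (move 300 (leaf 268 7)) (move 236 (leaf 236 7)))))))))))))) (ref 2))))))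
theorem a6p1240 : a6e1240.Valid :=
  pos_of_chk [a6e1238, a6e1239, a6e1211] (forall_cons a6p1238 (forall_cons a6p1239 (forall_cons a6p1211 forall_nil))) a6c1240 a6e1240 (by decide +kernel)

def a6e1241 : Pos := ⟨19351354200151826107254302442786019345570848501523742768711310221741022664333698355388233124395304728737673858813508668044193934478913044480, 3196670516267858898916717769279599188311134898051936660469828328621104587485027800055053259916368377520696015177308573875292506594426032072725364736, 9⟩
def a6c1241 : Cert := (move 363 (branch (move 395 (branch (move 458 (branch (move 490 (leaf 362 5)) (move 331 (branch (move 426 (leaf 330 5)) (move 330 (branch (move 362 (leaf 330 7)) (move 298 (leaf 298 7)))))))) (branch (move 362 (branch (move 330 (leaf 330 7)) (move 396 (branch (move 398 (leaf 362 3)) (move 361 (branch (move 394 (leaf 394 0)) (move 360 (leaf 360 0)))))))) (move 458 (branch (move 490 (leaf 362 5)) (move 426 (branch (move 331 (leaf 330 5)) (move 396 (branch (move 398 (leaf 394 1)) (move 425 (branch (move 424 (leaf 392 2)) (move 394 (leaf 394 0))))))))))))) (branch (move 365 (branch (move 333 (leaf 333 4)) (move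 364 (branch (move 332 (leaf 332 7)) (move 362 (branch (move 398 (leaf 362 0)) (move 330 (branch (move 329 (leaf 329 3)) (move 395 (leaf 330 7)))))))))) (branch (move 365 (branch (move 333 (leaf 333 4)) (move 364 (branch (move 332 (leaf 332 7)) (move 362 (branch (move 398 (leaf 362 0)) (move 361 (branch (move 396 (leaf 361 0)) (move 393 (branch (move 392 (leaf 360 1)) (move 394 (leaf 361 1)))))))))))) (branch (move 395 (branch (move 458 (branch (move 490 (leaf 362 5)) (move 331 (branch (move 426 (leaf 330 5)) (move 332 (branch (move 364 (leaf 331 6)) (move 300 (leaf 299 6)))))))) (branch (move 458 (branch (move 490 (leaf 362 5)) (move 331 (branch (move 426 (leaf 330 5)) (move 330 (branch (move 362 (leaf 330 7)) (move 298 (leaf 298 7)))))))) (move 364 (branch (move 332 (leaf 331 6)) (move 362 (branch (move 330 (leaf 330 7)) (move 361 (branch (move 396 (leaf 361 0)) (move 392 (branch (move 393 (leaf 360 1)) (move 360 (branch (move 391 (leaf 359 1)) (move 328 (branch (move 327 (leaf 327 3)) (move 329 (leaf 328 3))))))))))))))))) (move 395 (branch (move 458 (branch (move 490 (leaf 362 5)) (move 426 (branch (move 331 (leaf 330 5)) (move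 396 (branch (move 398 (leaf 394 1)) (move 425 (branch (move 424 (leaf 392 2)) (move 394 (leaf 394 0)))))))))) (branch (move 332 (branch (move 364 (leaf 331 6)) (move 331 (branch (move 300 (leaf 299 6)) (move 298 (branch (move 330 (leaf 298 7)) (move 299 (branch (move 266 (leaf 266 7)) (move 333 (branch (move 334 (leaf 298 3)) (move 365 (leaf 333 4)))))))))))) (move 396 (branch (move 394 (leaf 394 0)) (move 364 (branch (move 332 (leaf 331 6)) (move 398 (branch (move 399 (leaf 363 3)) (move 426 (leaf 394 1))))))))))))))))
theorem a6p1241 : a6e1241.Valid :=
  pos_of_chk [] forall_nil a6c1241 a6e1241 (by decide +kernel)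

def a6e1242 : Pos := ⟨219673525124179510886863654111897185765116110778934726155343619141960105537784368466287337069050332538885400914028389927778044320807376210783531926711372349440, 54343398776553601276732030079553207089272288825028484496147227527688213511000795934823677550238982955563586504406782839193808572111713780315048640512, 9⟩
def a6c1242 : Cert := (move 395 (branch (move 462 (branch (move 494 (leaf 397 7)) (move 365 (branch (move 333 (leaf 333 4)) (move 394 (branch (move 396 (leaf 394 0)) (move 364 (branch (move 332 (leaf 332 7)) (move 363 (branch (move 366 (leaf 362 1)) (move 393 (branch (move 392 (leaf 360 2)) (move 362 (leaf 361 1)))))))))))))) (branch (move 363 (branch (move 458 (branch (move 490 (leaf 362 5)) (move 331 (branch (move 426 (leaf 330 5)) (move 330 (branch (move 362 (leaf 330 7)) (move 298 (leaf 298 7)))))))) (branch (move 362 (branch (move 330 (leaf 330 7)) (move 396 (branch (move 398 (leaf 362 3)) (move 361 (branch (move 394 (leaf 394 0)) (move 360 (leaf 360 0)))))))) (move 458 (branch (move 490 (leaf 362 5)) (move 426 (branch (move 331 (leaf 330 5)) (move 396 (branch (move 398 (leaf 394 1)) (move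 425 (branch (move 424 (leaf 392 2)) (move 394 (leaf 394 0))))))))))))) (branch (move 363 (branch (move 458 (branch (move 490 (leaf 362 5)) (move 331 (branch (move 426 (leaf 330 5)) (move 332 (branch (move 364 (leaf 331 6)) (move 300 (leaf 299 6)))))))) (branch (move 458 (branch (move 490 (leaf 362 5)) (move 331 (branch (move 426 (leaf 330 5)) (move 330 (branch (move 362 (leaf 330 7)) (move 298 (leaf 298 7)))))))) (move 364 (branch (move 332 (leaf 331 6)) (move 362 (branch (move 330 (leaf 330 7)) (move 365 (branch (move 398 (leaf 362 0)) (move 394 (branch (move 393 (leaf 361 1)) (move 366 (leaf 362 1))))))))))))) (branch (move 363 (branch (move 458 (branch (move 490 (leaf 362 5)) (move 331 (branch (move 426 (leaf 330 5)) (move 332 (branch (move 364 (leaf 331 6)) (move 300 (leaf 299 6)))))))) (branch (move 458 (branch (move 490 (leaf 362 5)) (move 331 (branch (move 426 (leaf 330 5)) (move 330 (branch (move 362 (leaf 330 7)) (move 298 (leaf 298 7)))))))) (move 364 (branch (move 332 (leaf 331 6)) (move 362 (branch (move 330 (leaf 330 7)) (move 361 (branch (move 396 (leaf 361 0)) (move 392 (branch (move 393 (leaf 360 1)) (move 360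 (branch (move 391 (leaf 359 1)) (move 328 (branch (move 327 (leaf 327 3)) (move 329 (leaf 328 3))))))))))))))))) (move 462 (branch (move 494 (leaf 397 7)) (move 396 (branch (move 394 (leaf 394 0)) (move 398 (branch (move 426 (leaf 394 1)) (move 365 (branch (move 333 (leaf 333 4)) (move 367 (branch (move 366 (leaf 363 2)) (move 399 (branch (move 368 (leaf 364 2)) (move 364 (branch (move 400 (leaf 364 3)) (move 332 (leaf 332 7)))))))))))))))))))))
theorem a6p1242 : a6e1242.Valid :=
  pos_of_chk [] forall_nil a6c1242 a6e1242 (by decide +kernel)

def a6e1243 : Pos := ⟨219673525124179510886863654111550602053028227686726560808618743782530174419071178170287374182369672455842116758396287977686321204385185080483868583736157143040, 156636855344759188674384638403000624490300618752238414311331009614638026067350443859005012158394172997855760594895681086200227213515770626180036689920, 12⟩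
def a6c1243 : Cert := (move 397 (branch (ref 0) (branch (ref 1) (branch (ref 2) (branch (ref 3) (branch (move 428 (branch (move 427 (branch (move 458 (leaf 426 1)) (move 462 (branch (move 426 (leaf 426 0)) (move 494 (leaf 397 7)))))) (branch (move 427 (branch (move 458 (leaf 426 1)) (move 398 (branch (move 399 (leaf 395 2)) (move 426 (leaf 394 2)))))) (move 396 (branch (move 395 (branch (move 394 (leaf 394 0)) (move 398 (branch (move 431 (leaf 395 0)) (move 366 (branch (move 367 (leaf 363 2)) (move 334 (leaf 333 5)))))))) (branch (move 431 (branch (move 395 (leaf 395 3)) (move 399 (branch (move 400 (leaf 396 2)) (move 463 (branch (move 464 (leaf 428 0)) (move 494 (branch (move 462 (leaf 398 6)) (move 495 (leaf 398 5)))))))))) (move 398 (branch (move 399 (branch (move 400 (leaf 396 1)) (move 364 (branch (move 363 (leaf 363 3)) (move 332 (leaf 332 4)))))) (branch (move 462 (branch (move 494 (leaf 397 7)) (move 399 (branch (move 400 (leaf 396 1)) (move 367 (branch (move 368 (leaf 364 2)) (move 335 (branch (move 366 (leaf 334 6)) (move 303 (leaf 302 5)))))))))) (move 462 (branch (move 494 (leaf 397 7)) (move 366 (branch (move 335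 (branch (move 367 (leaf 334 6)) (move 334 (branch (move 303 (leaf 302 6)) (move 302 (leaf 301 5)))))) (move 463 (branch (move 495 (leaf 366 4)) (move 464 (leaf 428 3))))))))))))))))) (branch (move 462 (branch (move 494 (leaf 397 7)) (move 427 (branch (move 428 (branch (move 463 (leaf 427 0)) (move 458 (leaf 426 1)))) (branch (move 428 (branch (move 426 (leaf 426 0)) (move 463 (leaf 427 0)))) (ref 4)))))) (branch (move 427 (branch (move 428 (branch (move 458 (leaf 426 1)) (move 426 (branch (move 398 (leaf 394 2)) (move 394 (branch (move 393 (leaf 393 3)) (move 395 (leaf 394 3)))))))) (branch (move 428 (branch (move 458 (leaf 426 1)) (move 462 (branch (move 463 (leaf 427 0)) (move 494 (leaf 397 7)))))) (branch (move 462 (branch (move 494 (leaf 397 7)) (move 428 (branch (move 463 (leaf 427 0)) (move 426 (leaf 426 0)))))) (ref 5))))) (move 462 (branch (move 494 (leaf 397 7)) (move 366 (branch (move 334 (branch (move 365 (leaf 333 6)) (move 398 (leaf 333 5)))) (branch (move 398 (branch (move 334 (leaf 333 5)) (move 463 (branch (move 495 (leaf 366 4)) (move 428 (branch (move 464 (leaf 428 3)) (move 427 (leaf 427 0)))))))) (branch (move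 365 (branch (move 334 (leaf 333 6)) (move 364 (branch (move 332 (leaf 332 7)) (move 367 (branch (move 336 (branch (move 335 (leaf 332 2)) (move 368 (branch (move 337 (leaf 333 2)) (move 400 (branch (move 399 (leaf 364 0)) (move 401 (leaf 365 0)))))))) (move 395 (branch (move 396 (leaf 363 1)) (move 363 (branch (move 394 (leaf 362 1)) (move 330 (branch (move 331 (leaf 330 3)) (move 362 (branch (move 329 (leaf 329 3)) (move 427 (leaf 330 7)))))))))))))))) (move 398 (branch (move 367 (branch (move 335 (leaf 334 6)) (move 396 (branch (move 395 (leaf 363 2)) (move 368 (branch (move 365 (leaf 364 1)) (move 369 (leaf 365 1)))))))) (move 463 (branch (move 495 (leaf 366 4)) (move 428 (branch (move 427 (leaf 427 0)) (move 464 (leaf 428 3))))))))))))))))))))))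
theorem a6p1243 : a6e1243.Valid :=
  pos_of_chk [a6e1235, a6e1236, a6e1237, a6e1240, a6e1241, a6e1242] (forall_cons a6p1235 (forall_cons a6p1236 (forall_cons a6p1237 (forall_cons a6p1240 (forall_cons a6p1241 (forall_cons a6p1242 forall_nil)))))) a6c1243 a6e1243 (by decide +kernel)

def a6e1244 : Pos := ⟨219673525124179510886863654111550602053028227686726560808618743782530174419071178170287374182369672455842116758396287977686321204385185080483868583736157143040, 156636855344759188746474050450141810841744295144718995826020905417710862249125464319560010683656293404594749705315580039244391422460159951988599029760, 12⟩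
def a6c1244 : Cert := (move 397 (branch (ref 0) (branch (ref 1) (branch (ref 2) (branch (ref 3) (branch (move 398 (branch (move 366 (branch (move 462 (branch (move 494 (leaf 397 7)) (move 367 (branch (move 335 (leaf 334 6)) (move 396 (branch (move 395 (leaf 363 2)) (move 368 (branch (move 399 (leaf 364 2)) (move 369 (leaf 365 1)))))))))) (move 334 (leaf 333 5)))) (branch (move 399 (branch (move 400 (branch (move 428 (leaf 396 1)) (move 369 (branch (move 368 (leaf 365 2)) (move 401 (branch (move 370 (leaf 366 2)) (move 433 (branch (move 432 (leaf 397 0)) (move 434 (leaf 398 0)))))))))) (branch (move 400 (branch (move 401 (leaf 397 1)) (move 368 (branch (move 369 (leaf 365 2)) (move 396 (branch (move 367 (leaf 364 2)) (move 395 (branch (move 394 (leaf 394 0)) (move 363 (branch (move 362 (leaf 362 3)) (move 364 (leaf 363 3)))))))))))) (move 396 (branch (move 428 (branch (move 427 (leaf 395 1)) (move 364 (branch (move 363 (leaf 363 3)) (move 332 (leaf 332 4)))))) (branch (move 395 (branch (move 394 (leaf 394 0)) (move 363 (branch (move 362 (leaf 362 3)) (move 364 (leaf 363 3)))))) (move 427 (branch (move 428 (leaf 395 1)) (move 395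 (branch (move 394 (leaf 394 0)) (move 426 (leaf 394 1)))))))))))) (move 462 (branch (move 494 (leaf 397 7)) (move 366 (branch (move 334 (leaf 333 5)) (move 463 (branch (move 495 (leaf 366 4)) (move 428 (branch (move 464 (leaf 428 3)) (move 427 (leaf 427 0))))))))))))) (branch (move 427 (branch (move 428 (branch (move 458 (leaf 426 1)) (move 426 (branch (move 398 (leaf 394 2)) (move 394 (branch (move 393 (leaf 393 3)) (move 395 (leaf 394 3)))))))) (branch (move 428 (branch (move 458 (leaf 426 1)) (move 462 (branch (move 463 (leaf 427 0)) (move 494 (leaf 397 7)))))) (branch (move 462 (branch (move 494 (leaf 397 7)) (move 428 (branch (move 463 (leaf 427 0)) (move 426 (leaf 426 0)))))) (ref 4))))) (move 462 (branch (move 494 (leaf 397 7)) (move 427 (branch (move 428 (branch (move 463 (leaf 427 0)) (move 458 (leaf 426 1)))) (branch (move 428 (branch (move 426 (leaf 426 0)) (move 463 (leaf 427 0)))) (ref 5)))))))))))))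
theorem a6p1244 : a6e1244.Valid :=
  pos_of_chk [a6e1235, a6e1236, a6e1237, a6e1240, a6e1242, a6e1241] (forall_cons a6p1235 (forall_cons a6p1236 (forall_cons a6p1237 (forall_cons a6p1240 (forall_cons a6p1242 (forall_cons a6p1241 forall_nil)))))) a6c1244 a6e1244 (by decide +kernel)

def a6e1245 : Pos := ⟨219673525124179510885375088404193199141505993762932791095969476172342923515905899466469077859417265928437658439286605344746585229295569177005477616097347764224, 2636082302155061597960581609115389877748658591473980198829289118039465801295045382200496926542182489212420773500808354596703478041724264062376559012360998617088, 12⟩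
def a6c1245 : Cert := (move 431 (branch (move 396 (branch (move 432 (leaf 396 3)) (move 395 (branch (move 394 (leaf 394 0)) (move 398 (leaf 395 0)))))) (branch (move 462 (branch (move 494 (leaf 397 7)) (move 432 (branch (move 396 (leaf 396 3)) (move 433 (leaf 429 1)))))) (branch (move 462 (branch (move 494 (leaf 397 7)) (move 432 (branch (move 433 (leaf 429 1)) (move 365 (branch (move 333 (leaf 333 4)) (move 464 (branch (move 465 (leaf 429 0)) (move 400 (branch (move 401 (leaf 397 2)) (move 366 (branch (move 334 (leaf 333 6)) (move 364 (branch (move 332 (leaf 332 7)) (move 399 (branch (move 398 (leaf 364 3)) (move 496 (branch (move 528 (leaf 399 7)) (move 497 (branch (move 463 (leaf 461 0)) (move 529 (leaf 400 4)))))))))))))))))))))) (move 395 (branch (move 396 (branch (move 394 (leaf 394 0)) (move 398 (leaf 395 0)))) (branch (move 462 (branch (move 494 (leaf 397 7)) (move 365 (branch (move 333 (leaf 333 4)) (move 366 (branch (move 334 (leaf 333 6)) (move 364 (branch (move 332 (leaf 332 7)) (move 363 (branch (move 394 (leaf 362 1)) (move 398 (branch (move 362 (leaf 362 0)) (move 399 (leaf 363 0)))))))))))))) (branch (move 462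 (branch (move 494 (leaf 397 7)) (move 365 (branch (move 333 (leaf 333 4)) (move 394 (branch (move 396 (leaf 394 0)) (move 364 (branch (move 332 (leaf 332 7)) (move 363 (branch (move 366 (leaf 362 1)) (move 393 (branch (move 392 (leaf 360 2)) (move 362 (leaf 361 1)))))))))))))) (move 462 (branch (move 494 (leaf 397 7)) (move 398 (branch (move 396 (leaf 395 0)) (move 365 (branch (move 333 (leaf 333 4)) (move 364 (branch (move 332 (leaf 332 7)) (move 399 (branch (move 400 (leaf 364 3)) (move 363 (branch (move 362 (leaf 362 0)) (move 366 (leaf 363 0))))))))))))))))))))))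
theorem a6p1245 : a6e1245.Valid :=
  pos_of_chk [] forall_nil a6c1245 a6e1245 (by decide +kernel)

def a6e1246 : Pos := ⟨19351354199805242395489200585338717572552963038594188134289333149844712716756870691912529921515307927974656411551334766674018488000291274752, 716054195644000393328751623602983943751340149791448860812297648863047880832759778010641920383754970542094867217447137310492792656617595350686841700352, 11⟩
def a6c1246 : Cert := (move 398 (branch (move 366 (branch (move 334 (leaf 333 5)) (move 367 (branch (move 335 (leaf 334 6)) (move 396 (branch (move 395 (leaf 363 2)) (move 368 (branch (move 399 (leaf 364 2)) (move 369 (leaf 365 1)))))))))) (branch (move 366 (branch (move 334 (leaf 333 5)) (move 463 (branch (move 495 (leaf 366 4)) (move 464 (branch (move 465 (leaf 429 3)) (move 432 (branch (move 433 (leaf 429 2)) (move 367 (branch (move 335 (leaf 334 6)) (move 496 (branch (move 497 (leaf 461 0)) (move 399 (branch (move 400 (leaf 367 7)) (move 431 (leaf 367 4)))))))))))))))) (branch (move 396 (branch (move 431 (branch (move 432 (leaf 396 3)) (move 395 (leaf 395 0)))) (branch (move 395 (branch (move 394 (leaf 394 0)) (move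 363 (branch (move 362 (leaf 362 3)) (move 399 (branch (move 364 (leaf 363 3)) (move 400 (branch (move 401 (leaf 397 1)) (move 368 (branch (move 367 (leaf 364 2)) (move 369 (leaf 365 2)))))))))))) (move 399 (branch (move 367 (branch (move 368 (leaf 364 2)) (move 335 (branch (move 431 (leaf 334 5)) (move 303 (leaf 302 5)))))) (branch (move 400 (branch (move 401 (leaf 397 1)) (move 368 (branch (move 367 (leaf 364 2)) (move 369 (leaf 365 2)))))) (move 432 (branch (move 431 (leaf 396 0)) (move 400 (branch (move 433 (leaf 397 0)) (move 401 (leaf 397 1)))))))))))) (branch (move 366 (branch (move 334 (leaf 333 5)) (move 463 (branch (move 495 (leaf 366 4)) (move 464 (branch (move 465 (leaf 429 3)) (move 432 (branch (move 433 (leaf 429 2)) (move 396 (branch (move 431 (leaf 396 3)) (move 395 (branch (move 394 (leaf 394 0)) (move 363 (branch (move 362 (leaf 362 3)) (move 427 (branch (move 426 (leaf 394 1)) (move 364 (branch (move 399 (leaf 363 3)) (move 332 (leaf 331 6)))))))))))))))))))) (move 366 (branch (move 334 (leaf 333 5)) (move 367 (branch (move 335 (leaf 334 6)) (move 396 (branch (move 395 (leaf 363 2)) (move 432 (branch (move 431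 (leaf 396 3)) (move 463 (branch (move 495 (leaf 366 4)) (move 464 (branch (move 433 (leaf 429 2)) (move 465 (leaf 429 3)))))))))))))))))))
theorem a6p1246 : a6e1246.Valid :=
  pos_of_chk [] forall_nil a6c1246 a6e1246 (by decide +kernel)

def a6e1247 : Pos := ⟨9704343929745633243285313218207782858527906248106571237200331471255006996887270633392015570693194192500886467294400397898002989056, 306880369847519070112785269269853273452855709290526018054015468221690976675429926219137771985089076614446602961377564558387400233932695979647033147392, 9⟩
def a6c1247 : Cert := (move 432 (branch (move 433 (branch (move 398 (leaf 397 3)) (move 401 (branch (move 400 (leaf 397 2)) (move 402 (leaf 398 2)))))) (branch (move 433 (branch (move 398 (leaf 397 3)) (move 465 (branch (move 464 (leaf 429 0)) (move 466 (leaf 430 0)))))) (branch (move 465 (branch (move 464 (leaf 429 0)) (move 433 (branch (move 466 (leaf 430 0)) (move 401 (branch (move 400 (leaf 397 2)) (move 402 (leaf 398 2)))))))) (move 400 (branch (move 401 (leaf 397 2)) (move 368 (branch (move 464 (branch (move 465 (leaf 429 0)) (move 463 (branch (move 495 (leaf 367 5)) (move 336 (leaf 335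 5)))))) (branch (move 336 (branch (move 463 (leaf 335 5)) (move 304 (branch (move 399 (leaf 303 5)) (move 303 (branch (move 335 (leaf 303 7)) (move 271 (leaf 271 7)))))))) (move 464 (branch (move 465 (leaf 429 0)) (move 367 (branch (move 335 (leaf 335 7)) (move 399 (branch (move 496 (leaf 367 7)) (move 369 (branch (move 337 (leaf 336 6)) (move 370 (branch (move 398 (leaf 366 1)) (move 371 (leaf 367 1)))))))))))))))))))))
theorem a6p1247 : a6e1247.Valid :=
  pos_of_chk [] forall_nil a6c1247 a6e1247 (by decide +kernel)

def a6e1248 : Pos := ⟨219673525124179510885375088409738538529747623482164772826904406242508261045754791401686058862211574779911542996455584845758531855681189966876597358252317999104, 878694100854745141625488114739746877043331158227268314291006941798507440566976524347141714512909480959687264338020146723412322205039600754464267501236046004224, 11⟩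
def a6c1248 : Cert := (move 399 (branch (move 364 (branch (move 332 (leaf 332 7)) (move 398 (branch (move 400 (leaf 364 3)) (move 396 (branch (move 363 (leaf 363 3)) (move 395 (leaf 395 0)))))))) (branch (move 463 (branch (move 494 (branch (move 462 (leaf 398 6)) (move 495 (leaf 398 5)))) (branch (move 462 (branch (move 494 (leaf 365 4)) (move 367 (branch (move 335 (leaf 334 5)) (move 464 (branch (move 465 (leaf 429 3)) (move 496 (leaf 367 4)))))))) (branch (move 495 (branch (move 494 (leaf 398 5)) (move 496 (branch (move 528 (leaf 399 4)) (move 367 (branch (move 464 (leaf 367 4)) (move 368 (branch (move 400 (leaf 367 6)) (move 336 (leaf 335 6)))))))))) (move 367 (branch (move 335 (branch (move 462 (leaf 334 5)) (move 336 (branch (move 368 (leaf 335 6)) (move 304 (leaf 303 6)))))) (branch (move 368 (branch (move 336 (leaf 335 6)) (move 496 (branch (move 464 (leaf 367 4)) (move 495 (branch (move 400 (leaf 367 6)) (move 528 (leaf 399 4)))))))) (move 464 (branch (move 496 (leaf 367 4)) (move 465 (branch (move 462 (leaf 429 3)) (move 466 (leaf 430 3))))))))))))) (move 463 (branch (move 494 (branch (move 462 (leaf 398 6)) (move 495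 (leaf 398 5)))) (branch (move 495 (branch (move 494 (leaf 398 5)) (move 496 (branch (move 528 (leaf 399 4)) (move 367 (branch (move 464 (leaf 367 4)) (move 364 (branch (move 332 (leaf 332 7)) (move 336 (branch (move 368 (leaf 335 6)) (move 335 (branch (move 304 (leaf 303 6)) (move 398 (branch (move 303 (leaf 302 5)) (move 396 (branch (move 363 (leaf 363 3)) (move 395 (leaf 395 0)))))))))))))))))) (move 367 (branch (move 464 (branch (move 496 (leaf 367 4)) (move 465 (branch (move 462 (leaf 429 3)) (move 466 (leaf 430 3)))))) (move 336 (branch (move 368 (leaf 335 6)) (move 335 (branch (move 304 (leaf 303 6)) (move 302 (branch (move 334 (leaf 302 7)) (move 303 (branch (move 270 (leaf 270 7)) (move 398 (leaf 302 5))))))))))))))))))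
theorem a6p1248 : a6e1248.Valid :=
  pos_of_chk [] forall_nil a6c1248 a6e1248 (by decide +kernel)

def a6e1249 : Pos := ⟨219673525124179510886863654111550602053028227686726560808618743782530174419071178170287374182369672455842116758396287977686321204385185080483868583736157143040, 3773962427457623654498909635636141344012490724485422867194548091228161680526107312497978574209009873256524668643643136845050248683243670620334767309107666036282116538368, 14⟩
def a6c1249 : Cert := (move 397 (branch (move 396 (branch (move 395 (branch (move 394 (leaf 394 0)) (move 431 (branch (move 432 (leaf 396 3)) (move 398 (leaf 395 0)))))) (branch (move 462 (branch (move 494 (leaf 397 7)) (move 365 (branch (move 333 (leaf 333 4)) (move 395 (branch (move 394 (leaf 394 0)) (move 366 (branch (move 334 (leaf 333 6)) (move 367 (branch (move 364 (leaf 363 1)) (move 368 (leaf 364 1)))))))))))) (move 462 (branch (move 494 (leaf 397 7)) (move 365 (branch (move 333 (leaf 333 4)) (move 364 (branch (move 332 (leaf 332 7)) (move 366 (branch (move 334 (leaf 333 6)) (move 367 (branch (move 368 (leaf 364 1)) (move 335 (branch (move 336 (leaf 332 2)) (move 398 (leaf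 334 6))))))))))))))))) (branch (ref 0) (branch (move 366 (branch (move 334 (branch (move 365 (leaf 333 6)) (move 398 (leaf 333 5)))) (branch (move 398 (branch (move 334 (leaf 333 5)) (move 462 (branch (move 494 (leaf 397 7)) (move 367 (branch (move 335 (leaf 334 6)) (move 463 (branch (move 495 (leaf 366 4)) (move 464 (branch (move 465 (leaf 429 3)) (move 432 (branch (move 433 (leaf 429 2)) (move 496 (branch (move 497 (leaf 461 0)) (move 399 (branch (move 400 (leaf 367 7)) (move 431 (leaf 367 4)))))))))))))))))) (branch (move 462 (branch (move 494 (leaf 397 7)) (move 365 (branch (move 334 (leaf 333 6)) (move 333 (leaf 333 4)))))) (move 462 (branch (move 494 (leaf 397 7)) (move 398 (branch (move 367 (branch (move 335 (leaf 334 6)) (move 396 (branch (move 395 (leaf 363 2)) (move 368 (branch (move 365 (leaf 364 1)) (move 369 (leaf 365 1)))))))) (branch (move 367 (branch (move 335 (leaf 334 6)) (move 463 (branch (move 495 (leaf 366 4)) (move 464 (branch (move 465 (leaf 429 3)) (move 432 (branch (move 433 (leaf 429 2)) (move 496 (branch (move 497 (leaf 461 0)) (move 399 (branch (move 400 (leaf 367 7)) (move 431 (leaf 367 4))))))))))))))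 (move 365 (branch (move 333 (leaf 333 4)) (move 463 (branch (move 495 (leaf 366 4)) (move 464 (branch (move 465 (leaf 429 3)) (move 432 (branch (move 433 (leaf 429 2)) (move 431 (branch (move 396 (leaf 396 3)) (move 400 (branch (move 401 (leaf 397 2)) (move 496 (branch (move 497 (leaf 461 0)) (move 528 (branch (move 560 (leaf 431 7)) (move 399 (leaf 399 7))))))))))))))))))))))))))) (branch (ref 1) (branch (move 365 (branch (move 332 (branch (move 364 (leaf 332 7)) (move 333 (branch (move 300 (leaf 300 7)) (move 334 (branch (move 366 (leaf 333 6)) (move 302 (leaf 301 6)))))))) (branch (ref 2) (branch (ref 3) (branch (ref 4) (move 396 (branch (move 334 (branch (move 366 (leaf 333 6)) (move 333 (branch (move 302 (leaf 301 6)) (move 301 (branch (move 398 (leaf 301 4)) (move 269 (branch (move 364 (leaf 268 5)) (move 268 (branch (move 300 (leaf 268 7)) (move 236 (leaf 236 7)))))))))))) (branch (move 395 (branch (move 394 (leaf 394 0)) (move 431 (branch (move 432 (leaf 396 3)) (move 398 (leaf 395 0)))))) (move 366 (branch (move 334 (leaf 333 6)) (move 395 (branch (move 394 (leaf 394 0)) (move 367 (branch (move 364 (leaf 363 1)) (move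 368 (leaf 364 1)))))))))))))))) (branch (move 462 (branch (move 494 (leaf 397 7)) (move 366 (branch (move 365 (branch (move 334 (leaf 333 6)) (move 332 (branch (move 364 (leaf 332 7)) (move 333 (leaf 333 4)))))) (branch (move 398 (branch (move 334 (leaf 333 5)) (move 367 (branch (move 335 (leaf 334 6)) (move 463 (branch (move 495 (leaf 366 4)) (move 464 (branch (move 465 (leaf 429 3)) (move 432 (branch (move 433 (leaf 429 2)) (move 496 (branch (move 497 (leaf 461 0)) (move 399 (branch (move 400 (leaf 367 7)) (move 431 (leaf 367 4)))))))))))))))) (move 398 (branch (move 367 (branch (move 335 (leaf 334 6)) (move 463 (branch (move 495 (leaf 366 4)) (move 464 (branch (move 465 (leaf 429 3)) (move 432 (branch (move 433 (leaf 429 2)) (move 496 (branch (move 497 (leaf 461 0)) (move 399 (branch (move 400 (leaf 367 7)) (move 431 (leaf 367 4)))))))))))))) (branch (move 365 (branch (move 333 (leaf 333 4)) (move 364 (branch (move 332 (leaf 332 7)) (move 367 (branch (move 335 (leaf 334 6)) (move 368 (branch (move 369 (leaf 365 1)) (move 463 (branch (move 495 (leaf 366 4)) (move 464 (branch (move 465 (leaf 429 3)) (move 432 (branch (move 433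 (leaf 429 2)) (move 400 (branch (move 401 (leaf 365 0)) (move 336 (branch (move 337 (leaf 333 2)) (move 431 (leaf 335 5)))))))))))))))))))) (move 365 (branch (move 333 (leaf 333 4)) (move 364 (branch (move 332 (leaf 332 7)) (move 363 (branch (move 362 (leaf 362 0)) (move 399 (leaf 363 0)))))))))))))))) (branch (move 462 (branch (move 494 (leaf 397 7)) (ref 5))) (branch (move 431 (branch (move 462 (branch (move 494 (leaf 397 7)) (move 432 (branch (move 396 (leaf 396 3)) (move 433 (leaf 429 1)))))) (branch (ref 6) (move 365 (branch (move 462 (branch (move 494 (leaf 365 4)) (move 333 (leaf 333 4)))) (branch (ref 3) (move 399 (branch (move 364 (branch (move 332 (leaf 332 7)) (move 398 (branch (move 400 (leaf 364 3)) (move 363 (branch (move 362 (leaf 362 0)) (move 366 (leaf 363 0)))))))) (branch (move 364 (branch (move 332 (leaf 332 7)) (move 398 (branch (move 400 (leaf 364 3)) (move 396 (branch (move 363 (leaf 363 3)) (move 395 (leaf 395 0)))))))) (branch (move 462 (branch (move 494 (leaf 365 4)) (move 367 (branch (move 335 (leaf 334 5)) (move 364 (branch (move 332 (leaf 332 7)) (move 366 (branch (move 400 (leaf 364 0)) (move 396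 (branch (move 395 (leaf 363 1)) (move 368 (leaf 364 1)))))))))))) (move 396 (branch (move 395 (branch (move 394 (leaf 394 0)) (move 398 (leaf 395 0)))) (move 462 (branch (move 494 (leaf 365 4)) (move 367 (branch (move 335 (leaf 334 5)) (move 368 (branch (move 366 (leaf 364 1)) (move 463 (branch (move 336 (leaf 335 6)) (move 464 (branch (move 465 (leaf 429 3)) (move 496 (leaf 367 4)))))))))))))))))))))))) (move 365 (branch (move 462 (branch (move 494 (leaf 365 4)) (move 333 (leaf 333 4)))) (branch (move 332 (branch (move 364 (leaf 332 7)) (move 333 (branch (move 300 (leaf 300 7)) (move 301 (branch (move 398 (leaf 301 4)) (move 302 (branch (move 334 (leaf 301 6)) (move 270 (leaf 269 6)))))))))) (move 431 (branch (move 462 (branch (move 494 (leaf 397 7)) (move 432 (branch (move 396 (leaf 396 3)) (move 433 (leaf 429 1)))))) (branch (ref 6) (ref 7))))))))))))))))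
theorem a6p1249 : a6e1249.Valid :=
  pos_of_chk [a6e1236, a6e1245, a6e1239, a6e1238, a6e1211, a6e1246, a6e1247, a6e1248] (forall_cons a6p1236 (forall_cons a6p1245 (forall_cons a6p1239 (forall_cons a6p1238 (forall_cons a6p1211 (forall_cons a6p1246 (forall_cons a6p1247 (forall_cons a6p1248 forall_nil)))))))) a6c1249 a6e1249 (by decide +kernel)

def a6e1250 : Pos := ⟨219673525124179510886863654108777932358907412827148146624475660079093737343695361595116894601755051148036491135356313571582181626287793869522465011907182985216, 4717453033663008992562494952543346136524472738069008605628455190423660169694695526962552845904725408863562467784886189605566943158896888834992016401790385247941386305536, 15⟩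
def a6c1250 : Cert := (move 430 (branch (move 428 (branch (move 427 (branch (move 458 (leaf 426 1)) (move 395 (branch (move 394 (leaf 394 3)) (move 431 (branch (move 396 (leaf 395 3)) (move 464 (branch (move 463 (leaf 428 0)) (move 432 (branch (move 465 (leaf 429 0)) (move 400 (branch (move 399 (leaf 396 2)) (move 401 (leaf 397 2)))))))))))))) (branch (move 431 (branch (move 399 (branch (move 400 (leaf 396 2)) (move 463 (branch (move 464 (leaf 428 0)) (move 494 (branch (move 462 (leaf 398 6)) (move 495 (leaf 398 5)))))))) (branch (move 396 (branch (move 395 (leaf 395 3)) (move 432 (branch (move 397 (leaf 396 3)) (move 464 (branch (move 463 (leaf 428 0)) (move 465 (leaf 429 0)))))))) (move 396 (branch (move 395 (leaf 395 3)) (move 432 (branch (move 397 (leaf 396 3)) (move 400 (branch (move 399 (leaf 396 2)) (move 401 (leaf 397 2))))))))))) (move 427 (branch (move 458 (leaf 426 1)) (move 462 (branch (move 426 (leaf 426 0)) (move 494 (branch (move 558 (leaf 429 7)) (move 397 (leaf 397 7))))))))))) (branch (move 428 (branch (move 427 (branch (move 458 (leaf 426 1)) (move 462 (branch (move 426 (leaf 426 0)) (move 494 (branch (move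 558 (leaf 429 7)) (move 397 (leaf 397 7)))))))) (branch (ref 0) (ref 1)))) (branch (move 428 (branch (move 427 (branch (move 458 (leaf 426 1)) (move 462 (branch (move 426 (leaf 426 0)) (move 463 (leaf 427 0)))))) (branch (move 427 (branch (move 458 (leaf 426 1)) (move 395 (branch (move 394 (leaf 394 3)) (move 431 (branch (move 396 (leaf 395 3)) (move 399 (branch (move 398 (leaf 395 2)) (move 400 (leaf 396 2)))))))))) (ref 1)))) (branch (move 428 (branch (move 427 (branch (move 458 (leaf 426 1)) (move 462 (branch (move 463 (leaf 427 0)) (move 494 (branch (move 558 (leaf 429 7)) (move 397 (leaf 397 7)))))))) (branch (move 427 (branch (move 458 (leaf 426 1)) (move 398 (branch (move 399 (leaf 395 2)) (move 426 (branch (move 397 (leaf 394 2)) (move 394 (branch (move 393 (leaf 393 3)) (move 395 (leaf 394 3)))))))))) (ref 1)))) (branch (move 428 (branch (move 427 (branch (move 458 (leaf 426 1)) (move 462 (branch (move 426 (leaf 426 0)) (move 463 (leaf 427 0)))))) (branch (move 427 (branch (move 458 (leaf 426 1)) (move 398 (branch (move 399 (leaf 395 2)) (move 426 (branch (move 397 (leaf 394 2)) (move 394 (branch (move 393 (leaf 393 3))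 (move 395 (leaf 394 3)))))))))) (move 431 (branch (move 396 (branch (move 395 (leaf 395 3)) (move 432 (branch (move 397 (leaf 396 3)) (move 464 (branch (move 463 (leaf 428 0)) (move 465 (leaf 429 0)))))))) (branch (move 464 (branch (move 463 (leaf 428 0)) (move 432 (branch (move 465 (leaf 429 0)) (move 462 (branch (move 433 (leaf 429 1)) (move 494 (branch (move 399 (leaf 398 6)) (move 558 (leaf 429 7)))))))))) (branch (move 396 (branch (move 395 (leaf 395 3)) (move 397 (branch (move 432 (leaf 396 3)) (move 462 (branch (move 494 (leaf 397 7)) (move 365 (branch (move 333 (leaf 333 4)) (move 364 (branch (move 332 (leaf 332 4)) (move 366 (branch (move 334 (leaf 333 6)) (move 367 (branch (move 368 (leaf 364 1)) (move 335 (branch (move 336 (leaf 332 2)) (move 398 (leaf 334 6)))))))))))))))))) (move 463 (branch (move 464 (leaf 428 0)) (move 399 (branch (move 494 (branch (move 462 (leaf 398 6)) (move 495 (leaf 398 5)))) (branch (ref 2) (branch (ref 3) (move 462 (branch (move 494 (leaf 398 6)) (move 367 (branch (move 335 (leaf 334 5)) (move 366 (branch (move 334 (leaf 334 7)) (move 396 (branch (move 395 (leaf 395 3)) (move 368 (branch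 (move 336 (leaf 335 6)) (move 397 (branch (move 398 (leaf 364 2)) (move 365 (leaf 364 1))))))))))))))))))))))))))) (branch (ref 4) (branch (move 428 (branch (move 427 (branch (move 458 (leaf 426 1)) (move 398 (branch (move 399 (leaf 395 2)) (move 426 (branch (move 397 (leaf 394 2)) (move 394 (branch (move 393 (leaf 393 3)) (move 395 (leaf 394 3)))))))))) (branch (move 427 (branch (move 458 (leaf 426 1)) (move 395 (branch (move 394 (leaf 394 3)) (move 431 (branch (move 396 (leaf 395 3)) (move 464 (branch (move 463 (leaf 428 0)) (move 432 (branch (move 465 (leaf 429 0)) (move 400 (branch (move 399 (leaf 396 2)) (move 401 (leaf 397 2)))))))))))))) (branch (ref 0) (branch (move 427 (branch (move 458 (leaf 426 1)) (move 426 (branch (move 397 (branch (move 398 (leaf 394 2)) (move 425 (branch (move 396 (leaf 393 2)) (move 456 (branch (move 457 (leaf 424 1)) (move 424 (branch (move 455 (leaf 423 1)) (move 392 (branch (move 391 (leaf 391 3)) (move 393 (leaf 392 3)))))))))))) (branch (move 395 (branch (move 394 (leaf 394 3)) (move 396 (branch (move 431 (leaf 395 3)) (move 397 (branch (move 425 (leaf 393 2)) (move 398 (leaf 394 1))))))))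 (move 394 (branch (move 393 (leaf 393 3)) (move 395 (leaf 394 3))))))))) (move 431 (branch (move 396 (branch (move 395 (leaf 395 3)) (move 432 (branch (move 397 (leaf 396 3)) (move 464 (branch (move 463 (leaf 428 0)) (move 465 (leaf 429 0)))))))) (branch (move 396 (branch (move 395 (leaf 395 3)) (move 432 (branch (move 397 (leaf 396 3)) (move 400 (branch (move 399 (leaf 396 2)) (move 401 (leaf 397 2)))))))) (move 399 (branch (move 400 (leaf 396 2)) (move 463 (branch (move 464 (leaf 428 0)) (ref 2))))))))))))) (branch (ref 5) (branch (ref 6) (branch (ref 7) (branch (ref 8) (branch (ref 9) (branch (ref 10) (ref 11)))))))))))))))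
theorem a6p1250 : a6e1250.Valid :=
  pos_of_chk [a6e1203, a6e1224, a6e1225, a6e1204, a6e1209, a6e1226, a6e1229, a6e1232, a6e1234, a6e1243, a6e1244, a6e1249] (forall_cons a6p1203 (forall_cons a6p1224 (forall_cons a6p1225 (forall_cons a6p1204 (forall_cons a6p1209 (forall_cons a6p1226 (forall_cons a6p1229 (forall_cons a6p1232 (forall_cons a6p1234 (forall_cons a6p1243 (forall_cons a6p1244 (forall_cons a6p1249 forall_nil)))))))))))) a6c1250 a6e1250 (by decide +kernel)

def a6e1251 : Pos := ⟨329510287762989358709559851922629842890469931439668172063330239122141590426641473578837830157675128468360047875673214248845594921903654718153523076158510333952, 4052261298678835292252658642446288206782659246406257759952570110019233023823046234313986809394564131401011586136002605611949238810119035529122451102512315344204382241553156931584, 8⟩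
def a6c1251 : Cert := (move 365 (branch (move 366 (branch (move 331 (branch (move 330 (leaf 330 3)) (move 367 (branch (move 332 (leaf 331 3)) (move 335 (branch (move 334 (leaf 331 2)) (move 336 (leaf 332 2)))))))) (move 398 (branch (move 399 (leaf 363 0)) (move 430 (branch (move 397 (leaf 365 7)) (move 333 (leaf 333 7)))))))) (branch (move 362 (branch (move 330 (branch (move 329 (leaf 329 3)) (move 366 (branch (move 331 (leaf 330 3)) (move 334 (branch (move 333 (leaf 330 2)) (move 335 (leaf 331 2)))))))) (branch (move 330 (branch (move 329 (leaf 329 3)) (move 393 (branch (move 394 (leaf 361 1)) (move 361 (branch (move 392 (leaf 360 1)) (move 331 (branch (move 366 (leaf 330 3)) (move 360 (branch (move 359 (leaf 327 2)) (move 332 (leaf 328 2)))))))))))) (move 333 (branch (move 334 (leaf 330 2)) (move 361 (branch (move 332 (leaf 329 2)) (move 393 (branch (move 392 (leaf 360 1)) (move 394 (leaf 361 1))))))))))) (branch (move 362 (branch (move 398 (branch (move 397 (leaf 362 0)) (move 366 (branch (move 399 (leaf 363 0)) (move 335 (branch (move 334 (leaf 331 2)) (move 367 (branch (move 336 (leaf 332 2)) (move 430 (leaf 397 5))))))))))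 (move 329 (branch (move 330 (leaf 329 3)) (move 361 (branch (move 328 (leaf 328 3)) (move 393 (branch (move 392 (leaf 360 1)) (move 394 (leaf 361 1)))))))))) (branch (move 362 (branch (move 398 (branch (move 397 (leaf 362 0)) (move 366 (branch (move 399 (leaf 363 0)) (move 330 (branch (move 329 (leaf 329 3)) (move 331 (leaf 330 3)))))))) (branch (move 329 (branch (move 330 (leaf 329 3)) (move 361 (branch (move 328 (leaf 328 3)) (move 393 (branch (move 392 (leaf 360 1)) (move 394 (leaf 361 1)))))))) (move 398 (branch (move 397 (leaf 362 0)) (move 366 (branch (move 399 (leaf 363 0)) (move 333 (branch (move 430 (leaf 397 5)) (move 332 (branch (move 361 (leaf 329 2)) (move 367 (branch (move 331 (leaf 331 3)) (move 368 (leaf 332 3))))))))))))))) (branch (move 362 (branch (move 333 (branch (move 334 (leaf 330 2)) (move 361 (branch (move 332 (leaf 329 2)) (move 393 (branch (move 392 (leaf 360 1)) (move 394 (leaf 361 1)))))))) (branch (move 398 (branch (move 397 (leaf 362 0)) (move 366 (branch (move 399 (leaf 363 0)) (move 335 (branch (move 334 (leaf 331 2)) (move 367 (branch (move 336 (leaf 332 2)) (move 430 (leaf 397 5)))))))))) (move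 398 (branch (move 397 (leaf 362 0)) (move 366 (branch (move 399 (leaf 363 0)) (move 333 (branch (move 430 (leaf 397 5)) (move 332 (branch (move 361 (leaf 329 2)) (move 367 (branch (move 331 (leaf 331 3)) (move 368 (leaf 332 3))))))))))))))) (move 558 (branch (move 590 (leaf 461 7)) (move 398 (branch (move 430 (leaf 397 5)) (move 362 (branch (move 397 (leaf 362 0)) (move 333 (branch (move 334 (leaf 330 2)) (move 361 (branch (move 332 (leaf 329 2)) (move 329 (branch (move 328 (leaf 328 3)) (move 330 (leaf 329 3))))))))))))))))))))
theorem a6p1251 : a6e1251.Valid :=
  pos_of_chk [] forall_nil a6c1251 a6e1251 (by decide +kernel)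

def a6e1252 : Pos := ⟨12786682072514264131934010059839509630503726329738790254841796129810526893503851179112017963687534899039211761942760766231543252442611706767924527104, 878694101212772239078324015979573412630379101550538463352051835854768508077276091805031601484298520616726580707616271996629434489151338652145879951145225420800, 8⟩
def a6c1252 : Cert := (move 431 (branch (move 462 (branch (move 430 (leaf 427 2)) (move 463 (branch (move 432 (leaf 428 2)) (move 427 (leaf 427 3)))))) (branch (move 395 (branch (move 363 (leaf 363 7)) (move 397 (branch (move 365 (leaf 364 6)) (move 430 (branch (move 462 (leaf 427 2)) (move 398 (leaf 395 0)))))))) (branch (move 397 (branch (move 365 (leaf 364 6)) (move 395 (branch (move 363 (leaf 363 7)) (move 398 (branch (move 430 (leaf 395 0)) (move 399 (branch (move 432 (leaf 396 0)) (move 367 (branch (move 366 (leaf 363 2)) (move 368 (leaf 364 2)))))))))))) (move 399 (branch (move 397 (branch (move 365 (leaf 364 6)) (move 398 (branch (move 432 (leaf 396 0)) (move 427 (leaf 395 1)))))) (branch (move 395 (branch (move 363 (leaf 363 7)) (move 397 (branch (move 365 (leaf 364 6)) (move 398 (branch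 (move 427 (leaf 395 1)) (move 367 (branch (move 366 (leaf 363 2)) (move 368 (leaf 364 2)))))))))) (branch (move 397 (branch (move 365 (leaf 364 6)) (move 398 (branch (move 432 (leaf 396 0)) (move 367 (branch (move 368 (leaf 364 2)) (move 395 (branch (move 366 (leaf 363 2)) (move 363 (leaf 363 7)))))))))) (move 463 (branch (move 462 (branch (move 432 (leaf 428 2)) (move 427 (leaf 427 3)))) (branch (move 395 (branch (move 363 (leaf 363 7)) (move 462 (branch (move 427 (leaf 427 3)) (move 496 (branch (move 495 (leaf 460 0)) (move 464 (branch (move 497 (leaf 461 0)) (move 367 (leaf 367 4)))))))))) (move 367 (branch (move 334 (branch (move 366 (leaf 334 7)) (move 335 (branch (move 302 (leaf 302 7)) (move 336 (branch (move 368 (leaf 335 6)) (move 304 (leaf 303 6)))))))) (branch (move 334 (branch (move 366 (leaf 334 7)) (move 335 (branch (move 302 (leaf 302 7)) (move 464 (branch (move 496 (leaf 367 4)) (move 432 (leaf 335 4)))))))) (move 368 (branch (move 336 (leaf 335 6)) (move 496 (branch (move 464 (leaf 367 4)) (move 495 (branch (move 400 (leaf 367 6)) (move 528 (leaf 399 4))))))))))))))))))))))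
theorem a6p1252 : a6e1252.Valid :=
  pos_of_chk [] forall_nil a6c1252 a6e1252 (by decide +kernel)

def a6e1253 : Pos := ⟨2977131415494619175322900113746127348856252253216940944508038879662422375712256346548201226579620940918025379419166157363396431096001331200, 12786682062094304179955637074195558344340168493747627000736032062931630439851007363362080430861865479878398122642570388298794690263034739914159685632, 8⟩
def a6c1253 : Cert := (move 395 (branch (move 363 (branch (move 492 (leaf 363 7)) (move 331 (branch (move 364 (leaf 331 7)) (move 299 (leaf 299 4)))))) (branch (move 397 (branch (move 365 (branch (move 492 (leaf 364 6)) (move 333 (branch (move 364 (leaf 332 6)) (move 301 (leaf 300 5)))))) (move 394 (branch (move 426 (leaf 393 1)) (move 393 (branch (move 424 (leaf 392 1)) (move 361 (branch (move 360 (leaf 360 3)) (move 362 (leaf 361 3)))))))))) (branch (move 492 (branch (move 363 (leaf 363 7)) (move 397 (branch (move 365 (leaf 364 6)) (move 394 (branch (move 426 (leaf 393 1)) (move 393 (branch (move 424 (leaf 392 1)) (move 361 (branch (move 360 (leaf 360 3)) (move 362 (leaf 361 3)))))))))))) (move 364 (branch (move 365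 (branch (move 333 (leaf 332 6)) (move 394 (branch (move 393 (leaf 361 2)) (move 366 (branch (move 397 (leaf 362 2)) (move 367 (leaf 363 1)))))))) (branch (move 332 (branch (move 331 (branch (move 363 (leaf 331 7)) (move 299 (leaf 299 7)))) (branch (move 299 (branch (move 331 (leaf 299 7)) (move 300 (branch (move 267 (leaf 267 7)) (move 301 (branch (move 333 (leaf 300 6)) (move 269 (leaf 268 6)))))))) (branch (move 301 (branch (move 333 (leaf 300 6)) (move 300 (branch (move 269 (leaf 268 6)) (move 268 (branch (move 363 (leaf 267 5)) (move 267 (branch (move 299 (leaf 267 7)) (move 235 (leaf 235 7)))))))))) (move 363 (branch (move 331 (leaf 331 7)) (move 300 (branch (move 268 (leaf 267 5)) (move 301 (branch (move 333 (leaf 300 6)) (move 269 (leaf 268 6)))))))))))) (move 394 (branch (move 397 (branch (move 426 (leaf 393 1)) (move 393 (branch (move 424 (leaf 392 1)) (move 365 (leaf 361 2)))))) (branch (move 393 (branch (move 424 (leaf 392 1)) (move 365 (leaf 361 2)))) (move 363 (branch (move 331 (leaf 331 7)) (move 397 (branch (move 426 (leaf 393 1)) (move 362 (branch (move 361 (leaf 361 0)) (move 398 (leaf 362 3))))))))))))))))))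
theorem a6p1253 : a6e1253.Valid :=
  pos_of_chk [] forall_nil a6c1253 a6e1253 (by decide +kernel)

def a6e1254 : Pos := ⟨2977131415407973247381624649403090246263971553307668130676859307907350349209315989644933753631879412928187885151332274007930719100601368576, 4962761485028367463960778743173887879025466716961263172264233175989293057539761412675389632521721317890824033940614938624, 9⟩
def a6c1254 : Cert := (move 364 (branch (move 331 (leaf 331 7)) (move 365 (branch (move 333 (leaf 332 6)) (move 366 (branch (move 399 (branch (move 398 (leaf 363 0)) (move 367 (branch (move 400 (leaf 364 0)) (move 335 (branch (move 334 (leaf 331 2)) (move 336 (leaf 332 2)))))))) (branch (move 395 (branch (move 394 (leaf 362 1)) (move 367 (leaf 363 1)))) (move 395 (branch (move 394 (leaf 362 1)) (move 398 (branch (move 399 (leaf 363 0)) (move 362 (branch (move 397 (leaf 362 0)) (move 361 (branch (move 360 (leaf 360 0)) (move 329 (branch (move 328 (leaf 328 3)) (move 330 (leaf 329 3)))))))))))))))))))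
theorem a6p1254 : a6e1254.Valid :=
  pos_of_chk [] forall_nil a6c1254 a6e1254 (by decide +kernel)

def a6e1255 : Pos := ⟨109836762562089755449013948457065873026833962549693024637850501590344912524876799295801064194274434706996707029369931159371774662104993131438184639018108452864, 38360046186282912539217066759980861145597790701641153810929658969898673428329990115914888383471824372736742157582385339067542499517210654701197983744, 6⟩
def a6c1255 : Cert := (move 396 (branch (move 493 (branch (move 492 (leaf 396 4)) (move 364 (leaf 364 4)))) (branch (move 360 (branch (move 328 (leaf 328 7)) (move 395 (branch (move 394 (leaf 360 3)) (move 363 (branch (move 362 (leaf 360 0)) (move 492 (leaf 363 7)))))))) (move 364 (branch (move 493 (leaf 364 4)) (move 331 (branch (move 363 (leaf 331 7)) (move 332 (branch (move 299 (leaf 299 7)) (move 333 (branch (move 365 (leaf 332 6)) (move 301 (leaf 300 6)))))))))))))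
theorem a6p1255 : a6e1255.Valid :=
  pos_of_chk [] forall_nil a6c1255 a6e1255 (by decide +kernel)

def a6e1256 : Pos := ⟨109836762562089755449013948457065873026833962549688327552684953923889133563683220621746312829176618067255292447426866741321545445218065733441415101612044582912, 58968162908430976652321171432641751137903272153719703725626993072564757261594908624110783673588662835655281339676402303829804748184130677072388858811040102865791090688, 7⟩
def a6c1256 : Cert := (move 361 (branch (move 330 (branch (move 362 (leaf 329 6)) (move 329 (branch (move 298 (leaf 297 6)) (move 424 (branch (move 456 (leaf 328 5)) (move 297 (branch (move 392 (leaf 296 5)) (move 296 (branch (move 328 (leaf 296 7)) (move 264 (leaf 264 7)))))))))))) (branch (move 328 (branch (move 360 (leaf 328 7)) (move 329 (branch (move 296 (leaf 296 7)) (move 424 (branch (move 456 (leaf 328 5)) (move 297 (branch (move 392 (leaf 296 5)) (move 298 (branch (move 330 (leaf 297 6)) (move 266 (leaf 265 6)))))))))))) (branch (move 362 (branch (move 330 (leaf 329 6)) (move 489 (branch (move 394 (leaf 361 6)) (move 392 (branch (move 360 (leaf 360 7)) (move 521 (branch (move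 424 (leaf 392 7)) (move 522 (branch (move 554 (leaf 425 4)) (move 490 (leaf 393 4)))))))))))) (ref 0)))))
theorem a6p1256 : a6e1256.Valid :=
  pos_of_chk [a6e1255] (forall_cons a6p1255 forall_nil) a6c1256 a6e1256 (by decide +kernel)

def a6e1257 : Pos := ⟨109836762562089755449013948457065873026813788722515773579328267055357860033415019795239834520482628541032318637879860169488501340895564656633322108081007493120, 103194285077740813204766361664969871614110328205279588281937372029851306523872268772417418476073622584661211445231622973860759131363452703678829475862782714838905782272, 12⟩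
def a6c1257 : Cert := (move 393 (branch (move 489 (branch (move 488 (branch (move 520 (leaf 392 5)) (move 361 (branch (move 456 (leaf 360 5)) (move 360 (branch (move 392 (leaf 360 7)) (move 328 (leaf 328 7)))))))) (branch (move 522 (branch (move 490 (leaf 393 4)) (move 521 (branch (move 554 (leaf 425 4)) (move 520 (branch (move 552 (leaf 424 5)) (move 488 (leaf 392 5)))))))) (move 392 (branch (move 360 (leaf 360 7)) (move 521 (branch (move 424 (leaf 392 7)) (move 522 (branch (move 554 (leaf 425 4)) (move 490 (leaf 393 4))))))))))) (branch (move 489 (branch (move 360 (branch (move 392 (leaf 360 7)) (move 361 (branch (move 328 (leaf 328 7)) (move 362 (branch (move 394 (leaf 361 6)) (move 330 (leaf 329 6)))))))) (move 522 (branch (move 490 (leaf 393 4)) (move 521 (branch (move 554 (leaf 425 4)) (move 520 (branch (move 552 (leaf 424 5)) (move 488 (leaf 392 5)))))))))) (branch (move 361 (branch (move 456 (branch (move 488 (leaf 360 5)) (move 329 (branch (move 424 (leaf 328 5)) (move 330 (branch (move 362 (leaf 329 6)) (move 298 (leaf 297 6)))))))) (branch (move 456 (branch (move 488 (leaf 360 5)) (move 329 (branch (move 424 (leaf 328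 5)) (move 328 (branch (move 360 (leaf 328 7)) (move 296 (leaf 296 7)))))))) (ref 0)))) (branch (ref 1) (branch (move 396 (branch (move 493 (branch (move 492 (leaf 396 4)) (move 364 (leaf 364 4)))) (branch (move 364 (branch (move 493 (leaf 364 4)) (move 331 (branch (move 363 (leaf 331 7)) (move 332 (branch (move 299 (leaf 299 7)) (move 333 (branch (move 365 (leaf 332 6)) (move 301 (leaf 300 6)))))))))) (branch (move 492 (branch (move 493 (leaf 396 4)) (move 395 (branch (move 363 (leaf 363 7)) (move 394 (branch (move 424 (leaf 392 1)) (move 362 (branch (move 489 (leaf 361 6)) (move 361 (branch (move 397 (leaf 361 3)) (move 330 (leaf 329 6)))))))))))) (move 361 (branch (move 362 (branch (move 330 (leaf 329 6)) (move 489 (branch (move 394 (leaf 361 6)) (move 488 (branch (move 520 (leaf 392 5)) (move 456 (leaf 360 5)))))))) (branch (move 456 (branch (move 488 (leaf 360 5)) (move 329 (branch (move 424 (leaf 328 5)) (move 298 (branch (move 330 (leaf 297 6)) (move 297 (branch (move 266 (leaf 265 6)) (move 296 (branch (move 328 (leaf 296 7)) (move 264 (leaf 264 7)))))))))))) (branch (move 330 (branch (move 362 (leaf 329 6)) (move 329 (branch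 (move 298 (leaf 297 6)) (move 296 (branch (move 328 (leaf 296 7)) (move 297 (branch (move 264 (leaf 264 7)) (move 331 (branch (move 332 (leaf 296 3)) (move 363 (branch (move 364 (leaf 331 7)) (move 395 (branch (move 492 (leaf 363 7)) (move 299 (leaf 299 4)))))))))))))))) (move 456 (branch (move 488 (leaf 360 5)) (move 424 (branch (move 329 (leaf 328 5)) (move 394 (branch (move 395 (leaf 392 1)) (move 489 (branch (move 362 (leaf 361 6)) (move 521 (branch (move 553 (leaf 424 7)) (move 392 (leaf 392 7)))))))))))))))))))) (move 396 (branch (move 493 (branch (move 492 (leaf 396 4)) (move 364 (leaf 364 4)))) (branch (move 492 (branch (move 493 (leaf 396 4)) (move 395 (branch (move 363 (leaf 363 7)) (move 394 (branch (move 424 (leaf 392 1)) (move 489 (branch (move 362 (leaf 361 6)) (move 397 (branch (move 365 (leaf 364 6)) (move 392 (branch (move 360 (leaf 360 7)) (move 522 (branch (move 490 (leaf 393 4)) (move 521 (branch (move 554 (leaf 425 4)) (move 520 (branch (move 552 (leaf 424 5)) (move 488 (leaf 392 5)))))))))))))))))))) (move 489 (branch (move 522 (branch (move 490 (leaf 393 4)) (move 521 (branch (move 554 (leaf 425 4)) (move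 520 (branch (move 552 (leaf 424 5)) (move 488 (leaf 392 5)))))))) (move 394 (branch (move 362 (leaf 361 6)) (move 364 (branch (move 333 (branch (move 365 (leaf 332 6)) (move 332 (branch (move 301 (leaf 300 6)) (move 331 (branch (move 363 (leaf 331 7)) (move 299 (leaf 299 7)))))))) (branch (move 363 (branch (move 331 (leaf 331 7)) (move 392 (branch (move 395 (leaf 360 2)) (move 360 (leaf 360 7)))))) (move 365 (branch (move 395 (leaf 361 2)) (move 333 (leaf 332 6))))))))))))))))))))
theorem a6p1257 : a6e1257.Valid :=
  pos_of_chk [a6e1255, a6e1256] (forall_cons a6p1255 (forall_cons a6p1256 forall_nil)) a6c1257 a6e1257 (by decide +kernel)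

def a6e1258 : Pos := ⟨109836762562089755443059685627636261379615292532850226194113418845388812256002859522110342250503578489150925836355768186912131702799541818274643593318730039296, 38360046186282912539217066760142251762945342892308474459925150818436341355845874537771777982452247532944877437766742685716104419871041627349483257856, 6⟩
def a6c1258 : Cert := (move 361 (branch (move 330 (branch (move 362 (leaf 329 6)) (move 329 (branch (move 298 (leaf 297 6)) (move 328 (branch (move 360 (leaf 328 7)) (move 296 (leaf 296 7)))))))) (branch (move 492 (branch (move 493 (leaf 396 4)) (move 362 (branch (move 330 (leaf 329 6)) (move 397 (branch (move 365 (leaf 364 6)) (move 395 (branch (move 394 (leaf 361 3)) (move 363 (leaf 363 7)))))))))) (move 492 (branch (move 493 (leaf 396 4)) (move 360 (branch (move 328 (leaf 328 7)) (move 395 (branch (move 394 (leaf 360 3)) (move 363 (leaf 363 7)))))))))))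
theorem a6p1258 : a6e1258.Valid :=
  pos_of_chk [] forall_nil a6c1258 a6e1258 (by decide +kernel)

end Crest.Agent.SN
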