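import Crest.Agent.Lib_SN_A6x1

set_option autoImplicit false
set_option linter.all false
set_option maxRecDepth 1000000

namespace Crest.Agent.SN
open Cert

def a6e229 : Pos := ⟨471745303432202956716463588942664849720522026980987947953904447181637266339924679313853331149090208694433365517755703559262404264522454503056578184432640363429697159168, 60915154183992500468408307271725819799618522808720829613432094307624307973426035679613156055134732078797688830902564402754451532918994336912951680014061963588169303871676113871410594578432, 11⟩
def a6c229 : Cert := (move 494 (branch (move 462 (branch (move 430 (leaf 429 5)) (move 558 (branch (move 463 (branch (move 431 (leaf 430 6)) (move 495 (branch (move 590 (leaf 462 6)) (move 496 (branch (move 497 (leaf 493 1)) (move 461 (branch (move 460 (leaf 460 0)) (move 429 (leaf 429 7)))))))))) (move 559 (branch (move 591 (leaf 462 4)) (move 524 (branch (move 523 (leaf 523 0)) (move 560 (leaf 524 3)))))))))) (branch (move 589 (branch (move 621 (leaf 493 6)) (move 462 (branch (move 430 (leaf 429 5)) (move 493 (leaf 461 6)))))) (move 493 (branch (move 461 (branch (move 429 (branch (move 397 (leaf 397 4)) (move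 556 (branch (move 524 (leaf 428 5)) (move 588 (leaf 460 5)))))) (branch (move 558 (branch (move 590 (leaf 461 4)) (move 556 (branch (move 588 (leaf 460 5)) (move 555 (branch (move 554 (leaf 522 2)) (move 523 (branch (move 522 (leaf 522 3)) (move 559 (branch (move 524 (leaf 523 0)) (move 560 (branch (move 561 (leaf 525 3)) (move 592 (branch (move 591 (leaf 556 0)) (move 593 (leaf 557 0)))))))))))))))) (move 558 (branch (move 429 (leaf 429 4)) (move 590 (leaf 461 4))))))) (branch (move 589 (branch (move 621 (leaf 493 6)) (move 590 (branch (move 622 (leaf 493 4)) (move 558 (branch (move 461 (leaf 461 4)) (move 591 (branch (move 623 (leaf 494 4)) (move 592 (branch (move 556 (leaf 556 3)) (move 593 (leaf 557 3)))))))))))) (move 589 (branch (move 621 (leaf 493 6)) (move 492 (branch (move 460 (leaf 460 7)) (move 491 (branch (move 490 (leaf 490 0)) (move 523 (branch (move 522 (leaf 490 1)) (move 495 (branch (move 524 (leaf 491 1)) (move 496 (branch (move 497 (leaf 493 1)) (move 464 (branch (move 463 (leaf 460 2)) (move 465 (leaf 461 2))))))))))))))))))))))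
theorem a6p229 : a6e229.Valid :=
  pos_of_chk [] forall_nil a6c229 a6e229 (by decide +kernel)

def a6e230 : Pos := ⟨26106494622929736438328729302066643275916887608514706412689598799395581570290181501246522209624095470831079618263925975228191487834557193771782730272671650039755938137822953400742331809792, 2389696897186957933707151283223075641680343350317557244770026673012784741940264234669391361877609519287113504586968947810707907905885656044794175687558700967736821475145689697485516587780842253713408, 9⟩
def a6c230 : Cert := (move 623 (branch (move 591 (branch (move 592 (leaf 556 0)) (move 655 (leaf 526 7)))) (branch (move 524 (branch (move 523 (leaf 523 0)) (move 592 (branch (move 591 (leaf 556 0)) (move 624 (branch (move 593 (leaf 589 2)) (move 653 (branch (move 652 (leaf 620 1)) (move 625 (branch (move 654 (leaf 621 1)) (move 657 (branch (move 656 (leaf 621 0)) (move 658 (leaf 622 0)))))))))))))) (branch (move 524 (branch (move 523 (leaf 523 0)) (move 655 (branch (move 591 (leaf 526 7)) (move 656 (branch (move 620 (leaf 620 0)) (move 657 (branch (move 624 (leaf 621 0)) (move 654 (leaf 621 3)))))))))) (move 620 (branch (move 655 (branch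 (move 656 (leaf 620 0)) (move 619 (branch (move 654 (leaf 619 0)) (move 651 (branch (move 650 (leaf 618 1)) (move 652 (leaf 619 1)))))))) (branch (move 524 (branch (move 523 (leaf 523 0)) (move 655 (branch (move 656 (leaf 620 0)) (move 619 (branch (move 654 (leaf 619 0)) (move 586 (branch (move 587 (leaf 586 3)) (move 618 (branch (move 585 (leaf 585 3)) (move 650 (branch (move 649 (leaf 617 1)) (move 651 (leaf 618 1)))))))))))))) (branch (move 524 (branch (move 523 (leaf 523 0)) (move 652 (branch (move 651 (leaf 619 1)) (move 624 (branch (move 653 (leaf 620 1)) (move 593 (branch (move 592 (leaf 589 2)) (move 625 (branch (move 594 (leaf 590 2)) (move 657 (branch (move 656 (leaf 621 0)) (move 658 (leaf 622 0)))))))))))))) (branch (move 524 (branch (move 523 (leaf 523 0)) (move 656 (branch (move 655 (leaf 620 0)) (move 624 (branch (move 657 (leaf 621 0)) (move 593 (branch (move 592 (leaf 589 2)) (move 625 (branch (move 594 (leaf 590 2)) (move 653 (branch (move 652 (leaf 620 1)) (move 654 (leaf 621 1)))))))))))))) (move 524 (branch (move 523 (leaf 523 0)) (move 651 (branch (move 652 (leaf 619 1)) (move 619 (branch (move 650 (leaf 618 1)) (move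 586 (branch (move 587 (leaf 586 3)) (move 618 (branch (move 585 (leaf 585 3)) (move 654 (branch (move 653 (leaf 618 0)) (move 655 (leaf 619 0)))))))))))))))))))))))
theorem a6p230 : a6e230.Valid :=
  pos_of_chk [] forall_nil a6c230 a6e230 (by decide +kernel)

def a6e231 : Pos := ⟨471745303432202956716463588942664849720522026980987947953904447181637266339924679313853331149090208694433365517755703559262404264522454503056578184432640363429697159168, 2389696897213064428337172476943468270645338464624106931956954428570144410556748511687096767864461625791557619403861284709626077830424335093438085816374462436782719815426243069818786979830567010304000, 14⟩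
def a6c231 : Cert := (move 558 (branch (ref 0) (branch (ref 1) (branch (move 493 (branch (move 461 (branch (move 429 (leaf 429 4)) (move 588 (branch (move 556 (leaf 460 5)) (move 589 (branch (move 620 (leaf 492 5)) (move 621 (branch (move 653 (leaf 525 6)) (move 492 (branch (move 460 (leaf 460 7)) (move 524 (leaf 492 7)))))))))))) (branch (move 590 (branch (move 461 (leaf 461 4)) (move 622 (leaf 493 7)))) (move 589 (branch (move 621 (branch (move 653 (leaf 525 6)) (move 492 (branch (move 460 (leaf 460 7)) (move 524 (leaf 492 7)))))) (move 590 (branch (move 622 (leaf 493 4)) (move 588 (branch (move 620 (leaf 492 5)) (move 587 (branch (move 586 (leaf 554 2)) (move 555 (branch (move 554 (leaf 554 3)) (move 591 (branch (move 556 (leaf 555 0)) (move 592 (branch (move 593 (leaf 557 3)) (move 624 (branch (move 623 (leaf 588 0)) (move 625 (leaf 589 0))))))))))))))))))))) (branch (move 590 (branch (move 493 (branch (move 461 (leaf 461 4)) (move 622 (leaf 493 7)))) (branch (move 589 (branch (move 493 (branch (move 461 (leaf 461 4)) (move 588 (branch (move 620 (leaf 492 5)) (move 559 (branch (move 560 (leaf 556 1)) (move 587 (leaf 555 2)))))))) (branch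 (move 621 (branch (move 653 (leaf 525 6)) (move 524 (branch (move 492 (leaf 492 7)) (move 559 (branch (move 523 (leaf 523 0)) (move 560 (leaf 524 3)))))))) (move 621 (branch (move 653 (leaf 525 6)) (move 620 (branch (move 652 (leaf 524 5)) (move 493 (branch (move 461 (leaf 461 4)) (move 588 (leaf 492 5))))))))))) (move 589 (branch (move 621 (branch (move 653 (leaf 525 6)) (move 524 (branch (move 492 (leaf 492 7)) (move 559 (branch (move 523 (leaf 523 0)) (move 560 (leaf 524 3)))))))) (branch (move 622 (branch (move 654 (leaf 525 7)) (move 623 (branch (move 655 (leaf 526 4)) (move 588 (branch (move 587 (leaf 587 0)) (move 559 (branch (move 560 (leaf 556 1)) (move 624 (branch (move 591 (leaf 588 0)) (move 625 (leaf 589 3)))))))))))) (move 621 (branch (move 653 (leaf 525 6)) (move 622 (branch (move 654 (leaf 525 4)) (move 620 (branch (move 652 (leaf 524 5)) (move 591 (branch (move 592 (leaf 588 1)) (move 619 (leaf 587 2)))))))))))))))) (branch (move 559 (branch (move 560 (branch (move 561 (leaf 525 3)) (move 592 (branch (move 593 (leaf 557 0)) (move 591 (branch (move 556 (leaf 556 0)) (move 528 (branch (move 529 (leaf 525 2)) (move 623 (branch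 (move 496 (leaf 495 5)) (move 655 (leaf 527 6)))))))))))) (branch (move 556 (branch (move 588 (branch (move 587 (leaf 555 1)) (move 493 (branch (move 461 (leaf 460 5)) (move 620 (branch (move 589 (leaf 492 5)) (move 652 (leaf 524 6)))))))) (move 555 (branch (move 554 (leaf 522 2)) (move 591 (branch (move 590 (leaf 555 0)) (move 592 (leaf 556 0)))))))) (branch (move 560 (branch (move 561 (leaf 525 3)) (move 589 (branch (move 588 (leaf 556 1)) (move 621 (branch (move 653 (leaf 525 6)) (move 622 (branch (move 654 (leaf 525 4)) (move 590 (branch (move 493 (leaf 493 4)) (move 623 (branch (move 655 (leaf 526 4)) (move 620 (branch (move 652 (leaf 524 5)) (move 619 (branch (move 618 (leaf 586 2)) (move 591 (leaf 587 2)))))))))))))))))) (ref 2))))) (branch (ref 3) (branch (move 493 (branch (move 461 (branch (move 429 (leaf 429 4)) (move 588 (branch (move 556 (leaf 460 5)) (move 589 (branch (move 620 (leaf 492 5)) (move 621 (branch (move 653 (leaf 525 6)) (move 492 (branch (move 460 (leaf 460 7)) (move 524 (leaf 492 7)))))))))))) (branch (move 590 (branch (move 461 (leaf 461 4)) (move 622 (leaf 493 7)))) (move 589 (branch (move 621 (branch (move 653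 (leaf 525 6)) (move 492 (branch (move 460 (leaf 460 7)) (move 524 (leaf 492 7)))))) (branch (move 590 (branch (move 622 (leaf 493 4)) (move 588 (branch (move 620 (leaf 492 5)) (move 559 (branch (move 560 (leaf 556 1)) (move 524 (branch (move 523 (leaf 523 0)) (move 492 (branch (move 460 (leaf 460 7)) (move 491 (branch (move 490 (leaf 490 0)) (move 556 (branch (move 459 (leaf 459 7)) (move 591 (branch (move 555 (leaf 555 0)) (move 592 (leaf 556 0)))))))))))))))))) (move 590 (branch (move 622 (leaf 493 4)) (move 621 (branch (move 653 (leaf 525 6)) (move 620 (branch (move 588 (leaf 492 5)) (move 652 (leaf 524 5)))))))))))))) (branch (move 559 (branch (move 560 (branch (move 561 (leaf 525 3)) (move 592 (branch (move 593 (leaf 557 0)) (move 591 (branch (move 556 (leaf 556 0)) (move 528 (branch (move 529 (leaf 525 2)) (move 623 (branch (move 496 (leaf 495 5)) (move 655 (leaf 527 6)))))))))))) (branch (move 524 (branch (move 523 (leaf 523 0)) (move 560 (leaf 524 3)))) (move 556 (branch (move 555 (branch (move 554 (leaf 522 2)) (move 587 (branch (move 586 (leaf 554 1)) (move 588 (leaf 555 1)))))) (branch (move 524 (branch (move 523 (leaf 523 0)) (move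 591 (branch (move 592 (leaf 556 0)) (move 590 (branch (move 555 (leaf 555 0)) (move 622 (branch (move 493 (leaf 493 7)) (move 654 (leaf 525 7)))))))))) (move 524 (branch (move 523 (leaf 523 0)) (move 588 (branch (move 587 (leaf 555 1)) (move 493 (branch (move 461 (leaf 460 5)) (move 590 (branch (move 622 (leaf 493 7)) (move 591 (branch (move 592 (leaf 556 0)) (move 623 (branch (move 655 (leaf 526 7)) (move 589 (branch (move 624 (leaf 588 0)) (move 492 (branch (move 460 (leaf 460 4)) (move 621 (leaf 492 4)))))))))))))))))))))))) (move 559 (branch (move 560 (branch (move 561 (leaf 525 3)) (move 592 (branch (move 593 (leaf 557 0)) (move 591 (branch (move 556 (leaf 556 0)) (move 528 (branch (move 529 (leaf 525 2)) (move 623 (branch (move 496 (leaf 495 5)) (move 655 (leaf 527 6)))))))))))) (branch (move 524 (branch (move 523 (leaf 523 0)) (move 560 (leaf 524 3)))) (move 556 (branch (move 523 (branch (move 524 (leaf 523 0)) (move 555 (branch (move 554 (leaf 522 2)) (move 522 (leaf 522 3)))))) (branch (move 555 (branch (move 554 (leaf 522 2)) (move 591 (branch (move 590 (leaf 555 0)) (move 592 (leaf 556 0)))))) (move 622 (branch (move 590 (branch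 (move 493 (leaf 493 7)) (move 654 (leaf 525 7)))) (branch (move 524 (branch (move 523 (leaf 523 0)) (move 590 (branch (move 493 (leaf 493 7)) (move 621 (branch (move 653 (leaf 525 5)) (move 591 (branch (move 592 (leaf 556 0)) (move 623 (branch (move 655 (leaf 526 4)) (move 589 (branch (move 492 (leaf 492 7)) (move 620 (branch (move 619 (leaf 587 2)) (move 652 (leaf 524 5)))))))))))))))) (move 621 (branch (move 589 (branch (move 654 (leaf 525 4)) (move 653 (leaf 525 6)))) (branch (move 524 (branch (move 523 (leaf 523 0)) (move 589 (branch (move 654 (leaf 525 4)) (move 492 (leaf 492 7)))))) (branch (move 524 (branch (move 523 (leaf 523 0)) (move 589 (branch (move 653 (leaf 525 6)) (move 492 (leaf 492 7)))))) (ref 4)))))))))))))))))))))))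
theorem a6p231 : a6e231.Valid :=
  pos_of_chk [a6e226, a6e217, a6e227, a6e228, a6e230] (forall_cons a6p226 (forall_cons a6p217 (forall_cons a6p227 (forall_cons a6p228 (forall_cons a6p230 forall_nil))))) a6c231 a6e231 (by decide +kernel)

def a6e232 : Pos := ⟨329510287686269266319131238355906874428932894406878659650934246040906072803087490501882862751749818638910222946791081185781855423986398903003553357973522743296, 401316523198746389647832333219994793346401243580824416837941142196978448141814570452847845939300958067001489858649829429716327273659974159078789404700916456728593924765072610368758487882647129839432835792896, 15⟩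
def a6c232 : Cert := (move 557 (branch (ref 0) (branch (move 558 (branch (ref 1) (branch (ref 2) (branch (move 494 (branch (move 462 (branch (move 430 (leaf 429 5)) (move 463 (branch (move 431 (leaf 430 6)) (move 495 (branch (move 590 (leaf 462 6)) (move 496 (branch (move 497 (leaf 493 1)) (move 461 (branch (move 460 (leaf 460 0)) (move 429 (leaf 429 7)))))))))))) (branch (move 589 (branch (move 462 (leaf 461 5)) (move 621 (leaf 493 6)))) (move 590 (branch (move 622 (branch (move 654 (leaf 525 7)) (move 623 (branch (move 591 (leaf 494 4)) (move 655 (leaf 526 4)))))) (branch (move 589 (branch (move 621 (leaf 493 5)) (move 591 (branch (move 623 (leaf 494 4)) (move 556 (branch (move 555 (leaf 555 0)) (move 592 (leaf 556 3)))))))) (move 621 (branch (move 589 (leaf 493 5)) (move 622 (branch (move 653 (leaf 525 5)) (move 654 (leaf 525 7)))))))))))) (branch (ref 3) (move 494 (branch (move 462 (branch (move 430 (leaf 429 5)) (move 463 (branch (move 431 (leaf 430 6)) (move 495 (branch (move 590 (leaf 462 6)) (move 496 (branch (move 497 (leaf 493 1)) (move 461 (branch (move 460 (leaf 460 0)) (move 429 (leaf 429 7)))))))))))) (branch (move 589 (branch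 (move 462 (leaf 461 5)) (move 621 (leaf 493 6)))) (ref 4))))))))) (branch (move 589 (branch (move 621 (branch (move 494 (leaf 493 6)) (move 622 (branch (move 654 (leaf 525 4)) (move 620 (branch (move 652 (leaf 524 5)) (move 493 (branch (move 590 (leaf 493 4)) (move 588 (leaf 492 5)))))))))) (branch (move 493 (branch (move 590 (branch (move 622 (leaf 493 4)) (move 558 (branch (move 461 (leaf 461 4)) (move 588 (branch (move 620 (leaf 492 5)) (move 559 (branch (move 560 (leaf 556 1)) (move 587 (leaf 555 2)))))))))) (move 494 (branch (move 462 (leaf 461 6)) (move 492 (branch (move 460 (leaf 460 7)) (move 491 (branch (move 490 (leaf 490 0)) (move 523 (branch (move 522 (leaf 490 1)) (move 495 (branch (move 524 (leaf 491 1)) (move 496 (branch (move 497 (leaf 493 1)) (move 464 (branch (move 463 (leaf 460 2)) (move 465 (leaf 461 2)))))))))))))))))) (branch (move 494 (branch (move 621 (leaf 493 6)) (move 462 (branch (move 430 (leaf 429 5)) (move 558 (leaf 461 5)))))) (move 621 (branch (move 653 (branch (move 558 (leaf 525 6)) (move 652 (branch (move 620 (leaf 524 5)) (move 684 (leaf 556 5)))))) (branch (move 653 (branch (move 558 (leaf 525 6)) (move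 654 (branch (move 622 (leaf 525 4)) (move 686 (leaf 557 4)))))) (move 620 (branch (move 652 (leaf 524 5)) (move 622 (branch (move 654 (leaf 525 4)) (move 493 (branch (move 590 (leaf 493 4)) (move 588 (leaf 492 5))))))))))))))) (branch (ref 5) (branch (move 558 (branch (ref 1) (branch (ref 6) (branch (ref 7) (move 590 (branch (move 493 (branch (move 461 (leaf 461 4)) (move 622 (leaf 493 7)))) (branch (move 494 (branch (move 462 (branch (move 430 (leaf 429 5)) (move 463 (branch (move 431 (leaf 430 6)) (move 495 (leaf 462 6)))))) (move 493 (branch (move 461 (leaf 461 4)) (move 591 (branch (move 623 (leaf 494 4)) (move 556 (branch (move 555 (leaf 555 0)) (move 592 (branch (move 559 (leaf 556 0)) (move 593 (leaf 557 3)))))))))))) (move 622 (branch (move 654 (leaf 525 7)) (move 623 (branch (move 655 (leaf 526 4)) (move 494 (branch (move 591 (leaf 494 4)) (move 462 (branch (move 430 (leaf 429 5)) (move 463 (branch (move 431 (leaf 430 6)) (move 495 (leaf 462 6))))))))))))))))))) (branch (move 589 (branch (move 621 (branch (move 494 (leaf 493 6)) (move 620 (branch (move 652 (leaf 524 5)) (move 524 (branch (move 492 (leaf 492 7)) (move 653 (branch (move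 556 (leaf 524 7)) (move 654 (branch (move 622 (leaf 525 4)) (move 686 (leaf 557 4)))))))))))) (branch (move 494 (branch (move 621 (leaf 493 6)) (move 462 (branch (move 430 (leaf 429 5)) (move 558 (leaf 461 5)))))) (branch (move 493 (branch (move 492 (branch (move 460 (leaf 460 7)) (move 621 (branch (move 524 (leaf 492 7)) (move 620 (branch (move 588 (leaf 492 5)) (move 652 (leaf 524 5)))))))) (branch (move 492 (branch (move 460 (leaf 460 7)) (move 621 (branch (move 524 (leaf 492 7)) (move 653 (branch (move 558 (leaf 525 6)) (move 654 (branch (move 622 (leaf 525 4)) (move 686 (leaf 557 4)))))))))) (move 588 (branch (move 620 (leaf 492 5)) (move 461 (branch (move 556 (leaf 460 5)) (move 429 (branch (move 558 (leaf 429 4)) (move 430 (branch (move 398 (leaf 397 6)) (move 462 (leaf 429 6))))))))))))) (ref 8))))) (branch (ref 9) (branch (move 558 (branch (ref 1) (branch (ref 2) (branch (ref 3) (branch (move 494 (branch (move 589 (branch (move 462 (leaf 461 5)) (move 621 (leaf 493 6)))) (branch (ref 4) (move 462 (branch (move 430 (leaf 429 5)) (move 559 (branch (move 591 (leaf 462 4)) (move 524 (branch (move 523 (leaf 523 0)) (move 560 (leaf 524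 3))))))))))) (move 494 (branch (move 589 (branch (move 462 (leaf 461 5)) (move 621 (leaf 493 6)))) (branch (move 590 (branch (move 622 (branch (move 654 (leaf 525 7)) (move 623 (branch (move 591 (leaf 494 4)) (move 655 (leaf 526 4)))))) (branch (move 589 (branch (move 621 (leaf 493 5)) (move 591 (branch (move 623 (leaf 494 4)) (move 556 (branch (move 555 (leaf 555 0)) (move 592 (leaf 556 3)))))))) (move 621 (branch (move 589 (leaf 493 5)) (move 622 (branch (move 653 (leaf 525 5)) (move 654 (leaf 525 7))))))))) (move 462 (branch (move 430 (leaf 429 5)) (move 463 (branch (move 431 (leaf 430 6)) (move 590 (branch (move 495 (leaf 462 6)) (move 622 (branch (move 493 (leaf 493 7)) (move 654 (leaf 525 7)))))))))))))))))) (branch (move 589 (branch (move 621 (branch (move 494 (leaf 493 6)) (move 620 (branch (move 652 (leaf 524 5)) (move 588 (branch (move 493 (leaf 492 5)) (move 524 (branch (move 492 (leaf 492 7)) (move 556 (branch (move 653 (leaf 524 4)) (move 555 (branch (move 554 (leaf 522 2)) (move 619 (branch (move 651 (leaf 523 5)) (move 590 (branch (move 591 (leaf 587 1)) (move 618 (leaf 586 2)))))))))))))))))) (branch (move 494 (branch (move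 621 (leaf 493 6)) (move 462 (branch (move 430 (leaf 429 5)) (move 558 (leaf 461 5)))))) (branch (ref 8) (move 493 (branch (move 492 (branch (move 460 (leaf 460 7)) (move 621 (branch (move 524 (leaf 492 7)) (move 620 (branch (move 588 (leaf 492 5)) (move 652 (leaf 524 5)))))))) (branch (move 588 (branch (move 620 (leaf 492 5)) (move 461 (branch (move 556 (leaf 460 5)) (move 429 (branch (move 558 (leaf 429 4)) (move 430 (branch (move 398 (leaf 397 6)) (move 462 (leaf 429 6)))))))))) (move 492 (branch (move 460 (leaf 460 7)) (move 621 (branch (move 524 (leaf 492 7)) (move 558 (branch (move 653 (leaf 525 6)) (move 461 (branch (move 429 (leaf 429 4)) (move 590 (leaf 461 4))))))))))))))))) (branch (move 589 (branch (move 621 (branch (move 494 (leaf 493 6)) (move 620 (branch (move 652 (leaf 524 5)) (move 524 (branch (move 492 (leaf 492 7)) (move 653 (branch (move 556 (leaf 524 7)) (move 654 (branch (move 622 (leaf 525 4)) (move 686 (leaf 557 4)))))))))))) (branch (move 494 (branch (move 621 (leaf 493 6)) (move 462 (branch (move 430 (leaf 429 5)) (move 558 (leaf 461 5)))))) (branch (move 493 (branch (move 492 (branch (move 460 (leaf 460 7)) (move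 621 (branch (move 524 (leaf 492 7)) (move 622 (branch (move 590 (leaf 493 4)) (move 654 (leaf 525 4)))))))) (branch (move 590 (branch (move 622 (leaf 493 4)) (move 461 (branch (move 558 (leaf 461 4)) (move 492 (branch (move 460 (leaf 460 7)) (move 491 (branch (move 490 (leaf 490 0)) (move 430 (branch (move 462 (leaf 429 6)) (move 429 (branch (move 398 (leaf 397 6)) (move 524 (branch (move 397 (leaf 396 5)) (move 556 (leaf 428 5)))))))))))))))) (branch (move 622 (branch (move 590 (leaf 493 4)) (move 621 (branch (move 654 (leaf 525 4)) (move 653 (branch (move 558 (leaf 525 6)) (move 652 (branch (move 620 (leaf 524 5)) (move 684 (leaf 556 5)))))))))) (move 492 (branch (move 460 (leaf 460 7)) (move 621 (branch (move 524 (leaf 492 7)) (move 653 (branch (move 558 (leaf 525 6)) (move 652 (branch (move 620 (leaf 524 5)) (move 684 (leaf 556 5)))))))))))))) (ref 10))))) (branch (move 558 (branch (move 590 (branch (move 622 (branch (move 654 (leaf 525 7)) (move 623 (branch (move 655 (leaf 526 4)) (move 591 (branch (move 494 (leaf 494 4)) (move 621 (branch (move 653 (leaf 525 5)) (move 592 (branch (move 593 (leaf 589 1)) (move 620 (leaf 588 2))))))))))))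 (branch (move 493 (branch (move 461 (leaf 461 4)) (move 622 (leaf 493 7)))) (move 494 (branch (move 462 (branch (move 430 (leaf 429 5)) (move 463 (branch (move 431 (leaf 430 6)) (move 495 (leaf 462 6)))))) (move 493 (branch (move 461 (leaf 461 4)) (move 591 (branch (move 623 (leaf 494 4)) (move 556 (branch (move 555 (leaf 555 0)) (move 592 (branch (move 559 (leaf 556 0)) (move 593 (leaf 557 3))))))))))))))) (branch (ref 1) (branch (ref 11) (branch (ref 6) (ref 12)))))) (branch (ref 13) (ref 14))))))))))))))
theorem a6p232 : a6e232.Valid :=
  pos_of_chk [a6e215, a6e216, a6e217, a6e218, a6e219, a6e220, a6e221, a6e222, a6e223, a6e224, a6e225, a6e226, a6e228, a6e229, a6e231] (forall_cons a6p215 (forall_cons a6p216 (forall_cons a6p217 (forall_cons a6p218 (forall_cons a6p219 (forall_cons a6p220 (forall_cons a6p221 (forall_cons a6p222 (forall_cons a6p223 (forall_cons a6p224 (forall_cons a6p225 (forall_cons a6p226 (forall_cons a6p228 (forall_cons a6p229 (forall_cons a6p231 forall_nil))))))))))))))) a6c232 a6e232 (by decide +kernel)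

def a6e233 : Pos := ⟨329510287711842630449274109544814530582778573417789708781070719735494796166164503497982179760000322023094506261979534534602185055744441249399798447744263127040, 707617954708957384848713055350157466786218579929975866418396529274971648833122516200228417605658179595811502658201074466734568395672484194291731657590259512716940017664, 9⟩
def a6c233 : Cert := (move 429 (branch (move 428 (branch (move 396 (leaf 396 7)) (move 524 (branch (move 556 (leaf 428 5)) (move 397 (branch (move 492 (leaf 396 5)) (move 398 (branch (move 430 (leaf 397 6)) (move 366 (leaf 365 6)))))))))) (branch (move 430 (branch (move 398 (leaf 397 6)) (move 524 (branch (move 556 (leaf 428 5)) (move 492 (branch (move 397 (leaf 396 5)) (move 491 (branch (move 490 (leaf 490 0)) (move 462 (branch (move 557 (leaf 429 6)) (move 463 (branch (move 460 (leaf 459 1)) (move 464 (leaf 460 1)))))))))))))) (branch (move 428 (branch (move 396 (leaf 396 7)) (move 460 (branch (move 557 (leaf 428 7)) (move 524 (branch (move 556 (leaf 428 5)) (move 492 (branch (move 397 (leaf 396 5)) (move 491 (branch (move 490 (leaf 490 0)) (move 427 (branch (move 395 (leaf 395 7)) (move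 462 (branch (move 463 (leaf 459 1)) (move 426 (leaf 426 0)))))))))))))))) (move 428 (branch (move 396 (leaf 396 7)) (move 430 (branch (move 398 (leaf 397 6)) (move 557 (branch (move 462 (leaf 429 6)) (move 460 (leaf 428 7))))))))))))
theorem a6p233 : a6e233.Valid :=
  pos_of_chk [] forall_nil a6c233 a6e233 (by decide +kernel)

def a6e234 : Pos := ⟨329510287711842630443319846715384918935398512783571175635645689708744286616338535786294382711775366235206349174532383405528418478745908719768282991202651865088, 63823115454368560341738990536679567357521410952479834675793788289004326335412202960763483118666598004764704383637630646461825527399135579419420029957778587918050281269164054151168, 10⟩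
def a6c234 : Cert := (move 461 (branch (ref 0) (branch (move 429 (branch (move 558 (leaf 429 4)) (move 428 (branch (move 396 (leaf 396 7)) (move 524 (branch (move 556 (leaf 428 5)) (move 397 (branch (move 492 (leaf 396 5)) (move 398 (branch (move 430 (leaf 397 6)) (move 366 (leaf 365 6)))))))))))) (branch (move 429 (branch (move 558 (leaf 429 4)) (move 430 (branch (move 398 (leaf 397 6)) (move 428 (branch (move 396 (leaf 396 7)) (move 557 (branch (move 462 (leaf 429 6)) (move 460 (leaf 428 7)))))))))) (branch (move 429 (branch (move 558 (leaf 429 4)) (move 430 (branch (move 398 (leaf 397 6)) (move 524 (branch (move 556 (leaf 428 5)) (move 492 (branch (move 397 (leaf 396 5)) (move 491 (branch (move 490 (leaf 490 0)) (move 462 (branch (move 557 (leaf 429 6)) (move 463 (branch (move 460 (leaf 459 1)) (move 464 (leaf 460 1)))))))))))))))) (branch (move 429 (branch (move 558 (leaf 429 4)) (move 428 (branch (move 396 (leaf 396 7)) (move 460 (branch (move 557 (leaf 428 7)) (move 524 (branch (move 556 (leaf 428 5)) (move 492 (branch (move 397 (leaf 396 5)) (move 491 (branch (move 490 (leaf 490 0)) (move 427 (branch (move 395 (leaf 395 7)) (move 462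 (branch (move 463 (leaf 459 1)) (move 426 (leaf 426 0)))))))))))))))))) (move 557 (branch (move 460 (branch (move 428 (leaf 428 7)) (move 492 (branch (move 589 (leaf 460 7)) (move 491 (branch (move 490 (leaf 490 0)) (move 462 (branch (move 463 (leaf 459 1)) (move 430 (leaf 429 6)))))))))) (move 558 (branch (move 590 (leaf 461 4)) (move 556 (branch (move 588 (leaf 460 5)) (move 555 (branch (move 554 (leaf 522 2)) (move 523 (branch (move 522 (leaf 522 3)) (move 559 (branch (move 524 (leaf 523 0)) (move 560 (branch (move 561 (leaf 525 3)) (move 592 (branch (move 591 (leaf 556 0)) (move 593 (leaf 557 0))))))))))))))))))))))))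
theorem a6p234 : a6e234.Valid :=
  pos_of_chk [a6e233] (forall_cons a6p233 forall_nil) a6c234 a6e234 (by decide +kernel)

def a6e235 : Pos := ⟨329510287762989358691697063434341007948329749536956207605068577044420714242840626355117422631826461427798601630014987845021544588264928353297742257660910108672, 4052261302452797719792659868837995124173544785000751158837842882719728846159310709523749867016953423954674269399947668583375980115870724509072227347624390576311237222585266601984, 7⟩
def a6c235 : Cert := (move 495 (branch (move 496 (branch (move 497 (leaf 493 1)) (move 464 (branch (move 465 (leaf 461 2)) (move 463 (branch (move 492 (leaf 460 2)) (move 528 (branch (move 529 (leaf 493 0)) (move 431 (branch (move 560 (leaf 431 7)) (move 399 (leaf 399 4)))))))))))) (branch (move 524 (branch (move 523 (leaf 491 2)) (move 496 (leaf 492 1)))) (move 524 (branch (move 523 (leaf 491 2)) (move 492 (branch (move 463 (branch (move 464 (leaf 460 2)) (move 558 (branch (move 590 (leaf 462 6)) (move 431 (branch (move 462 (leaf 430 6)) (move 399 (leaf 398 5)))))))) (move 491 (branch (move 490 (leaf 490 0)) (move 459 (branch (move 458 (leaf 458 3)) (move 460 (leaf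 459 3)))))))))))))
theorem a6p235 : a6e235.Valid :=
  pos_of_chk [] forall_nil a6c235 a6e235 (by decide +kernel)

def a6e236 : Pos := ⟨329510287762989358691697063434341007948329749536956207605068577044420714242840626355117422631826461427798601630014987845021544588264928353297742257660910108672, 4009835079105077156227065298138570408709592128922590702770629796347164454861262179468483356335683480448091286605590933272788202528667420128692917268496416816859950612480, 10⟩
def a6c236 : Cert := (move 495 (branch (move 496 (branch (move 497 (leaf 493 1)) (move 464 (branch (move 465 (leaf 461 2)) (move 463 (branch (move 492 (leaf 460 2)) (move 528 (branch (move 529 (leaf 493 0)) (move 431 (branch (move 560 (leaf 431 7)) (move 399 (leaf 399 4)))))))))))) (branch (move 524 (branch (move 523 (leaf 491 2)) (move 496 (leaf 492 1)))) (move 492 (branch (move 491 (branch (move 490 (leaf 490 0)) (move 459 (branch (move 458 (leaf 458 3)) (move 460 (leaf 459 3)))))) (branch (move 523 (branch (move 524 (leaf 491 1)) (move 491 (branch (move 490 (leaf 490 0)) (move 522 (leaf 490 1)))))) (move 524 (branch (move 523 (leaf 491 1)) (move 460 (branch (move 459 (leaf 459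 3)) (move 428 (branch (move 396 (leaf 396 4)) (move 429 (branch (move 397 (leaf 396 6)) (move 461 (branch (move 556 (leaf 428 5)) (move 463 (branch (move 464 (leaf 460 2)) (move 427 (branch (move 462 (leaf 427 3)) (move 395 (leaf 395 7))))))))))))))))))))))
theorem a6p236 : a6e236.Valid :=
  pos_of_chk [] forall_nil a6c236 a6e236 (by decide +kernel)

def a6e237 : Pos := ⟨329510287762989358691697063434341007948329749536956207605068577044420714242840626355117422631826461427798601630014987845021544588264928353297742257660910108672, 1179363257852838840555745231665690948785865945656016855382551999263162704007457642640998090662064797231245424522342379902060688200137689255037644920704698073839292121088, 8⟩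
def a6c237 : Cert := (move 495 (branch (move 524 (branch (move 523 (leaf 491 2)) (move 496 (leaf 492 1)))) (branch (move 496 (branch (move 497 (leaf 493 1)) (move 461 (branch (move 460 (leaf 460 3)) (move 429 (branch (move 558 (leaf 429 4)) (move 397 (leaf 397 4)))))))) (move 492 (branch (move 491 (branch (move 490 (leaf 490 0)) (move 459 (branch (move 458 (leaf 458 3)) (move 460 (leaf 459 3)))))) (branch (move 523 (branch (move 524 (leaf 491 1)) (move 491 (branch (move 490 (leaf 490 0)) (move 522 (leaf 490 1)))))) (move 524 (branch (move 523 (leaf 491 1)) (move 460 (branch (move 459 (leaf 459 3)) (move 428 (branch (move 396 (leaf 396 4)) (move 429 (branch (move 397 (leaf 396 6)) (move 461 (branch (move 556 (leaf 428 5)) (move 558 (leaf 429 4))))))))))))))))))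
theorem a6p237 : a6e237.Valid :=
  pos_of_chk [] forall_nil a6c237 a6e237 (by decide +kernel)

def a6e238 : Pos := ⟨943490606534895625823378003938764286163571313052439856631007782666474617642457927264372307649532114517193555185489562854957634002502742746405286916155916268573258940416, 54918381997099073384695519594773502743347027578271179588414298453125548211582349880490892130971077968879609472378216049689816820178772544177086614682854227968, 7⟩
def a6c238 : Cert := (move 462 (branch (move 430 (branch (move 398 (leaf 397 5)) (move 431 (branch (move 463 (leaf 430 6)) (move 399 (leaf 398 6)))))) (branch (move 429 (branch (move 461 (leaf 429 4)) (move 430 (branch (move 397 (leaf 397 7)) (move 398 (leaf 397 5)))))) (move 461 (branch (move 429 (leaf 429 4)) (move 463 (branch (move 431 (leaf 430 6)) (move 464 (branch (move 465 (leaf 461 1)) (move 496 (branch (move 497 (leaf 461 0)) (move 495 (branch (move 460 (leaf 460 0)) (move 524 (leaf 492 1)))))))))))))))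
theorem a6p238 : a6e238.Valid :=
  pos_of_chk [] forall_nil a6c238 a6e238 (by decide +kernel)

def a6e239 : Pos := ⟨329510287711842630443319846715384918935398512783571175635645689708744286616338535786294382711775366235206349174532383405528418478745908719768282991202651865088, 74751027105228541092997948288774455974298308739345437675596954674107745636696051967816286087046855393027794681416955606075876089816285437637691313683278917269714917791189823035626140958479968370688, 13⟩
def a6c239 : Cert := (move 461 (branch (move 429 (branch (move 558 (leaf 429 4)) (move 430 (branch (move 398 (leaf 397 6)) (move 428 (branch (move 396 (leaf 396 7)) (move 557 (branch (move 462 (leaf 429 6)) (move 460 (leaf 428 7)))))))))) (branch (move 558 (branch (move 429 (leaf 429 4)) (move 590 (branch (move 622 (leaf 493 7)) (move 494 (leaf 461 7)))))) (branch (move 429 (branch (move 397 (branch (move 494 (leaf 397 4)) (move 396 (branch (move 428 (leaf 396 7)) (move 364 (leaf 364 7)))))) (branch (move 397 (branch (move 494 (leaf 397 4)) (move 398 (branch (move 430 (leaf 397 6)) (move 366 (leaf 365 6)))))) (move 428 (branch (move 396 (leaf 396 7)) (move 430 (branch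 (move 398 (leaf 397 6)) (move 557 (branch (move 462 (leaf 429 6)) (move 460 (leaf 428 7))))))))))) (move 557 (branch (move 460 (branch (move 428 (leaf 428 7)) (move 492 (branch (move 589 (leaf 460 7)) (move 491 (branch (move 490 (leaf 490 0)) (move 462 (branch (move 463 (leaf 459 1)) (move 430 (leaf 429 6)))))))))) (branch (move 462 (branch (move 430 (leaf 429 6)) (move 494 (branch (move 589 (leaf 461 6)) (move 460 (branch (move 428 (leaf 428 7)) (move 495 (branch (move 496 (leaf 460 3)) (move 459 (leaf 459 0)))))))))) (branch (move 460 (branch (move 428 (leaf 428 7)) (move 589 (branch (move 492 (leaf 460 7)) (move 621 (branch (move 494 (leaf 493 6)) (move 622 (branch (move 654 (leaf 525 4)) (move 590 (leaf 493 4)))))))))) (branch (move 558 (branch (move 590 (leaf 461 4)) (move 462 (branch (move 430 (leaf 429 6)) (move 494 (branch (move 589 (leaf 461 5)) (move 463 (branch (move 431 (leaf 430 6)) (move 464 (branch (move 492 (leaf 460 1)) (move 465 (leaf 461 1)))))))))))) (move 558 (branch (move 590 (leaf 461 4)) (move 462 (branch (move 430 (leaf 429 6)) (move 460 (branch (move 428 (leaf 428 7)) (move 556 (branch (move 588 (leaf 460 5)) (move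 555 (branch (move 554 (leaf 522 2)) (move 523 (branch (move 522 (leaf 522 3)) (move 587 (branch (move 586 (leaf 554 1)) (move 491 (branch (move 492 (leaf 459 6)) (move 459 (branch (move 490 (leaf 458 1)) (move 494 (branch (move 458 (leaf 458 0)) (move 495 (leaf 459 0)))))))))))))))))))))))))))))))
theorem a6p239 : a6e239.Valid :=
  pos_of_chk [] forall_nil a6c239 a6e239 (by decide +kernel)

def a6e240 : Pos := ⟨329510287762989358691697063434341007948329749536956207605068577044420714242840626355117422631826461427798601630014987845021544588264928353297742257660910108672, 60915154134352299563661378180877746103901506107220921847800840755816553884512238592518532687454560260542590609675968622195545236363039434434768446075443039191189843742016900501457986387968, 7⟩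
def a6c240 : Cert := (move 462 (branch (move 557 (branch (move 589 (leaf 461 6)) (move 430 (leaf 429 5)))) (branch (move 558 (branch (move 590 (branch (move 622 (leaf 493 7)) (move 591 (branch (move 623 (leaf 494 4)) (move 559 (leaf 462 4)))))) (branch (move 557 (branch (move 589 (leaf 461 5)) (move 559 (branch (move 591 (leaf 462 4)) (move 524 (branch (move 560 (leaf 524 3)) (move 523 (leaf 523 0)))))))) (move 589 (branch (move 557 (leaf 461 5)) (move 590 (branch (move 622 (leaf 493 7)) (move 621 (leaf 493 5))))))))) (move 430 (branch (move 398 (leaf 397 5)) (move 431 (branch (move 399 (leaf 398 6)) (move 558 (branch (move 463 (leaf 430 6)) (move 590 (branch (move 622 (leaf 493 7)) (move 591 (branch (move 623 (leaf 494 4)) (move 559 (leaf 462 4)))))))))))))))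
theorem a6p240 : a6e240.Valid :=
  pos_of_chk [] forall_nil a6c240 a6e240 (by decide +kernel)

def a6e241 : Pos := ⟨329510287762989358691697063434341007948329749536956207605068577044420714242840626355117422631826461427798601630014987845021544588264928353297742257660910108672, 2175541222123206672635502337743931560882375480586576223240759527501476054093774945543181745829280216457193393408059305783603095625301640449197034545743141256914231986730932156090904739840, 8⟩
def a6c241 : Cert := (move 492 (branch (move 491 (branch (move 490 (leaf 490 0)) (move 459 (branch (move 458 (leaf 458 3)) (move 460 (branch (move 495 (leaf 459 3)) (move 523 (branch (move 522 (leaf 490 1)) (move 428 (branch (move 555 (leaf 427 6)) (move 396 (leaf 396 4)))))))))))) (branch (move 491 (branch (move 490 (leaf 490 0)) (move 523 (branch (move 522 (leaf 490 1)) (move 524 (branch (move 495 (leaf 491 1)) (move 459 (branch (move 458 (leaf 458 3)) (move 556 (branch (move 588 (leaf 459 7)) (move 427 (leaf 427 4)))))))))))) (branch (move 524 (branch (move 495 (branch (move 496 (leaf 492 1)) (move 460 (branch (move 459 (leaf 459 3)) (move 557 (branch (move 589 (leaf 460 7)) (move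 428 (leaf 428 4)))))))) (branch (move 523 (branch (move 522 (leaf 490 2)) (move 555 (branch (move 554 (leaf 522 1)) (move 460 (branch (move 428 (leaf 427 5)) (move 557 (branch (move 589 (leaf 460 7)) (move 587 (branch (move 619 (leaf 491 6)) (move 556 (leaf 459 5)))))))))))) (move 523 (branch (move 522 (leaf 490 2)) (move 495 (leaf 491 1))))))) (branch (move 491 (branch (move 490 (leaf 490 0)) (move 459 (branch (move 458 (leaf 458 3)) (move 460 (branch (move 495 (leaf 459 3)) (move 557 (branch (move 589 (leaf 460 7)) (move 428 (branch (move 524 (leaf 428 4)) (move 396 (leaf 396 4)))))))))))) (branch (move 491 (branch (move 490 (leaf 490 0)) (move 523 (branch (move 522 (leaf 490 1)) (move 524 (branch (move 495 (leaf 491 1)) (move 555 (branch (move 554 (leaf 522 1)) (move 460 (branch (move 587 (leaf 459 6)) (move 428 (leaf 427 5)))))))))))) (move 524 (branch (move 491 (branch (move 490 (leaf 490 0)) (move 459 (branch (move 458 (leaf 458 3)) (move 556 (branch (move 588 (leaf 459 7)) (move 460 (branch (move 427 (leaf 427 7)) (move 557 (branch (move 589 (leaf 460 4)) (move 428 (leaf 428 4)))))))))))) (branch (move 523 (branch (move 522 (leaf 490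 2)) (move 555 (branch (move 554 (leaf 522 1)) (move 460 (branch (move 428 (leaf 427 5)) (move 557 (branch (move 589 (leaf 460 7)) (move 587 (branch (move 619 (leaf 491 6)) (move 556 (leaf 459 5)))))))))))) (branch (move 523 (branch (move 522 (leaf 490 2)) (move 491 (branch (move 490 (leaf 490 0)) (move 459 (branch (move 458 (leaf 458 3)) (move 427 (branch (move 556 (leaf 427 4)) (move 395 (leaf 395 4)))))))))) (move 523 (branch (move 522 (leaf 490 2)) (move 491 (branch (move 490 (leaf 490 0)) (move 555 (branch (move 554 (leaf 522 1)) (move 460 (branch (move 587 (leaf 459 6)) (move 428 (leaf 427 5))))))))))))))))))))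
theorem a6p241 : a6e241.Valid :=
  pos_of_chk [] forall_nil a6c241 a6e241 (by decide +kernel)

def a6e242 : Pos := ⟨329510287711842630449274109544814530582778573417789708781070719735494796166164503497982179760000322023094506261979534534602185055744441249399798447744263127040, 74751027105228541149476340139169691023012493533043518356000986532072752178503186525210129703895115795788525015531172170452477328479062024468738799993078214159585457467658983368379704288156873392128, 9⟩
def a6c242 : Cert := (move 557 (branch (move 460 (branch (move 428 (leaf 428 7)) (move 492 (branch (move 589 (leaf 460 7)) (move 491 (branch (move 490 (leaf 490 0)) (move 556 (branch (move 588 (leaf 460 5)) (move 555 (branch (move 554 (leaf 522 2)) (move 587 (branch (move 523 (leaf 459 6)) (move 524 (leaf 459 5)))))))))))))) (branch (move 460 (branch (move 428 (leaf 428 7)) (move 589 (branch (move 492 (leaf 460 7)) (move 621 (branch (move 494 (leaf 493 6)) (move 622 (branch (move 654 (leaf 525 4)) (move 590 (leaf 493 4)))))))))) (move 558 (branch (move 590 (leaf 461 4)) (move 556 (branch (move 588 (leaf 460 5)) (move 555 (branch (move 554 (leaf 522 2)) (move 523 (branch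 (move 522 (leaf 522 3)) (move 559 (branch (move 524 (leaf 523 0)) (move 560 (branch (move 561 (leaf 525 3)) (move 592 (branch (move 591 (leaf 556 0)) (move 593 (leaf 557 0)))))))))))))))))))
theorem a6p242 : a6e242.Valid :=
  pos_of_chk [] forall_nil a6c242 a6e242 (by decide +kernel)

def a6e243 : Pos := ⟨329510287711842630443319846715384918935398512783571175635645689708744286616338535786294382711775366235206349174532383405528418478745908719768282991202651865088, 112126540644789564324106426082671242507837366266045901846235651094207192641269559229321903364710915244681451921552098079889408758846617946616198056943024502991501605782340273307412679362148516757504, 11⟩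
def a6c243 : Cert := (move 461 (branch (ref 0) (branch (move 429 (branch (move 558 (leaf 429 4)) (move 428 (branch (move 396 (leaf 396 7)) (move 524 (branch (move 556 (leaf 428 5)) (move 397 (branch (move 492 (leaf 396 5)) (move 398 (branch (move 430 (leaf 397 6)) (move 366 (leaf 365 6)))))))))))) (branch (move 429 (branch (move 558 (leaf 429 4)) (move 430 (branch (move 398 (leaf 397 6)) (move 428 (branch (move 396 (leaf 396 7)) (move 557 (branch (move 462 (leaf 429 6)) (move 460 (leaf 428 7)))))))))) (branch (move 429 (branch (move 558 (leaf 429 4)) (move 430 (branch (move 398 (leaf 397 6)) (move 524 (branch (move 556 (leaf 428 5)) (move 492 (branch (move 397 (leaf 396 5)) (move 491 (branch (move 490 (leaf 490 0)) (move 462 (branch (move 557 (leaf 429 6)) (move 463 (branch (move 460 (leaf 459 1)) (move 464 (leaf 460 1)))))))))))))))) (branch (move 429 (branch (move 558 (leaf 429 4)) (move 428 (branch (move 396 (leaf 396 7)) (move 460 (branch (move 557 (leaf 428 7)) (move 524 (branch (move 556 (leaf 428 5)) (move 492 (branch (move 397 (leaf 396 5)) (move 491 (branch (move 490 (leaf 490 0)) (move 427 (branch (move 395 (leaf 395 7)) (move 462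 (branch (move 463 (leaf 459 1)) (move 426 (leaf 426 0)))))))))))))))))) (move 557 (branch (move 462 (branch (move 430 (leaf 429 6)) (move 589 (branch (move 494 (leaf 461 6)) (move 556 (branch (move 588 (leaf 460 5)) (move 555 (branch (move 554 (leaf 522 2)) (move 622 (branch (move 590 (leaf 493 4)) (move 621 (branch (move 654 (leaf 525 4)) (move 524 (branch (move 653 (leaf 524 7)) (move 492 (leaf 492 7)))))))))))))))) (branch (move 462 (branch (move 430 (leaf 429 6)) (move 494 (branch (move 589 (leaf 461 6)) (move 460 (branch (move 428 (leaf 428 7)) (move 495 (branch (move 496 (leaf 460 3)) (move 459 (leaf 459 0)))))))))) (branch (move 460 (branch (move 428 (leaf 428 7)) (move 589 (branch (move 492 (leaf 460 7)) (move 621 (branch (move 494 (leaf 493 6)) (move 622 (branch (move 654 (leaf 525 4)) (move 590 (leaf 493 4)))))))))) (move 558 (branch (move 590 (leaf 461 4)) (move 462 (branch (move 430 (leaf 429 6)) (move 460 (branch (move 428 (leaf 428 7)) (move 556 (branch (move 588 (leaf 460 5)) (move 555 (branch (move 554 (leaf 522 2)) (move 587 (branch (move 586 (leaf 554 1)) (move 492 (branch (move 524 (leaf 459 5)) (move 491 (branch (move 490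 (leaf 490 0)) (move 463 (leaf 459 1))))))))))))))))))))))))))))
theorem a6p243 : a6e243.Valid :=
  pos_of_chk [a6e233] (forall_cons a6p233 forall_nil) a6c243 a6e243 (by decide +kernel)

def a6e244 : Pos := ⟨329510287711842630449274109544814530582778573417789708781070719735494796166164503497982179760000322023094506261979534534602185055744441249399798447744263127040, 112126540644789564380078285270849559470781912301477777318786187822658043063415077039668371367924122679455297915114785523217098078085517153907783615387998463115181013394632171352897883325104243343360, 11⟩
def a6c244 : Cert := (move 557 (branch (move 462 (branch (move 430 (leaf 429 6)) (move 589 (branch (move 494 (leaf 461 6)) (move 556 (branch (move 588 (leaf 460 5)) (move 555 (branch (move 554 (leaf 522 2)) (move 622 (branch (move 590 (leaf 493 4)) (move 621 (branch (move 654 (leaf 525 4)) (move 524 (branch (move 653 (leaf 524 7)) (move 492 (leaf 492 7)))))))))))))))) (branch (move 558 (branch (move 590 (leaf 461 4)) (move 556 (branch (move 588 (leaf 460 5)) (move 555 (branch (move 554 (leaf 522 2)) (move 523 (branch (move 522 (leaf 522 3)) (move 559 (branch (move 524 (leaf 523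 0)) (move 560 (branch (move 561 (leaf 525 3)) (move 592 (branch (move 591 (leaf 556 0)) (move 593 (leaf 557 0)))))))))))))))) (branch (move 558 (branch (move 590 (leaf 461 4)) (move 462 (branch (move 430 (leaf 429 6)) (move 494 (branch (move 589 (leaf 461 5)) (move 463 (branch (move 431 (leaf 430 6)) (move 464 (branch (move 492 (leaf 460 1)) (move 465 (leaf 461 1)))))))))))) (move 523 (branch (move 462 (branch (move 430 (leaf 429 6)) (move 494 (branch (move 589 (leaf 461 6)) (move 556 (branch (move 588 (leaf 460 5)) (move 555 (branch (move 554 (leaf 522 2)) (move 558 (branch (move 522 (leaf 522 3)) (move 463 (branch (move 431 (leaf 430 6)) (move 464 (branch (move 492 (leaf 460 1)) (move 465 (leaf 461 1)))))))))))))))) (branch (move 556 (branch (move 588 (leaf 460 5)) (move 555 (branch (move 554 (leaf 522 2)) (move 558 (branch (move 522 (leaf 522 3)) (move 559 (branch (move 524 (leaf 523 0)) (move 560 (branch (move 561 (leaf 525 3)) (move 592 (branch (move 591 (leaf 556 0)) (move 593 (leaf 557 0)))))))))))))) (branch (move 462 (branch (move 430 (leaf 429 6)) (move 494 (branch (move 589 (leaf 461 6)) (move 524 (branch (move 522 (leaf 490 2))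 (move 495 (leaf 491 2)))))))) (move 462 (branch (move 430 (leaf 429 6)) (move 494 (branch (move 589 (leaf 461 6)) (move 524 (branch (move 495 (leaf 491 2)) (move 491 (branch (move 490 (leaf 490 3)) (move 556 (branch (move 588 (leaf 460 5)) (move 558 (branch (move 559 (leaf 523 0)) (move 555 (branch (move 554 (leaf 522 1)) (move 463 (branch (move 492 (leaf 459 2)) (move 431 (leaf 430 6))))))))))))))))))))))))))
theorem a6p244 : a6e244.Valid :=
  pos_of_chk [] forall_nil a6c244 a6e244 (by decide +kernel)

def a6e245 : Pos := ⟨329510287762989358691697063434341007948329749536956207605068577044420714242840626355117422631826461427798601630014987845021544588264928353297742257660910108672, 2026130653113380073680060142935112240200270437739005344273092226706433138629873271156228479548471889577344944215366561097693801996007148577730235882486218494411775576143199993856, 7⟩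
def a6c245 : Cert := (move 495 (branch (move 496 (branch (move 497 (leaf 493 1)) (move 464 (branch (move 465 (leaf 461 2)) (move 463 (branch (move 492 (leaf 460 2)) (move 528 (branch (move 529 (leaf 493 0)) (move 431 (branch (move 560 (leaf 431 7)) (move 399 (leaf 399 4)))))))))))) (branch (move 524 (branch (move 523 (leaf 491 2)) (move 496 (leaf 492 1)))) (move 492 (branch (move 491 (branch (move 490 (leaf 490 0)) (move 459 (branch (move 458 (leaf 458 3)) (move 460 (leaf 459 3)))))) (branch (move 524 (branch (move 523 (leaf 491 1)) (move 460 (branch (move 459 (leaf 459 3)) (move 557 (branch (move 589 (leaf 460 7)) (move 428 (leaf 428 4)))))))) (move 523 (branch (move 524 (leaf 491 1)) (move 491 (branch (move 490 (leaf 490 0)) (move 522 (leaf 490 1))))))))))))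
theorem a6p245 : a6e245.Valid :=
  pos_of_chk [] forall_nil a6c245 a6e245 (by decide +kernel)

def a6e246 : Pos := ⟨329510287865282815188451496872253185974192223043726271543914351715773569495844807492763502471928651812983106540980196724007796807302967620356660790577426595840, 8702164876336042794269630822281975312017745165294481477615810041119858962262624720273604083472085987318530500498710349777692806802188642062541014715597808591641612522045761342756695834624, 6⟩
def a6c246 : Cert := (move 557 (branch (move 496 (branch (move 497 (leaf 493 1)) (move 461 (branch (move 460 (leaf 460 3)) (move 430 (branch (move 462 (leaf 429 5)) (move 429 (branch (move 398 (leaf 397 6)) (move 397 (leaf 397 4)))))))))) (branch (move 589 (branch (move 621 (leaf 493 6)) (move 462 (leaf 461 6)))) (move 589 (branch (move 621 (leaf 493 6)) (move 496 (branch (move 497 (leaf 493 1)) (move 460 (branch (move 461 (leaf 460 3)) (move 492 (leaf 460 7)))))))))))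
theorem a6p246 : a6e246.Valid :=
  pos_of_chk [] forall_nil a6c246 a6e246 (by decide +kernel)

def a6e247 : Pos := ⟨329510287762989358691697063434341007948329749536956207605068577044420714242840626355117422631826461427798601630014987845021544588264928353297742257660910108672, 8702164876336042794269630822378082479371457169349786098937395262668715863315387306913809295133366327669099700383402128360302955053075807981942619214437427149109298485119659073370094305280, 7⟩
def a6c247 : Cert := (move 495 (branch (move 524 (branch (move 523 (leaf 491 2)) (move 496 (leaf 492 1)))) (branch (move 492 (branch (move 491 (branch (move 490 (leaf 490 0)) (move 459 (branch (move 458 (leaf 458 3)) (move 460 (leaf 459 3)))))) (branch (move 524 (branch (move 523 (leaf 491 1)) (move 460 (branch (move 459 (leaf 459 3)) (move 557 (branch (move 589 (leaf 460 7)) (move 428 (leaf 428 4)))))))) (move 523 (branch (move 524 (leaf 491 1)) (move 491 (branch (move 490 (leaf 490 0)) (move 522 (leaf 490 1))))))))) (ref 0))))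
theorem a6p247 : a6e247.Valid :=
  pos_of_chk [a6e246] (forall_cons a6p246 forall_nil) a6c247 a6e247 (by decide +kernel)

def a6e248 : Pos := ⟨329510287711842630443319846715384918935398512783571175635645689708744286616338535786294382711775366235206349174532383405528418478745908719768282991202651865088, 37375513600476177415100978262776839108353840400003346718524919723068093585443059777618045837897347148856049895037797797730418444875513287863661911876093974353887634315679246578489888730025224568832, 11⟩
def a6c248 : Cert := (move 558 (branch (move 590 (branch (move 622 (leaf 493 7)) (move 494 (branch (move 591 (branch (move 623 (leaf 494 4)) (move 559 (branch (move 462 (leaf 462 4)) (move 560 (branch (move 561 (leaf 525 3)) (move 589 (branch (move 588 (leaf 556 2)) (move 621 (leaf 493 5)))))))))) (move 495 (branch (move 463 (leaf 462 6)) (move 524 (branch (move 523 (leaf 491 2)) (move 496 (leaf 492 1)))))))))) (branch (move 461 (branch (move 429 (leaf 429 4)) (move 590 (branch (move 622 (leaf 493 7)) (move 557 (leaf 461 4)))))) (move 557 (branch (move 589 (branch (move 621 (branch (move 653 (leaf 525 6)) (move 492 (branch (move 524 (leaf 492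 7)) (move 460 (leaf 460 7)))))) (branch (move 494 (branch (move 462 (leaf 461 5)) (move 492 (branch (move 460 (leaf 460 7)) (move 491 (branch (move 490 (leaf 490 0)) (move 523 (branch (move 522 (leaf 490 1)) (move 495 (branch (move 524 (leaf 491 1)) (move 496 (branch (move 497 (leaf 493 1)) (move 464 (branch (move 463 (leaf 460 2)) (move 465 (leaf 461 2)))))))))))))))) (move 494 (branch (move 621 (leaf 493 6)) (move 462 (leaf 461 5))))))) (branch (move 461 (branch (move 429 (leaf 429 4)) (move 462 (branch (move 430 (leaf 429 6)) (move 494 (branch (move 589 (leaf 461 5)) (move 463 (branch (move 431 (leaf 430 6)) (move 464 (branch (move 492 (leaf 460 1)) (move 465 (leaf 461 1)))))))))))) (move 461 (branch (move 429 (leaf 429 4)) (move 556 (branch (move 588 (leaf 460 5)) (move 555 (branch (move 554 (leaf 522 2)) (move 523 (branch (move 522 (leaf 522 3)) (move 559 (branch (move 524 (leaf 523 0)) (move 560 (branch (move 561 (leaf 525 3)) (move 592 (branch (move 591 (leaf 556 0)) (move 593 (leaf 557 0))))))))))))))))))))))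
theorem a6p248 : a6e248.Valid :=
  pos_of_chk [] forall_nil a6c248 a6e248 (by decide +kernel)

def a6e249 : Pos := ⟨219673525315979741810835388270848921292295289719147264262173283757878641081171558163764027572280084693202867107147115714443335893833343044179946512277611479040, 82377571921567316939643569382659291275272727914988331416815251227816820858486593520753058529108100547763976808512320133173865234045096668290000194758768590848, 9⟩
def a6c249 : Cert := (move 431 (branch (move 463 (branch (move 464 (leaf 460 2)) (move 399 (leaf 398 5)))) (branch (move 524 (branch (move 523 (leaf 491 1)) (move 464 (branch (move 463 (leaf 460 2)) (move 432 (branch (move 465 (leaf 429 0)) (move 397 (branch (move 396 (leaf 396 3)) (move 433 (branch (move 398 (leaf 397 3)) (move 401 (branch (move 400 (leaf 397 2)) (move 402 (leaf 398 2)))))))))))))) (branch (move 524 (branch (move 523 (leaf 491 1)) (move 399 (branch (move 463 (leaf 398 5)) (move 400 (branch (move 428 (leaf 396 2)) (move 401 (branch (move 432 (leaf 397 2)) (move 398 (leaf 397 1)))))))))) (move 428 (branch (move 399 (branch (move 400 (leaf 396 2)) (move 427 (branch (move 398 (leaf 395 2)) (move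 395 (branch (move 394 (leaf 394 3)) (move 396 (leaf 395 3)))))))) (branch (move 524 (branch (move 523 (leaf 491 1)) (move 399 (branch (move 400 (leaf 396 2)) (move 427 (branch (move 398 (leaf 395 2)) (move 458 (branch (move 459 (leaf 426 1)) (move 426 (branch (move 457 (leaf 425 1)) (move 394 (branch (move 393 (leaf 393 3)) (move 395 (leaf 394 3)))))))))))))) (branch (move 524 (branch (move 523 (leaf 491 1)) (move 396 (branch (move 395 (leaf 395 3)) (move 432 (branch (move 397 (leaf 396 3)) (move 465 (branch (move 464 (leaf 429 0)) (move 433 (branch (move 466 (leaf 430 0)) (move 401 (branch (move 400 (leaf 397 2)) (move 402 (leaf 398 2)))))))))))))) (branch (move 524 (branch (move 523 (leaf 491 1)) (move 400 (branch (move 399 (leaf 396 2)) (move 432 (branch (move 401 (leaf 397 2)) (move 465 (branch (move 464 (leaf 429 0)) (move 433 (branch (move 466 (leaf 430 0)) (move 397 (branch (move 396 (leaf 396 3)) (move 398 (leaf 397 3)))))))))))))) (move 524 (branch (move 523 (leaf 491 1)) (move 395 (branch (move 396 (leaf 395 3)) (move 427 (branch (move 394 (leaf 394 3)) (move 458 (branch (move 459 (leaf 426 1)) (move 426 (branch (move 457 (leaf 425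 1)) (move 398 (branch (move 397 (leaf 394 2)) (move 399 (leaf 395 2)))))))))))))))))))))))
theorem a6p249 : a6e249.Valid :=
  pos_of_chk [] forall_nil a6c249 a6e249 (by decide +kernel)

def a6e250 : Pos := ⟨329510287711842630443319846715384918935398512783571175635645689708744286616338535786294382711775366235206349174532383405528418478745908719768282991202651865088, 8702164877855640785107124647318289707700444977368548943474364671320375706344675553787617810686704061478438208314637199012733372889602484118223104011862404063883029843438803361736949760000, 14⟩
def a6c250 : Cert := (move 494 (branch (ref 0) (branch (ref 1) (branch (move 557 (branch (move 589 (branch (move 621 (leaf 493 6)) (move 460 (branch (move 492 (leaf 460 7)) (move 461 (branch (move 428 (leaf 428 7)) (move 429 (branch (move 397 (leaf 397 4)) (move 556 (branch (move 588 (leaf 460 5)) (move 524 (leaf 428 5)))))))))))) (branch (move 462 (branch (move 589 (leaf 461 6)) (move 430 (leaf 429 5)))) (move 461 (branch (move 429 (branch (move 397 (leaf 397 4)) (move 556 (branch (move 588 (leaf 460 5)) (move 524 (leaf 428 5)))))) (move 462 (branch (move 430 (leaf 429 5)) (move 460 (branch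 (move 428 (leaf 428 7)) (move 459 (branch (move 458 (leaf 458 0)) (move 491 (branch (move 490 (leaf 458 1)) (move 463 (branch (move 492 (leaf 459 1)) (move 464 (branch (move 465 (leaf 461 1)) (move 432 (branch (move 431 (leaf 428 2)) (move 433 (leaf 429 2))))))))))))))))))))) (branch (move 462 (branch (move 557 (branch (move 589 (leaf 461 6)) (move 430 (leaf 429 5)))) (branch (move 461 (branch (move 557 (branch (move 589 (leaf 461 6)) (move 460 (branch (move 428 (leaf 428 7)) (move 495 (branch (move 496 (leaf 460 3)) (move 459 (leaf 459 0)))))))) (branch (move 429 (branch (move 397 (leaf 397 4)) (move 524 (branch (move 556 (leaf 428 5)) (move 495 (branch (move 523 (leaf 491 2)) (move 496 (leaf 492 1)))))))) (move 429 (branch (move 397 (leaf 397 4)) (move 428 (branch (move 396 (leaf 396 7)) (move 557 (branch (move 589 (leaf 461 6)) (move 460 (leaf 428 7))))))))))) (move 461 (branch (move 429 (branch (move 397 (leaf 397 4)) (move 524 (branch (move 556 (leaf 428 5)) (move 495 (branch (move 523 (leaf 491 2)) (move 496 (leaf 492 1)))))))) (branch (move 430 (branch (move 398 (leaf 397 5)) (move 431 (branch (move 399 (leaf 398 6)) (move 460 (branch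 (move 459 (leaf 427 2)) (move 495 (branch (move 496 (leaf 460 3)) (move 432 (branch (move 463 (leaf 428 2)) (move 433 (leaf 429 1)))))))))))) (move 429 (branch (move 397 (leaf 397 4)) (move 430 (branch (move 398 (leaf 397 5)) (move 428 (branch (move 396 (leaf 396 7)) (move 463 (branch (move 464 (leaf 428 3)) (move 427 (leaf 427 0)))))))))))))))) (branch (move 495 (branch (move 496 (branch (move 497 (leaf 493 1)) (move 464 (branch (move 465 (leaf 461 2)) (move 463 (branch (move 492 (leaf 460 2)) (move 528 (branch (move 529 (leaf 493 0)) (move 431 (branch (move 560 (leaf 431 7)) (move 399 (leaf 399 4)))))))))))) (branch (move 492 (branch (move 460 (branch (move 459 (leaf 459 3)) (move 557 (branch (move 589 (leaf 460 7)) (move 428 (branch (move 461 (leaf 428 7)) (move 396 (leaf 396 4)))))))) (move 491 (branch (move 490 (leaf 490 0)) (move 463 (branch (move 462 (leaf 459 2)) (move 464 (leaf 460 2)))))))) (branch (move 496 (branch (move 497 (leaf 493 1)) (move 461 (branch (move 460 (leaf 460 3)) (move 429 (branch (move 397 (leaf 397 4)) (move 430 (branch (move 398 (leaf 397 6)) (move 462 (branch (move 557 (leaf 429 5)) (move 431 (branch (move 399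 (leaf 398 6)) (move 428 (branch (move 396 (leaf 396 7)) (move 427 (branch (move 426 (leaf 426 0)) (move 463 (leaf 427 0)))))))))))))))))) (ref 2))))) (branch (ref 3) (branch (move 557 (branch (move 589 (branch (move 621 (leaf 493 6)) (move 460 (branch (move 492 (leaf 460 7)) (move 461 (branch (move 428 (leaf 428 7)) (move 429 (branch (move 397 (leaf 397 4)) (move 556 (branch (move 588 (leaf 460 5)) (move 524 (leaf 428 5)))))))))))) (branch (move 462 (branch (move 589 (leaf 461 6)) (move 430 (leaf 429 5)))) (move 461 (branch (move 429 (branch (move 397 (leaf 397 4)) (move 556 (branch (move 588 (leaf 460 5)) (move 524 (leaf 428 5)))))) (branch (move 462 (branch (move 430 (leaf 429 5)) (move 460 (branch (move 428 (leaf 428 7)) (move 495 (branch (move 496 (leaf 460 3)) (move 524 (branch (move 523 (leaf 491 2)) (move 556 (branch (move 588 (leaf 460 5)) (move 555 (branch (move 554 (leaf 522 2)) (move 492 (branch (move 587 (leaf 459 5)) (move 463 (branch (move 491 (leaf 459 1)) (move 464 (leaf 460 1)))))))))))))))))) (move 462 (branch (move 430 (leaf 429 5)) (move 429 (branch (move 397 (leaf 397 4)) (move 428 (branch (move 460 (leaf 428 7)) (move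 396 (leaf 396 7)))))))))))))) (branch (move 495 (branch (move 496 (branch (move 497 (leaf 493 1)) (move 464 (branch (move 465 (leaf 461 2)) (move 463 (branch (move 492 (leaf 460 2)) (move 528 (branch (move 529 (leaf 493 0)) (move 431 (branch (move 560 (leaf 431 7)) (move 399 (leaf 399 4)))))))))))) (branch (move 524 (branch (move 523 (leaf 491 2)) (move 496 (leaf 492 1)))) (move 492 (branch (move 491 (branch (move 490 (leaf 490 0)) (move 459 (branch (move 458 (leaf 458 3)) (move 460 (leaf 459 3)))))) (branch (move 524 (branch (move 523 (leaf 491 1)) (move 463 (branch (move 464 (leaf 460 2)) (move 462 (branch (move 491 (leaf 459 2)) (move 430 (branch (move 557 (leaf 429 5)) (move 398 (leaf 397 5)))))))))) (move 524 (branch (move 523 (leaf 491 1)) (move 460 (branch (move 459 (leaf 459 3)) (move 557 (branch (move 589 (leaf 460 7)) (move 462 (branch (move 430 (leaf 429 5)) (move 463 (branch (move 464 (leaf 460 2)) (move 431 (branch (move 399 (leaf 398 5)) (move 461 (branch (move 432 (leaf 428 2)) (move 556 (branch (move 588 (leaf 460 5)) (move 429 (leaf 428 5)))))))))))))))))))))))) (move 495 (branch (move 496 (branch (move 497 (leaf 493 1)) (move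 464 (branch (move 465 (leaf 461 2)) (move 463 (branch (move 492 (leaf 460 2)) (move 528 (branch (move 529 (leaf 493 0)) (move 431 (branch (move 560 (leaf 431 7)) (move 399 (leaf 399 4)))))))))))) (branch (move 524 (branch (move 523 (leaf 491 2)) (move 496 (leaf 492 1)))) (move 492 (branch (move 523 (branch (move 524 (leaf 491 1)) (move 491 (branch (move 490 (leaf 490 0)) (move 522 (leaf 490 1)))))) (branch (move 491 (branch (move 490 (leaf 490 0)) (move 463 (branch (move 462 (leaf 459 2)) (move 464 (leaf 460 2)))))) (move 430 (branch (move 462 (branch (move 557 (leaf 429 5)) (move 398 (leaf 397 5)))) (branch (move 524 (branch (move 523 (leaf 491 1)) (move 462 (branch (move 557 (leaf 429 5)) (move 429 (branch (move 397 (leaf 397 7)) (move 463 (branch (move 464 (leaf 460 2)) (move 431 (branch (move 399 (leaf 398 5)) (move 461 (branch (move 556 (leaf 428 5)) (move 428 (branch (move 427 (leaf 427 0)) (move 396 (leaf 396 7)))))))))))))))) (move 429 (branch (move 461 (branch (move 398 (leaf 397 6)) (move 397 (leaf 397 4)))) (branch (move 524 (branch (move 523 (leaf 491 1)) (move 461 (branch (move 398 (leaf 397 6)) (move 556 (leaf 428 5)))))) (branch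 (move 524 (branch (move 523 (leaf 491 1)) (move 461 (branch (move 397 (leaf 397 4)) (move 556 (leaf 428 5)))))) (ref 4)))))))))))))))))))))))
theorem a6p250 : a6e250.Valid :=
  pos_of_chk [a6e245, a6e236, a6e246, a6e247, a6e249] (forall_cons a6p245 (forall_cons a6p236 (forall_cons a6p246 (forall_cons a6p247 (forall_cons a6p249 forall_nil))))) a6c250 a6e250 (by decide +kernel)

def a6e251 : Pos := ⟨329510287686269266319131238355906874428932894406878659650934246040906072803087490501882862751749818638910222946791081185781855423986398903003553357973522743296, 112126540681773765096655210880128342600713353806393849694002636113964505034365969718106254986970737668269937749049008002971799440717689036553337661633441363002721791830455376869427096046690533113856, 15⟩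
def a6c251 : Cert := (move 493 (branch (ref 0) (branch (move 494 (branch (ref 1) (branch (ref 2) (branch (move 558 (branch (move 590 (branch (move 622 (leaf 493 7)) (move 591 (branch (move 623 (leaf 494 4)) (move 559 (branch (move 462 (leaf 462 4)) (move 560 (branch (move 561 (leaf 525 3)) (move 589 (branch (move 588 (leaf 556 2)) (move 621 (leaf 493 5)))))))))))) (branch (move 461 (branch (move 590 (leaf 461 7)) (move 429 (leaf 429 4)))) (move 462 (branch (move 430 (branch (move 398 (leaf 397 5)) (move 431 (branch (move 463 (leaf 430 6)) (move 399 (leaf 398 6)))))) (branch (move 461 (branch (move 429 (leaf 429 4)) (move 463 (branch (move 431 (leaf 430 6)) (move 492 (branch (move 491 (leaf 459 2)) (move 464 (leaf 460 1)))))))) (move 429 (branch (move 461 (leaf 429 4)) (move 430 (branch (move 397 (leaf 397 7)) (move 398 (leaf 397 5)))))))))))) (branch (ref 3) (move 558 (branch (move 590 (branch (move 622 (leaf 493 7)) (move 591 (branch (move 623 (leaf 494 4)) (move 559 (branch (move 462 (leaf 462 4)) (move 560 (branch (move 561 (leaf 525 3)) (move 589 (branch (move 588 (leaf 556 2)) (move 621 (leaf 493 5)))))))))))) (branch (move 461 (branch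 (move 590 (leaf 461 7)) (move 429 (leaf 429 4)))) (ref 4))))))))) (branch (move 461 (branch (move 429 (branch (move 558 (leaf 429 4)) (move 430 (branch (move 398 (leaf 397 6)) (move 428 (branch (move 396 (leaf 396 7)) (move 557 (branch (move 462 (leaf 429 6)) (move 460 (leaf 428 7)))))))))) (branch (move 557 (branch (move 462 (branch (move 430 (leaf 429 6)) (move 494 (branch (move 589 (leaf 461 6)) (move 460 (branch (move 428 (leaf 428 7)) (move 495 (branch (move 496 (leaf 460 3)) (move 459 (leaf 459 0)))))))))) (move 558 (branch (move 590 (leaf 461 4)) (move 556 (branch (move 588 (leaf 460 5)) (move 555 (branch (move 554 (leaf 522 2)) (move 523 (branch (move 522 (leaf 522 3)) (move 559 (branch (move 524 (leaf 523 0)) (move 560 (branch (move 561 (leaf 525 3)) (move 592 (branch (move 591 (leaf 556 0)) (move 593 (leaf 557 0)))))))))))))))))) (branch (move 558 (branch (move 429 (leaf 429 4)) (move 590 (branch (move 622 (leaf 493 7)) (move 494 (leaf 461 7)))))) (move 429 (branch (move 397 (branch (move 494 (leaf 397 4)) (move 396 (branch (move 428 (leaf 396 7)) (move 364 (leaf 364 7)))))) (branch (move 397 (branch (move 494 (leaf 397 4)) (move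 398 (branch (move 430 (leaf 397 6)) (move 366 (leaf 365 6)))))) (move 428 (branch (move 396 (leaf 396 7)) (move 430 (branch (move 398 (leaf 397 6)) (move 557 (branch (move 462 (leaf 429 6)) (move 460 (leaf 428 7))))))))))))))) (branch (ref 5) (branch (move 494 (branch (ref 1) (branch (ref 6) (branch (ref 7) (move 462 (branch (move 557 (branch (move 589 (leaf 461 6)) (move 430 (leaf 429 5)))) (branch (move 558 (branch (move 590 (branch (move 622 (leaf 493 7)) (move 591 (branch (move 623 (leaf 494 4)) (move 559 (leaf 462 4)))))) (move 557 (branch (move 589 (leaf 461 5)) (move 463 (branch (move 431 (leaf 430 6)) (move 492 (branch (move 491 (leaf 459 2)) (move 464 (branch (move 495 (leaf 460 2)) (move 465 (leaf 461 1)))))))))))) (move 430 (branch (move 398 (leaf 397 5)) (move 431 (branch (move 399 (leaf 398 6)) (move 558 (branch (move 463 (leaf 430 6)) (move 590 (branch (move 622 (leaf 493 7)) (move 591 (branch (move 623 (leaf 494 4)) (move 559 (leaf 462 4))))))))))))))))))) (branch (move 461 (branch (move 429 (branch (move 558 (leaf 429 4)) (move 428 (branch (move 396 (leaf 396 7)) (move 524 (branch (move 556 (leaf 428 5)) (move 397 (branch (move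 492 (leaf 396 5)) (move 398 (branch (move 430 (leaf 397 6)) (move 366 (leaf 365 6)))))))))))) (branch (move 558 (branch (move 429 (leaf 429 4)) (move 590 (branch (move 622 (leaf 493 7)) (move 494 (leaf 461 7)))))) (branch (move 557 (branch (move 556 (branch (move 588 (leaf 460 5)) (move 429 (branch (move 524 (leaf 428 5)) (move 428 (branch (move 460 (leaf 428 7)) (move 396 (leaf 396 7)))))))) (branch (move 556 (branch (move 588 (leaf 460 5)) (move 429 (branch (move 524 (leaf 428 5)) (move 397 (branch (move 494 (leaf 397 4)) (move 398 (branch (move 430 (leaf 397 6)) (move 366 (leaf 365 6)))))))))) (move 460 (branch (move 428 (leaf 428 7)) (move 589 (branch (move 492 (leaf 460 7)) (move 621 (branch (move 494 (leaf 493 6)) (move 622 (branch (move 654 (leaf 525 4)) (move 590 (leaf 493 4))))))))))))) (ref 8))))) (branch (ref 9) (branch (move 494 (branch (ref 1) (branch (ref 2) (branch (ref 3) (branch (move 558 (branch (move 461 (branch (move 590 (leaf 461 7)) (move 429 (leaf 429 4)))) (branch (ref 4) (move 590 (branch (move 622 (leaf 493 7)) (move 495 (branch (move 463 (leaf 462 6)) (move 524 (branch (move 523 (leaf 491 2)) (move 496 (leaf 492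 1))))))))))) (move 558 (branch (move 461 (branch (move 590 (leaf 461 7)) (move 429 (leaf 429 4)))) (branch (move 462 (branch (move 430 (branch (move 398 (leaf 397 5)) (move 431 (branch (move 463 (leaf 430 6)) (move 399 (leaf 398 6)))))) (branch (move 461 (branch (move 429 (leaf 429 4)) (move 463 (branch (move 431 (leaf 430 6)) (move 492 (branch (move 491 (leaf 459 2)) (move 464 (leaf 460 1)))))))) (move 429 (branch (move 461 (leaf 429 4)) (move 430 (branch (move 397 (leaf 397 7)) (move 398 (leaf 397 5))))))))) (move 590 (branch (move 622 (leaf 493 7)) (move 591 (branch (move 623 (leaf 494 4)) (move 462 (branch (move 559 (leaf 462 4)) (move 430 (branch (move 557 (leaf 429 5)) (move 398 (leaf 397 5)))))))))))))))))) (branch (move 461 (branch (move 429 (branch (move 558 (leaf 429 4)) (move 428 (branch (move 396 (leaf 396 7)) (move 460 (branch (move 557 (leaf 428 7)) (move 524 (branch (move 556 (leaf 428 5)) (move 492 (branch (move 397 (leaf 396 5)) (move 491 (branch (move 490 (leaf 490 0)) (move 427 (branch (move 395 (leaf 395 7)) (move 462 (branch (move 463 (leaf 459 1)) (move 426 (leaf 426 0)))))))))))))))))) (branch (move 558 (branch (move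 429 (leaf 429 4)) (move 590 (branch (move 622 (leaf 493 7)) (move 494 (leaf 461 7)))))) (branch (ref 8) (move 557 (branch (move 556 (branch (move 588 (leaf 460 5)) (move 429 (branch (move 524 (leaf 428 5)) (move 428 (branch (move 460 (leaf 428 7)) (move 396 (leaf 396 7)))))))) (branch (move 460 (branch (move 428 (leaf 428 7)) (move 589 (branch (move 492 (leaf 460 7)) (move 621 (branch (move 494 (leaf 493 6)) (move 622 (branch (move 654 (leaf 525 4)) (move 590 (leaf 493 4)))))))))) (move 556 (branch (move 588 (leaf 460 5)) (move 429 (branch (move 524 (leaf 428 5)) (move 494 (branch (move 397 (leaf 397 4)) (move 589 (branch (move 621 (leaf 493 6)) (move 462 (leaf 461 6))))))))))))))))) (branch (move 461 (branch (move 429 (branch (move 558 (leaf 429 4)) (move 428 (branch (move 396 (leaf 396 7)) (move 524 (branch (move 556 (leaf 428 5)) (move 397 (branch (move 492 (leaf 396 5)) (move 398 (branch (move 430 (leaf 397 6)) (move 366 (leaf 365 6)))))))))))) (branch (move 558 (branch (move 429 (leaf 429 4)) (move 590 (branch (move 622 (leaf 493 7)) (move 494 (leaf 461 7)))))) (branch (move 557 (branch (move 556 (branch (move 588 (leaf 460 5)) (move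 429 (branch (move 524 (leaf 428 5)) (move 430 (branch (move 462 (leaf 429 6)) (move 398 (leaf 397 6)))))))) (branch (move 462 (branch (move 430 (leaf 429 6)) (move 589 (branch (move 494 (leaf 461 6)) (move 556 (branch (move 588 (leaf 460 5)) (move 555 (branch (move 554 (leaf 522 2)) (move 622 (branch (move 590 (leaf 493 4)) (move 621 (branch (move 654 (leaf 525 4)) (move 524 (branch (move 653 (leaf 524 7)) (move 492 (leaf 492 7)))))))))))))))) (branch (move 430 (branch (move 462 (leaf 429 6)) (move 429 (branch (move 398 (leaf 397 6)) (move 397 (branch (move 494 (leaf 397 4)) (move 396 (branch (move 428 (leaf 396 7)) (move 364 (leaf 364 7)))))))))) (move 556 (branch (move 588 (leaf 460 5)) (move 429 (branch (move 524 (leaf 428 5)) (move 397 (branch (move 494 (leaf 397 4)) (move 396 (branch (move 428 (leaf 396 7)) (move 364 (leaf 364 7)))))))))))))) (ref 10))))) (branch (move 494 (branch (move 462 (branch (move 430 (branch (move 398 (leaf 397 5)) (move 431 (branch (move 399 (leaf 398 6)) (move 463 (branch (move 558 (leaf 430 6)) (move 429 (branch (move 397 (leaf 397 7)) (move 464 (branch (move 465 (leaf 461 1)) (move 428 (leaf 428 0))))))))))))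 (branch (move 557 (branch (move 589 (leaf 461 6)) (move 430 (leaf 429 5)))) (move 558 (branch (move 590 (branch (move 622 (leaf 493 7)) (move 591 (branch (move 623 (leaf 494 4)) (move 559 (leaf 462 4)))))) (move 557 (branch (move 589 (leaf 461 5)) (move 463 (branch (move 431 (leaf 430 6)) (move 492 (branch (move 491 (leaf 459 2)) (move 464 (branch (move 495 (leaf 460 2)) (move 465 (leaf 461 1))))))))))))))) (branch (ref 1) (branch (ref 11) (branch (ref 6) (ref 12)))))) (branch (ref 13) (ref 14))))))))))))))
theorem a6p251 : a6e251.Valid :=
  pos_of_chk [a6e234, a6e235, a6e236, a6e237, a6e238, a6e239, a6e240, a6e241, a6e242, a6e243, a6e244, a6e245, a6e247, a6e248, a6e250] (forall_cons a6p234 (forall_cons a6p235 (forall_cons a6p236 (forall_cons a6p237 (forall_cons a6p238 (forall_cons a6p239 (forall_cons a6p240 (forall_cons a6p241 (forall_cons a6p242 (forall_cons a6p243 (forall_cons a6p244 (forall_cons a6p245 (forall_cons a6p247 (forall_cons a6p248 (forall_cons a6p250 forall_nil))))))))))))))) a6c251 a6e251 (by decide +kernel)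

def a6e252 : Pos := ⟨411887859607836582898914047944883593036166118008598324563667807551132591003859363127353578439687273298637778683488851482227319279982998628754441697466903429120, 80263304194513472841683870570578418795137860712808042246295632683505462933612626757052354737999160044471138705070865991332648387226942170767377420867029480140456831852908087141192994063223137940652972572672, 11⟩
def a6c252 : Cert := (move 555 (branch (move 554 (leaf 522 1)) (move 587 (branch (move 619 (branch (move 492 (leaf 491 6)) (move 651 (branch (move 556 (leaf 523 6)) (move 652 (branch (move 620 (leaf 523 4)) (move 684 (leaf 555 4)))))))) (branch (move 491 (branch (move 490 (leaf 490 3)) (move 588 (branch (move 620 (leaf 491 4)) (move 459 (branch (move 556 (leaf 459 4)) (move 618 (branch (move 586 (leaf 490 5)) (move 619 (branch (move 650 (leaf 522 5)) (move 428 (branch (move 460 (leaf 427 6)) (move 427 (branch (move 396 (leaf 395 6)) (move 426 (branch (move 394 (leaf 394 7)) (move 458 (leaf 426 7)))))))))))))))))) (branch (move 491 (branch (move 490 (leaf 490 3)) (move 492 (branch (move 460 (leaf 459 6)) (move 619 (leaf 491 6)))))) (move 491 (branch (move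 490 (leaf 490 3)) (move 460 (branch (move 492 (leaf 459 6)) (move 459 (branch (move 428 (leaf 427 6)) (move 556 (branch (move 427 (leaf 427 4)) (move 588 (leaf 459 4))))))))))))))))
theorem a6p252 : a6e252.Valid :=
  pos_of_chk [] forall_nil a6c252 a6e252 (by decide +kernel)

def a6e253 : Pos := ⟨411887859607836582898914047944883593036166118008598324563667807551132591003859363127353578439687273298637778683488851482227319279982998628754441697466903429120, 20065826073156049037383838972507370894420219672373034160036149630582627687099465167529367960966578226726204132340183302546864101028536498885954870003534786281015083391881487986380167618603099859760806100992, 15⟩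
def a6c253 : Cert := (move 555 (branch (move 554 (leaf 522 1)) (move 587 (branch (move 491 (branch (move 490 (leaf 490 3)) (move 492 (branch (move 460 (leaf 459 6)) (move 619 (leaf 491 6)))))) (branch (move 619 (branch (move 492 (leaf 491 6)) (move 620 (branch (move 652 (leaf 523 4)) (move 650 (branch (move 618 (leaf 522 5)) (move 651 (branch (move 682 (leaf 554 5)) (move 621 (branch (move 622 (leaf 618 1)) (move 494 (branch (move 495 (leaf 491 2)) (move 558 (branch (move 559 (leaf 523 0)) (move 589 (branch (move 590 (leaf 493 5)) (move 557 (leaf 493 6)))))))))))))))))) (branch (move 491 (branch (move 490 (leaf 490 3)) (move 558 (branch (move 559 (leaf 523 0)) (move 494 (branch (move 495 (leaf 491 2)) (move 620 (branch (move 588 (leaf 491 4)) (move 619 (branch (move 652 (leaf 523 4)) (move 618 (branch (move 586 (leaf 490 5)) (move 650 (leaf 522 5)))))))))))))) (move 491 (branch (move 490 (leaf 490 3)) (move 460 (branch (move 492 (leaf 459 6)) (move 459 (branch (move 428 (leaf 427 6)) (move 426 (branch (move 458 (leaf 426 7)) (move 427 (branch (move 394 (leaf 394 7)) (move 558 (branch (move 559 (leaf 523 0)) (move 494 (branch (move 495 (leaf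 491 2)) (move 588 (branch (move 620 (leaf 491 4)) (move 586 (branch (move 618 (leaf 490 5)) (move 589 (branch (move 557 (leaf 554 2)) (move 590 (branch (move 621 (leaf 493 5)) (move 623 (branch (move 622 (leaf 587 0)) (move 591 (leaf 494 4))))))))))))))))))))))))))))))))
theorem a6p253 : a6e253.Valid :=
  pos_of_chk [] forall_nil a6c253 a6e253 (by decide +kernel)

def a6e254 : Pos := ⟨411887859607836582898914047944883593036166118008598324563667807551132591003859363127353578439687273298637778683488851482227319279982998628754441697466903429120, 186877567758720270290907753854217961735327141248316307437695634540674122199502476734334899706308682476080152747183331215812240512107382063781662576553395637931424103348032348075479809342575176843264, 9⟩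
def a6c254 : Cert := (move 558 (branch (move 559 (leaf 523 0)) (move 590 (branch (move 494 (branch (move 495 (leaf 491 2)) (move 621 (branch (move 589 (leaf 493 5)) (move 622 (branch (move 653 (leaf 525 5)) (move 623 (branch (move 591 (leaf 494 4)) (move 655 (leaf 526 4)))))))))) (branch (move 494 (branch (move 495 (leaf 491 2)) (move 493 (branch (move 461 (leaf 461 7)) (move 589 (branch (move 621 (leaf 493 5)) (move 555 (branch (move 554 (leaf 522 1)) (move 591 (branch (move 623 (leaf 494 4)) (move 556 (branch (move 557 (leaf 555 0)) (move 588 (leaf 555 3)))))))))))))) (move 493 (branch (move 622 (leaf 493 7)) (move 461 (branch (move 429 (leaf 429 4)) (move 557 (leaf 461 4)))))))))))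
theorem a6p254 : a6e254.Valid :=
  pos_of_chk [] forall_nil a6c254 a6e254 (by decide +kernel)

def a6e255 : Pos := ⟨411887859607836582898914047944883593036166118008598324563667807551132591003859363127353578439687273298637778683488851482227319279982998628754441697466903429120, 186877568250392585738044925641839974905775699060269068773113214147245179220441802240144018935882714317694013228318844802671892330127398606821033044083199625820964892803631375604428049464508939239424, 13⟩
def a6c255 : Cert := (move 558 (branch (move 559 (leaf 523 0)) (move 590 (branch (move 494 (branch (move 495 (leaf 491 2)) (move 621 (branch (move 589 (leaf 493 5)) (move 622 (branch (move 653 (leaf 525 5)) (move 623 (branch (move 591 (leaf 494 4)) (move 655 (leaf 526 4)))))))))) (branch (move 493 (branch (move 622 (leaf 493 7)) (move 461 (branch (move 429 (leaf 429 4)) (move 557 (leaf 461 4)))))) (move 556 (branch (move 491 (branch (move 490 (leaf 490 3)) (move 588 (branch (move 620 (leaf 491 7)) (move 459 (branch (move 427 (leaf 427 4)) (move 492 (leaf 459 7)))))))) (branch (move 494 (branch (move 495 (leaf 491 2)) (move 493 (branch (move 461 (leaf 461 7)) (move 491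 (branch (move 490 (leaf 490 3)) (move 589 (branch (move 621 (leaf 493 5)) (move 459 (branch (move 427 (leaf 427 4)) (move 492 (branch (move 458 (leaf 458 3)) (move 557 (branch (move 460 (leaf 460 4)) (move 591 (branch (move 592 (leaf 556 3)) (move 623 (leaf 494 4)))))))))))))))))) (move 494 (branch (move 495 (leaf 491 2)) (move 493 (branch (move 461 (leaf 461 7)) (move 589 (branch (move 621 (leaf 493 5)) (move 588 (branch (move 620 (leaf 492 6)) (move 591 (branch (move 623 (leaf 494 4)) (move 592 (branch (move 557 (leaf 556 3)) (move 625 (branch (move 624 (leaf 589 0)) (move 593 (branch (move 626 (leaf 590 0)) (move 561 (branch (move 560 (leaf 557 2)) (move 562 (leaf 558 2))))))))))))))))))))))))))))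
theorem a6p255 : a6e255.Valid :=
  pos_of_chk [] forall_nil a6c255 a6e255 (by decide +kernel)

def a6e256 : Pos := ⟨411887859607836582898914047944883593036166118008598324563667807551132591003859363127353578439687273298637778683488851482227319279982998628754441697466903429120, 80263304339343587868397989722626823581405160053815526118164981249099056171817080330131341676793721903500321169760718059976072127587361892596800106698362267152655856315268071785789863403741364522610352717824, 15⟩
def a6c256 : Cert := (move 555 (branch (move 554 (leaf 522 1)) (move 587 (branch (move 619 (branch (move 492 (leaf 491 6)) (move 651 (branch (move 556 (leaf 523 6)) (move 652 (branch (move 620 (leaf 523 4)) (move 684 (leaf 555 4)))))))) (branch (move 491 (branch (move 490 (leaf 490 3)) (move 492 (branch (move 460 (leaf 459 6)) (move 619 (leaf 491 6)))))) (branch (move 491 (branch (move 490 (leaf 490 3)) (move 558 (branch (move 559 (leaf 523 0)) (move 494 (branch (move 495 (leaf 491 2)) (move 586 (branch (move 618 (leaf 490 5)) (move 556 (branch (move 557 (leaf 554 1)) (move 459 (branch (move 427 (leaf 427 4)) (move 619 (branch (move 651 (leaf 523 6)) (move 620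 (branch (move 652 (leaf 523 4)) (move 585 (branch (move 584 (leaf 584 0)) (move 622 (branch (move 621 (leaf 586 3)) (move 590 (branch (move 493 (leaf 493 7)) (move 623 (branch (move 591 (leaf 494 4)) (move 655 (leaf 526 4)))))))))))))))))))))))))) (move 491 (branch (move 490 (leaf 490 3)) (move 460 (branch (move 492 (leaf 459 6)) (move 459 (branch (move 428 (leaf 427 6)) (move 558 (branch (move 559 (leaf 523 0)) (move 494 (branch (move 495 (leaf 491 2)) (move 458 (branch (move 426 (leaf 426 7)) (move 461 (branch (move 493 (leaf 458 0)) (move 586 (branch (move 618 (leaf 490 5)) (move 556 (branch (move 557 (leaf 554 1)) (move 427 (leaf 427 4))))))))))))))))))))))))))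
theorem a6p256 : a6e256.Valid :=
  pos_of_chk [] forall_nil a6c256 a6e256 (by decide +kernel)

def a6e257 : Pos := ⟨1013065324669708823118083041892616929415520017993522418302185286931166371076861745752609627469415681017976212257595516613224301977887961359694344494830177207001557067778079326208, 2961193261800612669693452936466938198800816718001430802027998032434934070494852215758782500681699976382764352298792534164334359206216771950929734428406790568642280433189665451255200721851809077748298921763236716978681392660480, 9⟩
def a6c257 : Cert := (move 621 (branch (move 492 (branch (move 589 (leaf 492 4)) (move 587 (branch (move 619 (leaf 491 5)) (move 460 (branch (move 555 (leaf 459 5)) (move 459 (branch (move 427 (leaf 427 7)) (move 491 (leaf 459 7)))))))))) (branch (move 620 (branch (move 653 (leaf 524 4)) (move 619 (branch (move 651 (leaf 523 5)) (move 587 (branch (move 492 (leaf 491 5)) (move 586 (branch (move 585 (leaf 585 0)) (move 622 (leaf 586 3)))))))))) (branch (move 589 (branch (move 492 (leaf 492 4)) (move 653 (branch (move 620 (leaf 524 4)) (move 685 (leaf 556 7)))))) (move 620 (branch (move 653 (leaf 524 4)) (move 587 (branch (move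 622 (branch (move 623 (leaf 587 3)) (move 586 (branch (move 585 (leaf 585 0)) (move 589 (leaf 586 0)))))) (branch (move 651 (branch (move 619 (leaf 523 5)) (move 652 (branch (move 683 (leaf 555 5)) (move 684 (branch (move 555 (leaf 555 7)) (move 716 (branch (move 589 (leaf 588 6)) (move 717 (branch (move 685 (leaf 588 4)) (move 749 (leaf 620 4)))))))))))) (move 619 (branch (move 651 (leaf 523 5)) (move 586 (branch (move 585 (leaf 585 0)) (move 622 (leaf 586 3)))))))))))))))
theorem a6p257 : a6e257.Valid :=
  pos_of_chk [] forall_nil a6c257 a6e257 (by decide +kernel)

def a6e258 : Pos := ⟨1013065324669708823447593329578886195734651256349429292731118181338045030727795991793515700272503171519859075009345335252134524924679042545476199918816576110005110425751602069504, 200658260544682922059811223262845591114597959235549062540759733478836730317815328243515979042266458907595115765526036423397279142591966250824720989061942993564101209100760940705974300492662752598802810535936, 8⟩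
def a6c258 : Cert := (move 620 (branch (move 651 (branch (move 619 (leaf 523 5)) (move 652 (branch (move 683 (leaf 555 5)) (move 653 (branch (move 621 (leaf 524 4)) (move 685 (leaf 556 4)))))))) (branch (move 652 (branch (move 557 (leaf 524 6)) (move 651 (branch (move 619 (leaf 523 5)) (move 683 (leaf 555 5)))))) (branch (move 652 (branch (move 557 (leaf 524 6)) (move 653 (branch (move 621 (leaf 524 4)) (move 685 (leaf 556 4)))))) (move 619 (branch (move 651 (leaf 523 5)) (move 589 (branch (move 590 (branch (move 591 (leaf 587 1)) (move 618 (branch (move 587 (leaf 586 1)) (move 617 (leaf 585 2)))))) (branch (move 621 (branch (move 653 (leaf 524 4)) (move 557 (branch (move 494 (leaf 493 6)) (move 622 (branch (move 654 (leaf 525 4)) (move 587 (branch (move 586 (leaf 586 0)) (move 623 (leaf 587 3)))))))))) (move 621 (branch (move 653 (leaf 524 4)) (move 590 (branch (move 591 (leaf 587 1)) (move 618 (leaf 586 2)))))))))))))))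
theorem a6p258 : a6e258.Valid :=
  pos_of_chk [] forall_nil a6c258 a6e258 (by decide +kernel)

def a6e259 : Pos := ⟨1013065324669708823227919804454706684855230430778824709778496251733459257627173161099578318403778177851937166508178789492861042960151655088288296302825643508002741520435920240640, 861820666390607080058105575816176228292801997186588460896220046098113957281199160043833900485542924515266523881683279592901361715785978495330728232242363036871300394464434166609483807604372856506455828081372634808320, 7⟩
def a6c259 : Cert := (move 492 (branch (move 587 (branch (move 619 (leaf 491 5)) (move 460 (branch (move 555 (leaf 459 5)) (move 459 (branch (move 427 (leaf 427 7)) (move 491 (leaf 459 7)))))))) (branch (move 459 (branch (move 491 (leaf 459 7)) (move 460 (branch (move 427 (leaf 427 7)) (move 428 (branch (move 557 (leaf 428 4)) (move 429 (branch (move 397 (leaf 396 6)) (move 461 (leaf 428 6)))))))))) (move 620 (branch (move 652 (branch (move 557 (leaf 524 6)) (move 685 (branch (move 653 (leaf 556 4)) (move 684 (branch (move 717 (leaf 588 4)) (move 683 (branch (move 651 (leaf 555 5)) (move 715 (leaf 587 5)))))))))) (branch (move 619 (branch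 (move 587 (leaf 491 5)) (move 651 (leaf 523 5)))) (move 557 (branch (move 652 (leaf 524 6)) (move 587 (branch (move 619 (leaf 491 5)) (move 558 (branch (move 559 (leaf 555 1)) (move 586 (branch (move 555 (leaf 554 1)) (move 585 (leaf 553 2))))))))))))))))
theorem a6p259 : a6e259.Valid :=
  pos_of_chk [] forall_nil a6c259 a6e259 (by decide +kernel)

def a6e260 : Pos := ⟨1013065324669708823227919804454706684855230430778824709778496251733459257627173161099578318403778177851937166508178789492861042960151655088288296302825643508002741520435920240640, 200658260469931894927932302249364994154839591659420939117994786164662406820021076705823623812012432790671436665103097031644053851869088733256600879003271703098701358342872525096766566543980093719166465343488, 6⟩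
def a6c260 : Cert := (move 620 (branch (move 652 (branch (move 557 (leaf 524 6)) (move 651 (branch (move 619 (leaf 523 5)) (move 683 (leaf 555 5)))))) (branch (move 652 (branch (move 557 (leaf 524 6)) (move 653 (branch (move 621 (leaf 524 4)) (move 685 (leaf 556 4)))))) (move 621 (branch (move 653 (leaf 524 4)) (move 589 (branch (move 492 (leaf 492 4)) (move 619 (branch (move 651 (leaf 523 5)) (move 590 (branch (move 591 (leaf 587 1)) (move 618 (leaf 586 2)))))))))))))
theorem a6p260 : a6e260.Valid :=
  pos_of_chk [] forall_nil a6c260 a6e260 (by decide +kernel)

def a6e261 : Pos := ⟨1013065324669708823447593329591672877796745560529168314984350990526391288720151713627434807179128694162064834989358109050282588038549693655349481446196331018387475242366166630400, 12781304674275346750105284106262668020037492734605303897804294152062454749235376484952855928933067098791068229214184364411380434431561927323430420197826707641515045692821405773005810827264, 9⟩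
def a6c261 : Cert := (move 555 (branch (move 589 (branch (move 621 (leaf 492 4)) (move 587 (branch (move 619 (leaf 491 5)) (move 590 (branch (move 591 (leaf 555 3)) (move 558 (branch (move 559 (leaf 555 2)) (move 586 (branch (move 557 (leaf 554 1)) (move 585 (branch (move 584 (leaf 552 2)) (move 617 (branch (move 616 (leaf 584 1)) (move 618 (leaf 585 1)))))))))))))))) (branch (move 554 (branch (move 553 (leaf 521 2)) (move 557 (leaf 522 2)))) (move 589 (branch (move 621 (leaf 492 4)) (move 554 (branch (move 553 (leaf 553 0)) (move 590 (branch (move 587 (leaf 554 3)) (move 591 (leaf 555 3)))))))))))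
theorem a6p261 : a6e261.Valid :=
  pos_of_chk [] forall_nil a6c261 a6e261 (by decide +kernel)

def a6e262 : Pos := ⟨1013065324669708823447593329578886195734651256349429292731118181338045030727795991793515700272503171519859075009345335252134524924679042545476199918816576110005110425751602069504, 160526608454434094427636979850484698660193389050651609817657447398415017968456633292999604178205461297234117708033540781944298406567656920282264783637479489285244433179283435138659531208127441517657618120704, 10⟩
def a6c262 : Cert := (move 621 (branch (move 589 (branch (move 492 (leaf 492 4)) (move 653 (branch (move 620 (leaf 524 4)) (move 685 (leaf 556 7)))))) (branch (move 589 (branch (move 492 (leaf 492 4)) (move 557 (branch (move 494 (leaf 493 6)) (move 620 (branch (move 652 (leaf 524 5)) (move 555 (branch (move 554 (leaf 522 2)) (move 590 (branch (move 591 (leaf 555 3)) (move 622 (branch (move 654 (leaf 525 4)) (move 587 (branch (move 586 (leaf 586 0)) (move 623 (leaf 587 0)))))))))))))))) (branch (move 653 (branch (move 620 (leaf 524 4)) (move 589 (branch (move 557 (leaf 524 7)) (move 685 (leaf 556 7)))))) (branch (move 589 (branch (move 492 (leaf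 492 4)) (move 557 (branch (move 494 (leaf 493 6)) (move 653 (leaf 524 7)))))) (move 620 (branch (move 653 (leaf 524 4)) (move 557 (branch (move 652 (leaf 524 6)) (move 558 (branch (move 559 (branch (move 560 (leaf 524 3)) (move 591 (branch (move 592 (leaf 556 0)) (move 555 (branch (move 590 (leaf 555 0)) (move 554 (leaf 522 2)))))))) (branch (move 555 (branch (move 554 (leaf 522 2)) (move 587 (branch (move 586 (leaf 554 1)) (move 492 (branch (move 460 (leaf 459 5)) (move 590 (branch (move 591 (leaf 555 0)) (move 622 (branch (move 623 (leaf 587 3)) (move 654 (leaf 525 7)))))))))))) (move 559 (branch (move 587 (leaf 555 1)) (move 560 (leaf 524 3))))))))))))))))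
theorem a6p262 : a6e262.Valid :=
  pos_of_chk [] forall_nil a6c262 a6e262 (by decide +kernel)

def a6e263 : Pos := ⟨1013065324669708823447593329578886195734651256349429292731118181338045030727795991793515700272503171519859075009345335252134524924679042545476199918816576110005110425751602069504, 2175541219084010698567407705570493827895749493801028763852614898742231533308478159501379815056599610885038948639370330222337241742966482190446891222445610562710537253732150389524083507200, 5⟩
def a6c263 : Cert := (move 492 (branch (move 587 (branch (move 619 (leaf 491 5)) (move 460 (branch (move 555 (leaf 459 5)) (move 459 (branch (move 427 (leaf 427 7)) (move 491 (leaf 459 7)))))))) (branch (move 461 (branch (move 493 (leaf 460 6)) (move 460 (branch (move 429 (leaf 428 6)) (move 587 (branch (move 555 (leaf 459 5)) (move 619 (leaf 491 5)))))))) (move 493 (branch (move 461 (leaf 460 6)) (move 491 (branch (move 490 (leaf 490 0)) (move 459 (leaf 459 7)))))))))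
theorem a6p263 : a6e263.Valid :=
  pos_of_chk [] forall_nil a6c263 a6e263 (by decide +kernel)

def a6e264 : Pos := ⟨3039195973301508514919883647256738815190680462504249109031095210077546205035153537503238354510823275751039526359927775280678166979484286918160038481876195300863409600465658183680, 149502054435625598322377938635400573000373978587534403904214585279920771140690882293925015567330501890257578541972339306992623581909714670899776437427167008000523583805133385555818003023539210289152, 10⟩
def a6c264 : Cert := (move 590 (branch (move 587 (branch (move 622 (branch (move 623 (leaf 587 0)) (move 586 (branch (move 621 (leaf 586 0)) (move 554 (branch (move 553 (leaf 553 3)) (move 555 (leaf 554 3)))))))) (branch (move 558 (branch (move 559 (leaf 555 2)) (move 494 (branch (move 621 (leaf 493 5)) (move 493 (branch (move 461 (leaf 461 7)) (move 495 (branch (move 496 (leaf 492 1)) (move 463 (leaf 462 6)))))))))) (move 558 (branch (move 559 (leaf 555 2)) (move 622 (branch (move 623 (leaf 587 0)) (move 493 (leaf 493 7))))))))) (branch (move 591 (branch (move 620 (branch (move 619 (leaf 587 1)) (move 592 (branch (move 621 (leaf 588 1)) (move 560 (branch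 (move 559 (leaf 556 2)) (move 561 (leaf 557 2)))))))) (move 623 (branch (move 624 (leaf 588 0)) (move 558 (branch (move 494 (leaf 494 4)) (move 622 (branch (move 655 (leaf 526 4)) (move 493 (leaf 493 7)))))))))) (branch (move 587 (branch (move 619 (branch (move 618 (leaf 586 1)) (move 620 (branch (move 591 (leaf 587 1)) (move 554 (branch (move 555 (leaf 554 3)) (move 586 (branch (move 553 (leaf 553 3)) (move 621 (branch (move 585 (leaf 585 0)) (move 622 (leaf 586 0)))))))))))) (branch (move 558 (branch (move 559 (leaf 555 2)) (move 494 (branch (move 621 (leaf 493 5)) (move 493 (branch (move 461 (leaf 461 7)) (move 495 (branch (move 496 (leaf 492 1)) (move 463 (leaf 462 6)))))))))) (move 558 (branch (move 559 (leaf 555 2)) (move 493 (branch (move 622 (leaf 493 7)) (move 461 (branch (move 429 (leaf 429 4)) (move 494 (leaf 461 7))))))))))) (branch (move 587 (branch (move 619 (branch (move 618 (leaf 586 1)) (move 591 (branch (move 620 (leaf 587 1)) (move 554 (branch (move 555 (leaf 554 3)) (move 586 (branch (move 553 (leaf 553 3)) (move 560 (branch (move 559 (leaf 556 2)) (move 592 (branch (move 561 (leaf 557 2)) (move 624 (branch (move 623 (leaf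 588 0)) (move 625 (leaf 589 0)))))))))))))))) (branch (move 619 (branch (move 618 (leaf 586 1)) (move 591 (branch (move 620 (leaf 587 1)) (move 623 (branch (move 622 (leaf 587 0)) (move 624 (leaf 588 0)))))))) (move 558 (branch (move 559 (leaf 555 2)) (move 493 (branch (move 622 (leaf 493 7)) (move 461 (branch (move 429 (leaf 429 4)) (move 494 (leaf 461 7))))))))))) (branch (move 587 (branch (move 622 (branch (move 623 (leaf 587 0)) (move 586 (branch (move 621 (leaf 586 0)) (move 554 (branch (move 553 (leaf 553 3)) (move 555 (leaf 554 3)))))))) (branch (move 619 (branch (move 618 (leaf 586 1)) (move 591 (branch (move 620 (leaf 587 1)) (move 623 (branch (move 622 (leaf 587 0)) (move 624 (leaf 588 0)))))))) (move 619 (branch (move 618 (leaf 586 1)) (move 554 (branch (move 555 (leaf 554 3)) (move 586 (branch (move 553 (leaf 553 3)) (move 620 (branch (move 591 (leaf 587 1)) (move 585 (branch (move 584 (leaf 584 0)) (move 621 (leaf 585 0))))))))))))))) (move 591 (branch (move 620 (branch (move 619 (leaf 587 1)) (move 592 (branch (move 621 (leaf 588 1)) (move 560 (branch (move 559 (leaf 556 2)) (move 561 (leaf 557 2)))))))) (branch (move 620 (branch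 (move 619 (leaf 587 1)) (move 592 (branch (move 621 (leaf 588 1)) (move 624 (branch (move 623 (leaf 588 0)) (move 625 (leaf 589 0)))))))) (move 559 (branch (move 560 (leaf 556 2)) (move 558 (branch (move 587 (leaf 555 2)) (move 623 (branch (move 624 (leaf 588 0)) (move 494 (leaf 494 4)))))))))))))))))
theorem a6p264 : a6e264.Valid :=
  pos_of_chk [] forall_nil a6c264 a6e264 (by decide +kernel)

def a6e265 : Pos := ⟨3545728635518426600291364141337662116343643020714972937008007972147774619127240847753655925613980292970872217563367373568941169131821585346094741679540740455252474685523750813696, 40131652090248827758627576771017506772411029782122054749474421812380193906623881310374795144422260337359344467620499782210848011016880743208751689080323311609987787310788723916810750992985777424486243500032, 9⟩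
def a6c265 : Cert := (move 554 (branch (move 590 (branch (move 555 (leaf 554 3)) (move 619 (branch (move 618 (leaf 586 1)) (move 591 (branch (move 620 (leaf 587 1)) (move 623 (branch (move 622 (leaf 587 0)) (move 624 (leaf 588 0)))))))))) (branch (move 586 (branch (move 553 (leaf 553 3)) (move 618 (branch (move 617 (leaf 585 1)) (move 619 (branch (move 590 (leaf 586 1)) (move 651 (branch (move 522 (leaf 522 4)) (move 683 (leaf 554 7)))))))))) (branch (move 555 (branch (move 590 (leaf 554 3)) (move 553 (branch (move 552 (leaf 552 0)) (move 586 (leaf 553 3)))))) (move 586 (branch (move 553 (leaf 553 3)) (move 619 (branch (move 651 (branch (move 683 (leaf 554 7)) (move 522 (branch (move 490 (leaf 490 4)) (move 555 (leaf 522 7)))))) (branch (move 617 (branch (move 618 (leaf 585 1)) (move 585 (branch (move 616 (leaf 584 1)) (move 584 (branch (move 620 (leaf 584 0)) (move 583 (branch (move 555 (leaf 551 2)) (move 551 (branch (move 550 (leaf 550 3)) (move 552 (leaf 551 3)))))))))))) (move 618 (branch (move 617 (leaf 585 1)) (move 651 (branch (move 522 (leaf 522 4)) (move 683 (leaf 554 7)))))))))))))))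
theorem a6p265 : a6e265.Valid :=
  pos_of_chk [] forall_nil a6c265 a6e265 (by decide +kernel)

def a6e266 : Pos := ⟨3039195973301508514919883647256738815190680462504249109031095210077546205035153537503238354510823275751039526359927775280678166979484286918160038481876195300863409600465658183680, 40131652183687611755466937728772785587805530730504446193338818906768256134584127228024774541151345884729291518364513747544106625726473228558759746226549091453503915359126600141020244754519472355594553262080, 10⟩
def a6c266 : Cert := (move 587 (branch (move 621 (branch (move 586 (branch (move 622 (leaf 586 0)) (move 585 (branch (move 620 (leaf 585 0)) (move 617 (branch (move 616 (leaf 584 1)) (move 618 (leaf 585 1)))))))) (move 557 (branch (move 494 (leaf 493 6)) (move 492 (leaf 492 7)))))) (branch (move 590 (branch (move 619 (branch (move 618 (leaf 586 1)) (move 591 (branch (move 620 (leaf 587 1)) (move 560 (branch (move 559 (leaf 556 2)) (move 592 (branch (move 561 (leaf 557 2)) (move 624 (branch (move 623 (leaf 588 0)) (move 625 (leaf 589 0)))))))))))) (branch (move 622 (branch (move 623 (leaf 587 0)) (move 557 (branch (move 493 (leaf 493 4)) (move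 621 (branch (move 654 (leaf 525 4)) (move 494 (leaf 493 6)))))))) (move 619 (branch (move 618 (leaf 586 1)) (move 620 (branch (move 591 (leaf 587 1)) (move 557 (branch (move 493 (leaf 492 5)) (move 621 (branch (move 652 (leaf 524 5)) (move 494 (leaf 493 6))))))))))))) (branch (move 621 (branch (move 586 (branch (move 622 (leaf 586 0)) (move 554 (branch (move 553 (leaf 553 3)) (move 618 (branch (move 617 (leaf 585 1)) (move 590 (branch (move 619 (leaf 586 1)) (move 555 (leaf 554 3)))))))))) (move 557 (branch (move 494 (leaf 493 6)) (move 492 (leaf 492 7)))))) (branch (move 621 (branch (move 590 (branch (move 554 (branch (move 555 (leaf 554 3)) (move 586 (branch (move 553 (leaf 553 3)) (move 585 (branch (move 620 (leaf 585 0)) (move 617 (branch (move 616 (leaf 584 1)) (move 618 (leaf 585 1)))))))))) (branch (move 554 (branch (move 555 (leaf 554 3)) (move 586 (branch (move 553 (leaf 553 3)) (move 620 (branch (move 585 (leaf 585 0)) (move 591 (branch (move 619 (leaf 587 1)) (move 592 (leaf 588 1)))))))))) (branch (move 554 (branch (move 555 (leaf 554 3)) (move 586 (branch (move 553 (leaf 553 3)) (move 618 (branch (move 617 (leaf 585 1)) (move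 619 (leaf 586 1)))))))) (move 619 (branch (move 618 (leaf 586 1)) (move 591 (branch (move 620 (leaf 587 1)) (move 560 (branch (move 559 (leaf 556 2)) (move 592 (branch (move 561 (leaf 557 2)) (move 624 (branch (move 623 (leaf 588 0)) (move 625 (leaf 589 0)))))))))))))))) (move 557 (branch (move 494 (leaf 493 6)) (move 492 (leaf 492 7)))))) (branch (move 621 (branch (move 622 (branch (move 586 (leaf 586 0)) (move 623 (branch (move 590 (leaf 587 0)) (move 620 (leaf 587 3)))))) (move 557 (branch (move 494 (leaf 493 6)) (move 492 (leaf 492 7)))))) (ref 0)))))))
theorem a6p266 : a6e266.Valid :=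
  pos_of_chk [a6e265] (forall_cons a6p265 forall_nil) a6c266 a6e266 (by decide +kernel)

def a6e267 : Pos := ⟨3039195973301508514919883647256738815190680462504249109031095210077546205035153537503238354510823275751039526359927775280678166979484286918160038481876195300863409600465658183680, 160526608360995311065511769459816174523077716334486288343424183573277843854392368617155508443815433813771842103032372486410586332261631458642434040672225305441080996812430621475229909042382947897146513293312, 9⟩
def a6c267 : Cert := (move 621 (branch (move 557 (branch (move 492 (leaf 492 7)) (move 558 (branch (move 653 (leaf 525 6)) (move 559 (branch (move 560 (leaf 556 1)) (move 587 (branch (move 586 (leaf 554 2)) (move 590 (leaf 555 2)))))))))) (branch (move 557 (branch (move 494 (leaf 493 6)) (move 492 (leaf 492 7)))) (move 590 (branch (move 558 (branch (move 494 (leaf 493 5)) (move 559 (branch (move 587 (leaf 555 2)) (move 560 (branch (move 561 (leaf 557 1)) (move 591 (leaf 556 2)))))))) (branch (move 558 (branch (move 494 (leaf 493 5)) (move 653 (branch (move 622 (leaf 525 5)) (move 685 (leaf 557 6)))))) (move 591 (branch (move 560 (branch (move 559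 (leaf 556 2)) (move 592 (branch (move 561 (leaf 557 2)) (move 593 (branch (move 622 (leaf 589 1)) (move 625 (branch (move 624 (leaf 589 0)) (move 626 (leaf 590 0)))))))))) (branch (move 560 (branch (move 559 (leaf 556 2)) (move 592 (branch (move 561 (leaf 557 2)) (move 622 (branch (move 593 (leaf 589 1)) (move 587 (branch (move 586 (leaf 586 0)) (move 623 (leaf 587 0)))))))))) (branch (move 560 (branch (move 559 (leaf 556 2)) (move 592 (branch (move 561 (leaf 557 2)) (move 624 (branch (move 623 (leaf 588 0)) (move 625 (leaf 589 0)))))))) (move 623 (branch (move 624 (leaf 588 0)) (move 587 (branch (move 622 (leaf 587 0)) (move 554 (branch (move 555 (leaf 554 3)) (move 586 (branch (move 553 (leaf 553 3)) (move 618 (branch (move 617 (leaf 585 1)) (move 619 (leaf 586 1))))))))))))))))))))))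
theorem a6p267 : a6e267.Valid :=
  pos_of_chk [] forall_nil a6c267 a6e267 (by decide +kernel)

def a6e268 : Pos := ⟨3545728635518426600620874429023931382662774259070879811436940866554653278778175093794561998417067783472755080315117192207851392078612666531876597103527139358256028043497273556992, 80263304180497655265368271803822942506214368435055372067755656614251332454200894385988949648532897202098609447566468223783246739804129197871655202874239072158065488367311243172228791129602847418381026459648, 12⟩
def a6c268 : Cert := (move 586 (branch (move 617 (branch (move 618 (leaf 585 1)) (move 585 (branch (move 616 (leaf 584 1)) (move 553 (branch (move 552 (leaf 552 3)) (move 554 (leaf 553 3)))))))) (branch (move 557 (branch (move 558 (leaf 554 2)) (move 493 (branch (move 620 (leaf 492 5)) (move 492 (branch (move 460 (leaf 460 7)) (move 490 (branch (move 491 (leaf 490 0)) (move 554 (branch (move 553 (leaf 553 3)) (move 522 (branch (move 619 (leaf 490 4)) (move 458 (branch (move 555 (leaf 458 4)) (move 457 (branch (move 425 (leaf 425 7)) (move 489 (leaf 457 7)))))))))))))))))) (branch (move 557 (branch (move 558 (leaf 554 2)) (move 493 (branch (move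 620 (leaf 492 5)) (move 492 (branch (move 460 (leaf 460 7)) (move 617 (branch (move 618 (leaf 585 1)) (move 585 (branch (move 616 (leaf 584 1)) (move 490 (branch (move 491 (leaf 490 0)) (move 553 (branch (move 552 (leaf 552 3)) (move 521 (branch (move 522 (leaf 489 6)) (move 489 (branch (move 458 (leaf 457 6)) (move 488 (branch (move 456 (leaf 456 7)) (move 520 (leaf 488 7)))))))))))))))))))))) (move 585 (branch (move 557 (branch (move 558 (leaf 554 2)) (move 620 (branch (move 493 (leaf 492 5)) (move 584 (branch (move 619 (leaf 584 0)) (move 652 (branch (move 684 (leaf 556 6)) (move 615 (branch (move 616 (leaf 583 1)) (move 583 (branch (move 614 (leaf 582 1)) (move 551 (branch (move 550 (leaf 550 3)) (move 552 (leaf 551 3)))))))))))))))) (branch (move 617 (branch (move 616 (leaf 584 1)) (move 618 (leaf 585 1)))) (move 584 (branch (move 557 (branch (move 558 (leaf 554 2)) (move 620 (branch (move 619 (leaf 584 0)) (move 493 (leaf 492 5)))))) (branch (move 557 (branch (move 558 (leaf 554 2)) (move 493 (branch (move 620 (leaf 492 5)) (move 492 (branch (move 460 (leaf 460 7)) (move 490 (branch (move 491 (leaf 490 0)) (move 617 (branch (move 618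 (leaf 585 1)) (move 554 (branch (move 522 (leaf 489 5)) (move 583 (branch (move 555 (leaf 551 2)) (move 551 (branch (move 550 (leaf 550 3)) (move 552 (leaf 551 3)))))))))))))))))) (move 618 (branch (move 617 (leaf 585 1)) (move 583 (branch (move 619 (leaf 583 0)) (move 551 (branch (move 550 (leaf 550 3)) (move 552 (leaf 551 3))))))))))))))))))
theorem a6p268 : a6e268.Valid :=
  pos_of_chk [] forall_nil a6c268 a6e268 (by decide +kernel)

def a6e269 : Pos := ⟨3039195973301508514864965265975693937470825256111597963292939727676399761759997829829754009043642027334059049234636138840859796488352440053863062577878462150362817374136737726464, 120394956270746483154800264358052019702414282491306626736712578905571511829152633999940918336860029345661748476327562860058261257986407573945995465629271245758078526495209451878018511600695645407074607693824, 14⟩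
def a6c269 : Cert := (move 587 (branch (ref 0) (branch (move 590 (branch (move 619 (branch (move 618 (leaf 586 1)) (move 591 (branch (move 620 (leaf 587 1)) (move 623 (branch (move 622 (leaf 587 0)) (move 624 (leaf 588 0)))))))) (branch (move 558 (branch (move 559 (leaf 555 2)) (move 493 (branch (move 622 (leaf 493 7)) (move 461 (branch (move 429 (leaf 429 4)) (move 494 (leaf 461 7)))))))) (move 619 (branch (move 618 (leaf 586 1)) (move 591 (branch (move 620 (leaf 587 1)) (move 560 (branch (move 559 (leaf 556 2)) (move 592 (branch (move 561 (leaf 557 2)) (move 624 (branch (move 623 (leaf 588 0)) (move 625 (leaf 589 0))))))))))))))) (branch (move 554 (branch (move 555 (branch (move 590 (leaf 554 3)) (move 553 (branch (move 552 (leaf 552 0)) (move 586 (leaf 553 3)))))) (branch (move 586 (branch (move 553 (leaf 553 3)) (move 557 (branch (move 558 (leaf 554 2)) (move 493 (branch (move 620 (leaf 492 5)) (move 492 (branch (move 460 (leaf 460 7)) (move 490 (branch (move 491 (leaf 490 0)) (move 522 (branch (move 619 (leaf 490 4)) (move 458 (branch (move 555 (leaf 458 4)) (move 457 (branch (move 425 (leaf 425 7)) (move 489 (leaf 457 7))))))))))))))))))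 (branch (move 590 (branch (move 555 (leaf 554 3)) (move 558 (branch (move 559 (leaf 555 2)) (move 622 (branch (move 623 (leaf 587 0)) (move 493 (leaf 493 7)))))))) (move 586 (branch (move 553 (leaf 553 3)) (move 558 (branch (move 557 (leaf 554 2)) (move 590 (branch (move 559 (leaf 555 2)) (move 622 (branch (move 623 (leaf 587 0)) (move 493 (leaf 493 7)))))))))))))) (branch (move 586 (branch (move 554 (branch (move 553 (leaf 553 3)) (move 590 (branch (move 555 (leaf 554 3)) (move 558 (branch (move 559 (leaf 555 2)) (move 622 (branch (move 623 (leaf 587 0)) (move 493 (leaf 493 7)))))))))) (branch (move 617 (branch (move 618 (leaf 585 1)) (move 585 (branch (move 616 (leaf 584 1)) (move 553 (branch (move 552 (leaf 552 3)) (move 554 (leaf 553 3)))))))) (branch (move 557 (branch (move 558 (leaf 554 2)) (move 493 (branch (move 620 (leaf 492 5)) (move 492 (branch (move 460 (leaf 460 7)) (move 590 (branch (move 622 (leaf 493 4)) (move 490 (branch (move 491 (leaf 490 0)) (move 617 (branch (move 618 (leaf 585 1)) (move 585 (branch (move 616 (leaf 584 1)) (move 553 (branch (move 552 (leaf 552 3)) (move 521 (branch (move 522 (leaf 489 6)) (move 489 (branch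 (move 458 (leaf 457 6)) (move 488 (branch (move 456 (leaf 456 7)) (move 520 (leaf 488 7)))))))))))))))))))))))) (move 557 (branch (move 558 (leaf 554 2)) (move 493 (branch (move 620 (leaf 492 5)) (move 492 (branch (move 460 (leaf 460 7)) (move 590 (branch (move 622 (leaf 493 4)) (move 490 (branch (move 491 (leaf 490 0)) (move 617 (branch (move 618 (leaf 585 1)) (move 585 (branch (move 616 (leaf 584 1)) (move 554 (branch (move 555 (leaf 554 3)) (move 522 (leaf 489 5)))))))))))))))))))))) (branch (move 590 (branch (move 558 (branch (move 559 (leaf 555 2)) (move 493 (branch (move 622 (leaf 493 7)) (move 461 (branch (move 429 (leaf 429 4)) (move 494 (leaf 461 7)))))))) (move 618 (branch (move 619 (leaf 586 1)) (move 586 (branch (move 617 (leaf 585 1)) (move 554 (branch (move 553 (leaf 553 3)) (move 555 (leaf 554 3)))))))))) (ref 1)))))))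
theorem a6p269 : a6e269.Valid :=
  pos_of_chk [a6e265, a6e268] (forall_cons a6p265 (forall_cons a6p268 forall_nil)) a6c269 a6e269 (by decide +kernel)

def a6e270 : Pos := ⟨3039195973301508514919883647256738815190680462504249109031095210077546205035153537503238354510823275751039526359927775280678166979484286918160038481876195300863409600465658183680, 517092399786206265643363232281840200173332275969002159899572385407105887659196987961496070144074976403860543494129291324427940040305768759058114233201159437495669028689763635094643271598099429149621008395099210514432, 11⟩
def a6c270 : Cert := (move 621 (branch (move 587 (branch (move 586 (branch (move 622 (leaf 586 0)) (move 585 (branch (move 620 (leaf 585 0)) (move 617 (branch (move 616 (leaf 584 1)) (move 618 (leaf 585 1)))))))) (branch (move 590 (branch (move 619 (branch (move 618 (leaf 586 1)) (move 620 (branch (move 591 (leaf 587 1)) (move 586 (branch (move 585 (leaf 585 0)) (move 554 (branch (move 553 (leaf 553 3)) (move 555 (leaf 554 3)))))))))) (move 558 (branch (move 559 (leaf 555 2)) (move 494 (leaf 493 5)))))) (branch (move 622 (branch (move 586 (leaf 586 0)) (move 590 (branch (move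 623 (leaf 587 0)) (move 558 (branch (move 559 (leaf 555 2)) (move 494 (leaf 493 5)))))))) (move 590 (branch (move 558 (branch (move 559 (leaf 555 2)) (move 494 (leaf 493 5)))) (move 622 (branch (move 623 (leaf 587 0)) (move 619 (branch (move 618 (leaf 586 1)) (move 620 (branch (move 591 (leaf 587 1)) (move 651 (branch (move 650 (leaf 618 1)) (move 683 (branch (move 715 (leaf 587 6)) (move 684 (branch (move 716 (leaf 587 4)) (move 555 (branch (move 554 (leaf 554 3)) (move 652 (leaf 555 4)))))))))))))))))))))) (branch (move 557 (branch (move 494 (leaf 493 6)) (move 620 (branch (move 652 (leaf 524 5)) (move 556 (branch (move 653 (leaf 524 4)) (move 619 (branch (move 651 (leaf 523 5)) (move 590 (branch (move 591 (leaf 587 1)) (move 618 (leaf 586 2)))))))))))) (branch (move 557 (branch (move 494 (leaf 493 6)) (move 653 (branch (move 558 (leaf 525 6)) (move 556 (leaf 524 7)))))) (move 622 (branch (move 623 (branch (move 624 (leaf 588 3)) (move 587 (branch (move 586 (leaf 586 0)) (move 620 (leaf 587 3)))))) (move 557 (branch (move 654 (leaf 525 4)) (move 653 (branch (move 558 (leaf 525 6)) (move 556 (leaf 524 7))))))))))))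
theorem a6p270 : a6e270.Valid :=
  pos_of_chk [] forall_nil a6c270 a6e270 (by decide +kernel)

def a6e271 : Pos := ⟨7091457271036853200967156951642638376726272486178503894183104321103574341180571649221702269498229324860607775003776202216610931701566098742268314687065612964009094955349944827904, 64722351253439770574074309444907636811012021519166927645557397317910592798825026297432666698924429212540807329791953534644403625976451249279060033663612443327746904738960535916253106143232, 6⟩
def a6c271 : Cert := (move 587 (branch (move 558 (branch (move 559 (leaf 555 2)) (move 494 (branch (move 621 (leaf 493 5)) (move 493 (branch (move 461 (leaf 461 7)) (move 495 (branch (move 496 (leaf 492 1)) (move 463 (leaf 462 6)))))))))) (branch (move 558 (branch (move 559 (leaf 555 2)) (move 622 (branch (move 623 (leaf 587 0)) (move 493 (leaf 493 7)))))) (move 622 (branch (move 623 (leaf 587 0)) (move 586 (branch (move 621 (leaf 586 0)) (move 618 (branch (move 617 (leaf 585 1)) (move 619 (leaf 586 1)))))))))))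
theorem a6p271 : a6e271.Valid :=
  pos_of_chk [] forall_nil a6c271 a6e271 (by decide +kernel)

def a6e272 : Pos := ⟨3039195973301508514919883647256738815190680462504249109031095210077546205035153537503238354510823275751039526359927775280678166979484286918160038481876195300863409600465658183680, 149502054292583763200718808005486467589811120691549224624900483520167877094590820526490580776083336594814155855125842398523820667933234310969594105128149775964740164260874617708299559140926018289664, 7⟩
def a6c272 : Cert := (move 590 (branch (ref 0) (branch (move 587 (branch (move 558 (branch (move 559 (leaf 555 2)) (move 494 (branch (move 621 (leaf 493 5)) (move 493 (branch (move 461 (leaf 461 7)) (move 495 (branch (move 496 (leaf 492 1)) (move 463 (leaf 462 6)))))))))) (move 618 (branch (move 619 (leaf 586 1)) (move 586 (branch (move 617 (leaf 585 1)) (move 554 (branch (move 553 (leaf 553 3)) (move 555 (leaf 554 3)))))))))) (branch (move 587 (branch (move 555 (branch (move 554 (leaf 554 3)) (move 591 (branch (move 556 (leaf 555 3)) (move 623 (branch (move 622 (leaf 587 0)) (move 624 (leaf 588 0)))))))) (branch (move 622 (branch (move 623 (leaf 587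 0)) (move 586 (branch (move 621 (leaf 586 0)) (move 618 (branch (move 617 (leaf 585 1)) (move 619 (leaf 586 1)))))))) (move 618 (branch (move 619 (leaf 586 1)) (move 586 (branch (move 617 (leaf 585 1)) (move 554 (branch (move 553 (leaf 553 3)) (move 555 (leaf 554 3))))))))))) (move 591 (branch (move 623 (branch (move 624 (leaf 588 0)) (move 558 (branch (move 494 (leaf 494 4)) (move 622 (branch (move 655 (leaf 526 4)) (move 493 (leaf 493 7)))))))) (move 556 (branch (move 555 (leaf 555 3)) (move 592 (branch (move 557 (leaf 556 3)) (move 560 (branch (move 559 (leaf 556 2)) (move 561 (leaf 557 2))))))))))))))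
theorem a6p272 : a6e272.Valid :=
  pos_of_chk [a6e271] (forall_cons a6p271 forall_nil) a6c272 a6e272 (by decide +kernel)

def a6e273 : Pos := ⟨1013065324433836171896246995063789034422884450667121716455090654564532136962444481644006397017120251196255402038003561812711784618443381006105900379281486469290566923023514861568, 517092399786206265792865286579318931105023273897380769974560875547490252902019212490691172384694883977652956599630903953763259821031101638244108881596750870032099685989045462042212442898158048456830037798688026263552, 12⟩
def a6c273 : Cert := (move 589 (branch (ref 0) (branch (move 557 (branch (move 621 (branch (move 494 (leaf 493 6)) (move 620 (branch (move 493 (leaf 492 5)) (move 652 (leaf 524 5)))))) (branch (move 621 (branch (move 494 (leaf 493 6)) (move 556 (branch (move 653 (leaf 524 7)) (move 555 (branch (move 554 (leaf 522 2)) (move 622 (branch (move 654 (leaf 525 4)) (move 590 (branch (move 591 (leaf 555 3)) (move 493 (leaf 493 4)))))))))))) (branch (move 620 (branch (move 493 (leaf 492 5)) (move 652 (branch (move 556 (leaf 524 6)) (move 684 (leaf 556 6)))))) (move 621 (branch (move 494 (leaf 493 6)) (move 620 (branch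 (move 652 (leaf 524 5)) (move 556 (branch (move 653 (leaf 524 4)) (move 619 (branch (move 651 (leaf 523 5)) (move 590 (branch (move 591 (leaf 587 1)) (move 618 (leaf 586 2)))))))))))))))) (branch (ref 1) (branch (move 557 (branch (move 621 (branch (move 494 (leaf 493 6)) (move 620 (branch (move 493 (leaf 492 5)) (move 652 (leaf 524 5)))))) (branch (move 620 (branch (move 493 (leaf 492 5)) (move 652 (branch (move 556 (leaf 524 6)) (move 684 (leaf 556 6)))))) (move 621 (branch (move 494 (leaf 493 6)) (move 653 (branch (move 558 (leaf 525 6)) (move 556 (leaf 524 7))))))))) (branch (move 493 (branch (move 557 (branch (move 620 (leaf 492 5)) (move 590 (branch (move 622 (leaf 493 4)) (move 558 (branch (move 461 (leaf 461 4)) (move 559 (branch (move 560 (leaf 556 1)) (move 587 (leaf 555 2)))))))))) (branch (move 620 (branch (move 557 (leaf 492 5)) (move 556 (leaf 492 6)))) (branch (move 590 (branch (move 558 (branch (move 622 (leaf 493 7)) (move 559 (branch (move 587 (leaf 555 2)) (move 560 (branch (move 561 (leaf 557 1)) (move 591 (leaf 556 2)))))))) (branch (move 620 (branch (move 556 (leaf 492 6)) (move 619 (branch (move 591 (leaf 587 1)) (move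 618 (branch (move 587 (leaf 586 1)) (move 617 (leaf 585 2)))))))) (branch (move 556 (branch (move 620 (leaf 492 6)) (move 591 (branch (move 555 (leaf 555 3)) (move 558 (branch (move 622 (leaf 493 7)) (move 461 (branch (move 429 (leaf 429 4)) (move 559 (branch (move 560 (leaf 556 2)) (move 623 (branch (move 624 (leaf 588 0)) (move 655 (leaf 526 7)))))))))))))) (move 558 (branch (move 622 (leaf 493 7)) (move 587 (branch (move 559 (leaf 555 2)) (move 556 (branch (move 620 (leaf 492 6)) (move 461 (branch (move 429 (leaf 429 4)) (move 555 (branch (move 554 (leaf 554 3)) (move 619 (branch (move 618 (leaf 586 1)) (move 651 (leaf 523 6)))))))))))))))))) (move 461 (branch (move 429 (branch (move 558 (leaf 429 4)) (move 556 (leaf 428 5)))) (branch (move 557 (branch (move 556 (leaf 460 5)) (move 590 (branch (move 558 (leaf 461 4)) (move 622 (leaf 493 4)))))) (branch (move 558 (branch (move 429 (leaf 429 4)) (move 590 (branch (move 557 (leaf 461 4)) (move 622 (leaf 493 7)))))) (move 556 (branch (move 429 (leaf 428 5)) (move 557 (leaf 460 5)))))))))))) (ref 2)))))))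
theorem a6p273 : a6e273.Valid :=
  pos_of_chk [a6e264, a6e270, a6e272] (forall_cons a6p264 (forall_cons a6p270 (forall_cons a6p272 forall_nil))) a6c273 a6e273 (by decide +kernel)

def a6e274 : Pos := ⟨1013065324669708823447593329578886195734651256349429292731118181338045030727795991793515700272503171519859075009345335252134524924679042545476199918816576110005110425751602069504, 321053216721990621053042865005587459688219041500561245792033192712292006451125656644669732706007772815459284077624375546178719889161486046208299697443098119874521961195381425785000004743833668260302789017600, 8⟩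
def a6c274 : Cert := (move 492 (branch (move 493 (branch (move 461 (leaf 460 6)) (move 491 (branch (move 490 (leaf 490 0)) (move 459 (leaf 459 7)))))) (branch (move 459 (branch (move 491 (leaf 459 7)) (move 460 (branch (move 427 (leaf 427 7)) (move 428 (branch (move 557 (leaf 428 4)) (move 429 (branch (move 397 (leaf 396 6)) (move 461 (leaf 428 6)))))))))) (move 589 (branch (move 621 (leaf 492 4)) (move 557 (branch (move 460 (leaf 460 4)) (move 555 (branch (move 554 (leaf 522 2)) (move 590 (branch (move 591 (leaf 555 3)) (move 622 (branch (move 493 (leaf 493 4)) (move 654 (branch (move 558 (leaf 525 7)) (move 686 (leaf 557 7)))))))))))))))))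
theorem a6p274 : a6e274.Valid :=
  pos_of_chk [] forall_nil a6c274 a6e274 (by decide +kernel)

def a6e275 : Pos := ⟨3039195973773253818022576316286933137814214073868864261583150263624571992565856557802256961021589116398246872302611322159523647591955609996900637560946374582292496605921832599552, 19579870980240518378620881576223638803633992140784828004305666159677795910092002715840412871553558099479533591762895945332830824474040135777032697830323199051560639980954899541287023673344, 6⟩
def a6c275 : Cert := (move 556 (branch (move 554 (branch (move 555 (leaf 522 2)) (move 492 (branch (move 460 (leaf 460 4)) (move 587 (branch (move 619 (leaf 491 5)) (move 586 (branch (move 585 (leaf 553 2)) (move 553 (leaf 553 3)))))))))) (branch (move 492 (branch (move 460 (leaf 460 4)) (move 493 (branch (move 461 (leaf 460 5)) (move 491 (branch (move 490 (leaf 490 0)) (move 459 (leaf 459 7)))))))) (move 555 (branch (move 554 (leaf 522 2)) (move 590 (branch (move 591 (leaf 555 3)) (move 493 (branch (move 622 (leaf 493 4)) (move 461 (leaf 460 5)))))))))))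
theorem a6p275 : a6e275.Valid :=
  pos_of_chk [] forall_nil a6c275 a6e275 (by decide +kernel)

def a6e276 : Pos := ⟨3039195973301508514919883647256738815190680462504249109031095210077546205035153537503238354510823275751039526359927775280678166979484286918160038481876195300863409600465658183680, 149502054423116236315367490179439665232145810543785525561594899343469815350580644603821502685699438534976984034940419647499282497293101636325595334279128164785298486304194509001476456032643712024576, 8⟩
def a6c276 : Cert := (move 590 (branch (move 591 (branch (move 623 (branch (move 624 (leaf 588 0)) (move 587 (branch (move 622 (leaf 587 0)) (move 554 (branch (move 555 (leaf 554 3)) (move 586 (branch (move 553 (leaf 553 3)) (move 618 (branch (move 617 (leaf 585 1)) (move 619 (leaf 586 1)))))))))))) (branch (move 560 (branch (move 559 (leaf 556 2)) (move 592 (branch (move 561 (leaf 557 2)) (move 624 (branch (move 623 (leaf 588 0)) (move 625 (leaf 589 0)))))))) (move 556 (branch (move 555 (leaf 555 3)) (move 592 (branch (move 557 (leaf 556 3)) (move 560 (branch (move 559 (leaf 556 2)) (move 561 (leaf 557 2))))))))))) (branch (move 591 (branch (move 623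 (branch (move 624 (leaf 588 0)) (move 558 (branch (move 494 (leaf 494 4)) (move 622 (branch (move 655 (leaf 526 4)) (move 493 (leaf 493 7)))))))) (move 556 (branch (move 555 (leaf 555 3)) (move 592 (branch (move 557 (leaf 556 3)) (move 560 (branch (move 559 (leaf 556 2)) (move 561 (leaf 557 2)))))))))) (branch (move 587 (branch (move 555 (branch (move 554 (leaf 554 3)) (move 556 (branch (move 591 (leaf 555 3)) (move 619 (branch (move 618 (leaf 586 1)) (move 492 (leaf 491 5)))))))) (branch (move 558 (branch (move 559 (leaf 555 2)) (move 586 (branch (move 557 (leaf 554 2)) (move 554 (branch (move 553 (leaf 553 3)) (move 555 (leaf 554 3)))))))) (move 558 (branch (move 559 (leaf 555 2)) (move 586 (branch (move 557 (leaf 554 2)) (move 618 (branch (move 617 (leaf 585 1)) (move 619 (leaf 586 1))))))))))) (branch (move 587 (branch (move 558 (branch (move 559 (leaf 555 2)) (move 493 (branch (move 622 (leaf 493 7)) (move 461 (branch (move 429 (leaf 429 4)) (move 494 (leaf 461 7)))))))) (move 618 (branch (move 619 (leaf 586 1)) (move 586 (branch (move 617 (leaf 585 1)) (move 554 (branch (move 553 (leaf 553 3)) (move 555 (leaf 554 3)))))))))) (branch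 (move 493 (branch (move 558 (branch (move 622 (leaf 493 7)) (move 559 (branch (move 587 (leaf 555 2)) (move 560 (branch (move 561 (leaf 557 1)) (move 591 (leaf 556 2)))))))) (branch (move 557 (branch (move 622 (leaf 493 4)) (move 492 (branch (move 460 (leaf 460 7)) (move 556 (branch (move 461 (leaf 460 5)) (move 491 (branch (move 490 (leaf 490 0)) (move 459 (leaf 459 7)))))))))) (move 558 (branch (move 559 (branch (move 587 (leaf 555 2)) (move 560 (branch (move 561 (leaf 557 1)) (move 591 (leaf 556 2)))))) (move 461 (branch (move 429 (leaf 429 4)) (move 494 (leaf 461 7))))))))) (move 587 (branch (move 618 (branch (move 619 (leaf 586 1)) (move 586 (branch (move 617 (leaf 585 1)) (move 554 (branch (move 553 (leaf 553 3)) (move 555 (leaf 554 3)))))))) (move 622 (branch (move 623 (leaf 587 0)) (move 493 (branch (move 557 (leaf 493 4)) (move 558 (leaf 493 7))))))))))))))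
theorem a6p276 : a6e276.Valid :=
  pos_of_chk [] forall_nil a6c276 a6e276 (by decide +kernel)

def a6e277 : Pos := ⟨1013065324433836171896246995063789034422884450667121716455090654564532136962444481644006397017120251196255402038003561812711784618443381006105900379281486469290566923023514861568, 160526608585248392302877908848619805101116210051652216209517551329679124210518888350896705867121245177673117895108644093663194512191536558899570147521166372538900313456544972702189797144058830846948638982144, 10⟩
def a6c277 : Cert := (move 589 (branch (move 590 (branch (move 591 (branch (move 560 (branch (move 559 (leaf 556 2)) (move 592 (branch (move 561 (leaf 557 2)) (move 624 (branch (move 623 (leaf 588 0)) (move 625 (leaf 589 0)))))))) (move 556 (branch (move 555 (leaf 555 3)) (move 621 (branch (move 492 (leaf 492 4)) (move 558 (branch (move 494 (leaf 493 5)) (move 653 (branch (move 622 (leaf 525 5)) (move 685 (leaf 557 6)))))))))))) (branch (move 587 (branch (move 558 (branch (move 559 (leaf 555 2)) (move 494 (branch (move 621 (leaf 493 5)) (move 493 (branch (move 461 (leaf 461 7)) (move 495 (branch (move 496 (leaf 492 1)) (move 463 (leaf 462 6))))))))))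 (move 555 (branch (move 554 (leaf 554 3)) (move 556 (branch (move 591 (leaf 555 3)) (move 619 (branch (move 618 (leaf 586 1)) (move 492 (leaf 491 5)))))))))) (branch (move 587 (branch (move 558 (branch (move 559 (leaf 555 2)) (move 493 (branch (move 622 (leaf 493 7)) (move 461 (branch (move 429 (leaf 429 4)) (move 494 (leaf 461 7)))))))) (move 555 (branch (move 554 (leaf 554 3)) (move 556 (branch (move 591 (leaf 555 3)) (move 619 (branch (move 618 (leaf 586 1)) (move 492 (leaf 491 5)))))))))) (branch (ref 0) (move 587 (branch (move 555 (branch (move 554 (leaf 554 3)) (move 591 (branch (move 556 (leaf 555 3)) (move 623 (branch (move 622 (leaf 587 0)) (move 624 (leaf 588 0)))))))) (branch (move 555 (branch (move 554 (leaf 554 3)) (move 556 (branch (move 591 (leaf 555 3)) (move 619 (branch (move 618 (leaf 586 1)) (move 492 (leaf 491 5)))))))) (move 622 (branch (move 623 (leaf 587 0)) (move 586 (branch (move 621 (leaf 586 0)) (move 618 (branch (move 617 (leaf 585 1)) (move 619 (leaf 586 1)))))))))))))))) (branch (move 557 (branch (move 621 (branch (move 494 (leaf 493 6)) (move 492 (leaf 492 7)))) (branch (move 621 (branch (move 494 (leaf 493 6))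 (move 556 (branch (move 653 (leaf 524 7)) (move 555 (branch (move 554 (leaf 522 2)) (move 622 (branch (move 654 (leaf 525 4)) (move 590 (branch (move 591 (leaf 555 3)) (move 493 (leaf 493 4)))))))))))) (ref 1)))) (branch (ref 2) (branch (ref 3) (branch (move 557 (branch (move 621 (branch (move 494 (leaf 493 6)) (move 492 (leaf 492 7)))) (branch (move 621 (branch (move 494 (leaf 493 6)) (move 653 (branch (move 558 (leaf 525 6)) (move 556 (leaf 524 7)))))) (branch (move 492 (branch (move 621 (leaf 492 7)) (move 460 (branch (move 428 (leaf 428 4)) (move 556 (leaf 460 4)))))) (move 493 (branch (move 460 (branch (move 492 (leaf 460 7)) (move 461 (branch (move 428 (leaf 428 7)) (move 429 (branch (move 558 (leaf 429 4)) (move 397 (branch (move 494 (leaf 397 4)) (move 398 (branch (move 366 (leaf 365 6)) (move 430 (leaf 397 6)))))))))))) (branch (move 461 (branch (move 556 (leaf 460 5)) (move 429 (branch (move 558 (leaf 429 4)) (move 428 (branch (move 396 (leaf 396 7)) (move 460 (leaf 428 7)))))))) (branch (move 492 (branch (move 460 (leaf 460 7)) (move 491 (branch (move 490 (leaf 490 0)) (move 556 (branch (move 459 (leaf 459 7)) (move 587 (branch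 (move 619 (leaf 491 5)) (move 586 (branch (move 585 (leaf 553 2)) (move 558 (leaf 554 2)))))))))))) (branch (move 461 (branch (move 556 (leaf 460 5)) (move 429 (branch (move 558 (leaf 429 4)) (move 397 (branch (move 494 (leaf 397 4)) (move 492 (leaf 396 5)))))))) (move 492 (branch (move 460 (leaf 460 7)) (move 556 (branch (move 461 (leaf 460 5)) (move 491 (branch (move 490 (leaf 490 0)) (move 459 (leaf 459 7))))))))))))))))) (branch (move 621 (branch (move 557 (branch (move 494 (leaf 493 6)) (move 492 (leaf 492 7)))) (branch (move 590 (branch (move 558 (branch (move 494 (leaf 493 5)) (move 653 (branch (move 622 (leaf 525 5)) (move 685 (leaf 557 6)))))) (move 556 (branch (move 492 (leaf 492 4)) (move 591 (branch (move 555 (leaf 555 3)) (move 624 (branch (move 623 (leaf 588 0)) (move 592 (branch (move 625 (leaf 589 0)) (move 560 (branch (move 559 (leaf 556 2)) (move 561 (leaf 557 2)))))))))))))) (branch (move 557 (branch (move 494 (leaf 493 6)) (move 653 (branch (move 558 (leaf 525 6)) (move 556 (leaf 524 7)))))) (move 492 (branch (move 556 (leaf 492 4)) (move 557 (leaf 492 7)))))))) (branch (move 557 (branch (ref 1) (branch (move 621 (branch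 (move 492 (leaf 492 7)) (move 558 (branch (move 653 (leaf 525 6)) (move 559 (branch (move 560 (leaf 556 1)) (move 587 (branch (move 586 (leaf 554 2)) (move 590 (leaf 555 2)))))))))) (branch (move 492 (branch (move 621 (leaf 492 7)) (move 460 (branch (move 428 (leaf 428 4)) (move 556 (leaf 460 4)))))) (move 558 (branch (move 621 (branch (move 653 (leaf 525 6)) (move 622 (branch (move 654 (leaf 525 4)) (move 590 (branch (move 493 (leaf 493 4)) (move 587 (branch (move 586 (leaf 586 0)) (move 623 (leaf 587 0)))))))))) (branch (move 559 (branch (move 560 (leaf 556 1)) (move 621 (branch (move 653 (leaf 525 6)) (move 622 (branch (move 654 (leaf 525 4)) (move 590 (branch (move 493 (leaf 493 4)) (move 623 (branch (move 624 (leaf 588 3)) (move 655 (leaf 526 4)))))))))))) (move 559 (branch (move 560 (leaf 556 1)) (move 587 (branch (move 556 (leaf 555 1)) (move 586 (leaf 554 2))))))))))))) (ref 4)))))))))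
theorem a6p277 : a6e277.Valid :=
  pos_of_chk [a6e271, a6e275, a6e267, a6e272, a6e276] (forall_cons a6p271 (forall_cons a6p275 (forall_cons a6p267 (forall_cons a6p272 (forall_cons a6p276 forall_nil))))) a6c277 a6e277 (by decide +kernel)

def a6e278 : Pos := ⟨384428668967314144038986444748558020167088376808025102926089953714390418270268738918863339877041455078728593437922928050078831327984132053504145584302443200512, 2961193261972976803236443256428375570150087153889725587939790723421693531411748160924727011149182869873274666585262025995369936763639210564649974229985945533404183513613607376065562817946736176647965624204414585307505216192512, 16⟩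
def a6c278 : Cert := (move 588 (branch (move 556 (branch (ref 0) (branch (ref 1) (branch (ref 2) (branch (ref 3) (branch (move 492 (branch (move 587 (branch (move 619 (leaf 491 5)) (move 460 (branch (move 555 (leaf 459 5)) (move 459 (branch (move 427 (leaf 427 7)) (move 491 (leaf 459 7)))))))) (branch (move 459 (branch (move 491 (leaf 459 7)) (move 460 (branch (move 427 (leaf 427 7)) (move 428 (branch (move 557 (leaf 428 4)) (move 429 (branch (move 397 (leaf 396 6)) (move 461 (leaf 428 6)))))))))) (ref 4)))) (ref 5))))))) (branch (move 556 (branch (ref 6) (branch (move 620 (branch (move 493 (leaf 492 6)) (move 651 (branch (move 619 (leaf 523 5)) (move 652 (branch (move 683 (leaf 555 5)) (move 653 (branch (move 621 (leaf 524 4)) (move 685 (leaf 556 4)))))))))) (branch (move 493 (branch (move 620 (leaf 492 6)) (move 461 (branch (move 429 (leaf 428 5)) (move 492 (leaf 460 6)))))) (ref 0))))) (branch (move 589 (branch (ref 7) (branch (ref 8) (branch (move 557 (branch (move 621 (branch (move 494 (leaf 493 6)) (move 492 (leaf 492 7)))) (branch (move 621 (branch (move 494 (leaf 493 6)) (move 620 (branch (move 493 (leaf 492 5)) (move 652 (leaf 524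 5)))))) (branch (move 621 (branch (move 492 (leaf 492 7)) (move 620 (branch (move 493 (leaf 492 5)) (move 652 (leaf 524 5)))))) (move 493 (branch (move 620 (leaf 492 5)) (move 460 (branch (move 492 (leaf 460 7)) (move 461 (branch (move 428 (leaf 428 7)) (move 429 (branch (move 558 (leaf 429 4)) (move 397 (branch (move 494 (leaf 397 4)) (move 398 (branch (move 366 (leaf 365 6)) (move 430 (leaf 397 6)))))))))))))))))) (branch (ref 9) (branch (move 557 (branch (move 621 (branch (move 492 (leaf 492 7)) (move 620 (branch (move 493 (leaf 492 5)) (move 652 (leaf 524 5)))))) (branch (move 493 (branch (move 620 (leaf 492 5)) (move 590 (branch (move 622 (leaf 493 4)) (move 558 (branch (move 461 (leaf 461 4)) (move 559 (branch (move 560 (leaf 556 1)) (move 587 (leaf 555 2)))))))))) (move 621 (branch (move 492 (leaf 492 7)) (move 558 (branch (move 653 (leaf 525 6)) (move 559 (branch (move 560 (leaf 556 1)) (move 587 (branch (move 586 (leaf 554 2)) (move 590 (leaf 555 2))))))))))))) (ref 10))))))) (branch (ref 11) (branch (move 556 (branch (ref 6) (branch (ref 2) (branch (move 493 (branch (move 620 (leaf 492 6)) (move 461 (branch (move 429 (leaf 428 5))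 (move 557 (leaf 460 5)))))) (move 620 (branch (move 493 (leaf 492 6)) (move 652 (branch (move 557 (leaf 524 6)) (move 651 (branch (move 619 (leaf 523 5)) (move 683 (leaf 555 5)))))))))))) (branch (move 556 (branch (ref 0) (branch (ref 5) (branch (move 492 (branch (move 587 (branch (move 619 (leaf 491 5)) (move 460 (branch (move 555 (leaf 459 5)) (move 459 (branch (move 427 (leaf 427 7)) (move 491 (leaf 459 7)))))))) (branch (ref 4) (move 589 (branch (move 621 (leaf 492 4)) (move 460 (branch (move 557 (leaf 460 4)) (move 459 (branch (move 427 (leaf 427 7)) (move 491 (leaf 459 7))))))))))) (move 620 (branch (move 493 (leaf 492 6)) (move 652 (branch (move 557 (leaf 524 6)) (move 651 (branch (move 619 (leaf 523 5)) (move 683 (leaf 555 5)))))))))))) (branch (move 556 (branch (move 620 (branch (move 493 (leaf 492 6)) (move 651 (branch (move 619 (leaf 523 5)) (move 652 (branch (move 683 (leaf 555 5)) (move 653 (branch (move 621 (leaf 524 4)) (move 685 (leaf 556 4)))))))))) (branch (move 493 (branch (move 620 (leaf 492 6)) (move 461 (branch (move 429 (leaf 428 5)) (move 492 (leaf 460 6)))))) (branch (ref 3) (ref 12))))) (branch (move 556 (branch (move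 493 (branch (move 620 (leaf 492 6)) (move 461 (branch (move 429 (leaf 428 5)) (move 492 (leaf 460 6)))))) (branch (ref 1) (move 492 (branch (move 493 (branch (move 461 (leaf 460 6)) (move 491 (branch (move 490 (leaf 490 0)) (move 459 (leaf 459 7)))))) (branch (move 589 (branch (move 621 (leaf 492 4)) (move 460 (branch (move 557 (leaf 460 4)) (move 459 (branch (move 427 (leaf 427 7)) (move 491 (leaf 459 7)))))))) (move 493 (branch (move 461 (leaf 460 6)) (move 589 (branch (move 621 (leaf 492 4)) (move 557 (branch (move 460 (leaf 460 4)) (move 587 (branch (move 619 (leaf 491 5)) (move 558 (branch (move 559 (leaf 555 1)) (move 586 (leaf 554 2)))))))))))))))))) (branch (move 556 (branch (move 493 (branch (move 620 (leaf 492 6)) (move 461 (branch (move 429 (leaf 428 5)) (move 492 (leaf 460 6)))))) (branch (ref 5) (branch (ref 12) (move 493 (branch (move 620 (leaf 492 6)) (move 461 (branch (move 429 (leaf 428 5)) (move 557 (leaf 460 5)))))))))) (branch (move 556 (branch (move 493 (branch (move 620 (leaf 492 6)) (move 461 (branch (move 429 (leaf 428 5)) (move 492 (leaf 460 6)))))) (branch (move 492 (branch (move 587 (branch (move 619 (leaf 491 5))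 (move 460 (branch (move 555 (leaf 459 5)) (move 459 (branch (move 427 (leaf 427 7)) (move 491 (leaf 459 7)))))))) (branch (ref 4) (move 589 (branch (move 621 (leaf 492 4)) (move 460 (branch (move 557 (leaf 460 4)) (move 459 (branch (move 427 (leaf 427 7)) (move 491 (leaf 459 7))))))))))) (move 493 (branch (move 620 (leaf 492 6)) (move 461 (branch (move 429 (leaf 428 5)) (move 557 (leaf 460 5))))))))) (ref 13))))))))))))
theorem a6p278 : a6e278.Valid :=
  pos_of_chk [a6e257, a6e258, a6e259, a6e260, a6e261, a6e262, a6e263, a6e264, a6e266, a6e267, a6e269, a6e273, a6e274, a6e277] (forall_cons a6p257 (forall_cons a6p258 (forall_cons a6p259 (forall_cons a6p260 (forall_cons a6p261 (forall_cons a6p262 (forall_cons a6p263 (forall_cons a6p264 (forall_cons a6p266 (forall_cons a6p267 (forall_cons a6p269 (forall_cons a6p273 (forall_cons a6p274 (forall_cons a6p277 forall_nil)))))))))))))) a6c278 a6e278 (by decide +kernel)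

def a6e279 : Pos := ⟨329510287686269266319131238355906874428932894406878659650934246040906072803087490501882862751749818638910222946791081185781855423986398903003553357973522743296, 2961193261972976803256509082468828044771825549133866703775009634502681237369848016660584317742872294571440215189832821150963039898700667396570541562678278528349505848046061326998964430948867359833365091597068269436527435579392, 17⟩
def a6c279 : Cert := (move 524 (branch (move 523 (branch (move 558 (branch (move 559 (leaf 523 0)) (move 522 (branch (move 557 (leaf 522 0)) (move 490 (branch (move 489 (leaf 489 3)) (move 491 (leaf 490 3)))))))) (branch (move 558 (branch (move 559 (leaf 523 0)) (move 522 (branch (move 557 (leaf 522 0)) (move 554 (branch (move 553 (leaf 521 1)) (move 555 (leaf 522 1)))))))) (ref 0)))) (branch (move 523 (branch (move 494 (branch (move 495 (leaf 491 2)) (move 522 (branch (move 493 (leaf 490 2)) (move 554 (branch (move 553 (leaf 521 1)) (move 555 (leaf 522 1)))))))) (branch (move 494 (branch (move 495 (leaf 491 2)) (move 522 (branch (move 493 (leaf 490 2)) (move 490 (branch (move 489 (leaf 489 3)) (move 491 (leaf 490 3)))))))) (ref 0))))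 (branch (move 523 (branch (move 494 (branch (move 495 (leaf 491 2)) (move 522 (branch (move 493 (leaf 490 2)) (move 554 (branch (move 553 (leaf 521 1)) (move 555 (leaf 522 1)))))))) (branch (move 494 (branch (move 495 (leaf 491 2)) (move 522 (branch (move 493 (leaf 490 2)) (move 490 (branch (move 489 (leaf 489 3)) (move 491 (leaf 490 3)))))))) (branch (move 554 (branch (move 555 (leaf 522 1)) (move 522 (branch (move 553 (leaf 521 1)) (move 490 (branch (move 489 (leaf 489 3)) (move 491 (leaf 490 3)))))))) (ref 1))))) (branch (move 523 (branch (move 494 (branch (move 495 (leaf 491 2)) (move 522 (branch (move 493 (leaf 490 2)) (move 554 (branch (move 553 (leaf 521 1)) (move 555 (leaf 522 1)))))))) (branch (move 558 (branch (move 559 (leaf 523 0)) (move 522 (branch (move 557 (leaf 522 0)) (move 554 (branch (move 553 (leaf 521 1)) (move 555 (leaf 522 1)))))))) (branch (ref 2) (move 558 (branch (move 559 (leaf 523 0)) (move 522 (branch (move 557 (leaf 522 0)) (move 494 (branch (move 493 (leaf 490 2)) (move 495 (leaf 491 2)))))))))))) (branch (move 523 (branch (move 494 (branch (move 495 (leaf 491 2)) (move 522 (branch (move 493 (leaf 490 2)) (move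 490 (branch (move 489 (leaf 489 3)) (move 491 (leaf 490 3)))))))) (branch (move 558 (branch (move 559 (leaf 523 0)) (move 522 (branch (move 557 (leaf 522 0)) (move 490 (branch (move 489 (leaf 489 3)) (move 491 (leaf 490 3)))))))) (branch (move 558 (branch (move 559 (leaf 523 0)) (move 522 (branch (move 557 (leaf 522 0)) (move 494 (branch (move 493 (leaf 490 2)) (move 495 (leaf 491 2)))))))) (ref 3))))) (branch (move 523 (branch (ref 0) (branch (ref 2) (branch (ref 1) (branch (ref 3) (ref 4)))))) (branch (move 523 (branch (move 494 (branch (move 495 (leaf 491 2)) (move 522 (branch (move 493 (leaf 490 2)) (move 554 (branch (move 553 (leaf 521 1)) (move 555 (leaf 522 1)))))))) (branch (move 494 (branch (move 495 (leaf 491 2)) (move 522 (branch (move 493 (leaf 490 2)) (move 490 (branch (move 489 (leaf 489 3)) (move 491 (leaf 490 3)))))))) (branch (move 554 (branch (move 555 (leaf 522 1)) (move 522 (branch (move 553 (leaf 521 1)) (move 490 (branch (move 489 (leaf 489 3)) (move 491 (leaf 490 3)))))))) (ref 4))))) (ref 5)))))))))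
theorem a6p279 : a6e279.Valid :=
  pos_of_chk [a6e252, a6e253, a6e254, a6e255, a6e256, a6e278] (forall_cons a6p252 (forall_cons a6p253 (forall_cons a6p254 (forall_cons a6p255 (forall_cons a6p256 (forall_cons a6p278 forall_nil)))))) a6c279 a6e279 (by decide +kernel)

def a6e280 : Pos := ⟨411887859607836582898914047944883593036166118008598324563667807551132591003859363127353578439687273298637778683488851482227319279982998628754441697466903429120, 23359695969840033786236836066171418552950058354602301564381483775224551990462541070219052276009310777073547543146383797084051237652219068007482376143048308259346204732964428709176988249785098043392, 11⟩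
def a6c280 : Cert := (move 491 (branch (move 490 (leaf 490 3)) (move 459 (branch (move 427 (branch (move 556 (leaf 427 4)) (move 395 (branch (move 492 (leaf 395 4)) (move 396 (branch (move 428 (leaf 395 6)) (move 364 (leaf 363 6)))))))) (branch (move 555 (branch (move 554 (leaf 522 1)) (move 460 (branch (move 428 (leaf 427 6)) (move 587 (branch (move 492 (leaf 459 6)) (move 426 (branch (move 458 (leaf 426 7)) (move 427 (branch (move 394 (leaf 394 7)) (move 620 (branch (move 588 (leaf 491 4)) (move 619 (branch (move 652 (leaf 523 4)) (move 618 (branch (move 650 (leaf 522 5)) (move 586 (leaf 490 5)))))))))))))))))) (branch (move 555 (branch (move 554 (leaf 522 1)) (move 556 (branch (move 588 (leaf 459 4)) (move 427 (leaf 427 4)))))) (move 555 (branch (move 554 (leaf 522 1)) (move 588 (branch (move 556 (leaf 459 4)) (move 587 (branch (move 620 (leaf 491 4)) (move 492 (branch (move 619 (leaf 491 6)) (move 460 (leaf 459 6))))))))))))))))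
theorem a6p280 : a6e280.Valid :=
  pos_of_chk [] forall_nil a6c280 a6e280 (by decide +kernel)

def a6e281 : Pos := ⟨411887859607836582898914047944883593036166118008598324563667807551132591003859363127353578439687273298637778683488851482227319279982998628754441697466903429120, 4671939200059522170682597172053497104803550403259592891319218684249130735641238612269515479089682746365835094829103602921972008188871579869725481333724103661641768138151705528987703679825699930112, 15⟩
def a6c281 : Cert := (move 491 (branch (move 490 (leaf 490 3)) (move 459 (branch (move 555 (branch (move 554 (leaf 522 1)) (move 556 (branch (move 588 (leaf 459 4)) (move 427 (leaf 427 4)))))) (branch (move 427 (branch (move 556 (leaf 427 4)) (move 428 (branch (move 396 (leaf 395 6)) (move 394 (branch (move 426 (leaf 394 7)) (move 395 (branch (move 362 (leaf 362 7)) (move 429 (branch (move 430 (leaf 394 3)) (move 558 (branch (move 559 (leaf 523 0)) (move 494 (branch (move 495 (leaf 491 2)) (move 461 (branch (move 462 (leaf 429 7)) (move 493 (leaf 429 4)))))))))))))))))) (branch (move 555 (branch (move 554 (leaf 522 1)) (move 494 (branch (move 495 (leaf 491 2)) (move 558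 (branch (move 559 (leaf 523 0)) (move 428 (branch (move 460 (leaf 427 6)) (move 427 (branch (move 396 (leaf 395 6)) (move 426 (branch (move 458 (leaf 426 7)) (move 394 (leaf 394 7)))))))))))))) (move 555 (branch (move 554 (leaf 522 1)) (move 588 (branch (move 556 (leaf 459 4)) (move 587 (branch (move 620 (leaf 491 4)) (move 618 (branch (move 586 (leaf 490 5)) (move 619 (branch (move 650 (leaf 522 5)) (move 494 (branch (move 495 (leaf 491 2)) (move 558 (branch (move 559 (leaf 523 0)) (move 460 (branch (move 428 (leaf 427 6)) (move 458 (branch (move 426 (leaf 426 7)) (move 461 (branch (move 493 (leaf 458 0)) (move 462 (branch (move 429 (leaf 429 7)) (move 431 (branch (move 430 (leaf 427 2)) (move 463 (leaf 430 6))))))))))))))))))))))))))))))))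
theorem a6p281 : a6e281.Valid :=
  pos_of_chk [] forall_nil a6c281 a6e281 (by decide +kernel)

def a6e282 : Pos := ⟨411887859607836582898914047944883593036166118008598324563667807551132591003859363127353578439687273298637778683488851482227319279982998628754441697466903429120, 8702164876336042797100102640898131325773753922494864583150442252490605812757819055309394721595262987056464846973912359330706089893137468702542567411915549083194784505214497985877050916864, 9⟩
def a6c282 : Cert := (move 494 (branch (move 495 (leaf 491 2)) (move 462 (branch (move 558 (branch (move 559 (leaf 523 0)) (move 429 (branch (move 461 (leaf 429 7)) (move 430 (branch (move 397 (leaf 397 7)) (move 431 (branch (move 463 (leaf 430 6)) (move 399 (leaf 398 6)))))))))) (branch (move 558 (branch (move 559 (leaf 523 0)) (move 557 (branch (move 589 (leaf 461 5)) (move 461 (branch (move 429 (leaf 429 7)) (move 491 (branch (move 490 (leaf 490 3)) (move 463 (branch (move 431 (leaf 430 6)) (move 492 (branch (move 493 (leaf 459 2)) (move 460 (leaf 459 1)))))))))))))) (move 557 (branch (move 430 (leaf 429 5)) (move 589 (branch (move 621 (leaf 493 6)) (move 493 (leaf 461 6)))))))))))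
theorem a6p282 : a6e282.Valid :=
  pos_of_chk [] forall_nil a6c282 a6e282 (by decide +kernel)

def a6e283 : Pos := ⟨411887859607836582898914047944883593036166118008598324563667807551132591003859363127353578439687273298637778683488851482227319279982998628754441697466903429120, 10877706096686385151504646375297580980808536802723094408857494993614695449083260913063806786799703604597425234875784539057280545062420053024708001655503796760927310467787064793104534994944, 13⟩
def a6c283 : Cert := (move 494 (branch (move 495 (leaf 491 2)) (move 462 (branch (move 558 (branch (move 559 (leaf 523 0)) (move 429 (branch (move 461 (leaf 429 7)) (move 430 (branch (move 397 (leaf 397 7)) (move 431 (branch (move 463 (leaf 430 6)) (move 399 (leaf 398 6)))))))))) (branch (move 557 (branch (move 430 (leaf 429 5)) (move 589 (branch (move 621 (leaf 493 6)) (move 493 (leaf 461 6)))))) (move 492 (branch (move 555 (branch (move 554 (leaf 522 1)) (move 460 (branch (move 428 (leaf 427 5)) (move 587 (branch (move 619 (leaf 491 6)) (move 556 (leaf 459 5)))))))) (branch (move 558 (branch (move 559 (leaf 523 0)) (move 557 (branch (move 589 (leaf 461 5)) (move 555 (branch (move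 554 (leaf 522 1)) (move 461 (branch (move 429 (leaf 429 7)) (move 587 (branch (move 619 (leaf 491 6)) (move 556 (branch (move 586 (leaf 554 1)) (move 493 (branch (move 588 (leaf 460 5)) (move 463 (branch (move 464 (leaf 460 1)) (move 431 (leaf 430 6)))))))))))))))))) (move 558 (branch (move 559 (leaf 523 0)) (move 557 (branch (move 589 (leaf 461 5)) (move 461 (branch (move 429 (leaf 429 7)) (move 460 (branch (move 428 (leaf 428 4)) (move 463 (branch (move 431 (leaf 430 6)) (move 464 (branch (move 493 (leaf 460 1)) (move 433 (branch (move 432 (leaf 429 2)) (move 465 (branch (move 434 (leaf 430 2)) (move 497 (branch (move 496 (leaf 461 0)) (move 498 (leaf 462 0))))))))))))))))))))))))))))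
theorem a6p283 : a6e283.Valid :=
  pos_of_chk [] forall_nil a6c283 a6e283 (by decide +kernel)

def a6e284 : Pos := ⟨411887859607836582898914047944883593036166118008598324563667807551132591003859363127353578439687273298637778683488851482227319279982998628754441697466903429120, 7614394268820168097155816434239213733072998307851176291197869140422967953753703590519816154357230769326184473873193203529351571892029825009061674120229869821063882021775199219077101912064, 15⟩
def a6c284 : Cert := (move 491 (branch (move 490 (leaf 490 3)) (move 459 (branch (move 427 (branch (move 556 (leaf 427 4)) (move 395 (branch (move 492 (leaf 395 4)) (move 396 (branch (move 428 (leaf 395 6)) (move 364 (leaf 363 6)))))))) (branch (move 555 (branch (move 554 (leaf 522 1)) (move 556 (branch (move 588 (leaf 459 4)) (move 427 (leaf 427 4)))))) (branch (move 555 (branch (move 554 (leaf 522 1)) (move 494 (branch (move 495 (leaf 491 2)) (move 558 (branch (move 559 (leaf 523 0)) (move 458 (branch (move 426 (leaf 426 7)) (move 492 (branch (move 493 (leaf 458 3)) (move 587 (branch (move 619 (leaf 491 6)) (move 427 (branch (move 395 (leaf 395 4)) (move 428 (branch (move 396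 (leaf 395 6)) (move 457 (branch (move 456 (leaf 456 0)) (move 430 (branch (move 429 (leaf 426 1)) (move 462 (branch (move 557 (leaf 429 5)) (move 431 (branch (move 463 (leaf 430 6)) (move 399 (leaf 398 6)))))))))))))))))))))))))) (move 555 (branch (move 554 (leaf 522 1)) (move 588 (branch (move 556 (leaf 459 4)) (move 587 (branch (move 620 (leaf 491 4)) (move 494 (branch (move 495 (leaf 491 2)) (move 558 (branch (move 559 (leaf 523 0)) (move 586 (branch (move 618 (leaf 490 5)) (move 589 (branch (move 557 (leaf 554 2)) (move 458 (branch (move 426 (leaf 426 7)) (move 492 (branch (move 493 (leaf 458 3)) (move 619 (leaf 491 6))))))))))))))))))))))))))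
theorem a6p284 : a6e284.Valid :=
  pos_of_chk [] forall_nil a6c284 a6e284 (by decide +kernel)

def a6e285 : Pos := ⟨54918381293831559784926641987104973815078321906601967840223944520778707148719754915030135629416888131910512148726073538707140719876754323698714771214290649088, 2175541220097076023237116528633658488465764828793026379744148771849905954482772332957098271316635621677366186627211346692958457075540139189922500539267560473816356446319502303026290360320, 9⟩
def a6c285 : Cert := (move 429 (branch (move 556 (branch (move 461 (leaf 428 6)) (move 459 (branch (move 427 (leaf 427 7)) (move 588 (branch (move 491 (leaf 459 7)) (move 587 (branch (move 619 (leaf 491 5)) (move 555 (leaf 459 5)))))))))) (branch (move 428 (branch (move 397 (leaf 396 6)) (move 427 (branch (move 395 (leaf 395 7)) (move 459 (branch (move 556 (leaf 427 7)) (move 458 (branch (move 457 (leaf 425 2)) (move 430 (leaf 426 1)))))))))) (branch (move 461 (branch (move 556 (leaf 428 6)) (move 397 (branch (move 428 (leaf 396 6)) (move 365 (leaf 364 5)))))) (move 428 (branch (move 397 (leaf 396 6)) (move 459 (branch (move 430 (branch (move 431 (leaf 427 1)) (move 458 (branch (move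 457 (leaf 425 2)) (move 461 (leaf 426 2)))))) (branch (move 395 (branch (move 427 (leaf 395 7)) (move 396 (branch (move 363 (leaf 363 7)) (move 364 (branch (move 491 (leaf 363 5)) (move 332 (branch (move 461 (leaf 332 4)) (move 333 (branch (move 365 (leaf 332 6)) (move 301 (leaf 300 6)))))))))))) (move 427 (branch (move 395 (leaf 395 7)) (move 458 (branch (move 457 (leaf 425 2)) (move 430 (leaf 426 1)))))))))))))))
theorem a6p285 : a6e285.Valid :=
  pos_of_chk [] forall_nil a6c285 a6e285 (by decide +kernel)

def a6e286 : Pos := ⟨384428668980100826104057880343011848244011216313480627491158190561684779951807245416912998381166706770820735095517154724488996143863153226702268129187813392384, 943490606205385338085962009415168519466755768359756086252504784391657109602165785447610633556715281735211672973222542875728269049359824265926679722579370921815604985856, 8⟩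
def a6c286 : Cert := (move 428 (branch (move 395 (branch (move 427 (leaf 395 7)) (move 396 (branch (move 363 (leaf 363 7)) (move 397 (branch (move 429 (leaf 396 6)) (move 365 (leaf 364 6)))))))) (branch (move 396 (branch (move 493 (leaf 396 4)) (move 395 (branch (move 427 (leaf 395 7)) (move 363 (leaf 363 7)))))) (branch (move 396 (branch (move 493 (leaf 396 4)) (move 397 (branch (move 429 (leaf 396 6)) (move 365 (leaf 364 6)))))) (move 427 (branch (move 395 (leaf 395 7)) (move 461 (branch (move 462 (branch (move 463 (leaf 427 3)) (move 426 (branch (move 459 (leaf 426 3)) (move 425 (leaf 425 0)))))) (branch (move 429 (branch (move 397 (leaf 396 6)) (move 493 (branch (move 558 (leaf 429 4)) (move 430 (branch (move 398 (leaf 397 6)) (move 459 (branch (move 458 (leaf 426 1)) (move 431 (leaf 427 1)))))))))) (move 429 (branch (move 397 (leaf 396 6)) (move 462 (branch (move 463 (leaf 427 3)) (move 426 (leaf 426 0)))))))))))))))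
theorem a6p286 : a6e286.Valid :=
  pos_of_chk [] forall_nil a6c286 a6e286 (by decide +kernel)

def a6e287 : Pos := ⟨164755143855921315224637054772407265291389286708894854390535359867747398083082251748991089880000161011547253130989767267301092527872220624699899223872131563520, 37375513554789811764696552683396895169416092057470011570988470038438889830580969963386633498002421398017416121079893334614620741051242970141026403662298018653723283806222012495932579889170832424960, 7⟩
def a6c287 : Cert := (move 556 (branch (move 459 (branch (move 427 (leaf 427 7)) (move 588 (branch (move 491 (leaf 459 7)) (move 587 (branch (move 619 (leaf 491 5)) (move 555 (leaf 459 5)))))))) (branch (move 587 (branch (move 555 (leaf 459 5)) (move 588 (branch (move 619 (leaf 491 5)) (move 620 (branch (move 493 (leaf 492 6)) (move 621 (branch (move 653 (leaf 524 4)) (move 589 (leaf 492 4)))))))))) (move 428 (branch (move 396 (branch (move 493 (leaf 396 4)) (move 365 (branch (move 397 (leaf 364 6)) (move 364 (branch (move 333 (leaf 332 6)) (move 363 (branch (move 395 (leaf 363 7)) (move 331 (leaf 331 7)))))))))) (branch (move 427 (branch (move 459 (leaf 427 7)) (move 395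 (leaf 395 7)))) (move 493 (branch (move 396 (leaf 396 4)) (move 459 (branch (move 427 (leaf 427 7)) (move 494 (branch (move 495 (leaf 459 3)) (move 458 (branch (move 491 (leaf 458 3)) (move 457 (leaf 457 0))))))))))))))))
theorem a6p287 : a6e287.Valid :=
  pos_of_chk [] forall_nil a6c287 a6e287 (by decide +kernel)

def a6e288 : Pos := ⟨164755143855921315224637054772407265291389286708894854390535359867747398083082251748991089880000161011547253130989767267301092527872220624699899223872131563520, 235872651551346334540670525477635253850392280152956700681515358022970490624563981746961764252328516821156258556075298473884470040685678746519209535738191747328474349568, 6⟩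
def a6c288 : Cert := (move 428 (branch (move 396 (branch (move 493 (leaf 396 4)) (move 395 (branch (move 427 (leaf 395 7)) (move 363 (leaf 363 7)))))) (branch (move 396 (branch (move 493 (leaf 396 4)) (move 397 (branch (move 429 (leaf 396 6)) (move 365 (leaf 364 6)))))) (move 429 (branch (move 397 (leaf 396 6)) (move 461 (branch (move 556 (leaf 428 6)) (move 427 (branch (move 395 (leaf 395 7)) (move 462 (branch (move 463 (leaf 427 3)) (move 426 (leaf 426 0)))))))))))))
theorem a6p288 : a6e288.Valid :=
  pos_of_chk [] forall_nil a6c288 a6e288 (by decide +kernel)

def a6e289 : Pos := ⟨235872651935775003495197987415824686025319424520038743086993521256509700711194083207190165740516671352508480210243475401752816263859295683398242867416811631915900600320, 190201895718123675182956547314827837950973154982664632386550716913546460946869734848634011311161868382616826459117484344396915763422838461248709853184, 9⟩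
def a6c289 : Cert := (move 491 (branch (move 461 (branch (move 429 (leaf 428 6)) (move 459 (branch (move 427 (leaf 427 7)) (move 462 (branch (move 463 (leaf 459 1)) (move 494 (branch (move 495 (leaf 459 0)) (move 458 (branch (move 493 (leaf 458 0)) (move 457 (branch (move 456 (leaf 456 0)) (move 425 (branch (move 424 (leaf 424 3)) (move 426 (leaf 425 3)))))))))))))))) (branch (move 490 (branch (move 489 (leaf 489 0)) (move 493 (leaf 490 0)))) (move 461 (branch (move 429 (leaf 428 6)) (move 490 (branch (move 489 (leaf 489 0)) (move 462 (branch (move 459 (leaf 458 1)) (move 463 (leaf 459 1)))))))))))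
theorem a6p289 : a6e289.Valid :=
  pos_of_chk [] forall_nil a6c289 a6e289 (by decide +kernel)

def a6e290 : Pos := ⟨384428668980100826104057880343011848244011216313480627491158190561684779951807245416912998381166706770820735095517154724488996143863153226702268129187813392384, 1013065325613199429268549999065151170443678678869954302387600016461986112300120152920394536837851005936565531575255773071550511414842533625335795567368819405508190738180393140224, 10⟩
def a6c290 : Cert := (move 429 (branch (move 461 (branch (move 556 (leaf 428 6)) (move 397 (branch (move 428 (leaf 396 6)) (move 365 (leaf 364 5)))))) (branch (move 461 (branch (move 556 (leaf 428 6)) (move 493 (branch (move 558 (leaf 429 4)) (move 428 (branch (move 396 (leaf 396 4)) (move 491 (branch (move 490 (leaf 490 0)) (move 462 (branch (move 463 (leaf 459 1)) (move 430 (branch (move 398 (leaf 397 6)) (move 459 (branch (move 458 (leaf 426 2)) (move 431 (leaf 427 1)))))))))))))))) (branch (move 397 (branch (move 428 (leaf 396 6)) (move 461 (branch (move 493 (leaf 396 5)) (move 365 (leaf 364 5)))))) (branch (move 461 (branch (move 556 (leaf 428 6)) (move 493 (branch (move 558 (leaf 429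 4)) (move 397 (leaf 396 5)))))) (move 428 (branch (move 397 (leaf 396 6)) (move 493 (branch (move 396 (leaf 396 4)) (move 494 (branch (move 495 (branch (move 496 (leaf 492 1)) (move 463 (branch (move 464 (leaf 460 2)) (move 491 (branch (move 462 (leaf 459 2)) (move 490 (leaf 490 0)))))))) (branch (move 491 (branch (move 490 (leaf 490 0)) (move 459 (branch (move 458 (leaf 458 3)) (move 556 (branch (move 588 (leaf 459 7)) (move 462 (branch (move 463 (leaf 459 2)) (move 430 (branch (move 431 (leaf 427 1)) (move 398 (leaf 397 5)))))))))))) (move 495 (branch (move 459 (leaf 459 3)) (move 496 (leaf 492 1))))))))))))))))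
theorem a6p290 : a6e290.Valid :=
  pos_of_chk [] forall_nil a6c290 a6e290 (by decide +kernel)

def a6e291 : Pos := ⟨384428668980100826104057880343011848244011216313480627491158190561684779951807245416912998381166706770820735095517154724488996143863153226702268129187813392384, 10877706096433118817565715513803470383485736863344918046945815796137602625108876966100909061092788318795710942383635471199836422311425663574989395421841173775808675522610102665445176770560, 5⟩
def a6c291 : Cert := (move 556 (branch (move 459 (branch (move 427 (leaf 427 7)) (move 588 (branch (move 491 (leaf 459 7)) (move 587 (branch (move 619 (leaf 491 5)) (move 555 (leaf 459 5)))))))) (branch (move 589 (branch (move 557 (leaf 460 4)) (move 588 (branch (move 621 (leaf 492 4)) (move 459 (branch (move 491 (leaf 459 7)) (move 427 (leaf 427 7)))))))) (move 557 (branch (move 589 (leaf 460 4)) (move 555 (branch (move 554 (leaf 522 2)) (move 587 (leaf 459 5)))))))))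
theorem a6p291 : a6e291.Valid :=
  pos_of_chk [] forall_nil a6c291 a6e291 (by decide +kernel)

def a6e292 : Pos := ⟨384428668967314144047917838992702437638158467759352902644227498754516182595007690486395035449378888760560829069093654743689481193481930847951418769114860093440, 8702164884440565396344754437814219287364106654647816766653669107876179628936162585449660346843847291344925597520646065782555917180308673496844817980413064216031303846965369454927871475712, 10⟩
def a6c292 : Cert := (move 462 (branch (move 459 (branch (move 430 (branch (move 431 (leaf 427 2)) (move 458 (branch (move 429 (leaf 426 2)) (move 490 (branch (move 489 (leaf 457 1)) (move 491 (leaf 458 1)))))))) (branch (move 494 (branch (move 495 (leaf 459 0)) (move 558 (branch (move 429 (leaf 429 7)) (move 557 (branch (move 589 (leaf 461 5)) (move 559 (branch (move 560 (leaf 524 3)) (move 591 (leaf 462 4)))))))))) (move 494 (branch (move 495 (leaf 459 0)) (move 430 (branch (move 431 (leaf 427 2)) (move 557 (leaf 429 5))))))))) (branch (move 463 (branch (move 428 (branch (move 427 (leaf 427 3)) (move 464 (branch (move 429 (leaf 428 3)) (move 496 (branch (move 495 (leaf 460 0))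 (move 497 (leaf 461 0)))))))) (move 431 (branch (move 432 (leaf 428 2)) (move 494 (branch (move 558 (leaf 430 6)) (move 430 (branch (move 399 (leaf 398 6)) (move 557 (leaf 429 5)))))))))) (branch (move 459 (branch (move 427 (branch (move 426 (leaf 426 3)) (move 428 (branch (move 463 (leaf 427 3)) (move 490 (branch (move 491 (leaf 458 1)) (move 458 (branch (move 489 (leaf 457 1)) (move 429 (branch (move 457 (leaf 425 2)) (move 430 (leaf 426 1)))))))))))) (branch (move 494 (branch (move 495 (leaf 459 0)) (move 558 (branch (move 429 (leaf 429 7)) (move 557 (branch (move 589 (leaf 461 5)) (move 559 (branch (move 560 (leaf 524 3)) (move 591 (leaf 462 4)))))))))) (move 494 (branch (move 495 (leaf 459 0)) (move 557 (branch (move 430 (leaf 429 5)) (move 589 (branch (move 621 (leaf 493 6)) (move 558 (leaf 461 5))))))))))) (branch (move 459 (branch (move 427 (branch (move 426 (leaf 426 3)) (move 463 (branch (move 428 (leaf 427 3)) (move 490 (branch (move 491 (leaf 458 1)) (move 458 (branch (move 489 (leaf 457 1)) (move 496 (branch (move 495 (leaf 460 0)) (move 464 (branch (move 497 (leaf 461 0)) (move 432 (branch (move 431 (leaf 428 2)) (move 433 (leaf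 429 2)))))))))))))))) (branch (move 427 (branch (move 426 (leaf 426 3)) (move 463 (branch (move 428 (leaf 427 3)) (move 431 (branch (move 430 (leaf 427 2)) (move 432 (leaf 428 2)))))))) (move 494 (branch (move 495 (leaf 459 0)) (move 557 (branch (move 430 (leaf 429 5)) (move 589 (branch (move 621 (leaf 493 6)) (move 558 (leaf 461 5))))))))))) (branch (move 459 (branch (move 430 (branch (move 431 (leaf 427 2)) (move 458 (branch (move 429 (leaf 426 2)) (move 490 (branch (move 489 (leaf 457 1)) (move 491 (leaf 458 1)))))))) (branch (move 427 (branch (move 426 (leaf 426 3)) (move 463 (branch (move 428 (leaf 427 3)) (move 431 (branch (move 430 (leaf 427 2)) (move 432 (leaf 428 2)))))))) (move 427 (branch (move 426 (leaf 426 3)) (move 490 (branch (move 491 (leaf 458 1)) (move 458 (branch (move 489 (leaf 457 1)) (move 428 (branch (move 463 (leaf 427 3)) (move 457 (branch (move 456 (leaf 424 2)) (move 429 (leaf 425 2))))))))))))))) (move 463 (branch (move 428 (branch (move 427 (leaf 427 3)) (move 464 (branch (move 429 (leaf 428 3)) (move 496 (branch (move 495 (leaf 460 0)) (move 497 (leaf 461 0)))))))) (branch (move 428 (branch (move 427 (leaf 427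 3)) (move 464 (branch (move 429 (leaf 428 3)) (move 432 (branch (move 431 (leaf 428 2)) (move 433 (leaf 429 2)))))))) (move 495 (branch (move 496 (leaf 460 0)) (move 494 (branch (move 459 (leaf 459 0)) (move 431 (branch (move 432 (leaf 428 2)) (move 558 (leaf 430 6)))))))))))))))))
theorem a6p292 : a6e292.Valid :=
  pos_of_chk [] forall_nil a6c292 a6e292 (by decide +kernel)

def a6e293 : Pos := ⟨10419959951501820382915106109882433004493802546813391712195443495453644834393672628804274903032514475879091509747431926855152048947819708416, 58968162901566178961622399949900691043647215390223033378265547443395969941890534718409803670657419033340666431942789507511724512736356807533254418922858454651703918592, 9⟩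
def a6c293 : Cert := (move 490 (branch (move 462 (branch (move 491 (leaf 458 1)) (move 427 (branch (move 426 (leaf 426 3)) (move 463 (branch (move 428 (leaf 427 3)) (move 431 (branch (move 430 (leaf 427 2)) (move 432 (leaf 428 2)))))))))) (branch (move 458 (branch (move 489 (leaf 457 1)) (move 426 (branch (move 425 (leaf 425 3)) (move 427 (branch (move 462 (leaf 426 3)) (move 395 (branch (move 522 (leaf 394 6)) (move 363 (leaf 362 5)))))))))) (branch (move 491 (branch (move 462 (leaf 458 1)) (move 489 (branch (move 488 (leaf 456 2)) (move 458 (leaf 457 1)))))) (move 458 (branch (move 489 (leaf 457 1)) (move 427 (branch (move 395 (branch (move 363 (leaf 362 5)) (move 522 (branch (move 554 (leaf 426 6)) (move 491 (leaf 394 5)))))) (branch (move 425 (branch (move 426 (leaf 425 3)) (move 457 (branch (move 424 (leaf 424 3)) (move 456 (branch (move 428 (leaf 424 2)) (move 455 (branch (move 491 (leaf 455 0)) (move 487 (branch (move 486 (leaf 454 1)) (move 488 (leaf 455 1)))))))))))) (move 426 (branch (move 425 (leaf 425 3)) (move 395 (branch (move 522 (leaf 394 6)) (move 363 (leaf 362 5)))))))))))))))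
theorem a6p293 : a6e293.Valid :=
  pos_of_chk [] forall_nil a6c293 a6e293 (by decide +kernel)

def a6e294 : Pos := ⟨384428668967314144047917838992702437638158467759352902644227498754516182595007690486395035449378888760560829069093654743689481193481930847951418769114860093440, 1710076723760990521308930088782860641611025528501638033342560345306728591296916218227857266754449743104313708215833698404818161801044307019270428325057474955649115750400, 10⟩
def a6c294 : Cert := (move 459 (branch (move 429 (branch (move 458 (branch (move 430 (leaf 426 2)) (move 457 (branch (move 428 (leaf 425 2)) (move 425 (branch (move 424 (leaf 424 3)) (move 426 (leaf 425 3)))))))) (move 493 (branch (move 558 (leaf 429 4)) (move 556 (leaf 428 5)))))) (branch (move 462 (branch (move 427 (branch (move 426 (leaf 426 3)) (move 463 (branch (move 428 (leaf 427 3)) (move 496 (branch (move 495 (leaf 460 0)) (move 464 (branch (move 497 (leaf 461 0)) (move 432 (branch (move 431 (leaf 428 2)) (move 433 (leaf 429 2)))))))))))) (branch (move 430 (branch (move 431 (leaf 427 2)) (move 493 (branch (move 557 (leaf 429 6)) (move 429 (branch (move 398 (leaf 397 6)) (move 558 (leaf 429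 4)))))))) (move 427 (branch (move 426 (leaf 426 3)) (move 428 (branch (move 463 (leaf 427 3)) (move 493 (branch (move 557 (leaf 428 7)) (move 429 (branch (move 396 (leaf 396 7)) (move 558 (leaf 429 4))))))))))))) (branch (move 429 (branch (move 458 (branch (move 430 (leaf 426 2)) (move 490 (branch (move 489 (leaf 457 1)) (move 426 (branch (move 425 (leaf 425 3)) (move 462 (branch (move 427 (leaf 426 3)) (move 491 (leaf 458 1)))))))))) (move 493 (branch (move 558 (leaf 429 4)) (move 556 (leaf 428 5)))))) (branch (move 429 (branch (move 462 (branch (move 490 (branch (move 491 (leaf 458 1)) (move 458 (branch (move 489 (leaf 457 1)) (move 457 (branch (move 428 (leaf 425 2)) (move 425 (branch (move 424 (leaf 424 3)) (move 426 (leaf 425 3)))))))))) (branch (move 490 (branch (move 491 (leaf 458 1)) (move 458 (branch (move 489 (leaf 457 1)) (move 428 (branch (move 457 (leaf 425 2)) (move 463 (branch (move 427 (leaf 427 3)) (move 464 (leaf 428 3)))))))))) (branch (move 490 (branch (move 491 (leaf 458 1)) (move 458 (branch (move 489 (leaf 457 1)) (move 426 (branch (move 425 (leaf 425 3)) (move 427 (leaf 426 3)))))))) (move 427 (branch (move 426 (leaf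 426 3)) (move 463 (branch (move 428 (leaf 427 3)) (move 496 (branch (move 495 (leaf 460 0)) (move 464 (branch (move 497 (leaf 461 0)) (move 432 (branch (move 431 (leaf 428 2)) (move 433 (leaf 429 2)))))))))))))))) (move 493 (branch (move 558 (leaf 429 4)) (move 556 (leaf 428 5)))))) (branch (move 429 (branch (move 430 (branch (move 458 (leaf 426 2)) (move 431 (branch (move 462 (leaf 427 2)) (move 428 (leaf 427 1)))))) (move 493 (branch (move 558 (leaf 429 4)) (move 556 (leaf 428 5)))))) (ref 0)))))))
theorem a6p294 : a6e294.Valid :=
  pos_of_chk [a6e293] (forall_cons a6p293 forall_nil) a6c294 a6e294 (by decide +kernel)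

def a6e295 : Pos := ⟨384428668967314144047917838992702437638158467759352902644227498754516182595007690486395035449378888760560829069093654743689481193481930847951418769114860093440, 1179363257756731673379448441393874137244498976202037230911312226228053036895924418954923260991890682918133970075165843341643035807497783890135446725231007389676514312192, 9⟩
def a6c295 : Cert := (move 429 (branch (move 493 (branch (move 556 (leaf 428 5)) (move 494 (branch (move 397 (leaf 397 4)) (move 495 (branch (move 496 (leaf 492 1)) (move 459 (branch (move 458 (leaf 458 0)) (move 462 (leaf 459 0)))))))))) (branch (move 493 (branch (move 558 (leaf 429 4)) (move 556 (leaf 428 5)))) (move 462 (branch (move 494 (branch (move 558 (leaf 429 7)) (move 495 (branch (move 459 (leaf 459 0)) (move 496 (branch (move 497 (leaf 493 1)) (move 463 (leaf 460 0)))))))) (branch (move 494 (branch (move 558 (leaf 429 7)) (move 397 (branch (move 430 (leaf 397 7)) (move 365 (leaf 365 4)))))) (move 463 (branch (move 496 (branch (move 495 (leaf 460 0)) (move 464 (branch (move 497 (leaf 461 0)) (move 465 (branch (move 430 (leaf 429 3)) (move 433 (branch (move 432 (leaf 429 2)) (move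 434 (leaf 430 2)))))))))) (branch (move 496 (branch (move 495 (leaf 460 0)) (move 464 (branch (move 497 (leaf 461 0)) (move 430 (branch (move 465 (leaf 429 3)) (move 459 (branch (move 458 (leaf 426 2)) (move 431 (leaf 427 2)))))))))) (branch (move 496 (branch (move 495 (leaf 460 0)) (move 464 (branch (move 497 (leaf 461 0)) (move 432 (branch (move 431 (leaf 428 2)) (move 433 (leaf 429 2)))))))) (move 431 (branch (move 432 (leaf 428 2)) (move 459 (branch (move 430 (leaf 427 2)) (move 490 (branch (move 491 (leaf 458 1)) (move 458 (branch (move 489 (leaf 457 1)) (move 426 (branch (move 425 (leaf 425 3)) (move 427 (leaf 426 3))))))))))))))))))))))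
theorem a6p295 : a6e295.Valid :=
  pos_of_chk [] forall_nil a6c295 a6e295 (by decide +kernel)

def a6e296 : Pos := ⟨329510287686269266329551198307408694811848000516761092655428048587719464515282933997336507586143491267714497849823595661660946933733830829858705406921342451712, 543885306100650913860526385565419702202145196675687959142424871664524671793862997877275324846456543547263320644446927251430674658365755927487910010438655377323041127053197223588903518208, 12⟩
def a6c296 : Cert := (move 458 (branch (move 425 (branch (move 426 (leaf 425 3)) (move 457 (branch (move 424 (leaf 424 3)) (move 489 (branch (move 488 (leaf 456 1)) (move 490 (leaf 457 1)))))))) (branch (move 493 (branch (move 494 (leaf 458 0)) (move 557 (branch (move 428 (leaf 428 7)) (move 556 (branch (move 588 (leaf 460 5)) (move 554 (branch (move 555 (leaf 522 2)) (move 490 (branch (move 489 (leaf 457 1)) (move 522 (branch (move 427 (leaf 426 6)) (move 586 (branch (move 491 (leaf 458 6)) (move 585 (branch (move 617 (leaf 489 5)) (move 553 (leaf 457 5)))))))))))))))))) (branch (move 493 (branch (move 494 (leaf 458 0)) (move 557 (branch (move 428 (leaf 428 7)) (move 556 (branch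 (move 588 (leaf 460 5)) (move 425 (branch (move 426 (leaf 425 3)) (move 457 (branch (move 424 (leaf 424 3)) (move 554 (branch (move 555 (leaf 522 2)) (move 489 (branch (move 488 (leaf 456 1)) (move 521 (branch (move 522 (leaf 425 4)) (move 553 (branch (move 586 (leaf 457 4)) (move 552 (branch (move 584 (leaf 456 5)) (move 520 (leaf 424 5)))))))))))))))))))))) (move 457 (branch (move 493 (branch (move 494 (leaf 458 0)) (move 428 (branch (move 557 (leaf 428 7)) (move 456 (branch (move 427 (leaf 424 2)) (move 396 (branch (move 364 (leaf 364 4)) (move 423 (branch (move 424 (leaf 423 3)) (move 455 (branch (move 422 (leaf 422 3)) (move 487 (branch (move 486 (leaf 454 1)) (move 488 (leaf 455 1)))))))))))))))) (branch (move 425 (branch (move 424 (leaf 424 3)) (move 426 (leaf 425 3)))) (move 456 (branch (move 493 (branch (move 494 (leaf 458 0)) (move 428 (branch (move 427 (leaf 424 2)) (move 557 (leaf 428 7)))))) (branch (move 493 (branch (move 494 (leaf 458 0)) (move 557 (branch (move 428 (leaf 428 7)) (move 556 (branch (move 588 (leaf 460 5)) (move 554 (branch (move 555 (leaf 522 2)) (move 425 (branch (move 426 (leaf 425 3)) (move 490 (branch (move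 522 (leaf 425 7)) (move 455 (branch (move 491 (leaf 455 0)) (move 487 (branch (move 486 (leaf 454 1)) (move 488 (leaf 455 1)))))))))))))))))) (move 426 (branch (move 425 (leaf 425 3)) (move 455 (branch (move 427 (leaf 423 2)) (move 487 (branch (move 486 (leaf 454 1)) (move 488 (leaf 455 1))))))))))))))))))
theorem a6p296 : a6e296.Valid :=
  pos_of_chk [] forall_nil a6c296 a6e296 (by decide +kernel)

def a6e297 : Pos := ⟨329510287686269266328062632600051291900002985358206459369071791081031837127826442069414558324087252320742458577961807879392505289484197697450826542785939636224, 9246050182436693708601902510950087683339591459092371502834822587188147355948521547940291152689401844414114475281184195316467834706764765708395303205385885024099785543153325099875821420544, 14⟩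
def a6c297 : Cert := (move 459 (branch (ref 0) (branch (move 462 (branch (move 427 (branch (move 426 (leaf 426 3)) (move 463 (branch (move 428 (leaf 427 3)) (move 431 (branch (move 430 (leaf 427 2)) (move 432 (leaf 428 2)))))))) (branch (move 494 (branch (move 495 (leaf 459 0)) (move 557 (branch (move 430 (leaf 429 5)) (move 589 (branch (move 621 (leaf 493 6)) (move 558 (leaf 461 5)))))))) (move 427 (branch (move 426 (leaf 426 3)) (move 463 (branch (move 428 (leaf 427 3)) (move 496 (branch (move 495 (leaf 460 0)) (move 464 (branch (move 497 (leaf 461 0)) (move 432 (branch (move 431 (leaf 428 2)) (move 433 (leaf 429 2))))))))))))))) (branch (move 490 (branch (move 491 (branch (move 462 (leaf 458 1)) (move 489 (branch (move 488 (leaf 456 2)) (move 458 (leaf 457 1)))))) (branch (move 458 (branch (move 489 (leaf 457 1)) (move 493 (branch (move 494 (leaf 458 0)) (move 557 (branch (move 428 (leaf 428 7)) (move 556 (branch (move 588 (leaf 460 5)) (move 554 (branch (move 555 (leaf 522 2)) (move 522 (branch (move 427 (leaf 426 6)) (move 586 (branch (move 491 (leaf 458 6)) (move 585 (branch (move 617 (leaf 489 5)) (move 553 (leaf 457 5))))))))))))))))))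 (branch (move 462 (branch (move 491 (leaf 458 1)) (move 494 (branch (move 495 (leaf 459 0)) (move 430 (branch (move 431 (leaf 427 2)) (move 557 (leaf 429 5)))))))) (move 458 (branch (move 489 (leaf 457 1)) (move 494 (branch (move 493 (leaf 458 0)) (move 462 (branch (move 495 (leaf 459 0)) (move 430 (branch (move 431 (leaf 427 2)) (move 557 (leaf 429 5)))))))))))))) (branch (move 458 (branch (move 490 (branch (move 489 (leaf 457 1)) (move 462 (branch (move 491 (leaf 458 1)) (move 494 (branch (move 495 (leaf 459 0)) (move 430 (branch (move 431 (leaf 427 2)) (move 557 (leaf 429 5)))))))))) (branch (move 425 (branch (move 426 (leaf 425 3)) (move 457 (branch (move 424 (leaf 424 3)) (move 489 (branch (move 488 (leaf 456 1)) (move 490 (leaf 457 1)))))))) (branch (move 493 (branch (move 494 (leaf 458 0)) (move 557 (branch (move 428 (leaf 428 7)) (move 556 (branch (move 588 (leaf 460 5)) (move 462 (branch (move 430 (leaf 429 6)) (move 554 (branch (move 555 (leaf 522 2)) (move 425 (branch (move 426 (leaf 425 3)) (move 457 (branch (move 424 (leaf 424 3)) (move 489 (branch (move 488 (leaf 456 1)) (move 521 (branch (move 522 (leaf 425 4)) (move 553 (branch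 (move 586 (leaf 457 4)) (move 552 (branch (move 584 (leaf 456 5)) (move 520 (leaf 424 5)))))))))))))))))))))))) (move 493 (branch (move 494 (leaf 458 0)) (move 557 (branch (move 428 (leaf 428 7)) (move 556 (branch (move 588 (leaf 460 5)) (move 462 (branch (move 430 (leaf 429 6)) (move 554 (branch (move 555 (leaf 522 2)) (move 425 (branch (move 426 (leaf 425 3)) (move 457 (branch (move 424 (leaf 424 3)) (move 490 (branch (move 491 (leaf 458 1)) (move 522 (leaf 425 7)))))))))))))))))))))) (branch (move 462 (branch (move 494 (branch (move 495 (leaf 459 0)) (move 557 (branch (move 430 (leaf 429 5)) (move 589 (branch (move 621 (leaf 493 6)) (move 558 (leaf 461 5)))))))) (move 426 (branch (move 427 (leaf 426 3)) (move 458 (branch (move 425 (leaf 425 3)) (move 490 (branch (move 489 (leaf 457 1)) (move 491 (leaf 458 1)))))))))) (ref 1)))))))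
theorem a6p297 : a6e297.Valid :=
  pos_of_chk [a6e293, a6e296] (forall_cons a6p293 (forall_cons a6p296 forall_nil)) a6c297 a6e297 (by decide +kernel)

def a6e298 : Pos := ⟨384428668967314144047917838992702437638158467759352902644227498754516182595007690486395035449378888760560829069093654743689481193481930847951418769114860093440, 943490606205385338263377223021144868569178442944436751721031339935358470804091747147417936196219500215881167011638726941889798662759598977226770636553393996836353605632, 11⟩
def a6c298 : Cert := (move 429 (branch (move 459 (branch (move 458 (branch (move 430 (leaf 426 2)) (move 457 (branch (move 428 (leaf 425 2)) (move 425 (branch (move 424 (leaf 424 3)) (move 426 (leaf 425 3)))))))) (branch (move 462 (branch (move 427 (branch (move 426 (leaf 426 3)) (move 428 (branch (move 463 (leaf 427 3)) (move 458 (branch (move 457 (leaf 425 2)) (move 490 (branch (move 489 (leaf 457 1)) (move 491 (leaf 458 1)))))))))) (move 494 (branch (move 495 (leaf 459 0)) (move 558 (leaf 429 7)))))) (branch (move 430 (branch (move 458 (leaf 426 2)) (move 462 (branch (move 431 (leaf 427 2)) (move 494 (branch (move 495 (leaf 459 0)) (move 558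 (leaf 429 7)))))))) (move 462 (branch (move 494 (branch (move 495 (leaf 459 0)) (move 558 (leaf 429 7)))) (move 430 (branch (move 431 (leaf 427 2)) (move 427 (branch (move 426 (leaf 426 3)) (move 428 (branch (move 463 (leaf 427 0)) (move 395 (branch (move 394 (leaf 394 3)) (move 363 (branch (move 331 (leaf 331 4)) (move 364 (branch (move 332 (leaf 331 6)) (move 491 (branch (move 490 (leaf 458 1)) (move 396 (leaf 363 5)))))))))))))))))))))) (branch (move 493 (branch (move 558 (leaf 429 4)) (move 428 (branch (move 396 (leaf 396 7)) (move 492 (branch (move 397 (leaf 396 5)) (move 427 (branch (move 395 (leaf 395 7)) (move 462 (branch (move 463 (leaf 427 3)) (move 426 (leaf 426 0)))))))))))) (branch (move 493 (branch (move 558 (leaf 429 4)) (move 397 (branch (move 494 (leaf 397 4)) (move 492 (leaf 396 5)))))) (move 430 (branch (move 431 (branch (move 432 (leaf 428 1)) (move 459 (branch (move 458 (leaf 426 2)) (move 428 (leaf 427 1)))))) (move 493 (branch (move 398 (leaf 397 6)) (move 397 (branch (move 494 (leaf 397 4)) (move 492 (leaf 396 5))))))))))))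
theorem a6p298 : a6e298.Valid :=
  pos_of_chk [] forall_nil a6c298 a6e298 (by decide +kernel)

def a6e299 : Pos := ⟨384428668967314144059826364651561660932918589027789968935077558808017201694659625909770629545828800336337143243987957001837014347478995907214449682198082617344, 10130653251414541261658573296571103927939348728383079487992421594027501426909175724570653859464747559969298075343522537509151107552194775555961486550007415544263434097370209452032, 6⟩
def a6c299 : Cert := (move 459 (branch (move 494 (branch (move 495 (leaf 459 0)) (move 558 (branch (move 429 (leaf 429 7)) (move 557 (branch (move 589 (leaf 461 5)) (move 559 (branch (move 560 (leaf 524 3)) (move 591 (leaf 462 4)))))))))) (branch (move 494 (branch (move 495 (leaf 459 0)) (move 430 (branch (move 431 (leaf 427 2)) (move 557 (leaf 429 5)))))) (move 430 (branch (move 431 (leaf 427 2)) (move 458 (branch (move 429 (leaf 426 2)) (move 426 (branch (move 425 (leaf 425 3)) (move 427 (leaf 426 3)))))))))))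
theorem a6p299 : a6e299.Valid :=
  pos_of_chk [] forall_nil a6c299 a6e299 (by decide +kernel)

def a6e300 : Pos := ⟨384428668967314144047917838992702437638158467759352902644227498754516182595007690486395035449378888760560829069093654743689481193481930847951418769114860093440, 10130653251414541261658573297234413059993850437330146509219968803929380135329979509479461918182178214194447563060708374228008907111663235909402078849841290591003391224135574093824, 7⟩
def a6c300 : Cert := (move 462 (branch (ref 0) (branch (move 459 (branch (move 494 (branch (move 495 (leaf 459 0)) (move 558 (branch (move 429 (leaf 429 7)) (move 557 (branch (move 589 (leaf 461 5)) (move 559 (branch (move 560 (leaf 524 3)) (move 591 (leaf 462 4)))))))))) (move 426 (branch (move 427 (leaf 426 3)) (move 458 (branch (move 425 (leaf 425 3)) (move 490 (branch (move 489 (leaf 457 1)) (move 491 (leaf 458 1)))))))))) (branch (move 459 (branch (move 491 (branch (move 490 (leaf 458 1)) (move 463 (branch (move 492 (leaf 459 1)) (move 431 (branch (move 430 (leaf 427 2)) (move 432 (leaf 428 2)))))))) (branch (move 430 (branch (move 431 (leaf 427 2)) (move 458 (branch (move 429 (leaf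 426 2)) (move 426 (branch (move 425 (leaf 425 3)) (move 427 (leaf 426 3)))))))) (move 426 (branch (move 427 (leaf 426 3)) (move 458 (branch (move 425 (leaf 425 3)) (move 490 (branch (move 489 (leaf 457 1)) (move 491 (leaf 458 1))))))))))) (move 463 (branch (move 431 (branch (move 432 (leaf 428 2)) (move 494 (branch (move 558 (leaf 430 6)) (move 430 (branch (move 399 (leaf 398 6)) (move 557 (leaf 429 5)))))))) (move 492 (branch (move 491 (leaf 459 1)) (move 464 (branch (move 493 (leaf 460 1)) (move 496 (branch (move 495 (leaf 460 0)) (move 497 (leaf 461 0))))))))))))))
theorem a6p300 : a6e300.Valid :=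
  pos_of_chk [a6e299] (forall_cons a6p299 forall_nil) a6c300 a6e300 (by decide +kernel)

def a6e301 : Pos := ⟨384428668967314144041963576163272825990778407125134369498802468727765673045181722774707238401153932972672671981646503614615714616483398318319903312573248831488, 8702164884440565396344754437814219287402466700840053942022445755176420807616717342107148530771710709085034004906333636249553774055751119076833656333282751706525808108360136280601863913472, 12⟩
def a6c301 : Cert := (move 461 (branch (ref 0) (branch (move 493 (branch (move 429 (branch (move 558 (leaf 429 4)) (move 428 (branch (move 557 (leaf 428 7)) (move 396 (leaf 396 7)))))) (branch (move 429 (branch (move 558 (leaf 429 4)) (move 492 (branch (move 397 (leaf 396 5)) (move 491 (branch (move 490 (leaf 490 0)) (move 430 (branch (move 398 (leaf 397 6)) (move 462 (branch (move 463 (leaf 459 1)) (move 557 (leaf 429 6)))))))))))) (branch (move 428 (branch (move 557 (leaf 428 7)) (move 396 (branch (move 492 (leaf 396 4)) (move 364 (leaf 364 4)))))) (move 429 (branch (move 558 (leaf 429 4)) (move 428 (branch (move 396 (leaf 396 7)) (move 492 (branch (move 397 (leaf 396 5)) (move 427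 (branch (move 395 (leaf 395 7)) (move 462 (branch (move 463 (leaf 427 3)) (move 426 (leaf 426 0)))))))))))))))) (branch (ref 1) (branch (move 493 (branch (move 429 (branch (move 558 (leaf 429 4)) (move 428 (branch (move 557 (leaf 428 7)) (move 396 (leaf 396 7)))))) (branch (move 428 (branch (move 557 (leaf 428 7)) (move 396 (branch (move 492 (leaf 396 4)) (move 364 (leaf 364 4)))))) (move 429 (branch (move 558 (leaf 429 4)) (move 397 (branch (move 494 (leaf 397 4)) (move 492 (leaf 396 5))))))))) (branch (move 557 (branch (move 493 (branch (move 428 (leaf 428 7)) (move 462 (branch (move 430 (leaf 429 6)) (move 494 (branch (move 589 (leaf 461 6)) (move 495 (branch (move 496 (leaf 492 1)) (move 459 (leaf 459 0)))))))))) (branch (move 428 (branch (move 493 (leaf 428 7)) (move 492 (leaf 428 4)))) (branch (move 462 (branch (move 494 (branch (move 430 (leaf 429 5)) (move 495 (branch (move 459 (leaf 459 0)) (move 496 (branch (move 497 (leaf 493 1)) (move 463 (leaf 460 0)))))))) (branch (move 428 (branch (move 492 (leaf 428 4)) (move 427 (branch (move 463 (leaf 427 3)) (move 426 (branch (move 459 (leaf 426 3)) (move 425 (leaf 425 0)))))))) (branch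 (move 492 (branch (move 428 (leaf 428 4)) (move 463 (branch (move 491 (leaf 459 1)) (move 494 (branch (move 430 (leaf 429 5)) (move 589 (branch (move 621 (leaf 493 6)) (move 495 (branch (move 496 (leaf 460 0)) (move 431 (branch (move 432 (leaf 428 2)) (move 399 (leaf 398 5)))))))))))))) (move 494 (branch (move 430 (leaf 429 5)) (move 459 (branch (move 495 (leaf 459 0)) (move 492 (branch (move 428 (leaf 428 4)) (move 589 (branch (move 621 (leaf 493 6)) (move 491 (branch (move 490 (leaf 458 1)) (move 427 (branch (move 426 (leaf 426 3)) (move 395 (leaf 395 4)))))))))))))))))) (move 589 (branch (move 621 (branch (move 494 (leaf 493 6)) (move 492 (leaf 492 7)))) (branch (move 493 (branch (move 492 (leaf 460 7)) (move 462 (branch (move 494 (leaf 461 6)) (move 430 (leaf 429 6)))))) (branch (move 494 (branch (move 621 (leaf 493 6)) (move 462 (branch (move 493 (leaf 461 6)) (move 430 (leaf 429 5)))))) (move 492 (branch (move 621 (leaf 492 7)) (move 493 (leaf 460 7)))))))))))) (ref 2)))))))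
theorem a6p301 : a6e301.Valid :=
  pos_of_chk [a6e292, a6e298, a6e300] (forall_cons a6p292 (forall_cons a6p298 (forall_cons a6p300 forall_nil))) a6c301 a6e301 (by decide +kernel)

def a6e302 : Pos := ⟨384428668980100826104057880343011848244011216313480627491158190561684779951807245416912998381166706770820735095517154724488996143863153226702268129187813392384, 37375513554789811764696552683927608635406621310029883397997789343652355534581375887355147853491785245990555565355291204600626065530344377742926061372718637760671269874741018625602589635386246430720, 8⟩
def a6c302 : Cert := (move 556 (branch (move 557 (branch (move 589 (leaf 460 4)) (move 555 (branch (move 554 (leaf 522 2)) (move 587 (leaf 459 5)))))) (branch (move 587 (branch (move 555 (leaf 459 5)) (move 588 (branch (move 619 (leaf 491 5)) (move 620 (branch (move 493 (leaf 492 6)) (move 621 (branch (move 653 (leaf 524 4)) (move 589 (leaf 492 4)))))))))) (move 461 (branch (move 429 (leaf 428 6)) (move 493 (branch (move 588 (leaf 460 6)) (move 491 (branch (move 490 (leaf 490 0)) (move 462 (branch (move 463 (leaf 459 1)) (move 430 (branch (move 557 (leaf 429 6)) (move 398 (branch (move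 494 (leaf 397 5)) (move 366 (leaf 365 5)))))))))))))))))
theorem a6p302 : a6e302.Valid :=
  pos_of_chk [] forall_nil a6c302 a6e302 (by decide +kernel)

def a6e303 : Pos := ⟨384428668992887508172106447352180482144624086136045418628938942422354396408258735770806555409404436356856955296834956963436044248241440664716148402343989215232, 3545728636402949043608912895793251500167525929328209393153817771826404727563810589216486535208391559929578774194562576694115403695073793550025297181421985332983406621700604821504, 6⟩
def a6c303 : Cert := (move 492 (branch (move 490 (branch (move 491 (leaf 490 0)) (move 556 (branch (move 588 (leaf 460 6)) (move 459 (branch (move 427 (leaf 427 7)) (move 458 (branch (move 457 (leaf 457 0)) (move 489 (leaf 457 1)))))))))) (branch (move 556 (branch (move 588 (leaf 460 6)) (move 557 (branch (move 589 (leaf 460 4)) (move 555 (branch (move 554 (leaf 522 2)) (move 587 (leaf 459 5)))))))) (move 491 (branch (move 490 (leaf 490 0)) (move 462 (branch (move 463 (leaf 459 1)) (move 557 (branch (move 430 (leaf 429 6)) (move 589 (leaf 460 7)))))))))))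
theorem a6p303 : a6e303.Valid :=
  pos_of_chk [] forall_nil a6c303 a6e303 (by decide +kernel)

def a6e304 : Pos := ⟨384428668967314144047917838992702437638158467759352902644227498754516182595007690486395035449378888760560829069093654743689481193481930847951418769114860093440, 8702164877855640782276652825969944224814468074151393002148626694187659564008463779234115541999665953359774805807658704892148237106606340207822205822129779271730908006070668876081807753216, 8⟩
def a6c304 : Cert := (move 462 (branch (move 463 (branch (move 431 (branch (move 432 (leaf 428 2)) (move 459 (branch (move 430 (leaf 427 2)) (move 490 (branch (move 491 (leaf 458 1)) (move 458 (branch (move 489 (leaf 457 1)) (move 426 (branch (move 425 (leaf 425 3)) (move 427 (leaf 426 3)))))))))))) (branch (move 496 (branch (move 495 (leaf 460 0)) (move 464 (branch (move 497 (leaf 461 0)) (move 432 (branch (move 431 (leaf 428 2)) (move 433 (leaf 429 2)))))))) (move 492 (branch (move 491 (leaf 459 1)) (move 464 (branch (move 493 (leaf 460 1)) (move 496 (branch (move 495 (leaf 460 0)) (move 497 (leaf 461 0))))))))))) (branch (move 463 (branch (move 431 (branch (move 432 (leaf 428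 2)) (move 494 (branch (move 558 (leaf 430 6)) (move 430 (branch (move 399 (leaf 398 6)) (move 557 (leaf 429 5)))))))) (move 492 (branch (move 491 (leaf 459 1)) (move 464 (branch (move 493 (leaf 460 1)) (move 496 (branch (move 495 (leaf 460 0)) (move 497 (leaf 461 0)))))))))) (branch (move 459 (branch (move 491 (branch (move 490 (leaf 458 1)) (move 492 (branch (move 463 (leaf 459 1)) (move 427 (branch (move 426 (leaf 426 3)) (move 556 (leaf 427 7)))))))) (branch (move 494 (branch (move 495 (leaf 459 0)) (move 458 (branch (move 493 (leaf 458 0)) (move 490 (branch (move 489 (leaf 457 1)) (move 491 (leaf 458 1)))))))) (move 494 (branch (move 495 (leaf 459 0)) (move 458 (branch (move 493 (leaf 458 0)) (move 426 (branch (move 425 (leaf 425 3)) (move 427 (leaf 426 3))))))))))) (branch (move 459 (branch (move 494 (branch (move 495 (leaf 459 0)) (move 557 (branch (move 430 (leaf 429 5)) (move 589 (branch (move 621 (leaf 493 6)) (move 558 (leaf 461 5)))))))) (move 426 (branch (move 427 (leaf 426 3)) (move 458 (branch (move 425 (leaf 425 3)) (move 490 (branch (move 489 (leaf 457 1)) (move 491 (leaf 458 1)))))))))) (branch (move 557 (branch (move 494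 (branch (move 430 (leaf 429 5)) (move 495 (branch (move 459 (leaf 459 0)) (move 496 (branch (move 497 (leaf 493 1)) (move 463 (leaf 460 0)))))))) (branch (move 493 (branch (move 430 (leaf 429 6)) (move 556 (branch (move 588 (leaf 460 5)) (move 492 (branch (move 589 (leaf 460 4)) (move 555 (branch (move 554 (leaf 522 2)) (move 587 (leaf 459 5)))))))))) (move 494 (branch (move 495 (branch (move 459 (leaf 459 0)) (move 496 (branch (move 497 (leaf 493 1)) (move 463 (leaf 460 0)))))) (move 589 (branch (move 621 (leaf 493 6)) (move 558 (leaf 461 5))))))))) (move 459 (branch (move 426 (branch (move 427 (leaf 426 3)) (move 458 (branch (move 425 (leaf 425 3)) (move 490 (branch (move 489 (leaf 457 1)) (move 491 (leaf 458 1)))))))) (move 430 (branch (move 431 (leaf 427 2)) (move 557 (branch (move 493 (leaf 429 6)) (move 494 (leaf 429 5))))))))))))))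
theorem a6p304 : a6e304.Valid :=
  pos_of_chk [] forall_nil a6c304 a6e304 (by decide +kernel)

def a6e305 : Pos := ⟨384428668967314144041963576163272825990778407125134369498802468727765673045181722774707238401153932972672671981646503614615714616483398318319903312573248831488, 321053216778053891366735482286872469146341553748931173232592565025663581969824096285285542641980529284331511784778487572285818926666437067731636012932768172174402792199426589476240711444074432917442756870144, 10⟩
def a6c305 : Cert := (move 461 (branch (move 462 (branch (move 463 (branch (move 496 (branch (move 495 (leaf 460 0)) (move 464 (branch (move 497 (leaf 461 0)) (move 432 (branch (move 431 (leaf 428 2)) (move 433 (leaf 429 2)))))))) (move 492 (branch (move 491 (leaf 459 1)) (move 429 (branch (move 556 (leaf 428 6)) (move 494 (branch (move 558 (leaf 429 7)) (move 397 (branch (move 430 (leaf 397 7)) (move 365 (leaf 365 4)))))))))))) (branch (move 459 (branch (move 494 (branch (move 495 (leaf 459 0)) (move 558 (branch (move 429 (leaf 429 7)) (move 557 (branch (move 589 (leaf 461 5)) (move 559 (branch (move 560 (leaf 524 3)) (move 591 (leaf 462 4)))))))))) (move 491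 (branch (move 490 (leaf 458 1)) (move 492 (branch (move 463 (leaf 459 1)) (move 427 (branch (move 426 (leaf 426 3)) (move 556 (leaf 427 7)))))))))) (branch (move 459 (branch (move 494 (branch (move 495 (leaf 459 0)) (move 557 (branch (move 430 (leaf 429 5)) (move 589 (branch (move 621 (leaf 493 6)) (move 558 (leaf 461 5)))))))) (move 491 (branch (move 490 (leaf 458 1)) (move 492 (branch (move 463 (leaf 459 1)) (move 427 (branch (move 426 (leaf 426 3)) (move 556 (leaf 427 7)))))))))) (branch (ref 0) (move 459 (branch (move 491 (branch (move 490 (leaf 458 1)) (move 463 (branch (move 492 (leaf 459 1)) (move 431 (branch (move 430 (leaf 427 2)) (move 432 (leaf 428 2)))))))) (branch (move 491 (branch (move 490 (leaf 458 1)) (move 492 (branch (move 463 (leaf 459 1)) (move 427 (branch (move 426 (leaf 426 3)) (move 556 (leaf 427 7)))))))) (move 430 (branch (move 431 (leaf 427 2)) (move 458 (branch (move 429 (leaf 426 2)) (move 426 (branch (move 425 (leaf 425 3)) (move 427 (leaf 426 3)))))))))))))))) (branch (move 493 (branch (move 429 (branch (move 558 (leaf 429 4)) (move 556 (leaf 428 5)))) (branch (move 429 (branch (move 558 (leaf 429 4)) (move 492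 (branch (move 397 (leaf 396 5)) (move 491 (branch (move 490 (leaf 490 0)) (move 430 (branch (move 398 (leaf 397 6)) (move 462 (branch (move 463 (leaf 459 1)) (move 557 (leaf 429 6)))))))))))) (ref 1)))) (branch (ref 2) (branch (ref 3) (branch (move 493 (branch (move 429 (branch (move 558 (leaf 429 4)) (move 556 (leaf 428 5)))) (branch (move 429 (branch (move 558 (leaf 429 4)) (move 397 (branch (move 494 (leaf 397 4)) (move 492 (leaf 396 5)))))) (branch (move 556 (branch (move 429 (leaf 428 5)) (move 588 (branch (move 620 (leaf 492 6)) (move 492 (leaf 460 6)))))) (move 557 (branch (move 588 (branch (move 556 (leaf 460 5)) (move 589 (branch (move 620 (leaf 492 5)) (move 621 (branch (move 494 (leaf 493 6)) (move 653 (branch (move 558 (leaf 525 6)) (move 654 (branch (move 686 (leaf 557 4)) (move 622 (leaf 525 4)))))))))))) (branch (move 589 (branch (move 492 (leaf 460 7)) (move 621 (branch (move 494 (leaf 493 6)) (move 620 (branch (move 652 (leaf 524 5)) (move 588 (leaf 492 5)))))))) (branch (move 556 (branch (move 588 (leaf 460 5)) (move 555 (branch (move 554 (leaf 522 2)) (move 492 (branch (move 587 (leaf 459 5)) (move 459 (branch (move 427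 (leaf 427 7)) (move 458 (branch (move 457 (leaf 457 0)) (move 494 (leaf 458 0)))))))))))) (branch (move 589 (branch (move 492 (leaf 460 7)) (move 621 (branch (move 494 (leaf 493 6)) (move 653 (branch (move 558 (leaf 525 6)) (move 556 (leaf 524 7)))))))) (move 556 (branch (move 588 (leaf 460 5)) (move 492 (branch (move 589 (leaf 460 4)) (move 555 (branch (move 554 (leaf 522 2)) (move 587 (leaf 459 5))))))))))))))))) (branch (move 429 (branch (move 493 (branch (move 558 (leaf 429 4)) (move 556 (leaf 428 5)))) (branch (move 462 (branch (move 494 (branch (move 558 (leaf 429 7)) (move 397 (branch (move 430 (leaf 397 7)) (move 365 (leaf 365 4)))))) (move 492 (branch (move 556 (leaf 428 6)) (move 463 (branch (move 491 (leaf 459 1)) (move 432 (branch (move 431 (leaf 428 2)) (move 464 (branch (move 433 (leaf 429 2)) (move 496 (branch (move 495 (leaf 460 0)) (move 497 (leaf 461 0)))))))))))))) (branch (move 493 (branch (move 558 (leaf 429 4)) (move 397 (branch (move 494 (leaf 397 4)) (move 492 (leaf 396 5)))))) (move 556 (branch (move 492 (leaf 428 6)) (move 493 (leaf 428 5)))))))) (branch (move 493 (branch (ref 1) (branch (move 429 (branch (move 556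 (leaf 428 5)) (move 494 (branch (move 397 (leaf 397 4)) (move 495 (branch (move 496 (leaf 492 1)) (move 459 (branch (move 458 (leaf 458 0)) (move 462 (leaf 459 0)))))))))) (branch (move 556 (branch (move 429 (leaf 428 5)) (move 588 (branch (move 620 (leaf 492 6)) (move 492 (leaf 460 6)))))) (move 494 (branch (move 429 (branch (move 397 (leaf 397 4)) (move 430 (branch (move 398 (leaf 397 6)) (move 462 (branch (move 557 (leaf 429 5)) (move 459 (branch (move 458 (leaf 458 0)) (move 431 (leaf 427 2)))))))))) (branch (move 495 (branch (move 496 (leaf 492 1)) (move 429 (branch (move 397 (leaf 397 4)) (move 430 (branch (move 398 (leaf 397 6)) (move 462 (branch (move 557 (leaf 429 5)) (move 431 (branch (move 432 (leaf 428 1)) (move 399 (leaf 398 6)))))))))))) (move 495 (branch (move 496 (leaf 492 1)) (move 459 (branch (move 492 (leaf 459 3)) (move 458 (leaf 458 0))))))))))))) (ref 4)))))))))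
theorem a6p305 : a6e305.Valid :=
  pos_of_chk [a6e299, a6e303, a6e295, a6e300, a6e304] (forall_cons a6p299 (forall_cons a6p303 (forall_cons a6p295 (forall_cons a6p300 (forall_cons a6p304 forall_nil))))) a6c305 a6e305 (by decide +kernel)

def a6e306 : Pos := ⟨384428668967314144038986444748558020167088376808025102926089953714390418270268738918863339877041455078728593437922928050078831327984132053504145584302443200512, 321053216778053891369454908810537532771116274813706137351720725948071131525062111693849177612298247091525822921341833077642819085492925224231332649153088959920664077402146483401191059795243641892535965581312, 16⟩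
def a6c306 : Cert := (move 460 (branch (move 492 (branch (ref 0) (branch (ref 1) (branch (ref 2) (branch (ref 3) (branch (move 556 (branch (move 459 (branch (move 427 (leaf 427 7)) (move 588 (branch (move 491 (leaf 459 7)) (move 587 (branch (move 619 (leaf 491 5)) (move 555 (leaf 459 5)))))))) (branch (move 587 (branch (move 555 (leaf 459 5)) (move 588 (branch (move 619 (leaf 491 5)) (move 620 (branch (move 493 (leaf 492 6)) (move 621 (branch (move 653 (leaf 524 4)) (move 589 (leaf 492 4)))))))))) (ref 4)))) (ref 5))))))) (branch (move 492 (branch (ref 6) (branch (move 428 (branch (move 557 (leaf 428 4)) (move 395 (branch (move 427 (leaf 395 7)) (move 396 (branch (move 363 (leaf 363 7)) (move 397 (branch (move 429 (leaf 396 6)) (move 365 (leaf 364 6)))))))))) (branch (move 557 (branch (move 428 (leaf 428 4)) (move 589 (branch (move 621 (leaf 492 7)) (move 556 (leaf 460 4)))))) (ref 0))))) (branch (move 461 (branch (ref 7) (branch (ref 8) (branch (move 493 (branch (move 429 (branch (move 558 (leaf 429 4)) (move 556 (leaf 428 5)))) (branch (move 429 (branch (move 558 (leaf 429 4)) (move 428 (branch (move 557 (leaf 428 7)) (move 396 (leaf 396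 7)))))) (branch (move 429 (branch (move 556 (leaf 428 5)) (move 428 (branch (move 557 (leaf 428 7)) (move 396 (leaf 396 7)))))) (move 557 (branch (move 428 (leaf 428 7)) (move 588 (branch (move 556 (leaf 460 5)) (move 589 (branch (move 620 (leaf 492 5)) (move 621 (branch (move 494 (leaf 493 6)) (move 653 (branch (move 558 (leaf 525 6)) (move 654 (branch (move 686 (leaf 557 4)) (move 622 (leaf 525 4)))))))))))))))))) (branch (ref 9) (branch (move 493 (branch (move 429 (branch (move 556 (leaf 428 5)) (move 428 (branch (move 557 (leaf 428 7)) (move 396 (leaf 396 7)))))) (branch (move 557 (branch (move 428 (leaf 428 7)) (move 462 (branch (move 430 (leaf 429 6)) (move 494 (branch (move 589 (leaf 461 6)) (move 495 (branch (move 496 (leaf 492 1)) (move 459 (leaf 459 0)))))))))) (move 429 (branch (move 556 (leaf 428 5)) (move 494 (branch (move 397 (leaf 397 4)) (move 495 (branch (move 496 (leaf 492 1)) (move 459 (branch (move 458 (leaf 458 0)) (move 462 (leaf 459 0))))))))))))) (ref 10))))))) (branch (ref 11) (branch (move 492 (branch (ref 6) (branch (ref 2) (branch (move 557 (branch (move 428 (leaf 428 4)) (move 589 (branch (move 621 (leaf 492 7))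 (move 493 (leaf 460 7)))))) (move 428 (branch (move 557 (leaf 428 4)) (move 396 (branch (move 493 (leaf 396 4)) (move 395 (branch (move 427 (leaf 395 7)) (move 363 (leaf 363 7)))))))))))) (branch (move 492 (branch (ref 0) (branch (ref 5) (branch (move 556 (branch (move 459 (branch (move 427 (leaf 427 7)) (move 588 (branch (move 491 (leaf 459 7)) (move 587 (branch (move 619 (leaf 491 5)) (move 555 (leaf 459 5)))))))) (branch (ref 4) (move 461 (branch (move 429 (leaf 428 6)) (move 588 (branch (move 493 (leaf 460 6)) (move 587 (branch (move 619 (leaf 491 5)) (move 555 (leaf 459 5))))))))))) (move 428 (branch (move 557 (leaf 428 4)) (move 396 (branch (move 493 (leaf 396 4)) (move 395 (branch (move 427 (leaf 395 7)) (move 363 (leaf 363 7)))))))))))) (branch (move 492 (branch (move 428 (branch (move 557 (leaf 428 4)) (move 395 (branch (move 427 (leaf 395 7)) (move 396 (branch (move 363 (leaf 363 7)) (move 397 (branch (move 429 (leaf 396 6)) (move 365 (leaf 364 6)))))))))) (branch (move 557 (branch (move 428 (leaf 428 4)) (move 589 (branch (move 621 (leaf 492 7)) (move 556 (leaf 460 4)))))) (branch (ref 3) (ref 12))))) (branch (move 492 (branch (move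 557 (branch (move 428 (leaf 428 4)) (move 589 (branch (move 621 (leaf 492 7)) (move 556 (leaf 460 4)))))) (branch (ref 1) (move 556 (branch (move 557 (branch (move 589 (leaf 460 4)) (move 555 (branch (move 554 (leaf 522 2)) (move 587 (leaf 459 5)))))) (branch (move 461 (branch (move 429 (leaf 428 6)) (move 588 (branch (move 493 (leaf 460 6)) (move 587 (branch (move 619 (leaf 491 5)) (move 555 (leaf 459 5)))))))) (move 557 (branch (move 589 (leaf 460 4)) (move 461 (branch (move 429 (leaf 428 6)) (move 493 (branch (move 588 (leaf 460 5)) (move 459 (branch (move 427 (leaf 427 7)) (move 494 (branch (move 495 (leaf 459 3)) (move 458 (leaf 458 0)))))))))))))))))) (branch (move 492 (branch (move 557 (branch (move 428 (leaf 428 4)) (move 589 (branch (move 621 (leaf 492 7)) (move 556 (leaf 460 4)))))) (branch (ref 5) (branch (ref 12) (move 557 (branch (move 428 (leaf 428 4)) (move 589 (branch (move 621 (leaf 492 7)) (move 493 (leaf 460 7)))))))))) (branch (move 492 (branch (move 557 (branch (move 428 (leaf 428 4)) (move 589 (branch (move 621 (leaf 492 7)) (move 556 (leaf 460 4)))))) (branch (move 556 (branch (move 459 (branch (move 427 (leaf 427 7))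 (move 588 (branch (move 491 (leaf 459 7)) (move 587 (branch (move 619 (leaf 491 5)) (move 555 (leaf 459 5)))))))) (branch (ref 4) (move 461 (branch (move 429 (leaf 428 6)) (move 588 (branch (move 493 (leaf 460 6)) (move 587 (branch (move 619 (leaf 491 5)) (move 555 (leaf 459 5))))))))))) (move 557 (branch (move 428 (leaf 428 4)) (move 589 (branch (move 621 (leaf 492 7)) (move 493 (leaf 460 7))))))))) (ref 13))))))))))))
theorem a6p306 : a6e306.Valid :=
  pos_of_chk [a6e285, a6e286, a6e287, a6e288, a6e289, a6e290, a6e291, a6e292, a6e294, a6e295, a6e297, a6e301, a6e302, a6e305] (forall_cons a6p285 (forall_cons a6p286 (forall_cons a6p287 (forall_cons a6p288 (forall_cons a6p289 (forall_cons a6p290 (forall_cons a6p291 (forall_cons a6p292 (forall_cons a6p294 (forall_cons a6p295 (forall_cons a6p297 (forall_cons a6p301 (forall_cons a6p302 (forall_cons a6p305 forall_nil)))))))))))))) a6c306 a6e306 (by decide +kernel)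

def a6e307 : Pos := ⟨329510287686269266319131238355906874428932894406878659650934246040906072803087490501882862751749818638910222946791081185781855423986398903003553357973522743296, 321053216782725830562987807323714831513469649777498636664654172990643004319195705202919422758331216774038446893568313297843257584441652149084401503167498853726675891811866436886591706205015166055611107377152, 17⟩
def a6c307 : Cert := (move 524 (branch (move 523 (branch (move 494 (branch (move 495 (leaf 491 2)) (move 522 (branch (move 493 (leaf 490 2)) (move 554 (branch (move 553 (leaf 521 1)) (move 555 (leaf 522 1)))))))) (branch (move 494 (branch (move 495 (leaf 491 2)) (move 522 (branch (move 493 (leaf 490 2)) (move 490 (branch (move 489 (leaf 489 3)) (move 491 (leaf 490 3)))))))) (ref 0)))) (branch (move 523 (branch (move 558 (branch (move 559 (leaf 523 0)) (move 522 (branch (move 557 (leaf 522 0)) (move 490 (branch (move 489 (leaf 489 3)) (move 491 (leaf 490 3)))))))) (branch (move 558 (branch (move 559 (leaf 523 0)) (move 522 (branch (move 557 (leaf 522 0)) (move 554 (branch (move 553 (leaf 521 1)) (move 555 (leaf 522 1)))))))) (ref 0)))) (branch (move 523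 (branch (move 558 (branch (move 559 (leaf 523 0)) (move 522 (branch (move 557 (leaf 522 0)) (move 490 (branch (move 489 (leaf 489 3)) (move 491 (leaf 490 3)))))))) (branch (move 558 (branch (move 559 (leaf 523 0)) (move 522 (branch (move 557 (leaf 522 0)) (move 554 (branch (move 553 (leaf 521 1)) (move 555 (leaf 522 1)))))))) (branch (move 490 (branch (move 491 (leaf 490 3)) (move 522 (branch (move 489 (leaf 489 3)) (move 554 (branch (move 553 (leaf 521 1)) (move 555 (leaf 522 1)))))))) (ref 1))))) (branch (move 523 (branch (move 558 (branch (move 559 (leaf 523 0)) (move 522 (branch (move 557 (leaf 522 0)) (move 490 (branch (move 489 (leaf 489 3)) (move 491 (leaf 490 3)))))))) (branch (move 494 (branch (move 495 (leaf 491 2)) (move 522 (branch (move 493 (leaf 490 2)) (move 490 (branch (move 489 (leaf 489 3)) (move 491 (leaf 490 3)))))))) (branch (ref 2) (move 494 (branch (move 495 (leaf 491 2)) (move 522 (branch (move 493 (leaf 490 2)) (move 558 (branch (move 557 (leaf 522 0)) (move 559 (leaf 523 0)))))))))))) (branch (move 523 (branch (move 558 (branch (move 559 (leaf 523 0)) (move 522 (branch (move 557 (leaf 522 0)) (move 554 (branch (move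 553 (leaf 521 1)) (move 555 (leaf 522 1)))))))) (branch (move 494 (branch (move 495 (leaf 491 2)) (move 522 (branch (move 493 (leaf 490 2)) (move 554 (branch (move 553 (leaf 521 1)) (move 555 (leaf 522 1)))))))) (branch (move 494 (branch (move 495 (leaf 491 2)) (move 522 (branch (move 493 (leaf 490 2)) (move 558 (branch (move 557 (leaf 522 0)) (move 559 (leaf 523 0)))))))) (ref 3))))) (branch (move 523 (branch (ref 0) (branch (ref 2) (branch (ref 1) (branch (ref 3) (ref 4)))))) (branch (move 523 (branch (move 558 (branch (move 559 (leaf 523 0)) (move 522 (branch (move 557 (leaf 522 0)) (move 490 (branch (move 489 (leaf 489 3)) (move 491 (leaf 490 3)))))))) (branch (move 558 (branch (move 559 (leaf 523 0)) (move 522 (branch (move 557 (leaf 522 0)) (move 554 (branch (move 553 (leaf 521 1)) (move 555 (leaf 522 1)))))))) (branch (move 490 (branch (move 491 (leaf 490 3)) (move 522 (branch (move 489 (leaf 489 3)) (move 554 (branch (move 553 (leaf 521 1)) (move 555 (leaf 522 1)))))))) (ref 4))))) (ref 5)))))))))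
theorem a6p307 : a6e307.Valid :=
  pos_of_chk [a6e280, a6e281, a6e282, a6e283, a6e284, a6e306] (forall_cons a6p280 (forall_cons a6p281 (forall_cons a6p282 (forall_cons a6p283 (forall_cons a6p284 (forall_cons a6p306 forall_nil)))))) a6c307 a6e307 (by decide +kernel)

def a6e308 : Pos := ⟨411887859607836582898914047944883593036166118008598324563667807551132591003859363127353578439687273298637778683488851482227319279982998628754441697466903429120, 1519597987063531397482583574747522610354634189629737356586345828686976675592913677687972833725891041407014898485318591509970677381860682355451281634620335025846791308305194024960, 8⟩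
def a6c308 : Cert := (move 491 (branch (move 490 (leaf 490 3)) (move 459 (branch (move 427 (branch (move 556 (leaf 427 4)) (move 395 (branch (move 492 (leaf 395 4)) (move 396 (branch (move 364 (leaf 363 6)) (move 428 (leaf 395 6)))))))) (branch (move 555 (branch (move 554 (leaf 522 1)) (move 460 (branch (move 428 (leaf 427 6)) (move 492 (branch (move 587 (leaf 459 6)) (move 494 (branch (move 495 (leaf 491 2)) (move 458 (branch (move 493 (leaf 458 3)) (move 426 (leaf 426 7)))))))))))) (move 555 (branch (move 554 (leaf 522 1)) (move 556 (branch (move 427 (leaf 427 4)) (move 588 (leaf 459 4)))))))))))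
theorem a6p308 : a6e308.Valid :=
  pos_of_chk [] forall_nil a6c308 a6e308 (by decide +kernel)

def a6e309 : Pos := ⟨411887859607836582898914047944883593036166118008598324563667807551132591003859363127353578439687273298637778683488851482227319279982998628754441697466903429120, 23359695969840033786236836069473635674668907037813661822746219054776858058326926445048232788724231919166677788721744681614502659251003896159400740430347569810530398286455683679180597287978318954496, 11⟩
def a6c309 : Cert := (move 491 (branch (move 490 (leaf 490 3)) (move 459 (branch (move 427 (branch (move 556 (leaf 427 4)) (move 395 (branch (move 492 (leaf 395 4)) (move 396 (branch (move 364 (leaf 363 6)) (move 428 (leaf 395 6)))))))) (branch (move 555 (branch (move 554 (leaf 522 1)) (move 556 (branch (move 427 (leaf 427 4)) (move 588 (leaf 459 4)))))) (branch (move 555 (branch (move 554 (leaf 522 1)) (move 460 (branch (move 428 (leaf 427 6)) (move 587 (branch (move 492 (leaf 459 6)) (move 426 (branch (move 458 (leaf 426 7)) (move 427 (branch (move 394 (leaf 394 7)) (move 620 (branch (move 588 (leaf 491 4)) (move 619 (branch (move 652 (leaf 523 4)) (move 618 (branch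 (move 586 (leaf 490 5)) (move 650 (leaf 522 5)))))))))))))))))) (move 555 (branch (move 554 (leaf 522 1)) (move 556 (branch (move 588 (leaf 459 4)) (move 460 (branch (move 428 (leaf 427 6)) (move 587 (branch (move 492 (leaf 459 5)) (move 558 (branch (move 559 (leaf 523 0)) (move 586 (branch (move 557 (leaf 554 1)) (move 618 (leaf 490 5))))))))))))))))))))
theorem a6p309 : a6e309.Valid :=
  pos_of_chk [] forall_nil a6c309 a6e309 (by decide +kernel)

def a6e310 : Pos := ⟨411887859607836582898914047944883593036166118008598324563667807551132591003859363127353578439687273298637778683488851482227319279982998628754441697466903429120, 642106433518732269200436564991024170993839876839864936353188429370112198361565973911809226774138529262088265183575589774659073484080849212116845234833657112144750170842275320416570900001840137334904890327040, 12⟩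
def a6c310 : Cert := (move 558 (branch (move 559 (leaf 523 0)) (move 590 (branch (move 622 (branch (move 493 (leaf 493 7)) (move 654 (branch (move 557 (leaf 525 7)) (move 655 (branch (move 623 (leaf 526 4)) (move 687 (leaf 558 4)))))))) (branch (move 494 (branch (move 495 (leaf 491 2)) (move 589 (branch (move 621 (leaf 493 5)) (move 623 (branch (move 591 (leaf 494 4)) (move 622 (branch (move 655 (leaf 526 4)) (move 557 (branch (move 462 (leaf 461 5)) (move 654 (leaf 525 7)))))))))))) (branch (move 494 (branch (move 495 (leaf 491 2)) (move 589 (branch (move 621 (leaf 493 5)) (move 493 (branch (move 461 (leaf 461 7)) (move 557 (branch (move 462 (leaf 461 5)) (move 492 (branch (move 460 (leaf 460 7)) (move 491 (branch (move 490 (leaf 490 0)) (move 555 (branch (move 554 (leaf 522 1)) (move 587 (branch (move 619 (leaf 491 6)) (move 588 (branch (move 586 (leaf 554 2)) (move 620 (leaf 491 4)))))))))))))))))))) (move 494 (branch (move 495 (leaf 491 2)) (move 493 (branch (move 461 (leaf 461 7)) (move 622 (leaf 493 7))))))))))))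
theorem a6p310 : a6e310.Valid :=
  pos_of_chk [] forall_nil a6c310 a6e310 (by decide +kernel)

def a6e311 : Pos := ⟨411887859607836582898914047944883593036166118008598324563667807551132591003859363127353578439687273298637778683488851482227319279982998628754441697466903429120, 642106433518732269193909941333518872567618876309153866124386278549010733220886767354607843924871287269451832413790399960946646528712315793340789722546829612334213643202699297774235983404418235462062933278720, 9⟩
def a6c311 : Cert := (move 558 (branch (move 559 (leaf 523 0)) (move 590 (branch (move 622 (branch (move 493 (leaf 493 7)) (move 654 (branch (move 557 (leaf 525 7)) (move 655 (branch (move 623 (leaf 526 4)) (move 687 (leaf 558 4)))))))) (branch (move 494 (branch (move 495 (leaf 491 2)) (move 589 (branch (move 621 (leaf 493 5)) (move 623 (branch (move 591 (leaf 494 4)) (move 622 (branch (move 655 (leaf 526 4)) (move 557 (branch (move 462 (leaf 461 5)) (move 654 (leaf 525 7)))))))))))) (branch (move 494 (branch (move 495 (leaf 491 2)) (move 493 (branch (move 461 (leaf 461 7)) (move 622 (leaf 493 7)))))) (move 494 (branch (move 495 (leaf 491 2)) (move 589 (branch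 (move 621 (leaf 493 5)) (move 493 (branch (move 461 (leaf 461 7)) (move 557 (branch (move 462 (leaf 461 5)) (move 555 (branch (move 554 (leaf 522 1)) (move 591 (branch (move 556 (leaf 555 0)) (move 623 (leaf 494 4))))))))))))))))))))
theorem a6p311 : a6e311.Valid :=
  pos_of_chk [] forall_nil a6c311 a6e311 (by decide +kernel)

def a6e312 : Pos := ⟨411887859607836582898914047944883593036166118008598324563667807551132591003859363127353578439687273298637778683488851482227319279982998628754441697466903429120, 642106433518732269198261023771686893964340914580079997694702834082444526649683740947961146489062308373672261942147407403394194624269923339473183867596457973891090034350472314185794173413449004877595254194176, 11⟩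
def a6c312 : Cert := (move 558 (branch (move 559 (leaf 523 0)) (move 590 (branch (move 622 (branch (move 493 (leaf 493 7)) (move 654 (branch (move 557 (leaf 525 7)) (move 655 (branch (move 623 (leaf 526 4)) (move 687 (leaf 558 4)))))))) (branch (move 494 (branch (move 495 (leaf 491 2)) (move 589 (branch (move 621 (leaf 493 5)) (move 623 (branch (move 591 (leaf 494 4)) (move 622 (branch (move 655 (leaf 526 4)) (move 557 (branch (move 462 (leaf 461 5)) (move 654 (leaf 525 7)))))))))))) (branch (move 494 (branch (move 495 (leaf 491 2)) (move 493 (branch (move 461 (leaf 461 7)) (move 622 (leaf 493 7)))))) (move 494 (branch (move 495 (leaf 491 2)) (move 589 (branch (move 621 (leaf 493 5)) (move 493 (branch (move 461 (leaf 461 7)) (move 557 (branch (move 462 (leaf 461 5)) (move 492 (branch (move 460 (leaf 460 7)) (move 491 (branch (move 490 (leaf 490 0)) (move 588 (branch (move 620 (leaf 492 5)) (move 459 (branch (move 458 (leaf 458 3)) (move 556 (leaf 459 7))))))))))))))))))))))))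
theorem a6p312 : a6e312.Valid :=
  pos_of_chk [] forall_nil a6c312 a6e312 (by decide +kernel)

def a6e313 : Pos := ⟨4052261298678835292472332167570467717662080071974089673208741147724665484307446983010438509877662724071904849030382066452897207911551845438777377979320708828006228271112317304832, 802633041804976552704400022719427434492196608660294981791080310659991301565916746073060929695876700039329819193808015773787989601722300775150739858935326927523461517244094408765601172354426074718375776354304, 8⟩
def a6c313 : Cert := (move 623 (branch (move 622 (branch (move 655 (leaf 526 4)) (move 621 (branch (move 653 (leaf 525 5)) (move 589 (branch (move 494 (leaf 493 5)) (move 588 (branch (move 587 (leaf 587 0)) (move 624 (leaf 588 3)))))))))) (branch (move 591 (branch (move 494 (leaf 494 4)) (move 655 (branch (move 559 (leaf 526 7)) (move 687 (leaf 558 7)))))) (branch (move 655 (branch (move 622 (leaf 526 4)) (move 591 (branch (move 559 (leaf 526 7)) (move 687 (leaf 558 7)))))) (move 589 (branch (move 591 (branch (move 494 (leaf 494 4)) (move 588 (branch (move 624 (leaf 588 0)) (move 587 (branch (move 622 (leaf 587 0)) (move 559 (leaf 555 2))))))))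 (branch (move 621 (branch (move 494 (leaf 493 5)) (move 653 (branch (move 622 (leaf 525 5)) (move 685 (leaf 557 6)))))) (branch (move 494 (branch (move 591 (leaf 494 4)) (move 621 (leaf 493 5)))) (move 588 (branch (move 591 (branch (move 624 (leaf 588 0)) (move 560 (branch (move 559 (leaf 556 2)) (move 592 (branch (move 561 (leaf 557 2)) (move 620 (branch (move 619 (leaf 587 1)) (move 621 (leaf 588 1)))))))))) (branch (move 587 (branch (move 622 (leaf 587 0)) (move 559 (leaf 555 2)))) (move 622 (branch (move 587 (leaf 587 0)) (move 624 (branch (move 591 (leaf 588 0)) (move 621 (leaf 588 3)))))))))))))))))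
theorem a6p313 : a6e313.Valid :=
  pos_of_chk [] forall_nil a6c313 a6e313 (by decide +kernel)

def a6e314 : Pos := ⟨4052261298678835292637087311413602350821645691152043110423207594928104814132914106030891546279206469322846280406256975772352319384947386031668305691313908279508004950099078676480, 530832057458018208422356193694509075576967642336463538707860166933103362260109650853022048726702295733604708469101698110646127672167513390192128565825823905013415764495830683964221782228992, 10⟩
def a6c314 : Cert := (move 494 (branch (move 591 (branch (move 623 (leaf 494 4)) (move 462 (branch (move 559 (leaf 462 4)) (move 463 (branch (move 431 (leaf 430 6)) (move 495 (leaf 462 6)))))))) (branch (move 559 (branch (move 589 (branch (move 621 (leaf 493 5)) (move 591 (branch (move 623 (leaf 494 4)) (move 588 (branch (move 587 (leaf 555 2)) (move 556 (branch (move 555 (leaf 555 3)) (move 592 (branch (move 557 (leaf 556 0)) (move 593 (branch (move 594 (leaf 558 3)) (move 625 (branch (move 624 (leaf 589 0)) (move 626 (leaf 590 0)))))))))))))))) (branch (move 589 (branch (move 621 (leaf 493 5)) (move 560 (branch (move 561 (leaf 557 1)) (move 588 (branch (move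 587 (leaf 555 2)) (move 591 (leaf 556 2)))))))) (move 560 (branch (move 557 (leaf 524 3)) (move 561 (leaf 525 3))))))) (move 589 (branch (move 621 (leaf 493 5)) (move 462 (branch (move 557 (leaf 461 5)) (move 463 (branch (move 431 (leaf 430 6)) (move 495 (leaf 462 6)))))))))))
theorem a6p314 : a6e314.Valid :=
  pos_of_chk [] forall_nil a6c314 a6e314 (by decide +kernel)

def a6e315 : Pos := ⟨4052261298678835292582168930132557473101790484759391964685052112526958370857758398357407200812025220905865803280965339332533948893815539167371329787316175129007412723770158219264, 802633041879727579711729208997459976617943130728375678464888561690779026445990461365638330087408653800093637599515332307043917885534732895198352875376550370557391464135268303149855728331633113860297338126336, 6⟩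
def a6c315 : Cert := (move 622 (branch (move 654 (branch (move 557 (leaf 525 7)) (move 655 (branch (move 623 (leaf 526 4)) (move 687 (leaf 558 4)))))) (branch (move 623 (branch (move 655 (leaf 526 4)) (move 621 (branch (move 653 (leaf 525 5)) (move 591 (branch (move 494 (leaf 494 4)) (move 592 (branch (move 593 (leaf 589 1)) (move 620 (leaf 588 2)))))))))) (move 654 (branch (move 557 (leaf 525 7)) (move 653 (branch (move 621 (leaf 525 5)) (move 685 (leaf 557 5)))))))))
theorem a6p315 : a6e315.Valid :=
  pos_of_chk [] forall_nil a6c315 a6e315 (by decide +kernel)

def a6e316 : Pos := ⟨4052261298678835292582168930132557473101790484759391964685052112526958370857758398357407200812025220905865803280965339332533948893815539167371329787316175129007412723770158219264, 802633041879727579776995445501598388172143330545172561271084032251922063858013563012583799940893558100973313161561868045827334298241619676513629940853197499158709498934685431763602608063099112332059828289536, 6⟩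
def a6c316 : Cert := (move 622 (branch (move 654 (branch (move 557 (leaf 525 7)) (move 655 (branch (move 623 (leaf 526 4)) (move 687 (leaf 558 4)))))) (branch (move 654 (branch (move 557 (leaf 525 7)) (move 653 (branch (move 621 (leaf 525 5)) (move 685 (leaf 557 5)))))) (move 621 (branch (move 653 (leaf 525 5)) (move 589 (branch (move 494 (leaf 493 5)) (move 623 (branch (move 655 (leaf 526 4)) (move 588 (branch (move 587 (leaf 587 0)) (move 624 (leaf 588 3)))))))))))))
theorem a6p316 : a6e316.Valid :=
  pos_of_chk [] forall_nil a6c316 a6e316 (by decide +kernel)

def a6e317 : Pos := ⟨4052261299150580595739779980443796673445179302516658262975262648475130601663617126329910152789972309970053626348940522651197799997418709110408904770384087560937091955555253092352, 130814297421096699613628274932372054471798810233708891813878818133304300713763760210396307060879747394166395623148195889522691743810995307256485373932366180957462559420621944383802572884719840526336, 8⟩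
def a6c317 : Cert := (move 556 (branch (move 555 (branch (move 591 (leaf 555 0)) (move 554 (leaf 522 2)))) (branch (move 555 (branch (move 554 (leaf 522 2)) (move 587 (branch (move 586 (leaf 554 1)) (move 559 (branch (move 588 (leaf 555 1)) (move 560 (leaf 524 3)))))))) (move 559 (branch (move 560 (leaf 524 3)) (move 591 (branch (move 592 (leaf 556 0)) (move 622 (branch (move 654 (leaf 525 7)) (move 588 (branch (move 587 (leaf 555 1)) (move 620 (branch (move 652 (leaf 524 6)) (move 621 (branch (move 619 (leaf 587 2)) (move 653 (leaf 524 4)))))))))))))))))
theorem a6p317 : a6e317.Valid :=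
  pos_of_chk [] forall_nil a6c317 a6e317 (by decide +kernel)

def a6e318 : Pos := ⟨4052261298678835292637087311413602350821645691152043110423207594928104814132914106030891546279206469322846280406256975772352319384947386031668305691313908279508004950099078676480, 140158175805986955423431525030185668751306471537841020065406805554062453912601355152962187644022914706240901171692513714108002481245043833614459002858022760155163789332275429656486052996412025602048, 9⟩
def a6c318 : Cert := (move 557 (branch (move 622 (branch (move 654 (leaf 525 7)) (move 621 (branch (move 653 (leaf 525 5)) (move 589 (branch (move 494 (leaf 493 5)) (move 492 (leaf 492 7)))))))) (branch (move 556 (branch (move 555 (branch (move 591 (leaf 555 0)) (move 554 (leaf 522 2)))) (branch (move 555 (branch (move 554 (leaf 522 2)) (move 587 (branch (move 586 (leaf 554 1)) (move 559 (branch (move 588 (leaf 555 1)) (move 560 (leaf 524 3)))))))) (move 559 (branch (move 560 (leaf 524 3)) (move 591 (branch (move 592 (leaf 556 0)) (move 588 (branch (move 587 (leaf 555 1)) (move 620 (branch (move 652 (leaf 524 6)) (move 619 (branch (move 589 (leaf 587 1)) (move 651 (leaf 523 5)))))))))))))))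 (ref 0))))
theorem a6p318 : a6e318.Valid :=
  pos_of_chk [a6e317] (forall_cons a6p317 forall_nil) a6c318 a6e318 (by decide +kernel)

def a6e319 : Pos := ⟨4052261298678835292637087311413602350821645691152043110423207594928104814132914106030891546279206469322846280406256975772352319384947386031668305691313908279508004950099078676480, 4826195733906350879886545757117304796121852147936605200832003417635554187800697855627002091220526897103686790486917124881383675582045972806405960937737681686800332795540989641957565920318770522137110211326625917698048, 10⟩
def a6c319 : Cert := (move 622 (branch (move 654 (branch (move 557 (leaf 525 7)) (move 687 (branch (move 655 (leaf 558 4)) (move 686 (branch (move 719 (leaf 590 4)) (move 685 (branch (move 653 (leaf 557 5)) (move 717 (leaf 589 5)))))))))) (branch (move 654 (branch (move 685 (branch (move 653 (leaf 557 5)) (move 686 (branch (move 717 (leaf 589 5)) (move 591 (branch (move 559 (leaf 558 6)) (move 623 (branch (move 494 (leaf 494 4)) (move 718 (leaf 590 6)))))))))) (branch (move 687 (branch (move 655 (leaf 558 4)) (move 686 (branch (move 719 (leaf 590 4)) (move 685 (branch (move 653 (leaf 557 5)) (move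 717 (leaf 589 5)))))))) (move 655 (branch (move 623 (leaf 526 4)) (move 687 (leaf 558 4))))))) (branch (move 654 (branch (move 557 (leaf 525 7)) (move 685 (branch (move 653 (leaf 557 5)) (move 686 (branch (move 717 (leaf 589 5)) (move 591 (branch (move 559 (leaf 558 6)) (move 623 (branch (move 494 (leaf 494 4)) (move 718 (leaf 590 6)))))))))))) (move 560 (branch (move 559 (branch (move 557 (leaf 524 3)) (move 561 (leaf 525 3)))) (branch (move 623 (branch (move 655 (leaf 526 4)) (move 591 (branch (move 494 (leaf 494 4)) (move 557 (branch (move 559 (leaf 524 3)) (move 592 (branch (move 593 (leaf 557 3)) (move 556 (branch (move 555 (leaf 555 0)) (move 589 (leaf 556 3)))))))))))) (branch (move 623 (branch (move 655 (leaf 526 4)) (move 561 (branch (move 559 (leaf 525 3)) (move 591 (branch (move 494 (leaf 494 4)) (move 592 (branch (move 589 (leaf 557 2)) (move 593 (branch (move 594 (leaf 590 1)) (move 562 (leaf 558 2)))))))))))) (move 623 (branch (move 655 (leaf 526 4)) (move 624 (branch (move 591 (branch (move 494 (leaf 494 4)) (move 589 (branch (move 588 (leaf 588 0)) (move 592 (branch (move 561 (leaf 557 2)) (move 557 (branch (move 556 (leaf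 556 3)) (move 593 (leaf 557 3)))))))))) (branch (move 625 (branch (move 589 (leaf 589 3)) (move 657 (branch (move 658 (leaf 622 0)) (move 593 (branch (move 594 (leaf 590 2)) (move 592 (branch (move 528 (leaf 528 4)) (move 689 (leaf 560 7)))))))))) (branch (move 591 (branch (move 494 (leaf 494 4)) (move 625 (branch (move 626 (leaf 590 3)) (move 593 (branch (move 594 (leaf 590 2)) (move 592 (branch (move 557 (leaf 557 3)) (move 657 (branch (move 658 (leaf 622 0)) (move 528 (leaf 528 4)))))))))))) (move 625 (branch (move 589 (leaf 589 3)) (move 591 (branch (move 626 (leaf 590 3)) (move 494 (leaf 494 4))))))))))))))))))))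
theorem a6p319 : a6e319.Valid :=
  pos_of_chk [] forall_nil a6c319 a6e319 (by decide +kernel)

def a6e320 : Pos := ⟨6078391947074762332558031294576357808965908091624555350447157096894093094674920141591104897262143653230423058785497642361473221133516968864981844714838437829651760622085047582720, 39159741992645860821283898247710740777592977721463262280102662483489780938920759707473095797139128521110357112976233358133258049435515703629500417527992206966200424245635261087146320068608, 6⟩
def a6c320 : Cert := (move 558 (branch (move 493 (branch (move 461 (leaf 461 4)) (move 494 (branch (move 462 (leaf 461 5)) (move 495 (branch (move 496 (leaf 492 1)) (move 463 (leaf 462 6)))))))) (branch (move 559 (branch (move 560 (leaf 524 3)) (move 493 (branch (move 461 (leaf 461 4)) (move 588 (branch (move 587 (leaf 555 2)) (move 620 (leaf 492 5)))))))) (move 560 (branch (move 559 (leaf 524 3)) (move 494 (branch (move 462 (leaf 461 5)) (move 591 (branch (move 623 (leaf 494 4)) (move 592 (branch (move 561 (leaf 557 2)) (move 593 (leaf 557 3)))))))))))))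
theorem a6p320 : a6e320.Valid :=
  pos_of_chk [] forall_nil a6c320 a6e320 (by decide +kernel)

def a6e321 : Pos := ⟨6078391947074762332558031294576357808965908091624555350447157096894093094674920141591104897262143653230423058785497642361473221133516968864981844714838437829651760622085047582720, 18687757019967751777290846188159571996123195153728327032888746433924476033778020167633285661344798989305493395768765062572771685686088184096876662595210714050508898373808727029057515445973571076096, 7⟩
def a6c321 : Cert := (move 588 (branch (move 620 (branch (move 493 (leaf 492 5)) (move 591 (branch (move 619 (leaf 587 1)) (move 560 (branch (move 559 (leaf 556 2)) (move 592 (branch (move 561 (leaf 557 2)) (move 624 (branch (move 623 (leaf 588 0)) (move 625 (leaf 589 0)))))))))))) (branch (move 493 (branch (move 620 (leaf 492 5)) (move 556 (branch (move 461 (leaf 460 5)) (move 492 (branch (move 460 (leaf 460 4)) (move 555 (branch (move 554 (leaf 554 0)) (move 491 (branch (move 490 (leaf 490 0)) (move 459 (leaf 459 7)))))))))))) (branch (move 591 (branch (move 556 (branch (move 555 (leaf 555 3)) (move 620 (branch (move 619 (leaf 587 1)) (move 652 (leaf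 524 6)))))) (move 560 (branch (move 559 (leaf 556 2)) (move 592 (branch (move 561 (leaf 557 2)) (move 624 (branch (move 623 (leaf 588 0)) (move 625 (leaf 589 0)))))))))) (move 591 (branch (move 560 (branch (move 559 (leaf 556 2)) (move 592 (branch (move 561 (leaf 557 2)) (move 624 (branch (move 623 (leaf 588 0)) (move 625 (leaf 589 0)))))))) (move 556 (branch (move 555 (leaf 555 3)) (move 492 (branch (move 460 (leaf 460 4)) (move 493 (branch (move 461 (leaf 460 5)) (move 491 (branch (move 490 (leaf 490 0)) (move 459 (leaf 459 7))))))))))))))))
theorem a6p321 : a6e321.Valid :=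
  pos_of_chk [] forall_nil a6c321 a6e321 (by decide +kernel)

def a6e322 : Pos := ⟨6078391947074762332558031294576357808965908091624555350447157096894093094674920141591104897262143653230423058785497642361473221133516968864981844714838437829651760622085047582720, 56063270322394782167751705497379154577536288432088610260021867732376539868269473883813871314017902654863276688768350950645543575683352553189114847290498227114531399046814677413795453194422366240768, 5⟩
def a6c322 : Cert := (move 493 (branch (move 588 (branch (move 620 (leaf 492 5)) (move 556 (branch (move 461 (leaf 460 5)) (move 555 (branch (move 554 (leaf 554 0)) (move 591 (leaf 555 3)))))))) (branch (move 461 (branch (move 558 (leaf 461 4)) (move 429 (branch (move 556 (leaf 428 5)) (move 428 (branch (move 396 (leaf 396 7)) (move 460 (leaf 428 7)))))))) (branch (move 558 (branch (move 461 (leaf 461 4)) (move 559 (branch (move 560 (leaf 524 3)) (move 588 (branch (move 587 (leaf 555 2)) (move 620 (leaf 492 5)))))))) (move 620 (branch (move 588 (leaf 492 5)) (move 621 (branch (move 652 (leaf 524 5)) (move 653 (branch (move 558 (leaf 525 6)) (move 556 (leaf 524 7))))))))))))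
theorem a6p322 : a6e322.Valid :=
  pos_of_chk [] forall_nil a6c322 a6e322 (by decide +kernel)

def a6e323 : Pos := ⟨4052261299150580595739779980443796673445179302516658262975262648475130601663617126329910152789972309970053626348940522651197799997418709110408904770384087560937091955555253092352, 28031635161197391088687913036654470551837860624527073992794223669046258810570636470371257071834444823832625816164480589352398838906176943470360363457301609991104280209723270473436192996852131430400, 8⟩
def a6c323 : Cert := (move 556 (branch (move 555 (branch (move 591 (leaf 555 0)) (move 554 (leaf 522 2)))) (move 492 (branch (move 460 (branch (move 428 (leaf 428 4)) (move 459 (branch (move 427 (leaf 427 7)) (move 588 (branch (move 491 (leaf 459 7)) (move 620 (branch (move 652 (leaf 524 6)) (move 619 (branch (move 587 (leaf 491 5)) (move 651 (leaf 523 5)))))))))))) (branch (move 493 (branch (move 461 (leaf 461 4)) (move 588 (branch (move 620 (leaf 492 6)) (move 491 (branch (move 490 (leaf 490 0)) (move 459 (leaf 459 7)))))))) (move 461 (branch (move 493 (leaf 461 4)) (move 460 (branch (move 428 (leaf 428 4)) (move 429 (leaf 428 6)))))))))))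
theorem a6p323 : a6e323.Valid :=
  pos_of_chk [] forall_nil a6c323 a6e323 (by decide +kernel)

def a6e324 : Pos := ⟨4052261299386453247291126314958893834756946108198965839251290175248643495428968636479419456045355230293657299320282296090620540303654370649779204309919177201651635458283340300288, 506532662393822574433148510071570852368901408089994918088345488073136393052098446842131192114864968443615586823347402750387962973254013151348936884021346327367670088376598396928, 11⟩
def a6c324 : Cert := (move 460 (branch (move 555 (branch (move 554 (leaf 522 2)) (move 492 (branch (move 428 (leaf 428 4)) (move 587 (leaf 459 5)))))) (branch (move 461 (branch (move 493 (leaf 461 4)) (move 492 (branch (move 428 (leaf 428 4)) (move 429 (leaf 428 6)))))) (branch (move 461 (branch (move 493 (leaf 461 4)) (move 555 (branch (move 554 (leaf 522 2)) (move 492 (branch (move 587 (leaf 459 5)) (move 429 (leaf 428 6)))))))) (move 494 (branch (move 555 (branch (move 554 (leaf 522 2)) (move 495 (branch (move 463 (leaf 462 6)) (move 496 (branch (move 493 (leaf 492 1)) (move 497 (leaf 493 1)))))))) (branch (move 554 (branch (move 555 (leaf 522 2)) (move 463 (branch (move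 495 (leaf 462 6)) (move 462 (branch (move 431 (leaf 430 6)) (move 461 (branch (move 429 (leaf 429 7)) (move 427 (branch (move 428 (leaf 427 3)) (move 459 (branch (move 426 (leaf 426 3)) (move 490 (branch (move 491 (leaf 458 1)) (move 458 (branch (move 489 (leaf 457 1)) (move 522 (leaf 426 6)))))))))))))))))) (branch (move 461 (branch (move 493 (leaf 461 4)) (move 462 (branch (move 429 (leaf 429 7)) (move 463 (branch (move 431 (leaf 430 6)) (move 554 (branch (move 555 (leaf 522 2)) (move 427 (branch (move 428 (leaf 427 3)) (move 459 (branch (move 426 (leaf 426 3)) (move 490 (branch (move 491 (leaf 458 1)) (move 458 (branch (move 489 (leaf 457 1)) (move 522 (leaf 426 6)))))))))))))))))) (branch (move 461 (branch (move 493 (leaf 461 4)) (move 462 (branch (move 429 (leaf 429 7)) (move 463 (branch (move 431 (leaf 430 6)) (move 495 (leaf 462 6)))))))) (move 461 (branch (move 493 (leaf 461 4)) (move 555 (branch (move 554 (leaf 522 2)) (move 462 (branch (move 429 (leaf 429 7)) (move 459 (branch (move 495 (leaf 459 0)) (move 426 (branch (move 427 (leaf 426 3)) (move 458 (branch (move 425 (leaf 425 3)) (move 490 (branch (move 489 (leaf 457 1)) (move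 491 (leaf 458 1)))))))))))))))))))))))))
theorem a6p324 : a6e324.Valid :=
  pos_of_chk [] forall_nil a6c324 a6e324 (by decide +kernel)

def a6e325 : Pos := ⟨4052261299150580595739779980443796673445179302516658262975262648475130601663617126329910152789972309970053626348940522651197799997418709110408904770384087560937091955555253092352, 4351082438927820396298040665684402775653620318562789572395735325486742466986694102250548579048642055132543754031778825125813550087486437310038905496696145273644146135647825580288034996224, 13⟩
def a6c325 : Cert := (move 556 (branch (move 555 (branch (move 554 (leaf 522 2)) (move 587 (branch (move 586 (leaf 554 1)) (move 559 (branch (move 588 (leaf 555 1)) (move 560 (leaf 524 3)))))))) (branch (move 492 (branch (move 493 (branch (move 461 (leaf 461 4)) (move 588 (branch (move 620 (leaf 492 6)) (move 491 (branch (move 490 (leaf 490 0)) (move 459 (leaf 459 7)))))))) (branch (move 461 (branch (move 493 (leaf 461 4)) (move 460 (branch (move 428 (leaf 428 4)) (move 429 (leaf 428 6)))))) (branch (move 460 (branch (move 428 (leaf 428 4)) (move 459 (branch (move 427 (leaf 427 7)) (move 491 (branch (move 588 (leaf 459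 7)) (move 461 (branch (move 429 (leaf 428 6)) (move 490 (branch (move 489 (leaf 489 0)) (move 462 (leaf 458 1)))))))))))) (move 460 (branch (move 428 (leaf 428 4)) (move 459 (branch (move 427 (leaf 427 7)) (move 491 (branch (move 588 (leaf 459 7)) (move 490 (branch (move 489 (leaf 489 0)) (move 493 (leaf 490 0)))))))))))))) (move 559 (branch (move 560 (leaf 524 3)) (ref 0))))))
theorem a6p325 : a6e325.Valid :=
  pos_of_chk [a6e324] (forall_cons a6p324 forall_nil) a6c325 a6e325 (by decide +kernel)

def a6e326 : Pos := ⟨4052261297735344686431701973353213705574578468422812805319097487834053239071508065432854333257674788028431588520889882014661358160004739874187107533173549716649830939186729844736, 642106433509388391285463212440557181673339592891603053684301487980010108486262170551574399292841418578918053410878324619618662176682723129464585714335710644766314001304685665169094669029900653685175343906816, 15⟩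
def a6c326 : Cert := (move 557 (branch (move 589 (branch (move 621 (branch (move 492 (leaf 492 7)) (move 558 (branch (move 653 (leaf 525 6)) (move 559 (branch (move 560 (leaf 524 3)) (move 620 (branch (move 652 (leaf 524 5)) (move 588 (branch (move 587 (leaf 555 2)) (move 493 (leaf 492 5)))))))))))) (branch (move 621 (branch (move 494 (leaf 493 6)) (move 492 (leaf 492 7)))) (ref 0)))) (branch (move 589 (branch (move 621 (branch (move 494 (leaf 493 6)) (move 492 (leaf 492 7)))) (branch (move 621 (branch (move 494 (leaf 493 6)) (move 556 (branch (move 653 (leaf 524 7)) (move 555 (branch (move 554 (leaf 554 0)) (move 591 (branch (move 588 (leaf 555 3)) (move 592 (leaf 556 3)))))))))) (ref 1)))) (branch (move 589 (branch (move 621 (branch (move 494 (leaf 493 6)) (move 492 (leaf 492 7)))) (branch (move 621 (branch (move 492 (leaf 492 7)) (move 556 (branch (move 653 (leaf 524 7)) (move 555 (branch (move 554 (leaf 554 0)) (move 591 (branch (move 588 (leaf 555 3)) (move 592 (leaf 556 3)))))))))) (move 591 (branch (move 592 (branch (move 556 (leaf 556 3)) (move 625 (branch (move 624 (leaf 589 0)) (move 593 (branch (move 626 (leaf 590 0)) (move 561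 (branch (move 560 (leaf 557 2)) (move 562 (leaf 558 2)))))))))) (branch (move 556 (branch (move 592 (leaf 556 3)) (move 555 (branch (move 554 (leaf 554 0)) (move 588 (leaf 555 3)))))) (branch (move 560 (branch (move 592 (branch (move 561 (leaf 557 2)) (move 624 (branch (move 625 (leaf 589 0)) (move 623 (branch (move 588 (leaf 588 0)) (move 655 (branch (move 528 (leaf 527 5)) (move 687 (leaf 559 6)))))))))) (branch (move 559 (branch (move 588 (leaf 556 2)) (move 558 (leaf 524 3)))) (move 558 (branch (move 559 (leaf 524 3)) (move 592 (branch (move 561 (leaf 557 2)) (move 593 (leaf 557 3))))))))) (move 588 (branch (move 556 (branch (move 555 (leaf 555 3)) (move 620 (branch (move 619 (leaf 587 1)) (move 652 (leaf 524 6)))))) (move 559 (branch (move 560 (leaf 556 2)) (move 558 (branch (move 587 (leaf 555 2)) (move 623 (branch (move 624 (leaf 588 0)) (move 494 (leaf 494 4))))))))))))))))) (branch (move 589 (branch (move 494 (branch (move 621 (leaf 493 6)) (move 558 (branch (move 462 (leaf 461 5)) (move 493 (branch (move 461 (leaf 461 4)) (move 495 (branch (move 496 (leaf 492 1)) (move 463 (leaf 462 6)))))))))) (branch (ref 0) (branch (move 621 (branch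 (move 494 (leaf 493 6)) (move 556 (branch (move 653 (leaf 524 7)) (move 555 (branch (move 554 (leaf 554 0)) (move 591 (branch (move 588 (leaf 555 3)) (move 592 (leaf 556 3)))))))))) (ref 2))))) (branch (move 589 (branch (move 621 (branch (move 492 (leaf 492 7)) (move 558 (branch (move 653 (leaf 525 6)) (move 559 (branch (move 560 (leaf 524 3)) (move 620 (branch (move 652 (leaf 524 5)) (move 588 (branch (move 587 (leaf 555 2)) (move 493 (leaf 492 5)))))))))))) (branch (ref 1) (branch (ref 2) (move 621 (branch (move 492 (leaf 492 7)) (move 653 (branch (move 558 (leaf 525 6)) (move 556 (leaf 524 7)))))))))) (branch (move 589 (branch (move 621 (branch (move 494 (leaf 493 6)) (move 492 (leaf 492 7)))) (branch (move 494 (branch (move 621 (leaf 493 6)) (move 558 (branch (move 462 (leaf 461 5)) (move 493 (branch (move 461 (leaf 461 4)) (move 495 (branch (move 496 (leaf 492 1)) (move 463 (leaf 462 6)))))))))) (branch (move 621 (branch (move 492 (leaf 492 7)) (move 653 (branch (move 558 (leaf 525 6)) (move 556 (leaf 524 7)))))) (move 493 (branch (move 461 (branch (move 558 (leaf 461 4)) (move 429 (branch (move 556 (leaf 428 5)) (move 428 (branch (move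 396 (leaf 396 7)) (move 460 (leaf 428 7)))))))) (branch (move 460 (branch (move 492 (leaf 460 7)) (move 461 (branch (move 428 (leaf 428 7)) (move 494 (branch (move 462 (leaf 461 6)) (move 495 (branch (move 496 (leaf 492 1)) (move 429 (branch (move 397 (leaf 397 4)) (move 556 (leaf 428 5)))))))))))) (branch (move 492 (branch (move 460 (leaf 460 7)) (move 494 (branch (move 462 (leaf 461 6)) (move 495 (branch (move 496 (leaf 492 1)) (move 463 (branch (move 464 (leaf 460 2)) (move 558 (leaf 462 6)))))))))) (move 558 (branch (move 461 (leaf 461 4)) (move 494 (branch (move 462 (leaf 461 5)) (move 495 (branch (move 496 (leaf 492 1)) (move 463 (leaf 462 6)))))))))))))))) (move 558 (branch (ref 3) (branch (move 494 (branch (move 559 (branch (move 560 (leaf 524 3)) (move 591 (branch (move 462 (leaf 462 4)) (move 623 (leaf 494 4)))))) (move 493 (branch (move 461 (leaf 461 4)) (move 495 (branch (move 496 (leaf 492 1)) (move 463 (leaf 462 6)))))))) (branch (move 556 (branch (move 559 (branch (move 560 (leaf 524 3)) (move 591 (branch (move 592 (leaf 556 0)) (move 623 (branch (move 494 (leaf 494 4)) (move 655 (leaf 526 7)))))))) (branch (move 555 (branch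 (move 591 (leaf 555 0)) (move 554 (leaf 522 2)))) (move 555 (branch (move 554 (leaf 522 2)) (move 587 (branch (move 586 (leaf 554 1)) (move 559 (branch (move 588 (leaf 555 1)) (move 560 (leaf 524 3))))))))))) (ref 4))))))))))))
theorem a6p326 : a6e326.Valid :=
  pos_of_chk [a6e320, a6e321, a6e322, a6e323, a6e325] (forall_cons a6p320 (forall_cons a6p321 (forall_cons a6p322 (forall_cons a6p323 (forall_cons a6p325 forall_nil))))) a6c326 a6e326 (by decide +kernel)

def a6e327 : Pos := ⟨4052261298678835292637087311413602350821645691152043110423207594928104814132914106030891546279206469322846280406256975772352319384947386031668305691313908279508004950099078676480, 177533689354250143526823784320144996117977538403269404002666101458526168726545407330638831387048679535577419321391553257396230899750361714409369374022595593174823028843110320184385925911367068418048, 14⟩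
def a6c327 : Cert := (move 557 (branch (ref 0) (branch (move 494 (branch (move 559 (branch (move 560 (leaf 524 3)) (move 591 (branch (move 462 (leaf 462 4)) (move 623 (leaf 494 4)))))) (move 493 (branch (move 461 (leaf 461 4)) (move 495 (branch (move 496 (leaf 492 1)) (move 463 (leaf 462 6)))))))) (branch (move 556 (branch (move 559 (branch (move 560 (leaf 524 3)) (move 591 (branch (move 592 (leaf 556 0)) (move 623 (branch (move 494 (leaf 494 4)) (move 655 (leaf 526 7)))))))) (branch (move 555 (branch (move 591 (leaf 555 0)) (move 554 (leaf 522 2)))) (move 555 (branch (move 554 (leaf 522 2)) (move 587 (branch (move 586 (leaf 554 1)) (move 559 (branch (move 588 (leaf 555 1)) (move 560 (leaf 524 3))))))))))) (ref 1)))))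
theorem a6p327 : a6e327.Valid :=
  pos_of_chk [a6e323, a6e325] (forall_cons a6p323 (forall_cons a6p325 forall_nil)) a6c327 a6e327 (by decide +kernel)

def a6e328 : Pos := ⟨6078391947074762332283439388171133420366632059661299621756379684888360878299141603223683169926237411145520673159039460162381368677857734543496965194849772077148799490440445296640, 642106433462668999370801869077499380994495375378634207736595708439769076145716877472789095181034085842541379304075642004864903682552515980913708458994407524489898821036302191817237579075393812600088501944320, 10⟩
def a6c328 : Cert := (move 591 (branch (move 560 (branch (move 588 (branch (move 559 (leaf 556 2)) (move 623 (branch (move 624 (leaf 588 0)) (move 587 (branch (move 622 (leaf 587 0)) (move 619 (branch (move 618 (leaf 586 1)) (move 620 (leaf 587 1)))))))))) (branch (move 592 (branch (move 561 (leaf 557 2)) (move 624 (branch (move 625 (leaf 589 0)) (move 623 (branch (move 588 (leaf 588 0)) (move 655 (branch (move 528 (leaf 527 5)) (move 687 (leaf 559 6)))))))))) (branch (move 561 (branch (move 592 (leaf 557 2)) (move 559 (branch (move 562 (leaf 558 1)) (move 588 (leaf 556 2)))))) (move 592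 (branch (move 561 (leaf 557 2)) (move 623 (branch (move 655 (branch (move 687 (leaf 559 6)) (move 528 (branch (move 496 (leaf 495 5)) (move 559 (leaf 527 6)))))) (branch (move 625 (branch (move 624 (leaf 589 0)) (move 593 (branch (move 626 (leaf 590 0)) (move 594 (branch (move 622 (leaf 590 1)) (move 595 (branch (move 559 (leaf 559 3)) (move 563 (branch (move 562 (leaf 559 2)) (move 564 (leaf 560 2)))))))))))) (move 624 (branch (move 625 (leaf 589 0)) (move 655 (branch (move 528 (leaf 527 5)) (move 687 (leaf 559 6))))))))))))))) (branch (move 592 (branch (move 556 (leaf 556 3)) (move 625 (branch (move 624 (leaf 589 0)) (move 593 (branch (move 626 (leaf 590 0)) (move 561 (branch (move 560 (leaf 557 2)) (move 562 (leaf 558 2)))))))))) (branch (move 556 (branch (move 592 (leaf 556 3)) (move 555 (branch (move 554 (leaf 554 0)) (move 588 (leaf 555 3)))))) (move 588 (branch (move 623 (branch (move 624 (leaf 588 0)) (move 587 (branch (move 622 (leaf 587 0)) (move 619 (branch (move 618 (leaf 586 1)) (move 620 (leaf 587 1)))))))) (branch (move 556 (branch (move 555 (leaf 555 3)) (move 620 (branch (move 619 (leaf 587 1)) (move 652 (leaf 524 6))))))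 (move 555 (branch (move 556 (leaf 555 3)) (move 587 (branch (move 554 (leaf 554 3)) (move 623 (branch (move 622 (leaf 587 0)) (move 624 (leaf 588 0)))))))))))))))
theorem a6p328 : a6e328.Valid :=
  pos_of_chk [] forall_nil a6c328 a6e328 (by decide +kernel)

def a6e329 : Pos := ⟨4052261297735344686431701973353213705574578468422812805319097487834053239071508065432854333257674788028431588520889882014661358160004739874187107533173549716649830939186729844736, 642106433584139418383077359455191242950981512083956838744605023201326833720005435298947882155141383173514934080143690732843509194403863799542396973561527762299589206770955845676279345913848526704916528365568, 12⟩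
def a6c329 : Cert := (move 557 (branch (move 589 (branch (move 621 (branch (move 492 (leaf 492 7)) (move 558 (branch (move 653 (leaf 525 6)) (move 559 (branch (move 560 (leaf 524 3)) (move 620 (branch (move 652 (leaf 524 5)) (move 588 (branch (move 587 (leaf 555 2)) (move 493 (leaf 492 5)))))))))))) (branch (ref 0) (branch (ref 1) (move 621 (branch (move 492 (leaf 492 7)) (move 653 (branch (move 558 (leaf 525 6)) (move 556 (leaf 524 7)))))))))) (branch (move 558 (branch (move 493 (branch (move 461 (leaf 461 4)) (move 622 (leaf 493 7)))) (branch (ref 2) (ref 3)))) (branch (move 558 (branch (move 493 (branch (move 461 (leaf 461 4)) (move 622 (leaf 493 7)))) (move 556 (branch (move 555 (branch (move 591 (leaf 555 0)) (move 554 (leaf 522 2)))) (branch (move 555 (branch (move 554 (leaf 522 2)) (move 587 (branch (move 586 (leaf 554 1)) (move 559 (branch (move 588 (leaf 555 1)) (move 560 (leaf 524 3)))))))) (move 559 (branch (move 560 (leaf 524 3)) (move 591 (branch (move 592 (leaf 556 0)) (move 588 (branch (move 587 (leaf 555 1)) (move 623 (branch (move 655 (leaf 526 7)) (move 620 (branch (move 652 (leaf 524 6)) (move 589 (branch (move 624 (leaf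 588 0)) (move 619 (leaf 587 1))))))))))))))))))) (branch (move 589 (branch (move 621 (branch (move 492 (leaf 492 7)) (move 622 (branch (move 493 (leaf 493 4)) (move 654 (leaf 525 4)))))) (branch (move 621 (branch (move 492 (leaf 492 7)) (move 556 (branch (move 653 (leaf 524 7)) (move 555 (branch (move 554 (leaf 554 0)) (move 591 (branch (move 588 (leaf 555 3)) (move 592 (leaf 556 3)))))))))) (ref 4)))) (branch (move 589 (branch (ref 4) (branch (move 621 (branch (move 492 (leaf 492 7)) (move 653 (branch (move 558 (leaf 525 6)) (move 556 (leaf 524 7)))))) (move 621 (branch (move 492 (leaf 492 7)) (move 622 (branch (move 654 (leaf 525 4)) (move 558 (branch (move 653 (leaf 525 5)) (move 623 (branch (move 655 (leaf 526 4)) (move 588 (branch (move 587 (leaf 587 0)) (move 624 (leaf 588 3))))))))))))))) (branch (move 558 (branch (move 493 (branch (move 461 (leaf 461 4)) (move 622 (leaf 493 7)))) (branch (move 589 (branch (move 559 (branch (move 560 (leaf 524 3)) (move 493 (branch (move 461 (leaf 461 4)) (move 588 (branch (move 587 (leaf 555 2)) (move 620 (leaf 492 5)))))))) (move 621 (branch (move 653 (leaf 525 6)) (move 492 (leaf 492 7)))))) (move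 622 (branch (move 654 (leaf 525 7)) (move 621 (branch (move 653 (leaf 525 5)) (move 589 (branch (move 492 (leaf 492 7)) (move 559 (branch (move 560 (leaf 524 3)) (move 588 (branch (move 587 (leaf 555 2)) (move 623 (branch (move 624 (leaf 588 3)) (move 655 (leaf 526 4))))))))))))))))) (move 589 (branch (move 621 (branch (move 492 (leaf 492 7)) (move 622 (branch (move 493 (leaf 493 4)) (move 654 (leaf 525 4)))))) (branch (move 621 (branch (move 492 (leaf 492 7)) (move 653 (branch (move 558 (leaf 525 6)) (move 556 (leaf 524 7)))))) (branch (move 493 (branch (move 622 (leaf 493 4)) (move 492 (branch (move 460 (leaf 460 7)) (move 461 (branch (move 558 (leaf 461 4)) (move 429 (branch (move 397 (leaf 396 5)) (move 556 (leaf 428 5)))))))))) (move 622 (branch (move 493 (leaf 493 4)) (move 654 (branch (move 621 (leaf 525 4)) (move 558 (leaf 525 7)))))))))))))))))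
theorem a6p329 : a6e329.Valid :=
  pos_of_chk [a6e321, a6e322, a6e323, a6e317, a6e328] (forall_cons a6p321 (forall_cons a6p322 (forall_cons a6p323 (forall_cons a6p317 (forall_cons a6p328 forall_nil))))) a6c329 a6e329 (by decide +kernel)

def a6e330 : Pos := ⟨4052261298678835292637087311413602350821645691152043110423207594928104814132914106030891546279206469322846280406256975772352319384947386031668305691313908279508004950099078676480, 13053247315010596859046435304859837824365869233613625478208232349114727885208488874740970799922872383050859469236890061670598163871355594484006688379813271485401825806695589345263932669952, 7⟩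
def a6c330 : Cert := (move 494 (branch (move 493 (branch (move 461 (leaf 461 7)) (move 495 (branch (move 496 (leaf 492 1)) (move 463 (leaf 462 6)))))) (branch (move 589 (branch (move 621 (leaf 493 5)) (move 462 (branch (move 557 (leaf 461 5)) (move 463 (branch (move 431 (leaf 430 6)) (move 495 (leaf 462 6)))))))) (move 589 (branch (move 621 (leaf 493 5)) (move 557 (branch (move 462 (leaf 461 5)) (move 493 (branch (move 461 (leaf 461 4)) (move 588 (branch (move 620 (leaf 492 5)) (move 559 (branch (move 560 (leaf 556 1)) (move 587 (leaf 555 2)))))))))))))))
theorem a6p330 : a6e330.Valid :=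
  pos_of_chk [] forall_nil a6c330 a6e330 (by decide +kernel)

def a6e331 : Pos := ⟨4052261297735344686431701973353213705574578468422812805319097487834053239071508065432854333257674788028431588520889882014661358160004739874187107533173549716649830939186729844736, 802633041898415336483685261833617824201289049215733295420491901160342061252486527259292329906168083178563280232930224032571550784548880121309726362103939081965169665547322516923121596569165136293296965943296, 8⟩
def a6c331 : Cert := (move 558 (branch (move 622 (branch (move 493 (leaf 493 7)) (move 655 (branch (move 623 (leaf 526 4)) (move 654 (branch (move 687 (leaf 558 4)) (move 653 (branch (move 621 (leaf 525 5)) (move 685 (leaf 557 5)))))))))) (branch (move 493 (branch (move 622 (leaf 493 7)) (move 461 (branch (move 429 (leaf 429 4)) (move 494 (leaf 461 7)))))) (branch (move 557 (branch (move 622 (branch (move 654 (leaf 525 7)) (move 623 (branch (move 655 (leaf 526 4)) (move 591 (branch (move 494 (leaf 494 4)) (move 621 (branch (move 653 (leaf 525 5)) (move 592 (branch (move 593 (leaf 589 1)) (move 620 (leaf 588 2)))))))))))) (branch (move 622 (branch (move 654 (leaf 525 7)) (move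 621 (branch (move 653 (leaf 525 5)) (move 589 (branch (move 492 (leaf 492 7)) (move 620 (branch (move 652 (leaf 524 5)) (move 591 (branch (move 592 (leaf 588 1)) (move 619 (leaf 587 2)))))))))))) (branch (move 622 (branch (move 654 (leaf 525 7)) (move 621 (branch (move 653 (leaf 525 5)) (move 589 (branch (move 494 (leaf 493 5)) (move 492 (leaf 492 7)))))))) (branch (move 589 (branch (move 621 (branch (move 653 (leaf 525 6)) (move 492 (leaf 492 7)))) (move 494 (branch (move 462 (leaf 461 5)) (move 591 (branch (move 623 (leaf 494 4)) (move 556 (branch (move 555 (leaf 555 0)) (move 592 (leaf 556 3)))))))))) (move 622 (branch (move 654 (leaf 525 7)) (move 623 (branch (move 655 (leaf 526 4)) (move 591 (branch (move 494 (leaf 494 4)) (move 556 (branch (move 555 (leaf 555 0)) (move 592 (branch (move 589 (leaf 556 3)) (move 593 (leaf 557 3))))))))))))))))) (move 494 (branch (move 493 (branch (move 461 (leaf 461 7)) (move 495 (branch (move 496 (leaf 492 1)) (move 463 (leaf 462 6)))))) (branch (move 589 (branch (move 621 (leaf 493 5)) (move 462 (branch (move 557 (leaf 461 5)) (move 463 (branch (move 431 (leaf 430 6)) (move 495 (leaf 462 6)))))))) (move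 589 (branch (move 621 (leaf 493 5)) (move 493 (branch (move 461 (leaf 461 7)) (move 557 (branch (move 462 (leaf 461 5)) (move 591 (branch (move 623 (leaf 494 4)) (move 556 (branch (move 555 (leaf 555 0)) (move 592 (leaf 556 3)))))))))))))))))))
theorem a6p331 : a6e331.Valid :=
  pos_of_chk [] forall_nil a6c331 a6e331 (by decide +kernel)

def a6e332 : Pos := ⟨14182914542073706401330211709193783098534137702037845185246498335794537806334430514035076738857464917134430301629344403595219788000681881977269894430156161272511675421081764626432, 129444702506879541142900452392797817678334290321554080160974846625265942864925476411805232424099850966560944090660392093172007394994216328278245111854846845436253938033024747026816077660160, 5⟩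
def a6c332 : Cert := (move 588 (branch (move 623 (branch (move 624 (leaf 588 0)) (move 587 (branch (move 622 (leaf 587 0)) (move 619 (branch (move 618 (leaf 586 1)) (move 620 (leaf 587 1)))))))) (branch (move 556 (branch (move 555 (leaf 555 3)) (move 493 (branch (move 620 (leaf 492 6)) (move 461 (branch (move 429 (leaf 428 5)) (move 492 (leaf 460 6)))))))) (move 623 (branch (move 624 (leaf 588 0)) (move 587 (branch (move 622 (leaf 587 0)) (move 555 (branch (move 554 (leaf 554 3)) (move 556 (leaf 555 3)))))))))))
theorem a6p332 : a6e332.Valid :=
  pos_of_chk [] forall_nil a6c332 a6e332 (by decide +kernel)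

def a6e333 : Pos := ⟨14182914542073706401165456565350648465374572082859891748032031888591098476508963391014623702455921171883488870253469494275764676527286341384378966718162961821009898742095003254784, 554763010786897100149767930870876924584786130265800246551574258857127163312848517214841506802910388236338694501508762112791477729164349482413154668472188315085828272015700591164364790169600, 5⟩
def a6c333 : Cert := (move 592 (branch (move 624 (branch (move 625 (leaf 589 0)) (move 560 (branch (move 561 (leaf 557 2)) (move 588 (branch (move 623 (leaf 588 0)) (move 559 (leaf 556 2)))))))) (branch (move 560 (branch (move 561 (leaf 557 2)) (move 588 (branch (move 559 (leaf 556 2)) (move 620 (branch (move 619 (leaf 587 1)) (move 621 (leaf 588 1)))))))) (move 621 (branch (move 620 (leaf 588 1)) (move 593 (branch (move 622 (leaf 589 1)) (move 625 (branch (move 624 (leaf 589 0)) (move 626 (leaf 590 0)))))))))))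
theorem a6p333 : a6e333.Valid :=
  pos_of_chk [] forall_nil a6c333 a6e333 (by decide +kernel)

def a6e334 : Pos := ⟨30391959736789047570560519804103115436544195513222390129223597137879442424262349953995018632761940832418283972247373032128988173753307101360815695499466198778529481789583988359168, 11031304530698719631565325109482597392855551080166833428363345422109656366490168369919513785699479304749225366171928097555019868013388860029059321355449680522178097656021294241919624288606660443520541839485837223395328, 7⟩
def a6c334 : Cert := (move 528 (branch (move 496 (branch (move 623 (leaf 495 5)) (move 495 (branch (move 463 (leaf 463 7)) (move 494 (branch (move 493 (leaf 492 1)) (move 497 (leaf 493 1)))))))) (branch (move 624 (branch (move 625 (leaf 589 0)) (move 655 (branch (move 623 (leaf 527 5)) (move 656 (branch (move 687 (leaf 559 5)) (move 688 (branch (move 559 (leaf 559 7)) (move 689 (branch (move 657 (leaf 560 4)) (move 721 (leaf 592 4)))))))))))) (move 624 (branch (move 625 (leaf 589 0)) (move 497 (branch (move 529 (leaf 496 6)) (move 496 (branch (move 465 (leaf 464 6)) (move 495 (branch (move 494 (leaf 493 1)) (move 463 (leaf 463 7)))))))))))))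
theorem a6p334 : a6e334.Valid :=
  pos_of_chk [] forall_nil a6c334 a6e334 (by decide +kernel)

def a6e335 : Pos := ⟨6078391946603017029455338625546163486342374480259940197895102043347067307144217121292086290751377812583215712842814095482627740521045645786241245635768258548222673616628873166848, 11031304530698719631565325109795331443149404251151942516458412394926495678050077901377857116181723275622785847193213021225087503528428363934735168047060038241000251876806673276166151959174410961103976040749837139836928, 10⟩
def a6c335 : Cert := (move 591 (branch (ref 0) (branch (move 588 (branch (move 623 (branch (move 624 (leaf 588 0)) (move 587 (branch (move 622 (leaf 587 0)) (move 560 (branch (move 559 (leaf 556 2)) (move 592 (branch (move 561 (leaf 557 2)) (move 554 (branch (move 555 (leaf 554 3)) (move 586 (branch (move 553 (leaf 553 3)) (move 618 (branch (move 617 (leaf 585 1)) (move 619 (leaf 586 1)))))))))))))))) (branch (move 556 (branch (move 555 (leaf 555 3)) (move 492 (branch (move 621 (leaf 492 4)) (move 493 (branch (move 461 (leaf 460 6)) (move 491 (branch (move 490 (leaf 490 0)) (move 459 (leaf 459 7)))))))))) (move 623 (branch (move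 624 (leaf 588 0)) (move 560 (branch (move 559 (leaf 556 2)) (move 592 (branch (move 561 (leaf 557 2)) (move 622 (branch (move 587 (leaf 587 0)) (move 593 (branch (move 621 (leaf 589 1)) (move 594 (leaf 590 1))))))))))))))) (branch (move 588 (branch (move 556 (branch (move 555 (leaf 555 3)) (move 493 (branch (move 620 (leaf 492 6)) (move 461 (branch (move 429 (leaf 428 5)) (move 492 (leaf 460 6)))))))) (branch (move 556 (branch (move 555 (leaf 555 3)) (move 492 (branch (move 621 (leaf 492 4)) (move 493 (branch (move 461 (leaf 460 6)) (move 491 (branch (move 490 (leaf 490 0)) (move 459 (leaf 459 7)))))))))) (move 620 (branch (move 619 (leaf 587 1)) (move 592 (branch (move 621 (leaf 588 1)) (move 560 (branch (move 559 (leaf 556 2)) (move 561 (leaf 557 2))))))))))) (branch (ref 1) (move 592 (branch (move 621 (branch (move 620 (leaf 588 1)) (move 593 (branch (move 622 (leaf 589 1)) (move 625 (branch (move 624 (leaf 589 0)) (move 626 (leaf 590 0)))))))) (branch (move 621 (branch (move 620 (leaf 588 1)) (move 593 (branch (move 622 (leaf 589 1)) (move 561 (branch (move 560 (leaf 557 2)) (move 562 (leaf 558 2)))))))) (move 560 (branch (move 561 (leaf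 557 2)) (ref 2)))))))))))
theorem a6p335 : a6e335.Valid :=
  pos_of_chk [a6e332, a6e333, a6e334] (forall_cons a6p332 (forall_cons a6p333 (forall_cons a6p334 forall_nil))) a6c335 a6e335 (by decide +kernel)

def a6e336 : Pos := ⟨14182914542073706401549885234317962609413558527608449768199120265399123579435053344729014120726189910802352210130510949354493269965209269434457798046147093874514044326397446455296, 321053216721990623237286248686328171505744817422011193568257911616688130035772752681602799696154151749801279759847078016018493683550756502108274122879333710349174548182192689479097650063391567026131239436288, 14⟩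
def a6c336 : Cert := (move 592 (branch (move 625 (branch (move 624 (leaf 589 0)) (move 593 (branch (move 626 (leaf 590 0)) (move 561 (branch (move 560 (leaf 557 2)) (move 562 (leaf 558 2)))))))) (branch (move 557 (branch (move 556 (leaf 556 3)) (move 493 (branch (move 622 (leaf 493 4)) (move 492 (branch (move 460 (leaf 460 7)) (move 491 (branch (move 490 (leaf 490 0)) (move 494 (branch (move 462 (leaf 461 6)) (move 496 (branch (move 495 (leaf 492 1)) (move 560 (branch (move 561 (leaf 557 2)) (move 528 (branch (move 623 (leaf 495 5)) (move 464 (branch (move 559 (leaf 463 5)) (move 465 (branch (move 433 (leaf 432 6)) (move 497 (leaf 464 6)))))))))))))))))))))) (branch (move 557 (branch (move 556 (leaf 556 3)) (move 493 (branch (move 622 (leaf 493 4)) (move 492 (branch (move 460 (leaf 460 7)) (move 491 (branch (move 490 (leaf 490 0)) (move 494 (branch (move 462 (leaf 461 6)) (move 625 (branch (move 624 (leaf 589 0)) (move 593 (branch (move 626 (leaf 590 0)) (move 496 (branch (move 495 (leaf 492 1)) (move 561 (branch (move 562 (leaf 558 2)) (move 529 (branch (move 528 (leaf 496 7)) (move 497 (branch (move 464 (leaf 464 7)) (move 498 (branch (move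 466 (leaf 465 6)) (move 530 (leaf 497 6)))))))))))))))))))))))))) (move 593 (branch (move 557 (branch (move 556 (leaf 556 3)) (move 622 (branch (move 493 (leaf 493 4)) (move 594 (branch (move 623 (leaf 590 1)) (move 654 (branch (move 686 (leaf 557 7)) (move 627 (branch (move 626 (leaf 591 0)) (move 595 (branch (move 628 (leaf 592 0)) (move 563 (branch (move 562 (leaf 559 2)) (move 564 (leaf 560 2)))))))))))))))) (branch (move 625 (branch (move 624 (leaf 589 0)) (move 626 (leaf 590 0)))) (move 594 (branch (move 557 (branch (move 556 (leaf 556 3)) (move 622 (branch (move 623 (leaf 590 1)) (move 493 (leaf 493 4)))))) (branch (move 557 (branch (move 556 (leaf 556 3)) (move 493 (branch (move 622 (leaf 493 4)) (move 492 (branch (move 460 (leaf 460 7)) (move 491 (branch (move 490 (leaf 490 0)) (move 494 (branch (move 462 (leaf 461 6)) (move 496 (branch (move 495 (leaf 492 1)) (move 625 (branch (move 624 (leaf 589 0)) (move 560 (branch (move 528 (leaf 496 4)) (move 595 (branch (move 559 (leaf 559 3)) (move 563 (branch (move 562 (leaf 559 2)) (move 564 (leaf 560 2)))))))))))))))))))))) (move 624 (branch (move 625 (leaf 589 0)) (move 595 (branch (move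 623 (leaf 591 1)) (move 563 (branch (move 562 (leaf 559 2)) (move 564 (leaf 560 2))))))))))))))))))
theorem a6p336 : a6e336.Valid :=
  pos_of_chk [] forall_nil a6c336 a6e336 (by decide +kernel)

def a6e337 : Pos := ⟨6078391946603017029455338625546163486342374480259940197895102043347067307144217121292086290751377812583215712842814095482627740521045645786241245635768258548222673616628873166848, 11031304531019772848287315732483837419335847005321757580285113649065004951719724391781281558397774693213771525360405214405152804009483747886087795359935001335657829022079799116859509791418302919728084619239188494024704, 15⟩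
def a6c337 : Cert := (move 591 (branch (ref 0) (branch (move 560 (branch (move 588 (branch (move 559 (leaf 556 2)) (move 623 (branch (move 624 (leaf 588 0)) (move 587 (branch (move 622 (leaf 587 0)) (move 619 (branch (move 618 (leaf 586 1)) (move 620 (leaf 587 1)))))))))) (branch (move 592 (branch (move 561 (leaf 557 2)) (move 624 (branch (move 625 (leaf 589 0)) (move 623 (branch (move 588 (leaf 588 0)) (move 655 (branch (move 528 (leaf 527 5)) (move 687 (leaf 559 6)))))))))) (branch (move 561 (branch (move 592 (leaf 557 2)) (move 559 (branch (move 562 (leaf 558 1)) (move 588 (leaf 556 2)))))) (move 592 (branch (move 561 (leaf 557 2)) (ref 1))))))) (branch (move 588 (branch (move 623 (branch (move 624 (leaf 588 0)) (move 587 (branch (move 622 (leaf 587 0)) (move 619 (branch (move 618 (leaf 586 1)) (move 620 (leaf 587 1)))))))) (branch (move 556 (branch (move 555 (leaf 555 3)) (move 619 (branch (move 620 (leaf 587 1)) (move 587 (branch (move 618 (leaf 586 1)) (move 492 (leaf 491 5)))))))) (move 556 (branch (move 555 (leaf 555 3)) (move 592 (branch (move 557 (leaf 556 3)) (move 624 (branch (move 623 (leaf 588 0)) (move 625 (leaf 589 0)))))))))))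 (branch (move 560 (branch (move 561 (branch (move 592 (leaf 557 2)) (move 559 (branch (move 562 (leaf 558 1)) (move 588 (leaf 556 2)))))) (branch (move 592 (branch (move 561 (leaf 557 2)) (move 557 (branch (move 556 (leaf 556 3)) (move 493 (branch (move 622 (leaf 493 4)) (move 492 (branch (move 460 (leaf 460 7)) (move 491 (branch (move 490 (leaf 490 0)) (move 494 (branch (move 462 (leaf 461 6)) (move 496 (branch (move 495 (leaf 492 1)) (move 528 (branch (move 623 (leaf 495 5)) (move 464 (branch (move 559 (leaf 463 5)) (move 465 (branch (move 433 (leaf 432 6)) (move 497 (leaf 464 6)))))))))))))))))))))) (branch (move 588 (branch (move 559 (leaf 556 2)) (move 556 (branch (move 555 (leaf 555 3)) (move 620 (branch (move 619 (leaf 587 1)) (move 493 (leaf 492 6)))))))) (move 592 (branch (move 561 (leaf 557 2)) (move 556 (branch (move 557 (leaf 556 3)) (move 588 (branch (move 555 (leaf 555 3)) (move 620 (branch (move 619 (leaf 587 1)) (move 493 (leaf 492 6)))))))))))))) (branch (move 557 (branch (move 592 (branch (move 556 (leaf 556 3)) (move 625 (branch (move 624 (leaf 589 0)) (move 593 (branch (move 626 (leaf 590 0)) (move 561 (branch (move 560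 (leaf 557 2)) (move 562 (leaf 558 2)))))))))) (branch (move 493 (branch (move 622 (leaf 493 4)) (move 460 (branch (move 492 (leaf 460 7)) (move 461 (branch (move 428 (leaf 428 7)) (move 494 (branch (move 462 (leaf 461 6)) (move 495 (branch (move 496 (leaf 492 1)) (move 429 (branch (move 397 (leaf 397 4)) (move 556 (leaf 428 5)))))))))))))) (move 493 (branch (move 622 (leaf 493 4)) (move 492 (branch (move 460 (leaf 460 7)) (move 588 (branch (move 620 (leaf 492 5)) (move 491 (branch (move 490 (leaf 490 0)) (move 494 (branch (move 462 (leaf 461 6)) (move 496 (branch (move 495 (leaf 492 1)) (move 560 (branch (move 559 (leaf 556 2)) (move 592 (branch (move 561 (leaf 557 2)) (move 625 (branch (move 624 (leaf 589 0)) (move 593 (branch (move 626 (leaf 590 0)) (move 528 (leaf 496 4))))))))))))))))))))))))) (branch (move 588 (branch (move 556 (branch (move 555 (leaf 555 3)) (move 619 (branch (move 620 (leaf 587 1)) (move 587 (branch (move 618 (leaf 586 1)) (move 492 (leaf 491 5)))))))) (branch (move 556 (branch (move 555 (leaf 555 3)) (move 592 (branch (move 557 (leaf 556 3)) (move 624 (branch (move 623 (leaf 588 0)) (move 625 (leaf 589 0)))))))) (move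 620 (branch (move 619 (leaf 587 1)) (move 557 (branch (move 493 (leaf 492 5)) (move 560 (branch (move 559 (leaf 556 2)) (move 592 (branch (move 561 (leaf 557 2)) (move 624 (branch (move 623 (leaf 588 0)) (move 625 (leaf 589 0))))))))))))))) (ref 2))))))))
theorem a6p337 : a6e337.Valid :=
  pos_of_chk [a6e332, a6e334, a6e336] (forall_cons a6p332 (forall_cons a6p334 (forall_cons a6p336 forall_nil))) a6c337 a6e337 (by decide +kernel)

def a6e338 : Pos := ⟨6078391946603017029455338625546163486342374480259940197895102043347067307144217121292086290751377812583215712842814095482627740521045645786241245635768258548222673616628873166848, 11031304530698719631658763893644234001162339264873154840467020688219277299593528045014655525003904660158670182217413329594447589006297524021119735108337976067931590828881278980648391451205981916863250012312574661492736, 10⟩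
def a6c338 : Cert := (move 591 (branch (ref 0) (branch (move 592 (branch (move 625 (branch (move 624 (leaf 589 0)) (move 593 (branch (move 626 (leaf 590 0)) (move 561 (branch (move 560 (leaf 557 2)) (move 562 (leaf 558 2)))))))) (move 621 (branch (move 620 (leaf 588 1)) (move 557 (branch (move 494 (leaf 493 6)) (move 492 (leaf 492 7)))))))) (branch (move 560 (branch (move 592 (branch (move 561 (leaf 557 2)) (move 624 (branch (move 625 (leaf 589 0)) (move 623 (branch (move 588 (leaf 588 0)) (move 655 (branch (move 528 (leaf 527 5)) (move 687 (leaf 559 6)))))))))) (branch (move 561 (branch (move 592 (leaf 557 2)) (move 559 (branch (move 562 (leaf 558 1)) (move 588 (leaf 556 2)))))) (branch (move 592 (branch (move 561 (leaf 557 2)) (ref 1))) (move 588 (branch (move 559 (leaf 556 2)) (move 623 (branch (move 624 (leaf 588 0)) (move 587 (branch (move 622 (leaf 587 0)) (move 554 (branch (move 555 (leaf 554 3)) (move 586 (branch (move 553 (leaf 553 3)) (move 618 (branch (move 617 (leaf 585 1)) (move 619 (leaf 586 1)))))))))))))))))) (branch (move 560 (branch (move 561 (branch (move 592 (leaf 557 2)) (move 559 (branch (move 562 (leaf 558 1)) (move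 588 (leaf 556 2)))))) (branch (move 588 (branch (move 559 (leaf 556 2)) (move 620 (branch (move 619 (leaf 587 1)) (move 557 (branch (move 493 (leaf 492 5)) (move 621 (branch (move 652 (leaf 524 5)) (move 494 (leaf 493 6)))))))))) (move 592 (branch (move 561 (leaf 557 2)) (move 621 (branch (move 620 (leaf 588 1)) (move 557 (branch (move 494 (leaf 493 6)) (move 492 (leaf 492 7))))))))))) (move 588 (branch (move 623 (branch (move 624 (leaf 588 0)) (move 587 (branch (move 622 (leaf 587 0)) (move 619 (branch (move 618 (leaf 586 1)) (move 620 (leaf 587 1)))))))) (branch (move 623 (branch (move 624 (leaf 588 0)) (move 622 (branch (move 587 (leaf 587 0)) (move 557 (branch (move 493 (leaf 493 4)) (move 621 (branch (move 654 (leaf 525 4)) (move 494 (leaf 493 6)))))))))) (move 620 (branch (move 619 (leaf 587 1)) (move 557 (branch (move 493 (leaf 492 5)) (move 621 (branch (move 652 (leaf 524 5)) (move 494 (leaf 493 6))))))))))))))))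
theorem a6p338 : a6e338.Valid :=
  pos_of_chk [a6e333, a6e334] (forall_cons a6p333 (forall_cons a6p334 forall_nil)) a6c338 a6e338 (by decide +kernel)

def a6e339 : Pos := ⟨4052261297735344686431701973353213705574578468422812805319097487834053239071508065432854333257674788028431588520889882014661358160004739874187107533173549716649830939186729844736, 11031304531019772848343379002802425004363743400646596727052412524352160268788602911090018189376821899690171282399065237889182884356922896670410621801472054671668578113966498873220869689051590636970422147284517909430272, 16⟩
def a6c339 : Cert := (move 589 (branch (ref 0) (branch (move 557 (branch (move 621 (branch (move 494 (leaf 493 6)) (move 492 (leaf 492 7)))) (branch (move 621 (branch (move 494 (leaf 493 6)) (move 622 (branch (move 493 (leaf 493 4)) (move 654 (leaf 525 4)))))) (branch (move 621 (branch (move 492 (leaf 492 7)) (move 622 (branch (move 493 (leaf 493 4)) (move 654 (leaf 525 4)))))) (move 493 (branch (move 622 (leaf 493 4)) (move 460 (branch (move 492 (leaf 460 7)) (move 461 (branch (move 428 (leaf 428 7)) (move 494 (branch (move 462 (leaf 461 6)) (move 495 (branch (move 496 (leaf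 492 1)) (move 429 (branch (move 397 (leaf 397 4)) (move 556 (leaf 428 5)))))))))))))))))) (branch (ref 1) (branch (move 557 (branch (move 621 (branch (move 494 (leaf 493 6)) (move 622 (branch (move 493 (leaf 493 4)) (move 654 (leaf 525 4)))))) (branch (move 493 (branch (move 622 (leaf 493 4)) (move 588 (branch (move 620 (leaf 492 5)) (move 556 (branch (move 461 (leaf 460 5)) (move 555 (branch (move 554 (leaf 554 0)) (move 591 (leaf 555 3)))))))))) (move 621 (branch (move 494 (leaf 493 6)) (move 556 (branch (move 653 (leaf 524 7)) (move 555 (branch (move 554 (leaf 554 0)) (move 591 (branch (move 588 (leaf 555 3)) (move 592 (leaf 556 3))))))))))))) (branch (move 557 (branch (move 621 (branch (move 494 (leaf 493 6)) (move 492 (leaf 492 7)))) (ref 2))) (branch (move 557 (branch (move 621 (branch (move 494 (leaf 493 6)) (move 492 (leaf 492 7)))) (branch (move 621 (branch (move 494 (leaf 493 6)) (move 556 (branch (move 653 (leaf 524 7)) (move 555 (branch (move 554 (leaf 554 0)) (move 591 (branch (move 588 (leaf 555 3)) (move 592 (leaf 556 3)))))))))) (ref 3)))) (branch (move 557 (branch (move 621 (branch (move 492 (leaf 492 7)) (move 622 (branch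 (move 493 (leaf 493 4)) (move 654 (leaf 525 4)))))) (branch (move 493 (branch (move 622 (leaf 493 4)) (move 588 (branch (move 620 (leaf 492 5)) (move 556 (branch (move 461 (leaf 460 5)) (move 555 (branch (move 554 (leaf 554 0)) (move 591 (leaf 555 3)))))))))) (move 621 (branch (move 492 (leaf 492 7)) (move 556 (branch (move 653 (leaf 524 7)) (move 555 (branch (move 554 (leaf 554 0)) (move 591 (branch (move 588 (leaf 555 3)) (move 592 (leaf 556 3))))))))))))) (ref 4)))))))))
theorem a6p339 : a6e339.Valid :=
  pos_of_chk [a6e335, a6e337, a6e328, a6e321, a6e338] (forall_cons a6p335 (forall_cons a6p337 (forall_cons a6p328 (forall_cons a6p321 (forall_cons a6p338 forall_nil))))) a6c339 a6e339 (by decide +kernel)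

def a6e340 : Pos := ⟨384428668967314144038986444748558020167088376808025102926089953714390418270268738918863339877041455078728593437922928050078831327984132053504145584302443200512, 15857500261394538344259996292929224736681271967808904727888934763883810548988436498273785660317954582937587890910136123699313700922478845638050119505034646322022470851940750598564036557384983808312129493339925209153536, 17⟩
def a6c340 : Cert := (move 590 (branch (move 558 (branch (move 622 (branch (move 655 (branch (move 623 (leaf 526 4)) (move 654 (branch (move 687 (leaf 558 4)) (move 653 (branch (move 621 (leaf 525 5)) (move 685 (leaf 557 5)))))))) (branch (move 654 (branch (move 557 (leaf 525 7)) (move 655 (branch (move 623 (leaf 526 4)) (move 687 (leaf 558 4)))))) (branch (move 557 (branch (move 654 (leaf 525 7)) (move 621 (branch (move 653 (leaf 525 5)) (move 589 (branch (move 492 (leaf 492 7)) (move 559 (branch (move 560 (leaf 524 3)) (move 588 (branch (move 587 (leaf 555 2)) (move 620 (branch (move 652 (leaf 524 5)) (move 591 (branch (move 619 (leaf 587 1)) (move 592 (leaf 588 1)))))))))))))))) (move 589 (branch (move 623 (branch (move 655 (leaf 526 4))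 (move 588 (branch (move 587 (leaf 587 0)) (move 624 (branch (move 591 (leaf 588 0)) (move 625 (leaf 589 3)))))))) (branch (move 621 (branch (move 653 (leaf 525 5)) (move 557 (branch (move 492 (leaf 492 7)) (move 620 (branch (move 652 (leaf 524 5)) (move 591 (branch (move 592 (leaf 588 1)) (move 619 (leaf 587 2)))))))))) (move 621 (branch (move 653 (leaf 525 5)) (move 623 (branch (move 655 (leaf 526 4)) (move 588 (branch (move 587 (leaf 587 0)) (move 624 (leaf 588 3))))))))))))))) (branch (ref 0) (branch (ref 1) (branch (ref 2) (branch (ref 3) (branch (ref 4) (ref 5)))))))) (branch (move 558 (branch (move 494 (branch (move 591 (branch (move 623 (leaf 494 4)) (move 589 (branch (move 621 (leaf 493 5)) (move 559 (branch (move 462 (leaf 462 4)) (move 560 (branch (move 561 (leaf 557 1)) (move 588 (leaf 556 2)))))))))) (move 493 (branch (move 461 (leaf 461 7)) (move 495 (branch (move 496 (leaf 492 1)) (move 463 (leaf 462 6)))))))) (branch (move 622 (branch (move 493 (leaf 493 7)) (move 655 (branch (move 623 (leaf 526 4)) (move 654 (branch (move 687 (leaf 558 4)) (move 653 (branch (move 621 (leaf 525 5)) (move 685 (leaf 557 5)))))))))) (branch (move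 493 (branch (move 622 (leaf 493 7)) (move 461 (branch (move 429 (leaf 429 4)) (move 494 (leaf 461 7)))))) (ref 0))))) (branch (ref 6) (branch (move 558 (branch (move 622 (branch (move 493 (leaf 493 7)) (move 655 (branch (move 623 (leaf 526 4)) (move 654 (branch (move 687 (leaf 558 4)) (move 653 (branch (move 621 (leaf 525 5)) (move 685 (leaf 557 5)))))))))) (branch (move 493 (branch (move 622 (leaf 493 7)) (move 461 (branch (move 429 (leaf 429 4)) (move 494 (leaf 461 7)))))) (branch (ref 2) (ref 7))))) (branch (ref 8) (branch (move 558 (branch (move 493 (branch (move 622 (leaf 493 7)) (move 461 (branch (move 429 (leaf 429 4)) (move 494 (leaf 461 7)))))) (branch (ref 5) (branch (ref 7) (move 493 (branch (move 622 (leaf 493 7)) (move 461 (branch (move 429 (leaf 429 4)) (move 557 (leaf 461 4)))))))))) (branch (move 558 (branch (move 622 (branch (move 493 (leaf 493 7)) (move 655 (branch (move 623 (leaf 526 4)) (move 654 (branch (move 687 (leaf 558 4)) (move 653 (branch (move 621 (leaf 525 5)) (move 685 (leaf 557 5)))))))))) (branch (move 493 (branch (move 622 (leaf 493 7)) (move 461 (branch (move 429 (leaf 429 4)) (move 494 (leaf 461 7)))))) (branch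 (ref 3) (ref 9))))) (branch (ref 10) (branch (move 558 (branch (move 493 (branch (move 622 (leaf 493 7)) (move 461 (branch (move 429 (leaf 429 4)) (move 494 (leaf 461 7)))))) (branch (ref 4) (branch (move 493 (branch (move 622 (leaf 493 7)) (move 461 (branch (move 429 (leaf 429 4)) (move 557 (leaf 461 4)))))) (ref 9))))) (branch (move 558 (branch (move 493 (branch (move 622 (leaf 493 7)) (move 461 (branch (move 429 (leaf 429 4)) (move 494 (leaf 461 7)))))) (branch (ref 1) (move 493 (branch (move 622 (leaf 493 7)) (move 461 (branch (move 429 (leaf 429 4)) (move 557 (leaf 461 4))))))))) (ref 11))))))))))))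
theorem a6p340 : a6e340.Valid :=
  pos_of_chk [a6e313, a6e314, a6e315, a6e316, a6e318, a6e319, a6e326, a6e327, a6e329, a6e330, a6e331, a6e339] (forall_cons a6p313 (forall_cons a6p314 (forall_cons a6p315 (forall_cons a6p316 (forall_cons a6p318 (forall_cons a6p319 (forall_cons a6p326 (forall_cons a6p327 (forall_cons a6p329 (forall_cons a6p330 (forall_cons a6p331 (forall_cons a6p339 forall_nil)))))))))))) a6c340 a6e340 (by decide +kernel)

def a6e341 : Pos := ⟨329510287686269266319131238355906874428932894406878659650934246040906072803087490501882862751749818638910222946791081185781855423986398903003553357973522743296, 15857500261394538344264668232121669864585160527533141826205707807447154641673929374221703494807783622847934738194359310076740091038554136018113212335130218695467678292381670470964652162148555744991587959112713845604352, 18⟩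
def a6c341 : Cert := (move 524 (branch (move 523 (branch (move 494 (branch (move 495 (leaf 491 2)) (move 522 (branch (move 493 (leaf 490 2)) (move 554 (branch (move 553 (leaf 521 1)) (move 555 (leaf 522 1)))))))) (branch (move 494 (branch (move 495 (leaf 491 2)) (move 522 (branch (move 493 (leaf 490 2)) (move 490 (branch (move 489 (leaf 489 3)) (move 491 (leaf 490 3)))))))) (branch (move 554 (branch (move 555 (leaf 522 1)) (move 522 (branch (move 553 (leaf 521 1)) (move 490 (branch (move 489 (leaf 489 3)) (move 491 (leaf 490 3)))))))) (ref 0))))) (branch (move 523 (branch (move 554 (branch (move 555 (leaf 522 1)) (move 522 (branch (move 553 (leaf 521 1)) (move 490 (branch (move 489 (leaf 489 3)) (move 491 (leaf 490 3)))))))) (branch (move 558 (branch (move 559 (leaf 523 0)) (move 522 (branch (move 557 (leaf 522 0)) (move 490 (branch (move 489 (leaf 489 3)) (move 491 (leaf 490 3)))))))) (branch (move 558 (branch (move 559 (leaf 523 0)) (move 522 (branch (move 557 (leaf 522 0)) (move 554 (branch (move 553 (leaf 521 1)) (move 555 (leaf 522 1)))))))) (ref 1))))) (branch (move 523 (branch (move 494 (branch (move 495 (leaf 491 2)) (move 522 (branch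 (move 493 (leaf 490 2)) (move 554 (branch (move 553 (leaf 521 1)) (move 555 (leaf 522 1)))))))) (branch (move 494 (branch (move 495 (leaf 491 2)) (move 522 (branch (move 493 (leaf 490 2)) (move 490 (branch (move 489 (leaf 489 3)) (move 491 (leaf 490 3)))))))) (branch (move 554 (branch (move 555 (leaf 522 1)) (move 522 (branch (move 553 (leaf 521 1)) (move 490 (branch (move 489 (leaf 489 3)) (move 491 (leaf 490 3)))))))) (ref 2))))) (branch (move 523 (branch (move 494 (branch (move 495 (leaf 491 2)) (move 522 (branch (move 493 (leaf 490 2)) (move 554 (branch (move 553 (leaf 521 1)) (move 555 (leaf 522 1)))))))) (branch (move 558 (branch (move 559 (leaf 523 0)) (move 522 (branch (move 557 (leaf 522 0)) (move 554 (branch (move 553 (leaf 521 1)) (move 555 (leaf 522 1)))))))) (branch (move 558 (branch (move 559 (leaf 523 0)) (move 494 (branch (move 495 (leaf 491 2)) (move 522 (branch (move 557 (leaf 522 0)) (move 493 (leaf 490 2)))))))) (ref 3))))) (branch (move 523 (branch (move 494 (branch (move 495 (leaf 491 2)) (move 522 (branch (move 493 (leaf 490 2)) (move 490 (branch (move 489 (leaf 489 3)) (move 491 (leaf 490 3)))))))) (branch (move 558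 (branch (move 559 (leaf 523 0)) (move 522 (branch (move 557 (leaf 522 0)) (move 490 (branch (move 489 (leaf 489 3)) (move 491 (leaf 490 3)))))))) (branch (move 558 (branch (move 559 (leaf 523 0)) (move 494 (branch (move 495 (leaf 491 2)) (move 522 (branch (move 557 (leaf 522 0)) (move 493 (leaf 490 2)))))))) (ref 4))))) (branch (move 523 (branch (ref 0) (branch (ref 1) (branch (ref 2) (branch (ref 3) (ref 4)))))) (ref 5))))))))
theorem a6p341 : a6e341.Valid :=
  pos_of_chk [a6e308, a6e309, a6e310, a6e311, a6e312, a6e340] (forall_cons a6p308 (forall_cons a6p309 (forall_cons a6p310 (forall_cons a6p311 (forall_cons a6p312 (forall_cons a6p340 forall_nil)))))) a6c341 a6e341 (by decide +kernel)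

def a6e342 : Pos := ⟨411887859607836582898914047944883593036166118008598324563667807551132591003859363127353578439687273298637778683488851482227319279982998628754441697466903429120, 80263304189841533649238742666689859074202979517836224938084467572956360791981183309247752366694217425814763937231756521687761424690585516196986888950856400294879597663187015217371901735261400375932422717440, 8⟩
def a6c342 : Cert := (move 555 (branch (move 554 (leaf 522 1)) (move 587 (branch (move 619 (branch (move 492 (leaf 491 6)) (move 651 (branch (move 556 (leaf 523 6)) (move 652 (branch (move 684 (leaf 555 4)) (move 620 (leaf 523 4)))))))) (branch (move 491 (branch (move 490 (leaf 490 3)) (move 588 (branch (move 620 (leaf 491 4)) (move 556 (branch (move 459 (leaf 459 4)) (move 558 (branch (move 559 (leaf 523 0)) (move 586 (branch (move 557 (leaf 554 1)) (move 618 (leaf 490 5)))))))))))) (move 491 (branch (move 490 (leaf 490 3)) (move 492 (branch (move 619 (leaf 491 6)) (move 460 (leaf 459 6)))))))))))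
theorem a6p342 : a6e342.Valid :=
  pos_of_chk [] forall_nil a6c342 a6e342 (by decide +kernel)

def a6e343 : Pos := ⟨411887859607836582898914047944883593036166118008598324563667807551132591003859363127353578439687273298637778683488851482227319279982998628754441697466903429120, 80263304194513472841683870570578418795137860712808042246474646232374783192128973068597614066636007656364118810745733488025405704217822810487556254041102363734645947391134028524509562780576245373256876425216, 11⟩
def a6c343 : Cert := (move 555 (branch (move 554 (leaf 522 1)) (move 587 (branch (move 619 (branch (move 492 (leaf 491 6)) (move 651 (branch (move 556 (leaf 523 6)) (move 652 (branch (move 684 (leaf 555 4)) (move 620 (leaf 523 4)))))))) (branch (move 491 (branch (move 490 (leaf 490 3)) (move 492 (branch (move 619 (leaf 491 6)) (move 460 (leaf 459 6)))))) (branch (move 491 (branch (move 490 (leaf 490 3)) (move 588 (branch (move 620 (leaf 491 4)) (move 459 (branch (move 556 (leaf 459 4)) (move 618 (branch (move 586 (leaf 490 5)) (move 619 (branch (move 650 (leaf 522 5)) (move 428 (branch (move 460 (leaf 427 6)) (move 427 (branch (move 396 (leaf 395 6)) (move 426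 (branch (move 458 (leaf 426 7)) (move 394 (leaf 394 7)))))))))))))))))) (move 491 (branch (move 490 (leaf 490 3)) (move 492 (branch (move 460 (leaf 459 6)) (move 588 (branch (move 620 (leaf 491 4)) (move 459 (branch (move 556 (leaf 459 4)) (move 494 (branch (move 495 (leaf 491 2)) (move 458 (branch (move 493 (leaf 458 3)) (move 426 (leaf 426 7))))))))))))))))))))
theorem a6p343 : a6e343.Valid :=
  pos_of_chk [] forall_nil a6c343 a6e343 (by decide +kernel)

def a6e344 : Pos := ⟨411887859607836582898914047944883593036166118008598324563667807551132591003859363127353578439687273298637778683488851482227319279982998628754441697466903429120, 7091457274751847462516433051476708083810394037369943065388406248990687718822628428256038773167065139453490259261092536189696484330241913424198960190324819109092691418149814272000, 12⟩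
def a6c344 : Cert := (move 494 (branch (move 495 (leaf 491 2)) (move 462 (branch (move 430 (branch (move 557 (leaf 429 5)) (move 398 (branch (move 493 (leaf 397 5)) (move 399 (branch (move 431 (leaf 398 6)) (move 367 (leaf 366 6)))))))) (branch (move 558 (branch (move 559 (leaf 523 0)) (move 461 (branch (move 429 (leaf 429 7)) (move 431 (branch (move 463 (leaf 430 6)) (move 430 (branch (move 399 (leaf 398 6)) (move 493 (branch (move 590 (leaf 461 7)) (move 398 (leaf 397 5)))))))))))) (branch (move 558 (branch (move 559 (leaf 523 0)) (move 461 (branch (move 429 (leaf 429 7)) (move 557 (branch (move 589 (leaf 461 5)) (move 493 (branch (move 590 (leaf 461 4)) (move 556 (branch (move 588 (leaf 460 5)) (move 555 (branch (move 554 (leaf 522 1)) (move 491 (branch (move 490 (leaf 490 3)) (move 459 (branch (move 427 (leaf 427 4)) (move 460 (branch (move 458 (leaf 458 0)) (move 428 (leaf 427 6)))))))))))))))))))) (move 558 (branch (move 559 (leaf 523 0)) (move 557 (branch (move 589 (leaf 461 5)) (move 430 (leaf 429 5))))))))))))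
theorem a6p344 : a6e344.Valid :=
  pos_of_chk [] forall_nil a6c344 a6e344 (by decide +kernel)

def a6e345 : Pos := ⟨411887859607836582898914047944883593036166118008598324563667807551132591003859363127353578439687273298637778683488851482227319279982998628754441697466903429120, 6078391949905234150789758639991599843187788445710289471543835749941596256867963921736505260870555386288581777120367780430042313667523456243918550375560575062900081402359379394560, 9⟩
def a6c345 : Cert := (move 494 (branch (move 495 (leaf 491 2)) (move 462 (branch (move 430 (branch (move 557 (leaf 429 5)) (move 398 (branch (move 493 (leaf 397 5)) (move 399 (branch (move 431 (leaf 398 6)) (move 367 (leaf 366 6)))))))) (branch (move 558 (branch (move 559 (leaf 523 0)) (move 461 (branch (move 429 (leaf 429 7)) (move 431 (branch (move 463 (leaf 430 6)) (move 430 (branch (move 399 (leaf 398 6)) (move 493 (branch (move 590 (leaf 461 7)) (move 398 (leaf 397 5)))))))))))) (branch (move 558 (branch (move 559 (leaf 523 0)) (move 557 (branch (move 589 (leaf 461 5)) (move 430 (leaf 429 5)))))) (move 558 (branch (move 559 (leaf 523 0)) (move 461 (branch (move 429 (leaf 429 7)) (move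 557 (branch (move 589 (leaf 461 5)) (move 493 (branch (move 590 (leaf 461 4)) (move 491 (branch (move 490 (leaf 490 3)) (move 463 (branch (move 492 (leaf 459 2)) (move 431 (leaf 430 6))))))))))))))))))))
theorem a6p345 : a6e345.Valid :=
  pos_of_chk [] forall_nil a6c345 a6e345 (by decide +kernel)

def a6e346 : Pos := ⟨411887859607836582898914047944883593036166118008598324563667807551132591003859363127353578439687273298637778683488851482227319279982998628754441697466903429120, 7851256268077224591150296796052260922111608269292417905088183535009875307145430982938769538238253439358306512036156123605787131383427237444521902447006150048046104883662533165056, 11⟩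
def a6c346 : Cert := (move 494 (branch (move 495 (leaf 491 2)) (move 462 (branch (move 430 (branch (move 557 (leaf 429 5)) (move 398 (branch (move 493 (leaf 397 5)) (move 399 (branch (move 431 (leaf 398 6)) (move 367 (leaf 366 6)))))))) (branch (move 558 (branch (move 559 (leaf 523 0)) (move 461 (branch (move 429 (leaf 429 7)) (move 431 (branch (move 463 (leaf 430 6)) (move 430 (branch (move 399 (leaf 398 6)) (move 493 (branch (move 590 (leaf 461 7)) (move 398 (leaf 397 5)))))))))))) (branch (move 558 (branch (move 559 (leaf 523 0)) (move 557 (branch (move 589 (leaf 461 5)) (move 430 (leaf 429 5)))))) (move 558 (branch (move 559 (leaf 523 0)) (move 461 (branch (move 429 (leaf 429 7)) (move 557 (branch (move 589 (leaf 461 5)) (move 493 (branch (move 590 (leaf 461 4)) (move 556 (branch (move 588 (leaf 460 5)) (move 555 (branch (move 554 (leaf 522 1)) (move 460 (branch (move 428 (leaf 428 7)) (move 587 (branch (move 586 (leaf 554 1)) (move 492 (leaf 459 5))))))))))))))))))))))))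
theorem a6p346 : a6e346.Valid :=
  pos_of_chk [] forall_nil a6c346 a6e346 (by decide +kernel)

def a6e347 : Pos := ⟨219673525175326239139706567948419895260313287626407871360895778083114828594879019660120542517667552527642048594904294154828562879507017294794859084857162596352, 943490606205385338776442840806219370721107485279438578555306949764826173128852847388194920868010360779860204613565028654742913973881218999407689485413996871896367366144, 8⟩
def a6c347 : Cert := (move 431 (branch (move 430 (branch (move 399 (leaf 398 6)) (move 429 (branch (move 397 (leaf 397 7)) (move 461 (branch (move 558 (leaf 429 7)) (move 460 (branch (move 459 (leaf 427 2)) (move 432 (leaf 428 1)))))))))) (branch (move 463 (branch (move 558 (leaf 430 6)) (move 399 (branch (move 495 (leaf 398 5)) (move 367 (leaf 366 5)))))) (branch (move 399 (branch (move 430 (leaf 398 6)) (move 463 (branch (move 495 (leaf 398 5)) (move 367 (leaf 366 5)))))) (move 461 (branch (move 463 (branch (move 558 (leaf 430 6)) (move 460 (branch (move 432 (leaf 428 2)) (move 459 (branch (move 430 (leaf 427 2)) (move 495 (leaf 459 0)))))))) (branch (move 429 (branch (move 558 (leaf 429 7)) (move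 397 (branch (move 430 (leaf 397 7)) (move 365 (leaf 365 4)))))) (branch (move 558 (branch (move 463 (leaf 430 6)) (move 429 (leaf 429 7)))) (move 460 (branch (move 463 (branch (move 432 (leaf 428 2)) (move 496 (branch (move 495 (leaf 460 0)) (move 464 (branch (move 497 (leaf 461 0)) (move 428 (branch (move 427 (leaf 427 3)) (move 429 (leaf 428 3)))))))))) (branch (move 459 (branch (move 430 (leaf 427 2)) (move 495 (leaf 459 0)))) (move 430 (branch (move 459 (leaf 427 2)) (move 432 (branch (move 463 (leaf 428 2)) (move 429 (leaf 428 1)))))))))))))))))
theorem a6p347 : a6e347.Valid :=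
  pos_of_chk [] forall_nil a6c347 a6e347 (by decide +kernel)

def a6e348 : Pos := ⟨384428669018460872299272187126373332474779734829847201186362901103567864996422764911061973893542461847097160068299834747719490591500216746296635763843923968000, 34808659509396432475757358581380559888771886766769028686505543080833761097487790118665751311628412006068078797373263325876796996333254036410900217917157085927705487531299503070648039636992, 10⟩
def a6c348 : Cert := (move 558 (branch (move 463 (branch (move 431 (leaf 430 6)) (move 590 (branch (move 495 (leaf 462 6)) (move 591 (branch (move 623 (leaf 494 4)) (move 559 (leaf 462 4)))))))) (branch (move 495 (branch (move 461 (branch (move 429 (leaf 429 7)) (move 463 (branch (move 431 (leaf 430 6)) (move 460 (branch (move 459 (leaf 459 0)) (move 492 (branch (move 491 (leaf 459 1)) (move 464 (branch (move 493 (leaf 460 1)) (move 465 (branch (move 466 (leaf 462 1)) (move 433 (branch (move 432 (leaf 429 2)) (move 434 (leaf 430 2)))))))))))))))) (branch (move 461 (branch (move 429 (leaf 429 7)) (move 496 (branch (move 497 (leaf 493 1)) (move 460 (branch (move 459 (leaf 459 0)) (move 463 (leaf 460 0)))))))) (move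 496 (branch (move 493 (leaf 492 1)) (move 497 (leaf 493 1))))))) (move 461 (branch (move 429 (leaf 429 7)) (move 590 (branch (move 493 (leaf 461 7)) (move 591 (branch (move 623 (leaf 494 4)) (move 559 (leaf 462 4)))))))))))
theorem a6p348 : a6e348.Valid :=
  pos_of_chk [] forall_nil a6c348 a6e348 (by decide +kernel)

def a6e349 : Pos := ⟨329510287737415994579416980733722186736624252428700757911207193430083519529241516494081496768250825407278789577167987883422514687502483595796043537515003510784, 943490606205385338085962009537975190323134987092429947595983884137747631494741285548093921156079507404548391435412815212313973503503025821798308692658578089626510032896, 6⟩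
def a6c349 : Cert := (move 430 (branch (move 398 (branch (move 493 (leaf 397 5)) (move 399 (branch (move 431 (leaf 398 6)) (move 367 (leaf 366 6)))))) (branch (move 431 (branch (move 399 (leaf 398 6)) (move 429 (branch (move 397 (leaf 397 7)) (move 463 (branch (move 558 (leaf 430 6)) (move 464 (branch (move 465 (leaf 429 3)) (move 428 (leaf 428 0)))))))))) (move 398 (branch (move 493 (leaf 397 5)) (move 397 (branch (move 429 (leaf 397 7)) (move 365 (leaf 365 7)))))))))
theorem a6p349 : a6e349.Valid :=
  pos_of_chk [] forall_nil a6c349 a6e349 (by decide +kernel)

def a6e350 : Pos := ⟨329510287737415994579416980733722186736624252428700757911207193430083519529241516494081496768250825407278789577167987883422514687502483595796043537515003510784, 943490606205385338085962009381675791061005192701656411671166442260877157180427048897821580881164133315948131907619787753226160388207176593452046830936560749767867498496, 6⟩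
def a6c350 : Cert := (move 430 (branch (move 398 (branch (move 493 (leaf 397 5)) (move 399 (branch (move 431 (leaf 398 6)) (move 367 (leaf 366 6)))))) (branch (move 398 (branch (move 493 (leaf 397 5)) (move 397 (branch (move 429 (leaf 397 7)) (move 365 (leaf 365 7)))))) (move 429 (branch (move 397 (leaf 397 7)) (move 461 (branch (move 558 (leaf 429 7)) (move 431 (branch (move 399 (leaf 398 6)) (move 460 (branch (move 459 (leaf 427 2)) (move 432 (leaf 428 1)))))))))))))
theorem a6p350 : a6e350.Valid :=
  pos_of_chk [] forall_nil a6c350 a6e350 (by decide +kernel)

def a6e351 : Pos := ⟨384428669044034236423460795485851376981245353206539717171074344771406078809673810195473493853568009443393286296041136967466053646259726563061365397073053089792, 329257063175589466562384828658369379448852306653749845399524450510965444687586140981741059491994729060883656900157475559877464031657494865715686014976, 8⟩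
def a6c351 : Cert := (move 492 (branch (move 491 (branch (move 463 (leaf 459 2)) (move 490 (leaf 490 0)))) (branch (move 491 (branch (move 490 (leaf 490 0)) (move 459 (branch (move 458 (leaf 458 3)) (move 495 (branch (move 460 (leaf 459 3)) (move 496 (leaf 492 1)))))))) (move 495 (branch (move 496 (leaf 492 1)) (move 463 (branch (move 464 (leaf 460 2)) (move 430 (branch (move 398 (leaf 397 5)) (move 460 (branch (move 459 (leaf 459 3)) (move 428 (branch (move 396 (leaf 396 4)) (move 429 (branch (move 427 (leaf 427 0)) (move 397 (leaf 396 6)))))))))))))))))
theorem a6p351 : a6e351.Valid :=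
  pos_of_chk [] forall_nil a6c351 a6e351 (by decide +kernel)

def a6e352 : Pos := ⟨384428669018460872299272187126373332474779734829847201186362901103567864996422764911061973893542461847097160068299834747719490591500216746296635763843923968000, 1179363257756731672930316233864566366162830366192433387636018040504070617315784784272029862607729736081476388178184609145438444233161479306600958888858829443251010797568, 9⟩
def a6c352 : Cert := (move 493 (branch (move 430 (branch (move 398 (leaf 397 5)) (move 429 (branch (move 397 (leaf 397 7)) (move 461 (branch (move 558 (leaf 429 4)) (move 556 (leaf 428 5)))))))) (branch (move 492 (branch (move 491 (branch (move 463 (leaf 459 2)) (move 490 (leaf 490 0)))) (branch (move 491 (branch (move 490 (leaf 490 0)) (move 459 (branch (move 458 (leaf 458 3)) (move 495 (branch (move 460 (leaf 459 3)) (move 496 (leaf 492 1)))))))) (move 495 (branch (move 496 (leaf 492 1)) (move 463 (branch (move 464 (leaf 460 2)) (move 460 (branch (move 459 (leaf 459 3)) (move 428 (branch (move 396 (leaf 396 4)) (move 427 (branch (move 461 (leaf 427 3)) (move 395 (leaf 395 7))))))))))))))) (ref 0))))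
theorem a6p352 : a6e352.Valid :=
  pos_of_chk [a6e351] (forall_cons a6p351 forall_nil) a6c352 a6e352 (by decide +kernel)

def a6e353 : Pos := ⟨384428669018460872299272187126373332474779734829847201186362901103567864996422764911061973893542461847097160068299834747719490591500216746296635763843923968000, 943490607084079440136261923799584255305291762038221717838104181566832422918317543138649569880166069689665966352354277291169941292370173646078093373864956598738525093888, 10⟩
def a6c353 : Cert := (move 430 (branch (move 398 (branch (move 493 (leaf 397 5)) (move 367 (branch (move 399 (leaf 366 6)) (move 366 (branch (move 335 (leaf 334 6)) (move 365 (branch (move 397 (leaf 365 7)) (move 333 (leaf 333 7)))))))))) (branch (move 398 (branch (move 365 (branch (move 397 (leaf 365 7)) (move 366 (branch (move 333 (leaf 333 7)) (move 463 (branch (move 495 (leaf 366 4)) (move 431 (branch (move 558 (leaf 430 6)) (move 334 (leaf 334 4)))))))))) (branch (move 367 (branch (move 399 (leaf 366 6)) (move 366 (branch (move 335 (leaf 334 6)) (move 365 (branch (move 397 (leaf 365 7)) (move 333 (leaf 333 7)))))))) (move 399 (branch (move 431 (leaf 398 6)) (move 367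 (leaf 366 6))))))) (branch (move 398 (branch (move 493 (leaf 397 5)) (move 365 (branch (move 397 (leaf 365 7)) (move 366 (branch (move 333 (leaf 333 7)) (move 463 (branch (move 495 (leaf 366 4)) (move 431 (branch (move 558 (leaf 430 6)) (move 334 (leaf 334 4)))))))))))) (move 496 (branch (move 495 (branch (move 493 (leaf 492 1)) (move 497 (leaf 493 1)))) (branch (move 431 (branch (move 399 (leaf 398 6)) (move 463 (branch (move 558 (leaf 430 6)) (move 493 (branch (move 495 (leaf 492 1)) (move 464 (branch (move 465 (leaf 461 1)) (move 492 (branch (move 491 (leaf 459 2)) (move 461 (leaf 460 1)))))))))))) (branch (move 431 (branch (move 399 (leaf 398 6)) (move 497 (branch (move 495 (leaf 493 1)) (move 463 (branch (move 558 (leaf 430 6)) (move 464 (branch (move 461 (leaf 461 0)) (move 465 (branch (move 466 (leaf 430 3)) (move 498 (leaf 462 0)))))))))))) (move 431 (branch (move 399 (leaf 398 6)) (move 432 (branch (move 463 (branch (move 558 (leaf 430 6)) (move 461 (branch (move 460 (leaf 428 2)) (move 464 (branch (move 497 (leaf 461 0)) (move 493 (branch (move 492 (leaf 460 1)) (move 465 (leaf 461 1)))))))))) (branch (move 433 (branch (move 461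 (leaf 429 1)) (move 401 (branch (move 402 (leaf 398 2)) (move 465 (branch (move 466 (leaf 430 0)) (move 464 (branch (move 528 (leaf 400 6)) (move 369 (leaf 368 5)))))))))) (branch (move 463 (branch (move 558 (leaf 430 6)) (move 433 (branch (move 434 (leaf 430 1)) (move 465 (branch (move 466 (leaf 430 0)) (move 464 (branch (move 493 (leaf 461 1)) (move 401 (branch (move 402 (leaf 398 2)) (move 528 (leaf 400 6)))))))))))) (move 433 (branch (move 461 (leaf 429 1)) (move 463 (branch (move 434 (leaf 430 1)) (move 558 (leaf 430 6))))))))))))))))))))
theorem a6p353 : a6e353.Valid :=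
  pos_of_chk [] forall_nil a6c353 a6e353 (by decide +kernel)

def a6e354 : Pos := ⟨384428668992887508181037841596324899615694177087373218347076487462480160732997687338338250981741870038689190928005683657046694113739239459163421587156406108160, 14182914549149885947705846601570764228624419560465800213180774819765095028856143557136858347492032299129102402387339502191677846462540791532489947686427885996957320232998008782848, 6⟩
def a6c354 : Cert := (move 494 (branch (move 557 (branch (move 589 (leaf 461 6)) (move 558 (branch (move 590 (leaf 461 4)) (move 559 (branch (move 560 (leaf 524 3)) (move 591 (leaf 462 4)))))))) (branch (move 495 (branch (move 496 (leaf 492 1)) (move 557 (branch (move 589 (leaf 461 6)) (move 460 (branch (move 459 (leaf 459 0)) (move 428 (leaf 428 7)))))))) (move 496 (branch (move 495 (leaf 492 1)) (move 558 (branch (move 590 (leaf 461 7)) (move 463 (branch (move 431 (leaf 430 6)) (move 464 (branch (move 497 (leaf 461 0)) (move 465 (leaf 461 1)))))))))))))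
theorem a6p354 : a6e354.Valid :=
  pos_of_chk [] forall_nil a6c354 a6e354 (by decide +kernel)

def a6e355 : Pos := ⟨384428668992887508181037841596324899615694177087373218347076487462480160732997687338338250981741870038689190928005683657046694113739239459163421587156406108160, 3545728636402949043608912896507707360423142893811282155612704790326996169807575145242674577252787743047993563595335755667918712506900491489748814641189836459442444480305122246656, 7⟩
def a6c355 : Cert := (move 460 (branch (move 428 (branch (move 557 (leaf 428 7)) (move 463 (branch (move 427 (leaf 427 3)) (move 496 (branch (move 495 (leaf 460 0)) (move 464 (branch (move 497 (leaf 461 0)) (move 432 (branch (move 431 (leaf 428 2)) (move 433 (leaf 429 2)))))))))))) (branch (move 557 (branch (move 428 (leaf 428 7)) (move 492 (branch (move 589 (leaf 460 7)) (move 556 (branch (move 588 (leaf 460 5)) (move 491 (branch (move 490 (leaf 490 0)) (move 555 (branch (move 554 (leaf 522 2)) (move 587 (leaf 459 5)))))))))))) (branch (move 463 (branch (move 492 (branch (move 491 (leaf 459 1)) (move 428 (branch (move 427 (leaf 427 3)) (move 396 (leaf 396 4)))))) (move 496 (branch (move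 495 (leaf 460 0)) (move 464 (branch (move 497 (leaf 461 0)) (move 432 (branch (move 431 (leaf 428 2)) (move 433 (leaf 429 2)))))))))) (move 463 (branch (move 496 (branch (move 495 (leaf 460 0)) (move 464 (branch (move 497 (leaf 461 0)) (move 432 (branch (move 431 (leaf 428 2)) (move 433 (leaf 429 2)))))))) (move 492 (branch (move 491 (leaf 459 1)) (move 556 (branch (move 588 (leaf 460 6)) (move 557 (branch (move 589 (leaf 460 4)) (move 555 (branch (move 554 (leaf 522 2)) (move 587 (leaf 459 5))))))))))))))))
theorem a6p355 : a6e355.Valid :=
  pos_of_chk [] forall_nil a6c355 a6e355 (by decide +kernel)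

def a6e356 : Pos := ⟨384428668992887508181037841596324899615694177087373218347076487462480160732997687338338250981741870038689190928005683657046694113739239459163421587156406108160, 18687756782833758930058303088116966848634280598642204722062725024774382536345728493447734796065396928059946610730138558781630210396046470021370102484777211170471307048117292368118763700457798893568, 5⟩
def a6c356 : Cert := (move 557 (branch (move 460 (branch (move 428 (leaf 428 7)) (move 492 (branch (move 589 (leaf 460 7)) (move 491 (branch (move 490 (leaf 490 0)) (move 463 (leaf 459 1)))))))) (branch (move 589 (branch (move 494 (leaf 461 6)) (move 621 (branch (move 492 (leaf 492 7)) (move 620 (branch (move 652 (leaf 524 5)) (move 588 (leaf 492 5)))))))) (branch (move 494 (branch (move 589 (leaf 461 6)) (move 495 (branch (move 496 (leaf 492 1)) (move 460 (branch (move 459 (leaf 459 0)) (move 428 (leaf 428 7)))))))) (move 428 (branch (move 460 (leaf 428 7)) (move 429 (branch (move 396 (leaf 396 7)) (move 397 (branch (move 494 (leaf 397 4)) (move 492 (leaf 396 5))))))))))))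
theorem a6p356 : a6e356.Valid :=
  pos_of_chk [] forall_nil a6c356 a6e356 (by decide +kernel)

def a6e357 : Pos := ⟨384428669044034236423460795485851376981245353206539717171074344771406078809673810195473493853568009443393286296041136967466053646259726563061365397073053089792, 15228788533588074890030822101881293378585747036369175624753462373928832161469360011491301580410557195234813451602189453809065398180285519186406749519593173015044992036550886306288238592000, 8⟩
def a6c357 : Cert := (move 492 (branch (move 491 (branch (move 463 (leaf 459 2)) (move 490 (leaf 490 0)))) (move 556 (branch (move 588 (branch (move 620 (leaf 492 6)) (move 587 (branch (move 619 (leaf 491 5)) (move 460 (branch (move 555 (leaf 459 5)) (move 428 (branch (move 396 (leaf 396 4)) (move 427 (branch (move 459 (leaf 427 7)) (move 395 (leaf 395 7)))))))))))) (branch (move 557 (branch (move 589 (leaf 461 6)) (move 460 (branch (move 428 (leaf 428 4)) (move 555 (branch (move 554 (leaf 522 2)) (move 587 (leaf 459 5)))))))) (move 589 (branch (move 557 (leaf 461 6)) (move 588 (branch (move 620 (leaf 492 6)) (move 621 (leaf 492 4)))))))))))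
theorem a6p357 : a6e357.Valid :=
  pos_of_chk [] forall_nil a6c357 a6e357 (by decide +kernel)

def a6e358 : Pos := ⟨384428669056820918485555099665590399234478162394885975163430066605325185716299332837679253833580783241541349409911788077339335173639481471443730213687617650688, 51669103957170882235422426052591263415123980425799186890457024871338860943236928986599551721853361364504270272474990597380912925875755837633805856249865485008616971477464455202198517710848, 11⟩
def a6c358 : Cert := (move 588 (branch (move 491 (branch (move 490 (leaf 490 0)) (move 556 (branch (move 620 (leaf 492 6)) (move 459 (leaf 459 7)))))) (branch (move 589 (branch (move 557 (leaf 461 6)) (move 556 (branch (move 620 (leaf 492 6)) (move 621 (leaf 492 4)))))) (branch (move 589 (branch (move 557 (leaf 461 6)) (move 491 (branch (move 490 (leaf 490 0)) (move 556 (branch (move 459 (leaf 459 7)) (move 621 (leaf 492 4)))))))) (move 558 (branch (move 491 (branch (move 490 (leaf 490 0)) (move 559 (branch (move 591 (leaf 462 4)) (move 560 (branch (move 557 (leaf 524 3)) (move 561 (leaf 525 3)))))))) (branch (move 490 (branch (move 491 (leaf 490 0)) (move 591 (branch (move 559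 (leaf 462 4)) (move 590 (branch (move 623 (leaf 494 4)) (move 589 (branch (move 621 (leaf 493 5)) (move 619 (branch (move 620 (leaf 587 1)) (move 587 (branch (move 618 (leaf 586 1)) (move 554 (branch (move 555 (leaf 554 3)) (move 586 (branch (move 553 (leaf 553 3)) (move 522 (leaf 490 4)))))))))))))))))) (branch (move 589 (branch (move 557 (leaf 461 5)) (move 590 (branch (move 621 (leaf 493 5)) (move 591 (branch (move 623 (leaf 494 4)) (move 490 (branch (move 491 (leaf 490 0)) (move 619 (branch (move 620 (leaf 587 1)) (move 587 (branch (move 618 (leaf 586 1)) (move 554 (branch (move 555 (leaf 554 3)) (move 586 (branch (move 553 (leaf 553 3)) (move 522 (leaf 490 4)))))))))))))))))) (branch (move 589 (branch (move 557 (leaf 461 5)) (move 590 (branch (move 621 (leaf 493 5)) (move 591 (branch (move 623 (leaf 494 4)) (move 559 (leaf 462 4)))))))) (move 589 (branch (move 557 (leaf 461 5)) (move 491 (branch (move 490 (leaf 490 0)) (move 590 (branch (move 621 (leaf 493 5)) (move 587 (branch (move 559 (leaf 555 2)) (move 618 (branch (move 619 (leaf 586 1)) (move 586 (branch (move 617 (leaf 585 1)) (move 554 (branch (move 553 (leaf 553 3)) (move 555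 (leaf 554 3)))))))))))))))))))))))))
theorem a6p358 : a6e358.Valid :=
  pos_of_chk [] forall_nil a6c358 a6e358 (by decide +kernel)

def a6e359 : Pos := ⟨384428669044034236423460795485851376981245353206539717171074344771406078809673810195473493853568009443393286296041136967466053646259726563061365397073053089792, 51669103957170882235422426052591263415443647477355265909219587102372823914556866623170371182393917214907393522493732089931526523523838920065986597053894662198259274820783623670858382311424, 13⟩
def a6c359 : Cert := (move 492 (branch (move 491 (branch (move 490 (leaf 490 0)) (move 459 (branch (move 458 (leaf 458 3)) (move 495 (branch (move 460 (leaf 459 3)) (move 496 (leaf 492 1)))))))) (branch (move 556 (branch (move 557 (branch (move 589 (leaf 461 6)) (move 460 (branch (move 428 (leaf 428 4)) (move 555 (branch (move 554 (leaf 522 2)) (move 587 (leaf 459 5)))))))) (branch (move 589 (branch (move 557 (leaf 461 6)) (move 588 (branch (move 620 (leaf 492 6)) (move 621 (leaf 492 4)))))) (branch (move 588 (branch (move 620 (leaf 492 6)) (move 587 (branch (move 619 (leaf 491 5)) (move 555 (branch (move 460 (leaf 459 5)) (move 589 (branch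 (move 621 (leaf 492 4)) (move 554 (branch (move 553 (leaf 553 0)) (move 590 (leaf 554 3)))))))))))) (move 588 (branch (move 620 (leaf 492 6)) (move 587 (branch (move 619 (leaf 491 5)) (move 555 (branch (move 460 (leaf 459 5)) (move 554 (branch (move 553 (leaf 521 2)) (move 557 (leaf 522 2)))))))))))))) (move 495 (branch (move 496 (leaf 492 1)) (ref 0))))))
theorem a6p359 : a6e359.Valid :=
  pos_of_chk [a6e358] (forall_cons a6p358 forall_nil) a6c359 a6e359 (by decide +kernel)

end Crest.Agent.SN
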