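import Crest.Agent.Lib_SN_A6x2

set_option autoImplicit false
set_option linter.all false
set_option maxRecDepth 1000000

namespace Crest.Agent.SN
open Cert

def a6e360 : Pos := ⟨384428668967314144050894970407417243461848498076462169216940013767891437369920674342238933973491366654504907612817230308226364481981197112767176497385665724416, 56063270361010638820042644117208984597947042631858509764478727614617069846439650045242399175448796391334780687527450037574065183410104520594563010688223701625327840624878113976140148506482668732416, 15⟩
def a6c360 : Cert := (move 493 (branch (move 461 (branch (move 429 (branch (move 556 (leaf 428 5)) (move 494 (branch (move 397 (leaf 397 4)) (move 495 (branch (move 496 (leaf 492 1)) (move 428 (branch (move 396 (leaf 396 7)) (move 460 (branch (move 459 (leaf 459 0)) (move 557 (leaf 428 7)))))))))))) (branch (move 429 (branch (move 558 (leaf 429 4)) (move 556 (leaf 428 5)))) (ref 0)))) (branch (move 461 (branch (move 429 (branch (move 558 (leaf 429 4)) (move 556 (leaf 428 5)))) (branch (move 429 (branch (move 558 (leaf 429 4)) (move 492 (branch (move 397 (leaf 396 5)) (move 491 (branch (move 490 (leaf 490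 0)) (move 463 (branch (move 460 (leaf 459 1)) (move 464 (leaf 460 1)))))))))) (ref 1)))) (branch (move 461 (branch (move 429 (branch (move 558 (leaf 429 4)) (move 556 (leaf 428 5)))) (branch (move 429 (branch (move 556 (leaf 428 5)) (move 492 (branch (move 397 (leaf 396 5)) (move 491 (branch (move 490 (leaf 490 0)) (move 463 (branch (move 460 (leaf 459 1)) (move 464 (leaf 460 1)))))))))) (move 463 (branch (move 464 (branch (move 492 (leaf 460 1)) (move 433 (branch (move 432 (leaf 429 2)) (move 465 (branch (move 434 (leaf 430 2)) (move 497 (branch (move 496 (leaf 461 0)) (move 498 (leaf 462 0)))))))))) (branch (move 492 (branch (move 464 (leaf 460 1)) (move 491 (branch (move 490 (leaf 490 0)) (move 460 (leaf 459 1)))))) (branch (move 496 (branch (move 464 (branch (move 497 (leaf 461 0)) (move 432 (branch (move 433 (leaf 429 2)) (move 431 (branch (move 460 (leaf 428 2)) (move 399 (branch (move 528 (leaf 399 7)) (move 367 (leaf 367 4)))))))))) (branch (move 495 (branch (move 460 (leaf 460 0)) (move 494 (leaf 492 1)))) (move 494 (branch (move 495 (leaf 492 1)) (move 464 (branch (move 497 (leaf 461 0)) (move 465 (leaf 461 1))))))))) (move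 460 (branch (move 492 (branch (move 491 (leaf 459 1)) (move 428 (branch (move 427 (leaf 427 3)) (move 396 (leaf 396 4)))))) (move 495 (branch (move 496 (leaf 460 0)) (move 494 (branch (move 459 (leaf 459 0)) (move 431 (branch (move 432 (leaf 428 2)) (move 558 (leaf 430 6))))))))))))))))) (branch (move 461 (branch (move 558 (branch (move 429 (leaf 429 4)) (move 494 (branch (move 590 (leaf 461 7)) (move 557 (branch (move 589 (leaf 461 5)) (move 559 (branch (move 560 (leaf 524 3)) (move 591 (leaf 462 4)))))))))) (branch (ref 0) (branch (move 429 (branch (move 558 (leaf 429 4)) (move 492 (branch (move 397 (leaf 396 5)) (move 491 (branch (move 490 (leaf 490 0)) (move 463 (branch (move 460 (leaf 459 1)) (move 464 (leaf 460 1)))))))))) (ref 2))))) (branch (move 461 (branch (move 429 (branch (move 556 (leaf 428 5)) (move 494 (branch (move 397 (leaf 397 4)) (move 495 (branch (move 496 (leaf 492 1)) (move 428 (branch (move 396 (leaf 396 7)) (move 460 (branch (move 459 (leaf 459 0)) (move 557 (leaf 428 7)))))))))))) (branch (ref 1) (branch (ref 2) (move 429 (branch (move 556 (leaf 428 5)) (move 397 (branch (move 494 (leaf 397 4)) (move 492 (leaf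 396 5)))))))))) (branch (move 461 (branch (move 429 (branch (move 558 (leaf 429 4)) (move 556 (leaf 428 5)))) (branch (move 558 (branch (move 429 (leaf 429 4)) (move 494 (branch (move 590 (leaf 461 7)) (move 557 (branch (move 589 (leaf 461 5)) (move 559 (branch (move 560 (leaf 524 3)) (move 591 (leaf 462 4)))))))))) (branch (move 429 (branch (move 556 (leaf 428 5)) (move 397 (branch (move 494 (leaf 397 4)) (move 492 (leaf 396 5)))))) (move 557 (branch (move 589 (branch (move 494 (leaf 461 6)) (move 621 (branch (move 492 (leaf 492 7)) (move 620 (branch (move 652 (leaf 524 5)) (move 588 (leaf 492 5)))))))) (branch (move 588 (branch (move 556 (leaf 460 5)) (move 589 (branch (move 620 (leaf 492 5)) (move 558 (branch (move 590 (leaf 461 4)) (move 559 (branch (move 560 (leaf 556 1)) (move 621 (branch (move 653 (leaf 525 6)) (move 492 (leaf 492 7)))))))))))) (branch (move 556 (branch (move 588 (leaf 460 5)) (move 558 (branch (move 590 (leaf 461 4)) (move 559 (branch (move 560 (leaf 524 3)) (move 591 (branch (move 592 (leaf 556 0)) (move 494 (leaf 462 4)))))))))) (move 494 (branch (move 589 (leaf 461 6)) (move 558 (branch (move 590 (leaf 461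 4)) (move 559 (branch (move 560 (leaf 524 3)) (move 591 (leaf 462 4)))))))))))))))) (move 494 (branch (ref 3) (branch (move 558 (branch (move 495 (branch (move 496 (leaf 492 1)) (move 463 (branch (move 590 (leaf 462 6)) (move 431 (leaf 430 6)))))) (move 557 (branch (move 589 (leaf 461 5)) (move 559 (branch (move 560 (leaf 524 3)) (move 591 (leaf 462 4)))))))) (branch (move 492 (branch (move 495 (branch (move 496 (leaf 492 1)) (move 463 (branch (move 464 (leaf 460 2)) (move 431 (branch (move 558 (leaf 430 6)) (move 399 (leaf 398 5)))))))) (branch (move 491 (branch (move 463 (leaf 459 2)) (move 490 (leaf 490 0)))) (move 491 (branch (move 490 (leaf 490 0)) (move 459 (branch (move 458 (leaf 458 3)) (move 495 (branch (move 460 (leaf 459 3)) (move 496 (leaf 492 1))))))))))) (ref 4))))))))))))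
theorem a6p360 : a6e360.Valid :=
  pos_of_chk [a6e354, a6e355, a6e356, a6e357, a6e359] (forall_cons a6p354 (forall_cons a6p355 (forall_cons a6p356 (forall_cons a6p357 (forall_cons a6p359 forall_nil))))) a6c360 a6e360 (by decide +kernel)

def a6e361 : Pos := ⟨384428669018460872299272187126373332474779734829847201186362901103567864996422764911061973893542461847097160068299834747719490591500216746296635763843923968000, 51669103957170882235422426052591263415469220841550905671538112409749390202985899769016595241260940760404113053355126795039800814846825895317626157894809072708968213153834588881082235486208, 14⟩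
def a6c361 : Cert := (move 493 (branch (ref 0) (branch (move 558 (branch (move 495 (branch (move 496 (leaf 492 1)) (move 463 (branch (move 590 (leaf 462 6)) (move 431 (leaf 430 6)))))) (move 557 (branch (move 589 (leaf 461 5)) (move 559 (branch (move 560 (leaf 524 3)) (move 591 (leaf 462 4)))))))) (branch (move 492 (branch (move 495 (branch (move 496 (leaf 492 1)) (move 463 (branch (move 464 (leaf 460 2)) (move 431 (branch (move 558 (leaf 430 6)) (move 399 (leaf 398 5)))))))) (branch (move 491 (branch (move 463 (leaf 459 2)) (move 490 (leaf 490 0)))) (move 491 (branch (move 490 (leaf 490 0)) (move 459 (branch (move 458 (leaf 458 3)) (move 495 (branch (move 460 (leaf 459 3)) (move 496 (leaf 492 1))))))))))) (ref 1)))))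
theorem a6p361 : a6e361.Valid :=
  pos_of_chk [a6e357, a6e359] (forall_cons a6p357 (forall_cons a6p359 forall_nil)) a6c361 a6e361 (by decide +kernel)

def a6e362 : Pos := ⟨329510287711842630461182635203673753877538694686226775071920779788995815265816438921357773856450233598870820436873836792749718209741506308662829360827485650944, 3773962425700235459205137078152940820160859913320459590624152277620068997623817302180500976407854670611457809215932292313053827948133653427823309841929801588890287472640, 10⟩
def a6c362 : Cert := (move 463 (branch (move 496 (branch (move 460 (branch (move 495 (leaf 460 0)) (move 431 (branch (move 432 (leaf 428 2)) (move 459 (branch (move 430 (leaf 427 2)) (move 427 (branch (move 426 (leaf 426 3)) (move 428 (leaf 427 3)))))))))) (branch (move 464 (branch (move 497 (leaf 461 0)) (move 432 (branch (move 433 (leaf 429 2)) (move 431 (branch (move 460 (leaf 428 2)) (move 399 (branch (move 528 (leaf 399 7)) (move 367 (leaf 367 4)))))))))) (branch (move 497 (branch (move 464 (leaf 461 0)) (move 495 (branch (move 498 (leaf 462 3)) (move 460 (leaf 460 0)))))) (move 464 (branch (move 497 (leaf 461 0)) (move 431 (branch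 (move 399 (branch (move 367 (leaf 367 4)) (move 528 (branch (move 560 (leaf 431 7)) (move 495 (leaf 399 4)))))) (branch (move 433 (branch (move 432 (leaf 429 2)) (move 465 (branch (move 434 (leaf 430 2)) (move 466 (branch (move 430 (leaf 430 3)) (move 467 (branch (move 495 (leaf 463 1)) (move 499 (branch (move 498 (leaf 463 0)) (move 500 (leaf 464 0)))))))))))) (move 432 (branch (move 433 (leaf 429 2)) (move 399 (branch (move 528 (leaf 399 7)) (move 367 (leaf 367 4))))))))))))))) (branch (move 464 (branch (move 492 (leaf 460 1)) (move 433 (branch (move 432 (leaf 429 2)) (move 465 (branch (move 434 (leaf 430 2)) (move 497 (branch (move 496 (leaf 461 0)) (move 498 (leaf 462 0)))))))))) (branch (move 492 (branch (move 464 (leaf 460 1)) (move 491 (branch (move 490 (leaf 490 0)) (move 460 (leaf 459 1)))))) (move 460 (branch (move 431 (branch (move 432 (leaf 428 2)) (move 459 (branch (move 430 (leaf 427 2)) (move 427 (branch (move 426 (leaf 426 3)) (move 428 (leaf 427 3)))))))) (branch (move 492 (branch (move 491 (leaf 459 1)) (move 428 (branch (move 427 (leaf 427 3)) (move 396 (leaf 396 4)))))) (move 491 (branch (move 492 (leaf 459 1)) (move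 459 (branch (move 490 (leaf 458 1)) (move 431 (branch (move 430 (leaf 427 2)) (move 432 (leaf 428 2)))))))))))))))
theorem a6p362 : a6e362.Valid :=
  pos_of_chk [] forall_nil a6c362 a6e362 (by decide +kernel)

def a6e363 : Pos := ⟨384428668967314144050894970407417243461848498076462169216940013767891437369920674342238933973491366654504907612817230308226364481981197112767176497385665724416, 56063270324570323380250791584649964327869520734915531940221550694868170627976578251673947789101861782665697300535831853450448585947359822142175868172921749461121161271313732499503748097873457184768, 12⟩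
def a6c363 : Cert := (move 493 (branch (move 461 (branch (move 429 (branch (move 556 (leaf 428 5)) (move 494 (branch (move 397 (leaf 397 4)) (move 495 (branch (move 496 (leaf 492 1)) (move 428 (branch (move 396 (leaf 396 7)) (move 460 (branch (move 459 (leaf 459 0)) (move 557 (leaf 428 7)))))))))))) (branch (ref 0) (branch (ref 1) (move 429 (branch (move 556 (leaf 428 5)) (move 397 (branch (move 494 (leaf 397 4)) (move 492 (leaf 396 5)))))))))) (branch (move 494 (branch (move 557 (branch (move 589 (leaf 461 6)) (move 430 (leaf 429 5)))) (branch (ref 2) (ref 3)))) (branch (move 494 (branch (move 557 (branch (move 589 (leaf 461 6)) (move 430 (leaf 429 5)))) (move 492 (branch (move 491 (branch (move 463 (leaf 459 2)) (move 490 (leaf 490 0)))) (branch (move 491 (branch (move 490 (leaf 490 0)) (move 459 (branch (move 458 (leaf 458 3)) (move 495 (branch (move 460 (leaf 459 3)) (move 496 (leaf 492 1)))))))) (move 495 (branch (move 496 (leaf 492 1)) (move 463 (branch (move 464 (leaf 460 2)) (move 460 (branch (move 459 (leaf 459 3)) (move 431 (branch (move 399 (leaf 398 5)) (move 428 (branch (move 396 (leaf 396 4)) (move 461 (branch (move 432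 (leaf 428 2)) (move 427 (leaf 427 3))))))))))))))))))) (branch (move 461 (branch (move 429 (branch (move 556 (leaf 428 5)) (move 430 (branch (move 557 (leaf 429 6)) (move 398 (leaf 397 6)))))) (branch (move 429 (branch (move 556 (leaf 428 5)) (move 492 (branch (move 397 (leaf 396 5)) (move 491 (branch (move 490 (leaf 490 0)) (move 463 (branch (move 460 (leaf 459 1)) (move 464 (leaf 460 1)))))))))) (ref 4)))) (branch (move 461 (branch (ref 4) (branch (move 429 (branch (move 556 (leaf 428 5)) (move 397 (branch (move 494 (leaf 397 4)) (move 492 (leaf 396 5)))))) (move 429 (branch (move 556 (leaf 428 5)) (move 430 (branch (move 398 (leaf 397 6)) (move 494 (branch (move 397 (leaf 397 4)) (move 431 (branch (move 399 (leaf 398 6)) (move 460 (branch (move 459 (leaf 427 2)) (move 432 (leaf 428 1))))))))))))))) (branch (move 494 (branch (move 557 (branch (move 589 (leaf 461 6)) (move 430 (leaf 429 5)))) (branch (move 461 (branch (move 495 (branch (move 496 (leaf 492 1)) (move 557 (branch (move 589 (leaf 461 6)) (move 460 (branch (move 459 (leaf 459 0)) (move 428 (leaf 428 7)))))))) (move 429 (branch (move 397 (leaf 397 4)) (move 556 (leaf 428 5))))))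 (move 430 (branch (move 398 (leaf 397 5)) (move 429 (branch (move 397 (leaf 397 7)) (move 461 (branch (move 556 (leaf 428 5)) (move 495 (branch (move 496 (leaf 492 1)) (move 460 (branch (move 459 (leaf 459 0)) (move 431 (branch (move 432 (leaf 428 1)) (move 399 (leaf 398 6))))))))))))))))) (move 461 (branch (move 429 (branch (move 556 (leaf 428 5)) (move 430 (branch (move 557 (leaf 429 6)) (move 398 (leaf 397 6)))))) (branch (move 429 (branch (move 556 (leaf 428 5)) (move 397 (branch (move 494 (leaf 397 4)) (move 492 (leaf 396 5)))))) (branch (move 557 (branch (move 430 (leaf 429 6)) (move 556 (branch (move 588 (leaf 460 5)) (move 589 (branch (move 494 (leaf 461 6)) (move 621 (branch (move 653 (leaf 524 7)) (move 492 (leaf 492 7)))))))))) (move 430 (branch (move 557 (leaf 429 6)) (move 398 (branch (move 429 (leaf 397 6)) (move 494 (leaf 397 5)))))))))))))))))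
theorem a6p363 : a6e363.Valid :=
  pos_of_chk [a6e355, a6e356, a6e357, a6e351, a6e362] (forall_cons a6p355 (forall_cons a6p356 (forall_cons a6p357 (forall_cons a6p351 (forall_cons a6p362 forall_nil))))) a6c363 a6e363 (by decide +kernel)

def a6e364 : Pos := ⟨384428669018460872299272187126373332474779734829847201186362901103567864996422764911061973893542461847097160068299834747719490591500216746296635763843923968000, 34808659511422563128870738652328430561808231601711212240754685978652064146988866821067112326960256764804730773426431013935662878292362842437247913031097537506400680160932223786199182999552, 7⟩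
def a6c364 : Cert := (move 558 (branch (move 557 (branch (move 589 (leaf 461 5)) (move 559 (branch (move 560 (leaf 524 3)) (move 591 (leaf 462 4)))))) (branch (move 461 (branch (move 429 (leaf 429 7)) (move 590 (branch (move 493 (leaf 461 7)) (move 591 (branch (move 623 (leaf 494 4)) (move 559 (leaf 462 4)))))))) (move 461 (branch (move 429 (leaf 429 7)) (move 493 (branch (move 590 (leaf 461 7)) (move 557 (branch (move 589 (leaf 461 5)) (move 460 (branch (move 428 (leaf 428 7)) (move 495 (branch (move 496 (leaf 492 1)) (move 459 (leaf 459 0)))))))))))))))
theorem a6p364 : a6e364.Valid :=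
  pos_of_chk [] forall_nil a6c364 a6e364 (by decide +kernel)

def a6e365 : Pos := ⟨384428668967314144050894970407417243461848498076462169216940013767891437369920674342238933973491366654504907612817230308226364481981197112767176497385665724416, 43510824385732475274036824480035422886254828785876179110922135913706351686517896903166646862638184598307601739217948524416861503467063254953382834720243101238076715561366005251107670982656, 8⟩
def a6c365 : Cert := (move 494 (branch (move 430 (branch (move 557 (leaf 429 5)) (move 399 (branch (move 431 (leaf 398 6)) (move 398 (branch (move 367 (leaf 366 6)) (move 397 (branch (move 429 (leaf 397 7)) (move 365 (leaf 365 7)))))))))) (branch (move 557 (branch (move 430 (leaf 429 5)) (move 589 (branch (move 621 (leaf 493 6)) (move 558 (leaf 461 5)))))) (branch (move 493 (branch (move 430 (branch (move 398 (leaf 397 5)) (move 431 (branch (move 399 (leaf 398 6)) (move 463 (branch (move 558 (leaf 430 6)) (move 429 (branch (move 397 (leaf 397 7)) (move 464 (branch (move 465 (leaf 461 1)) (move 428 (leaf 428 0)))))))))))) (branch (move 430 (branch (move 398 (leaf 397 5)) (move 429 (branch (move 397 (leaf 397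 7)) (move 461 (branch (move 556 (leaf 428 5)) (move 428 (branch (move 396 (leaf 396 7)) (move 463 (branch (move 464 (leaf 428 3)) (move 427 (leaf 427 0)))))))))))) (branch (move 430 (branch (move 398 (leaf 397 5)) (move 429 (branch (move 397 (leaf 397 7)) (move 461 (branch (move 558 (leaf 429 4)) (move 556 (leaf 428 5)))))))) (branch (move 461 (branch (move 429 (branch (move 397 (leaf 397 4)) (move 556 (leaf 428 5)))) (move 558 (branch (move 590 (leaf 461 7)) (move 463 (branch (move 431 (leaf 430 6)) (move 492 (branch (move 491 (leaf 459 2)) (move 464 (leaf 460 1)))))))))) (move 430 (branch (move 398 (leaf 397 5)) (move 431 (branch (move 399 (leaf 398 6)) (move 463 (branch (move 558 (leaf 430 6)) (move 492 (branch (move 491 (leaf 459 2)) (move 464 (branch (move 461 (leaf 460 1)) (move 465 (leaf 461 1))))))))))))))))) (move 558 (branch (move 557 (branch (move 589 (leaf 461 5)) (move 559 (branch (move 560 (leaf 524 3)) (move 591 (leaf 462 4)))))) (branch (move 461 (branch (move 429 (leaf 429 7)) (move 590 (branch (move 493 (leaf 461 7)) (move 591 (branch (move 623 (leaf 494 4)) (move 559 (leaf 462 4)))))))) (move 461 (branch (move 429 (leaf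 429 7)) (move 557 (branch (move 589 (leaf 461 5)) (move 493 (branch (move 590 (leaf 461 4)) (move 463 (branch (move 431 (leaf 430 6)) (move 492 (branch (move 491 (leaf 459 2)) (move 464 (leaf 460 1)))))))))))))))))))
theorem a6p365 : a6e365.Valid :=
  pos_of_chk [] forall_nil a6c365 a6e365 (by decide +kernel)

def a6e366 : Pos := ⟨164755143843134633201245458983960718746126871642969061843442333207706603250325519232756010713449599834672211085525598496407293750982927158922384874778040205312, 8702164876336042794505503473833321645928671599155918188040980110208215082667140201247457494195006303656006336013714185503400206618816127526452278296759909613210526913501769773201930321920, 5⟩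
def a6c366 : Cert := (move 460 (branch (move 431 (branch (move 432 (leaf 428 2)) (move 459 (branch (move 430 (leaf 427 2)) (move 427 (branch (move 426 (leaf 426 3)) (move 428 (leaf 427 3)))))))) (branch (move 492 (branch (move 491 (leaf 459 1)) (move 557 (branch (move 428 (leaf 428 4)) (move 589 (branch (move 621 (leaf 492 7)) (move 556 (leaf 460 4)))))))) (move 431 (branch (move 432 (leaf 428 2)) (move 459 (branch (move 430 (leaf 427 2)) (move 491 (branch (move 490 (leaf 458 1)) (move 492 (leaf 459 1)))))))))))
theorem a6p366 : a6e366.Valid :=
  pos_of_chk [] forall_nil a6c366 a6e366 (by decide +kernel)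

def a6e367 : Pos := ⟨41679839806007281531660424439529732017975210187253566848781773981814579337574690515217099612130057903516366038989727707420608195791278833664, 716054195623160473474789578041949773734806461754394451401893902519369630233432623194317803685855699753610849009780495721584666694779297267733642608640, 5⟩
def a6c367 : Cert := (move 464 (branch (move 432 (branch (move 433 (leaf 429 2)) (move 496 (branch (move 497 (leaf 461 0)) (move 460 (branch (move 431 (leaf 428 2)) (move 495 (leaf 460 0)))))))) (branch (move 496 (branch (move 497 (leaf 461 0)) (move 460 (branch (move 495 (leaf 460 0)) (move 428 (branch (move 427 (leaf 427 3)) (move 429 (leaf 428 3)))))))) (move 429 (branch (move 428 (leaf 428 3)) (move 465 (branch (move 430 (leaf 429 3)) (move 433 (branch (move 432 (leaf 429 2)) (move 434 (leaf 430 2)))))))))))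
theorem a6p367 : a6e367.Valid :=
  pos_of_chk [] forall_nil a6c367 a6e367 (by decide +kernel)

def a6e368 : Pos := ⟨384428669171901057121809254065826550929514233334843227985156953458353772023666616869472455280620172667419959571560612744157834421038198532094714498259645104128, 40522612991977551259292288085387467203735266529369602129817852681589386388848538701067899250141963984900707856037874028448482923994696935838067305093083918631056569666774790832128, 7⟩
def a6c368 : Cert := (move 528 (branch (move 560 (branch (move 431 (leaf 431 7)) (move 559 (branch (move 591 (leaf 463 5)) (move 558 (branch (move 557 (leaf 524 3)) (move 561 (leaf 525 3)))))))) (branch (move 432 (branch (move 433 (leaf 429 2)) (move 399 (branch (move 431 (leaf 399 7)) (move 400 (branch (move 367 (leaf 367 7)) (move 368 (branch (move 495 (leaf 367 5)) (move 369 (branch (move 401 (leaf 368 6)) (move 337 (leaf 336 6)))))))))))) (move 432 (branch (move 433 (leaf 429 2)) (move 561 (branch (move 529 (leaf 432 4)) (move 560 (branch (move 593 (leaf 464 4)) (move 559 (branch (move 558 (leaf 525 3)) (move 591 (leaf 463 5)))))))))))))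
theorem a6p368 : a6e368.Valid :=
  pos_of_chk [] forall_nil a6c368 a6e368 (by decide +kernel)

def a6e369 : Pos := ⟨384428668967314144056849233236846855109228558710680702362365043794641946919746642053926731021716322442393064700264381437300131058979729642398691953927276986368, 8702164917365188448405132004442335977654211523013749122068872565983699202033537647045806162779196140640892029878427229774383531146967238096761311483014001438854199338463173984223460589568, 10⟩
def a6c369 : Cert := (move 463 (branch (ref 0) (branch (move 460 (branch (move 431 (branch (move 432 (leaf 428 2)) (move 459 (branch (move 430 (leaf 427 2)) (move 496 (branch (move 495 (leaf 460 0)) (move 464 (branch (move 497 (leaf 461 0)) (move 490 (branch (move 491 (leaf 458 1)) (move 458 (branch (move 489 (leaf 457 1)) (move 426 (branch (move 425 (leaf 425 3)) (move 427 (leaf 426 3)))))))))))))))) (branch (move 492 (branch (move 491 (leaf 459 1)) (move 556 (branch (move 429 (leaf 428 6)) (move 557 (branch (move 589 (leaf 460 4)) (move 555 (branch (move 554 (leaf 522 2)) (move 587 (leaf 459 5)))))))))) (move 431 (branch (move 432 (leaf 428 2)) (move 496 (branch (move 495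 (leaf 460 0)) (move 464 (branch (move 497 (leaf 461 0)) (move 430 (branch (move 459 (leaf 427 2)) (move 465 (branch (move 429 (leaf 429 3)) (move 466 (leaf 430 3))))))))))))))) (branch (move 460 (branch (move 492 (branch (move 491 (leaf 459 1)) (move 557 (branch (move 428 (leaf 428 4)) (move 589 (branch (move 621 (leaf 492 7)) (move 556 (leaf 460 4)))))))) (branch (move 492 (branch (move 491 (leaf 459 1)) (move 556 (branch (move 429 (leaf 428 6)) (move 557 (branch (move 589 (leaf 460 4)) (move 555 (branch (move 554 (leaf 522 2)) (move 587 (leaf 459 5)))))))))) (move 428 (branch (move 427 (leaf 427 3)) (move 464 (branch (move 429 (leaf 428 3)) (move 496 (branch (move 495 (leaf 460 0)) (move 497 (leaf 461 0))))))))))) (branch (ref 1) (move 464 (branch (move 429 (branch (move 428 (leaf 428 3)) (move 465 (branch (move 430 (leaf 429 3)) (move 433 (branch (move 432 (leaf 429 2)) (move 434 (leaf 430 2)))))))) (branch (move 429 (branch (move 428 (leaf 428 3)) (move 465 (branch (move 430 (leaf 429 3)) (move 497 (branch (move 496 (leaf 461 0)) (move 498 (leaf 462 0)))))))) (move 496 (branch (move 497 (leaf 461 0)) (ref 2)))))))))))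
theorem a6p369 : a6e369.Valid :=
  pos_of_chk [a6e366, a6e367, a6e368] (forall_cons a6p366 (forall_cons a6p367 (forall_cons a6p368 forall_nil))) a6c369 a6e369 (by decide +kernel)

def a6e370 : Pos := ⟨384428668967314144080666284554565301698748801247554834944065163901643985119050512900677919214616145593945693050052985953595197366973859760924753780093722034176, 139234638107487237307774974127208432940239956896749439468570124553267418452153154543043827151074457094904180973405122907074020733521398955696872081070868617531538022857728549883415487315968, 14⟩
def a6c370 : Cert := (move 464 (branch (move 433 (branch (move 432 (leaf 429 2)) (move 465 (branch (move 434 (leaf 430 2)) (move 497 (branch (move 496 (leaf 461 0)) (move 498 (leaf 462 0)))))))) (branch (move 493 (branch (move 492 (leaf 460 1)) (move 557 (branch (move 430 (leaf 429 6)) (move 556 (branch (move 588 (leaf 460 5)) (move 555 (branch (move 554 (leaf 522 2)) (move 558 (branch (move 590 (leaf 461 4)) (move 560 (branch (move 559 (leaf 524 3)) (move 496 (branch (move 497 (leaf 461 0)) (move 528 (branch (move 431 (leaf 431 7)) (move 592 (branch (move 495 (leaf 463 7)) (move 593 (branch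 (move 625 (leaf 496 4)) (move 561 (leaf 464 4)))))))))))))))))))))) (branch (move 493 (branch (move 492 (leaf 460 1)) (move 557 (branch (move 430 (leaf 429 6)) (move 556 (branch (move 588 (leaf 460 5)) (move 555 (branch (move 554 (leaf 522 2)) (move 558 (branch (move 590 (leaf 461 4)) (move 433 (branch (move 432 (leaf 429 2)) (move 465 (branch (move 434 (leaf 430 2)) (move 560 (branch (move 559 (leaf 524 3)) (move 497 (branch (move 498 (leaf 462 0)) (move 529 (branch (move 528 (leaf 432 5)) (move 561 (branch (move 592 (leaf 464 5)) (move 562 (branch (move 594 (leaf 465 4)) (move 530 (leaf 433 4)))))))))))))))))))))))))) (move 465 (branch (move 493 (branch (move 492 (leaf 460 1)) (move 430 (branch (move 557 (leaf 429 6)) (move 466 (branch (move 431 (leaf 430 3)) (move 398 (branch (move 366 (leaf 365 5)) (move 435 (branch (move 434 (leaf 431 2)) (move 467 (branch (move 436 (leaf 432 2)) (move 499 (branch (move 498 (leaf 463 0)) (move 500 (leaf 464 0)))))))))))))))) (branch (move 433 (branch (move 432 (leaf 429 2)) (move 434 (leaf 430 2)))) (move 466 (branch (move 493 (branch (move 492 (leaf 460 1)) (move 430 (branch (move 431 (leaf 430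 3)) (move 557 (leaf 429 6)))))) (branch (move 493 (branch (move 492 (leaf 460 1)) (move 557 (branch (move 430 (leaf 429 6)) (move 556 (branch (move 588 (leaf 460 5)) (move 555 (branch (move 554 (leaf 522 2)) (move 558 (branch (move 590 (leaf 461 4)) (move 560 (branch (move 559 (leaf 524 3)) (move 433 (branch (move 432 (leaf 429 2)) (move 496 (branch (move 528 (leaf 432 6)) (move 467 (branch (move 495 (leaf 463 1)) (move 499 (branch (move 498 (leaf 463 0)) (move 500 (leaf 464 0)))))))))))))))))))))) (move 432 (branch (move 433 (leaf 429 2)) (move 467 (branch (move 431 (leaf 431 3)) (move 499 (branch (move 498 (leaf 463 0)) (move 500 (leaf 464 0))))))))))))))))))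
theorem a6p370 : a6e370.Valid :=
  pos_of_chk [] forall_nil a6c370 a6e370 (by decide +kernel)

def a6e371 : Pos := ⟨384428668967314144056849233236846855109228558710680702362365043794641946919746642053926731021716322442393064700264381437300131058979729642398691953927276986368, 37375513691848908660191236563405442140085413117846579224727554655511970791349239893095239107635775915917259040461521947222509796888398307947514687439240599362970134515659385981305402044623066497024, 15⟩
def a6c371 : Cert := (move 463 (branch (ref 0) (branch (move 496 (branch (move 460 (branch (move 495 (leaf 460 0)) (move 431 (branch (move 432 (leaf 428 2)) (move 459 (branch (move 430 (leaf 427 2)) (move 427 (branch (move 426 (leaf 426 3)) (move 428 (leaf 427 3)))))))))) (branch (move 464 (branch (move 497 (leaf 461 0)) (move 432 (branch (move 433 (leaf 429 2)) (move 431 (branch (move 460 (leaf 428 2)) (move 399 (branch (move 528 (leaf 399 7)) (move 367 (leaf 367 4)))))))))) (branch (move 497 (branch (move 464 (leaf 461 0)) (move 495 (branch (move 498 (leaf 462 3)) (move 460 (leaf 460 0)))))) (move 464 (branch (move 497 (leaf 461 0)) (ref 1))))))) (branch (move 460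 (branch (move 431 (branch (move 432 (leaf 428 2)) (move 459 (branch (move 430 (leaf 427 2)) (move 427 (branch (move 426 (leaf 426 3)) (move 428 (leaf 427 3)))))))) (branch (move 492 (branch (move 491 (leaf 459 1)) (move 427 (branch (move 428 (leaf 427 3)) (move 459 (branch (move 426 (leaf 426 3)) (move 556 (leaf 427 7)))))))) (move 492 (branch (move 491 (leaf 459 1)) (move 464 (branch (move 493 (leaf 460 1)) (move 432 (branch (move 431 (leaf 428 2)) (move 433 (leaf 429 2))))))))))) (branch (move 496 (branch (move 497 (branch (move 464 (leaf 461 0)) (move 495 (branch (move 498 (leaf 462 3)) (move 460 (leaf 460 0)))))) (branch (move 464 (branch (move 497 (leaf 461 0)) (move 493 (branch (move 492 (leaf 460 1)) (move 557 (branch (move 430 (leaf 429 6)) (move 556 (branch (move 588 (leaf 460 5)) (move 555 (branch (move 554 (leaf 522 2)) (move 558 (branch (move 590 (leaf 461 4)) (move 560 (branch (move 559 (leaf 524 3)) (move 528 (branch (move 431 (leaf 431 7)) (move 592 (branch (move 495 (leaf 463 7)) (move 593 (branch (move 625 (leaf 496 4)) (move 561 (leaf 464 4)))))))))))))))))))))) (branch (move 460 (branch (move 495 (leaf 460 0)) (move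 492 (branch (move 491 (leaf 459 1)) (move 428 (branch (move 427 (leaf 427 3)) (move 557 (leaf 428 4)))))))) (move 464 (branch (move 497 (leaf 461 0)) (move 492 (branch (move 493 (leaf 460 1)) (move 460 (branch (move 491 (leaf 459 1)) (move 428 (branch (move 427 (leaf 427 3)) (move 557 (leaf 428 4)))))))))))))) (branch (move 493 (branch (move 464 (branch (move 492 (leaf 460 1)) (move 433 (branch (move 432 (leaf 429 2)) (move 465 (branch (move 434 (leaf 430 2)) (move 497 (branch (move 496 (leaf 461 0)) (move 498 (leaf 462 0)))))))))) (branch (move 557 (branch (move 430 (leaf 429 6)) (move 588 (branch (move 556 (leaf 460 5)) (move 589 (branch (move 620 (leaf 492 5)) (move 558 (branch (move 590 (leaf 461 4)) (move 559 (branch (move 560 (leaf 556 1)) (move 621 (branch (move 653 (leaf 525 6)) (move 492 (leaf 492 7)))))))))))))) (move 557 (branch (move 430 (leaf 429 6)) (move 556 (branch (move 588 (leaf 460 5)) (move 460 (branch (move 428 (leaf 428 7)) (move 555 (branch (move 554 (leaf 522 2)) (move 558 (branch (move 590 (leaf 461 4)) (move 560 (branch (move 559 (leaf 524 3)) (move 496 (branch (move 495 (leaf 460 0)) (move 464 (branch (move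 497 (leaf 461 0)) (move 433 (branch (move 432 (leaf 429 2)) (move 465 (branch (move 434 (leaf 430 2)) (move 528 (leaf 432 6))))))))))))))))))))))))) (branch (move 460 (branch (move 492 (branch (move 491 (leaf 459 1)) (move 427 (branch (move 428 (leaf 427 3)) (move 459 (branch (move 426 (leaf 426 3)) (move 556 (leaf 427 7)))))))) (branch (move 492 (branch (move 491 (leaf 459 1)) (move 464 (branch (move 493 (leaf 460 1)) (move 432 (branch (move 431 (leaf 428 2)) (move 433 (leaf 429 2)))))))) (move 428 (branch (move 427 (leaf 427 3)) (move 493 (branch (move 557 (leaf 428 7)) (move 496 (branch (move 495 (leaf 460 0)) (move 464 (branch (move 497 (leaf 461 0)) (move 432 (branch (move 431 (leaf 428 2)) (move 433 (leaf 429 2))))))))))))))) (ref 2))))))))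
theorem a6p371 : a6e371.Valid :=
  pos_of_chk [a6e366, a6e368, a6e370] (forall_cons a6p366 (forall_cons a6p368 (forall_cons a6p370 forall_nil))) a6c371 a6e371 (by decide +kernel)

def a6e372 : Pos := ⟨384428668967314144056849233236846855109228558710680702362365043794641946919746642053926731021716322442393064700264381437300131058979729642398691953927276986368, 40522612992213423910843634421371434467102045866949031332319138759782187602865490008948661342456065873568037033792607347998986238202739935459141352218038521559591720458283370151936, 10⟩
def a6c372 : Cert := (move 463 (branch (ref 0) (branch (move 464 (branch (move 433 (branch (move 432 (leaf 429 2)) (move 465 (branch (move 434 (leaf 430 2)) (move 497 (branch (move 496 (leaf 461 0)) (move 498 (leaf 462 0)))))))) (move 429 (branch (move 428 (leaf 428 3)) (move 493 (branch (move 558 (leaf 429 4)) (move 556 (leaf 428 5)))))))) (branch (move 496 (branch (move 464 (branch (move 497 (leaf 461 0)) (move 432 (branch (move 433 (leaf 429 2)) (move 431 (branch (move 460 (leaf 428 2)) (move 399 (branch (move 528 (leaf 399 7)) (move 367 (leaf 367 4)))))))))) (branch (move 497 (branch (move 464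 (leaf 461 0)) (move 495 (branch (move 498 (leaf 462 3)) (move 460 (leaf 460 0)))))) (branch (move 464 (branch (move 497 (leaf 461 0)) (ref 1))) (move 460 (branch (move 495 (leaf 460 0)) (move 431 (branch (move 432 (leaf 428 2)) (move 459 (branch (move 430 (leaf 427 2)) (move 490 (branch (move 491 (leaf 458 1)) (move 458 (branch (move 489 (leaf 457 1)) (move 426 (branch (move 425 (leaf 425 3)) (move 427 (leaf 426 3)))))))))))))))))) (branch (move 496 (branch (move 497 (branch (move 464 (leaf 461 0)) (move 495 (branch (move 498 (leaf 462 3)) (move 460 (leaf 460 0)))))) (branch (move 460 (branch (move 495 (leaf 460 0)) (move 428 (branch (move 427 (leaf 427 3)) (move 493 (branch (move 557 (leaf 428 7)) (move 429 (branch (move 396 (leaf 396 7)) (move 558 (leaf 429 4)))))))))) (move 464 (branch (move 497 (leaf 461 0)) (move 429 (branch (move 428 (leaf 428 3)) (move 493 (branch (move 558 (leaf 429 4)) (move 556 (leaf 428 5))))))))))) (move 460 (branch (move 431 (branch (move 432 (leaf 428 2)) (move 459 (branch (move 430 (leaf 427 2)) (move 427 (branch (move 426 (leaf 426 3)) (move 428 (leaf 427 3)))))))) (branch (move 431 (branch (move 432 (leaf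 428 2)) (move 430 (branch (move 459 (leaf 427 2)) (move 493 (branch (move 557 (leaf 429 6)) (move 429 (branch (move 398 (leaf 397 6)) (move 558 (leaf 429 4)))))))))) (move 428 (branch (move 427 (leaf 427 3)) (move 493 (branch (move 557 (leaf 428 7)) (move 429 (branch (move 396 (leaf 396 7)) (move 558 (leaf 429 4))))))))))))))))
theorem a6p372 : a6e372.Valid :=
  pos_of_chk [a6e367, a6e368] (forall_cons a6p367 (forall_cons a6p368 forall_nil)) a6c372 a6e372 (by decide +kernel)

def a6e373 : Pos := ⟨384428668967314144050894970407417243461848498076462169216940013767891437369920674342238933973491366654504907612817230308226364481981197112767176497385665724416, 37375513691848908660697769225622360225841322280896415005183963992178301311153683556081824084587487301953602413364560329758845116331491299499772077683480846377161699285958146572799340696948768243712, 16⟩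
def a6c373 : Cert := (move 461 (branch (ref 0) (branch (move 493 (branch (move 429 (branch (move 558 (leaf 429 4)) (move 556 (leaf 428 5)))) (branch (move 429 (branch (move 558 (leaf 429 4)) (move 430 (branch (move 557 (leaf 429 6)) (move 398 (leaf 397 6)))))) (branch (move 429 (branch (move 556 (leaf 428 5)) (move 430 (branch (move 557 (leaf 429 6)) (move 398 (leaf 397 6)))))) (move 557 (branch (move 430 (leaf 429 6)) (move 588 (branch (move 556 (leaf 460 5)) (move 589 (branch (move 620 (leaf 492 5)) (move 558 (branch (move 590 (leaf 461 4)) (move 559 (branch (move 560 (leaf 556 1)) (move 621 (branch (move 653 (leaf 525 6)) (move 492 (leaf 492 7)))))))))))))))))) (branch (ref 1) (branch (move 493 (branch (move 429 (branch (move 558 (leaf 429 4)) (move 430 (branch (move 557 (leaf 429 6)) (move 398 (leaf 397 6)))))) (branch (move 557 (branch (move 430 (leaf 429 6)) (move 460 (branch (move 428 (leaf 428 7)) (move 492 (branch (move 589 (leaf 460 7)) (move 491 (branch (move 490 (leaf 490 0)) (move 463 (leaf 459 1)))))))))) (move 429 (branch (move 558 (leaf 429 4)) (move 492 (branch (move 397 (leaf 396 5)) (move 491 (branch (move 490 (leaf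 490 0)) (move 463 (branch (move 460 (leaf 459 1)) (move 464 (leaf 460 1))))))))))))) (branch (move 493 (branch (move 429 (branch (move 558 (leaf 429 4)) (move 556 (leaf 428 5)))) (ref 2))) (branch (move 493 (branch (move 429 (branch (move 558 (leaf 429 4)) (move 556 (leaf 428 5)))) (branch (move 429 (branch (move 558 (leaf 429 4)) (move 492 (branch (move 397 (leaf 396 5)) (move 491 (branch (move 490 (leaf 490 0)) (move 463 (branch (move 460 (leaf 459 1)) (move 464 (leaf 460 1)))))))))) (ref 3)))) (branch (move 493 (branch (move 429 (branch (move 556 (leaf 428 5)) (move 430 (branch (move 557 (leaf 429 6)) (move 398 (leaf 397 6)))))) (branch (move 557 (branch (move 430 (leaf 429 6)) (move 460 (branch (move 428 (leaf 428 7)) (move 492 (branch (move 589 (leaf 460 7)) (move 491 (branch (move 490 (leaf 490 0)) (move 463 (leaf 459 1)))))))))) (move 429 (branch (move 556 (leaf 428 5)) (move 492 (branch (move 397 (leaf 396 5)) (move 491 (branch (move 490 (leaf 490 0)) (move 463 (branch (move 460 (leaf 459 1)) (move 464 (leaf 460 1))))))))))))) (ref 4)))))))))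
theorem a6p373 : a6e373.Valid :=
  pos_of_chk [a6e369, a6e371, a6e362, a6e355, a6e372] (forall_cons a6p369 (forall_cons a6p371 (forall_cons a6p362 (forall_cons a6p355 (forall_cons a6p372 forall_nil))))) a6c373 a6e373 (by decide +kernel)

def a6e374 : Pos := ⟨384428668967314144038986444748558020167088376808025102926089953714390418270268738918863339877041455078728593437922928050078831327984132053504145584302443200512, 56063270500245276906255509596836517586130267796667168327512660385952026489621710481062481998775152238062809943000771659664671304573608401202111344103446480482244176921200402365233597491944060092416, 17⟩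
def a6c374 : Cert := (move 462 (branch (move 494 (branch (move 430 (branch (move 399 (branch (move 431 (leaf 398 6)) (move 398 (branch (move 367 (leaf 366 6)) (move 397 (branch (move 429 (leaf 397 7)) (move 365 (leaf 365 7)))))))) (branch (move 398 (branch (move 493 (leaf 397 5)) (move 399 (branch (move 431 (leaf 398 6)) (move 367 (leaf 366 6)))))) (branch (move 493 (branch (move 398 (leaf 397 5)) (move 429 (branch (move 397 (leaf 397 7)) (move 461 (branch (move 556 (leaf 428 5)) (move 495 (branch (move 496 (leaf 492 1)) (move 460 (branch (move 459 (leaf 459 0)) (move 428 (branch (move 396 (leaf 396 7)) (move 463 (branch (move 427 (leaf 427 0)) (move 464 (leaf 428 3)))))))))))))))) (move 461 (branch (move 431 (branch (move 399 (leaf 398 6)) (move 460 (branch (move 459 (leaf 427 2)) (move 432 (branch (move 463 (leaf 428 2)) (move 433 (leaf 429 1)))))))) (branch (move 429 (branch (move 397 (leaf 397 7)) (move 493 (branch (move 556 (leaf 428 5)) (move 428 (branch (move 396 (leaf 396 7)) (move 463 (branch (move 464 (leaf 428 3)) (move 427 (leaf 427 0)))))))))) (move 429 (branch (move 397 (leaf 397 7)) (move 431 (branch (move 399 (leaf 398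 6)) (move 460 (branch (move 459 (leaf 427 2)) (move 432 (leaf 428 1))))))))))))))) (branch (ref 0) (branch (ref 1) (branch (ref 2) (branch (ref 3) (branch (ref 4) (ref 5)))))))) (branch (move 494 (branch (move 558 (branch (move 463 (branch (move 431 (leaf 430 6)) (move 461 (branch (move 429 (leaf 429 7)) (move 495 (branch (move 590 (leaf 462 6)) (move 496 (branch (move 497 (leaf 493 1)) (move 460 (leaf 460 0)))))))))) (move 557 (branch (move 589 (leaf 461 5)) (move 559 (branch (move 560 (leaf 524 3)) (move 591 (leaf 462 4)))))))) (branch (move 430 (branch (move 557 (leaf 429 5)) (move 399 (branch (move 431 (leaf 398 6)) (move 398 (branch (move 367 (leaf 366 6)) (move 397 (branch (move 429 (leaf 397 7)) (move 365 (leaf 365 7)))))))))) (branch (move 557 (branch (move 430 (leaf 429 5)) (move 589 (branch (move 621 (leaf 493 6)) (move 558 (leaf 461 5)))))) (ref 0))))) (branch (ref 6) (branch (move 494 (branch (move 430 (branch (move 557 (leaf 429 5)) (move 399 (branch (move 431 (leaf 398 6)) (move 398 (branch (move 367 (leaf 366 6)) (move 397 (branch (move 429 (leaf 397 7)) (move 365 (leaf 365 7)))))))))) (branch (move 557 (branch (move 430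 (leaf 429 5)) (move 589 (branch (move 621 (leaf 493 6)) (move 558 (leaf 461 5)))))) (branch (ref 2) (ref 7))))) (branch (ref 8) (branch (move 494 (branch (move 557 (branch (move 430 (leaf 429 5)) (move 589 (branch (move 621 (leaf 493 6)) (move 558 (leaf 461 5)))))) (branch (ref 5) (branch (ref 7) (move 557 (branch (move 430 (leaf 429 5)) (move 589 (branch (move 621 (leaf 493 6)) (move 493 (leaf 461 6)))))))))) (branch (move 494 (branch (move 430 (branch (move 557 (leaf 429 5)) (move 399 (branch (move 431 (leaf 398 6)) (move 398 (branch (move 367 (leaf 366 6)) (move 397 (branch (move 429 (leaf 397 7)) (move 365 (leaf 365 7)))))))))) (branch (move 557 (branch (move 430 (leaf 429 5)) (move 589 (branch (move 621 (leaf 493 6)) (move 558 (leaf 461 5)))))) (branch (ref 3) (ref 9))))) (branch (ref 10) (branch (move 494 (branch (move 557 (branch (move 430 (leaf 429 5)) (move 589 (branch (move 621 (leaf 493 6)) (move 558 (leaf 461 5)))))) (branch (ref 4) (branch (move 557 (branch (move 430 (leaf 429 5)) (move 589 (branch (move 621 (leaf 493 6)) (move 493 (leaf 461 6)))))) (ref 9))))) (branch (move 494 (branch (move 557 (branch (move 430 (leaf 429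 5)) (move 589 (branch (move 621 (leaf 493 6)) (move 558 (leaf 461 5)))))) (branch (ref 1) (move 557 (branch (move 430 (leaf 429 5)) (move 589 (branch (move 621 (leaf 493 6)) (move 493 (leaf 461 6))))))))) (ref 11))))))))))))
theorem a6p374 : a6e374.Valid :=
  pos_of_chk [a6e347, a6e348, a6e349, a6e350, a6e352, a6e353, a6e360, a6e361, a6e363, a6e364, a6e365, a6e373] (forall_cons a6p347 (forall_cons a6p348 (forall_cons a6p349 (forall_cons a6p350 (forall_cons a6p352 (forall_cons a6p353 (forall_cons a6p360 (forall_cons a6p361 (forall_cons a6p363 (forall_cons a6p364 (forall_cons a6p365 (forall_cons a6p373 forall_nil)))))))))))) a6c374 a6e374 (by decide +kernel)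

def a6e375 : Pos := ⟨329510287686269266319131238355906874428932894406878659650934246040906072803087490501882862751749818638910222946791081185781855423986398903003553357973522743296, 80263304231888986564534241594485652050040058062761295251704592132129515492257935746040564059189437051460166543486518507262326629870655067784339127506865888541774876476421664093000904398738212955600571072512, 18⟩
def a6c375 : Cert := (move 524 (branch (move 523 (branch (move 558 (branch (move 559 (leaf 523 0)) (move 522 (branch (move 557 (leaf 522 0)) (move 490 (branch (move 489 (leaf 489 3)) (move 491 (leaf 490 3)))))))) (branch (move 558 (branch (move 559 (leaf 523 0)) (move 522 (branch (move 557 (leaf 522 0)) (move 554 (branch (move 553 (leaf 521 1)) (move 555 (leaf 522 1)))))))) (branch (move 490 (branch (move 491 (leaf 490 3)) (move 522 (branch (move 489 (leaf 489 3)) (move 554 (branch (move 553 (leaf 521 1)) (move 555 (leaf 522 1)))))))) (ref 0))))) (branch (move 523 (branch (move 490 (branch (move 491 (leaf 490 3)) (move 522 (branch (move 489 (leaf 489 3)) (move 554 (branch (move 553 (leaf 521 1)) (move 555 (leaf 522 1)))))))) (branch (move 494 (branch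 (move 495 (leaf 491 2)) (move 522 (branch (move 493 (leaf 490 2)) (move 554 (branch (move 553 (leaf 521 1)) (move 555 (leaf 522 1)))))))) (branch (move 494 (branch (move 495 (leaf 491 2)) (move 522 (branch (move 493 (leaf 490 2)) (move 490 (branch (move 489 (leaf 489 3)) (move 491 (leaf 490 3)))))))) (ref 1))))) (branch (move 523 (branch (move 558 (branch (move 559 (leaf 523 0)) (move 522 (branch (move 557 (leaf 522 0)) (move 490 (branch (move 489 (leaf 489 3)) (move 491 (leaf 490 3)))))))) (branch (move 558 (branch (move 559 (leaf 523 0)) (move 522 (branch (move 557 (leaf 522 0)) (move 554 (branch (move 553 (leaf 521 1)) (move 555 (leaf 522 1)))))))) (branch (move 490 (branch (move 491 (leaf 490 3)) (move 522 (branch (move 489 (leaf 489 3)) (move 554 (branch (move 553 (leaf 521 1)) (move 555 (leaf 522 1)))))))) (ref 2))))) (branch (move 523 (branch (move 558 (branch (move 559 (leaf 523 0)) (move 522 (branch (move 557 (leaf 522 0)) (move 490 (branch (move 489 (leaf 489 3)) (move 491 (leaf 490 3)))))))) (branch (move 494 (branch (move 495 (leaf 491 2)) (move 522 (branch (move 493 (leaf 490 2)) (move 490 (branch (move 489 (leaf 489 3))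 (move 491 (leaf 490 3)))))))) (branch (move 494 (branch (move 495 (leaf 491 2)) (move 558 (branch (move 559 (leaf 523 0)) (move 522 (branch (move 493 (leaf 490 2)) (move 557 (leaf 522 0)))))))) (ref 3))))) (branch (move 523 (branch (move 558 (branch (move 559 (leaf 523 0)) (move 522 (branch (move 557 (leaf 522 0)) (move 554 (branch (move 553 (leaf 521 1)) (move 555 (leaf 522 1)))))))) (branch (move 494 (branch (move 495 (leaf 491 2)) (move 522 (branch (move 493 (leaf 490 2)) (move 554 (branch (move 553 (leaf 521 1)) (move 555 (leaf 522 1)))))))) (branch (move 494 (branch (move 495 (leaf 491 2)) (move 558 (branch (move 559 (leaf 523 0)) (move 522 (branch (move 493 (leaf 490 2)) (move 557 (leaf 522 0)))))))) (ref 4))))) (branch (move 523 (branch (ref 0) (branch (ref 1) (branch (ref 2) (branch (ref 3) (ref 4)))))) (ref 5))))))))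
theorem a6p375 : a6e375.Valid :=
  pos_of_chk [a6e342, a6e343, a6e344, a6e345, a6e346, a6e374] (forall_cons a6p342 (forall_cons a6p343 (forall_cons a6p344 (forall_cons a6p345 (forall_cons a6p346 (forall_cons a6p374 forall_nil)))))) a6c375 a6e375 (by decide +kernel)

def a6e376 : Pos := ⟨8702164876336042794269630822611485599077467010550151891257342179832404428227121660292784759312673253206639130006537005651795934853824041330788885508688359779899018557372565541487674130432, 172364133262068755722138469756107769699273010048131341958911630322404940768750156492928729616074510583208767155645684729392210001871855958204517607571502156634226548247749329304291657085160233029324986882312980398080, 10⟩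
def a6c376 : Cert := (move 622 (branch (move 654 (leaf 525 4)) (move 588 (branch (move 587 (branch (move 586 (leaf 586 0)) (move 623 (branch (move 590 (leaf 587 0)) (move 624 (leaf 588 3)))))) (branch (move 620 (branch (move 652 (leaf 524 5)) (move 623 (branch (move 624 (leaf 588 3)) (move 591 (branch (move 592 (leaf 588 2)) (move 590 (branch (move 619 (leaf 587 1)) (move 655 (branch (move 656 (leaf 620 0)) (move 558 (leaf 526 4)))))))))))) (branch (move 620 (branch (move 652 (leaf 524 5)) (move 587 (branch (move 586 (leaf 586 0)) (move 623 (leaf 587 3)))))) (move 590 (branch (move 587 (branch (move 586 (leaf 586 0)) (move 555 (branch (move 554 (leaf 554 3)) (move 591 (branch (move 556 (leaf 555 3)) (move 559 (branch (move 558 (leaf 555 2)) (move 560 (leaf 556 2)))))))))) (branch (move 620 (branch (move 652 (leaf 524 5)) (move 591 (branch (move 619 (leaf 587 1)) (move 592 (leaf 588 1)))))) (move 587 (branch (move 586 (leaf 586 0)) (move 620 (branch (move 652 (leaf 524 5)) (move 619 (branch (move 618 (leaf 586 1)) (move 555 (branch (move 554 (leaf 554 3)) (move 651 (branch (move 650 (leaf 618 1)) (move 683 (branch (move 556 (leaf 555 6))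 (move 715 (leaf 587 6)))))))))))))))))))))))
theorem a6p376 : a6e376.Valid :=
  pos_of_chk [] forall_nil a6c376 a6e376 (by decide +kernel)

def a6e377 : Pos := ⟨2026130649339417646236166083785233858831040035987044836604370573862332742153723491505219254938831362035952424515191033226448603955775922719388688989660354414003114135556158652416, 5922386523601225339386905872933876397601633436002861604055996064869868140989704431517565001363399952765528704597585068328668718412433543901859468856813581137284560866379330902510401443703618155496597843526473433957362785320960, 9⟩
def a6c377 : Cert := (move 622 (branch (move 493 (branch (move 590 (leaf 493 4)) (move 588 (branch (move 620 (leaf 492 5)) (move 461 (branch (move 556 (leaf 460 5)) (move 460 (branch (move 428 (leaf 428 7)) (move 492 (leaf 460 7)))))))))) (branch (move 621 (branch (move 654 (leaf 525 4)) (move 620 (branch (move 652 (leaf 524 5)) (move 588 (branch (move 493 (leaf 492 5)) (move 587 (branch (move 586 (leaf 586 0)) (move 623 (leaf 587 3)))))))))) (branch (move 590 (branch (move 493 (leaf 493 4)) (move 654 (branch (move 621 (leaf 525 4)) (move 686 (leaf 557 7)))))) (move 621 (branch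 (move 654 (leaf 525 4)) (move 588 (branch (move 587 (branch (move 586 (leaf 586 0)) (move 623 (branch (move 590 (leaf 587 0)) (move 624 (leaf 588 3)))))) (branch (move 620 (branch (move 652 (leaf 524 5)) (move 587 (branch (move 586 (leaf 586 0)) (move 623 (leaf 587 3)))))) (move 652 (branch (move 620 (leaf 524 5)) (move 653 (branch (move 684 (leaf 556 5)) (move 685 (branch (move 556 (leaf 556 7)) (move 717 (branch (move 590 (leaf 589 6)) (move 718 (branch (move 686 (leaf 589 4)) (move 750 (leaf 621 4)))))))))))))))))))))
theorem a6p377 : a6e377.Valid :=
  pos_of_chk [] forall_nil a6c377 a6e377 (by decide +kernel)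

def a6e378 : Pos := ⟨2026130649339417646455839608909413369710460861557649419556992503466918515254346322199156636807556355703874333016357578985722085920303310176576592605651287016005483040871840481280, 1723641332781214160116211151632352456584844195374190601026573916423293226523127993246853496368245186679651358037470857046267288169382628268686924266551801931145967628193822116557060124471430545823922796093230372880384, 7⟩
def a6c378 : Cert := (move 493 (branch (move 588 (branch (move 620 (leaf 492 5)) (move 461 (branch (move 556 (leaf 460 5)) (move 460 (branch (move 428 (leaf 428 7)) (move 492 (leaf 460 7)))))))) (branch (move 460 (branch (move 492 (leaf 460 7)) (move 461 (branch (move 428 (leaf 428 7)) (move 429 (branch (move 558 (leaf 429 4)) (move 430 (branch (move 398 (leaf 397 6)) (move 462 (leaf 429 6)))))))))) (move 621 (branch (move 653 (branch (move 558 (leaf 525 6)) (move 686 (branch (move 654 (leaf 557 4)) (move 685 (branch (move 718 (leaf 589 4)) (move 684 (branch (move 652 (leaf 556 5)) (move 716 (leaf 588 5)))))))))) (branch (move 620 (branch (move 588 (leaf 492 5)) (move 652 (leaf 524 5)))) (move 653 (branch (move 558 (leaf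 525 6)) (move 588 (branch (move 620 (leaf 492 5)) (move 685 (branch (move 556 (leaf 556 7)) (move 686 (branch (move 654 (leaf 557 4)) (move 718 (leaf 589 4))))))))))))))))
theorem a6p378 : a6e378.Valid :=
  pos_of_chk [] forall_nil a6c378 a6e378 (by decide +kernel)

def a6e379 : Pos := ⟨2026130649339417646236166083785233858831040035987044836604370573862332742153723491505219254938831362035952424515191033226448603955775922719388688989660354414003114135556158652416, 547692501839436879412381370830247222886336088241938003673738714838518499750649553671082728082670071361303377209108393122858676505178111072071906929612900088532600453398283978220150164815872, 12⟩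
def a6c379 : Cert := (move 493 (branch (move 588 (branch (move 620 (leaf 492 5)) (move 461 (branch (move 556 (leaf 460 5)) (move 460 (branch (move 428 (leaf 428 7)) (move 492 (leaf 460 7)))))))) (branch (move 590 (branch (move 622 (leaf 493 4)) (move 461 (branch (move 558 (leaf 461 4)) (move 460 (branch (move 428 (leaf 428 7)) (move 492 (leaf 460 7)))))))) (move 590 (branch (move 622 (leaf 493 4)) (move 591 (branch (move 592 (branch (move 556 (leaf 556 3)) (move 593 (branch (move 558 (leaf 557 3)) (move 625 (branch (move 624 (leaf 589 0)) (move 626 (leaf 590 0)))))))) (branch (move 588 (branch (move 620 (leaf 492 5)) (move 559 (branch (move 560 (leaf 556 2)) (move 587 (branch (move 558 (leaf 555 2)) (move 624 (branch (move 623 (leaf 588 0)) (move 592 (branch (move 625 (leaf 589 0)) (move 618 (branch (move 619 (leaf 586 1)) (move 586 (branch (move 617 (leaf 585 1)) (move 554 (branch (move 553 (leaf 553 3)) (move 555 (leaf 554 3)))))))))))))))))) (branch (move 588 (branch (move 620 (leaf 492 5)) (move 555 (branch (move 556 (leaf 555 3)) (move 587 (branch (move 554 (leaf 554 3)) (move 559 (branch (move 558 (leaf 555 2)) (move 560 (leaf 556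 2)))))))))) (move 588 (branch (move 620 (leaf 492 5)) (move 556 (branch (move 555 (leaf 555 3)) (move 592 (leaf 556 3)))))))))))))))
theorem a6p379 : a6e379.Valid :=
  pos_of_chk [] forall_nil a6c379 a6e379 (by decide +kernel)

def a6e380 : Pos := ⟨2026130649339417646455839608909413369710460861557649419556992503466918515254346322199156636807556355703874333016357578985722085920303310176576592605651287016005483040871840481280, 321053219001896947209925898697092195192423176982411354758198012259788941965304909063993872606343792136036023343960919741055754361225523689846612696274847484847681506840950551246720362060163138919903625478144, 14⟩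
def a6c380 : Cert := (move 622 (branch (move 590 (branch (move 493 (leaf 493 4)) (move 654 (branch (move 621 (leaf 525 4)) (move 686 (leaf 557 7)))))) (branch (move 654 (branch (move 621 (leaf 525 4)) (move 590 (branch (move 558 (leaf 525 7)) (move 686 (leaf 557 7)))))) (branch (move 493 (branch (move 590 (leaf 493 4)) (move 460 (branch (move 492 (leaf 460 7)) (move 461 (branch (move 428 (leaf 428 7)) (move 429 (branch (move 558 (leaf 429 4)) (move 430 (branch (move 398 (leaf 397 6)) (move 462 (leaf 429 6)))))))))))) (move 621 (branch (move 654 (leaf 525 4)) (move 558 (branch (move 653 (leaf 525 6)) (move 559 (branch (move 560 (branch (move 561 (leaf 525 3)) (move 592 (branch (move 593 (leaf 557 0)) (move 528 (branch (move 529 (leaf 525 2)) (move 591 (branch (move 556 (leaf 556 0)) (move 623 (branch (move 496 (leaf 495 5)) (move 655 (leaf 527 6)))))))))))) (branch (move 560 (branch (move 588 (leaf 556 1)) (move 561 (leaf 525 3)))) (move 623 (branch (move 591 (branch (move 655 (leaf 526 7)) (move 592 (branch (move 556 (leaf 556 0)) (move 593 (branch (move 594 (leaf 590 1)) (move 624 (leaf 589 2)))))))) (branch (move 591 (branch (move 655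 (leaf 526 7)) (move 556 (branch (move 592 (leaf 556 0)) (move 588 (branch (move 587 (leaf 555 1)) (move 555 (branch (move 554 (leaf 522 2)) (move 493 (branch (move 461 (leaf 460 5)) (move 523 (branch (move 522 (leaf 522 3)) (move 491 (branch (move 459 (leaf 459 4)) (move 492 (branch (move 490 (leaf 490 0)) (move 460 (leaf 460 7)))))))))))))))))) (branch (move 588 (branch (move 624 (leaf 588 3)) (move 587 (branch (move 586 (leaf 586 0)) (move 556 (leaf 555 1)))))) (move 624 (branch (move 588 (leaf 588 3)) (move 593 (branch (move 592 (leaf 589 2)) (move 625 (branch (move 594 (leaf 590 2)) (move 657 (branch (move 656 (leaf 621 0)) (move 658 (leaf 622 0)))))))))))))))))))))))))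
theorem a6p380 : a6e380.Valid :=
  pos_of_chk [] forall_nil a6c380 a6e380 (by decide +kernel)

def a6e381 : Pos := ⟨7091457271036853200582728282675324232687286041429945874016015944295549238254481695507311851227960585941744435126734747137882338263643170692189483359081480910504949371047501627392, 251818896075416449487306618738455678521437053979718538697282861710572882059238986328619305490133233486938319223977317201088214702405875411632196458425710307474996566225378083215305256992768, 7⟩
def a6c381 : Cert := (move 587 (branch (move 618 (branch (move 619 (leaf 586 1)) (move 586 (branch (move 617 (leaf 585 1)) (move 554 (branch (move 553 (leaf 553 3)) (move 555 (leaf 554 3)))))))) (branch (move 619 (branch (move 618 (leaf 586 1)) (move 591 (branch (move 620 (leaf 587 1)) (move 560 (branch (move 559 (leaf 556 2)) (move 592 (branch (move 561 (leaf 557 2)) (move 624 (branch (move 623 (leaf 588 0)) (move 625 (leaf 589 0)))))))))))) (move 555 (branch (move 554 (leaf 554 3)) (move 591 (branch (move 556 (leaf 555 3)) (move 560 (branch (move 559 (leaf 556 2)) (move 592 (branch (move 561 (leaf 557 2)) (move 624 (branch (move 623 (leaf 588 0)) (move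 625 (leaf 589 0)))))))))))))))
theorem a6p381 : a6e381.Valid :=
  pos_of_chk [] forall_nil a6c381 a6e381 (by decide +kernel)

def a6e382 : Pos := ⟨7091457271036853200912238570361593499006417279785852748444948838702427897905415941548217924031048076443627297878484565776792561210434251877971338783067879813508502729021024370688, 86182066751429333858507275200369865737413221918837364463578073205179054093643461578514807249014614927644915560182756071193430836286500123003087020820240010956952828217367538213475369393519333121839767143441068195840, 9⟩
def a6c382 : Cert := (move 555 (branch (move 591 (branch (move 556 (leaf 555 3)) (move 620 (branch (move 619 (leaf 587 1)) (move 592 (branch (move 621 (leaf 588 1)) (move 624 (branch (move 623 (leaf 588 0)) (move 625 (leaf 589 0)))))))))) (branch (move 587 (branch (move 554 (leaf 554 3)) (move 619 (branch (move 618 (leaf 586 1)) (move 620 (branch (move 591 (leaf 587 1)) (move 652 (branch (move 523 (leaf 523 4)) (move 684 (leaf 555 7)))))))))) (branch (move 556 (branch (move 591 (leaf 555 3)) (move 554 (branch (move 553 (leaf 553 0)) (move 587 (leaf 554 3)))))) (move 587 (branch (move 554 (leaf 554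 3)) (move 619 (branch (move 618 (leaf 586 1)) (move 523 (branch (move 490 (branch (move 522 (leaf 490 7)) (move 491 (branch (move 458 (leaf 458 7)) (move 492 (branch (move 493 (leaf 490 0)) (move 460 (leaf 459 6)))))))) (move 652 (branch (move 620 (leaf 523 4)) (move 651 (branch (move 684 (leaf 555 4)) (move 683 (branch (move 556 (leaf 555 6)) (move 682 (branch (move 650 (leaf 554 5)) (move 714 (leaf 586 5))))))))))))))))))))
theorem a6p382 : a6e382.Valid :=
  pos_of_chk [] forall_nil a6c382 a6e382 (by decide +kernel)

def a6e383 : Pos := ⟨6078391946603017029400420244265118608622519273867289052156946560945920863869061413618601945284196564166235235717522459042809370029913798921944269731770525397722081390299952709632, 642106433443981242601021357332272780510576043969176909934333959806488810547435865364052892882458051997285345407914768266285590028538713635530108239752231288169042617156662991121748152206715686754029072809984, 11⟩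
def a6c383 : Cert := (move 558 (branch (move 493 (branch (move 622 (leaf 493 7)) (move 461 (branch (move 429 (leaf 429 4)) (move 494 (leaf 461 7)))))) (branch (move 494 (branch (move 461 (branch (move 493 (leaf 461 7)) (move 462 (branch (move 429 (leaf 429 7)) (move 463 (branch (move 431 (leaf 430 6)) (move 495 (leaf 462 6)))))))) (branch (move 591 (branch (move 623 (leaf 494 4)) (move 559 (branch (move 462 (leaf 462 4)) (move 560 (branch (move 561 (leaf 557 1)) (move 588 (leaf 556 2)))))))) (move 591 (branch (move 623 (leaf 494 4)) (move 493 (branch (move 461 (leaf 461 7)) (move 495 (branch (move 463 (leaf 462 6)) (move 496 (branch (move 497 (leaf 493 1)) (move 464 (branch (move 465 (leaf 461 2)) (move 528 (branch (move 529 (leaf 493 0)) (move 560 (branch (move 559 (leaf 463 5)) (move 561 (branch (move 592 (leaf 557 2)) (move 593 (leaf 464 4))))))))))))))))))))) (branch (move 622 (branch (move 493 (leaf 493 7)) (move 623 (branch (move 655 (leaf 526 4)) (move 588 (branch (move 587 (leaf 587 0)) (move 624 (branch (move 591 (leaf 588 0)) (move 625 (leaf 589 3)))))))))) (move 591 (branch (move 623 (branch (move 494 (leaf 494 4)) (move 655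 (branch (move 622 (leaf 526 4)) (move 687 (leaf 558 7)))))) (move 592 (branch (move 625 (branch (move 624 (leaf 589 0)) (move 593 (branch (move 626 (leaf 590 0)) (move 594 (branch (move 559 (leaf 558 3)) (move 562 (branch (move 561 (leaf 558 2)) (move 563 (leaf 559 2)))))))))) (branch (move 625 (branch (move 624 (leaf 589 0)) (move 593 (branch (move 626 (leaf 590 0)) (move 559 (branch (move 594 (leaf 558 3)) (move 588 (branch (move 587 (leaf 555 2)) (move 560 (leaf 556 2)))))))))) (branch (move 625 (branch (move 624 (leaf 589 0)) (move 593 (branch (move 626 (leaf 590 0)) (move 561 (branch (move 560 (leaf 557 2)) (move 562 (leaf 558 2)))))))) (move 560 (branch (move 561 (leaf 557 2)) (move 588 (branch (move 559 (leaf 556 2)) (move 555 (branch (move 556 (leaf 555 3)) (move 587 (branch (move 554 (leaf 554 3)) (move 619 (branch (move 618 (leaf 586 1)) (move 620 (leaf 587 1))))))))))))))))))))))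
theorem a6p383 : a6e383.Valid :=
  pos_of_chk [] forall_nil a6c383 a6e383 (by decide +kernel)

def a6e384 : Pos := ⟨6078391946603017029400420244265118608622519273867289052156946560945920863869061413618601945284196564166235235717522459042809370029913798921944269731770525397722081390299952709632, 6980747397876285974360727395235347883797384180808056495524976550536079793348181306834512194381997896152839145988541123164094138380413492672443813006502980254620974670073961009272261663005181529626401894418458712473600, 10⟩
def a6c384 : Cert := (move 588 (branch (ref 0) (branch (move 587 (branch (move 618 (branch (move 619 (leaf 586 1)) (move 586 (branch (move 617 (leaf 585 1)) (move 554 (branch (move 553 (leaf 553 3)) (move 555 (leaf 554 3)))))))) (move 622 (branch (move 623 (leaf 587 0)) (move 558 (branch (move 559 (leaf 555 2)) (move 493 (leaf 493 7)))))))) (branch (move 587 (branch (move 555 (branch (move 554 (leaf 554 3)) (move 591 (branch (move 556 (leaf 555 3)) (move 560 (branch (move 559 (leaf 556 2)) (move 592 (branch (move 561 (leaf 557 2)) (move 621 (branch (move 620 (leaf 588 1)) (move 622 (branch (move 586 (leaf 586 0)) (move 593 (leaf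 589 1)))))))))))))) (branch (move 619 (branch (move 618 (leaf 586 1)) (move 558 (branch (move 559 (leaf 555 2)) (move 622 (branch (move 493 (leaf 493 7)) (move 621 (branch (move 586 (leaf 586 0)) (move 653 (leaf 525 5)))))))))) (move 619 (branch (move 618 (leaf 586 1)) (move 555 (branch (move 554 (leaf 554 3)) (move 591 (branch (move 620 (leaf 587 1)) (move 556 (leaf 555 3))))))))))) (branch (move 587 (branch (move 555 (branch (move 554 (leaf 554 3)) (move 591 (branch (move 556 (leaf 555 3)) (move 560 (branch (move 559 (leaf 556 2)) (move 592 (branch (move 561 (leaf 557 2)) (move 624 (branch (move 623 (leaf 588 0)) (move 625 (leaf 589 0)))))))))))) (branch (move 622 (branch (move 623 (leaf 587 0)) (move 586 (branch (move 621 (leaf 586 0)) (move 617 (branch (move 618 (leaf 585 1)) (move 585 (branch (move 616 (leaf 584 1)) (move 553 (branch (move 552 (leaf 552 3)) (move 554 (leaf 553 3)))))))))))) (branch (move 555 (branch (move 554 (leaf 554 3)) (move 591 (branch (move 556 (leaf 555 3)) (move 560 (branch (move 559 (leaf 556 2)) (move 592 (branch (move 561 (leaf 557 2)) (move 621 (branch (move 620 (leaf 588 1)) (move 622 (branch (move 586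 (leaf 586 0)) (move 593 (leaf 589 1)))))))))))))) (move 622 (branch (move 623 (leaf 587 0)) (move 558 (branch (move 559 (leaf 555 2)) (move 493 (leaf 493 7)))))))))) (move 591 (branch (move 620 (branch (move 619 (leaf 587 1)) (move 592 (branch (move 621 (leaf 588 1)) (move 560 (branch (move 559 (leaf 556 2)) (move 561 (leaf 557 2)))))))) (branch (move 620 (branch (move 619 (leaf 587 1)) (move 592 (branch (move 621 (leaf 588 1)) (move 624 (branch (move 623 (leaf 588 0)) (move 625 (leaf 589 0)))))))) (move 623 (branch (move 624 (leaf 588 0)) (move 559 (branch (move 560 (leaf 556 2)) (move 655 (branch (move 558 (leaf 526 7)) (move 686 (branch (move 654 (leaf 558 5)) (move 687 (branch (move 718 (leaf 590 5)) (move 688 (branch (move 656 (leaf 559 4)) (move 720 (leaf 591 4))))))))))))))))))))))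
theorem a6p384 : a6e384.Valid :=
  pos_of_chk [a6e382] (forall_cons a6p382 forall_nil) a6c384 a6e384 (by decide +kernel)

def a6e385 : Pos := ⟨6078391946603017029400420244265118608622519273867289052156946560945920863869061413618601945284196564166235235717522459042809370029913798921944269731770525397722081390299952709632, 160526608543200939296209678861251341389016973138243032950803958958932470489092822994035485962221268138568453401429944049934239420523319041996169715219105358319525500450765914700147587152705220605873202659328, 10⟩
def a6c385 : Cert := (move 558 (branch (move 494 (branch (move 621 (leaf 493 5)) (move 461 (branch (move 493 (leaf 461 7)) (move 462 (branch (move 429 (leaf 429 7)) (move 463 (branch (move 431 (leaf 430 6)) (move 495 (leaf 462 6)))))))))) (branch (move 493 (branch (move 622 (leaf 493 7)) (move 461 (branch (move 429 (leaf 429 4)) (move 494 (leaf 461 7)))))) (branch (move 621 (branch (move 494 (leaf 493 5)) (move 653 (branch (move 622 (leaf 525 5)) (move 685 (leaf 557 6)))))) (move 622 (branch (move 493 (leaf 493 7)) (move 621 (branch (move 653 (leaf 525 5)) (move 623 (branch (move 655 (leaf 526 4)) (move 624 (branch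 (move 625 (leaf 589 3)) (move 592 (branch (move 593 (leaf 589 2)) (move 620 (branch (move 591 (leaf 588 1)) (move 619 (branch (move 618 (leaf 586 2)) (move 651 (branch (move 650 (leaf 618 1)) (move 652 (leaf 619 1))))))))))))))))))))))
theorem a6p385 : a6e385.Valid :=
  pos_of_chk [] forall_nil a6c385 a6e385 (by decide +kernel)

def a6e386 : Pos := ⟨30391959736789047570505601422822070558824340306829738983485441655478295980987194246321534287294759584001303495122081395689169803262175254496518719595468465628028889563255067901952, 11031304530698719631565325109482597392855551080166833428363345422109630793126091815413811925905704846134799049234579931021193525372577223258069776048520371591347351791477449943981300974792668323628520462079572777631744, 7⟩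
def a6c386 : Cert := (move 528 (branch (move 496 (branch (move 623 (leaf 495 5)) (move 464 (branch (move 559 (leaf 463 5)) (move 465 (branch (move 433 (leaf 432 6)) (move 497 (leaf 464 6)))))))) (branch (move 624 (branch (move 625 (leaf 589 0)) (move 497 (branch (move 529 (leaf 496 6)) (move 496 (branch (move 465 (leaf 464 6)) (move 495 (branch (move 494 (leaf 493 1)) (move 463 (leaf 463 7)))))))))) (move 624 (branch (move 625 (leaf 589 0)) (move 655 (branch (move 623 (leaf 527 5)) (move 656 (branch (move 687 (leaf 559 5)) (move 688 (branch (move 559 (leaf 559 7)) (move 689 (branch (move 657 (leaf 560 4)) (move 721 (leaf 592 4)))))))))))))))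
theorem a6p386 : a6e386.Valid :=
  pos_of_chk [] forall_nil a6c386 a6e386 (by decide +kernel)

def a6e387 : Pos := ⟨14182914542073706401494966853036917731693703321215798622460964782997977136159897637055529775259008662385371733005219312914674899474077422570160822142149360724013452100068525998080, 11031304530698719631565325109490211787138300896482974162308617913199842234418805158751068823675718240886685366546951006522374219876951622436538249705217470249187928178355956910711044881559709500629027571955952724738048, 9⟩
def a6c387 : Cert := (move 560 (branch (move 588 (branch (move 559 (leaf 556 2)) (move 619 (branch (move 620 (leaf 587 1)) (move 587 (branch (move 618 (leaf 586 1)) (move 555 (branch (move 554 (leaf 554 3)) (move 556 (leaf 555 3)))))))))) (branch (move 592 (branch (move 561 (leaf 557 2)) (move 624 (branch (move 625 (leaf 589 0)) (move 623 (branch (move 588 (leaf 588 0)) (move 655 (branch (move 528 (leaf 527 5)) (move 687 (leaf 559 6)))))))))) (move 592 (branch (move 561 (leaf 557 2)) (ref 0))))))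
theorem a6p387 : a6e387.Valid :=
  pos_of_chk [a6e386] (forall_cons a6p386 forall_nil) a6c387 a6e387 (by decide +kernel)

def a6e388 : Pos := ⟨6078391946603017029400420244265118608622519273867289052156946560945920863869061413618601945284196564166235235717522459042809370029913798921944269731770525397722081390299952709632, 3701491589574801367230886900852598704505420693448725222628440807392928442820805123611380657785838947778511537449669568021792820344951335475797805775078728626244865081069635886036908214092210484070074960865339391676518028541952, 14⟩
def a6c388 : Cert := (move 591 (branch (move 592 (branch (move 621 (branch (move 620 (leaf 588 1)) (move 593 (branch (move 622 (leaf 589 1)) (move 561 (branch (move 560 (leaf 557 2)) (move 562 (leaf 558 2)))))))) (branch (move 621 (branch (move 620 (leaf 588 1)) (move 593 (branch (move 622 (leaf 589 1)) (move 625 (branch (move 624 (leaf 589 0)) (move 626 (leaf 590 0)))))))) (move 560 (branch (move 561 (leaf 557 2)) (ref 0)))))) (branch (move 588 (branch (move 620 (branch (move 619 (leaf 587 1)) (move 592 (branch (move 621 (leaf 588 1)) (move 560 (branch (move 559 (leaf 556 2)) (move 561 (leaf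 557 2)))))))) (branch (move 619 (branch (move 620 (leaf 587 1)) (move 587 (branch (move 618 (leaf 586 1)) (move 555 (branch (move 554 (leaf 554 3)) (move 556 (leaf 555 3)))))))) (move 560 (branch (move 559 (leaf 556 2)) (move 592 (branch (move 561 (leaf 557 2)) (move 555 (branch (move 556 (leaf 555 3)) (move 587 (branch (move 554 (leaf 554 3)) (move 622 (branch (move 623 (leaf 587 0)) (move 621 (branch (move 586 (leaf 586 0)) (move 593 (leaf 589 1))))))))))))))))) (branch (move 560 (branch (move 592 (branch (move 561 (leaf 557 2)) (move 624 (branch (move 625 (leaf 589 0)) (move 623 (branch (move 588 (leaf 588 0)) (move 655 (branch (move 528 (leaf 527 5)) (move 687 (leaf 559 6)))))))))) (branch (move 588 (branch (move 559 (leaf 556 2)) (move 623 (branch (move 624 (leaf 588 0)) (move 587 (branch (move 622 (leaf 587 0)) (move 555 (branch (move 554 (leaf 554 3)) (move 556 (leaf 555 3)))))))))) (branch (move 592 (branch (move 561 (leaf 557 2)) (move 625 (branch (move 624 (leaf 589 0)) (move 593 (branch (move 626 (leaf 590 0)) (move 528 (branch (move 496 (leaf 496 4)) (move 622 (branch (move 621 (leaf 589 1)) (move 594 (branch (move 623 (leaf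 590 1)) (move 595 (branch (move 559 (leaf 559 3)) (move 563 (branch (move 562 (leaf 559 2)) (move 564 (leaf 560 2)))))))))))))))))) (move 561 (branch (move 592 (leaf 557 2)) (move 559 (branch (move 562 (leaf 558 1)) (move 588 (leaf 556 2)))))))))) (branch (move 588 (branch (move 620 (branch (move 619 (leaf 587 1)) (move 592 (branch (move 621 (leaf 588 1)) (move 624 (branch (move 623 (leaf 588 0)) (move 625 (leaf 589 0)))))))) (branch (move 619 (branch (move 620 (leaf 587 1)) (move 587 (branch (move 618 (leaf 586 1)) (move 555 (branch (move 554 (leaf 554 3)) (move 556 (leaf 555 3)))))))) (move 623 (branch (move 624 (leaf 588 0)) (move 587 (branch (move 622 (leaf 587 0)) (move 555 (branch (move 554 (leaf 554 3)) (move 556 (leaf 555 3))))))))))) (branch (move 592 (branch (move 625 (branch (move 624 (leaf 589 0)) (move 593 (branch (move 626 (leaf 590 0)) (move 561 (branch (move 560 (leaf 557 2)) (move 562 (leaf 558 2)))))))) (branch (move 621 (branch (move 620 (leaf 588 1)) (move 593 (branch (move 622 (leaf 589 1)) (move 625 (branch (move 624 (leaf 589 0)) (move 626 (leaf 590 0)))))))) (move 560 (branch (move 561 (leaf 557 2)) (move 588 (branch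 (move 559 (leaf 556 2)) (move 555 (branch (move 556 (leaf 555 3)) (move 587 (branch (move 554 (leaf 554 3)) (move 619 (branch (move 618 (leaf 586 1)) (move 620 (leaf 587 1))))))))))))))) (branch (ref 1) (move 588 (branch (move 619 (branch (move 620 (leaf 587 1)) (move 587 (branch (move 618 (leaf 586 1)) (move 555 (branch (move 554 (leaf 554 3)) (move 556 (leaf 555 3)))))))) (branch (move 623 (branch (move 624 (leaf 588 0)) (move 587 (branch (move 622 (leaf 587 0)) (move 555 (branch (move 554 (leaf 554 3)) (move 556 (leaf 555 3)))))))) (branch (move 623 (branch (move 624 (leaf 588 0)) (move 587 (branch (move 622 (leaf 587 0)) (move 619 (branch (move 618 (leaf 586 1)) (move 620 (leaf 587 1)))))))) (move 620 (branch (move 619 (leaf 587 1)) (move 623 (branch (move 624 (leaf 588 0)) (move 556 (branch (move 555 (leaf 555 3)) (move 652 (branch (move 651 (branch (move 683 (leaf 555 5)) (move 622 (branch (move 621 (leaf 619 1)) (move 654 (branch (move 653 (leaf 619 2)) (move 686 (branch (move 559 (leaf 558 6)) (move 718 (leaf 590 6)))))))))) (branch (move 683 (branch (move 651 (leaf 555 5)) (move 684 (branch (move 715 (leaf 587 5)) (move 717 (branch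 (move 685 (leaf 588 4)) (move 716 (branch (move 749 (leaf 620 4)) (move 621 (leaf 588 6)))))))))) (branch (move 685 (branch (move 653 (leaf 556 4)) (move 684 (branch (move 717 (leaf 588 4)) (move 716 (branch (move 621 (leaf 588 6)) (move 715 (branch (move 747 (leaf 619 5)) (move 686 (branch (move 687 (leaf 683 1)) (move 559 (branch (move 560 (leaf 556 2)) (move 654 (branch (move 655 (leaf 558 5)) (move 622 (leaf 558 6)))))))))))))))) (move 685 (branch (move 653 (leaf 556 4)) (move 684 (branch (move 717 (leaf 588 4)) (move 683 (branch (move 651 (leaf 555 5)) (move 715 (leaf 587 5)))))))))))))))))))))))))))))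
theorem a6p388 : a6e388.Valid :=
  pos_of_chk [a6e386, a6e387] (forall_cons a6p386 (forall_cons a6p387 forall_nil)) a6c388 a6e388 (by decide +kernel)

def a6e389 : Pos := ⟨2026130648867672343353146939879219047086927250193034267004937449919892727723643301900138030296790515056666987073674032106876605307831987097835993526581107734576396035415666065408, 3701491597934461828514902226533451807707898766026446777857788875372325494398133074858644954582575918930184733733174125881119929070497479348845700336904302009570252212866398731515630984345335280147171062393304618104513607237632, 15⟩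
def a6c389 : Cert := (move 590 (branch (move 588 (branch (move 587 (branch (move 618 (branch (move 619 (leaf 586 1)) (move 586 (branch (move 617 (leaf 585 1)) (move 554 (branch (move 553 (leaf 553 3)) (move 555 (leaf 554 3)))))))) (move 558 (branch (move 559 (leaf 555 2)) (move 494 (branch (move 621 (leaf 493 5)) (move 461 (branch (move 493 (leaf 461 7)) (move 462 (branch (move 429 (leaf 429 7)) (move 463 (branch (move 431 (leaf 430 6)) (move 495 (leaf 462 6)))))))))))))) (branch (ref 0) (branch (move 591 (branch (move 620 (branch (move 619 (leaf 587 1)) (move 592 (branch (move 621 (leaf 588 1)) (move 560 (branch (move 559 (leaf 556 2)) (move 561 (leaf 557 2)))))))) (branch (move 620 (branch (move 619 (leaf 587 1)) (move 592 (branch (move 621 (leaf 588 1)) (move 624 (branch (move 623 (leaf 588 0)) (move 625 (leaf 589 0)))))))) (move 623 (branch (move 624 (leaf 588 0)) (move 558 (branch (move 494 (leaf 494 4)) (move 559 (branch (move 560 (leaf 556 2)) (move 655 (leaf 526 7))))))))))) (branch (move 558 (branch (move 494 (branch (move 621 (leaf 493 5)) (move 461 (branch (move 493 (leaf 461 7)) (move 462 (branch (move 429 (leaf 429 7)) (move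 463 (branch (move 431 (leaf 430 6)) (move 495 (leaf 462 6)))))))))) (move 559 (branch (move 587 (leaf 555 2)) (move 560 (branch (move 561 (leaf 557 1)) (move 591 (leaf 556 2)))))))) (ref 1)))))) (branch (move 558 (branch (move 494 (branch (move 621 (leaf 493 5)) (move 461 (branch (move 493 (leaf 461 7)) (move 462 (branch (move 429 (leaf 429 7)) (move 463 (branch (move 431 (leaf 430 6)) (move 495 (leaf 462 6)))))))))) (branch (move 622 (branch (move 493 (leaf 493 7)) (move 623 (branch (move 655 (leaf 526 4)) (move 621 (branch (move 653 (leaf 525 5)) (move 588 (branch (move 587 (leaf 587 0)) (move 624 (leaf 588 3)))))))))) (branch (move 493 (branch (move 622 (leaf 493 7)) (move 461 (branch (move 429 (leaf 429 4)) (move 494 (leaf 461 7)))))) (move 621 (branch (move 494 (leaf 493 5)) (move 653 (branch (move 622 (leaf 525 5)) (move 685 (leaf 557 6)))))))))) (branch (ref 2) (branch (ref 3) (branch (ref 4) (branch (move 558 (branch (move 494 (branch (move 621 (leaf 493 5)) (move 461 (branch (move 493 (leaf 461 7)) (move 462 (branch (move 429 (leaf 429 7)) (move 463 (branch (move 431 (leaf 430 6)) (move 495 (leaf 462 6)))))))))) (branch (move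 493 (branch (move 622 (leaf 493 7)) (move 461 (branch (move 429 (leaf 429 4)) (move 494 (leaf 461 7)))))) (branch (move 621 (branch (move 494 (leaf 493 5)) (move 653 (branch (move 622 (leaf 525 5)) (move 685 (leaf 557 6)))))) (move 622 (branch (move 493 (leaf 493 7)) (move 559 (branch (move 653 (branch (move 621 (leaf 525 5)) (move 654 (branch (move 685 (leaf 557 5)) (move 686 (branch (move 591 (leaf 558 6)) (move 687 (branch (move 655 (leaf 558 4)) (move 719 (leaf 590 4)))))))))) (branch (move 560 (branch (move 561 (leaf 557 1)) (move 588 (branch (move 587 (leaf 555 2)) (move 591 (leaf 556 2)))))) (move 654 (branch (move 560 (branch (move 561 (leaf 557 1)) (move 687 (branch (move 655 (leaf 558 4)) (move 686 (branch (move 719 (leaf 590 4)) (move 718 (branch (move 621 (leaf 589 7)) (move 717 (branch (move 685 (leaf 589 5)) (move 749 (leaf 621 5)))))))))))) (branch (move 653 (branch (move 621 (leaf 525 5)) (move 685 (leaf 557 5)))) (branch (move 560 (branch (move 561 (leaf 557 1)) (move 687 (branch (move 655 (leaf 558 4)) (move 686 (branch (move 719 (leaf 590 4)) (move 685 (branch (move 653 (leaf 557 5)) (move 717 (leaf 589 5))))))))))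 (move 560 (branch (move 561 (leaf 557 1)) (move 621 (branch (move 653 (leaf 525 5)) (move 587 (branch (move 588 (leaf 555 2)) (move 686 (branch (move 718 (leaf 589 7)) (move 687 (branch (move 655 (leaf 558 4)) (move 719 (leaf 590 4))))))))))))))))))))))))) (branch (move 588 (branch (move 587 (branch (move 618 (branch (move 619 (leaf 586 1)) (move 586 (branch (move 617 (leaf 585 1)) (move 554 (branch (move 553 (leaf 553 3)) (move 555 (leaf 554 3)))))))) (move 558 (branch (move 559 (leaf 555 2)) (move 494 (branch (move 621 (leaf 493 5)) (move 461 (branch (move 493 (leaf 461 7)) (move 462 (branch (move 429 (leaf 429 7)) (move 463 (branch (move 431 (leaf 430 6)) (move 495 (leaf 462 6)))))))))))))) (branch (ref 0) (branch (move 558 (branch (move 494 (branch (move 621 (leaf 493 5)) (move 461 (branch (move 493 (leaf 461 7)) (move 462 (branch (move 429 (leaf 429 7)) (move 463 (branch (move 431 (leaf 430 6)) (move 495 (leaf 462 6)))))))))) (move 559 (branch (move 587 (leaf 555 2)) (move 560 (branch (move 561 (leaf 557 1)) (move 591 (leaf 556 2)))))))) (branch (ref 1) (move 591 (branch (move 624 (branch (move 623 (leaf 588 0)) (move 592 (branch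 (move 625 (leaf 589 0)) (move 560 (branch (move 559 (leaf 556 2)) (move 561 (leaf 557 2)))))))) (branch (move 620 (branch (move 619 (leaf 587 1)) (move 592 (branch (move 621 (leaf 588 1)) (move 560 (branch (move 559 (leaf 556 2)) (move 561 (leaf 557 2)))))))) (branch (move 620 (branch (move 619 (leaf 587 1)) (move 592 (branch (move 621 (leaf 588 1)) (move 624 (branch (move 623 (leaf 588 0)) (move 625 (leaf 589 0)))))))) (move 623 (branch (move 624 (leaf 588 0)) (move 558 (branch (move 494 (leaf 494 4)) (move 559 (branch (move 560 (leaf 556 2)) (move 622 (branch (move 493 (leaf 493 7)) (move 654 (branch (move 686 (leaf 558 6)) (move 653 (branch (move 621 (leaf 525 5)) (move 685 (leaf 557 5))))))))))))))))))))))) (ref 5)))))))))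
theorem a6p389 : a6e389.Valid :=
  pos_of_chk [a6e381, a6e382, a6e383, a6e384, a6e385, a6e388] (forall_cons a6p381 (forall_cons a6p382 (forall_cons a6p383 (forall_cons a6p384 (forall_cons a6p385 (forall_cons a6p388 forall_nil)))))) a6c389 a6e389 (by decide +kernel)

def a6e390 : Pos := ⟨8702164880388304091533230205226555946746902983143079065211074938003425591299245349256565604691212488880191847967015045601210996272001102493608293068274181482031858036085610532942263615488, 23689546096817999222895532847480161025320265457474354320608180775094470112372113735563285978840296466493208354782004004393383118931675407294961527722991932381088811180794400578876048635829507871519202437258443958969725045702656, 11⟩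
def a6c390 : Cert := (move 591 (branch (move 592 (branch (move 620 (leaf 588 1)) (move 625 (branch (move 624 (leaf 589 0)) (move 593 (branch (move 626 (leaf 590 0)) (move 561 (branch (move 560 (leaf 557 2)) (move 562 (leaf 558 2)))))))))) (branch (move 588 (branch (move 560 (branch (move 559 (leaf 556 2)) (move 592 (branch (move 561 (leaf 557 2)) (move 593 (branch (move 622 (leaf 589 1)) (move 625 (branch (move 624 (leaf 589 0)) (move 626 (leaf 590 0)))))))))) (branch (move 560 (branch (move 559 (leaf 556 2)) (move 592 (branch (move 561 (leaf 557 2)) (move 622 (branch (move 593 (leaf 589 1)) (move 587 (branch (move 586 (leaf 586 0)) (move 623 (leaf 587 0)))))))))) (branch (move 560 (branch (move 559 (leaf 556 2)) (move 592 (branch (move 561 (leaf 557 2)) (move 624 (branch (move 623 (leaf 588 0)) (move 625 (leaf 589 0)))))))) (move 623 (branch (move 624 (leaf 588 0)) (move 587 (branch (move 622 (leaf 587 0)) (move 555 (branch (move 554 (leaf 554 3)) (move 556 (leaf 555 3)))))))))))) (branch (move 620 (branch (move 592 (leaf 588 1)) (move 619 (branch (move 588 (leaf 587 1)) (move 618 (leaf 586 2)))))) (move 588 (branch (move 623 (branch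 (move 624 (leaf 588 0)) (move 587 (branch (move 622 (leaf 587 0)) (move 555 (branch (move 554 (leaf 554 3)) (move 556 (leaf 555 3)))))))) (branch (move 619 (branch (move 620 (leaf 587 1)) (move 587 (branch (move 618 (leaf 586 1)) (move 555 (branch (move 554 (leaf 554 3)) (move 556 (leaf 555 3)))))))) (branch (move 620 (branch (move 619 (leaf 587 1)) (move 623 (branch (move 624 (leaf 588 0)) (move 622 (branch (move 587 (leaf 587 0)) (move 655 (branch (move 656 (leaf 620 0)) (move 687 (branch (move 719 (leaf 590 7)) (move 686 (branch (move 718 (leaf 590 5)) (move 559 (branch (move 560 (leaf 556 2)) (move 654 (leaf 558 5)))))))))))))))) (move 623 (branch (move 624 (leaf 588 0)) (move 655 (branch (move 559 (branch (move 560 (leaf 556 2)) (move 686 (branch (move 654 (leaf 558 5)) (move 687 (branch (move 718 (leaf 590 5)) (move 688 (branch (move 656 (leaf 559 4)) (move 720 (leaf 591 4)))))))))) (branch (move 620 (branch (move 619 (leaf 587 1)) (move 559 (branch (move 560 (leaf 556 2)) (move 686 (branch (move 654 (leaf 558 5)) (move 687 (branch (move 718 (leaf 590 5)) (move 719 (branch (move 622 (leaf 590 7)) (move 720 (branch (move 688 (leaf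 591 4)) (move 752 (leaf 623 4)))))))))))))) (move 620 (branch (move 619 (leaf 587 1)) (move 622 (branch (move 656 (leaf 620 0)) (move 652 (branch (move 651 (leaf 619 1)) (move 684 (branch (move 716 (leaf 588 6)) (move 685 (branch (move 717 (leaf 588 4)) (move 556 (branch (move 555 (leaf 555 3)) (move 653 (leaf 556 4)))))))))))))))))))))))))))
theorem a6p390 : a6e390.Valid :=
  pos_of_chk [] forall_nil a6c390 a6e390 (by decide +kernel)

def a6e391 : Pos := ⟨2026130648867672343353146939879219047086927250193034267004937449919892727723643301900138030296790515056666987073674032106876605307831987097835993526581107734576396035415666065408, 23689546096990363356157601602651010670247105596857640820075654550973949770251412299253348973902697878029343837766534893773126044795161885716479282055322258043156278953160081920502620001867635222544029625162945523363050298540032, 13⟩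
def a6c391 : Cert := (move 621 (branch (move 557 (branch (move 653 (branch (move 558 (leaf 525 6)) (move 652 (branch (move 620 (leaf 524 5)) (move 684 (leaf 556 5)))))) (branch (move 653 (branch (move 558 (leaf 525 6)) (move 654 (branch (move 622 (leaf 525 4)) (move 686 (leaf 557 4)))))) (branch (move 652 (branch (move 620 (leaf 524 5)) (move 653 (branch (move 684 (leaf 556 5)) (move 654 (branch (move 622 (leaf 525 4)) (move 686 (leaf 557 4)))))))) (ref 0))))) (branch (move 557 (branch (move 494 (leaf 493 6)) (move 652 (branch (move 620 (leaf 524 5)) (move 653 (branch (move 684 (leaf 556 5)) (move 654 (branch (move 622 (leaf 525 4)) (move 686 (leaf 557 4)))))))))) (branch (move 557 (branch (move 494 (leaf 493 6)) (ref 0))) (branch (move 557 (branch (move 494 (leaf 493 6)) (move 653 (branch (move 558 (leaf 525 6)) (move 652 (branch (move 620 (leaf 524 5)) (move 684 (leaf 556 5)))))))) (branch (move 557 (branch (move 494 (leaf 493 6)) (move 653 (branch (move 558 (leaf 525 6)) (move 654 (branch (move 622 (leaf 525 4)) (move 686 (leaf 557 4)))))))) (move 590 (branch (move 591 (branch (move 592 (branch (move 620 (leaf 588 1)) (move 625 (branch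 (move 624 (leaf 589 0)) (move 593 (branch (move 626 (leaf 590 0)) (move 561 (branch (move 560 (leaf 557 2)) (move 562 (leaf 558 2)))))))))) (branch (move 620 (branch (move 592 (leaf 588 1)) (move 619 (branch (move 588 (leaf 587 1)) (move 618 (leaf 586 2)))))) (branch (move 588 (branch (move 619 (branch (move 620 (leaf 587 1)) (move 587 (branch (move 618 (leaf 586 1)) (move 555 (branch (move 554 (leaf 554 3)) (move 556 (leaf 555 3)))))))) (move 558 (branch (move 494 (leaf 493 5)) (move 559 (branch (move 560 (leaf 556 2)) (move 623 (branch (move 624 (leaf 588 0)) (move 655 (leaf 526 7)))))))))) (move 623 (branch (move 624 (branch (move 588 (leaf 588 0)) (move 625 (branch (move 592 (leaf 589 0)) (move 626 (leaf 590 3)))))) (move 558 (branch (move 494 (leaf 494 4)) (move 655 (branch (move 559 (leaf 526 7)) (move 687 (leaf 558 7)))))))))))) (branch (move 558 (branch (move 494 (leaf 493 5)) (move 653 (branch (move 622 (leaf 525 5)) (move 685 (leaf 557 6)))))) (ref 1))))))))))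
theorem a6p391 : a6e391.Valid :=
  pos_of_chk [a6e376, a6e390] (forall_cons a6p376 (forall_cons a6p390 forall_nil)) a6c391 a6e391 (by decide +kernel)

def a6e392 : Pos := ⟨6078391946603017029400420244265118608622519273867289052156946560945920863869061413618601945284196564166235235717522459042809370029913798921944269731770525397722081390299952709632, 11031304530698719631584012866555865904520914761300470845427534131953139927991146678558394343040350076439331901361097481050004036549751699913263374080992763402392275841686897391446455869405777978782223707409755330838528, 10⟩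
def a6c392 : Cert := (move 591 (branch (move 592 (branch (move 625 (branch (move 624 (leaf 589 0)) (move 593 (branch (move 626 (leaf 590 0)) (move 561 (branch (move 560 (leaf 557 2)) (move 562 (leaf 558 2)))))))) (move 557 (branch (move 556 (leaf 556 3)) (move 493 (branch (move 622 (leaf 493 4)) (move 462 (branch (move 494 (leaf 461 6)) (move 461 (branch (move 430 (leaf 429 6)) (move 460 (branch (move 428 (leaf 428 7)) (move 492 (leaf 460 7)))))))))))))) (branch (ref 0) (branch (move 560 (branch (move 592 (branch (move 561 (leaf 557 2)) (move 624 (branch (move 625 (leaf 589 0)) (move 623 (branch (move 588 (leaf 588 0)) (move 655 (branch (move 528 (leaf 527 5)) (move 687 (leaf 559 6)))))))))) (branch (move 561 (branch (move 592 (leaf 557 2)) (move 559 (branch (move 562 (leaf 558 1)) (move 588 (leaf 556 2)))))) (branch (move 592 (branch (move 561 (leaf 557 2)) (ref 1))) (move 588 (branch (move 559 (leaf 556 2)) (move 623 (branch (move 624 (leaf 588 0)) (move 587 (branch (move 622 (leaf 587 0)) (move 619 (branch (move 618 (leaf 586 1)) (move 620 (leaf 587 1)))))))))))))) (branch (move 560 (branch (move 588 (branch (move 559 (leaf 556 2))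 (move 619 (branch (move 620 (leaf 587 1)) (move 587 (branch (move 618 (leaf 586 1)) (move 555 (branch (move 554 (leaf 554 3)) (move 556 (leaf 555 3)))))))))) (branch (move 561 (branch (move 592 (leaf 557 2)) (move 559 (branch (move 562 (leaf 558 1)) (move 588 (leaf 556 2)))))) (move 592 (branch (move 561 (leaf 557 2)) (move 557 (branch (move 556 (leaf 556 3)) (move 493 (branch (move 622 (leaf 493 4)) (move 462 (branch (move 494 (leaf 461 6)) (move 461 (branch (move 430 (leaf 429 6)) (move 460 (branch (move 428 (leaf 428 7)) (move 492 (leaf 460 7))))))))))))))))) (move 588 (branch (move 623 (branch (move 624 (leaf 588 0)) (move 587 (branch (move 622 (leaf 587 0)) (move 555 (branch (move 554 (leaf 554 3)) (move 556 (leaf 555 3)))))))) (branch (move 623 (branch (move 624 (leaf 588 0)) (move 587 (branch (move 622 (leaf 587 0)) (move 619 (branch (move 618 (leaf 586 1)) (move 620 (leaf 587 1)))))))) (move 620 (branch (move 619 (leaf 587 1)) (move 557 (branch (move 493 (leaf 492 5)) (move 556 (branch (move 555 (leaf 555 3)) (move 652 (leaf 524 6))))))))))))))))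
theorem a6p392 : a6e392.Valid :=
  pos_of_chk [a6e387, a6e386] (forall_cons a6p387 (forall_cons a6p386 forall_nil)) a6c392 a6e392 (by decide +kernel)

def a6e393 : Pos := ⟨6078391946603017029400420244265118608622519273867289052156946560945920863869061413618601945284196564166235235717522459042809370029913798921944269731770525397722081390299952709632, 86182067393535767302488517246084326905963628372656799567419927733311323003521320657787327808656562257946821871737750211341526512884852482894182000437935118795110672716685927606867709349107379413183060344348967174144, 10⟩
def a6c393 : Cert := (move 588 (branch (ref 0) (branch (move 587 (branch (move 618 (branch (move 619 (leaf 586 1)) (move 586 (branch (move 617 (leaf 585 1)) (move 554 (branch (move 553 (leaf 553 3)) (move 555 (leaf 554 3)))))))) (branch (move 555 (branch (move 554 (leaf 554 3)) (move 619 (branch (move 618 (leaf 586 1)) (move 523 (branch (move 490 (branch (move 522 (leaf 490 7)) (move 491 (branch (move 458 (leaf 458 7)) (move 492 (branch (move 493 (leaf 490 0)) (move 460 (leaf 459 6)))))))) (move 652 (branch (move 620 (leaf 523 4)) (move 651 (branch (move 684 (leaf 555 4))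 (move 683 (branch (move 556 (leaf 555 6)) (move 682 (branch (move 650 (leaf 554 5)) (move 714 (leaf 586 5)))))))))))))))) (move 558 (branch (move 559 (leaf 555 2)) (move 557 (branch (move 586 (leaf 554 2)) (move 493 (branch (move 461 (leaf 461 4)) (move 620 (leaf 492 5))))))))))) (branch (move 591 (branch (move 623 (branch (move 624 (leaf 588 0)) (move 558 (branch (move 494 (leaf 494 4)) (move 655 (branch (move 559 (leaf 526 7)) (move 687 (leaf 558 7)))))))) (branch (move 556 (branch (move 555 (leaf 555 3)) (move 592 (branch (move 557 (leaf 556 3)) (move 560 (branch (move 559 (leaf 556 2)) (move 561 (leaf 557 2)))))))) (move 556 (branch (move 555 (leaf 555 3)) (move 592 (branch (move 557 (leaf 556 3)) (move 624 (branch (move 623 (leaf 588 0)) (move 625 (leaf 589 0))))))))))) (branch (move 587 (branch (move 618 (branch (move 619 (leaf 586 1)) (move 586 (branch (move 617 (leaf 585 1)) (move 554 (branch (move 553 (leaf 553 3)) (move 555 (leaf 554 3)))))))) (branch (move 619 (branch (move 618 (leaf 586 1)) (move 591 (branch (move 620 (leaf 587 1)) (move 560 (branch (move 559 (leaf 556 2)) (move 592 (branch (move 561 (leaf 557 2)) (move 624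 (branch (move 623 (leaf 588 0)) (move 625 (leaf 589 0)))))))))))) (move 558 (branch (move 559 (leaf 555 2)) (move 557 (branch (move 586 (leaf 554 2)) (move 493 (branch (move 461 (leaf 461 4)) (move 620 (leaf 492 5))))))))))) (branch (move 587 (branch (move 618 (branch (move 619 (leaf 586 1)) (move 586 (branch (move 617 (leaf 585 1)) (move 554 (branch (move 553 (leaf 553 3)) (move 555 (leaf 554 3)))))))) (branch (move 619 (branch (move 618 (leaf 586 1)) (move 620 (branch (move 591 (leaf 587 1)) (move 557 (branch (move 493 (leaf 492 5)) (move 652 (branch (move 556 (leaf 524 6)) (move 684 (leaf 556 6)))))))))) (move 555 (branch (move 554 (leaf 554 3)) (move 591 (branch (move 556 (leaf 555 3)) (move 623 (branch (move 624 (leaf 588 0)) (move 558 (branch (move 494 (leaf 494 4)) (move 557 (branch (move 586 (leaf 554 2)) (move 493 (branch (move 461 (leaf 461 4)) (move 620 (leaf 492 5))))))))))))))))) (move 591 (branch (move 623 (branch (move 624 (leaf 588 0)) (move 558 (branch (move 494 (leaf 494 4)) (move 655 (branch (move 559 (leaf 526 7)) (move 687 (leaf 558 7)))))))) (move 620 (branch (move 619 (leaf 587 1)) (move 557 (branch (move 493 (leaf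 492 5)) (move 652 (branch (move 556 (leaf 524 6)) (move 684 (leaf 556 6))))))))))))))))
theorem a6p393 : a6e393.Valid :=
  pos_of_chk [a6e381] (forall_cons a6p381 forall_nil) a6c393 a6e393 (by decide +kernel)

def a6e394 : Pos := ⟨7091457271036853200582728282675324232687286041429945874016015944295549238254481695507311851227960585941744435126734747137882338263643170692189483359081480910504949371047501627392, 8158279578529864232186582121573492881795427595958884823254448299076596025737850485062217540193670683174421418650793875465660920930298353288145901806519933747390081755938900707594500833280, 6⟩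
def a6c394 : Cert := (move 555 (branch (move 556 (branch (move 591 (leaf 555 3)) (move 554 (branch (move 553 (leaf 553 0)) (move 557 (leaf 554 0)))))) (branch (move 591 (branch (move 556 (leaf 555 3)) (move 559 (branch (move 560 (leaf 556 2)) (move 587 (branch (move 558 (leaf 555 2)) (move 619 (branch (move 618 (leaf 586 1)) (move 620 (leaf 587 1)))))))))) (move 587 (branch (move 554 (leaf 554 3)) (move 558 (branch (move 559 (leaf 555 2)) (move 586 (branch (move 557 (leaf 554 2)) (move 618 (branch (move 617 (leaf 585 1)) (move 619 (leaf 586 1)))))))))))))
theorem a6p394 : a6e394.Valid :=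
  pos_of_chk [] forall_nil a6c394 a6e394 (by decide +kernel)

def a6e395 : Pos := ⟨6078391946603017029400420244265118608622519273867289052156946560945920863869061413618601945284196564166235235717522459042809370029913798921944269731770525397722081390299952709632, 3447282665642691624412919958764555736961900564942820919630969977588211398342300074445171827547754916861088532562388210914226769444276356067737979836560427918649499401321198788093251792548142914197229230858153358262272, 11⟩
def a6c395 : Cert := (move 588 (branch (ref 0) (branch (move 591 (branch (move 619 (branch (move 620 (leaf 587 1)) (move 587 (branch (move 618 (leaf 586 1)) (move 555 (branch (move 554 (leaf 554 3)) (move 556 (leaf 555 3)))))))) (move 623 (branch (move 624 (leaf 588 0)) (move 558 (branch (move 494 (leaf 494 4)) (move 655 (branch (move 622 (leaf 526 4)) (move 687 (leaf 558 7)))))))))) (branch (move 587 (branch (move 618 (branch (move 619 (leaf 586 1)) (move 586 (branch (move 617 (leaf 585 1)) (move 554 (branch (move 553 (leaf 553 3)) (move 555 (leaf 554 3)))))))) (branch (move 558 (branch (move 559 (leaf 555 2)) (move 557 (branch (move 586 (leaf 554 2)) (move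 622 (branch (move 623 (leaf 587 0)) (move 654 (leaf 525 7)))))))) (move 558 (branch (move 559 (leaf 555 2)) (move 622 (branch (move 623 (leaf 587 0)) (move 654 (branch (move 557 (leaf 525 7)) (move 555 (branch (move 554 (leaf 554 3)) (move 619 (branch (move 618 (leaf 586 1)) (move 685 (branch (move 653 (leaf 557 5)) (move 686 (branch (move 717 (leaf 589 5)) (move 687 (branch (move 655 (leaf 558 4)) (move 719 (leaf 590 4))))))))))))))))))))) (branch (move 587 (branch (move 619 (branch (move 618 (leaf 586 1)) (move 591 (branch (move 620 (leaf 587 1)) (move 623 (branch (move 622 (leaf 587 0)) (move 624 (leaf 588 0)))))))) (branch (move 558 (branch (move 559 (leaf 555 2)) (move 557 (branch (move 586 (leaf 554 2)) (move 622 (branch (move 623 (leaf 587 0)) (move 654 (leaf 525 7)))))))) (move 558 (branch (move 559 (leaf 555 2)) (move 557 (branch (move 586 (leaf 554 2)) (move 494 (branch (move 462 (leaf 461 5)) (move 619 (branch (move 618 (leaf 586 1)) (move 620 (branch (move 591 (leaf 587 1)) (move 652 (branch (move 556 (leaf 524 6)) (move 684 (leaf 556 6))))))))))))))))) (branch (ref 1) (move 591 (branch (move 623 (branch (move 624 (leaf 588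 0)) (move 558 (branch (move 494 (leaf 494 4)) (move 655 (branch (move 622 (leaf 526 4)) (move 687 (leaf 558 7)))))))) (move 556 (branch (move 555 (leaf 555 3)) (move 592 (branch (move 557 (leaf 556 3)) (move 560 (branch (move 559 (leaf 556 2)) (move 561 (leaf 557 2))))))))))))))))
theorem a6p395 : a6e395.Valid :=
  pos_of_chk [a6e381, a6e394] (forall_cons a6p381 (forall_cons a6p394 forall_nil)) a6c395 a6e395 (by decide +kernel)

def a6e396 : Pos := ⟨6078391947546507635605805582325507253869586496596519357261056668039972438930467454216639158305728245460649927602889552800500331254856445079425467889910883960580255401212301541376, 3447282665562428320232422303290811407798696519129774858610685680773746183403445059180562298712374167247389815653512823287288430030783312524328565355680205995661161729052432050170312855316882253955167984220050617794560, 7⟩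
def a6c396 : Cert := (move 494 (branch (move 462 (branch (move 557 (leaf 461 5)) (move 463 (branch (move 431 (leaf 430 6)) (move 495 (leaf 462 6)))))) (branch (move 591 (branch (move 623 (leaf 494 4)) (move 462 (branch (move 559 (leaf 462 4)) (move 463 (branch (move 431 (leaf 430 6)) (move 495 (leaf 462 6)))))))) (move 622 (branch (move 654 (branch (move 557 (leaf 525 7)) (move 687 (branch (move 655 (leaf 558 4)) (move 686 (branch (move 719 (leaf 590 4)) (move 685 (branch (move 653 (leaf 557 5)) (move 717 (leaf 589 5)))))))))) (branch (move 623 (branch (move 591 (leaf 494 4)) (move 655 (leaf 526 4)))) (move 654 (branch (move 557 (leaf 525 7)) (move 591 (branch (move 623 (leaf 494 4)) (move 686 (branch (move 559 (leaf 558 6)) (move 685 (branch (move 653 (leaf 557 5)) (move 717 (leaf 589 5))))))))))))))))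
theorem a6p396 : a6e396.Valid :=
  pos_of_chk [] forall_nil a6c396 a6e396 (by decide +kernel)

def a6e397 : Pos := ⟨6078391946603017029400420244265118608622519273867289052156946560945920863869061413618601945284196564166235235717522459042809370029913798921944269731770525397722081390299952709632, 3447282665562428320232422303290811407847323654714864372726559052123291518763890659046704682834676373509882418475609076508228165664951410127675906400926727782112129080907228162516682899809870872719487726514493770956800, 11⟩
def a6c397 : Cert := (move 558 (branch (move 493 (branch (move 622 (leaf 493 7)) (move 461 (branch (move 429 (leaf 429 4)) (move 494 (leaf 461 7)))))) (branch (move 494 (branch (move 591 (branch (move 623 (leaf 494 4)) (move 493 (branch (move 461 (leaf 461 7)) (move 495 (branch (move 463 (leaf 462 6)) (move 496 (branch (move 497 (leaf 493 1)) (move 464 (branch (move 465 (leaf 461 2)) (move 528 (branch (move 529 (leaf 493 0)) (move 560 (branch (move 559 (leaf 463 5)) (move 561 (branch (move 592 (leaf 557 2)) (move 593 (leaf 464 4)))))))))))))))))) (branch (move 462 (branch (move 557 (leaf 461 5)) (move 463 (branch (move 431 (leaf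 430 6)) (move 495 (leaf 462 6)))))) (move 462 (branch (move 557 (leaf 461 5)) (move 461 (branch (move 429 (leaf 429 7)) (move 493 (leaf 461 7))))))))) (branch (move 622 (branch (move 493 (leaf 493 7)) (move 654 (branch (move 557 (leaf 525 7)) (move 655 (branch (move 623 (leaf 526 4)) (move 687 (leaf 558 4)))))))) (ref 0)))))
theorem a6p397 : a6e397.Valid :=
  pos_of_chk [a6e396] (forall_cons a6p396 forall_nil) a6c397 a6e397 (by decide +kernel)

def a6e398 : Pos := ⟨6078391946603017029400420244265118608622519273867289052156946560945920863869061413618601945284196564166235235717522459042809370029913798921944269731770525397722081390299952709632, 6894565331205119944645342262003154155506759721770754054859274708903516728549487107921131450118500409692477317898561689556008631305241057792227258988538735548712767051118502810440737937787941080728579353201667037200384, 9⟩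
def a6c398 : Cert := (move 588 (branch (move 587 (branch (move 618 (branch (move 619 (leaf 586 1)) (move 586 (branch (move 617 (leaf 585 1)) (move 554 (branch (move 553 (leaf 553 3)) (move 555 (leaf 554 3)))))))) (move 622 (branch (move 623 (leaf 587 0)) (move 558 (branch (move 559 (leaf 555 2)) (move 493 (leaf 493 7)))))))) (branch (ref 0) (branch (move 591 (branch (move 623 (branch (move 624 (leaf 588 0)) (move 559 (branch (move 560 (leaf 556 2)) (move 655 (branch (move 558 (leaf 526 7)) (move 686 (branch (move 654 (leaf 558 5)) (move 687 (branch (move 718 (leaf 590 5)) (move 688 (branch (move 656 (leaf 559 4)) (move 720 (leaf 591 4)))))))))))))) (move 556 (branch (move 555 (leaf 555 3)) (move 557 (branch (move 592 (leaf 556 3)) (move 493 (branch (move 622 (leaf 493 4)) (move 461 (leaf 460 5)))))))))) (branch (move 587 (branch (move 622 (branch (move 623 (leaf 587 0)) (move 557 (branch (move 493 (leaf 493 4)) (move 618 (branch (move 619 (leaf 586 1)) (move 586 (branch (move 617 (leaf 585 1)) (move 585 (branch (move 556 (leaf 553 2)) (move 553 (branch (move 552 (leaf 552 3)) (move 554 (leaf 553 3)))))))))))))) (branch (move 619 (branch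 (move 618 (leaf 586 1)) (move 555 (branch (move 554 (leaf 554 3)) (move 591 (branch (move 620 (leaf 587 1)) (move 556 (leaf 555 3)))))))) (branch (move 619 (branch (move 618 (leaf 586 1)) (move 591 (branch (move 620 (leaf 587 1)) (move 623 (branch (move 622 (leaf 587 0)) (move 624 (leaf 588 0)))))))) (move 555 (branch (move 554 (leaf 554 3)) (move 591 (branch (move 556 (leaf 555 3)) (move 623 (branch (move 622 (leaf 587 0)) (move 624 (leaf 588 0)))))))))))) (move 587 (branch (move 619 (branch (move 618 (leaf 586 1)) (move 591 (branch (move 620 (leaf 587 1)) (move 560 (branch (move 559 (leaf 556 2)) (move 592 (branch (move 561 (leaf 557 2)) (move 624 (branch (move 623 (leaf 588 0)) (move 625 (leaf 589 0)))))))))))) (branch (move 622 (branch (move 623 (leaf 587 0)) (move 558 (branch (move 559 (leaf 555 2)) (move 493 (leaf 493 7)))))) (move 619 (branch (move 618 (leaf 586 1)) (move 620 (branch (move 591 (leaf 587 1)) (move 557 (branch (move 493 (leaf 492 5)) (move 652 (branch (move 556 (leaf 524 6)) (move 684 (leaf 556 6))))))))))))))))))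
theorem a6p398 : a6e398.Valid :=
  pos_of_chk [a6e394] (forall_cons a6p394 forall_nil) a6c398 a6e398 (by decide +kernel)

def a6e399 : Pos := ⟨2026130649339417646455839608909413369710460861557649419556992503466918515254346322199156636807556355703874333016357578985722085920303310176576592605651287016005483040871840481280, 540621992879060075802144013395497196020220995399864352667238854544695368059559502745685455459789878902498378986961832270868092807460426873326715890733986802988842572388350517045007665332224, 15⟩
def a6c399 : Cert := (move 493 (branch (move 590 (branch (move 622 (leaf 493 4)) (move 461 (branch (move 558 (leaf 461 4)) (move 460 (branch (move 428 (leaf 428 7)) (move 492 (leaf 460 7)))))))) (branch (move 462 (branch (move 494 (leaf 461 6)) (move 461 (branch (move 430 (leaf 429 6)) (move 460 (branch (move 428 (leaf 428 7)) (move 492 (leaf 460 7)))))))) (branch (move 590 (branch (move 622 (leaf 493 4)) (move 461 (branch (move 558 (leaf 461 4)) (move 462 (branch (move 430 (leaf 429 6)) (move 494 (leaf 461 6)))))))) (move 590 (branch (move 622 (leaf 493 4)) (move 591 (branch (move 592 (branch (move 556 (leaf 556 3)) (move 593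 (branch (move 558 (leaf 557 3)) (move 625 (branch (move 624 (leaf 589 0)) (move 626 (leaf 590 0)))))))) (branch (move 494 (branch (move 462 (leaf 461 6)) (move 558 (branch (move 623 (leaf 494 4)) (move 592 (branch (move 593 (leaf 557 3)) (move 560 (branch (move 561 (leaf 557 2)) (move 495 (branch (move 463 (leaf 462 6)) (move 496 (branch (move 497 (leaf 493 1)) (move 492 (branch (move 460 (leaf 460 7)) (move 528 (branch (move 529 (leaf 493 0)) (move 464 (branch (move 465 (leaf 461 2)) (move 559 (leaf 463 5)))))))))))))))))))) (branch (move 592 (branch (move 556 (leaf 556 3)) (move 494 (branch (move 462 (leaf 461 6)) (move 492 (branch (move 460 (leaf 460 7)) (move 491 (branch (move 490 (leaf 490 0)) (move 560 (branch (move 561 (leaf 557 2)) (move 625 (branch (move 624 (leaf 589 0)) (move 593 (branch (move 626 (leaf 590 0)) (move 496 (branch (move 528 (leaf 496 4)) (move 495 (branch (move 497 (leaf 493 1)) (move 464 (branch (move 463 (leaf 460 2)) (move 465 (leaf 461 2)))))))))))))))))))))) (move 494 (branch (move 462 (leaf 461 6)) (move 558 (branch (move 623 (leaf 494 4)) (move 555 (branch (move 556 (leaf 555 0)) (move 492 (branch (move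 460 (leaf 460 7)) (move 491 (branch (move 490 (leaf 490 0)) (move 495 (branch (move 463 (leaf 462 6)) (move 496 (branch (move 497 (leaf 493 1)) (move 523 (branch (move 522 (leaf 490 1)) (move 459 (branch (move 458 (leaf 458 3)) (move 586 (branch (move 554 (leaf 458 5)) (move 587 (branch (move 588 (leaf 554 2)) (move 618 (leaf 490 5))))))))))))))))))))))))))))))))))
theorem a6p399 : a6e399.Valid :=
  pos_of_chk [] forall_nil a6c399 a6e399 (by decide +kernel)

def a6e400 : Pos := ⟨2026130648867672343353146939879219047086927250193034267004937449919892727723643301900138030296790515056666987073674032106876605307831987097835993526581107734576396035415666065408, 3447282665562428320265125877863095819301364810832328671562468327363246270546609979867758411855701039538633014563442254465348770012314365950686900697435256335033524191901787262042613788763035483364600590792507997028352, 12⟩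
def a6c400 : Cert := (move 590 (branch (ref 0) (branch (move 557 (branch (move 493 (branch (move 622 (leaf 493 4)) (move 462 (branch (move 494 (leaf 461 6)) (move 461 (branch (move 430 (leaf 429 6)) (move 460 (branch (move 428 (leaf 428 7)) (move 492 (leaf 460 7)))))))))) (branch (move 621 (branch (move 494 (leaf 493 6)) (move 622 (branch (move 654 (leaf 525 4)) (move 620 (branch (move 652 (leaf 524 5)) (move 591 (branch (move 592 (leaf 588 1)) (move 619 (leaf 587 2)))))))))) (branch (move 494 (branch (move 621 (leaf 493 6)) (move 462 (branch (move 430 (leaf 429 5)) (move 493 (leaf 461 6)))))) (move 622 (branch (move 493 (leaf 493 4)) (move 654 (branch (move 621 (leaf 525 4)) (move 686 (leaf 557 7)))))))))) (branch (ref 1) (branch (move 494 (branch (move 557 (branch (move 621 (leaf 493 6)) (move 462 (branch (move 430 (leaf 429 5)) (move 493 (leaf 461 6)))))) (branch (move 558 (branch (move 591 (branch (move 623 (leaf 494 4)) (move 493 (branch (move 461 (leaf 461 7)) (move 495 (branch (move 463 (leaf 462 6)) (move 496 (branch (move 497 (leaf 493 1)) (move 464 (branch (move 465 (leaf 461 2)) (move 528 (branch (move 529 (leaf 493 0)) (move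 560 (branch (move 559 (leaf 463 5)) (move 561 (branch (move 592 (leaf 557 2)) (move 593 (leaf 464 4)))))))))))))))))) (branch (move 462 (branch (move 557 (leaf 461 5)) (move 463 (branch (move 431 (leaf 430 6)) (move 495 (leaf 462 6)))))) (move 462 (branch (move 557 (leaf 461 5)) (move 461 (branch (move 429 (leaf 429 7)) (move 493 (leaf 461 7))))))))) (branch (move 558 (branch (move 621 (leaf 493 5)) (move 461 (branch (move 493 (leaf 461 7)) (move 462 (branch (move 429 (leaf 429 7)) (move 463 (branch (move 431 (leaf 430 6)) (move 495 (leaf 462 6)))))))))) (move 621 (branch (move 558 (leaf 493 5)) (move 557 (leaf 493 6)))))))) (branch (move 622 (branch (move 557 (branch (move 493 (leaf 493 4)) (move 654 (branch (move 621 (leaf 525 4)) (move 686 (leaf 557 7)))))) (branch (move 558 (branch (move 493 (leaf 493 7)) (move 621 (branch (move 653 (leaf 525 5)) (move 623 (branch (move 655 (leaf 526 4)) (move 624 (branch (move 625 (leaf 589 3)) (move 592 (branch (move 593 (leaf 589 2)) (move 620 (branch (move 591 (leaf 588 1)) (move 619 (branch (move 618 (leaf 586 2)) (move 651 (branch (move 650 (leaf 618 1)) (move 652 (leaf 619 1))))))))))))))))))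 (branch (move 493 (branch (move 557 (leaf 493 4)) (move 558 (leaf 493 7)))) (move 558 (branch (move 621 (branch (move 653 (leaf 525 5)) (move 623 (branch (move 655 (leaf 526 4)) (move 624 (branch (move 625 (leaf 589 3)) (move 592 (branch (move 593 (leaf 589 2)) (move 620 (branch (move 591 (leaf 588 1)) (move 619 (branch (move 618 (leaf 586 2)) (move 651 (branch (move 650 (leaf 618 1)) (move 652 (leaf 619 1)))))))))))))))) (branch (move 654 (branch (move 557 (leaf 525 7)) (move 655 (branch (move 623 (leaf 526 4)) (move 687 (leaf 558 4)))))) (move 621 (branch (move 653 (leaf 525 5)) (move 557 (branch (move 654 (leaf 525 4)) (move 620 (branch (move 652 (leaf 524 5)) (move 591 (branch (move 592 (leaf 588 1)) (move 619 (leaf 587 2))))))))))))))))) (branch (move 557 (branch (move 493 (branch (move 622 (leaf 493 4)) (move 462 (branch (move 494 (leaf 461 6)) (move 461 (branch (move 430 (leaf 429 6)) (move 460 (branch (move 428 (leaf 428 7)) (move 492 (leaf 460 7)))))))))) (branch (move 494 (branch (move 621 (leaf 493 6)) (move 462 (branch (move 430 (leaf 429 5)) (move 493 (leaf 461 6)))))) (branch (move 622 (branch (move 493 (leaf 493 4)) (move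 654 (branch (move 621 (leaf 525 4)) (move 686 (leaf 557 7)))))) (move 621 (branch (move 494 (leaf 493 6)) (move 653 (branch (move 558 (leaf 525 6)) (move 654 (branch (move 622 (leaf 525 4)) (move 686 (leaf 557 4)))))))))))) (move 558 (branch (move 621 (branch (move 494 (leaf 493 5)) (move 653 (branch (move 622 (leaf 525 5)) (move 685 (leaf 557 6)))))) (branch (ref 2) (branch (move 494 (branch (move 621 (leaf 493 5)) (move 462 (branch (move 557 (leaf 461 5)) (move 463 (branch (move 431 (leaf 430 6)) (move 495 (leaf 462 6)))))))) (move 622 (branch (move 621 (branch (move 653 (leaf 525 5)) (move 623 (branch (move 655 (leaf 526 4)) (move 624 (branch (move 625 (leaf 589 3)) (move 592 (branch (move 593 (leaf 589 2)) (move 620 (branch (move 591 (leaf 588 1)) (move 619 (branch (move 618 (leaf 586 2)) (move 651 (branch (move 650 (leaf 618 1)) (move 652 (leaf 619 1)))))))))))))))) (branch (move 654 (branch (move 557 (leaf 525 7)) (move 655 (branch (move 623 (leaf 526 4)) (move 687 (leaf 558 4)))))) (move 621 (branch (move 653 (leaf 525 5)) (move 557 (branch (move 654 (leaf 525 4)) (move 620 (branch (move 652 (leaf 524 5)) (move 591 (branch (move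 592 (leaf 588 1)) (move 619 (leaf 587 2))))))))))))))))))))))))
theorem a6p400 : a6e400.Valid :=
  pos_of_chk [a6e385, a6e397, a6e396] (forall_cons a6p385 (forall_cons a6p397 (forall_cons a6p396 forall_nil))) a6c400 a6e400 (by decide +kernel)

def a6e401 : Pos := ⟨329510287686269266319131238355906874428932894406878659650934246040906072803087490501882862751749818638910222946791081185781855423986398903003553357973522743296, 33313424205598740529323989760965066905388944304160741743136054092654062776171763495776806141998618967185656461873929123083890439806510120103395365514387445649898919396473825865148251776050907879564190621913584094289428943470592, 17⟩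
def a6c401 : Cert := (move 589 (branch (move 557 (branch (move 621 (branch (move 653 (branch (move 558 (leaf 525 6)) (move 652 (branch (move 620 (leaf 524 5)) (move 684 (leaf 556 5)))))) (branch (move 653 (branch (move 558 (leaf 525 6)) (move 654 (branch (move 622 (leaf 525 4)) (move 686 (leaf 557 4)))))) (branch (move 652 (branch (move 620 (leaf 524 5)) (move 653 (branch (move 684 (leaf 556 5)) (move 654 (branch (move 622 (leaf 525 4)) (move 686 (leaf 557 4)))))))) (ref 0))))) (branch (ref 1) (branch (move 621 (branch (move 653 (branch (move 558 (leaf 525 6)) (move 652 (branch (move 620 (leaf 524 5)) (move 684 (leaf 556 5)))))) (branch (move 653 (branch (move 558 (leaf 525 6)) (move 654 (branch (move 622 (leaf 525 4)) (move 686 (leaf 557 4)))))) (move 622 (branch (move 654 (leaf 525 4)) (move 590 (branch (move 493 (leaf 493 4)) (move 620 (branch (move 652 (leaf 524 5)) (move 591 (branch (move 592 (leaf 588 1)) (move 619 (leaf 587 2))))))))))))) (branch (ref 2) (branch (ref 3) (ref 4))))))) (branch (ref 5) (branch (move 557 (branch (ref 1) (branch (move 493 (branch (move 588 (branch (move 620 (leaf 492 5)) (move 461 (branch (move 556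 (leaf 460 5)) (move 460 (branch (move 428 (leaf 428 7)) (move 492 (leaf 460 7)))))))) (branch (move 462 (branch (move 494 (leaf 461 6)) (move 461 (branch (move 430 (leaf 429 6)) (move 460 (branch (move 428 (leaf 428 7)) (move 492 (leaf 460 7)))))))) (branch (move 462 (branch (move 494 (leaf 461 6)) (move 461 (branch (move 430 (leaf 429 6)) (move 588 (branch (move 556 (leaf 460 5)) (move 620 (leaf 492 5)))))))) (move 494 (branch (move 462 (leaf 461 6)) (move 492 (branch (move 460 (leaf 460 7)) (move 491 (branch (move 490 (leaf 490 0)) (move 590 (branch (move 622 (leaf 493 4)) (move 588 (branch (move 620 (leaf 492 5)) (move 459 (branch (move 458 (leaf 458 3)) (move 523 (branch (move 522 (leaf 490 1)) (move 555 (branch (move 556 (leaf 459 4)) (move 554 (branch (move 587 (leaf 554 3)) (move 586 (leaf 458 5)))))))))))))))))))))))) (branch (move 621 (branch (move 494 (leaf 493 6)) (move 652 (branch (move 620 (leaf 524 5)) (move 653 (branch (move 684 (leaf 556 5)) (move 654 (branch (move 622 (leaf 525 4)) (move 686 (leaf 557 4)))))))))) (move 494 (branch (move 621 (leaf 493 6)) (move 462 (branch (move 430 (leaf 429 5)) (move 493 (leaf 461 6))))))))))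 (branch (ref 6) (branch (move 590 (branch (ref 7) (branch (ref 8) (branch (ref 9) (branch (ref 10) (branch (move 493 (branch (move 558 (branch (move 622 (leaf 493 7)) (move 461 (branch (move 429 (leaf 429 4)) (move 494 (leaf 461 7)))))) (branch (move 557 (branch (move 622 (leaf 493 4)) (move 462 (branch (move 494 (leaf 461 6)) (move 461 (branch (move 430 (leaf 429 6)) (move 460 (branch (move 428 (leaf 428 7)) (move 492 (leaf 460 7)))))))))) (branch (move 622 (branch (move 557 (leaf 493 4)) (move 558 (leaf 493 7)))) (move 557 (branch (move 588 (branch (move 620 (leaf 492 5)) (move 494 (branch (move 462 (leaf 461 6)) (move 492 (branch (move 460 (leaf 460 7)) (move 491 (branch (move 490 (leaf 490 0)) (move 459 (branch (move 458 (leaf 458 3)) (move 523 (branch (move 522 (leaf 490 1)) (move 555 (branch (move 556 (leaf 459 4)) (move 554 (branch (move 587 (leaf 554 3)) (move 586 (leaf 458 5)))))))))))))))))) (branch (move 461 (branch (move 558 (leaf 461 4)) (move 460 (branch (move 428 (leaf 428 7)) (move 492 (leaf 460 7)))))) (move 461 (branch (move 558 (leaf 461 4)) (move 462 (branch (move 430 (leaf 429 6)) (move 494 (leaf 461 6)))))))))))))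 (branch (ref 11) (ref 12)))))))) (branch (move 557 (branch (ref 2) (branch (move 493 (branch (move 588 (branch (move 620 (leaf 492 5)) (move 461 (branch (move 556 (leaf 460 5)) (move 460 (branch (move 428 (leaf 428 7)) (move 492 (leaf 460 7)))))))) (branch (move 460 (branch (move 492 (leaf 460 7)) (move 461 (branch (move 428 (leaf 428 7)) (move 429 (branch (move 558 (leaf 429 4)) (move 430 (branch (move 398 (leaf 397 6)) (move 462 (leaf 429 6)))))))))) (branch (move 462 (branch (move 494 (leaf 461 6)) (move 461 (branch (move 430 (leaf 429 6)) (move 588 (branch (move 556 (leaf 460 5)) (move 620 (leaf 492 5)))))))) (move 494 (branch (move 462 (leaf 461 6)) (move 492 (branch (move 460 (leaf 460 7)) (move 491 (branch (move 490 (leaf 490 0)) (move 588 (branch (move 620 (leaf 492 5)) (move 523 (branch (move 522 (leaf 490 1)) (move 459 (branch (move 458 (leaf 458 3)) (move 555 (branch (move 556 (leaf 459 4)) (move 586 (branch (move 554 (leaf 458 5)) (move 587 (branch (move 558 (leaf 554 2)) (move 618 (leaf 490 5)))))))))))))))))))))))) (branch (move 494 (branch (move 621 (leaf 493 6)) (move 462 (branch (move 430 (leaf 429 5)) (move 493 (leaf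 461 6)))))) (move 621 (branch (move 494 (leaf 493 6)) (move 653 (branch (move 558 (leaf 525 6)) (move 652 (branch (move 620 (leaf 524 5)) (move 684 (leaf 556 5)))))))))))) (branch (move 557 (branch (ref 4) (branch (move 494 (branch (move 621 (leaf 493 6)) (move 462 (branch (move 430 (leaf 429 5)) (move 493 (leaf 461 6)))))) (branch (move 621 (branch (move 494 (leaf 493 6)) (move 653 (branch (move 558 (leaf 525 6)) (move 654 (branch (move 622 (leaf 525 4)) (move 686 (leaf 557 4)))))))) (ref 13))))) (branch (move 557 (branch (ref 3) (branch (move 494 (branch (move 621 (leaf 493 6)) (move 462 (branch (move 430 (leaf 429 5)) (move 493 (leaf 461 6)))))) (move 494 (branch (move 621 (leaf 493 6)) (move 462 (branch (move 430 (leaf 429 5)) (move 558 (leaf 461 5))))))))) (ref 14))))))))))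
theorem a6p401 : a6e401.Valid :=
  pos_of_chk [a6e376, a6e377, a6e378, a6e379, a6e380, a6e389, a6e391, a6e383, a6e392, a6e393, a6e395, a6e397, a6e398, a6e399, a6e400] (forall_cons a6p376 (forall_cons a6p377 (forall_cons a6p378 (forall_cons a6p379 (forall_cons a6p380 (forall_cons a6p389 (forall_cons a6p391 (forall_cons a6p383 (forall_cons a6p392 (forall_cons a6p393 (forall_cons a6p395 (forall_cons a6p397 (forall_cons a6p398 (forall_cons a6p399 (forall_cons a6p400 forall_nil))))))))))))))) a6c401 a6e401 (by decide +kernel)

def a6e402 : Pos := ⟨1415235909637588294776852234189732072449752332085098055047956022243043306937961892335385012443504900579800459275446664784205050422003652661196936747290814374342045990912, 149502054193052752484230343552719028059387388014564667003924606764636661878318431306593353716353493613757924874177951352692394530784822674059023251612180984020708213461671104152549998931229334831104, 7⟩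
def a6c402 : Cert := (move 559 (branch (move 560 (branch (move 561 (leaf 525 3)) (move 592 (branch (move 593 (leaf 557 0)) (move 591 (branch (move 556 (leaf 556 0)) (move 528 (branch (move 529 (leaf 525 2)) (move 623 (branch (move 496 (leaf 495 5)) (move 655 (leaf 527 6)))))))))))) (branch (move 524 (branch (move 523 (leaf 523 0)) (move 560 (leaf 524 3)))) (move 556 (branch (move 555 (branch (move 554 (leaf 522 2)) (move 587 (branch (move 586 (leaf 554 1)) (move 588 (leaf 555 1)))))) (move 524 (branch (move 523 (leaf 523 0)) (move 591 (branch (move 592 (leaf 556 0)) (move 494 (branch (move 462 (leaf 462 4)) (move 623 (branch (move 590 (leaf 494 4)) (move 655 (leaf 526 7)))))))))))))))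
theorem a6p402 : a6e402.Valid :=
  pos_of_chk [] forall_nil a6c402 a6e402 (by decide +kernel)

def a6e403 : Pos := ⟨1415235909637588294776852234189732072449752332085098055047956022243043306937961892335385012443504900579800459275446664784205050422003652661196936747290814374342045990912, 56063270322394782161926579888489030834877137590736788739242931412588402625696640086694406967595047764672147966138355791580189388733788376639980633128264373247178117293318911443683840520232728788992, 8⟩
def a6c403 : Cert := (move 559 (branch (move 524 (branch (move 523 (leaf 523 0)) (move 560 (leaf 524 3)))) (branch (move 560 (branch (move 561 (leaf 525 3)) (move 589 (branch (move 588 (leaf 556 1)) (move 494 (branch (move 462 (leaf 461 5)) (move 621 (leaf 493 6)))))))) (move 556 (branch (move 555 (branch (move 554 (leaf 522 2)) (move 587 (branch (move 586 (leaf 554 1)) (move 588 (leaf 555 1)))))) (branch (move 523 (branch (move 524 (leaf 523 0)) (move 555 (branch (move 554 (leaf 522 2)) (move 522 (leaf 522 3)))))) (move 524 (branch (move 523 (leaf 523 0)) (move 588 (branch (move 587 (leaf 555 1)) (move 620 (branch (move 652 (leaf 524 6)) (move 621 (branch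 (move 653 (leaf 524 4)) (move 589 (branch (move 492 (leaf 492 4)) (move 494 (leaf 493 6))))))))))))))))))
theorem a6p403 : a6e403.Valid :=
  pos_of_chk [] forall_nil a6c403 a6e403 (by decide +kernel)

def a6e404 : Pos := ⟨1415235909637588294776852234189732072449752332085098055047956022243043306937961892335385012443504900579800459275446664784205050422003652661196936747290814374342045990912, 214909202902513331670738656594533949894366458624748966994176938378452346894860086065152300121840178023155539806964365464237123848349236965578852297727386015495045406010691205009118343098451812679680, 10⟩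
def a6c404 : Cert := (move 559 (branch (move 560 (branch (move 561 (leaf 525 3)) (move 592 (branch (move 593 (leaf 557 0)) (move 591 (branch (move 556 (leaf 556 0)) (move 528 (branch (move 529 (leaf 525 2)) (move 623 (branch (move 496 (leaf 495 5)) (move 655 (leaf 527 6)))))))))))) (branch (move 524 (branch (move 523 (leaf 523 0)) (move 560 (leaf 524 3)))) (move 556 (branch (move 555 (branch (move 554 (leaf 522 2)) (move 587 (branch (move 586 (leaf 554 1)) (move 588 (leaf 555 1)))))) (branch (move 523 (branch (move 524 (leaf 523 0)) (move 555 (branch (move 554 (leaf 522 2)) (move 522 (leaf 522 3)))))) (move 524 (branch (move 523 (leaf 523 0)) (move 588 (branch (move 587 (leaf 555 1)) (move 620 (branch (move 652 (leaf 524 6)) (move 621 (branch (move 653 (leaf 524 4)) (move 589 (branch (move 492 (leaf 492 4)) (move 591 (branch (move 592 (leaf 556 0)) (move 619 (branch (move 590 (leaf 587 1)) (move 651 (leaf 523 5))))))))))))))))))))))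
theorem a6p404 : a6e404.Valid :=
  pos_of_chk [] forall_nil a6c404 a6e404 (by decide +kernel)

def a6e405 : Pos := ⟨943490606534895625746657911566198461085137179533043001500930234712340286638943285824619171796297554637116912396601184171733727343263053582126757465861727368885871575040, 289660229999039707881575436472659694616831099137029114685870201489619835853515371787376809237404819024932708897731657150570087618509159284585795868983407889809564616707815856026701087125019375435776, 11⟩
def a6c405 : Cert := (move 557 (branch (move 494 (branch (move 462 (branch (move 430 (leaf 429 5)) (move 463 (branch (move 431 (leaf 430 6)) (move 590 (branch (move 495 (leaf 462 6)) (move 622 (branch (move 654 (leaf 525 7)) (move 623 (branch (move 591 (leaf 494 4)) (move 655 (leaf 526 4)))))))))))) (branch (move 589 (branch (move 462 (leaf 461 5)) (move 621 (leaf 493 6)))) (move 590 (branch (move 622 (branch (move 654 (leaf 525 7)) (move 623 (branch (move 591 (leaf 494 4)) (move 655 (leaf 526 4)))))) (branch (move 589 (branch (move 621 (leaf 493 5)) (move 591 (branch (move 623 (leaf 494 4)) (move 556 (branch (move 555 (leaf 555 0)) (move 592 (leaf 556 3))))))))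 (move 621 (branch (move 589 (leaf 493 5)) (move 622 (branch (move 653 (leaf 525 5)) (move 654 (leaf 525 7)))))))))))) (branch (ref 0) (branch (move 494 (branch (move 462 (branch (move 430 (leaf 429 5)) (move 463 (branch (move 431 (leaf 430 6)) (move 590 (branch (move 495 (leaf 462 6)) (move 622 (branch (move 654 (leaf 525 7)) (move 623 (branch (move 591 (leaf 494 4)) (move 655 (leaf 526 4)))))))))))) (branch (move 589 (branch (move 462 (leaf 461 5)) (move 621 (leaf 493 6)))) (move 590 (branch (move 622 (branch (move 654 (leaf 525 7)) (move 623 (branch (move 591 (leaf 494 4)) (move 655 (leaf 526 4)))))) (branch (move 621 (branch (move 589 (leaf 493 5)) (move 622 (branch (move 653 (leaf 525 5)) (move 654 (leaf 525 7)))))) (move 589 (branch (move 621 (leaf 493 5)) (move 591 (branch (move 623 (leaf 494 4)) (move 592 (branch (move 593 (leaf 557 3)) (move 560 (branch (move 561 (leaf 557 2)) (move 559 (branch (move 588 (leaf 556 1)) (move 524 (leaf 524 3)))))))))))))))))) (branch (ref 1) (ref 2))))))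
theorem a6p405 : a6e405.Valid :=
  pos_of_chk [a6e402, a6e403, a6e404] (forall_cons a6p402 (forall_cons a6p403 (forall_cons a6p404 forall_nil))) a6c405 a6e405 (by decide +kernel)

def a6e406 : Pos := ⟨1415235909637588294776852234189732072449752332085098055047956022243043306937961892335385012443504900579800459275446664784205050422003652661196936747290814374342045990912, 149502054197403834917333038327448789961431667300557482118108681186221508603584821349536802714415947173820001630393804989842303420731765830782911773902936468229909735187846943201316757793464454742016, 7⟩
def a6c406 : Cert := (move 559 (branch (move 560 (branch (move 561 (leaf 525 3)) (move 592 (branch (move 593 (leaf 557 0)) (move 591 (branch (move 556 (leaf 556 0)) (move 528 (branch (move 529 (leaf 525 2)) (move 623 (branch (move 496 (leaf 495 5)) (move 655 (leaf 527 6)))))))))))) (branch (move 524 (branch (move 523 (leaf 523 0)) (move 560 (leaf 524 3)))) (move 556 (branch (move 555 (branch (move 554 (leaf 522 2)) (move 587 (branch (move 586 (leaf 554 1)) (move 588 (leaf 555 1)))))) (branch (move 524 (branch (move 523 (leaf 523 0)) (move 588 (branch (move 587 (leaf 555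 1)) (move 493 (branch (move 461 (leaf 460 5)) (move 620 (leaf 492 6)))))))) (move 523 (branch (move 524 (leaf 523 0)) (move 555 (branch (move 554 (leaf 522 2)) (move 522 (leaf 522 3))))))))))))
theorem a6p406 : a6e406.Valid :=
  pos_of_chk [] forall_nil a6c406 a6e406 (by decide +kernel)

def a6e407 : Pos := ⟨2026130650282908252661224946969802014957528084286879724661102610560970090315752362797193849829088036998289024901724672743413047145245956334057790763791645578863657051784189313024, 265416028729009104204573662603816840422009953923242013052446269683668158614944853095728837589923991710387790531210162338318685862357648587079568865909850836347160592009634931940268481445888, 9⟩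
def a6c407 : Cert := (move 493 (branch (move 461 (branch (move 429 (leaf 429 4)) (move 588 (branch (move 556 (leaf 460 5)) (move 620 (leaf 492 5)))))) (branch (move 590 (branch (move 622 (leaf 493 4)) (move 588 (branch (move 620 (leaf 492 5)) (move 587 (branch (move 586 (leaf 554 2)) (move 555 (branch (move 554 (leaf 554 3)) (move 591 (branch (move 556 (leaf 555 0)) (move 592 (branch (move 593 (leaf 557 3)) (move 624 (branch (move 623 (leaf 588 0)) (move 625 (leaf 589 0)))))))))))))))) (move 590 (branch (move 461 (leaf 461 4)) (move 622 (leaf 493 4)))))))
theorem a6p407 : a6e407.Valid :=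
  pos_of_chk [] forall_nil a6c407 a6e407 (by decide +kernel)

def a6e408 : Pos := ⟨1415235909637588294776852234189732072449752332085098055047956022243043306937961892335385012443504900579800459275446664784205050422003652661196936747290814374342045990912, 280316351823001409057236208494490944055707306075626824761327414487514861130514227345895713672807329738163126216711177496578476972828417493819531692537105457658134425159101795178157462180585845817344, 10⟩
def a6c408 : Cert := (move 589 (branch (ref 0) (branch (move 621 (branch (move 653 (leaf 525 6)) (move 622 (branch (move 654 (leaf 525 4)) (move 590 (branch (move 493 (leaf 493 4)) (move 620 (branch (move 652 (leaf 524 5)) (move 591 (branch (move 592 (leaf 588 1)) (move 619 (leaf 587 2)))))))))))) (branch (move 621 (branch (move 653 (leaf 525 6)) (move 622 (branch (move 654 (leaf 525 4)) (move 590 (branch (move 493 (leaf 493 4)) (move 623 (branch (move 655 (leaf 526 4)) (move 624 (branch (move 588 (leaf 588 3)) (move 625 (leaf 589 3)))))))))))) (branch (move 621 (branch (move 653 (leaf 525 6)) (move 620 (branch (move 652 (leaf 524 5)) (move 588 (branch (move 493 (leaf 492 5)) (move 587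 (branch (move 586 (leaf 554 2)) (move 559 (branch (move 556 (leaf 555 1)) (move 560 (leaf 556 1)))))))))))) (move 590 (branch (move 622 (branch (move 654 (leaf 525 7)) (move 623 (branch (move 655 (leaf 526 4)) (move 588 (branch (move 587 (leaf 587 0)) (move 591 (branch (move 624 (leaf 588 0)) (move 556 (branch (move 555 (leaf 555 0)) (move 592 (leaf 556 3)))))))))))) (branch (move 621 (branch (move 653 (leaf 525 6)) (move 620 (branch (move 652 (leaf 524 5)) (move 591 (branch (move 592 (leaf 588 1)) (move 588 (branch (move 619 (leaf 587 1)) (move 559 (branch (move 560 (leaf 556 1)) (move 587 (leaf 555 2)))))))))))) (branch (move 621 (branch (move 653 (leaf 525 6)) (move 622 (branch (move 654 (leaf 525 4)) (move 620 (branch (move 652 (leaf 524 5)) (move 591 (branch (move 592 (leaf 588 1)) (move 619 (leaf 587 2)))))))))) (move 622 (branch (move 654 (leaf 525 7)) (move 621 (branch (move 653 (leaf 525 5)) (move 623 (branch (move 655 (leaf 526 4)) (move 588 (branch (move 587 (leaf 587 0)) (move 624 (leaf 588 3)))))))))))))))))))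
theorem a6p408 : a6e408.Valid :=
  pos_of_chk [a6e407] (forall_cons a6p407 forall_nil) a6c408 a6e408 (by decide +kernel)

def a6e409 : Pos := ⟨1415235909637588294776852234189732072449752332085098055047956022243043306937961892335385012443504900579800459275446664784205050422003652661196936747290814374342045990912, 280316351683766771067517815189830080958322296360112924731700872498922350496774229816177873330568726890476871524941898356877060323529650616150451187652583253921189756207899484837282070157362508857344, 11⟩
def a6c409 : Cert := (move 524 (branch (move 559 (branch (move 523 (leaf 523 0)) (move 560 (leaf 524 3)))) (branch (move 590 (branch (move 493 (branch (move 461 (leaf 461 4)) (move 622 (leaf 493 7)))) (branch (move 622 (branch (move 654 (leaf 525 7)) (move 621 (branch (move 653 (leaf 525 5)) (move 589 (branch (move 492 (leaf 492 7)) (move 620 (branch (move 652 (leaf 524 5)) (move 591 (branch (move 592 (leaf 588 1)) (move 619 (leaf 587 2)))))))))))) (move 523 (branch (move 522 (leaf 522 0)) (move 555 (branch (move 554 (leaf 522 1)) (move 556 (branch (move 591 (leaf 555 0)) (move 493 (branch (move 461 (leaf 461 4)) (move 588 (branch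 (move 620 (leaf 492 6)) (move 491 (branch (move 490 (leaf 490 3)) (move 459 (leaf 459 4))))))))))))))))) (move 590 (branch (move 493 (branch (move 461 (leaf 461 4)) (move 622 (leaf 493 7)))) (branch (move 622 (branch (move 654 (leaf 525 7)) (move 621 (branch (move 653 (leaf 525 5)) (move 589 (branch (move 492 (leaf 492 7)) (move 620 (branch (move 652 (leaf 524 5)) (move 591 (branch (move 592 (leaf 588 1)) (move 619 (leaf 587 2)))))))))))) (move 591 (branch (move 556 (branch (move 555 (leaf 555 0)) (move 592 (branch (move 589 (leaf 556 3)) (move 593 (leaf 557 3)))))) (branch (move 560 (branch (move 559 (leaf 524 3)) (move 592 (branch (move 593 (leaf 557 3)) (move 589 (branch (move 561 (leaf 557 2)) (move 621 (branch (move 620 (leaf 588 1)) (move 653 (leaf 525 6)))))))))) (branch (move 559 (branch (move 560 (leaf 524 3)) (move 556 (branch (move 555 (leaf 555 0)) (move 592 (leaf 556 0)))))) (move 559 (branch (move 560 (leaf 524 3)) (move 556 (branch (move 555 (leaf 555 0)) (move 493 (branch (move 461 (leaf 461 4)) (move 588 (branch (move 620 (leaf 492 6)) (move 623 (branch (move 655 (leaf 526 7)) (move 589 (branch (move 624 (leaf 588 0))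 (move 621 (branch (move 492 (leaf 492 4)) (move 653 (leaf 525 6))))))))))))))))))))))))))
theorem a6p409 : a6e409.Valid :=
  pos_of_chk [] forall_nil a6c409 a6e409 (by decide +kernel)

def a6e410 : Pos := ⟨26106494622929736438328729302066643275916887608514706412689598799395581570290181501246522209624095470831079618263925975228191487834557193771782730272671650039755938137822953400742331809792, 2389696897186957933707151283223075641680343350317557244770026673012784741940264234669391361877609519287113504586968947810707907905885656044794175687558700967736821475145689697485516587780842253713408, 9⟩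
def a6c410 : Cert := (move 623 (branch (move 591 (branch (move 592 (leaf 556 0)) (move 655 (leaf 526 7)))) (branch (move 524 (branch (move 523 (leaf 523 0)) (move 592 (branch (move 591 (leaf 556 0)) (move 624 (branch (move 593 (leaf 589 2)) (move 653 (branch (move 652 (leaf 620 1)) (move 625 (branch (move 654 (leaf 621 1)) (move 657 (branch (move 656 (leaf 621 0)) (move 658 (leaf 622 0)))))))))))))) (branch (move 524 (branch (move 523 (leaf 523 0)) (move 655 (branch (move 591 (leaf 526 7)) (move 656 (branch (move 620 (leaf 620 0)) (move 657 (branch (move 624 (leaf 621 0)) (move 654 (leaf 621 3)))))))))) (move 620 (branch (move 655 (branch (move 656 (leaf 620 0)) (move 619 (branch (move 654 (leaf 619 0)) (move 651 (branch (move 650 (leaf 618 1)) (move 652 (leaf 619 1)))))))) (branch (move 524 (branch (move 523 (leaf 523 0)) (move 655 (branch (move 656 (leaf 620 0)) (move 619 (branch (move 654 (leaf 619 0)) (move 586 (branch (move 587 (leaf 586 3)) (move 618 (branch (move 585 (leaf 585 3)) (move 650 (branch (move 649 (leaf 617 1)) (move 651 (leaf 618 1)))))))))))))) (branch (move 524 (branch (move 523 (leaf 523 0)) (move 652 (branch (move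 651 (leaf 619 1)) (move 624 (branch (move 653 (leaf 620 1)) (move 593 (branch (move 592 (leaf 589 2)) (move 625 (branch (move 594 (leaf 590 2)) (move 657 (branch (move 656 (leaf 621 0)) (move 658 (leaf 622 0)))))))))))))) (branch (move 524 (branch (move 523 (leaf 523 0)) (move 656 (branch (move 655 (leaf 620 0)) (move 624 (branch (move 657 (leaf 621 0)) (move 593 (branch (move 592 (leaf 589 2)) (move 625 (branch (move 594 (leaf 590 2)) (move 653 (branch (move 652 (leaf 620 1)) (move 654 (leaf 621 1)))))))))))))) (move 524 (branch (move 523 (leaf 523 0)) (move 651 (branch (move 652 (leaf 619 1)) (move 619 (branch (move 650 (leaf 618 1)) (move 586 (branch (move 587 (leaf 586 3)) (move 618 (branch (move 585 (leaf 585 3)) (move 654 (branch (move 653 (leaf 618 0)) (move 655 (leaf 619 0)))))))))))))))))))))))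
theorem a6p410 : a6e410.Valid :=
  pos_of_chk [] forall_nil a6c410 a6e410 (by decide +kernel)

def a6e411 : Pos := ⟨943490606534895625746657911566198461085137179533043001500930234712340286638943285824619171796297554637116912396601184171733727343263053582126757465861727368885871575040, 2389696897213064428337172476942996525342235771955076737634327917827365080598372766603232632810358210256245225542575605885123026585957539068665296257218267538139442333058673624272542135096840030257152, 14⟩
def a6c411 : Cert := (move 557 (branch (ref 0) (branch (ref 1) (branch (move 589 (branch (move 621 (branch (move 653 (leaf 525 6)) (move 622 (branch (move 654 (leaf 525 4)) (move 620 (branch (move 652 (leaf 524 5)) (move 524 (branch (move 492 (leaf 492 7)) (move 523 (branch (move 522 (leaf 522 0)) (move 555 (branch (move 554 (leaf 522 1)) (move 491 (branch (move 490 (leaf 490 3)) (move 588 (branch (move 587 (leaf 491 4)) (move 556 (leaf 491 7)))))))))))))))))) (branch (ref 2) (branch (move 621 (branch (move 653 (leaf 525 6)) (move 620 (branch (move 652 (leaf 524 5)) (move 588 (branch (move 493 (leaf 492 5)) (move 524 (branch (move 492 (leaf 492 7)) (move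 523 (branch (move 522 (leaf 522 0)) (move 491 (branch (move 490 (leaf 490 3)) (move 556 (leaf 491 7)))))))))))))) (branch (move 621 (branch (move 653 (leaf 525 6)) (move 622 (branch (move 654 (leaf 525 4)) (move 590 (branch (move 493 (leaf 493 4)) (move 620 (branch (move 652 (leaf 524 5)) (move 591 (branch (move 592 (leaf 588 1)) (move 619 (leaf 587 2)))))))))))) (move 621 (branch (move 653 (leaf 525 6)) (move 622 (branch (move 654 (leaf 525 4)) (move 590 (branch (move 493 (leaf 493 4)) (move 623 (branch (move 655 (leaf 526 4)) (move 624 (branch (move 588 (leaf 588 3)) (move 625 (leaf 589 3))))))))))))))))) (branch (move 559 (branch (move 524 (branch (move 523 (leaf 523 0)) (move 560 (leaf 524 3)))) (branch (move 560 (branch (move 561 (leaf 525 3)) (move 589 (branch (move 588 (leaf 556 1)) (move 621 (branch (move 653 (leaf 525 6)) (move 622 (branch (move 654 (leaf 525 4)) (move 590 (branch (move 493 (leaf 493 4)) (move 592 (branch (move 593 (leaf 557 0)) (move 620 (branch (move 591 (leaf 588 1)) (move 652 (leaf 524 5)))))))))))))))) (move 589 (branch (move 621 (branch (move 653 (leaf 525 6)) (move 524 (branch (move 523 (leaf 523 0)) (move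 492 (leaf 492 7)))))) (move 590 (branch (move 588 (branch (move 587 (leaf 555 2)) (move 493 (branch (move 461 (leaf 461 4)) (move 620 (leaf 492 5)))))) (branch (move 622 (branch (move 654 (leaf 525 7)) (move 623 (branch (move 655 (leaf 526 4)) (move 588 (branch (move 587 (leaf 587 0)) (move 624 (branch (move 591 (leaf 588 0)) (move 625 (leaf 589 3)))))))))) (move 622 (branch (move 493 (leaf 493 4)) (move 654 (leaf 525 7)))))))))))) (branch (move 559 (branch (move 560 (branch (move 524 (leaf 524 3)) (move 561 (leaf 525 3)))) (move 556 (branch (move 588 (branch (move 587 (leaf 555 1)) (move 493 (branch (move 461 (leaf 460 5)) (move 620 (branch (move 589 (leaf 492 5)) (move 652 (leaf 524 6)))))))) (move 555 (branch (move 554 (leaf 522 2)) (move 591 (branch (move 590 (leaf 555 0)) (move 592 (leaf 556 0)))))))))) (branch (ref 3) (branch (move 589 (branch (move 621 (branch (move 653 (leaf 525 6)) (move 622 (branch (move 654 (leaf 525 4)) (move 590 (branch (move 493 (leaf 493 4)) (move 623 (branch (move 655 (leaf 526 4)) (move 624 (branch (move 588 (leaf 588 3)) (move 625 (leaf 589 3)))))))))))) (branch (move 621 (branch (move 653 (leaf 525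 6)) (move 524 (branch (move 492 (leaf 492 7)) (move 559 (branch (move 523 (leaf 523 0)) (move 560 (leaf 524 3)))))))) (move 493 (branch (move 588 (branch (move 620 (leaf 492 5)) (move 559 (branch (move 560 (leaf 556 1)) (move 587 (branch (move 556 (leaf 555 1)) (move 586 (leaf 554 2)))))))) (move 590 (branch (move 461 (leaf 461 4)) (move 622 (leaf 493 4))))))))) (branch (ref 4) (branch (move 556 (branch (move 555 (branch (move 554 (leaf 522 2)) (move 590 (branch (move 591 (leaf 555 0)) (move 622 (branch (move 493 (leaf 493 7)) (move 654 (leaf 525 7)))))))) (branch (move 555 (branch (move 554 (leaf 522 2)) (move 523 (branch (move 522 (leaf 522 3)) (move 524 (branch (move 559 (leaf 523 0)) (move 587 (branch (move 586 (leaf 554 1)) (move 619 (branch (move 492 (leaf 491 6)) (move 651 (leaf 523 6)))))))))))) (move 559 (branch (move 560 (branch (move 561 (leaf 525 3)) (move 592 (branch (move 591 (leaf 556 0)) (move 593 (leaf 557 0)))))) (branch (move 524 (branch (move 523 (leaf 523 0)) (move 560 (leaf 524 3)))) (move 524 (branch (move 523 (leaf 523 0)) (move 588 (branch (move 587 (leaf 555 1)) (move 493 (branch (move 461 (leaf 460 5)) (move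 590 (branch (move 622 (leaf 493 7)) (move 591 (branch (move 592 (leaf 556 0)) (move 623 (branch (move 655 (leaf 526 7)) (move 589 (branch (move 624 (leaf 588 0)) (move 621 (branch (move 492 (leaf 492 4)) (move 653 (leaf 525 6)))))))))))))))))))))))) (move 559 (branch (move 560 (branch (move 561 (leaf 525 3)) (move 592 (branch (move 593 (leaf 557 0)) (move 591 (branch (move 556 (leaf 556 0)) (move 528 (branch (move 529 (leaf 525 2)) (move 623 (branch (move 496 (leaf 495 5)) (move 655 (leaf 527 6)))))))))))) (branch (move 524 (branch (move 523 (leaf 523 0)) (move 560 (leaf 524 3)))) (move 556 (branch (move 523 (branch (move 524 (leaf 523 0)) (move 555 (branch (move 554 (leaf 522 2)) (move 522 (leaf 522 3)))))) (branch (move 555 (branch (move 554 (leaf 522 2)) (move 591 (branch (move 590 (leaf 555 0)) (move 592 (leaf 556 0)))))) (move 622 (branch (move 590 (branch (move 493 (leaf 493 7)) (move 654 (leaf 525 7)))) (branch (move 524 (branch (move 523 (leaf 523 0)) (move 590 (branch (move 493 (leaf 493 7)) (move 621 (branch (move 653 (leaf 525 5)) (move 591 (branch (move 592 (leaf 556 0)) (move 623 (branch (move 655 (leaf 526 4)) (move 620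 (branch (move 619 (leaf 587 2)) (move 589 (branch (move 652 (leaf 524 5)) (move 492 (leaf 492 7)))))))))))))))) (move 621 (branch (move 589 (branch (move 654 (leaf 525 4)) (move 653 (leaf 525 6)))) (branch (move 524 (branch (move 523 (leaf 523 0)) (move 589 (branch (move 654 (leaf 525 4)) (move 492 (leaf 492 7)))))) (branch (move 524 (branch (move 523 (leaf 523 0)) (move 589 (branch (move 653 (leaf 525 6)) (move 492 (leaf 492 7)))))) (ref 5))))))))))))))))))))))))
theorem a6p411 : a6e411.Valid :=
  pos_of_chk [a6e406, a6e404, a6e407, a6e408, a6e409, a6e410] (forall_cons a6p406 (forall_cons a6p404 (forall_cons a6p407 (forall_cons a6p408 (forall_cons a6p409 (forall_cons a6p410 forall_nil)))))) a6c411 a6e411 (by decide +kernel)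

def a6e412 : Pos := ⟨943490606589814007027702789286053667477788325271198483902076677987495994312427631291800420213278031762408548836419554662865574207560029486124490616362319595214792032256, 802633041879727579783522069185696651377725526413392910958559069857792515551338878732110924607901082151378632006627496727938651324327283299719046824571212099938239009104005400411616004312495173196370812076032, 9⟩
def a6c412 : Cert := (move 590 (branch (move 494 (branch (move 591 (branch (move 623 (leaf 494 4)) (move 462 (branch (move 559 (leaf 462 4)) (move 463 (branch (move 431 (leaf 430 6)) (move 495 (leaf 462 6)))))))) (branch (move 461 (branch (move 493 (leaf 461 7)) (move 462 (branch (move 429 (leaf 429 7)) (move 591 (branch (move 559 (leaf 462 4)) (move 623 (leaf 494 4)))))))) (move 493 (branch (move 461 (leaf 461 7)) (move 495 (branch (move 496 (leaf 492 1)) (move 463 (leaf 462 6))))))))) (branch (move 622 (branch (move 493 (leaf 493 7)) (move 655 (branch (move 623 (leaf 526 4)) (move 654 (branch (move 687 (leaf 558 4)) (move 653 (branch (move 621 (leaf 525 5)) (move 685 (leaf 557 5)))))))))) (branch (move 493 (branch (move 622 (leaf 493 7))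 (move 461 (branch (move 429 (leaf 429 4)) (move 494 (leaf 461 7)))))) (move 623 (branch (move 622 (branch (move 655 (leaf 526 4)) (move 621 (branch (move 653 (leaf 525 5)) (move 589 (branch (move 494 (leaf 493 5)) (move 588 (branch (move 587 (leaf 587 0)) (move 624 (leaf 588 3)))))))))) (branch (move 591 (branch (move 494 (leaf 494 4)) (move 655 (branch (move 559 (leaf 526 7)) (move 687 (leaf 558 7)))))) (branch (move 655 (branch (move 622 (leaf 526 4)) (move 591 (branch (move 559 (leaf 526 7)) (move 687 (leaf 558 7)))))) (move 589 (branch (move 591 (branch (move 494 (leaf 494 4)) (move 588 (branch (move 624 (leaf 588 0)) (move 587 (branch (move 622 (leaf 587 0)) (move 559 (leaf 555 2)))))))) (branch (move 621 (branch (move 494 (leaf 493 5)) (move 653 (branch (move 622 (leaf 525 5)) (move 685 (leaf 557 6)))))) (branch (move 494 (branch (move 591 (leaf 494 4)) (move 621 (leaf 493 5)))) (move 588 (branch (move 591 (branch (move 624 (leaf 588 0)) (move 560 (branch (move 559 (leaf 556 2)) (move 592 (branch (move 561 (leaf 557 2)) (move 620 (branch (move 619 (leaf 587 1)) (move 621 (leaf 588 1)))))))))) (branch (move 587 (branch (move 622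 (leaf 587 0)) (move 559 (leaf 555 2)))) (move 622 (branch (move 587 (leaf 587 0)) (move 624 (branch (move 591 (leaf 588 0)) (move 621 (leaf 588 3)))))))))))))))))))))
theorem a6p412 : a6e412.Valid :=
  pos_of_chk [] forall_nil a6c412 a6e412 (by decide +kernel)

def a6e413 : Pos := ⟨943490606534895625746657911566198461085137179533043001500930234712340286638943285824619171796297554637116912396601184171733727343263053582126757465861727368885871575040, 802633041879727579783522069185696651378167787635147792503027893918066157439337616587141827022843228078663499833191103494653358816975686061492084190613191441596548426223983541216697615947045547874599330381824, 12⟩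
def a6c413 : Cert := (move 524 (branch (ref 0) (branch (move 523 (branch (move 559 (leaf 523 0)) (move 554 (branch (move 555 (leaf 522 1)) (move 522 (branch (move 553 (leaf 521 1)) (move 490 (branch (move 489 (leaf 489 3)) (move 491 (leaf 490 3)))))))))) (move 590 (branch (move 622 (branch (move 493 (leaf 493 7)) (move 655 (branch (move 623 (leaf 526 4)) (move 654 (branch (move 687 (leaf 558 4)) (move 653 (branch (move 621 (leaf 525 5)) (move 685 (leaf 557 5)))))))))) (branch (move 493 (branch (move 622 (leaf 493 7)) (move 461 (branch (move 429 (leaf 429 4)) (move 494 (leaf 461 7)))))) (branch (move 622 (branch (move 655 (branch (move 623 (leaf 526 4)) (move 654 (branch (move 687 (leaf 558 4)) (move 653 (branch (move 621 (leaf 525 5)) (move 685 (leaf 557 5)))))))) (branch (move 623 (branch (move 655 (leaf 526 4)) (move 494 (branch (move 591 (leaf 494 4)) (move 495 (branch (move 523 (leaf 491 2)) (move 463 (leaf 462 6)))))))) (move 621 (branch (move 653 (leaf 525 5)) (move 494 (branch (move 589 (leaf 493 5)) (move 495 (branch (move 523 (leaf 491 2)) (move 463 (leaf 462 6))))))))))) (move 494 (branch (move 493 (branch (move 461 (leaf 461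 7)) (move 495 (branch (move 496 (leaf 492 1)) (move 463 (leaf 462 6)))))) (branch (move 493 (branch (move 461 (leaf 461 7)) (move 523 (branch (move 522 (leaf 490 2)) (move 491 (branch (move 490 (leaf 490 3)) (move 555 (branch (move 554 (leaf 522 1)) (move 591 (branch (move 623 (leaf 494 4)) (move 589 (branch (move 621 (leaf 493 5)) (move 588 (branch (move 556 (leaf 555 3)) (move 620 (branch (move 619 (leaf 587 1)) (move 587 (leaf 491 4)))))))))))))))))) (move 495 (branch (move 523 (leaf 491 2)) (move 463 (leaf 462 6))))))))))))))
theorem a6p413 : a6e413.Valid :=
  pos_of_chk [a6e412] (forall_cons a6p412 forall_nil) a6c413 a6e413 (by decide +kernel)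

def a6e414 : Pos := ⟨4052261298678835292582168930132557473101790484759391964685052112526958370857758398357407200812025220905865803280965339332533948893815539167371329787316175129007412723770158219264, 802633041879727579707378126513704015621521560250754212469468983369232352669306720143550903815260466753081792218434967763191918554181480520767057955407397297229935904957604374040277576301545009444644257267712, 6⟩
def a6c414 : Cert := (move 623 (branch (move 494 (branch (move 591 (leaf 494 4)) (move 589 (branch (move 621 (leaf 493 5)) (move 462 (branch (move 557 (leaf 461 5)) (move 463 (branch (move 431 (leaf 430 6)) (move 495 (leaf 462 6)))))))))) (branch (move 622 (branch (move 655 (leaf 526 4)) (move 654 (branch (move 557 (leaf 525 7)) (move 653 (branch (move 621 (leaf 525 5)) (move 685 (leaf 557 5)))))))) (move 591 (branch (move 494 (leaf 494 4)) (move 655 (branch (move 622 (leaf 526 4)) (move 687 (leaf 558 7)))))))))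
theorem a6p414 : a6e414.Valid :=
  pos_of_chk [] forall_nil a6c414 a6e414 (by decide +kernel)

def a6e415 : Pos := ⟨943490606534895625746657911566198461085137179533043001500930234712340286638943285824619171796297554637116912396601184171733727343263053582126757465861727368885871575040, 205565324515447534644384059110298945270035178218250849498388301560374529145008842039651025663760162709977309545503021627098428966329664754536221689467352599328020928020722141874105784163246016561152, 8⟩
def a6c415 : Cert := (move 557 (branch (ref 0) (branch (move 559 (branch (move 560 (branch (move 524 (leaf 524 3)) (move 561 (leaf 525 3)))) (move 556 (branch (move 588 (branch (move 587 (leaf 555 1)) (move 493 (branch (move 461 (leaf 460 5)) (move 620 (branch (move 589 (leaf 492 5)) (move 652 (leaf 524 6)))))))) (move 555 (branch (move 554 (leaf 522 2)) (move 591 (branch (move 590 (leaf 555 0)) (move 592 (leaf 556 0)))))))))) (branch (move 589 (branch (move 494 (branch (move 462 (leaf 461 5)) (move 621 (leaf 493 6)))) (branch (move 493 (branch (move 462 (branch (move 494 (leaf 461 5)) (move 461 (branch (move 429 (leaf 429 4)) (move 430 (leaf 429 6))))))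 (move 588 (branch (move 620 (leaf 492 5)) (move 559 (branch (move 560 (leaf 556 1)) (move 587 (branch (move 556 (leaf 555 1)) (move 586 (leaf 554 2)))))))))) (move 621 (branch (move 653 (leaf 525 6)) (move 620 (branch (move 652 (leaf 524 5)) (move 588 (branch (move 493 (leaf 492 5)) (move 587 (branch (move 586 (leaf 554 2)) (move 559 (branch (move 556 (leaf 555 1)) (move 560 (leaf 556 1))))))))))))))) (branch (move 589 (branch (move 494 (branch (move 462 (leaf 461 5)) (move 621 (leaf 493 6)))) (branch (move 621 (branch (move 653 (leaf 525 6)) (move 524 (branch (move 492 (leaf 492 7)) (move 559 (branch (move 523 (leaf 523 0)) (move 560 (leaf 524 3)))))))) (move 493 (branch (move 462 (branch (move 494 (leaf 461 5)) (move 461 (branch (move 429 (leaf 429 4)) (move 430 (leaf 429 6)))))) (branch (move 461 (branch (move 429 (leaf 429 4)) (move 590 (leaf 461 4)))) (move 494 (branch (move 462 (leaf 461 5)) (move 588 (branch (move 620 (leaf 492 5)) (move 559 (branch (move 560 (leaf 556 1)) (move 587 (branch (move 586 (leaf 554 2)) (move 590 (leaf 555 2)))))))))))))))) (move 494 (branch (move 589 (branch (move 462 (leaf 461 5)) (move 621 (leaf 493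 6)))) (branch (move 462 (branch (move 430 (leaf 429 5)) (move 461 (branch (move 429 (leaf 429 7)) (move 493 (branch (move 590 (leaf 461 4)) (move 463 (branch (move 431 (leaf 430 6)) (move 464 (branch (move 492 (leaf 460 1)) (move 465 (leaf 461 1)))))))))))) (move 590 (branch (move 589 (branch (move 621 (leaf 493 5)) (move 591 (branch (move 623 (leaf 494 4)) (move 556 (branch (move 555 (leaf 555 0)) (move 592 (leaf 556 3)))))))) (move 493 (branch (move 461 (leaf 461 4)) (move 495 (branch (move 463 (leaf 462 6)) (move 524 (branch (move 496 (leaf 492 1)) (move 523 (leaf 491 2))))))))))))))))))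
theorem a6p415 : a6e415.Valid :=
  pos_of_chk [a6e402] (forall_cons a6p402 forall_nil) a6c415 a6e415 (by decide +kernel)

def a6e416 : Pos := ⟨4052261298678835292582168930132557473101790484759391964685052112526958370857758398357407200812025220905865803280965339332533948893815539167371329787316175129007412723770158219264, 34808659553971306761932164750896221530770708720735585760287185040639518886453261183415013005455536333886679042861021930451920635236406005830019007997179163274786819358231239809180037545984, 7⟩
def a6c416 : Cert := (move 494 (branch (move 591 (branch (move 623 (leaf 494 4)) (move 559 (branch (move 462 (leaf 462 4)) (move 560 (branch (move 561 (leaf 525 3)) (move 557 (branch (move 524 (leaf 524 3)) (move 592 (branch (move 556 (leaf 556 0)) (move 593 (leaf 557 0)))))))))))) (branch (move 591 (branch (move 623 (leaf 494 4)) (move 462 (branch (move 559 (leaf 462 4)) (move 463 (branch (move 431 (leaf 430 6)) (move 495 (leaf 462 6)))))))) (move 495 (branch (move 463 (leaf 462 6)) (move 493 (branch (move 461 (leaf 461 7)) (move 524 (branch (move 496 (leaf 492 1)) (move 523 (leaf 491 2)))))))))))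
theorem a6p416 : a6e416.Valid :=
  pos_of_chk [] forall_nil a6c416 a6e416 (by decide +kernel)

def a6e417 : Pos := ⟨4052261298678835292582168930132557473101790484759391964685052112526958370857758398357407200812025220905865803280965339332533948893815539167371329787316175129007412723770158219264, 13053247315010596859046435304942215396696610376180426021553016784368206131300460734553837035156166860298167857396219080785385474131367513062885781548003481930496755561771696656649807724544, 7⟩
def a6c417 : Cert := (move 494 (branch (move 589 (branch (move 621 (leaf 493 5)) (move 462 (branch (move 557 (leaf 461 5)) (move 429 (branch (move 461 (leaf 429 7)) (move 430 (branch (move 397 (leaf 397 7)) (move 431 (branch (move 399 (leaf 398 6)) (move 463 (leaf 430 6)))))))))))) (branch (move 495 (branch (move 463 (leaf 462 6)) (move 493 (branch (move 461 (leaf 461 7)) (move 524 (branch (move 496 (leaf 492 1)) (move 523 (leaf 491 2)))))))) (branch (move 589 (branch (move 621 (leaf 493 5)) (move 557 (branch (move 462 (leaf 461 5)) (move 495 (branch (move 463 (leaf 462 6)) (move 524 (branch (move 523 (leaf 491 2)) (move 496 (branch (move 493 (leaf 492 1))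 (move 497 (leaf 493 1)))))))))))) (move 493 (branch (move 461 (leaf 461 7)) (move 589 (branch (move 621 (leaf 493 5)) (move 557 (branch (move 462 (leaf 461 5)) (move 588 (branch (move 620 (leaf 492 5)) (move 559 (branch (move 560 (leaf 556 1)) (move 587 (leaf 555 2))))))))))))))))
theorem a6p417 : a6e417.Valid :=
  pos_of_chk [] forall_nil a6c417 a6e417 (by decide +kernel)

def a6e418 : Pos := ⟨4052261298678835292582168930132557473101790484759391964685052112526958370857758398357407200812025220905865803280965339332533948893815539167371329787316175129007412723770158219264, 530832057458018208422356193697145157879071557206050703580803920506057924805637395797021344228750071065593222127434687037444789730062171636406584895506145075948828088134267854388623619129344, 10⟩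
def a6c418 : Cert := (move 494 (branch (move 591 (branch (move 623 (leaf 494 4)) (move 559 (branch (move 462 (leaf 462 4)) (move 589 (branch (move 621 (leaf 493 5)) (move 560 (branch (move 561 (leaf 557 1)) (move 588 (leaf 556 2)))))))))) (branch (move 463 (branch (move 495 (leaf 462 6)) (move 462 (branch (move 431 (leaf 430 6)) (move 430 (branch (move 557 (leaf 429 5)) (move 429 (branch (move 397 (leaf 397 7)) (move 461 (leaf 429 7)))))))))) (move 559 (branch (move 589 (branch (move 621 (leaf 493 5)) (move 591 (branch (move 623 (leaf 494 4)) (move 588 (branch (move 587 (leaf 555 2)) (move 556 (branch (move 555 (leaf 555 3)) (move 592 (branch (move 557 (leaf 556 0)) (move 593 (branch (move 594 (leaf 558 3)) (move 625 (branch (move 624 (leaf 589 0)) (move 626 (leaf 590 0)))))))))))))))) (branch (move 589 (branch (move 621 (leaf 493 5)) (move 560 (branch (move 561 (leaf 557 1)) (move 591 (branch (move 588 (leaf 556 2)) (move 623 (leaf 494 4)))))))) (branch (move 589 (branch (move 621 (leaf 493 5)) (move 560 (branch (move 561 (leaf 557 1)) (move 588 (branch (move 557 (leaf 556 1)) (move 587 (leaf 555 2)))))))) (move 591 (branch (move 623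 (leaf 494 4)) (move 560 (branch (move 561 (leaf 525 3)) (move 495 (branch (move 463 (leaf 462 6)) (move 496 (branch (move 497 (leaf 493 1)) (move 528 (branch (move 464 (leaf 463 5)) (move 557 (branch (move 529 (leaf 525 2)) (move 592 (branch (move 556 (leaf 556 0)) (move 593 (leaf 557 0)))))))))))))))))))))))
theorem a6p418 : a6e418.Valid :=
  pos_of_chk [] forall_nil a6c418 a6e418 (by decide +kernel)

def a6e419 : Pos := ⟨2026130650282908252661224946995375379081716692646357769167568228937662606300463806465032063642339082282700544861750220339709173372987258553804353818551155395628386685013318434816, 14015817584949777978459716617697221919664833539152519547319107154153948886435227938915636772161891191922768019894905486736259783599364384540872007519513887874062352128528540836420964736207960408064, 9⟩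
def a6c419 : Cert := (move 523 (branch (move 524 (branch (move 522 (leaf 522 0)) (move 588 (branch (move 620 (leaf 492 5)) (move 555 (branch (move 554 (leaf 522 1)) (move 587 (branch (move 586 (leaf 554 2)) (move 491 (branch (move 490 (leaf 490 3)) (move 556 (branch (move 459 (leaf 459 4)) (move 619 (branch (move 492 (leaf 491 5)) (move 651 (leaf 523 6)))))))))))))))) (branch (move 494 (branch (move 462 (leaf 461 5)) (move 524 (branch (move 495 (leaf 491 2)) (move 588 (branch (move 620 (leaf 492 5)) (move 555 (branch (move 554 (leaf 522 1)) (move 491 (branch (move 490 (leaf 490 3)) (move 459 (branch (move 556 (leaf 459 4)) (move 458 (branch (move 492 (leaf 458 3)) (move 426 (leaf 426 7)))))))))))))))) (branch (move 494 (branch (move 462 (leaf 461 5)) (move 524 (branch (move 522 (leaf 522 0)) (move 495 (leaf 491 2)))))) (move 555 (branch (move 556 (branch (move 554 (leaf 522 2)) (move 522 (leaf 522 3)))) (branch (move 494 (branch (move 462 (leaf 461 5)) (move 588 (branch (move 620 (leaf 492 5)) (move 587 (branch (move 586 (leaf 554 2)) (move 522 (branch (move 556 (leaf 522 3)) (move 490 (branch (move 619 (leaf 490 7)) (move 491 (branch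 (move 492 (leaf 490 0)) (move 458 (leaf 458 7)))))))))))))) (branch (move 494 (branch (move 462 (leaf 461 5)) (move 588 (branch (move 620 (leaf 492 5)) (move 556 (branch (move 554 (leaf 522 2)) (move 587 (branch (move 586 (leaf 554 1)) (move 491 (branch (move 459 (leaf 459 4)) (move 490 (branch (move 492 (leaf 490 0)) (move 458 (leaf 458 7)))))))))))))) (move 491 (branch (move 490 (branch (move 492 (leaf 490 0)) (move 587 (branch (move 458 (leaf 458 7)) (move 588 (branch (move 586 (leaf 554 2)) (move 620 (leaf 491 4)))))))) (branch (move 494 (branch (move 462 (leaf 461 5)) (move 588 (branch (move 620 (leaf 492 5)) (move 586 (branch (move 587 (leaf 554 2)) (move 554 (branch (move 459 (leaf 458 5)) (move 618 (branch (move 522 (leaf 490 6)) (move 650 (leaf 522 6)))))))))))) (move 494 (branch (move 462 (leaf 461 5)) (move 492 (branch (move 490 (leaf 490 0)) (move 522 (leaf 490 1)))))))))))))))))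
theorem a6p419 : a6e419.Valid :=
  pos_of_chk [] forall_nil a6c419 a6e419 (by decide +kernel)

def a6e420 : Pos := ⟨5189198335392742129000756649409048338917567386101906631257191986044006049122050327869601322985123938931431034553491817855147449502949540099795913091351415331416122064896, 2568425734261806644499551376082155655926875015239619673267413121770091336212860685503596031686539510738457292014081359145575182821999890423511170868208970771437167321774915690054106409716542646204755534151680, 8⟩
def a6c420 : Cert := (move 592 (branch (move 623 (branch (move 591 (leaf 495 5)) (move 624 (branch (move 655 (leaf 527 5)) (move 657 (branch (move 625 (leaf 528 4)) (move 656 (branch (move 689 (leaf 560 4)) (move 621 (branch (move 622 (leaf 621 0)) (move 589 (branch (move 653 (leaf 525 6)) (move 492 (leaf 492 7)))))))))))))) (move 465 (branch (move 497 (leaf 464 6)) (move 464 (branch (move 433 (leaf 432 6)) (move 463 (branch (move 431 (leaf 431 7)) (move 495 (leaf 463 7))))))))))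
theorem a6p420 : a6e420.Valid :=
  pos_of_chk [] forall_nil a6c420 a6e420 (by decide +kernel)

def a6e421 : Pos := ⟨3773962425700235452942859537499461060075163908278653093808089520525807034510604090067035062124638561226338938838226782579810552216648911534601243193560008730745155616768, 747510271034881081159578754111824450058926943519290993536779917474747645459639871950362139820709380498503997600046980435089804669549655118326028314878876501522288753243385240811571115224750301904896, 7⟩
def a6c421 : Cert := (move 464 (branch (move 561 (branch (move 593 (leaf 464 4)) (move 432 (branch (move 529 (leaf 432 4)) (move 433 (branch (move 401 (leaf 400 6)) (move 465 (leaf 432 6)))))))) (branch (move 431 (branch (move 463 (leaf 431 7)) (move 432 (branch (move 399 (leaf 399 7)) (move 433 (branch (move 401 (leaf 400 6)) (move 465 (leaf 432 6)))))))) (move 463 (branch (move 431 (leaf 431 7)) (move 592 (branch (move 495 (leaf 463 7)) (move 623 (branch (move 591 (leaf 495 5)) (move 624 (branch (move 655 (leaf 527 5)) (move 625 (branch (move 593 (leaf 496 4)) (move 657 (leaf 528 4)))))))))))))))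
theorem a6p421 : a6e421.Valid :=
  pos_of_chk [] forall_nil a6c421 a6e421 (by decide +kernel)

def a6e422 : Pos := ⟨3773962425700235452942859537499461060075163908278653093808089520525807034510604090067035062124638561226338938838226782579810552216648911534601243193560008730745155616768, 747510271034881081159578754111824450058926943519597873906246363723727027528956758614492888123365219402260427975468609943722895784611297490091843828468701574219753492740720536649863629636427692638208, 5⟩
def a6c422 : Cert := (move 592 (branch (move 625 (branch (move 593 (leaf 496 4)) (move 624 (branch (move 657 (leaf 528 4)) (move 623 (branch (move 591 (leaf 495 5)) (move 655 (leaf 527 5)))))))) (branch (move 497 (branch (move 465 (leaf 464 6)) (move 624 (branch (move 529 (leaf 496 6)) (move 623 (branch (move 591 (leaf 495 5)) (move 655 (leaf 527 5)))))))) (move 593 (branch (move 625 (leaf 496 4)) (move 464 (branch (move 561 (leaf 464 4)) (move 465 (branch (move 433 (leaf 432 6)) (move 497 (leaf 464 6)))))))))))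
theorem a6p422 : a6e422.Valid :=
  pos_of_chk [] forall_nil a6c422 a6e422 (by decide +kernel)

def a6e423 : Pos := ⟨5189198334514048028504038605891365036635149054291418912838848893641514726346300800394701348313436304926764851516397889997037899674197925635832182683341939710153394749440, 2568425734261806644499551376309082288713273190458270947217291804954034807266548729456672438906117660064831349838970163905986191299725343654528227630310266580419025637565514566573192445388081331685783689494528, 14⟩
def a6c423 : Cert := (move 528 (branch (move 464 (branch (move 561 (branch (move 593 (leaf 464 4)) (move 432 (branch (move 529 (leaf 432 4)) (move 433 (branch (move 401 (leaf 400 6)) (move 465 (leaf 432 6)))))))) (branch (move 431 (branch (move 463 (leaf 431 7)) (move 432 (branch (move 399 (leaf 399 7)) (move 433 (branch (move 401 (leaf 400 6)) (move 465 (leaf 432 6)))))))) (branch (move 431 (branch (move 463 (leaf 431 7)) (move 432 (branch (move 399 (leaf 399 7)) (move 561 (branch (move 529 (leaf 432 4)) (move 593 (leaf 464 4)))))))) (move 465 (branch (move 433 (leaf 432 6)) (move 463 (branch (move 431 (leaf 431 7)) (move 466 (branch (move 498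 (branch (move 499 (leaf 463 0)) (move 497 (branch (move 462 (leaf 462 0)) (move 561 (branch (move 593 (leaf 464 4)) (move 434 (branch (move 435 (leaf 431 2)) (move 529 (leaf 433 6)))))))))) (branch (move 467 (branch (move 495 (leaf 463 1)) (move 435 (branch (move 434 (leaf 431 2)) (move 436 (leaf 432 2)))))) (move 498 (branch (move 499 (leaf 463 0)) (move 497 (branch (move 462 (leaf 462 0)) (move 467 (branch (move 495 (leaf 463 1)) (move 468 (leaf 464 1))))))))))))))))))) (branch (move 592 (branch (move 593 (branch (move 625 (leaf 496 4)) (move 464 (branch (move 561 (leaf 464 4)) (move 463 (branch (move 431 (leaf 431 7)) (move 495 (leaf 463 7)))))))) (branch (move 623 (branch (move 591 (leaf 495 5)) (move 624 (branch (move 655 (leaf 527 5)) (move 657 (branch (move 625 (leaf 528 4)) (move 656 (branch (move 689 (leaf 560 4)) (move 621 (branch (move 622 (leaf 621 0)) (move 589 (branch (move 653 (leaf 525 6)) (move 492 (leaf 492 7)))))))))))))) (move 623 (branch (move 591 (leaf 495 5)) (move 624 (branch (move 655 (leaf 527 5)) (move 529 (branch (move 497 (leaf 496 6)) (move 561 (branch (move 656 (leaf 528 6)) (move 464 (branch (move 432 (leaf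 432 4)) (move 593 (leaf 464 4))))))))))))))) (branch (ref 0) (branch (ref 1) (branch (ref 2) (move 592 (branch (move 625 (branch (move 593 (leaf 496 4)) (move 624 (branch (move 657 (leaf 528 4)) (move 623 (branch (move 591 (leaf 495 5)) (move 655 (leaf 527 5)))))))) (branch (move 497 (branch (move 465 (leaf 464 6)) (move 624 (branch (move 529 (leaf 496 6)) (move 623 (branch (move 591 (leaf 495 5)) (move 655 (leaf 527 5)))))))) (branch (move 497 (branch (move 465 (leaf 464 6)) (move 624 (branch (move 529 (leaf 496 6)) (move 625 (branch (move 593 (leaf 496 4)) (move 657 (leaf 528 4)))))))) (move 497 (branch (move 465 (leaf 464 6)) (move 495 (branch (move 463 (leaf 463 7)) (move 498 (branch (move 593 (branch (move 625 (leaf 496 4)) (move 466 (branch (move 467 (leaf 463 2)) (move 561 (branch (move 529 (leaf 465 6)) (move 562 (branch (move 530 (leaf 465 5)) (move 563 (branch (move 591 (leaf 559 1)) (move 564 (leaf 560 1)))))))))))) (branch (move 593 (branch (move 625 (leaf 496 4)) (move 467 (branch (move 466 (leaf 463 2)) (move 499 (branch (move 468 (leaf 464 2)) (move 532 (branch (move 531 (leaf 496 0)) (move 500 (branch (move 533 (leaf 497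 0)) (move 529 (leaf 496 1)))))))))))) (branch (move 531 (branch (move 530 (leaf 495 0)) (move 499 (branch (move 532 (leaf 496 0)) (move 467 (branch (move 466 (leaf 463 2)) (move 468 (leaf 464 2)))))))) (move 531 (branch (move 530 (leaf 495 0)) (move 499 (branch (move 532 (leaf 496 0)) (move 500 (branch (move 529 (leaf 496 1)) (move 468 (branch (move 469 (leaf 465 2)) (move 563 (branch (move 595 (leaf 467 6)) (move 591 (branch (move 623 (leaf 495 5)) (move 593 (branch (move 625 (leaf 496 4)) (move 562 (branch (move 561 (leaf 559 1)) (move 594 (leaf 559 2))))))))))))))))))))))))))))))))))))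
theorem a6p423 : a6e423.Valid :=
  pos_of_chk [a6e420, a6e421, a6e422] (forall_cons a6p420 (forall_cons a6p421 (forall_cons a6p422 forall_nil))) a6c423 a6e423 (by decide +kernel)

def a6e424 : Pos := ⟨2026130654056870677482766299415943508939305842079625301129267985950716518439068074532048412421223124451239952123397428544545901866946958721955087834429158364414190161266617614336, 747510271034881081159578754111824450059805637620184098724240386995139477203315943649158979337922345196385340007820945140504559926979433668756719839182074689823384867055442570153295515072566841573376, 12⟩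
def a6c424 : Cert := (move 464 (branch (move 528 (branch (move 433 (branch (move 465 (leaf 432 6)) (move 432 (branch (move 401 (leaf 400 6)) (move 431 (branch (move 399 (leaf 399 7)) (move 463 (leaf 431 7)))))))) (branch (move 561 (branch (move 593 (leaf 464 4)) (move 432 (branch (move 529 (leaf 432 4)) (move 431 (branch (move 399 (leaf 399 7)) (move 463 (leaf 431 7)))))))) (move 465 (branch (move 433 (leaf 432 6)) (move 592 (branch (move 497 (leaf 464 6)) (move 593 (branch (move 561 (leaf 464 4)) (move 625 (leaf 496 4))))))))))) (branch (move 528 (branch (move 561 (branch (move 593 (leaf 464 4)) (move 432 (branch (move 529 (leaf 432 4)) (move 401 (branch (move 433 (leaf 400 6)) (move 400 (branch (move 369 (leaf 368 6)) (move 399 (branch (move 367 (leaf 367 7)) (move 431 (leaf 399 7)))))))))))) (branch (move 433 (branch (move 465 (leaf 432 6)) (move 432 (branch (move 401 (leaf 400 6)) (move 529 (branch (move 561 (leaf 432 4)) (move 400 (branch (move 497 (leaf 400 4)) (move 399 (branch (move 367 (leaf 367 7)) (move 431 (leaf 399 7)))))))))))) (branch (move 462 (branch (move 494 (leaf 461 5)) (move 465 (branch (move 433 (leaf 432 6)) (move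 592 (branch (move 497 (leaf 464 6)) (move 625 (branch (move 593 (leaf 496 4)) (move 624 (branch (move 657 (leaf 528 4)) (move 623 (branch (move 591 (leaf 495 5)) (move 655 (leaf 527 5)))))))))))))) (move 462 (branch (move 494 (leaf 461 5)) (move 593 (branch (move 561 (leaf 464 4)) (move 592 (branch (move 625 (leaf 496 4)) (move 623 (branch (move 591 (leaf 495 5)) (move 624 (branch (move 655 (leaf 527 5)) (move 497 (branch (move 465 (leaf 464 6)) (move 529 (leaf 496 6)))))))))))))))))) (branch (move 528 (branch (move 561 (branch (move 593 (leaf 464 4)) (move 432 (branch (move 529 (leaf 432 4)) (move 401 (branch (move 433 (leaf 400 6)) (move 400 (branch (move 369 (leaf 368 6)) (move 399 (branch (move 367 (leaf 367 7)) (move 431 (leaf 399 7)))))))))))) (branch (move 462 (branch (move 494 (leaf 461 5)) (move 463 (branch (move 431 (leaf 431 7)) (move 461 (branch (move 497 (leaf 461 0)) (move 493 (branch (move 492 (leaf 460 1)) (move 429 (leaf 429 4)))))))))) (move 462 (branch (move 494 (leaf 461 5)) (move 561 (branch (move 593 (leaf 464 4)) (move 432 (branch (move 529 (leaf 432 4)) (move 433 (branch (move 401 (leaf 400 6)) (move 461 (branch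 (move 463 (leaf 429 2)) (move 493 (branch (move 429 (leaf 429 4)) (move 430 (leaf 429 6))))))))))))))))) (branch (move 528 (branch (move 465 (branch (move 433 (leaf 432 6)) (move 592 (branch (move 497 (leaf 464 6)) (move 593 (branch (move 561 (leaf 464 4)) (move 625 (leaf 496 4)))))))) (branch (move 462 (branch (move 494 (leaf 461 5)) (move 463 (branch (move 431 (leaf 431 7)) (move 461 (branch (move 497 (leaf 461 0)) (move 493 (branch (move 492 (leaf 460 1)) (move 429 (leaf 429 4)))))))))) (move 462 (branch (move 494 (leaf 461 5)) (move 593 (branch (move 561 (leaf 464 4)) (move 592 (branch (move 625 (leaf 496 4)) (move 623 (branch (move 591 (leaf 495 5)) (move 624 (branch (move 655 (leaf 527 5)) (move 463 (branch (move 431 (leaf 431 7)) (move 465 (branch (move 433 (leaf 432 6)) (move 429 (branch (move 430 (leaf 429 3)) (move 461 (branch (move 428 (leaf 428 3)) (move 493 (leaf 429 4))))))))))))))))))))))) (branch (move 528 (branch (move 433 (branch (move 465 (leaf 432 6)) (move 432 (branch (move 401 (leaf 400 6)) (move 431 (branch (move 399 (leaf 399 7)) (move 463 (leaf 431 7)))))))) (branch (move 561 (branch (move 593 (leaf 464 4)) (move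 432 (branch (move 529 (leaf 432 4)) (move 431 (branch (move 399 (leaf 399 7)) (move 463 (leaf 431 7)))))))) (branch (move 561 (branch (move 593 (leaf 464 4)) (move 432 (branch (move 529 (leaf 432 4)) (move 433 (branch (move 401 (leaf 400 6)) (move 465 (leaf 432 6)))))))) (move 462 (branch (move 494 (leaf 461 5)) (move 593 (branch (move 561 (leaf 464 4)) (move 592 (branch (move 625 (leaf 496 4)) (move 623 (branch (move 591 (leaf 495 5)) (move 624 (branch (move 655 (leaf 527 5)) (move 463 (branch (move 431 (leaf 431 7)) (move 465 (branch (move 433 (leaf 432 6)) (move 429 (branch (move 430 (leaf 429 3)) (move 461 (branch (move 428 (leaf 428 3)) (move 493 (leaf 429 4)))))))))))))))))))))))) (branch (move 528 (branch (move 561 (branch (move 593 (leaf 464 4)) (move 432 (branch (move 529 (leaf 432 4)) (move 431 (branch (move 399 (leaf 399 7)) (move 463 (leaf 431 7)))))))) (branch (move 462 (branch (move 494 (leaf 461 5)) (move 463 (branch (move 431 (leaf 431 7)) (move 461 (branch (move 497 (leaf 461 0)) (move 493 (branch (move 492 (leaf 460 1)) (move 429 (leaf 429 4)))))))))) (move 462 (branch (move 494 (leaf 461 5)) (move 593 (branch (move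 561 (leaf 464 4)) (move 592 (branch (move 625 (leaf 496 4)) (move 623 (branch (move 591 (leaf 495 5)) (move 624 (branch (move 655 (leaf 527 5)) (move 497 (branch (move 465 (leaf 464 6)) (move 529 (leaf 496 6))))))))))))))))) (move 462 (branch (move 494 (leaf 461 5)) (move 461 (branch (move 463 (branch (move 497 (leaf 461 0)) (move 433 (branch (move 432 (leaf 429 2)) (move 465 (branch (move 434 (leaf 430 2)) (move 429 (branch (move 428 (leaf 428 3)) (move 430 (leaf 429 3)))))))))) (branch (move 493 (branch (move 429 (leaf 429 4)) (move 430 (leaf 429 6)))) (branch (move 463 (branch (move 497 (leaf 461 0)) (move 493 (branch (move 492 (leaf 460 1)) (move 430 (leaf 429 6)))))) (move 463 (branch (move 497 (leaf 461 0)) (move 493 (branch (move 492 (leaf 460 1)) (move 429 (leaf 429 4)))))))))))))))))))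
theorem a6p424 : a6e424.Valid :=
  pos_of_chk [] forall_nil a6c424 a6e424 (by decide +kernel)

def a6e425 : Pos := ⟨5189198334514048028504038605891365036635149054291418912838848893641514726346300800394701348313436304926764851516397889997037899674197925635832182683341939710153394749440, 784885784600548599015643098989379548464821540173954532009532274312890193370025278954935014460803442007169759112447901276234214566281027840126877350849578242216469140763568413826305350280288445399040, 14⟩
def a6c425 : Cert := (move 528 (branch (ref 0) (branch (move 592 (branch (move 625 (branch (move 593 (leaf 496 4)) (move 624 (branch (move 657 (leaf 528 4)) (move 623 (branch (move 591 (leaf 495 5)) (move 655 (leaf 527 5)))))))) (move 495 (branch (move 463 (leaf 463 7)) (move 494 (branch (move 493 (leaf 492 1)) (move 589 (branch (move 462 (leaf 461 5)) (move 621 (leaf 493 6)))))))))) (branch (move 464 (branch (move 431 (branch (move 463 (leaf 431 7)) (move 432 (branch (move 399 (leaf 399 7)) (move 433 (branch (move 401 (leaf 400 6)) (move 465 (leaf 432 6)))))))) (move 593 (branch (move 561 (leaf 464 4)) (move 592 (branch (move 625 (leaf 496 4)) (move 623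 (branch (move 591 (leaf 495 5)) (move 624 (branch (move 655 (leaf 527 5)) (move 621 (branch (move 622 (leaf 589 2)) (move 589 (branch (move 653 (leaf 525 6)) (move 492 (leaf 492 7)))))))))))))))) (branch (move 494 (branch (move 464 (branch (move 561 (branch (move 593 (leaf 464 4)) (move 432 (branch (move 529 (leaf 432 4)) (move 431 (branch (move 399 (leaf 399 7)) (move 463 (leaf 431 7)))))))) (branch (move 561 (branch (move 593 (leaf 464 4)) (move 432 (branch (move 529 (leaf 432 4)) (move 433 (branch (move 401 (leaf 400 6)) (move 465 (leaf 432 6)))))))) (move 495 (branch (move 493 (leaf 492 1)) (move 463 (branch (move 431 (leaf 431 7)) (move 465 (branch (move 466 (leaf 462 1)) (move 433 (leaf 432 6))))))))))) (move 589 (branch (move 462 (leaf 461 5)) (move 621 (leaf 493 6)))))) (branch (move 494 (branch (move 495 (branch (move 493 (leaf 492 1)) (move 463 (branch (move 592 (leaf 463 7)) (move 431 (branch (move 399 (leaf 399 4)) (move 464 (leaf 431 7)))))))) (move 589 (branch (move 462 (leaf 461 5)) (move 621 (leaf 493 6)))))) (move 593 (branch (move 592 (branch (move 625 (leaf 496 4)) (move 623 (branch (move 591 (leaf 495 5)) (move 624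 (branch (move 655 (leaf 527 5)) (move 621 (branch (move 622 (leaf 589 2)) (move 589 (branch (move 494 (leaf 493 6)) (move 653 (leaf 525 6)))))))))))) (branch (move 561 (branch (move 464 (leaf 464 4)) (move 625 (branch (move 529 (leaf 496 7)) (move 657 (leaf 528 7)))))) (move 464 (branch (move 561 (leaf 464 4)) (move 432 (branch (move 465 (branch (move 433 (leaf 432 6)) (move 431 (branch (move 399 (leaf 399 7)) (move 429 (branch (move 430 (leaf 429 0)) (move 493 (branch (move 461 (leaf 429 4)) (move 494 (branch (move 495 (leaf 492 1)) (move 589 (branch (move 462 (leaf 461 5)) (move 621 (leaf 493 6)))))))))))))) (branch (move 433 (branch (move 401 (leaf 400 6)) (move 465 (leaf 432 6)))) (move 494 (branch (move 493 (branch (move 495 (leaf 492 1)) (move 429 (branch (move 461 (leaf 429 4)) (move 399 (branch (move 431 (leaf 399 7)) (move 400 (branch (move 367 (leaf 367 7)) (move 401 (branch (move 369 (leaf 368 6)) (move 398 (branch (move 430 (leaf 397 1)) (move 397 (branch (move 428 (leaf 396 1)) (move 365 (branch (move 364 (leaf 364 3)) (move 366 (leaf 365 3)))))))))))))))))) (move 589 (branch (move 462 (leaf 461 5)) (move 621 (leaf 493 6))))))))))))))))))))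
theorem a6p425 : a6e425.Valid :=
  pos_of_chk [a6e421] (forall_cons a6p421 forall_nil) a6c425 a6e425 (by decide +kernel)

def a6e426 : Pos := ⟨5189198334514048028299451692897856169759324698239693965825308765763823177003595089888692986038144145246560470746028880175107481916225421197756104149224102644320361775104, 2568425734261806644499551376309082288713273190458270947217579505300437883373427139240985819193078067230960051818189985116552988132802936085999736797003161275699747771706921359688150789140508224692996251058176, 15⟩
def a6c426 : Cert := (move 496 (branch (move 494 (branch (move 495 (branch (move 493 (leaf 492 1)) (move 497 (leaf 493 1)))) (branch (move 462 (branch (move 430 (leaf 429 5)) (move 461 (branch (move 429 (leaf 429 7)) (move 463 (branch (move 431 (leaf 430 6)) (move 464 (branch (move 497 (leaf 461 0)) (move 493 (branch (move 492 (leaf 460 1)) (move 465 (leaf 461 1)))))))))))) (branch (move 462 (branch (move 430 (leaf 429 5)) (move 497 (branch (move 495 (leaf 493 1)) (move 463 (branch (move 431 (leaf 430 6)) (move 461 (branch (move 464 (leaf 461 0)) (move 429 (leaf 429 7)))))))))) (move 462 (branch (move 430 (leaf 429 5))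 (move 493 (branch (move 495 (leaf 492 1)) (move 461 (branch (move 429 (leaf 429 4)) (move 463 (branch (move 431 (leaf 430 6)) (move 492 (branch (move 464 (leaf 460 1)) (move 491 (leaf 459 2)))))))))))))))) (branch (move 528 (branch (ref 0) (branch (ref 1) (branch (ref 2) (branch (move 592 (branch (move 625 (branch (move 593 (leaf 496 4)) (move 624 (branch (move 657 (leaf 528 4)) (move 623 (branch (move 591 (leaf 495 5)) (move 655 (leaf 527 5)))))))) (move 495 (branch (move 463 (leaf 463 7)) (move 494 (branch (move 493 (leaf 492 1)) (move 497 (leaf 493 1)))))))) (move 464 (branch (move 561 (branch (move 593 (leaf 464 4)) (move 432 (branch (move 529 (leaf 432 4)) (move 433 (branch (move 401 (leaf 400 6)) (move 465 (leaf 432 6)))))))) (branch (move 431 (branch (move 463 (leaf 431 7)) (move 432 (branch (move 399 (leaf 399 7)) (move 433 (branch (move 401 (leaf 400 6)) (move 465 (leaf 432 6)))))))) (branch (move 431 (branch (move 463 (leaf 431 7)) (move 432 (branch (move 399 (leaf 399 7)) (move 561 (branch (move 529 (leaf 432 4)) (move 593 (leaf 464 4)))))))) (move 465 (branch (move 433 (leaf 432 6)) (move 463 (branch (move 431 (leaf 431 7))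 (move 466 (branch (move 499 (branch (move 498 (leaf 463 0)) (move 467 (branch (move 500 (leaf 464 0)) (move 435 (branch (move 434 (leaf 431 2)) (move 436 (leaf 432 2)))))))) (branch (move 494 (branch (move 495 (leaf 462 1)) (move 621 (branch (move 589 (leaf 493 6)) (move 498 (branch (move 499 (leaf 463 0)) (move 434 (branch (move 435 (leaf 431 2)) (move 561 (branch (move 593 (leaf 464 4)) (move 529 (branch (move 530 (leaf 433 5)) (move 497 (leaf 433 6)))))))))))))) (move 495 (branch (move 494 (leaf 462 1)) (move 467 (leaf 463 1)))))))))))))))))))) (branch (ref 3) (branch (move 589 (branch (move 621 (branch (move 653 (leaf 525 6)) (move 492 (leaf 492 7)))) (branch (move 494 (branch (move 462 (leaf 461 5)) (move 621 (leaf 493 6)))) (ref 4)))) (branch (move 494 (branch (move 495 (branch (move 493 (leaf 492 1)) (move 497 (leaf 493 1)))) (move 462 (branch (move 430 (leaf 429 5)) (move 589 (leaf 461 5)))))) (ref 5)))))))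
theorem a6p426 : a6e426.Valid :=
  pos_of_chk [a6e420, a6e421, a6e422, a6e423, a6e424, a6e425] (forall_cons a6p420 (forall_cons a6p421 (forall_cons a6p422 (forall_cons a6p423 (forall_cons a6p424 (forall_cons a6p425 forall_nil)))))) a6c426 a6e426 (by decide +kernel)

def a6e427 : Pos := ⟨329510287686269266319131238355906874428932894406878659650934246040906072803087490501882862751749818638910222946791081185781855423986398903003553357973522743296, 4826195733906350880220589409393448000523826308567054902571140006405732196728213433634233683374485736337601381148489183962208624126706119420675607788121945982635447085069682838645741854453905549212149913751309525188608, 19⟩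
def a6c427 : Cert := (move 558 (branch (ref 0) (branch (ref 1) (branch (ref 2) (branch (move 590 (branch (ref 3) (branch (move 622 (branch (move 493 (leaf 493 7)) (move 623 (branch (move 655 (leaf 526 4)) (move 621 (branch (move 653 (leaf 525 5)) (move 494 (branch (move 591 (leaf 494 4)) (move 589 (leaf 493 5)))))))))) (branch (move 493 (branch (move 622 (leaf 493 7)) (move 461 (branch (move 429 (leaf 429 4)) (move 557 (leaf 461 4)))))) (move 494 (branch (move 589 (branch (move 621 (leaf 493 5)) (move 557 (branch (move 462 (leaf 461 5)) (move 591 (branch (move 623 (leaf 494 4)) (move 556 (branch (move 555 (leaf 555 0)) (move 592 (leaf 556 3)))))))))) (move 495 (branch (move 463 (leaf 462 6)) (move 493 (branch (move 461 (leaf 461 7)) (move 524 (branch (move 496 (leaf 492 1)) (move 523 (leaf 491 2)))))))))))))) (branch (ref 4) (branch (move 590 (branch (move 493 (branch (move 622 (leaf 493 7)) (move 461 (branch (move 429 (leaf 429 4)) (move 557 (leaf 461 4)))))) (branch (move 494 (branch (move 495 (branch (move 463 (leaf 462 6)) (move 524 (branch (move 523 (leaf 491 2)) (move 623 (branch (move 591 (leaf 494 4)) (move 622 (branch (move 655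 (leaf 526 4)) (move 653 (branch (move 621 (leaf 525 5)) (move 654 (branch (move 685 (leaf 557 5)) (move 557 (leaf 525 7)))))))))))))) (branch (move 463 (branch (move 495 (leaf 462 6)) (move 462 (branch (move 431 (leaf 430 6)) (move 430 (branch (move 557 (leaf 429 5)) (move 429 (branch (move 397 (leaf 397 7)) (move 461 (leaf 429 7)))))))))) (branch (move 591 (branch (move 623 (leaf 494 4)) (move 559 (branch (move 462 (leaf 462 4)) (move 560 (branch (move 561 (leaf 525 3)) (move 557 (branch (move 524 (leaf 524 3)) (move 592 (branch (move 556 (leaf 556 0)) (move 593 (leaf 557 0)))))))))))) (move 591 (branch (move 623 (leaf 494 4)) (move 462 (branch (move 559 (leaf 462 4)) (move 463 (branch (move 431 (leaf 430 6)) (move 495 (leaf 462 6)))))))))))) (branch (move 622 (branch (move 493 (leaf 493 7)) (move 623 (branch (move 655 (leaf 526 4)) (move 621 (branch (move 653 (leaf 525 5)) (move 591 (branch (move 494 (leaf 494 4)) (move 592 (branch (move 593 (leaf 589 1)) (move 620 (leaf 588 2)))))))))))) (ref 5))))) (branch (move 590 (branch (move 493 (branch (move 622 (leaf 493 7)) (move 461 (branch (move 429 (leaf 429 4)) (move 557 (leaf 461 4))))))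 (branch (ref 5) (branch (move 622 (branch (move 623 (branch (move 655 (leaf 526 4)) (move 494 (branch (move 591 (leaf 494 4)) (move 463 (branch (move 495 (leaf 462 6)) (move 462 (branch (move 431 (leaf 430 6)) (move 557 (branch (move 430 (leaf 429 5)) (move 589 (leaf 461 5)))))))))))) (branch (move 654 (branch (move 557 (leaf 525 7)) (move 687 (branch (move 655 (leaf 558 4)) (move 686 (branch (move 719 (leaf 590 4)) (move 685 (branch (move 653 (leaf 557 5)) (move 717 (leaf 589 5)))))))))) (branch (move 654 (branch (move 557 (leaf 525 7)) (move 685 (branch (move 653 (leaf 557 5)) (move 686 (branch (move 717 (leaf 589 5)) (move 591 (branch (move 559 (leaf 558 6)) (move 623 (branch (move 494 (leaf 494 4)) (move 718 (leaf 590 6)))))))))))) (move 654 (branch (move 685 (branch (move 653 (leaf 557 5)) (move 686 (branch (move 717 (leaf 589 5)) (move 591 (branch (move 559 (leaf 558 6)) (move 623 (branch (move 494 (leaf 494 4)) (move 718 (leaf 590 6)))))))))) (branch (move 687 (branch (move 655 (leaf 558 4)) (move 686 (branch (move 719 (leaf 590 4)) (move 685 (branch (move 653 (leaf 557 5)) (move 717 (leaf 589 5)))))))) (move 655 (branch (move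 623 (leaf 526 4)) (move 687 (leaf 558 4))))))))))) (move 493 (branch (move 622 (leaf 493 7)) (move 461 (branch (move 429 (leaf 429 4)) (move 494 (leaf 461 7)))))))))) (branch (move 590 (branch (move 493 (branch (move 622 (leaf 493 7)) (move 461 (branch (move 429 (leaf 429 4)) (move 557 (leaf 461 4)))))) (branch (move 493 (branch (move 622 (leaf 493 7)) (move 461 (branch (move 429 (leaf 429 4)) (move 494 (leaf 461 7)))))) (branch (ref 6) (move 622 (branch (move 654 (branch (move 557 (leaf 525 7)) (move 655 (branch (move 623 (leaf 526 4)) (move 687 (leaf 558 4)))))) (branch (move 654 (branch (move 557 (leaf 525 7)) (move 653 (branch (move 621 (leaf 525 5)) (move 685 (leaf 557 5)))))) (move 621 (branch (move 653 (leaf 525 5)) (move 589 (branch (move 494 (leaf 493 5)) (move 623 (branch (move 655 (leaf 526 4)) (move 588 (branch (move 587 (leaf 587 0)) (move 624 (leaf 588 3))))))))))))))))) (branch (move 590 (branch (move 493 (branch (move 622 (leaf 493 7)) (move 461 (branch (move 429 (leaf 429 4)) (move 494 (leaf 461 7)))))) (branch (ref 6) (branch (move 622 (branch (move 493 (leaf 493 7)) (move 654 (branch (move 557 (leaf 525 7)) (move 653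 (branch (move 621 (leaf 525 5)) (move 685 (leaf 557 5)))))))) (move 559 (branch (move 524 (branch (move 523 (leaf 523 0)) (move 560 (branch (move 557 (leaf 524 3)) (move 561 (leaf 525 3)))))) (branch (move 560 (branch (move 561 (leaf 525 3)) (move 589 (branch (move 621 (branch (move 494 (leaf 493 5)) (move 653 (branch (move 622 (leaf 525 5)) (move 685 (leaf 557 6)))))) (move 588 (branch (move 587 (leaf 555 2)) (move 591 (leaf 556 2)))))))) (move 494 (branch (move 463 (branch (move 495 (leaf 462 6)) (move 462 (branch (move 431 (leaf 430 6)) (move 430 (branch (move 557 (leaf 429 5)) (move 429 (branch (move 397 (leaf 397 7)) (move 461 (leaf 429 7)))))))))) (branch (move 621 (branch (move 589 (leaf 493 5)) (move 622 (branch (move 653 (leaf 525 5)) (move 654 (branch (move 557 (leaf 525 7)) (move 686 (branch (move 591 (leaf 558 6)) (move 687 (branch (move 655 (leaf 558 4)) (move 719 (leaf 590 4)))))))))))) (move 462 (branch (move 591 (leaf 462 4)) (move 463 (branch (move 431 (leaf 430 6)) (move 495 (leaf 462 6)))))))))))))))) (branch (move 590 (branch (move 622 (branch (move 493 (leaf 493 7)) (move 654 (branch (move 557 (leaf 525 7)) (move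 655 (branch (move 623 (leaf 526 4)) (move 687 (leaf 558 4)))))))) (branch (move 493 (branch (move 622 (leaf 493 7)) (move 461 (branch (move 429 (leaf 429 4)) (move 494 (leaf 461 7)))))) (ref 7)))) (branch (move 590 (branch (move 493 (branch (move 622 (leaf 493 7)) (move 461 (branch (move 429 (leaf 429 4)) (move 494 (leaf 461 7)))))) (branch (move 622 (branch (move 493 (leaf 493 7)) (move 654 (branch (move 557 (leaf 525 7)) (move 653 (branch (move 621 (leaf 525 5)) (move 685 (leaf 557 5)))))))) (ref 7)))) (branch (move 590 (branch (ref 3) (branch (move 622 (branch (move 493 (leaf 493 7)) (move 623 (branch (move 655 (leaf 526 4)) (move 621 (branch (move 653 (leaf 525 5)) (move 494 (branch (move 591 (leaf 494 4)) (move 589 (leaf 493 5)))))))))) (branch (move 493 (branch (move 622 (leaf 493 7)) (move 461 (branch (move 429 (leaf 429 4)) (move 557 (leaf 461 4)))))) (move 559 (branch (move 524 (branch (move 523 (leaf 523 0)) (move 560 (branch (move 557 (leaf 524 3)) (move 561 (leaf 525 3)))))) (branch (move 494 (branch (move 589 (branch (move 621 (leaf 493 5)) (move 462 (branch (move 557 (leaf 461 5)) (move 461 (branch (move 429 (leaf 429 7))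 (move 493 (leaf 461 7)))))))) (branch (move 589 (branch (move 621 (leaf 493 5)) (move 591 (branch (move 623 (leaf 494 4)) (move 588 (branch (move 587 (leaf 555 2)) (move 556 (branch (move 555 (leaf 555 3)) (move 557 (branch (move 592 (leaf 556 0)) (move 493 (branch (move 461 (leaf 461 4)) (move 620 (leaf 492 5)))))))))))))) (move 591 (branch (move 462 (leaf 462 4)) (move 623 (leaf 494 4))))))) (move 494 (branch (move 461 (branch (move 493 (leaf 461 7)) (move 462 (branch (move 429 (leaf 429 7)) (move 463 (branch (move 431 (leaf 430 6)) (move 495 (leaf 462 6)))))))) (move 589 (branch (move 621 (leaf 493 5)) (move 560 (branch (move 561 (leaf 557 1)) (move 591 (branch (move 588 (leaf 556 2)) (move 623 (leaf 494 4))))))))))))))))) (move 557 (branch (ref 8) (branch (move 589 (branch (move 621 (branch (move 653 (leaf 525 6)) (move 620 (branch (move 652 (leaf 524 5)) (move 588 (branch (move 493 (leaf 492 5)) (move 587 (branch (move 586 (leaf 554 2)) (move 622 (branch (move 623 (leaf 587 3)) (move 654 (leaf 525 4)))))))))))) (branch (move 494 (branch (move 462 (leaf 461 5)) (move 621 (leaf 493 6)))) (move 493 (branch (move 462 (branch (move 494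 (leaf 461 5)) (move 461 (branch (move 429 (leaf 429 4)) (move 430 (leaf 429 6)))))) (move 588 (branch (move 620 (leaf 492 5)) (move 559 (branch (move 560 (leaf 556 1)) (move 587 (branch (move 556 (leaf 555 1)) (move 586 (leaf 554 2))))))))))))) (branch (ref 9) (branch (move 589 (branch (move 621 (branch (move 653 (leaf 525 6)) (move 620 (branch (move 652 (leaf 524 5)) (move 588 (branch (move 493 (leaf 492 5)) (move 587 (branch (move 586 (leaf 554 2)) (move 622 (branch (move 623 (leaf 587 3)) (move 654 (leaf 525 4)))))))))))) (branch (move 494 (branch (move 462 (leaf 461 5)) (move 621 (leaf 493 6)))) (move 493 (branch (move 461 (branch (move 429 (leaf 429 4)) (move 588 (branch (move 556 (leaf 460 5)) (move 620 (leaf 492 5)))))) (branch (move 462 (branch (move 494 (leaf 461 5)) (move 461 (branch (move 429 (leaf 429 4)) (move 430 (leaf 429 6)))))) (ref 10))))))) (move 524 (branch (move 523 (branch (move 522 (leaf 522 0)) (move 494 (branch (move 495 (leaf 491 2)) (move 462 (branch (move 430 (leaf 429 5)) (move 589 (leaf 461 5)))))))) (branch (move 559 (branch (move 523 (leaf 523 0)) (move 560 (leaf 524 3)))) (move 560 (branch (move 559 (leaf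 524 3)) (ref 11))))))))))))))))))))))))
theorem a6p427 : a6e427.Valid :=
  pos_of_chk [a6e405, a6e411, a6e413, a6e414, a6e415, a6e416, a6e417, a6e418, a6e406, a6e403, a6e419, a6e426] (forall_cons a6p405 (forall_cons a6p411 (forall_cons a6p413 (forall_cons a6p414 (forall_cons a6p415 (forall_cons a6p416 (forall_cons a6p417 (forall_cons a6p418 (forall_cons a6p406 (forall_cons a6p403 (forall_cons a6p419 (forall_cons a6p426 forall_nil)))))))))))) a6c427 a6e427 (by decide +kernel)

def a6e428 : Pos := ⟨329510287762989358691697063434341007948329749536956207605068577044420714242840626355117422631826461427798601630014987845021544588264928353297742257660910108672, 4052261302452797719792659868837995124173544785000751158837842882719728846159310709523749867016953423954674269399947668583375980115870724509072227347624390576311237222585266601984, 7⟩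
def a6c428 : Cert := (move 495 (branch (move 496 (branch (move 497 (leaf 493 1)) (move 464 (branch (move 465 (leaf 461 2)) (move 463 (branch (move 492 (leaf 460 2)) (move 528 (branch (move 529 (leaf 493 0)) (move 431 (branch (move 560 (leaf 431 7)) (move 399 (leaf 399 4)))))))))))) (branch (move 524 (branch (move 523 (leaf 491 2)) (move 496 (leaf 492 1)))) (move 492 (branch (move 491 (branch (move 490 (leaf 490 0)) (move 459 (branch (move 458 (leaf 458 3)) (move 460 (leaf 459 3)))))) (move 524 (branch (move 523 (leaf 491 1)) (move 463 (branch (move 464 (leaf 460 2)) (move 558 (branch (move 590 (leaf 462 6)) (move 431 (branch (move 462 (leaf 430 6)) (move 399 (leaf 398 5)))))))))))))))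
theorem a6p428 : a6e428.Valid :=
  pos_of_chk [] forall_nil a6c428 a6e428 (by decide +kernel)

def a6e429 : Pos := ⟨329510287762989358691697063434341007948329749536956207605068577044420714242840626355117422631826461427798601630014987845021544588264928353297742257660910108672, 4052261298914707943900112144941644793201282972460120730808025966408580135408580815725921557628404139771633045875093851458275144624142500024245965460227062583850383428723578765312, 8⟩
def a6c429 : Cert := (move 495 (branch (move 524 (branch (move 523 (leaf 491 2)) (move 496 (leaf 492 1)))) (branch (move 496 (branch (move 497 (leaf 493 1)) (move 461 (branch (move 460 (leaf 460 3)) (move 558 (branch (move 590 (leaf 461 7)) (move 429 (leaf 429 4)))))))) (move 492 (branch (move 491 (branch (move 490 (leaf 490 0)) (move 459 (branch (move 458 (leaf 458 3)) (move 460 (leaf 459 3)))))) (branch (move 523 (branch (move 524 (leaf 491 1)) (move 491 (branch (move 490 (leaf 490 0)) (move 522 (leaf 490 1)))))) (move 524 (branch (move 523 (leaf 491 1)) (move 460 (branch (move 459 (leaf 459 3)) (move 428 (branch (move 396 (leaf 396 4)) (move 429 (branch (move 397 (leaf 396 6)) (move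 461 (branch (move 556 (leaf 428 5)) (move 558 (leaf 429 4))))))))))))))))))
theorem a6p429 : a6e429.Valid :=
  pos_of_chk [] forall_nil a6c429 a6e429 (by decide +kernel)

def a6e430 : Pos := ⟨329510287762989358691697063434341007948329749536956207605068577044420714242840626355117422631826461427798601630014987845021544588264928353297742257660910108672, 4009835079105077156227065298138570408709592128922590702770629796347164454861262179468483356335683480448091286605590933272788202528667420128692917268496416816859950612480, 10⟩
def a6c430 : Cert := (move 495 (branch (move 496 (branch (move 497 (leaf 493 1)) (move 464 (branch (move 465 (leaf 461 2)) (move 463 (branch (move 492 (leaf 460 2)) (move 528 (branch (move 529 (leaf 493 0)) (move 431 (branch (move 560 (leaf 431 7)) (move 399 (leaf 399 4)))))))))))) (branch (move 524 (branch (move 523 (leaf 491 2)) (move 496 (leaf 492 1)))) (move 492 (branch (move 491 (branch (move 490 (leaf 490 0)) (move 459 (branch (move 458 (leaf 458 3)) (move 460 (leaf 459 3)))))) (branch (move 523 (branch (move 524 (leaf 491 1)) (move 491 (branch (move 490 (leaf 490 0)) (move 522 (leaf 490 1)))))) (move 524 (branch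 (move 523 (leaf 491 1)) (move 460 (branch (move 459 (leaf 459 3)) (move 428 (branch (move 396 (leaf 396 4)) (move 429 (branch (move 397 (leaf 396 6)) (move 461 (branch (move 556 (leaf 428 5)) (move 463 (branch (move 464 (leaf 460 2)) (move 427 (branch (move 462 (leaf 427 3)) (move 395 (leaf 395 7))))))))))))))))))))))
theorem a6p430 : a6e430.Valid :=
  pos_of_chk [] forall_nil a6c430 a6e430 (by decide +kernel)

def a6e431 : Pos := ⟨329510287737415994567508455074862963441864131160263691620357133376582500429589581070705902671800913831502475402273685625274981533505418536533012624431780986880, 52212989258016256769627620012796929024599825127648882934480454675544651901397880457514536041656140665747002481671397643267215817638310757333060515390614560235345570680295598915996149088256, 11⟩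
def a6c431 : Cert := (move 493 (branch (move 558 (branch (move 590 (branch (move 622 (leaf 493 7)) (move 591 (branch (move 623 (leaf 494 4)) (move 462 (branch (move 559 (leaf 462 4)) (move 430 (branch (move 398 (leaf 397 5)) (move 431 (branch (move 463 (leaf 430 6)) (move 399 (leaf 398 6)))))))))))) (branch (move 461 (branch (move 590 (leaf 461 7)) (move 429 (leaf 429 4)))) (move 462 (branch (move 430 (branch (move 398 (leaf 397 5)) (move 431 (branch (move 463 (leaf 430 6)) (move 399 (leaf 398 6)))))) (branch (move 461 (branch (move 429 (leaf 429 4)) (move 463 (branch (move 431 (leaf 430 6)) (move 492 (branch (move 491 (leaf 459 2)) (move 464 (leaf 460 1)))))))) (move 429 (branch (move 461 (leaf 429 4)) (move 430 (branch (move 397 (leaf 397 7)) (move 398 (leaf 397 5)))))))))))) (branch (ref 0) (branch (move 558 (branch (move 590 (branch (move 622 (leaf 493 7)) (move 591 (branch (move 623 (leaf 494 4)) (move 462 (branch (move 559 (leaf 462 4)) (move 430 (branch (move 398 (leaf 397 5)) (move 431 (branch (move 463 (leaf 430 6)) (move 399 (leaf 398 6)))))))))))) (branch (move 461 (branch (move 590 (leaf 461 7)) (move 429 (leaf 429 4)))) (move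 462 (branch (move 430 (branch (move 398 (leaf 397 5)) (move 431 (branch (move 463 (leaf 430 6)) (move 399 (leaf 398 6)))))) (branch (move 429 (branch (move 461 (leaf 429 4)) (move 430 (branch (move 397 (leaf 397 7)) (move 398 (leaf 397 5)))))) (move 461 (branch (move 429 (leaf 429 4)) (move 463 (branch (move 431 (leaf 430 6)) (move 464 (branch (move 465 (leaf 461 1)) (move 496 (branch (move 497 (leaf 461 0)) (move 495 (branch (move 460 (leaf 460 0)) (move 524 (leaf 492 1)))))))))))))))))) (branch (ref 1) (ref 2))))))
theorem a6p431 : a6e431.Valid :=
  pos_of_chk [a6e428, a6e429, a6e430] (forall_cons a6p428 (forall_cons a6p429 (forall_cons a6p430 forall_nil))) a6c431 a6e431 (by decide +kernel)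

def a6e432 : Pos := ⟨329510287762989358691697063434341007948329749536956207605068577044420714242840626355117422631826461427798601630014987845021544588264928353297742257660910108672, 2026130653113380073680060142935112240200270437739005344273092226706433138629873271156228479548471889577344944215366561097693801996007148577730235882486218494411775576143199993856, 7⟩
def a6c432 : Cert := (move 495 (branch (move 496 (branch (move 497 (leaf 493 1)) (move 464 (branch (move 465 (leaf 461 2)) (move 463 (branch (move 492 (leaf 460 2)) (move 528 (branch (move 529 (leaf 493 0)) (move 431 (branch (move 560 (leaf 431 7)) (move 399 (leaf 399 4)))))))))))) (branch (move 524 (branch (move 523 (leaf 491 2)) (move 496 (leaf 492 1)))) (move 492 (branch (move 491 (branch (move 490 (leaf 490 0)) (move 459 (branch (move 458 (leaf 458 3)) (move 460 (leaf 459 3)))))) (branch (move 524 (branch (move 523 (leaf 491 1)) (move 460 (branch (move 459 (leaf 459 3)) (move 557 (branch (move 589 (leaf 460 7)) (move 428 (leaf 428 4)))))))) (move 523 (branch (move 524 (leaf 491 1)) (move 491 (branch (move 490 (leaf 490 0)) (move 522 (leaf 490 1))))))))))))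
theorem a6p432 : a6e432.Valid :=
  pos_of_chk [] forall_nil a6c432 a6e432 (by decide +kernel)

def a6e433 : Pos := ⟨329510287762989358697651326263770619595709810171174740750493607071171223792666594066805219680051417215686758717462138974095311165263460882929257714202521370624, 8702164876336042794269630822281975311413574438023523550116901066794830748589916979301652855034453265240504259998224770333386955256755569659561844568425418659642098563572594803703742988288, 9⟩
def a6c433 : Cert := (move 557 (branch (move 589 (branch (move 621 (leaf 493 6)) (move 460 (branch (move 492 (leaf 460 7)) (move 428 (leaf 428 7)))))) (branch (move 462 (branch (move 430 (leaf 429 5)) (move 460 (branch (move 428 (leaf 428 7)) (move 459 (branch (move 458 (leaf 458 0)) (move 491 (branch (move 490 (leaf 458 1)) (move 463 (branch (move 492 (leaf 459 1)) (move 464 (branch (move 465 (leaf 461 1)) (move 432 (branch (move 431 (leaf 428 2)) (move 433 (leaf 429 2)))))))))))))))) (move 462 (branch (move 589 (leaf 461 6)) (move 430 (leaf 429 5)))))))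
theorem a6p433 : a6e433.Valid :=
  pos_of_chk [] forall_nil a6c433 a6e433 (by decide +kernel)

def a6e434 : Pos := ⟨329510287762989358691697063434341007948329749536956207605068577044420714242840626355117422631826461427798601630014987845021544588264928353297742257660910108672, 8702164876336042794269630822281975311720454807519741113261800131081044598292388689931507060613662937353636755663109753683081363664332614639945394958238321648765747618202902315112463335424, 10⟩
def a6c434 : Cert := (move 461 (branch (ref 0) (branch (move 429 (branch (move 397 (leaf 397 4)) (move 430 (branch (move 398 (leaf 397 6)) (move 462 (branch (move 557 (leaf 429 5)) (move 428 (branch (move 396 (leaf 396 7)) (move 463 (branch (move 464 (leaf 428 3)) (move 427 (leaf 427 0)))))))))))) (branch (move 429 (branch (move 397 (leaf 397 4)) (move 430 (branch (move 398 (leaf 397 6)) (move 462 (branch (move 557 (leaf 429 5)) (move 431 (branch (move 399 (leaf 398 6)) (move 432 (branch (move 460 (leaf 428 1)) (move 433 (leaf 429 1)))))))))))) (branch (move 429 (branch (move 397 (leaf 397 4)) (move 428 (branch (move 396 (leaf 396 7)) (move 460 (branch (move 557 (leaf 428 7))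 (move 459 (branch (move 458 (leaf 458 0)) (move 495 (branch (move 492 (leaf 459 3)) (move 496 (leaf 460 3)))))))))))) (move 462 (branch (move 430 (branch (move 398 (leaf 397 5)) (move 431 (branch (move 399 (leaf 398 6)) (move 460 (branch (move 459 (leaf 427 2)) (move 463 (branch (move 432 (leaf 428 2)) (move 492 (branch (move 491 (leaf 459 1)) (move 464 (leaf 460 1)))))))))))) (branch (move 429 (branch (move 397 (leaf 397 4)) (move 428 (branch (move 396 (leaf 396 7)) (move 463 (branch (move 464 (leaf 428 3)) (move 460 (branch (move 427 (leaf 427 3)) (move 495 (branch (move 496 (leaf 460 0)) (move 459 (leaf 459 0)))))))))))) (branch (move 429 (branch (move 397 (leaf 397 4)) (move 430 (branch (move 398 (leaf 397 5)) (move 428 (branch (move 396 (leaf 396 7)) (move 463 (branch (move 464 (leaf 428 3)) (move 427 (leaf 427 0)))))))))) (move 430 (branch (move 398 (leaf 397 5)) (move 429 (branch (move 397 (leaf 397 4)) (move 431 (branch (move 399 (leaf 398 6)) (move 460 (branch (move 459 (leaf 427 2)) (move 432 (leaf 428 1)))))))))))))))))))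
theorem a6p434 : a6e434.Valid :=
  pos_of_chk [a6e433] (forall_cons a6p433 forall_nil) a6c434 a6e434 (by decide +kernel)

def a6e435 : Pos := ⟨329510287762989358691697063434341007948329749536956207605068577044420714242840626355117422631826461427798601630014987845021544588264928353297742257660910108672, 2532663311969112872193201737653061006162122492820998232657169930878713894084837561453081678920292486852502933619639961109729154466861544404267050811347710851288145270538097393664, 11⟩
def a6c435 : Cert := (move 524 (branch (move 495 (branch (move 523 (leaf 491 2)) (move 496 (leaf 492 1)))) (branch (move 462 (branch (move 557 (branch (move 589 (leaf 461 6)) (move 430 (leaf 429 5)))) (branch (move 430 (branch (move 398 (leaf 397 5)) (move 429 (branch (move 397 (leaf 397 7)) (move 461 (branch (move 556 (leaf 428 5)) (move 428 (branch (move 396 (leaf 396 7)) (move 463 (branch (move 464 (leaf 428 3)) (move 427 (leaf 427 0)))))))))))) (move 523 (branch (move 522 (leaf 490 2)) (move 491 (branch (move 490 (leaf 490 3)) (move 492 (branch (move 463 (leaf 459 2)) (move 557 (branch (move 589 (leaf 461 6)) (move 460 (branch (move 428 (leaf 428 4)) (move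 555 (branch (move 554 (leaf 522 1)) (move 587 (leaf 459 6))))))))))))))))) (move 462 (branch (move 557 (branch (move 589 (leaf 461 6)) (move 430 (leaf 429 5)))) (branch (move 430 (branch (move 398 (leaf 397 5)) (move 429 (branch (move 397 (leaf 397 7)) (move 461 (branch (move 556 (leaf 428 5)) (move 428 (branch (move 396 (leaf 396 7)) (move 463 (branch (move 464 (leaf 428 3)) (move 427 (leaf 427 0)))))))))))) (move 463 (branch (move 492 (branch (move 491 (leaf 459 2)) (move 464 (branch (move 461 (leaf 460 1)) (move 465 (leaf 461 1)))))) (branch (move 496 (branch (move 495 (leaf 492 1)) (move 464 (branch (move 465 (leaf 461 1)) (move 461 (branch (move 497 (leaf 461 0)) (move 429 (branch (move 428 (leaf 428 3)) (move 397 (leaf 397 4)))))))))) (branch (move 495 (branch (move 496 (leaf 492 1)) (move 492 (branch (move 491 (leaf 459 2)) (move 464 (leaf 460 2)))))) (move 495 (branch (move 496 (leaf 492 1)) (move 492 (branch (move 491 (leaf 459 2)) (move 557 (branch (move 589 (leaf 461 6)) (move 460 (branch (move 428 (leaf 428 4)) (move 431 (branch (move 399 (leaf 398 5)) (move 461 (branch (move 432 (leaf 428 2)) (move 429 (branch (move 556 (leaf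 428 5)) (move 397 (leaf 397 4))))))))))))))))))))))))))
theorem a6p435 : a6e435.Valid :=
  pos_of_chk [] forall_nil a6c435 a6e435 (by decide +kernel)

def a6e436 : Pos := ⟨219673525315979741810835388270848921292295289719147264262173283757878641081171558163764027572280084693202867107147115714443335893833343044179946512277611479040, 82377571921567316939643569382659291275272727914988331416815251227816820858486593520753058529108100547763976808512320133173865234045096668290000194758768590848, 9⟩
def a6c436 : Cert := (move 431 (branch (move 463 (branch (move 464 (leaf 460 2)) (move 399 (leaf 398 5)))) (branch (move 524 (branch (move 523 (leaf 491 1)) (move 464 (branch (move 463 (leaf 460 2)) (move 432 (branch (move 465 (leaf 429 0)) (move 397 (branch (move 396 (leaf 396 3)) (move 433 (branch (move 398 (leaf 397 3)) (move 401 (branch (move 400 (leaf 397 2)) (move 402 (leaf 398 2)))))))))))))) (branch (move 524 (branch (move 523 (leaf 491 1)) (move 399 (branch (move 463 (leaf 398 5)) (move 400 (branch (move 428 (leaf 396 2)) (move 401 (branch (move 432 (leaf 397 2)) (move 398 (leaf 397 1)))))))))) (move 428 (branch (move 399 (branch (move 400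 (leaf 396 2)) (move 427 (branch (move 398 (leaf 395 2)) (move 395 (branch (move 394 (leaf 394 3)) (move 396 (leaf 395 3)))))))) (branch (move 524 (branch (move 523 (leaf 491 1)) (move 399 (branch (move 400 (leaf 396 2)) (move 427 (branch (move 398 (leaf 395 2)) (move 458 (branch (move 459 (leaf 426 1)) (move 426 (branch (move 457 (leaf 425 1)) (move 394 (branch (move 393 (leaf 393 3)) (move 395 (leaf 394 3)))))))))))))) (branch (move 524 (branch (move 523 (leaf 491 1)) (move 396 (branch (move 395 (leaf 395 3)) (move 432 (branch (move 397 (leaf 396 3)) (move 465 (branch (move 464 (leaf 429 0)) (move 433 (branch (move 466 (leaf 430 0)) (move 401 (branch (move 400 (leaf 397 2)) (move 402 (leaf 398 2)))))))))))))) (branch (move 524 (branch (move 523 (leaf 491 1)) (move 400 (branch (move 399 (leaf 396 2)) (move 432 (branch (move 401 (leaf 397 2)) (move 465 (branch (move 464 (leaf 429 0)) (move 433 (branch (move 466 (leaf 430 0)) (move 397 (branch (move 396 (leaf 396 3)) (move 398 (leaf 397 3)))))))))))))) (move 524 (branch (move 523 (leaf 491 1)) (move 395 (branch (move 396 (leaf 395 3)) (move 427 (branch (move 394 (leaf 394 3)) (move 458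 (branch (move 459 (leaf 426 1)) (move 426 (branch (move 457 (leaf 425 1)) (move 398 (branch (move 397 (leaf 394 2)) (move 399 (leaf 395 2)))))))))))))))))))))))
theorem a6p436 : a6e436.Valid :=
  pos_of_chk [] forall_nil a6c436 a6e436 (by decide +kernel)

def a6e437 : Pos := ⟨329510287737415994567508455074862963441864131160263691620357133376582500429589581070705902671800913831502475402273685625274981533505418536533012624431780986880, 8702164876842575460673288475806471381578396722860462329196322930525907810211476003766551839089249868918335650752833616891745718559323166709961348836088771957826165610887652389786748977152, 14⟩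
def a6c437 : Cert := (move 493 (branch (ref 0) (branch (ref 1) (branch (move 461 (branch (move 429 (branch (move 397 (leaf 397 4)) (move 430 (branch (move 398 (leaf 397 6)) (move 428 (branch (move 396 (leaf 396 7)) (move 524 (branch (move 556 (leaf 428 5)) (move 523 (branch (move 522 (leaf 490 2)) (move 491 (branch (move 490 (leaf 490 3)) (move 555 (branch (move 554 (leaf 522 1)) (move 460 (branch (move 459 (leaf 427 6)) (move 492 (leaf 427 5)))))))))))))))))) (branch (ref 2) (branch (move 429 (branch (move 397 (leaf 397 4)) (move 428 (branch (move 396 (leaf 396 7)) (move 460 (branch (move 557 (leaf 428 7)) (move 524 (branch (move 556 (leaf 428 5)) (move 523 (branch (move 522 (leaf 490 2)) (move 555 (branch (move 554 (leaf 522 1)) (move 492 (leaf 427 5)))))))))))))) (branch (move 429 (branch (move 397 (leaf 397 4)) (move 430 (branch (move 398 (leaf 397 6)) (move 462 (branch (move 557 (leaf 429 5)) (move 428 (branch (move 396 (leaf 396 7)) (move 463 (branch (move 464 (leaf 428 3)) (move 427 (leaf 427 0)))))))))))) (move 429 (branch (move 397 (leaf 397 4)) (move 430 (branch (move 398 (leaf 397 6)) (move 462 (branch (move 557 (leaf 429 5))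 (move 431 (branch (move 399 (leaf 398 6)) (move 432 (branch (move 460 (leaf 428 1)) (move 433 (leaf 429 1))))))))))))))))) (branch (move 495 (branch (move 524 (branch (move 523 (leaf 491 2)) (move 496 (leaf 492 1)))) (branch (move 496 (branch (move 497 (leaf 493 1)) (move 461 (branch (move 460 (leaf 460 3)) (move 429 (branch (move 397 (leaf 397 4)) (move 430 (branch (move 398 (leaf 397 6)) (move 462 (branch (move 557 (leaf 429 5)) (move 464 (branch (move 465 (leaf 461 2)) (move 428 (branch (move 463 (leaf 428 3)) (move 396 (leaf 396 7)))))))))))))))) (move 461 (branch (move 429 (branch (move 397 (leaf 397 4)) (move 524 (branch (move 523 (leaf 491 2)) (move 556 (leaf 428 5)))))) (move 462 (branch (move 460 (branch (move 459 (leaf 459 0)) (move 557 (branch (move 589 (leaf 461 6)) (move 428 (leaf 428 7)))))) (branch (move 430 (branch (move 398 (leaf 397 5)) (move 431 (branch (move 399 (leaf 398 6)) (move 460 (branch (move 459 (leaf 459 0)) (move 432 (branch (move 463 (leaf 428 2)) (move 433 (leaf 429 1)))))))))) (move 430 (branch (move 557 (leaf 429 5)) (move 398 (leaf 397 5)))))))))))) (branch (move 495 (branch (move 496 (branch (move 524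 (leaf 492 1)) (move 497 (leaf 493 1)))) (move 492 (branch (move 460 (branch (move 459 (leaf 459 3)) (move 557 (branch (move 589 (leaf 460 7)) (move 428 (branch (move 461 (leaf 428 7)) (move 396 (leaf 396 4)))))))) (move 491 (branch (move 490 (leaf 490 0)) (move 463 (branch (move 462 (leaf 459 2)) (move 464 (leaf 460 2)))))))))) (branch (ref 3) (branch (move 461 (branch (move 429 (branch (move 397 (leaf 397 4)) (move 430 (branch (move 398 (leaf 397 6)) (move 462 (branch (move 557 (leaf 429 5)) (move 431 (branch (move 399 (leaf 398 6)) (move 432 (branch (move 460 (leaf 428 1)) (move 433 (leaf 429 1)))))))))))) (branch (move 429 (branch (move 397 (leaf 397 4)) (move 524 (branch (move 556 (leaf 428 5)) (move 495 (branch (move 523 (leaf 491 2)) (move 496 (leaf 492 1)))))))) (move 557 (branch (move 460 (branch (move 428 (leaf 428 7)) (move 495 (branch (move 496 (leaf 460 3)) (move 459 (branch (move 492 (leaf 459 3)) (move 458 (leaf 458 0)))))))) (move 462 (branch (move 589 (leaf 461 6)) (move 430 (leaf 429 5))))))))) (branch (ref 4) (branch (move 492 (branch (move 491 (branch (move 490 (leaf 490 0)) (move 462 (branch (move 463 (leaf 459 2))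 (move 430 (branch (move 557 (leaf 429 5)) (move 398 (leaf 397 5)))))))) (branch (move 491 (branch (move 490 (leaf 490 0)) (move 523 (branch (move 522 (leaf 490 1)) (move 524 (branch (move 495 (leaf 491 1)) (move 459 (branch (move 458 (leaf 458 3)) (move 427 (branch (move 556 (leaf 427 4)) (move 395 (leaf 395 4)))))))))))) (move 495 (branch (move 496 (branch (move 497 (leaf 493 1)) (move 464 (branch (move 463 (leaf 460 2)) (move 465 (leaf 461 2)))))) (branch (move 524 (branch (move 523 (leaf 491 1)) (move 496 (leaf 492 1)))) (move 524 (branch (move 523 (leaf 491 1)) (move 460 (branch (move 459 (leaf 459 3)) (move 557 (branch (move 589 (leaf 460 7)) (move 462 (branch (move 430 (leaf 429 5)) (move 463 (branch (move 464 (leaf 460 2)) (move 431 (branch (move 399 (leaf 398 5)) (move 461 (branch (move 432 (leaf 428 2)) (move 429 (branch (move 556 (leaf 428 5)) (move 397 (leaf 397 4)))))))))))))))))))))))) (move 495 (branch (move 496 (branch (move 497 (leaf 493 1)) (move 464 (branch (move 465 (leaf 461 2)) (move 463 (branch (move 492 (leaf 460 2)) (move 528 (branch (move 529 (leaf 493 0)) (move 431 (branch (move 560 (leaf 431 7)) (move 399 (leaf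 399 4)))))))))))) (branch (move 524 (branch (move 523 (leaf 491 2)) (move 496 (leaf 492 1)))) (move 492 (branch (move 523 (branch (move 524 (leaf 491 1)) (move 491 (branch (move 490 (leaf 490 0)) (move 522 (leaf 490 1)))))) (branch (move 491 (branch (move 490 (leaf 490 0)) (move 463 (branch (move 462 (leaf 459 2)) (move 464 (leaf 460 2)))))) (move 430 (branch (move 462 (branch (move 557 (leaf 429 5)) (move 398 (leaf 397 5)))) (branch (move 524 (branch (move 523 (leaf 491 1)) (move 462 (branch (move 557 (leaf 429 5)) (move 429 (branch (move 397 (leaf 397 7)) (move 463 (branch (move 464 (leaf 460 2)) (move 431 (branch (move 399 (leaf 398 5)) (move 428 (branch (move 427 (leaf 427 0)) (move 461 (branch (move 396 (leaf 396 7)) (move 556 (leaf 428 5)))))))))))))))) (move 429 (branch (move 461 (branch (move 398 (leaf 397 6)) (move 397 (leaf 397 4)))) (branch (move 524 (branch (move 523 (leaf 491 1)) (move 461 (branch (move 398 (leaf 397 6)) (move 556 (leaf 428 5)))))) (branch (move 524 (branch (move 523 (leaf 491 1)) (move 461 (branch (move 397 (leaf 397 4)) (move 556 (leaf 428 5)))))) (ref 5))))))))))))))))))))))))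
theorem a6p437 : a6e437.Valid :=
  pos_of_chk [a6e432, a6e430, a6e433, a6e434, a6e435, a6e436] (forall_cons a6p432 (forall_cons a6p430 (forall_cons a6p433 (forall_cons a6p434 (forall_cons a6p435 (forall_cons a6p436 forall_nil)))))) a6c437 a6e437 (by decide +kernel)

def a6e438 : Pos := ⟨384428669018460872287363661467514109180019613561410134895512841050066845896770829487686379797092550271320845893405532489571957437503151687033604850760701444096, 43510824385732475273800951828484076552359885704497092075478319241160651470796715182803385053444803288547720254550090991440065164069742206276982844599251754109038739188959445894077215670272, 9⟩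
def a6c438 : Cert := (move 462 (branch (move 558 (branch (move 463 (branch (move 431 (leaf 430 6)) (move 590 (branch (move 495 (leaf 462 6)) (move 591 (branch (move 623 (leaf 494 4)) (move 559 (leaf 462 4)))))))) (branch (move 589 (branch (move 557 (leaf 461 5)) (move 590 (branch (move 621 (leaf 493 5)) (move 463 (branch (move 495 (leaf 462 6)) (move 431 (leaf 430 6)))))))) (move 557 (branch (move 589 (leaf 461 5)) (move 559 (branch (move 560 (leaf 524 3)) (move 591 (leaf 462 4))))))))) (branch (move 430 (branch (move 557 (leaf 429 5)) (move 399 (branch (move 431 (leaf 398 6)) (move 398 (branch (move 367 (leaf 366 6)) (move 397 (branch (move 429 (leaf 397 7)) (move 365 (leaf 365 7)))))))))) (branch (move 557 (branch (move 430 (leaf 429 5)) (move 589 (branch (move 621 (leaf 493 6)) (move 558 (leaf 461 5)))))) (move 431 (branch (move 430 (branch (move 399 (leaf 398 6)) (move 429 (branch (move 397 (leaf 397 7)) (move 461 (branch (move 558 (leaf 429 7)) (move 460 (branch (move 459 (leaf 427 2)) (move 432 (leaf 428 1)))))))))) (branch (move 463 (branch (move 558 (leaf 430 6)) (move 399 (branch (move 495 (leaf 398 5)) (move 367 (leaf 366 5))))))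 (branch (move 399 (branch (move 430 (leaf 398 6)) (move 463 (branch (move 495 (leaf 398 5)) (move 367 (leaf 366 5)))))) (move 461 (branch (move 463 (branch (move 558 (leaf 430 6)) (move 460 (branch (move 432 (leaf 428 2)) (move 459 (branch (move 430 (leaf 427 2)) (move 495 (leaf 459 0)))))))) (branch (move 429 (branch (move 558 (leaf 429 7)) (move 397 (branch (move 430 (leaf 397 7)) (move 365 (leaf 365 4)))))) (branch (move 558 (branch (move 463 (leaf 430 6)) (move 429 (leaf 429 7)))) (move 460 (branch (move 463 (branch (move 432 (leaf 428 2)) (move 496 (branch (move 495 (leaf 460 0)) (move 464 (branch (move 497 (leaf 461 0)) (move 428 (branch (move 427 (leaf 427 3)) (move 429 (leaf 428 3)))))))))) (branch (move 459 (branch (move 430 (leaf 427 2)) (move 495 (leaf 459 0)))) (move 430 (branch (move 459 (leaf 427 2)) (move 432 (branch (move 463 (leaf 428 2)) (move 429 (leaf 428 1)))))))))))))))))))))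
theorem a6p438 : a6e438.Valid :=
  pos_of_chk [] forall_nil a6c438 a6e438 (by decide +kernel)

def a6e439 : Pos := ⟨329510287737415994567508455074862963441864131160263691620357133376582500429589581070705902671800913831502475402273685625274981533505418536533012624431780986880, 43510824385732475274007340398687611762326399285521061461974488542168759168153694474315257091692819858913670349517095840221773530470446870742927251289732876901965016091177641886192211329024, 12⟩
def a6c439 : Cert := (move 524 (branch (ref 0) (branch (move 523 (branch (move 495 (leaf 491 2)) (move 490 (branch (move 491 (leaf 490 3)) (move 522 (branch (move 489 (leaf 489 3)) (move 554 (branch (move 553 (leaf 521 1)) (move 555 (leaf 522 1)))))))))) (move 462 (branch (move 430 (branch (move 557 (leaf 429 5)) (move 399 (branch (move 431 (leaf 398 6)) (move 398 (branch (move 367 (leaf 366 6)) (move 397 (branch (move 429 (leaf 397 7)) (move 365 (leaf 365 7)))))))))) (branch (move 557 (branch (move 430 (leaf 429 5)) (move 589 (branch (move 621 (leaf 493 6)) (move 558 (leaf 461 5)))))) (branch (move 430 (branch (move 399 (branch (move 431 (leaf 398 6)) (move 398 (branch (move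 367 (leaf 366 6)) (move 397 (branch (move 429 (leaf 397 7)) (move 365 (leaf 365 7)))))))) (branch (move 431 (branch (move 399 (leaf 398 6)) (move 558 (branch (move 463 (leaf 430 6)) (move 559 (branch (move 523 (leaf 523 0)) (move 591 (leaf 462 4)))))))) (move 429 (branch (move 397 (leaf 397 7)) (move 558 (branch (move 461 (leaf 429 7)) (move 559 (branch (move 523 (leaf 523 0)) (move 591 (leaf 462 4))))))))))) (move 558 (branch (move 557 (branch (move 589 (leaf 461 5)) (move 559 (branch (move 560 (leaf 524 3)) (move 591 (leaf 462 4)))))) (branch (move 557 (branch (move 589 (leaf 461 5)) (move 523 (branch (move 522 (leaf 522 0)) (move 555 (branch (move 554 (leaf 522 1)) (move 491 (branch (move 490 (leaf 490 3)) (move 463 (branch (move 431 (leaf 430 6)) (move 461 (branch (move 429 (leaf 429 7)) (move 460 (branch (move 492 (leaf 459 1)) (move 428 (branch (move 427 (leaf 427 3)) (move 459 (leaf 427 6)))))))))))))))))) (move 559 (branch (move 523 (leaf 523 0)) (move 591 (leaf 462 4))))))))))))))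
theorem a6p439 : a6e439.Valid :=
  pos_of_chk [a6e438] (forall_cons a6p438 forall_nil) a6c439 a6e439 (by decide +kernel)

def a6e440 : Pos := ⟨329510287737415994579416980733722186736624252428700757911207193430083519529241516494081496768250825407278789577167987883422514687502483595796043537515003510784, 34808659509396432475757358581380559888036652547860701780525556758545053595601063156959756334759153093234865316771652375644253644782621834053342533049014653285147608989015105785153099661312, 6⟩
def a6c440 : Cert := (move 431 (branch (move 558 (branch (move 463 (leaf 430 6)) (move 461 (branch (move 429 (leaf 429 7)) (move 590 (branch (move 493 (leaf 461 7)) (move 591 (branch (move 623 (leaf 494 4)) (move 559 (leaf 462 4)))))))))) (branch (move 430 (branch (move 399 (leaf 398 6)) (move 398 (branch (move 493 (leaf 397 5)) (move 397 (branch (move 429 (leaf 397 7)) (move 365 (leaf 365 7)))))))) (move 463 (branch (move 558 (leaf 430 6)) (move 399 (branch (move 430 (leaf 398 6)) (move 367 (leaf 366 5)))))))))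
theorem a6p440 : a6e440.Valid :=
  pos_of_chk [] forall_nil a6c440 a6e440 (by decide +kernel)

def a6e441 : Pos := ⟨329510287737415994567508455074862963441864131160263691620357133376582500429589581070705902671800913831502475402273685625274981533505418536533012624431780986880, 60915154182979435136721387067632454393301556390877044069871665362931081722434936822084613272197611900833178374985325641970945076059154773789644892093889390296562165127364760516114578931712, 8⟩
def a6c441 : Cert := (move 493 (branch (ref 0) (branch (move 495 (branch (move 496 (branch (move 524 (leaf 492 1)) (move 497 (leaf 493 1)))) (move 492 (branch (move 460 (branch (move 459 (leaf 459 3)) (move 557 (branch (move 589 (leaf 460 7)) (move 428 (branch (move 461 (leaf 428 7)) (move 396 (leaf 396 4)))))))) (move 491 (branch (move 490 (leaf 490 0)) (move 463 (branch (move 462 (leaf 459 2)) (move 464 (leaf 460 2)))))))))) (branch (move 461 (branch (move 558 (branch (move 590 (leaf 461 7)) (move 429 (leaf 429 4)))) (branch (move 557 (branch (move 590 (branch (move 558 (leaf 461 4)) (move 589 (branch (move 621 (leaf 493 6)) (move 622 (leaf 493 4)))))) (move 460 (branch (move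 428 (leaf 428 7)) (move 495 (branch (move 496 (leaf 460 3)) (move 459 (branch (move 492 (leaf 459 3)) (move 458 (leaf 458 0)))))))))) (move 429 (branch (move 397 (leaf 397 4)) (move 428 (branch (move 396 (leaf 396 7)) (move 460 (branch (move 557 (leaf 428 7)) (move 459 (branch (move 458 (leaf 458 0)) (move 495 (branch (move 492 (leaf 459 3)) (move 496 (leaf 460 3))))))))))))))) (branch (move 461 (branch (move 558 (branch (move 590 (leaf 461 7)) (move 429 (leaf 429 4)))) (branch (move 429 (branch (move 397 (leaf 397 4)) (move 524 (branch (move 556 (leaf 428 5)) (move 495 (branch (move 523 (leaf 491 2)) (move 496 (leaf 492 1)))))))) (move 557 (branch (move 590 (branch (move 558 (leaf 461 4)) (move 589 (branch (move 621 (leaf 493 6)) (move 622 (leaf 493 4)))))) (branch (move 589 (branch (move 621 (leaf 493 6)) (move 462 (leaf 461 6)))) (move 558 (branch (move 590 (leaf 461 4)) (move 460 (branch (move 428 (leaf 428 7)) (move 495 (branch (move 496 (leaf 460 3)) (move 459 (branch (move 458 (leaf 458 0)) (move 462 (leaf 459 0)))))))))))))))) (move 558 (branch (move 461 (branch (move 590 (leaf 461 7)) (move 429 (leaf 429 4)))) (branch (move 590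 (branch (move 622 (leaf 493 7)) (move 589 (branch (move 621 (leaf 493 5)) (move 557 (branch (move 462 (leaf 461 5)) (move 591 (branch (move 623 (leaf 494 4)) (move 592 (branch (move 556 (leaf 556 3)) (move 593 (leaf 557 3)))))))))))) (move 462 (branch (move 461 (branch (move 429 (leaf 429 4)) (move 463 (branch (move 431 (leaf 430 6)) (move 492 (branch (move 491 (leaf 459 2)) (move 464 (leaf 460 1)))))))) (move 557 (branch (move 589 (leaf 461 5)) (move 559 (branch (move 591 (leaf 462 4)) (move 524 (branch (move 560 (leaf 524 3)) (move 523 (leaf 523 0))))))))))))))))))
theorem a6p441 : a6e441.Valid :=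
  pos_of_chk [a6e428] (forall_cons a6p428 forall_nil) a6c441 a6e441 (by decide +kernel)

def a6e442 : Pos := ⟨329510287737415994579416980733722186736624252428700757911207193430083519529241516494081496768250825407278789577167987883422514687502483595796043537515003510784, 34808659511422563128870738652410808134151759426496406487551043574477357684028722512525170601821310232951296316395459580955695234357797636505964855099177838884762409779830186272976707518464, 7⟩
def a6c442 : Cert := (move 558 (branch (move 463 (branch (move 431 (leaf 430 6)) (move 495 (branch (move 590 (leaf 462 6)) (move 496 (branch (move 497 (leaf 493 1)) (move 493 (branch (move 524 (leaf 492 1)) (move 464 (branch (move 492 (leaf 460 2)) (move 465 (leaf 461 1)))))))))))) (branch (move 463 (branch (move 431 (leaf 430 6)) (move 590 (branch (move 495 (leaf 462 6)) (move 591 (branch (move 623 (leaf 494 4)) (move 559 (leaf 462 4)))))))) (move 559 (branch (move 591 (leaf 462 4)) (move 557 (branch (move 589 (leaf 461 5)) (move 524 (branch (move 560 (leaf 524 3)) (move 523 (leaf 523 0)))))))))))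
theorem a6p442 : a6e442.Valid :=
  pos_of_chk [] forall_nil a6c442 a6e442 (by decide +kernel)

def a6e443 : Pos := ⟨329510287737415994579416980733722186736624252428700757911207193430083519529241516494081496768250825407278789577167987883422514687502483595796043537515003510784, 186877567758720270289894688540693235698147468465618083759310331454430894267785839752905797273145942059528519836509431342761016628000390091026352961860765471734529590012059795369044278629259745951744, 7⟩
def a6c443 : Cert := (move 558 (branch (move 461 (branch (move 429 (leaf 429 7)) (move 590 (branch (move 493 (leaf 461 7)) (move 621 (branch (move 589 (leaf 493 5)) (move 622 (branch (move 653 (leaf 525 5)) (move 623 (branch (move 655 (leaf 526 4)) (move 591 (leaf 494 4)))))))))))) (branch (move 559 (branch (move 591 (leaf 462 4)) (move 557 (branch (move 589 (leaf 461 5)) (move 524 (branch (move 560 (leaf 524 3)) (move 523 (leaf 523 0)))))))) (branch (move 461 (branch (move 429 (leaf 429 7)) (move 493 (branch (move 590 (leaf 461 7)) (move 559 (branch (move 591 (leaf 462 4)) (move 524 (branch (move 523 (leaf 523 0)) (move 560 (branch (move 557 (leaf 524 3)) (move 561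 (leaf 525 3)))))))))))) (move 557 (branch (move 589 (leaf 461 5)) (move 461 (branch (move 429 (leaf 429 7)) (move 493 (branch (move 590 (leaf 461 4)) (move 460 (branch (move 428 (leaf 428 7)) (move 495 (branch (move 496 (leaf 460 3)) (move 459 (leaf 459 0))))))))))))))))
theorem a6p443 : a6e443.Valid :=
  pos_of_chk [] forall_nil a6c443 a6e443 (by decide +kernel)

def a6e444 : Pos := ⟨329510287737415994579416980733722186736624252428700757911207193430083519529241516494081496768250825407278789577167987883422514687502483595796043537515003510784, 37375513600476177381669822555575723007686262018607616541020867568367648721298307462025612094691701088192382411418619825511509536396341247434516463696529879128169192035735846088961755047095376543744, 10⟩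
def a6c444 : Cert := (move 558 (branch (move 463 (branch (move 431 (leaf 430 6)) (move 495 (branch (move 590 (leaf 462 6)) (move 461 (branch (move 429 (leaf 429 7)) (move 496 (branch (move 497 (leaf 493 1)) (move 460 (leaf 460 0)))))))))) (branch (move 591 (branch (move 559 (leaf 462 4)) (move 590 (branch (move 623 (leaf 494 4)) (move 622 (branch (move 493 (leaf 493 7)) (move 621 (branch (move 653 (leaf 525 5)) (move 589 (leaf 493 5)))))))))) (move 495 (branch (move 461 (branch (move 429 (leaf 429 7)) (move 463 (branch (move 431 (leaf 430 6)) (move 460 (branch (move 459 (leaf 459 0)) (move 492 (branch (move 491 (leaf 459 1)) (move 464 (branch (move 493 (leaf 460 1)) (move 465 (branch (move 466 (leaf 462 1)) (move 433 (branch (move 432 (leaf 429 2)) (move 434 (leaf 430 2)))))))))))))))) (branch (move 461 (branch (move 429 (leaf 429 7)) (move 496 (branch (move 497 (leaf 493 1)) (move 463 (branch (move 460 (leaf 460 0)) (move 431 (leaf 430 6)))))))) (branch (move 461 (branch (move 429 (leaf 429 7)) (move 496 (branch (move 497 (leaf 493 1)) (move 460 (branch (move 493 (leaf 460 3)) (move 459 (leaf 459 0)))))))) (move 463 (branch (move 431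 (leaf 430 6)) (move 496 (branch (move 497 (leaf 493 1)) (move 559 (branch (move 591 (leaf 462 4)) (move 560 (branch (move 561 (leaf 525 3)) (move 528 (branch (move 592 (leaf 463 7)) (move 493 (branch (move 529 (leaf 493 0)) (move 464 (branch (move 492 (leaf 460 2)) (move 465 (leaf 461 1)))))))))))))))))))))))
theorem a6p444 : a6e444.Valid :=
  pos_of_chk [] forall_nil a6c444 a6e444 (by decide +kernel)

def a6e445 : Pos := ⟨471745303432202956793183681321184937628385772147764863718200528281196627370189830303432434714012565622734964094532239329933462052835910244333640164358344719658695786496, 1087770614100799312420247420627712064576053632088892108436015073365501765874890417842166700103422215771290880366974324720111574472341782072155851550390489510187817659598282707499676073984, 9⟩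
def a6c445 : Cert := (move 523 (branch (move 524 (branch (move 522 (leaf 490 2)) (move 460 (branch (move 428 (leaf 428 7)) (move 491 (branch (move 490 (leaf 490 3)) (move 459 (branch (move 458 (leaf 458 0)) (move 555 (branch (move 554 (leaf 522 1)) (move 492 (branch (move 587 (leaf 459 6)) (move 427 (branch (move 556 (leaf 427 4)) (move 395 (leaf 395 4)))))))))))))))) (branch (move 558 (branch (move 590 (leaf 461 4)) (move 524 (branch (move 559 (leaf 523 0)) (move 460 (branch (move 428 (leaf 428 7)) (move 491 (branch (move 490 (leaf 490 3)) (move 555 (branch (move 554 (leaf 522 1)) (move 587 (branch (move 492 (leaf 459 6)) (move 586 (branch (move 556 (leaf 554 1)) (move 618 (leaf 490 5)))))))))))))))) (branch (move 558 (branch (move 590 (leaf 461 4)) (move 524 (branch (move 522 (leaf 522 0)) (move 559 (leaf 523 0)))))) (move 491 (branch (move 492 (branch (move 490 (leaf 490 0)) (move 522 (leaf 490 1)))) (branch (move 558 (branch (move 590 (leaf 461 4)) (move 460 (branch (move 428 (leaf 428 7)) (move 459 (branch (move 458 (leaf 458 0)) (move 522 (branch (move 492 (leaf 490 1)) (move 554 (branch (move 427 (leaf 426 5)) (move 555 (branch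 (move 556 (leaf 522 2)) (move 586 (leaf 458 5)))))))))))))) (branch (move 558 (branch (move 590 (leaf 461 4)) (move 460 (branch (move 428 (leaf 428 7)) (move 492 (branch (move 490 (leaf 490 0)) (move 459 (branch (move 458 (leaf 458 0)) (move 555 (branch (move 587 (leaf 459 6)) (move 554 (branch (move 556 (leaf 522 2)) (move 586 (leaf 458 5)))))))))))))) (move 555 (branch (move 554 (branch (move 556 (leaf 522 2)) (move 459 (branch (move 586 (leaf 458 5)) (move 460 (branch (move 458 (leaf 458 0)) (move 428 (leaf 427 6)))))))) (branch (move 558 (branch (move 590 (leaf 461 4)) (move 460 (branch (move 428 (leaf 428 7)) (move 458 (branch (move 459 (leaf 458 0)) (move 490 (branch (move 587 (leaf 458 7)) (move 426 (branch (move 522 (leaf 426 4)) (move 394 (leaf 394 4)))))))))))) (move 558 (branch (move 590 (leaf 461 4)) (move 556 (branch (move 554 (leaf 522 2)) (move 522 (leaf 522 3)))))))))))))))))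
theorem a6p445 : a6e445.Valid :=
  pos_of_chk [] forall_nil a6c445 a6e445 (by decide +kernel)

def a6e446 : Pos := ⟨3773962426084664121986893773911013329902156061965138325746192171406031319228509149777056936896736460983457036705843754700957386925967432026863904697358343214734986182656, 174043297542929901076569867841379945779882650292151953375233594156637668721660059299368660319820920302202103968079065605373161060936225386775687103617897764368729553561917135465291867750400, 8⟩
def a6c446 : Cert := (move 464 (branch (move 431 (branch (move 463 (leaf 431 7)) (move 432 (branch (move 399 (leaf 399 7)) (move 401 (branch (move 433 (leaf 400 6)) (move 400 (branch (move 369 (leaf 368 6)) (move 429 (branch (move 430 (leaf 397 2)) (move 461 (branch (move 397 (leaf 397 4)) (move 556 (leaf 428 5)))))))))))))) (move 593 (branch (move 561 (leaf 464 4)) (move 592 (branch (move 625 (leaf 496 4)) (move 591 (branch (move 623 (leaf 495 5)) (move 559 (leaf 463 5))))))))))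
theorem a6p446 : a6e446.Valid :=
  pos_of_chk [] forall_nil a6c446 a6e446 (by decide +kernel)

def a6e447 : Pos := ⟨3773962425700235452942859537499461060075163908278653093808089520525807034510604090067035062124638561226338938838226782579810552216648911534601243193560008730745155616768, 747510271034881081159578754106163506421694631491235542034787777438686000163092798728318140562157481578929832887676802890736254757757759126935436062262116251214360320951657207235598826758025758375936, 7⟩
def a6c447 : Cert := (move 592 (branch (move 497 (branch (move 465 (leaf 464 6)) (move 624 (branch (move 529 (leaf 496 6)) (move 625 (branch (move 657 (leaf 528 4)) (move 593 (leaf 496 4)))))))) (branch (move 623 (branch (move 591 (leaf 495 5)) (move 624 (branch (move 655 (leaf 527 5)) (move 625 (branch (move 657 (leaf 528 4)) (move 593 (leaf 496 4)))))))) (move 591 (branch (move 623 (leaf 495 5)) (move 464 (branch (move 559 (leaf 463 5)) (move 431 (branch (move 463 (leaf 431 7)) (move 432 (branch (move 399 (leaf 399 7)) (move 433 (branch (move 465 (leaf 432 6)) (move 401 (leaf 400 6)))))))))))))))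
theorem a6p447 : a6e447.Valid :=
  pos_of_chk [] forall_nil a6c447 a6e447 (by decide +kernel)

def a6e448 : Pos := ⟨3773962425700235452942859537499461060075163908278653093808089520525807034510604090067035062124638561226338938838226782579810552216648911534601243193560008730745155616768, 139234638037585729899255471902458086401205372067027802238699315904638795046579200993535690213986172938504479894868416958606852803558776804618494027922482943951961935368473402448657711628288, 5⟩
def a6c448 : Cert := (move 464 (branch (move 433 (branch (move 465 (leaf 432 6)) (move 432 (branch (move 401 (leaf 400 6)) (move 431 (branch (move 463 (leaf 431 7)) (move 399 (leaf 399 7)))))))) (branch (move 561 (branch (move 593 (leaf 464 4)) (move 432 (branch (move 529 (leaf 432 4)) (move 431 (branch (move 463 (leaf 431 7)) (move 399 (leaf 399 7)))))))) (move 465 (branch (move 433 (leaf 432 6)) (move 592 (branch (move 497 (leaf 464 6)) (move 593 (branch (move 625 (leaf 496 4)) (move 561 (leaf 464 4)))))))))))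
theorem a6p448 : a6e448.Valid :=
  pos_of_chk [] forall_nil a6c448 a6e448 (by decide +kernel)

def a6e449 : Pos := ⟨3773962425205970021490175730393330027619737730154650607327849079003539996452759622302156962225048826978790853668749826842847837097215817562900174289348867593472258867200, 747510272984166013981594047438204072667750126683671320722890572536311957419416507484756795542423052519168951293382879096744555454774892779082240371359816270925812016399591911485745850262348258869248, 14⟩
def a6c449 : Cert := (move 528 (branch (move 592 (branch (move 497 (branch (move 465 (leaf 464 6)) (move 624 (branch (move 529 (leaf 496 6)) (move 625 (branch (move 657 (leaf 528 4)) (move 593 (leaf 496 4)))))))) (branch (move 623 (branch (move 591 (leaf 495 5)) (move 624 (branch (move 655 (leaf 527 5)) (move 625 (branch (move 657 (leaf 528 4)) (move 593 (leaf 496 4)))))))) (branch (move 623 (branch (move 591 (leaf 495 5)) (move 624 (branch (move 655 (leaf 527 5)) (move 497 (branch (move 529 (leaf 496 6)) (move 465 (leaf 464 6)))))))) (move 593 (branch (move 625 (leaf 496 4)) (move 591 (branch (move 623 (leaf 495 5)) (move 594 (branch (move 562 (branch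 (move 563 (leaf 559 2)) (move 561 (branch (move 590 (leaf 558 2)) (move 497 (branch (move 465 (leaf 464 6)) (move 626 (branch (move 627 (leaf 591 0)) (move 529 (leaf 497 4)))))))))) (branch (move 595 (branch (move 559 (leaf 559 3)) (move 627 (branch (move 626 (leaf 591 0)) (move 628 (leaf 592 0)))))) (move 562 (branch (move 563 (leaf 559 2)) (move 561 (branch (move 590 (leaf 558 2)) (move 595 (branch (move 559 (leaf 559 0)) (move 596 (leaf 560 3))))))))))))))))))) (branch (move 464 (branch (move 465 (branch (move 433 (leaf 432 6)) (move 592 (branch (move 497 (leaf 464 6)) (move 591 (branch (move 623 (leaf 495 5)) (move 559 (leaf 463 5)))))))) (branch (move 431 (branch (move 463 (leaf 431 7)) (move 432 (branch (move 399 (leaf 399 7)) (move 401 (branch (move 433 (leaf 400 6)) (move 400 (branch (move 369 (leaf 368 6)) (move 429 (branch (move 430 (leaf 397 2)) (move 461 (branch (move 397 (leaf 397 4)) (move 556 (leaf 428 5)))))))))))))) (move 431 (branch (move 463 (leaf 431 7)) (move 432 (branch (move 399 (leaf 399 7)) (move 529 (branch (move 561 (leaf 432 4)) (move 497 (branch (move 400 (leaf 400 4)) (move 592 (branch (move 624 (leaf 496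 6)) (move 465 (leaf 464 6))))))))))))))) (branch (ref 0) (branch (ref 1) (branch (ref 2) (move 464 (branch (move 433 (branch (move 465 (leaf 432 6)) (move 432 (branch (move 401 (leaf 400 6)) (move 431 (branch (move 463 (leaf 431 7)) (move 399 (leaf 399 7)))))))) (branch (move 561 (branch (move 593 (leaf 464 4)) (move 432 (branch (move 529 (leaf 432 4)) (move 431 (branch (move 463 (leaf 431 7)) (move 399 (leaf 399 7)))))))) (branch (move 561 (branch (move 593 (leaf 464 4)) (move 432 (branch (move 529 (leaf 432 4)) (move 433 (branch (move 465 (leaf 432 6)) (move 401 (leaf 400 6)))))))) (move 561 (branch (move 593 (leaf 464 4)) (move 559 (branch (move 591 (leaf 463 5)) (move 562 (branch (move 465 (branch (move 433 (leaf 432 6)) (move 594 (branch (move 595 (leaf 559 0)) (move 497 (branch (move 529 (leaf 465 4)) (move 498 (branch (move 530 (leaf 465 7)) (move 499 (branch (move 463 (leaf 463 3)) (move 500 (leaf 464 3)))))))))))) (branch (move 465 (branch (move 433 (leaf 432 6)) (move 595 (branch (move 594 (leaf 559 0)) (move 563 (branch (move 596 (leaf 560 0)) (move 532 (branch (move 531 (leaf 528 2)) (move 564 (branch (move 533 (leaf 529 2))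 (move 529 (leaf 528 3)))))))))))) (branch (move 531 (branch (move 530 (leaf 527 2)) (move 563 (branch (move 532 (leaf 528 2)) (move 595 (branch (move 594 (leaf 559 0)) (move 596 (leaf 560 0)))))))) (move 531 (branch (move 530 (leaf 527 2)) (move 563 (branch (move 532 (leaf 528 2)) (move 564 (branch (move 529 (leaf 528 3)) (move 596 (branch (move 597 (leaf 561 0)) (move 499 (branch (move 467 (leaf 467 4)) (move 463 (branch (move 431 (leaf 431 7)) (move 465 (branch (move 433 (leaf 432 6)) (move 498 (branch (move 497 (leaf 463 3)) (move 466 (leaf 463 0))))))))))))))))))))))))))))))))))))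
theorem a6p449 : a6e449.Valid :=
  pos_of_chk [a6e446, a6e447, a6e448] (forall_cons a6p446 (forall_cons a6p447 (forall_cons a6p448 forall_nil))) a6c449 a6e449 (by decide +kernel)

def a6e450 : Pos := ⟨3773962425151051640209130852679429084056516196063875185560921168873809318806025786384801681519756146901724173016819613439163141361992608235900973668479790823684949671936, 3210532167518910319138439359115105380775965256730530104374217864533432327429231694851014080995282184155207910659598221930538791101124404058071513147447594536352205802541236391814628285586958415571900711305216, 12⟩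
def a6c450 : Cert := (move 592 (branch (move 528 (branch (move 625 (branch (move 593 (leaf 496 4)) (move 624 (branch (move 657 (leaf 528 4)) (move 623 (branch (move 655 (leaf 527 5)) (move 591 (leaf 495 5)))))))) (branch (move 497 (branch (move 465 (leaf 464 6)) (move 624 (branch (move 529 (leaf 496 6)) (move 623 (branch (move 655 (leaf 527 5)) (move 591 (leaf 495 5)))))))) (move 593 (branch (move 625 (leaf 496 4)) (move 464 (branch (move 561 (leaf 464 4)) (move 465 (branch (move 497 (leaf 464 6)) (move 433 (leaf 432 6))))))))))) (branch (move 528 (branch (move 497 (branch (move 465 (leaf 464 6)) (move 624 (branch (move 529 (leaf 496 6)) (move 657 (branch (move 625 (leaf 528 4)) (move 656 (branch (move 689 (leaf 560 4)) (move 655 (branch (move 687 (leaf 559 5)) (move 623 (leaf 527 5)))))))))))) (branch (move 625 (branch (move 593 (leaf 496 4)) (move 624 (branch (move 657 (leaf 528 4)) (move 529 (branch (move 497 (leaf 496 6)) (move 656 (branch (move 561 (leaf 528 6)) (move 655 (branch (move 687 (leaf 559 5)) (move 623 (leaf 527 5)))))))))))) (branch (move 590 (branch (move 558 (leaf 461 7)) (move 593 (branch (move 625 (leaf 496 4)) (move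 464 (branch (move 561 (leaf 464 4)) (move 433 (branch (move 465 (leaf 432 6)) (move 432 (branch (move 401 (leaf 400 6)) (move 431 (branch (move 463 (leaf 431 7)) (move 399 (leaf 399 7)))))))))))))) (move 590 (branch (move 558 (leaf 461 7)) (move 465 (branch (move 497 (leaf 464 6)) (move 464 (branch (move 433 (leaf 432 6)) (move 431 (branch (move 463 (leaf 431 7)) (move 432 (branch (move 399 (leaf 399 7)) (move 561 (branch (move 593 (leaf 464 4)) (move 529 (leaf 432 4)))))))))))))))))) (branch (move 528 (branch (move 497 (branch (move 465 (leaf 464 6)) (move 624 (branch (move 529 (leaf 496 6)) (move 657 (branch (move 625 (leaf 528 4)) (move 656 (branch (move 689 (leaf 560 4)) (move 655 (branch (move 687 (leaf 559 5)) (move 623 (leaf 527 5)))))))))))) (branch (move 590 (branch (move 558 (leaf 461 7)) (move 591 (branch (move 623 (leaf 495 5)) (move 589 (branch (move 561 (leaf 557 2)) (move 557 (branch (move 556 (leaf 556 3)) (move 621 (leaf 493 6)))))))))) (move 590 (branch (move 558 (leaf 461 7)) (move 497 (branch (move 465 (leaf 464 6)) (move 624 (branch (move 529 (leaf 496 6)) (move 625 (branch (move 657 (leaf 528 4)) (move 589 (branch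 (move 591 (leaf 589 0)) (move 557 (branch (move 621 (leaf 493 6)) (move 622 (leaf 493 4))))))))))))))))) (branch (move 528 (branch (move 593 (branch (move 625 (leaf 496 4)) (move 464 (branch (move 561 (leaf 464 4)) (move 465 (branch (move 497 (leaf 464 6)) (move 433 (leaf 432 6)))))))) (branch (move 590 (branch (move 558 (leaf 461 7)) (move 591 (branch (move 623 (leaf 495 5)) (move 589 (branch (move 561 (leaf 557 2)) (move 557 (branch (move 556 (leaf 556 3)) (move 621 (leaf 493 6)))))))))) (move 590 (branch (move 558 (leaf 461 7)) (move 465 (branch (move 497 (leaf 464 6)) (move 464 (branch (move 433 (leaf 432 6)) (move 431 (branch (move 463 (leaf 431 7)) (move 432 (branch (move 399 (leaf 399 7)) (move 591 (branch (move 623 (leaf 495 5)) (move 593 (branch (move 625 (leaf 496 4)) (move 621 (branch (move 622 (leaf 589 1)) (move 589 (branch (move 620 (leaf 588 1)) (move 557 (leaf 493 6))))))))))))))))))))))) (branch (move 528 (branch (move 625 (branch (move 593 (leaf 496 4)) (move 624 (branch (move 657 (leaf 528 4)) (move 623 (branch (move 655 (leaf 527 5)) (move 591 (leaf 495 5)))))))) (branch (move 497 (branch (move 465 (leaf 464 6)) (move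 624 (branch (move 529 (leaf 496 6)) (move 623 (branch (move 655 (leaf 527 5)) (move 591 (leaf 495 5)))))))) (branch (move 497 (branch (move 465 (leaf 464 6)) (move 624 (branch (move 529 (leaf 496 6)) (move 625 (branch (move 657 (leaf 528 4)) (move 593 (leaf 496 4)))))))) (move 590 (branch (move 558 (leaf 461 7)) (move 465 (branch (move 497 (leaf 464 6)) (move 464 (branch (move 433 (leaf 432 6)) (move 431 (branch (move 463 (leaf 431 7)) (move 432 (branch (move 399 (leaf 399 7)) (move 591 (branch (move 623 (leaf 495 5)) (move 593 (branch (move 625 (leaf 496 4)) (move 621 (branch (move 622 (leaf 589 1)) (move 589 (branch (move 620 (leaf 588 1)) (move 557 (leaf 493 6)))))))))))))))))))))))) (branch (move 528 (branch (move 497 (branch (move 465 (leaf 464 6)) (move 624 (branch (move 529 (leaf 496 6)) (move 623 (branch (move 655 (leaf 527 5)) (move 591 (leaf 495 5)))))))) (branch (move 590 (branch (move 558 (leaf 461 7)) (move 591 (branch (move 623 (leaf 495 5)) (move 589 (branch (move 561 (leaf 557 2)) (move 557 (branch (move 556 (leaf 556 3)) (move 621 (leaf 493 6)))))))))) (move 590 (branch (move 558 (leaf 461 7)) (move 465 (branch (move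 497 (leaf 464 6)) (move 464 (branch (move 433 (leaf 432 6)) (move 431 (branch (move 463 (leaf 431 7)) (move 432 (branch (move 399 (leaf 399 7)) (move 561 (branch (move 593 (leaf 464 4)) (move 529 (leaf 432 4))))))))))))))))) (move 590 (branch (move 558 (leaf 461 7)) (move 589 (branch (move 591 (branch (move 561 (leaf 557 2)) (move 625 (branch (move 624 (leaf 589 0)) (move 593 (branch (move 626 (leaf 590 0)) (move 621 (branch (move 620 (leaf 588 1)) (move 622 (leaf 589 1)))))))))) (branch (move 557 (branch (move 621 (leaf 493 6)) (move 622 (leaf 493 4)))) (branch (move 591 (branch (move 561 (leaf 557 2)) (move 557 (branch (move 556 (leaf 556 3)) (move 622 (leaf 493 4)))))) (move 591 (branch (move 561 (leaf 557 2)) (move 557 (branch (move 556 (leaf 556 3)) (move 621 (leaf 493 6)))))))))))))))))))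
theorem a6p450 : a6e450.Valid :=
  pos_of_chk [] forall_nil a6c450 a6e450 (by decide +kernel)

def a6e451 : Pos := ⟨3773962425205970021490175730393330027619737730154650607327849079003539996452759622302156962225048826978790853668749826842847837097215817562900174289348867593472258867200, 3772375296763706148887328219731301049241439084718986040686730780662654023276092910948543385580408567375077417392706220777096438817975285867327011141944974071047022651906835427575941079077014183353939153387520, 14⟩
def a6c451 : Cert := (move 528 (branch (ref 0) (branch (move 464 (branch (move 433 (branch (move 465 (leaf 432 6)) (move 432 (branch (move 401 (leaf 400 6)) (move 431 (branch (move 463 (leaf 431 7)) (move 399 (leaf 399 7)))))))) (move 559 (branch (move 591 (leaf 463 5)) (move 558 (branch (move 557 (leaf 524 3)) (move 461 (branch (move 590 (leaf 461 7)) (move 429 (leaf 429 4)))))))))) (branch (move 592 (branch (move 623 (branch (move 591 (leaf 495 5)) (move 624 (branch (move 655 (leaf 527 5)) (move 625 (branch (move 657 (leaf 528 4)) (move 593 (leaf 496 4)))))))) (move 465 (branch (move 497 (leaf 464 6)) (move 464 (branch (move 433 (leaf 432 6))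 (move 431 (branch (move 463 (leaf 431 7)) (move 432 (branch (move 399 (leaf 399 7)) (move 429 (branch (move 430 (leaf 429 0)) (move 461 (branch (move 397 (leaf 397 4)) (move 556 (leaf 428 5)))))))))))))))) (branch (move 558 (branch (move 592 (branch (move 497 (branch (move 465 (leaf 464 6)) (move 624 (branch (move 529 (leaf 496 6)) (move 623 (branch (move 655 (leaf 527 5)) (move 591 (leaf 495 5)))))))) (branch (move 497 (branch (move 465 (leaf 464 6)) (move 624 (branch (move 529 (leaf 496 6)) (move 625 (branch (move 657 (leaf 528 4)) (move 593 (leaf 496 4)))))))) (move 559 (branch (move 557 (leaf 524 3)) (move 591 (branch (move 623 (leaf 495 5)) (move 593 (branch (move 594 (leaf 558 3)) (move 625 (leaf 496 4))))))))))) (move 461 (branch (move 590 (leaf 461 7)) (move 429 (leaf 429 4)))))) (branch (move 558 (branch (move 559 (branch (move 557 (leaf 524 3)) (move 591 (branch (move 464 (leaf 463 5)) (move 623 (branch (move 655 (leaf 527 6)) (move 592 (leaf 495 5)))))))) (move 461 (branch (move 590 (leaf 461 7)) (move 429 (leaf 429 4)))))) (move 465 (branch (move 464 (branch (move 433 (leaf 432 6)) (move 431 (branch (move 463 (leaf 431 7))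 (move 432 (branch (move 399 (leaf 399 7)) (move 429 (branch (move 430 (leaf 429 0)) (move 461 (branch (move 558 (leaf 429 4)) (move 397 (leaf 397 4)))))))))))) (branch (move 497 (branch (move 592 (leaf 464 6)) (move 433 (branch (move 529 (leaf 432 5)) (move 401 (leaf 400 5)))))) (move 592 (branch (move 497 (leaf 464 6)) (move 624 (branch (move 593 (branch (move 625 (leaf 496 4)) (move 623 (branch (move 655 (leaf 527 5)) (move 621 (branch (move 622 (leaf 589 2)) (move 557 (branch (move 589 (leaf 493 6)) (move 558 (branch (move 559 (leaf 557 0)) (move 461 (branch (move 590 (leaf 461 4)) (move 429 (leaf 429 4)))))))))))))) (branch (move 625 (branch (move 657 (leaf 528 4)) (move 593 (leaf 496 4)))) (move 558 (branch (move 557 (branch (move 559 (leaf 524 3)) (move 621 (branch (move 589 (leaf 493 6)) (move 655 (branch (move 623 (leaf 527 5)) (move 656 (branch (move 687 (leaf 559 5)) (move 657 (branch (move 689 (leaf 560 4)) (move 654 (branch (move 622 (leaf 621 3)) (move 653 (branch (move 620 (leaf 620 3)) (move 685 (branch (move 684 (leaf 652 1)) (move 686 (leaf 653 1)))))))))))))))))) (move 461 (branch (move 590 (leaf 461 7)) (move 429 (leaf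 429 4))))))))))))))))))))
theorem a6p451 : a6e451.Valid :=
  pos_of_chk [a6e447] (forall_cons a6p447 forall_nil) a6c451 a6e451 (by decide +kernel)

def a6e452 : Pos := ⟨384428669248621149405061136702816509738210178951642778757915834060610770216030237047390059437322478637985981943077252467291024930338740037916171549822863540224, 3772375296763706150836613152484427900515634817400405063789093554761460501894216297341561994331817503783835990872794691759352966573666548465091602121285715750283115856752375774321181205501747395785469739401216, 15⟩
def a6c452 : Cert := (move 560 (branch (move 558 (branch (move 559 (branch (move 557 (leaf 524 3)) (move 561 (leaf 525 3)))) (branch (move 590 (branch (move 622 (leaf 493 7)) (move 589 (branch (move 621 (leaf 493 5)) (move 591 (branch (move 623 (leaf 494 4)) (move 592 (branch (move 561 (leaf 557 2)) (move 557 (branch (move 556 (leaf 556 3)) (move 593 (leaf 557 3)))))))))))) (branch (move 590 (branch (move 622 (leaf 493 7)) (move 561 (branch (move 559 (leaf 525 3)) (move 591 (branch (move 623 (leaf 494 4)) (move 589 (branch (move 592 (leaf 557 2)) (move 621 (leaf 493 5)))))))))) (move 590 (branch (move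 622 (leaf 493 7)) (move 557 (branch (move 559 (leaf 524 3)) (move 589 (branch (move 621 (leaf 493 5)) (move 591 (branch (move 623 (leaf 494 4)) (move 556 (branch (move 592 (leaf 556 3)) (move 555 (leaf 555 0)))))))))))))))) (branch (move 528 (branch (ref 0) (branch (ref 1) (branch (ref 2) (branch (move 464 (branch (move 433 (branch (move 465 (leaf 432 6)) (move 432 (branch (move 401 (leaf 400 6)) (move 431 (branch (move 463 (leaf 431 7)) (move 399 (leaf 399 7)))))))) (move 559 (branch (move 591 (leaf 463 5)) (move 558 (branch (move 557 (leaf 524 3)) (move 561 (leaf 525 3)))))))) (move 592 (branch (move 497 (branch (move 465 (leaf 464 6)) (move 624 (branch (move 529 (leaf 496 6)) (move 625 (branch (move 657 (leaf 528 4)) (move 593 (leaf 496 4)))))))) (branch (move 623 (branch (move 591 (leaf 495 5)) (move 624 (branch (move 655 (leaf 527 5)) (move 625 (branch (move 657 (leaf 528 4)) (move 593 (leaf 496 4)))))))) (branch (move 623 (branch (move 591 (leaf 495 5)) (move 624 (branch (move 655 (leaf 527 5)) (move 497 (branch (move 529 (leaf 496 6)) (move 465 (leaf 464 6)))))))) (move 593 (branch (move 625 (leaf 496 4)) (move 591 (branch (move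 623 (leaf 495 5)) (move 594 (branch (move 563 (branch (move 562 (leaf 559 2)) (move 595 (branch (move 564 (leaf 560 2)) (move 627 (branch (move 626 (leaf 591 0)) (move 628 (leaf 592 0)))))))) (branch (move 558 (branch (move 559 (leaf 558 3)) (move 429 (branch (move 461 (leaf 429 4)) (move 562 (branch (move 563 (leaf 559 2)) (move 626 (branch (move 627 (leaf 591 0)) (move 497 (branch (move 465 (leaf 464 6)) (move 529 (branch (move 530 (leaf 497 7)) (move 561 (leaf 497 4)))))))))))))) (move 559 (branch (move 558 (leaf 558 3)) (move 595 (leaf 559 3)))))))))))))))))))) (branch (ref 3) (branch (move 461 (branch (move 429 (branch (move 397 (leaf 397 4)) (move 556 (leaf 428 5)))) (branch (move 558 (branch (move 590 (leaf 461 7)) (move 429 (leaf 429 4)))) (ref 4)))) (branch (move 558 (branch (move 559 (branch (move 557 (leaf 524 3)) (move 561 (leaf 525 3)))) (move 590 (branch (move 622 (leaf 493 7)) (move 461 (leaf 461 7)))))) (ref 5)))))))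
theorem a6p452 : a6e452.Valid :=
  pos_of_chk [a6e446, a6e447, a6e448, a6e449, a6e450, a6e451] (forall_cons a6p446 (forall_cons a6p447 (forall_cons a6p448 (forall_cons a6p449 (forall_cons a6p450 (forall_cons a6p451 forall_nil)))))) a6c452 a6e452 (by decide +kernel)

def a6e453 : Pos := ⟨329510287686269266319131238355906874428932894406878659650934246040906072803087490501882862751749818638910222946791081185781855423986398903003553357973522743296, 3772375296763706150837700923094476438527164923420486245325529483096601792533521893131602067732107840905804519259843361498370488567477220933671043221116938321057698319975151733461464759988623302018047334678528, 19⟩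
def a6c453 : Cert := (move 494 (branch (ref 0) (branch (ref 1) (branch (ref 2) (branch (move 462 (branch (ref 3) (branch (move 430 (branch (move 557 (leaf 429 5)) (move 431 (branch (move 399 (leaf 398 6)) (move 429 (branch (move 397 (leaf 397 7)) (move 558 (branch (move 463 (leaf 430 6)) (move 461 (leaf 429 7)))))))))) (branch (move 557 (branch (move 430 (leaf 429 5)) (move 589 (branch (move 621 (leaf 493 6)) (move 493 (leaf 461 6)))))) (move 558 (branch (move 461 (branch (move 429 (leaf 429 7)) (move 493 (branch (move 590 (leaf 461 7)) (move 463 (branch (move 431 (leaf 430 6)) (move 492 (branch (move 491 (leaf 459 2)) (move 464 (leaf 460 1)))))))))) (move 559 (branch (move 591 (leaf 462 4)) (move 557 (branch (move 589 (leaf 461 5)) (move 524 (branch (move 560 (leaf 524 3)) (move 523 (leaf 523 0)))))))))))))) (branch (ref 4) (branch (move 462 (branch (move 557 (branch (move 430 (leaf 429 5)) (move 589 (branch (move 621 (leaf 493 6)) (move 493 (leaf 461 6)))))) (branch (move 558 (branch (move 559 (branch (move 591 (leaf 462 4)) (move 524 (branch (move 523 (leaf 523 0)) (move 431 (branch (move 463 (leaf 430 6)) (move 430 (branch (move 399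 (leaf 398 6)) (move 397 (branch (move 429 (leaf 397 7)) (move 398 (branch (move 365 (leaf 365 7)) (move 493 (leaf 397 5)))))))))))))) (branch (move 591 (branch (move 559 (leaf 462 4)) (move 590 (branch (move 623 (leaf 494 4)) (move 622 (branch (move 493 (leaf 493 7)) (move 621 (branch (move 653 (leaf 525 5)) (move 589 (leaf 493 5)))))))))) (branch (move 463 (branch (move 431 (leaf 430 6)) (move 495 (branch (move 590 (leaf 462 6)) (move 496 (branch (move 497 (leaf 493 1)) (move 493 (branch (move 524 (leaf 492 1)) (move 464 (branch (move 492 (leaf 460 2)) (move 465 (leaf 461 1)))))))))))) (move 463 (branch (move 431 (leaf 430 6)) (move 590 (branch (move 495 (leaf 462 6)) (move 591 (branch (move 623 (leaf 494 4)) (move 559 (leaf 462 4)))))))))))) (branch (move 430 (branch (move 557 (leaf 429 5)) (move 431 (branch (move 399 (leaf 398 6)) (move 429 (branch (move 397 (leaf 397 7)) (move 463 (branch (move 558 (leaf 430 6)) (move 464 (branch (move 465 (leaf 429 3)) (move 428 (leaf 428 0)))))))))))) (ref 5))))) (branch (move 462 (branch (move 557 (branch (move 430 (leaf 429 5)) (move 589 (branch (move 621 (leaf 493 6)) (move 493 (leaf 461 6))))))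 (branch (ref 5) (branch (move 430 (branch (move 431 (branch (move 399 (leaf 398 6)) (move 558 (branch (move 463 (leaf 430 6)) (move 591 (branch (move 559 (leaf 462 4)) (move 590 (branch (move 623 (leaf 494 4)) (move 493 (branch (move 622 (leaf 493 7)) (move 461 (leaf 461 7)))))))))))) (branch (move 398 (branch (move 493 (leaf 397 5)) (move 367 (branch (move 399 (leaf 366 6)) (move 366 (branch (move 335 (leaf 334 6)) (move 365 (branch (move 397 (leaf 365 7)) (move 333 (leaf 333 7)))))))))) (branch (move 398 (branch (move 493 (leaf 397 5)) (move 365 (branch (move 397 (leaf 365 7)) (move 366 (branch (move 333 (leaf 333 7)) (move 463 (branch (move 495 (leaf 366 4)) (move 431 (branch (move 558 (leaf 430 6)) (move 334 (leaf 334 4)))))))))))) (move 398 (branch (move 365 (branch (move 397 (leaf 365 7)) (move 366 (branch (move 333 (leaf 333 7)) (move 463 (branch (move 495 (leaf 366 4)) (move 431 (branch (move 558 (leaf 430 6)) (move 334 (leaf 334 4)))))))))) (branch (move 367 (branch (move 399 (leaf 366 6)) (move 366 (branch (move 335 (leaf 334 6)) (move 365 (branch (move 397 (leaf 365 7)) (move 333 (leaf 333 7)))))))) (move 399 (branch (move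 431 (leaf 398 6)) (move 367 (leaf 366 6))))))))))) (move 557 (branch (move 430 (leaf 429 5)) (move 589 (branch (move 621 (leaf 493 6)) (move 558 (leaf 461 5)))))))))) (branch (move 462 (branch (move 557 (branch (move 430 (leaf 429 5)) (move 589 (branch (move 621 (leaf 493 6)) (move 493 (leaf 461 6)))))) (branch (move 557 (branch (move 430 (leaf 429 5)) (move 589 (branch (move 621 (leaf 493 6)) (move 558 (leaf 461 5)))))) (branch (ref 6) (move 430 (branch (move 398 (branch (move 493 (leaf 397 5)) (move 399 (branch (move 431 (leaf 398 6)) (move 367 (leaf 366 6)))))) (branch (move 398 (branch (move 493 (leaf 397 5)) (move 397 (branch (move 429 (leaf 397 7)) (move 365 (leaf 365 7)))))) (move 429 (branch (move 397 (leaf 397 7)) (move 461 (branch (move 558 (leaf 429 7)) (move 431 (branch (move 399 (leaf 398 6)) (move 460 (branch (move 459 (leaf 427 2)) (move 432 (leaf 428 1))))))))))))))))) (branch (move 462 (branch (move 557 (branch (move 430 (leaf 429 5)) (move 589 (branch (move 621 (leaf 493 6)) (move 558 (leaf 461 5)))))) (branch (ref 6) (branch (move 430 (branch (move 557 (leaf 429 5)) (move 398 (branch (move 493 (leaf 397 5)) (move 397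 (branch (move 429 (leaf 397 7)) (move 365 (leaf 365 7)))))))) (move 495 (branch (move 524 (branch (move 523 (leaf 491 2)) (move 496 (branch (move 493 (leaf 492 1)) (move 497 (leaf 493 1)))))) (branch (move 496 (branch (move 497 (leaf 493 1)) (move 461 (branch (move 429 (branch (move 558 (leaf 429 7)) (move 397 (branch (move 430 (leaf 397 7)) (move 365 (leaf 365 4)))))) (move 460 (branch (move 459 (leaf 459 0)) (move 463 (leaf 460 0)))))))) (move 558 (branch (move 591 (branch (move 559 (leaf 462 4)) (move 590 (branch (move 623 (leaf 494 4)) (move 622 (branch (move 493 (leaf 493 7)) (move 621 (branch (move 653 (leaf 525 5)) (move 589 (leaf 493 5)))))))))) (branch (move 429 (branch (move 461 (leaf 429 7)) (move 430 (branch (move 397 (leaf 397 7)) (move 398 (branch (move 493 (leaf 397 5)) (move 366 (branch (move 463 (leaf 366 4)) (move 367 (branch (move 399 (leaf 366 6)) (move 335 (leaf 334 6)))))))))))) (move 590 (branch (move 463 (leaf 462 6)) (move 591 (branch (move 623 (leaf 494 4)) (move 559 (leaf 462 4)))))))))))))))) (branch (move 462 (branch (move 430 (branch (move 557 (leaf 429 5)) (move 398 (branch (move 493 (leaf 397 5)) (move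 399 (branch (move 431 (leaf 398 6)) (move 367 (leaf 366 6)))))))) (branch (move 557 (branch (move 430 (leaf 429 5)) (move 589 (branch (move 621 (leaf 493 6)) (move 558 (leaf 461 5)))))) (ref 7)))) (branch (move 462 (branch (move 557 (branch (move 430 (leaf 429 5)) (move 589 (branch (move 621 (leaf 493 6)) (move 558 (leaf 461 5)))))) (branch (move 430 (branch (move 557 (leaf 429 5)) (move 398 (branch (move 493 (leaf 397 5)) (move 397 (branch (move 429 (leaf 397 7)) (move 365 (leaf 365 7)))))))) (ref 7)))) (branch (move 462 (branch (ref 3) (branch (move 430 (branch (move 557 (leaf 429 5)) (move 431 (branch (move 399 (leaf 398 6)) (move 429 (branch (move 397 (leaf 397 7)) (move 558 (branch (move 463 (leaf 430 6)) (move 461 (leaf 429 7)))))))))) (branch (move 557 (branch (move 430 (leaf 429 5)) (move 589 (branch (move 621 (leaf 493 6)) (move 493 (leaf 461 6)))))) (move 495 (branch (move 524 (branch (move 523 (leaf 491 2)) (move 496 (branch (move 493 (leaf 492 1)) (move 497 (leaf 493 1)))))) (branch (move 558 (branch (move 461 (branch (move 429 (leaf 429 7)) (move 590 (branch (move 493 (leaf 461 7)) (move 589 (branch (move 621 (leaf 493 5))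 (move 557 (leaf 461 5)))))))) (branch (move 461 (branch (move 429 (leaf 429 7)) (move 463 (branch (move 431 (leaf 430 6)) (move 460 (branch (move 459 (leaf 459 0)) (move 492 (branch (move 491 (leaf 459 1)) (move 493 (branch (move 464 (leaf 460 1)) (move 557 (branch (move 589 (leaf 461 5)) (move 428 (leaf 428 7)))))))))))))) (move 463 (branch (move 590 (leaf 462 6)) (move 431 (leaf 430 6))))))) (move 558 (branch (move 589 (branch (move 557 (leaf 461 5)) (move 590 (branch (move 621 (leaf 493 5)) (move 591 (branch (move 623 (leaf 494 4)) (move 559 (leaf 462 4)))))))) (move 461 (branch (move 429 (leaf 429 7)) (move 496 (branch (move 497 (leaf 493 1)) (move 463 (branch (move 460 (leaf 460 0)) (move 431 (leaf 430 6))))))))))))))))) (move 493 (branch (ref 8) (branch (move 461 (branch (move 429 (branch (move 397 (leaf 397 4)) (move 428 (branch (move 396 (leaf 396 7)) (move 460 (branch (move 557 (leaf 428 7)) (move 459 (branch (move 458 (leaf 458 0)) (move 430 (branch (move 431 (leaf 427 1)) (move 398 (leaf 397 6)))))))))))) (branch (move 558 (branch (move 590 (leaf 461 7)) (move 429 (leaf 429 4)))) (move 557 (branch (move 590 (branch (move 558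 (leaf 461 4)) (move 589 (branch (move 621 (leaf 493 6)) (move 622 (leaf 493 4)))))) (move 460 (branch (move 428 (leaf 428 7)) (move 495 (branch (move 496 (leaf 460 3)) (move 459 (branch (move 492 (leaf 459 3)) (move 458 (leaf 458 0))))))))))))) (branch (ref 9) (branch (move 461 (branch (move 429 (branch (move 397 (leaf 397 4)) (move 428 (branch (move 396 (leaf 396 7)) (move 460 (branch (move 557 (leaf 428 7)) (move 459 (branch (move 458 (leaf 458 0)) (move 430 (branch (move 431 (leaf 427 1)) (move 398 (leaf 397 6)))))))))))) (branch (move 558 (branch (move 590 (leaf 461 7)) (move 429 (leaf 429 4)))) (move 557 (branch (move 589 (branch (move 621 (leaf 493 6)) (move 460 (branch (move 492 (leaf 460 7)) (move 428 (leaf 428 7)))))) (branch (move 590 (branch (move 558 (leaf 461 4)) (move 589 (branch (move 621 (leaf 493 6)) (move 622 (leaf 493 4)))))) (ref 10))))))) (move 524 (branch (move 523 (branch (move 522 (leaf 490 2)) (move 558 (branch (move 559 (leaf 523 0)) (move 590 (branch (move 622 (leaf 493 7)) (move 461 (leaf 461 7)))))))) (branch (move 495 (branch (move 523 (leaf 491 2)) (move 496 (leaf 492 1)))) (move 496 (branch (move 495 (leaf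 492 1)) (ref 11))))))))))))))))))))))))
theorem a6p453 : a6e453.Valid :=
  pos_of_chk [a6e431, a6e437, a6e439, a6e440, a6e441, a6e442, a6e443, a6e444, a6e432, a6e429, a6e445, a6e452] (forall_cons a6p431 (forall_cons a6p437 (forall_cons a6p439 (forall_cons a6p440 (forall_cons a6p441 (forall_cons a6p442 (forall_cons a6p443 (forall_cons a6p444 (forall_cons a6p432 (forall_cons a6p429 (forall_cons a6p445 (forall_cons a6p452 forall_nil)))))))))))) a6c453 a6e453 (by decide +kernel)

def a6e454 : Pos := ⟨2026130649339417646455839608934986733834649469917127464063458121843611031239057765866994850620807400988285852976383126582018212148044612396323155660410796832770212674100969603072, 51146728269217136626811901744602609299225452033932878874653220386014420420393497824907573679072447058678018002191358173126055143572052449786723303424, 6⟩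
def a6c454 : Cert := (move 461 (branch (move 428 (branch (move 460 (leaf 428 7)) (move 429 (branch (move 396 (leaf 396 7)) (move 397 (branch (move 494 (leaf 397 4)) (move 398 (branch (move 366 (leaf 365 6)) (move 430 (leaf 397 6)))))))))) (branch (move 430 (branch (move 462 (leaf 429 6)) (move 429 (branch (move 398 (leaf 397 6)) (move 428 (branch (move 396 (leaf 396 7)) (move 460 (leaf 428 7)))))))) (branch (move 494 (branch (move 462 (leaf 461 6)) (move 429 (branch (move 397 (leaf 397 4)) (move 428 (branch (move 396 (leaf 396 7)) (move 460 (leaf 428 7)))))))) (move 462 (branch (move 430 (leaf 429 6)) (move 494 (leaf 461 6))))))))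
theorem a6p454 : a6e454.Valid :=
  pos_of_chk [] forall_nil a6c454 a6e454 (by decide +kernel)

def a6e455 : Pos := ⟨471745303432202956716463588942664849720522026980987947953904447181637266339924679313853331149090208694433365517755703559262404264522454503056578184432640363429697159168, 561843129263483587075064038850268558435189098938832744771998060414343038964123340722058809091517938317255513789620052539955006443775386279364805045516987395620342603270046170532915550491014711740405559328768, 12⟩
def a6c455 : Cert := (move 589 (branch (move 622 (branch (move 493 (branch (move 590 (leaf 493 4)) (move 588 (branch (move 620 (leaf 492 5)) (move 461 (branch (move 556 (leaf 460 5)) (move 430 (branch (move 462 (leaf 429 6)) (move 429 (branch (move 398 (leaf 397 6)) (move 428 (branch (move 396 (leaf 396 7)) (move 460 (leaf 428 7)))))))))))))) (branch (move 621 (branch (move 654 (leaf 525 4)) (move 620 (branch (move 652 (leaf 524 5)) (move 588 (branch (move 493 (leaf 492 5)) (move 587 (branch (move 586 (leaf 586 0)) (move 623 (leaf 587 3)))))))))) (branch (move 621 (branch (move 654 (leaf 525 4)) (move 652 (branch (move 620 (leaf 524 5)) (move 653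 (branch (move 684 (leaf 556 5)) (move 556 (branch (move 524 (leaf 524 7)) (move 588 (branch (move 685 (leaf 556 7)) (move 623 (branch (move 624 (leaf 620 1)) (move 587 (branch (move 586 (leaf 586 0)) (move 590 (leaf 587 0)))))))))))))))) (move 590 (branch (move 493 (leaf 493 4)) (move 654 (branch (move 621 (leaf 525 4)) (move 686 (leaf 557 7)))))))))) (branch (move 621 (branch (move 494 (leaf 493 6)) (move 622 (branch (move 654 (leaf 525 4)) (move 652 (branch (move 620 (leaf 524 5)) (move 653 (branch (move 684 (leaf 556 5)) (move 556 (branch (move 524 (leaf 524 7)) (move 588 (branch (move 685 (leaf 556 7)) (move 623 (branch (move 624 (leaf 620 1)) (move 587 (branch (move 586 (leaf 586 0)) (move 590 (leaf 587 0)))))))))))))))))) (branch (move 494 (branch (move 621 (leaf 493 6)) (move 462 (branch (move 430 (leaf 429 5)) (move 493 (leaf 461 6)))))) (move 493 (branch (move 588 (branch (move 620 (leaf 492 5)) (move 556 (branch (move 461 (leaf 460 5)) (move 555 (branch (move 554 (leaf 522 2)) (move 590 (branch (move 591 (leaf 555 3)) (move 622 (leaf 493 4)))))))))) (branch (ref 0) (move 494 (branch (move 462 (leaf 461 6)) (move 588 (branch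 (move 620 (leaf 492 5)) (move 590 (branch (move 622 (leaf 493 4)) (move 555 (branch (move 591 (branch (move 556 (leaf 555 3)) (move 560 (branch (move 559 (leaf 556 2)) (move 592 (branch (move 561 (leaf 557 2)) (move 624 (branch (move 623 (leaf 588 0)) (move 625 (leaf 589 0)))))))))) (move 587 (branch (move 554 (leaf 554 3)) (move 618 (branch (move 619 (leaf 586 1)) (move 586 (branch (move 617 (leaf 585 1)) (move 523 (branch (move 491 (leaf 490 5)) (move 524 (branch (move 522 (leaf 490 2)) (move 495 (leaf 491 2)))))))))))))))))))))))))))
theorem a6p455 : a6e455.Valid :=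
  pos_of_chk [a6e454] (forall_cons a6p454 forall_nil) a6c455 a6e455 (by decide +kernel)

def a6e456 : Pos := ⟨1415235909637588294776852234189732072449752332085098055047956022243043306937961892335385012443504900579800459275446664784205050422003652661196936747290814374342045990912, 149502054193052752484230343552719028059387388014564667003924606764636661878318431306593353716353493613757924874177951352692394530784822674059023251612180984020708213461671104152549998931229334831104, 7⟩
def a6c456 : Cert := (move 559 (branch (move 524 (branch (move 523 (leaf 523 0)) (move 560 (leaf 524 3)))) (branch (move 560 (branch (move 561 (leaf 525 3)) (move 592 (branch (move 593 (leaf 557 0)) (move 591 (branch (move 556 (leaf 556 0)) (move 528 (branch (move 529 (leaf 525 2)) (move 623 (branch (move 496 (leaf 495 5)) (move 655 (leaf 527 6)))))))))))) (move 524 (branch (move 523 (leaf 523 0)) (move 556 (branch (move 555 (branch (move 554 (leaf 522 2)) (move 587 (branch (move 586 (leaf 554 1)) (move 588 (leaf 555 1)))))) (move 591 (branch (move 592 (leaf 556 0)) (move 494 (branch (move 462 (leaf 462 4)) (move 623 (branch (move 590 (leaf 494 4)) (move 655 (leaf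 526 7)))))))))))))))
theorem a6p456 : a6e456.Valid :=
  pos_of_chk [] forall_nil a6c456 a6e456 (by decide +kernel)

def a6e457 : Pos := ⟨1415235909637588294776852234189732072449752332085098055047956022243043306937961892335385012443504900579800459275446664784205050422003652661196936747290814374342045990912, 289660229999039707830922170237287272248626013129271131199643646434728600671583013492341206317398267641486391816419482236982008936166280279838581747521282518202230697839510150843536918266349308870656, 11⟩
def a6c457 : Cert := (move 556 (branch (move 555 (branch (move 554 (leaf 522 2)) (move 590 (branch (move 591 (leaf 555 0)) (move 622 (branch (move 493 (leaf 493 7)) (move 654 (leaf 525 7)))))))) (branch (move 588 (branch (move 493 (branch (move 461 (leaf 460 5)) (move 620 (branch (move 524 (leaf 492 6)) (move 652 (leaf 524 6)))))) (branch (move 555 (branch (move 554 (leaf 522 2)) (move 523 (branch (move 522 (leaf 522 3)) (move 620 (branch (move 652 (leaf 524 6)) (move 491 (branch (move 459 (leaf 459 4)) (move 587 (leaf 491 4)))))))))) (move 555 (branch (move 554 (leaf 522 2)) (move 523 (branch (move 522 (leaf 522 3)) (move 587 (branch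 (move 586 (leaf 554 1)) (move 491 (branch (move 459 (leaf 459 4)) (move 490 (branch (move 524 (leaf 490 3)) (move 458 (leaf 458 7))))))))))))))) (branch (move 555 (branch (move 554 (leaf 522 2)) (move 523 (branch (move 522 (leaf 522 3)) (move 590 (branch (move 591 (leaf 555 0)) (move 622 (branch (move 654 (leaf 525 7)) (move 587 (branch (move 586 (leaf 554 1)) (move 623 (branch (move 655 (leaf 526 4)) (move 621 (branch (move 653 (leaf 525 5)) (move 620 (branch (move 588 (leaf 587 3)) (move 652 (branch (move 651 (leaf 619 1)) (move 619 (leaf 523 4)))))))))))))))))))) (move 590 (branch (move 622 (branch (move 654 (leaf 525 7)) (move 623 (branch (move 655 (leaf 526 4)) (move 494 (branch (move 591 (leaf 494 4)) (move 462 (branch (move 430 (leaf 429 5)) (move 463 (branch (move 431 (leaf 430 6)) (move 495 (leaf 462 6)))))))))))) (branch (move 493 (branch (move 461 (leaf 461 4)) (move 622 (leaf 493 7)))) (move 494 (branch (move 495 (branch (move 463 (leaf 462 6)) (move 524 (branch (move 523 (leaf 491 2)) (move 496 (branch (move 493 (leaf 492 1)) (move 497 (leaf 493 1)))))))) (branch (move 462 (branch (move 430 (leaf 429 5)) (move 463 (branch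 (move 431 (leaf 430 6)) (move 495 (leaf 462 6)))))) (move 461 (branch (move 493 (leaf 461 4)) (move 462 (branch (move 430 (leaf 429 5)) (move 429 (leaf 429 7))))))))))))))))
theorem a6p457 : a6e457.Valid :=
  pos_of_chk [] forall_nil a6c457 a6e457 (by decide +kernel)

def a6e458 : Pos := ⟨1415235909637588294827998962438109289168708421098029291801341054212466194273638319961887103012327940499851554468038917239687654861496778770715956380820273640800304234496, 1013065324846613311822781579490941030027069025308395275371090224852809280768627041047555857660583261377785017916661571802273501068912186830761450041627097443041923582016947748864, 14⟩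
def a6c458 : Cert := (move 496 (branch (move 495 (branch (move 497 (leaf 493 1)) (move 524 (branch (move 493 (leaf 492 1)) (move 523 (leaf 491 2)))))) (branch (move 462 (branch (move 430 (leaf 429 5)) (move 461 (branch (move 429 (leaf 429 7)) (move 463 (branch (move 431 (leaf 430 6)) (move 464 (branch (move 497 (leaf 461 0)) (move 493 (branch (move 465 (leaf 461 1)) (move 460 (branch (move 428 (leaf 428 7)) (move 459 (branch (move 458 (leaf 458 0)) (move 556 (branch (move 588 (leaf 460 5)) (move 555 (branch (move 554 (leaf 522 2)) (move 523 (branch (move 522 (leaf 522 3)) (move 491 (branch (move 490 (leaf 458 1)) (move 427 (branch (move 426 (leaf 426 3)) (move 524 (leaf 427 4)))))))))))))))))))))))))) (branch (move 462 (branch (move 430 (leaf 429 5)) (move 461 (branch (move 429 (leaf 429 7)) (move 463 (branch (move 431 (leaf 430 6)) (move 495 (branch (move 460 (leaf 460 0)) (move 524 (branch (move 493 (leaf 492 1)) (move 523 (leaf 491 2)))))))))))) (move 462 (branch (move 430 (leaf 429 5)) (move 495 (branch (move 497 (leaf 493 1)) (move 463 (branch (move 431 (leaf 430 6)) (move 461 (branch (move 460 (leaf 460 0)) (move 429 (leaf 429 7))))))))))))))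
theorem a6p458 : a6e458.Valid :=
  pos_of_chk [] forall_nil a6c458 a6e458 (by decide +kernel)

def a6e459 : Pos := ⟨1415235909637588294776852234189732072449752332085098055047956022243043306937961892335385012443504900579800459275446664784205050422003652661196936747290814374342045990912, 17404329769894196109044706732481446210666742762632875058455810973131330352178437280607772887152559404563536061434365043400115588672243506974548848425973117615034619175910445896851500564480, 15⟩
def a6c459 : Cert := (move 494 (branch (ref 0) (branch (move 495 (branch (move 496 (branch (move 497 (leaf 493 1)) (move 493 (branch (move 524 (leaf 492 1)) (move 461 (branch (move 460 (leaf 460 3)) (move 429 (leaf 429 4)))))))) (branch (move 590 (branch (move 463 (leaf 462 6)) (move 493 (branch (move 461 (leaf 461 4)) (move 622 (leaf 493 7)))))) (move 524 (branch (move 523 (leaf 491 2)) (move 560 (branch (move 559 (leaf 524 3)) (move 463 (branch (move 590 (leaf 462 6)) (move 496 (branch (move 497 (leaf 493 1)) (move 528 (branch (move 592 (leaf 463 7)) (move 431 (branch (move 399 (leaf 399 4)) (move 464 (leaf 431 7))))))))))))))))) (branch (move 462 (branch (move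 430 (leaf 429 5)) (move 463 (branch (move 431 (leaf 430 6)) (move 495 (branch (move 590 (leaf 462 6)) (move 461 (branch (move 429 (leaf 429 7)) (move 496 (branch (move 460 (leaf 460 0)) (move 497 (leaf 493 1)))))))))))) (branch (move 462 (branch (move 430 (leaf 429 5)) (move 463 (branch (move 431 (leaf 430 6)) (move 495 (branch (move 590 (leaf 462 6)) (move 524 (branch (move 523 (leaf 491 2)) (move 496 (branch (move 493 (leaf 492 1)) (move 497 (leaf 493 1)))))))))))) (branch (move 462 (branch (move 430 (leaf 429 5)) (move 461 (branch (move 429 (leaf 429 7)) (move 493 (branch (move 590 (leaf 461 4)) (move 460 (branch (move 428 (leaf 428 7)) (move 459 (branch (move 458 (leaf 458 0)) (move 495 (leaf 459 0)))))))))))) (move 462 (branch (move 430 (leaf 429 5)) (move 463 (branch (move 431 (leaf 430 6)) (move 461 (branch (move 429 (leaf 429 7)) (move 493 (branch (move 590 (leaf 461 4)) (move 460 (branch (move 428 (leaf 428 7)) (move 556 (branch (move 588 (leaf 460 5)) (move 555 (branch (move 554 (leaf 522 2)) (move 523 (branch (move 522 (leaf 522 3)) (move 524 (branch (move 559 (leaf 523 0)) (move 459 (branch (move 458 (leaf 458 0)) (move 491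 (branch (move 490 (leaf 458 1)) (move 427 (leaf 427 4))))))))))))))))))))))))))))))
theorem a6p459 : a6e459.Valid :=
  pos_of_chk [a6e458] (forall_cons a6p458 forall_nil) a6c459 a6e459 (by decide +kernel)

def a6e460 : Pos := ⟨471745303432202956716463588942664849720522026980987947953904447181637266339924679313853331149090208694433365517755703559262404264522454503056578184432640363429697159168, 289660229999039707879549305824263767576910155154297909747475688405927606193753518053297809926835153353767408005144407951312513924441412001850116259798276214002295492944301457014671873886365188882432, 16⟩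
def a6c460 : Cert := (move 558 (branch (ref 0) (branch (move 590 (branch (move 622 (branch (move 654 (leaf 525 7)) (move 623 (branch (move 655 (leaf 526 4)) (move 591 (branch (move 494 (leaf 494 4)) (move 621 (branch (move 653 (leaf 525 5)) (move 592 (branch (move 593 (leaf 589 1)) (move 620 (leaf 588 2)))))))))))) (branch (move 493 (branch (move 461 (leaf 461 4)) (move 622 (leaf 493 7)))) (move 494 (branch (move 591 (branch (move 623 (leaf 494 4)) (move 556 (branch (move 555 (leaf 555 0)) (move 592 (branch (move 559 (leaf 556 0)) (move 593 (leaf 557 3)))))))) (move 461 (branch (move 493 (leaf 461 4)) (move 462 (branch (move 430 (leaf 429 5)) (move 429 (leaf 429 7))))))))))) (branch (move 524 (branch (move 559 (branch (move 523 (leaf 523 0)) (move 560 (leaf 524 3)))) (move 590 (branch (move 622 (branch (move 654 (leaf 525 7)) (move 623 (branch (move 655 (leaf 526 4)) (move 591 (branch (move 494 (leaf 494 4)) (move 621 (branch (move 653 (leaf 525 5)) (move 592 (branch (move 593 (leaf 589 1)) (move 620 (leaf 588 2)))))))))))) (branch (move 493 (branch (move 461 (leaf 461 4)) (move 622 (leaf 493 7)))) (move 494 (branch (move 462 (branch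 (move 430 (leaf 429 5)) (move 463 (branch (move 431 (leaf 430 6)) (move 495 (leaf 462 6)))))) (branch (move 493 (branch (move 461 (leaf 461 4)) (move 495 (branch (move 496 (leaf 492 1)) (move 463 (leaf 462 6)))))) (move 461 (branch (move 493 (leaf 461 4)) (move 462 (branch (move 430 (leaf 429 5)) (move 429 (leaf 429 7)))))))))))))) (branch (ref 1) (branch (move 559 (branch (move 524 (branch (move 523 (leaf 523 0)) (move 560 (leaf 524 3)))) (branch (move 556 (branch (move 523 (branch (move 524 (leaf 523 0)) (move 555 (branch (move 554 (leaf 522 2)) (move 522 (leaf 522 3)))))) (branch (move 588 (branch (move 587 (leaf 555 1)) (move 493 (branch (move 461 (leaf 460 5)) (move 620 (branch (move 524 (leaf 492 6)) (move 652 (leaf 524 6)))))))) (move 555 (branch (move 554 (leaf 522 2)) (move 587 (branch (move 586 (leaf 554 1)) (move 588 (leaf 555 1))))))))) (move 560 (branch (move 561 (leaf 525 3)) (move 592 (branch (move 593 (leaf 557 0)) (move 556 (branch (move 591 (leaf 556 0)) (move 555 (branch (move 554 (leaf 522 2)) (move 587 (branch (move 586 (leaf 554 1)) (move 588 (leaf 555 1))))))))))))))) (ref 2)))))))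
theorem a6p460 : a6e460.Valid :=
  pos_of_chk [a6e456, a6e457, a6e459] (forall_cons a6p456 (forall_cons a6p457 (forall_cons a6p459 forall_nil))) a6c460 a6e460 (by decide +kernel)

def a6e461 : Pos := ⟨1415235909637588294776852234189732072449752332085098055047956022243043306937961892335385012443504900579800459275446664784205050422003652661196936747290814374342045990912, 65407148726864908997431654797977918362439818035660401459073948313147053397406900133710100408929065249495677979534611689873242189553873671152610526476497518717073113552587216771593322484767385452544, 10⟩
def a6c461 : Cert := (move 559 (branch (move 560 (branch (move 561 (leaf 525 3)) (move 592 (branch (move 593 (leaf 557 0)) (move 556 (branch (move 591 (leaf 556 0)) (move 588 (branch (move 587 (leaf 555 1)) (move 589 (leaf 556 1)))))))))) (branch (move 524 (branch (move 523 (leaf 523 0)) (move 560 (leaf 524 3)))) (move 556 (branch (move 523 (branch (move 524 (leaf 523 0)) (move 555 (branch (move 554 (leaf 522 2)) (move 522 (leaf 522 3)))))) (branch (move 555 (branch (move 554 (leaf 522 2)) (move 591 (branch (move 590 (leaf 555 0)) (move 592 (leaf 556 0)))))) (move 524 (branch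 (move 523 (leaf 523 0)) (move 588 (branch (move 587 (leaf 555 1)) (move 620 (branch (move 652 (leaf 524 6)) (move 621 (branch (move 653 (leaf 524 4)) (move 591 (branch (move 592 (leaf 556 0)) (move 619 (branch (move 651 (leaf 523 5)) (move 590 (branch (move 589 (leaf 587 1)) (move 622 (leaf 587 2))))))))))))))))))))))
theorem a6p461 : a6e461.Valid :=
  pos_of_chk [] forall_nil a6c461 a6e461 (by decide +kernel)

def a6e462 : Pos := ⟨1415235909637588294827998962438109289168708421098029291801341054212466194273638319961887103012327940499851554468038917239687654861496778770715956380820273640800304234496, 261628594837842316768320689305157892090544493902848810591002144385019308446464023715680742968861445974913774692090968227617301081085860023982010797736962699617278233725506493302221325529216490405888, 6⟩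
def a6c462 : Cert := (move 524 (branch (move 590 (branch (move 622 (branch (move 654 (leaf 525 7)) (move 623 (branch (move 591 (leaf 494 4)) (move 655 (leaf 526 4)))))) (branch (move 589 (branch (move 621 (leaf 493 5)) (move 591 (branch (move 623 (leaf 494 4)) (move 556 (branch (move 555 (leaf 555 0)) (move 592 (leaf 556 3)))))))) (move 621 (branch (move 589 (leaf 493 5)) (move 622 (branch (move 653 (leaf 525 5)) (move 654 (leaf 525 7))))))))) (move 523 (branch (move 522 (leaf 522 0)) (move 495 (leaf 491 2))))))
theorem a6p462 : a6e462.Valid :=
  pos_of_chk [] forall_nil a6c462 a6e462 (by decide +kernel)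

def a6e463 : Pos := ⟨1415235909637588294776852234189732072449752332085098055047956022243043306937961892335385012443504900579800459275446664784205050422003652661196936747290814374342045990912, 280316351611973910822802748605598441895238975869542480460628361522572943678887059587603509159516685788600542175363948581269939729177950883011498135914543343983928816602923699574156981745356487262208, 9⟩
def a6c463 : Cert := (move 556 (branch (move 555 (branch (move 554 (leaf 522 2)) (move 587 (branch (move 586 (leaf 554 1)) (move 588 (branch (move 559 (leaf 555 1)) (move 523 (branch (move 522 (leaf 522 3)) (move 620 (branch (move 491 (leaf 491 4)) (move 652 (leaf 524 6)))))))))))) (branch (move 555 (branch (move 554 (leaf 522 2)) (move 590 (branch (move 591 (leaf 555 0)) (move 622 (branch (move 654 (leaf 525 7)) (move 621 (branch (move 653 (leaf 525 5)) (move 494 (branch (move 589 (leaf 493 5)) (move 462 (branch (move 430 (leaf 429 5)) (move 463 (branch (move 431 (leaf 430 6)) (move 495 (leaf 462 6)))))))))))))))) (move 559 (branch (move 591 (branch (move 592 (leaf 556 0)) (move 494 (branch (move 462 (leaf 462 4)) (move 623 (branch (move 590 (leaf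 494 4)) (move 655 (leaf 526 7)))))))) (move 560 (branch (move 561 (leaf 525 3)) (move 588 (branch (move 587 (leaf 555 1)) (move 589 (leaf 556 1)))))))))))
theorem a6p463 : a6e463.Valid :=
  pos_of_chk [] forall_nil a6c463 a6e463 (by decide +kernel)

def a6e464 : Pos := ⟨1415235909637588294776852234189732072449752332085098055047956022243043306937961892335385012443504900579800459275446664784205050422003652661196936747290814374342045990912, 261628594837842316800738779699895709088471055569059949103062274277802961402703170858182852241630850490416231835560171124694708508126018785761350334052746182538073912577486608470532191988166384680960, 8⟩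
def a6c464 : Cert := (move 524 (branch (move 494 (branch (move 462 (branch (move 430 (leaf 429 5)) (move 463 (branch (move 431 (leaf 430 6)) (move 590 (branch (move 495 (leaf 462 6)) (move 622 (branch (move 654 (leaf 525 7)) (move 623 (branch (move 591 (leaf 494 4)) (move 655 (leaf 526 4)))))))))))) (branch (move 589 (branch (move 462 (leaf 461 5)) (move 621 (leaf 493 6)))) (move 590 (branch (move 622 (branch (move 654 (leaf 525 7)) (move 623 (branch (move 591 (leaf 494 4)) (move 655 (leaf 526 4)))))) (branch (move 621 (branch (move 589 (leaf 493 5)) (move 622 (branch (move 653 (leaf 525 5)) (move 654 (leaf 525 7)))))) (move 589 (branch (move 621 (leaf 493 5)) (move 560 (branch (move 559 (leaf 524 3)) (move 591 (branch (move 623 (leaf 494 4)) (move 592 (branch (move 561 (leaf 557 2)) (move 593 (leaf 557 3)))))))))))))))) (branch (move 523 (branch (move 522 (leaf 522 0)) (move 494 (branch (move 495 (leaf 491 2)) (move 462 (branch (move 430 (leaf 429 5)) (move 589 (leaf 461 5)))))))) (move 523 (branch (move 522 (leaf 522 0)) (move 559 (leaf 523 0)))))))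
theorem a6p464 : a6e464.Valid :=
  pos_of_chk [] forall_nil a6c464 a6e464 (by decide +kernel)

def a6e465 : Pos := ⟨1415235909637588294776852234189732072449752332085098055047956022243043306937961892335385012443504900579800459275446664784205050422003652661196936747290814374342045990912, 261628594837842316770093553636184942040412218504082220042955060103915959489170533516101302193664124382551876500064447052557169697612794433247484818509566003163930366041929744401367953451881429204992, 9⟩
def a6c465 : Cert := (move 556 (branch (move 555 (branch (move 554 (leaf 522 2)) (move 590 (branch (move 591 (leaf 555 0)) (move 622 (branch (move 654 (leaf 525 7)) (move 621 (branch (move 653 (leaf 525 5)) (move 494 (branch (move 589 (leaf 493 5)) (move 462 (branch (move 430 (leaf 429 5)) (move 463 (branch (move 431 (leaf 430 6)) (move 495 (leaf 462 6)))))))))))))))) (branch (move 559 (branch (move 591 (branch (move 592 (leaf 556 0)) (move 494 (branch (move 462 (leaf 462 4)) (move 623 (branch (move 590 (leaf 494 4)) (move 655 (leaf 526 7)))))))) (move 560 (branch (move 561 (leaf 525 3)) (move 588 (branch (move 587 (leaf 555 1)) (move 589 (leaf 556 1))))))))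 (move 555 (branch (move 554 (leaf 522 2)) (move 587 (branch (move 586 (leaf 554 1)) (move 559 (branch (move 588 (leaf 555 1)) (move 560 (branch (move 524 (leaf 524 3)) (move 561 (leaf 525 3)))))))))))))
theorem a6p465 : a6e465.Valid :=
  pos_of_chk [] forall_nil a6c465 a6e465 (by decide +kernel)

def a6e466 : Pos := ⟨471745303432202956716463588942664849720522026980987947953904447181637266339924679313853331149090208694433365517755703559262404264522454503056578184432640363429697159168, 289660229999039707881575436473131439919933791806462089493458637076891760959362390828737859158504936369892023354663553814301893339184889950442040386125495436745976303553894809322102640824561237491712, 14⟩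
def a6c466 : Cert := (move 558 (branch (ref 0) (branch (move 559 (branch (move 560 (branch (move 561 (leaf 525 3)) (move 592 (branch (move 593 (leaf 557 0)) (move 556 (branch (move 591 (leaf 556 0)) (move 588 (branch (move 587 (leaf 555 1)) (move 589 (leaf 556 1)))))))))) (branch (move 524 (branch (move 523 (leaf 523 0)) (move 560 (leaf 524 3)))) (move 556 (branch (move 523 (branch (move 524 (leaf 523 0)) (move 555 (branch (move 554 (leaf 522 2)) (move 522 (leaf 522 3)))))) (branch (move 555 (branch (move 554 (leaf 522 2)) (move 587 (branch (move 586 (leaf 554 1)) (move 588 (leaf 555 1)))))) (move 524 (branch (move 523 (leaf 523 0)) (move 591 (branch (move 592 (leaf 556 0)) (move 494 (branch (move 462 (leaf 462 4)) (move 621 (branch (move 589 (leaf 493 6)) (move 588 (branch (move 587 (leaf 555 1)) (move 620 (branch (move 653 (leaf 524 4)) (move 652 (leaf 524 6)))))))))))))))))))) (branch (ref 1) (branch (move 494 (branch (move 589 (branch (move 462 (leaf 461 5)) (move 621 (leaf 493 6)))) (branch (move 462 (branch (move 430 (leaf 429 5)) (move 463 (branch (move 431 (leaf 430 6)) (move 495 (branch (move 590 (leaf 462 6)) (move 461 (branch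 (move 429 (leaf 429 7)) (move 496 (branch (move 460 (leaf 460 0)) (move 497 (leaf 493 1)))))))))))) (ref 2)))) (branch (ref 3) (branch (ref 4) (branch (ref 5) (move 559 (branch (move 524 (branch (move 523 (leaf 523 0)) (move 560 (leaf 524 3)))) (branch (move 560 (branch (move 561 (leaf 525 3)) (move 589 (branch (move 588 (leaf 556 1)) (move 494 (branch (move 462 (leaf 461 5)) (move 621 (leaf 493 6)))))))) (move 556 (branch (move 523 (branch (move 524 (leaf 523 0)) (move 555 (branch (move 554 (leaf 522 2)) (move 522 (leaf 522 3)))))) (branch (move 555 (branch (move 554 (leaf 522 2)) (move 587 (branch (move 586 (leaf 554 1)) (move 588 (leaf 555 1)))))) (move 524 (branch (move 523 (leaf 523 0)) (move 588 (branch (move 587 (leaf 555 1)) (move 620 (branch (move 652 (leaf 524 6)) (move 621 (branch (move 653 (leaf 524 4)) (move 494 (branch (move 589 (leaf 493 6)) (move 462 (branch (move 430 (leaf 429 5)) (move 463 (branch (move 431 (leaf 430 6)) (move 495 (branch (move 590 (leaf 462 6)) (move 461 (branch (move 429 (leaf 429 7)) (move 496 (branch (move 460 (leaf 460 0)) (move 497 (leaf 493 1))))))))))))))))))))))))))))))))))))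
theorem a6p466 : a6e466.Valid :=
  pos_of_chk [a6e461, a6e456, a6e462, a6e463, a6e464, a6e465] (forall_cons a6p461 (forall_cons a6p456 (forall_cons a6p462 (forall_cons a6p463 (forall_cons a6p464 (forall_cons a6p465 forall_nil)))))) a6c466 a6e466 (by decide +kernel)

def a6e467 : Pos := ⟨2026130649339417646455839608909413369710460861557649419556992503466918515254346322199156636807556355703874333016357578985722085920303310176576592605651287016005483040871840481280, 401316520939863789853689063256852007811468398080031145238228636440306076666398121019685690845746082262012615054862538887527778826840209129934836227753091867221076151899856711674197390184747206112432151855104, 8⟩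
def a6c467 : Cert := (move 620 (branch (move 493 (branch (move 588 (leaf 492 5)) (move 590 (branch (move 622 (leaf 493 4)) (move 461 (branch (move 558 (leaf 461 4)) (move 430 (branch (move 462 (leaf 429 6)) (move 429 (branch (move 398 (leaf 397 6)) (move 428 (branch (move 396 (leaf 396 7)) (move 460 (leaf 428 7)))))))))))))) (branch (move 621 (branch (move 652 (leaf 524 5)) (move 653 (branch (move 558 (leaf 525 6)) (move 654 (branch (move 622 (leaf 525 4)) (move 686 (leaf 557 4)))))))) (move 588 (branch (move 493 (leaf 492 5)) (move 652 (branch (move 621 (leaf 524 5)) (move 684 (leaf 556 6)))))))))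
theorem a6p467 : a6e467.Valid :=
  pos_of_chk [] forall_nil a6c467 a6e467 (by decide +kernel)

def a6e468 : Pos := ⟨1415235909637588294776852234189732072449752332085098055047956022243043306937961892335385012443504900579800459275446664784205050422003652661196936747290814374342045990912, 168189810967184346532887277224397183228194331266247583593761053739536939688471563924665021589571900427313320530407247682186884355270519624823754674668518657544989905374026588436856210484906543808512, 7⟩
def a6c468 : Cert := (move 559 (branch (move 524 (branch (move 523 (leaf 523 0)) (move 560 (leaf 524 3)))) (branch (move 560 (branch (move 561 (leaf 525 3)) (move 592 (branch (move 593 (leaf 557 0)) (move 591 (branch (move 556 (leaf 556 0)) (move 528 (branch (move 529 (leaf 525 2)) (move 623 (branch (move 496 (leaf 495 5)) (move 655 (leaf 527 6)))))))))))) (move 556 (branch (move 523 (branch (move 524 (leaf 523 0)) (move 555 (branch (move 554 (leaf 522 2)) (move 522 (leaf 522 3)))))) (branch (move 588 (branch (move 587 (leaf 555 1)) (move 493 (branch (move 461 (leaf 460 5)) (move 620 (branch (move 524 (leaf 492 6)) (move 652 (leaf 524 6)))))))) (move 555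 (branch (move 554 (leaf 522 2)) (move 587 (branch (move 586 (leaf 554 1)) (move 588 (leaf 555 1))))))))))))
theorem a6p468 : a6e468.Valid :=
  pos_of_chk [] forall_nil a6c468 a6e468 (by decide +kernel)

def a6e469 : Pos := ⟨2026130649339417646455839608909413369710460861557649419556992503466918515254346322199156636807556355703874333016357578985722085920303310176576592605651287016005483040871840481280, 321053216778053891401544141774234730812183853989547326093116456261392709606381034417874147644580413952457896434910764190074224241512648291453044679668486612645603302001955295521259647744073822623896866652160, 7⟩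
def a6c469 : Cert := (move 621 (branch (move 620 (branch (move 652 (leaf 524 5)) (move 588 (branch (move 493 (leaf 492 5)) (move 622 (branch (move 654 (leaf 525 4)) (move 587 (branch (move 586 (leaf 586 0)) (move 623 (leaf 587 3)))))))))) (branch (move 653 (branch (move 558 (leaf 525 6)) (move 654 (branch (move 622 (leaf 525 4)) (move 686 (leaf 557 4)))))) (move 620 (branch (move 652 (leaf 524 5)) (move 588 (branch (move 493 (leaf 492 5)) (move 558 (branch (move 653 (leaf 525 6)) (move 587 (branch (move 586 (leaf 554 2)) (move 559 (branch (move 556 (leaf 555 1)) (move 560 (leaf 556 1)))))))))))))))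
theorem a6p469 : a6e469.Valid :=
  pos_of_chk [] forall_nil a6c469 a6e469 (by decide +kernel)

def a6e470 : Pos := ⟨2026130649339417646483298799549935808570388464753974992426070244667491736891924176035898809541146979912364571579003397205631271165869233608725080557650153591255779154036300709888, 18687756775219364663897431474086468282330532552028259826836646484789172734539315293917600360475497398672751166068923275405895925671856312621568863547076408514662496838334409243987420205705594929152, 11⟩
def a6c470 : Cert := (move 524 (branch (move 587 (branch (move 555 (branch (move 554 (leaf 522 1)) (move 491 (branch (move 490 (leaf 490 3)) (move 588 (branch (move 620 (leaf 491 4)) (move 556 (branch (move 459 (leaf 459 4)) (move 586 (branch (move 585 (leaf 553 2)) (move 618 (leaf 490 5)))))))))))) (branch (move 558 (branch (move 559 (leaf 523 0)) (move 588 (branch (move 586 (leaf 554 2)) (move 620 (branch (move 493 (leaf 492 5)) (move 556 (branch (move 652 (leaf 524 6)) (move 491 (leaf 491 7)))))))))) (branch (move 558 (branch (move 559 (leaf 523 0)) (move 555 (branch (move 554 (leaf 522 1)) (move 586 (branch (move 556 (leaf 554 1)) (move 588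 (leaf 554 2)))))))) (branch (move 555 (branch (move 554 (leaf 522 1)) (move 558 (branch (move 559 (leaf 523 0)) (move 491 (branch (move 490 (leaf 490 3)) (move 586 (branch (move 556 (leaf 554 1)) (move 618 (leaf 490 5)))))))))) (branch (move 558 (branch (move 559 (leaf 523 0)) (move 588 (branch (move 586 (leaf 554 2)) (move 620 (branch (move 493 (leaf 492 5)) (move 555 (branch (move 554 (leaf 522 1)) (move 491 (leaf 491 4)))))))))) (move 555 (branch (move 554 (leaf 522 1)) (move 491 (branch (move 490 (leaf 490 3)) (move 588 (branch (move 620 (leaf 491 4)) (move 558 (branch (move 559 (leaf 523 0)) (move 459 (branch (move 556 (leaf 459 4)) (move 428 (branch (move 460 (leaf 427 6)) (move 427 (branch (move 396 (leaf 395 6)) (move 426 (branch (move 394 (leaf 394 7)) (move 458 (leaf 426 7)))))))))))))))))))))))) (branch (move 558 (branch (move 559 (leaf 523 0)) (move 494 (branch (move 495 (leaf 491 2)) (move 462 (leaf 461 5)))))) (move 494 (branch (move 495 (leaf 491 2)) (move 462 (branch (move 430 (leaf 429 5)) (move 493 (leaf 461 6)))))))))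
theorem a6p470 : a6e470.Valid :=
  pos_of_chk [] forall_nil a6c470 a6e470 (by decide +kernel)

def a6e471 : Pos := ⟨471745303459662147356986027802592452916847599850065689154477668819215120176666852047443955357580447257079183737664888804828327696670942455055444759682936476594157387776, 168189810967184346532887277225340673834372257413648269777049097639970806275679367016141762022861770001296986400785424487597812371574996783876426198889642252476438926712099915532259025701190974308352, 9⟩
def a6c471 : Cert := (move 555 (branch (move 556 (branch (move 554 (leaf 522 2)) (move 558 (branch (move 522 (leaf 522 3)) (move 587 (branch (move 586 (leaf 554 1)) (move 588 (branch (move 559 (leaf 555 1)) (move 620 (branch (move 491 (leaf 491 4)) (move 652 (leaf 524 6)))))))))))) (branch (move 558 (branch (move 556 (branch (move 522 (leaf 522 3)) (move 587 (branch (move 586 (leaf 554 1)) (move 588 (branch (move 559 (leaf 555 1)) (move 620 (branch (move 491 (leaf 491 4)) (move 652 (leaf 524 6)))))))))) (branch (move 522 (branch (move 524 (leaf 522 0)) (move 556 (leaf 522 3)))) (branch (move 524 (branch (move 522 (leaf 522 0)) (move 559 (leaf 523 0)))) (move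 559 (branch (move 524 (leaf 523 0)) (move 560 (branch (move 561 (leaf 525 3)) (move 592 (branch (move 593 (leaf 557 0)) (move 591 (branch (move 556 (leaf 556 0)) (move 528 (branch (move 529 (leaf 525 2)) (move 623 (branch (move 496 (leaf 495 5)) (move 655 (leaf 527 6)))))))))))))))))) (branch (move 524 (branch (move 554 (leaf 522 1)) (move 558 (branch (move 522 (leaf 522 0)) (move 559 (leaf 523 0)))))) (move 554 (branch (move 524 (leaf 522 1)) (move 556 (leaf 522 2))))))))
theorem a6p471 : a6e471.Valid :=
  pos_of_chk [] forall_nil a6c471 a6e471 (by decide +kernel)

end Crest.Agent.SN
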