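import Crest.Agent.Lib_SN_A6x3

set_option autoImplicit false
set_option linter.all false
set_option maxRecDepth 1000000

namespace Crest.Agent.SN
open Cert

def a6e472 : Pos := ⟨2026130649339417646483298799549935808588251253242263827368210426570147336328199266116150338190624883047427962723678264569295742428210686995946380288645751180150325523661134495744, 18687756775219364720502456488148951639976816793972112561266381060789403714543831963315801448200615153422443521256491381434265370799856255707288381133634265797106622091776721666228664034273483816960, 13⟩
def a6c472 : Cert := (move 459 (branch (move 460 (branch (move 426 (branch (move 427 (leaf 426 3)) (move 458 (branch (move 425 (leaf 425 3)) (move 489 (branch (move 490 (leaf 457 1)) (move 457 (branch (move 488 (leaf 456 1)) (move 429 (branch (move 428 (leaf 425 2)) (move 430 (leaf 426 2)))))))))))) (branch (move 430 (branch (move 431 (leaf 427 2)) (move 458 (branch (move 429 (leaf 426 2)) (move 489 (branch (move 490 (leaf 457 1)) (move 457 (branch (move 488 (leaf 456 1)) (move 425 (branch (move 424 (leaf 424 3)) (move 426 (leaf 425 3)))))))))))) (branch (move 427 (branch (move 426 (leaf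 426 3)) (move 463 (branch (move 428 (leaf 427 3)) (move 496 (branch (move 495 (leaf 460 0)) (move 464 (branch (move 497 (leaf 461 0)) (move 432 (branch (move 431 (leaf 428 2)) (move 433 (leaf 429 2)))))))))))) (move 431 (branch (move 430 (leaf 427 2)) (move 463 (branch (move 432 (leaf 428 2)) (move 496 (branch (move 495 (leaf 460 0)) (move 464 (branch (move 497 (leaf 461 0)) (move 428 (branch (move 427 (leaf 427 3)) (move 429 (leaf 428 3)))))))))))))))) (branch (move 460 (branch (move 491 (branch (move 490 (leaf 458 1)) (move 555 (branch (move 428 (leaf 427 6)) (move 556 (branch (move 554 (leaf 522 2)) (move 588 (leaf 459 4)))))))) (branch (move 430 (branch (move 431 (leaf 427 2)) (move 458 (branch (move 429 (leaf 426 2)) (move 489 (branch (move 490 (leaf 457 1)) (move 457 (branch (move 488 (leaf 456 1)) (move 425 (branch (move 424 (leaf 424 3)) (move 426 (leaf 425 3)))))))))))) (move 430 (branch (move 431 (leaf 427 2)) (move 458 (branch (move 429 (leaf 426 2)) (move 426 (branch (move 425 (leaf 425 3)) (move 555 (branch (move 491 (leaf 426 7)) (move 556 (branch (move 554 (leaf 522 2)) (move 558 (branch (move 522 (leaf 522 3)) (move 587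 (branch (move 586 (leaf 554 1)) (move 559 (branch (move 588 (leaf 555 1)) (move 560 (branch (move 561 (leaf 525 3)) (move 592 (branch (move 591 (leaf 556 0)) (move 593 (leaf 557 0))))))))))))))))))))))))) (branch (move 460 (branch (move 491 (branch (move 490 (leaf 458 1)) (move 555 (branch (move 428 (leaf 427 6)) (move 556 (branch (move 554 (leaf 522 2)) (move 588 (leaf 459 4)))))))) (branch (move 430 (branch (move 431 (leaf 427 2)) (move 458 (branch (move 429 (leaf 426 2)) (move 490 (branch (move 489 (leaf 457 1)) (move 491 (leaf 458 1)))))))) (move 431 (branch (move 430 (leaf 427 2)) (move 463 (branch (move 432 (leaf 428 2)) (move 496 (branch (move 495 (leaf 460 0)) (move 464 (branch (move 497 (leaf 461 0)) (move 428 (branch (move 427 (leaf 427 3)) (move 429 (leaf 428 3))))))))))))))) (branch (move 460 (branch (move 491 (branch (move 490 (leaf 458 1)) (move 555 (branch (move 428 (leaf 427 6)) (move 556 (branch (move 554 (leaf 522 2)) (move 588 (leaf 459 4)))))))) (branch (move 491 (branch (move 490 (leaf 458 1)) (move 427 (branch (move 426 (leaf 426 3)) (move 554 (branch (move 522 (leaf 426 5)) (move 555 (branch (move 556 (leaf 522 2))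 (move 586 (leaf 458 5)))))))))) (move 427 (branch (move 426 (leaf 426 3)) (move 463 (branch (move 428 (leaf 427 3)) (move 496 (branch (move 495 (leaf 460 0)) (move 464 (branch (move 497 (leaf 461 0)) (move 432 (branch (move 431 (leaf 428 2)) (move 433 (leaf 429 2))))))))))))))) (branch (move 460 (branch (move 430 (branch (move 431 (leaf 427 2)) (move 458 (branch (move 429 (leaf 426 2)) (move 426 (branch (move 425 (leaf 425 3)) (move 427 (leaf 426 3)))))))) (branch (move 430 (branch (move 431 (leaf 427 2)) (move 458 (branch (move 429 (leaf 426 2)) (move 490 (branch (move 489 (leaf 457 1)) (move 491 (leaf 458 1)))))))) (move 491 (branch (move 490 (leaf 458 1)) (move 427 (branch (move 426 (leaf 426 3)) (move 554 (branch (move 522 (leaf 426 5)) (move 555 (branch (move 556 (leaf 522 2)) (move 586 (leaf 458 5))))))))))))) (move 555 (branch (move 491 (branch (move 426 (branch (move 458 (leaf 426 7)) (move 427 (branch (move 394 (leaf 394 7)) (move 428 (branch (move 429 (leaf 426 0)) (move 396 (leaf 395 6)))))))) (move 588 (branch (move 556 (leaf 459 4)) (move 587 (branch (move 620 (leaf 491 4)) (move 586 (branch (move 558 (leaf 554 2)) (move 618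 (leaf 490 5)))))))))) (branch (move 556 (branch (move 554 (leaf 522 2)) (move 558 (branch (move 522 (leaf 522 3)) (move 587 (branch (move 586 (leaf 554 1)) (move 559 (branch (move 588 (leaf 555 1)) (move 560 (branch (move 561 (leaf 525 3)) (move 592 (branch (move 591 (leaf 556 0)) (move 593 (leaf 557 0)))))))))))))) (branch (move 554 (branch (move 556 (leaf 522 2)) (move 491 (branch (move 586 (leaf 458 5)) (move 427 (branch (move 522 (leaf 426 5)) (move 426 (branch (move 394 (leaf 394 7)) (move 458 (leaf 426 7)))))))))) (branch (move 556 (branch (move 554 (leaf 522 2)) (move 588 (branch (move 491 (leaf 459 4)) (move 620 (branch (move 652 (leaf 524 6)) (move 558 (branch (move 522 (leaf 522 3)) (move 559 (branch (move 587 (leaf 555 1)) (move 560 (leaf 556 1)))))))))))) (move 491 (branch (move 426 (branch (move 458 (leaf 426 7)) (move 427 (branch (move 394 (leaf 394 7)) (move 428 (branch (move 429 (leaf 426 0)) (move 396 (leaf 395 6)))))))) (move 586 (branch (move 554 (leaf 458 5)) (move 587 (branch (move 618 (leaf 490 5)) (move 588 (branch (move 558 (leaf 554 2)) (move 620 (leaf 491 4)))))))))))))))))))))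
theorem a6p472 : a6e472.Valid :=
  pos_of_chk [] forall_nil a6c472 a6e472 (by decide +kernel)

def a6e473 : Pos := ⟨2026130649339417646483298799549935808570388464753974992426070244667491736891924176035898809541146979912364571579003397205631271165869233608725080557650153591255779154036300709888, 18687756775219364720502456488148951639976816794048832653656809674356126683005369000348534595591024574506209691345722420422563321824607765859841231079199625843567610987050848705417399303585704968192, 15⟩
def a6c473 : Cert := (move 462 (branch (move 494 (branch (move 430 (leaf 429 5)) (move 558 (leaf 461 5)))) (branch (move 494 (branch (move 558 (leaf 461 5)) (move 493 (leaf 461 6)))) (branch (move 494 (branch (move 430 (leaf 429 5)) (move 493 (leaf 461 6)))) (move 461 (branch (move 493 (branch (move 428 (branch (move 460 (leaf 428 7)) (move 429 (branch (move 558 (leaf 429 4)) (move 396 (leaf 396 7)))))) (move 588 (branch (move 556 (leaf 460 5)) (move 620 (leaf 492 5)))))) (branch (move 493 (branch (move 430 (leaf 429 6)) (move 428 (branch (move 460 (leaf 428 7)) (move 429 (branch (move 558 (leaf 429 4)) (move 396 (leaf 396 7)))))))) (branch (move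 493 (branch (move 430 (leaf 429 6)) (move 588 (branch (move 556 (leaf 460 5)) (move 620 (leaf 492 5)))))) (ref 0)))))))))
theorem a6p473 : a6e473.Valid :=
  pos_of_chk [a6e472] (forall_cons a6p472 forall_nil) a6c473 a6e473 (by decide +kernel)

def a6e474 : Pos := ⟨471745303459662147356986027802592452916847599850065689154477668819215120176666852047443955357580447257079183737664888804828327696670942455055444759682936476594157387776, 18687756783921529544285735565619698487557088498775162809985679812831063619037181353280853449969559575242432383036628999372184008111599575335360935939651839915062514686413495415185247981103956885504, 12⟩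
def a6c474 : Cert := (move 494 (branch (move 462 (branch (move 430 (leaf 429 5)) (move 589 (branch (move 493 (leaf 461 6)) (move 621 (leaf 493 6)))))) (branch (move 524 (branch (move 495 (leaf 491 2)) (move 587 (branch (move 558 (branch (move 559 (leaf 523 0)) (move 589 (branch (move 621 (leaf 493 6)) (move 588 (branch (move 586 (leaf 554 2)) (move 620 (branch (move 493 (leaf 492 5)) (move 556 (branch (move 652 (leaf 524 6)) (move 491 (leaf 491 7)))))))))))) (branch (move 555 (branch (move 554 (leaf 522 1)) (move 491 (branch (move 490 (leaf 490 3)) (move 588 (branch (move 620 (leaf 491 4)) (move 556 (branch (move 459 (leaf 459 4)) (move 586 (branch (move 585 (leaf 553 2)) (move 618 (leaf 490 5)))))))))))) (branch (move 558 (branch (move 559 (leaf 523 0)) (move 555 (branch (move 554 (leaf 522 1)) (move 589 (branch (move 621 (leaf 493 6)) (move 586 (branch (move 556 (leaf 554 1)) (move 588 (leaf 554 2)))))))))) (branch (move 558 (branch (move 559 (leaf 523 0)) (move 589 (branch (move 621 (leaf 493 6)) (move 588 (branch (move 586 (leaf 554 2)) (move 620 (branch (move 493 (leaf 492 5)) (move 555 (branch (move 554 (leaf 522 1)) (move 491 (leaf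 491 4)))))))))))) (branch (move 555 (branch (move 554 (leaf 522 1)) (move 558 (branch (move 559 (leaf 523 0)) (move 491 (branch (move 490 (leaf 490 3)) (move 586 (branch (move 556 (leaf 554 1)) (move 618 (leaf 490 5)))))))))) (move 558 (branch (move 559 (leaf 523 0)) (move 555 (branch (move 554 (leaf 522 1)) (move 491 (branch (move 490 (leaf 490 3)) (move 588 (branch (move 620 (leaf 491 4)) (move 459 (branch (move 556 (leaf 459 4)) (move 428 (branch (move 460 (leaf 427 6)) (move 427 (branch (move 396 (leaf 395 6)) (move 426 (branch (move 394 (leaf 394 7)) (move 458 (leaf 426 7)))))))))))))))))))))))))) (branch (move 524 (branch (move 495 (leaf 491 2)) (move 558 (branch (move 559 (leaf 523 0)) (move 462 (branch (move 430 (leaf 429 5)) (move 589 (leaf 461 5)))))))) (move 524 (branch (move 495 (leaf 491 2)) (move 558 (branch (move 559 (leaf 523 0)) (move 462 (branch (move 430 (leaf 429 5)) (move 461 (branch (move 429 (leaf 429 7)) (move 493 (branch (move 590 (leaf 461 4)) (move 556 (branch (move 588 (leaf 460 5)) (move 555 (branch (move 554 (leaf 522 1)) (move 491 (branch (move 490 (leaf 490 3)) (move 459 (branch (move 427 (leaf 427 4)) (move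 460 (branch (move 458 (leaf 458 0)) (move 428 (leaf 427 6))))))))))))))))))))))))))
theorem a6p474 : a6e474.Valid :=
  pos_of_chk [] forall_nil a6c474 a6e474 (by decide +kernel)

def a6e475 : Pos := ⟨2026130649339417646483298799549935808570388464753974992426070244667491736891924176035898809541146979912364571579003397205631271165869233608725080557650153591255779154036300709888, 2413097865668962572464310086353147684748809651899398990133140262724363130700520343263410102161793395434667332014583247494634209012845539603911817511539799202469079537984675950360939591751783192712053672100676352606208, 9⟩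
def a6c475 : Cert := (move 621 (branch (move 653 (branch (move 558 (leaf 525 6)) (move 686 (branch (move 654 (leaf 557 4)) (move 685 (branch (move 718 (leaf 589 4)) (move 684 (branch (move 652 (leaf 556 5)) (move 716 (leaf 588 5)))))))))) (branch (move 653 (branch (move 686 (branch (move 654 (leaf 557 4)) (move 685 (branch (move 718 (leaf 589 4)) (move 588 (branch (move 556 (leaf 556 7)) (move 620 (branch (move 493 (leaf 492 5)) (move 717 (leaf 588 7)))))))))) (branch (move 686 (branch (move 654 (leaf 557 4)) (move 685 (branch (move 718 (leaf 589 4)) (move 684 (branch (move 652 (leaf 556 5)) (move 716 (leaf 588 5)))))))) (move 652 (branch (move 620 (leaf 524 5)) (move 684 (leaf 556 5))))))) (branch (move 653 (branch (move 558 (leaf 525 6)) (move 686 (branch (move 654 (leaf 557 4)) (move 685 (branch (move 718 (leaf 589 4)) (move 588 (branch (move 556 (leaf 556 7)) (move 620 (branch (move 493 (leaf 492 5)) (move 717 (leaf 588 7)))))))))))) (move 555 (branch (move 620 (branch (move 652 (leaf 524 5)) (move 588 (branch (move 493 (leaf 492 5)) (move 587 (branch (move 491 (leaf 491 4)) (move 586 (branch (move 585 (leaf 585 0)) (move 558 (leaf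 554 2)))))))))) (branch (move 556 (branch (move 554 (leaf 522 2)) (move 558 (branch (move 522 (leaf 522 3)) (move 591 (branch (move 590 (leaf 555 0)) (move 559 (branch (move 592 (leaf 556 0)) (move 588 (branch (move 587 (leaf 555 1)) (move 560 (leaf 556 1)))))))))))) (branch (move 556 (branch (move 554 (leaf 522 2)) (move 620 (branch (move 652 (leaf 524 5)) (move 588 (branch (move 493 (leaf 492 5)) (move 491 (branch (move 459 (leaf 459 4)) (move 587 (leaf 491 4)))))))))) (branch (move 556 (branch (move 554 (leaf 522 2)) (move 620 (branch (move 652 (leaf 524 5)) (move 588 (branch (move 493 (leaf 492 5)) (move 591 (branch (move 590 (leaf 555 3)) (move 558 (branch (move 522 (leaf 522 3)) (move 559 (branch (move 592 (leaf 556 0)) (move 560 (leaf 556 1)))))))))))))) (move 618 (branch (move 620 (branch (move 652 (leaf 524 5)) (move 619 (branch (move 590 (leaf 586 2)) (move 650 (branch (move 649 (leaf 617 1)) (move 587 (leaf 522 5)))))))) (branch (move 554 (branch (move 556 (leaf 522 2)) (move 586 (branch (move 650 (leaf 522 6)) (move 491 (branch (move 459 (leaf 458 5)) (move 587 (leaf 490 5)))))))) (move 556 (branch (move 554 (leaf 522 2)) (move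 558 (branch (move 522 (leaf 522 3)) (move 590 (branch (move 591 (leaf 555 0)) (move 620 (branch (move 619 (leaf 586 2)) (move 652 (leaf 524 5))))))))))))))))))))))
theorem a6p475 : a6e475.Valid :=
  pos_of_chk [] forall_nil a6c475 a6e475 (by decide +kernel)

def a6e476 : Pos := ⟨471745303432202956716463588942664849720522026980987947953904447181637266339924679313853331149090208694433365517755703559262404264522454503056578184432640363429697159168, 401316520939863789890673264030413857920563242995163518942032121438381799901615020698146414328625774579922333154220196850531429760802602658813975098140013689034873681180846144699203576118678726432949018820608, 11⟩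
def a6c476 : Cert := (move 589 (branch (move 494 (branch (move 621 (leaf 493 6)) (move 462 (branch (move 430 (leaf 429 5)) (move 493 (leaf 461 6)))))) (branch (move 621 (branch (move 494 (leaf 493 6)) (move 653 (branch (move 558 (leaf 525 6)) (move 654 (branch (move 622 (leaf 525 4)) (move 686 (leaf 557 4)))))))) (branch (move 621 (branch (move 653 (branch (move 558 (leaf 525 6)) (move 652 (branch (move 620 (leaf 524 5)) (move 684 (leaf 556 5)))))) (branch (move 622 (branch (move 654 (leaf 525 4)) (move 620 (branch (move 652 (leaf 524 5)) (move 590 (branch (move 493 (leaf 493 4)) (move 591 (branch (move 592 (leaf 588 1)) (move 619 (leaf 587 2)))))))))) (move 653 (branch (move 558 (leaf 525 6)) (move 654 (branch (move 622 (leaf 525 4)) (move 686 (leaf 557 4))))))))) (move 493 (branch (ref 0) (branch (move 590 (branch (move 622 (leaf 493 4)) (move 461 (branch (move 558 (leaf 461 4)) (move 430 (branch (move 462 (leaf 429 6)) (move 429 (branch (move 398 (leaf 397 6)) (move 428 (branch (move 396 (leaf 396 7)) (move 460 (leaf 428 7)))))))))))) (branch (move 590 (branch (move 622 (leaf 493 4)) (move 461 (branch (move 558 (leaf 461 4)) (move 428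 (branch (move 460 (leaf 428 7)) (move 429 (branch (move 396 (leaf 396 7)) (move 556 (branch (move 524 (leaf 428 5)) (move 555 (branch (move 554 (leaf 554 0)) (move 397 (branch (move 494 (leaf 397 4)) (move 398 (branch (move 366 (leaf 365 6)) (move 430 (leaf 397 6)))))))))))))))))) (move 494 (branch (move 462 (leaf 461 6)) (move 495 (branch (move 524 (branch (move 496 (leaf 492 1)) (move 523 (leaf 491 2)))) (branch (move 590 (branch (move 622 (leaf 493 4)) (move 558 (branch (move 463 (leaf 462 6)) (move 524 (branch (move 523 (leaf 491 2)) (move 591 (branch (move 623 (leaf 494 4)) (move 592 (branch (move 556 (leaf 556 3)) (move 593 (leaf 557 3)))))))))))) (move 590 (branch (move 622 (leaf 493 4)) (move 496 (branch (move 497 (leaf 493 1)) (move 558 (branch (move 463 (leaf 462 6)) (move 591 (branch (move 623 (leaf 494 4)) (move 592 (branch (move 556 (leaf 556 3)) (move 593 (leaf 557 3)))))))))))))))))))))))))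
theorem a6p476 : a6e476.Valid :=
  pos_of_chk [a6e454] (forall_cons a6p454 forall_nil) a6c476 a6e476 (by decide +kernel)

def a6e477 : Pos := ⟨471745303459662147356986027802592452916847599850065689154477668819215120176666852047443955357580447257079183737664888804828327696670942455055444759682936476594157387776, 60915154182979435132652583828344270932304377954026618404512774143476367328972714020205773173630306746622746278364641008008709479369282339002651013955223210839900129439138988346181085560832, 15⟩
def a6c477 : Cert := (move 494 (branch (move 462 (branch (move 430 (leaf 429 5)) (move 589 (branch (move 493 (leaf 461 6)) (move 621 (leaf 493 6)))))) (branch (move 524 (branch (move 495 (leaf 491 2)) (move 558 (branch (move 559 (leaf 523 0)) (move 462 (branch (move 430 (leaf 429 5)) (move 461 (branch (move 429 (leaf 429 7)) (move 590 (branch (move 493 (leaf 461 4)) (move 555 (branch (move 554 (leaf 522 1)) (move 591 (branch (move 556 (leaf 555 0)) (move 623 (leaf 494 4)))))))))))))))) (branch (move 524 (branch (move 495 (leaf 491 2)) (move 558 (branch (move 559 (leaf 523 0)) (move 589 (branch (move 462 (leaf 461 5)) (move 621 (leaf 493 6))))))))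 (move 495 (branch (move 524 (leaf 491 2)) (move 590 (branch (move 558 (branch (move 591 (branch (move 623 (leaf 494 4)) (move 556 (branch (move 555 (leaf 555 0)) (move 592 (branch (move 559 (leaf 556 0)) (move 593 (leaf 557 3)))))))) (move 493 (branch (move 461 (leaf 461 4)) (move 622 (leaf 493 7)))))) (branch (move 558 (branch (move 463 (leaf 462 6)) (move 591 (branch (move 623 (leaf 494 4)) (move 556 (branch (move 555 (leaf 555 0)) (move 592 (branch (move 559 (leaf 556 0)) (move 593 (leaf 557 3)))))))))) (move 589 (branch (move 621 (leaf 493 6)) (move 496 (branch (move 497 (leaf 493 1)) (move 493 (branch (move 622 (leaf 493 4)) (move 461 (branch (move 460 (leaf 460 3)) (move 429 (branch (move 397 (leaf 397 4)) (move 528 (branch (move 529 (leaf 493 0)) (move 464 (branch (move 465 (leaf 461 2)) (move 428 (branch (move 396 (leaf 396 7)) (move 430 (branch (move 398 (leaf 397 6)) (move 431 (branch (move 463 (leaf 428 0)) (move 399 (branch (move 400 (leaf 396 2)) (move 432 (leaf 399 7)))))))))))))))))))))))))))))))))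
theorem a6p477 : a6e477.Valid :=
  pos_of_chk [] forall_nil a6c477 a6e477 (by decide +kernel)

def a6e478 : Pos := ⟨2026130649339417646483298799549935808570388464753974992426070244667491736891924176035898809541146979912364571579003397205631271165869233608725080557650153591255779154036300709888, 543341419402281923362530554712290812015137963475710089544108881507307460995279369360941461833464959132643648349276374013280772597388371811091425507439313779028933714946423830634976302333952, 12⟩
def a6c478 : Cert := (move 493 (branch (move 590 (branch (move 622 (leaf 493 4)) (move 461 (branch (move 558 (leaf 461 4)) (move 428 (branch (move 460 (leaf 428 7)) (move 429 (branch (move 396 (leaf 396 7)) (move 430 (branch (move 398 (leaf 397 6)) (move 462 (leaf 429 6)))))))))))) (branch (move 461 (branch (move 428 (branch (move 460 (leaf 428 7)) (move 429 (branch (move 396 (leaf 396 7)) (move 397 (branch (move 494 (leaf 397 4)) (move 398 (branch (move 366 (leaf 365 6)) (move 430 (leaf 397 6)))))))))) (branch (move 428 (branch (move 460 (leaf 428 7)) (move 429 (branch (move 396 (leaf 396 7)) (move 430 (branch (move 398 (leaf 397 6)) (move 462 (leaf 429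 6)))))))) (branch (move 494 (branch (move 462 (leaf 461 6)) (move 429 (branch (move 397 (leaf 397 4)) (move 428 (branch (move 396 (leaf 396 7)) (move 460 (leaf 428 7)))))))) (move 462 (branch (move 430 (leaf 429 6)) (move 494 (leaf 461 6)))))))) (branch (move 590 (branch (move 622 (leaf 493 4)) (move 461 (branch (move 558 (leaf 461 4)) (move 428 (branch (move 460 (leaf 428 7)) (move 429 (branch (move 396 (leaf 396 7)) (move 397 (branch (move 494 (leaf 397 4)) (move 398 (branch (move 366 (leaf 365 6)) (move 430 (leaf 397 6)))))))))))))) (move 590 (branch (move 622 (leaf 493 4)) (move 591 (branch (move 592 (branch (move 556 (leaf 556 3)) (move 494 (branch (move 462 (leaf 461 6)) (move 625 (branch (move 624 (leaf 589 0)) (move 593 (branch (move 626 (leaf 590 0)) (move 561 (branch (move 560 (leaf 557 2)) (move 562 (leaf 558 2)))))))))))) (branch (move 592 (branch (move 556 (leaf 556 3)) (move 593 (branch (move 558 (leaf 557 3)) (move 625 (branch (move 624 (leaf 589 0)) (move 626 (leaf 590 0)))))))) (branch (move 494 (branch (move 462 (leaf 461 6)) (move 558 (branch (move 623 (leaf 494 4)) (move 592 (branch (move 593 (leaf 557 3)) (move 560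 (branch (move 561 (leaf 557 2)) (move 495 (branch (move 463 (leaf 462 6)) (move 496 (branch (move 497 (leaf 493 1)) (move 528 (branch (move 529 (leaf 493 0)) (move 464 (branch (move 465 (leaf 461 2)) (move 559 (leaf 463 5)))))))))))))))))) (move 494 (branch (move 462 (leaf 461 6)) (move 623 (branch (move 558 (leaf 494 4)) (move 588 (branch (move 624 (leaf 588 0)) (move 555 (branch (move 556 (leaf 555 3)) (move 587 (branch (move 554 (leaf 554 3)) (move 618 (branch (move 619 (leaf 586 1)) (move 586 (branch (move 617 (leaf 585 1)) (move 491 (leaf 490 5))))))))))))))))))))))))))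
theorem a6p478 : a6e478.Valid :=
  pos_of_chk [] forall_nil a6c478 a6e478 (by decide +kernel)

def a6e479 : Pos := ⟨471745303459662147356986027802592452916847599850065689154477668819215120176666852047443955357580447257079183737664888804828327696670942455055444759682936476594157387776, 344728267005717335434029100313614344648955950716232433840238372638100331579412187190605646731314312640335044022131783714244764872876526813307527670109555926936602643914333814766494647894409242447237208585103726346240, 13⟩
def a6c479 : Cert := (move 589 (branch (move 556 (branch (move 493 (branch (move 622 (branch (move 590 (leaf 493 4)) (move 621 (branch (move 654 (leaf 525 4)) (move 653 (branch (move 558 (leaf 525 6)) (move 685 (branch (move 588 (leaf 556 7)) (move 684 (branch (move 652 (leaf 556 5)) (move 716 (leaf 588 5)))))))))))) (branch (move 461 (branch (move 588 (leaf 460 5)) (move 428 (branch (move 460 (leaf 428 7)) (move 429 (branch (move 396 (leaf 396 7)) (move 430 (branch (move 398 (leaf 397 6)) (move 462 (leaf 429 6)))))))))) (move 590 (branch (move 622 (leaf 493 4)) (move 461 (branch (move 558 (leaf 461 4)) (move 428 (branch (move 460 (leaf 428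 7)) (move 429 (branch (move 396 (leaf 396 7)) (move 430 (branch (move 398 (leaf 397 6)) (move 462 (leaf 429 6))))))))))))))) (branch (move 555 (branch (move 554 (leaf 522 2)) (move 558 (branch (move 522 (leaf 522 3)) (move 587 (branch (move 586 (leaf 554 1)) (move 559 (branch (move 588 (leaf 555 1)) (move 560 (branch (move 561 (leaf 525 3)) (move 592 (branch (move 591 (leaf 556 0)) (move 593 (leaf 557 0)))))))))))))) (branch (move 555 (branch (move 554 (leaf 522 2)) (move 558 (branch (move 522 (leaf 522 3)) (move 590 (branch (move 591 (leaf 555 0)) (move 622 (branch (move 493 (leaf 493 4)) (move 654 (leaf 525 7)))))))))) (move 590 (branch (move 622 (branch (move 493 (leaf 493 4)) (move 654 (branch (move 621 (leaf 525 4)) (move 686 (leaf 557 7)))))) (move 555 (branch (move 554 (leaf 554 0)) (move 591 (branch (move 588 (leaf 555 3)) (move 592 (leaf 556 3)))))))))))) (branch (move 494 (branch (move 621 (leaf 493 6)) (move 462 (branch (move 430 (leaf 429 5)) (move 493 (leaf 461 6)))))) (branch (move 621 (branch (move 494 (leaf 493 6)) (move 653 (branch (move 558 (leaf 525 6)) (move 654 (branch (move 622 (leaf 525 4)) (move 686 (leaf 557 4))))))))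 (ref 0)))))
theorem a6p479 : a6e479.Valid :=
  pos_of_chk [a6e478] (forall_cons a6p478 forall_nil) a6c479 a6e479 (by decide +kernel)

def a6e480 : Pos := ⟨471745303432202956716463588942664849720522026980987947953904447181637266339924679313853331149090208694433365517755703559262404264522454503056578184432640363429697159168, 344728267005717335583531154471858437573389861891863806096594804170929217034445173967666624344298071628952922356019016951980103934082356207433537983175750278053892714733466369375022312462777512112315932386349878870016, 16⟩
def a6c480 : Cert := (move 523 (branch (move 524 (branch (move 494 (branch (move 495 (leaf 491 2)) (move 589 (branch (move 621 (leaf 493 6)) (move 462 (branch (move 430 (leaf 429 5)) (move 493 (leaf 461 6)))))))) (move 490 (branch (move 491 (leaf 490 3)) (move 522 (branch (move 489 (leaf 489 3)) (move 521 (branch (move 556 (leaf 521 0)) (move 553 (branch (move 552 (leaf 520 1)) (move 554 (leaf 521 1)))))))))))) (branch (move 524 (branch (move 494 (branch (move 495 (leaf 491 2)) (move 589 (branch (move 621 (leaf 493 6)) (move 462 (branch (move 430 (leaf 429 5)) (move 493 (leaf 461 6)))))))) (move 558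 (branch (move 522 (leaf 522 0)) (move 559 (leaf 523 0)))))) (branch (move 555 (branch (move 524 (branch (move 554 (leaf 522 1)) (move 558 (branch (move 522 (leaf 522 0)) (move 559 (leaf 523 0)))))) (branch (move 554 (branch (move 524 (leaf 522 1)) (move 556 (leaf 522 2)))) (branch (move 558 (branch (move 556 (branch (move 522 (leaf 522 3)) (move 590 (branch (move 591 (leaf 555 0)) (move 622 (branch (move 493 (leaf 493 7)) (move 654 (leaf 525 7)))))))) (branch (move 524 (branch (move 522 (leaf 522 0)) (move 559 (leaf 523 0)))) (move 559 (branch (move 524 (leaf 523 0)) (move 560 (branch (move 561 (leaf 525 3)) (move 592 (branch (move 593 (leaf 557 0)) (move 591 (branch (move 556 (leaf 556 0)) (move 528 (branch (move 529 (leaf 525 2)) (move 623 (branch (move 496 (leaf 495 5)) (move 655 (leaf 527 6))))))))))))))))) (move 556 (branch (move 554 (leaf 522 2)) (move 558 (branch (move 522 (leaf 522 3)) (move 590 (branch (move 591 (leaf 555 0)) (move 622 (branch (move 493 (leaf 493 7)) (move 654 (leaf 525 7)))))))))))))) (branch (ref 0) (branch (move 524 (branch (move 490 (branch (move 491 (leaf 490 3)) (move 522 (branch (move 489 (leaf 489 3)) (move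 521 (branch (move 556 (leaf 521 0)) (move 553 (branch (move 552 (leaf 520 1)) (move 554 (leaf 521 1)))))))))) (move 558 (branch (move 559 (leaf 523 0)) (move 494 (branch (move 495 (leaf 491 2)) (move 589 (branch (move 462 (leaf 461 5)) (move 621 (leaf 493 6)))))))))) (ref 1)))))))
theorem a6p480 : a6e480.Valid :=
  pos_of_chk [a6e477, a6e479] (forall_cons a6p477 (forall_cons a6p479 forall_nil)) a6c480 a6e480 (by decide +kernel)

def a6e481 : Pos := ⟨471745303432202956767610317191042066439478115993919184707289479151060153675601106940355421717913248614484460710347956014745008704015580612575597817962099629887955402752, 67441777840231467226114016752723068722383426040620556264546640994984260157546401746404151532452343970023638193389704315252193800969070772591148659912800350826495858976866764455466439278592, 12⟩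
def a6c481 : Cert := (move 493 (branch (move 461 (branch (move 429 (branch (move 397 (leaf 397 4)) (move 556 (branch (move 524 (leaf 428 5)) (move 588 (leaf 460 5)))))) (branch (move 460 (branch (move 428 (leaf 428 7)) (move 495 (branch (move 496 (leaf 460 3)) (move 523 (branch (move 524 (leaf 491 2)) (move 556 (branch (move 588 (leaf 460 5)) (move 555 (branch (move 554 (leaf 522 2)) (move 522 (branch (move 558 (leaf 522 3)) (move 458 (branch (move 459 (leaf 458 0)) (move 490 (branch (move 426 (leaf 426 4)) (move 587 (branch (move 491 (leaf 458 7)) (move 619 (leaf 490 7)))))))))))))))))))) (move 429 (branch (move 397 (leaf 397 4)) (move 558 (leaf 429 4))))))) (branch (move 495 (branch (move 524 (branch (move 496 (leaf 492 1)) (move 523 (leaf 491 2)))) (branch (move 524 (branch (move 523 (leaf 491 2)) (move 589 (branch (move 621 (leaf 493 6)) (move 590 (branch (move 622 (leaf 493 4)) (move 558 (branch (move 463 (leaf 462 6)) (move 591 (branch (move 623 (leaf 494 4)) (move 592 (branch (move 556 (leaf 556 3)) (move 593 (leaf 557 3)))))))))))))) (move 496 (branch (move 497 (leaf 493 1)) (move 589 (branch (move 621 (leaf 493 6)) (move 590 (branch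 (move 622 (leaf 493 4)) (move 558 (branch (move 463 (leaf 462 6)) (move 591 (branch (move 623 (leaf 494 4)) (move 592 (branch (move 556 (leaf 556 3)) (move 593 (leaf 557 3))))))))))))))))) (branch (move 589 (branch (move 621 (leaf 493 6)) (move 590 (branch (move 622 (leaf 493 4)) (move 558 (branch (move 461 (leaf 461 4)) (move 495 (branch (move 463 (leaf 462 6)) (move 524 (branch (move 496 (leaf 492 1)) (move 523 (leaf 491 2)))))))))))) (move 589 (branch (move 621 (leaf 493 6)) (move 588 (branch (move 620 (leaf 492 5)) (move 461 (branch (move 556 (leaf 460 5)) (move 429 (branch (move 397 (leaf 397 4)) (move 428 (branch (move 396 (leaf 396 7)) (move 460 (leaf 428 7))))))))))))))))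
theorem a6p481 : a6e481.Valid :=
  pos_of_chk [] forall_nil a6c481 a6e481 (by decide +kernel)

def a6e482 : Pos := ⟨1415235909637588294776852234189732072449752332085098055047956022243043306937961892335385012443504900579800459275446664784205050422003652661196936747290814374342045990912, 280316351824089179666524947506946277065494449796035499594949972529851940894923993193926429615568698299214092515631872755599821655595644725756898669613760277629761207107040610243679303427688732033024, 10⟩
def a6c482 : Cert := (move 589 (branch (move 621 (branch (move 653 (leaf 525 6)) (move 620 (branch (move 652 (leaf 524 5)) (move 588 (branch (move 493 (leaf 492 5)) (move 587 (branch (move 586 (leaf 554 2)) (move 622 (branch (move 623 (leaf 587 3)) (move 654 (leaf 525 4)))))))))))) (branch (move 493 (branch (move 461 (branch (move 429 (leaf 429 4)) (move 588 (branch (move 556 (leaf 460 5)) (move 620 (leaf 492 5)))))) (branch (move 590 (branch (move 622 (leaf 493 4)) (move 588 (branch (move 620 (leaf 492 5)) (move 587 (branch (move 586 (leaf 554 2)) (move 555 (branch (move 554 (leaf 554 3)) (move 591 (branch (move 556 (leaf 555 0)) (move 592 (branch (move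 593 (leaf 557 3)) (move 624 (branch (move 623 (leaf 588 0)) (move 625 (leaf 589 0)))))))))))))))) (move 590 (branch (move 461 (leaf 461 4)) (move 622 (leaf 493 4))))))) (branch (move 621 (branch (move 653 (leaf 525 6)) (move 620 (branch (move 652 (leaf 524 5)) (move 493 (branch (move 588 (leaf 492 5)) (move 461 (branch (move 429 (leaf 429 4)) (move 590 (leaf 461 4)))))))))) (branch (move 621 (branch (move 653 (leaf 525 6)) (move 622 (branch (move 654 (leaf 525 4)) (move 590 (branch (move 493 (leaf 493 4)) (move 620 (branch (move 652 (leaf 524 5)) (move 591 (branch (move 592 (leaf 588 1)) (move 619 (leaf 587 2)))))))))))) (branch (move 621 (branch (move 653 (leaf 525 6)) (move 622 (branch (move 654 (leaf 525 4)) (move 590 (branch (move 493 (leaf 493 4)) (move 623 (branch (move 655 (leaf 526 4)) (move 624 (branch (move 588 (leaf 588 3)) (move 625 (leaf 589 3)))))))))))) (move 590 (branch (move 621 (branch (move 653 (leaf 525 6)) (move 620 (branch (move 652 (leaf 524 5)) (move 591 (branch (move 592 (leaf 588 1)) (move 619 (branch (move 588 (leaf 587 1)) (move 618 (leaf 586 2)))))))))) (branch (move 622 (branch (move 654 (leaf 525 7)) (move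 623 (branch (move 655 (leaf 526 4)) (move 588 (branch (move 587 (leaf 587 0)) (move 591 (branch (move 624 (leaf 588 0)) (move 556 (branch (move 555 (leaf 555 0)) (move 592 (leaf 556 3)))))))))))) (branch (move 621 (branch (move 653 (leaf 525 6)) (move 622 (branch (move 654 (leaf 525 4)) (move 623 (branch (move 655 (leaf 526 4)) (move 588 (branch (move 587 (leaf 587 0)) (move 624 (leaf 588 3)))))))))) (move 621 (branch (move 653 (leaf 525 6)) (move 622 (branch (move 654 (leaf 525 4)) (move 620 (branch (move 652 (leaf 524 5)) (move 591 (branch (move 592 (leaf 588 1)) (move 619 (leaf 587 2))))))))))))))))))))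
theorem a6p482 : a6e482.Valid :=
  pos_of_chk [] forall_nil a6c482 a6e482 (by decide +kernel)

def a6e483 : Pos := ⟨1415235909637588294776852234189732072449752332085098055047956022243043306937961892335385012443504900579800459275446664784205050422003652661196936747290814374342045990912, 280316351824089179634106857130311686074133719303909214941852047766889246185849532776428866412684424506292963193164894339923457390057211769296592523650849252287884162220181013444412413524314379255808, 8⟩
def a6c483 : Cert := (move 589 (branch (move 621 (branch (move 653 (leaf 525 6)) (move 620 (branch (move 652 (leaf 524 5)) (move 588 (branch (move 493 (leaf 492 5)) (move 587 (branch (move 586 (leaf 554 2)) (move 622 (branch (move 623 (leaf 587 3)) (move 654 (leaf 525 4)))))))))))) (branch (move 621 (branch (move 653 (leaf 525 6)) (move 620 (branch (move 652 (leaf 524 5)) (move 493 (branch (move 588 (leaf 492 5)) (move 461 (branch (move 429 (leaf 429 4)) (move 590 (leaf 461 4)))))))))) (branch (move 621 (branch (move 653 (leaf 525 6)) (move 622 (branch (move 654 (leaf 525 4)) (move 590 (branch (move 493 (leaf 493 4)) (move 620 (branch (move 652 (leaf 524 5))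 (move 591 (branch (move 592 (leaf 588 1)) (move 619 (leaf 587 2)))))))))))) (branch (move 621 (branch (move 653 (leaf 525 6)) (move 622 (branch (move 654 (leaf 525 4)) (move 590 (branch (move 493 (leaf 493 4)) (move 623 (branch (move 655 (leaf 526 4)) (move 624 (branch (move 588 (leaf 588 3)) (move 625 (leaf 589 3)))))))))))) (branch (move 590 (branch (move 493 (branch (move 461 (leaf 461 4)) (move 588 (branch (move 620 (leaf 492 5)) (move 559 (branch (move 560 (leaf 556 1)) (move 587 (leaf 555 2)))))))) (branch (move 622 (branch (move 654 (leaf 525 7)) (move 623 (branch (move 655 (leaf 526 4)) (move 588 (branch (move 587 (leaf 587 0)) (move 559 (branch (move 560 (leaf 556 1)) (move 624 (branch (move 591 (leaf 588 0)) (move 625 (leaf 589 3)))))))))))) (move 622 (branch (move 493 (leaf 493 4)) (move 654 (leaf 525 7))))))) (move 590 (branch (move 621 (branch (move 653 (leaf 525 6)) (move 620 (branch (move 652 (leaf 524 5)) (move 591 (branch (move 592 (leaf 588 1)) (move 619 (branch (move 588 (leaf 587 1)) (move 618 (leaf 586 2)))))))))) (branch (move 621 (branch (move 653 (leaf 525 6)) (move 622 (branch (move 654 (leaf 525 4)) (move 623 (branch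 (move 655 (leaf 526 4)) (move 588 (branch (move 587 (leaf 587 0)) (move 624 (leaf 588 3)))))))))) (branch (move 621 (branch (move 653 (leaf 525 6)) (move 622 (branch (move 654 (leaf 525 4)) (move 620 (branch (move 652 (leaf 524 5)) (move 591 (branch (move 592 (leaf 588 1)) (move 619 (leaf 587 2)))))))))) (move 622 (branch (move 654 (leaf 525 7)) (move 623 (branch (move 655 (leaf 526 4)) (move 588 (branch (move 587 (leaf 587 0)) (move 559 (branch (move 560 (leaf 556 1)) (move 624 (branch (move 591 (leaf 588 0)) (move 625 (leaf 589 3))))))))))))))))))))))
theorem a6p483 : a6e483.Valid :=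
  pos_of_chk [] forall_nil a6c483 a6e483 (by decide +kernel)

def a6e484 : Pos := ⟨26106494622929736438328729302066643275916887608514706412689598799395581570290181501246522209624095470831079618263925975228191487834557193771782730272671650039755938137822953400742331809792, 2389696897186957933707151283223075641680343350317557244770026673012784741940264234669391361877609519287113504586968947810707907905885656044794175687558700967736821475145689697485516587780842253713408, 9⟩
def a6c484 : Cert := (move 623 (branch (move 524 (branch (move 523 (leaf 523 0)) (move 592 (branch (move 591 (leaf 556 0)) (move 624 (branch (move 593 (leaf 589 2)) (move 653 (branch (move 652 (leaf 620 1)) (move 625 (branch (move 654 (leaf 621 1)) (move 657 (branch (move 656 (leaf 621 0)) (move 658 (leaf 622 0)))))))))))))) (branch (move 591 (branch (move 592 (leaf 556 0)) (move 655 (leaf 526 7)))) (branch (move 524 (branch (move 523 (leaf 523 0)) (move 655 (branch (move 591 (leaf 526 7)) (move 656 (branch (move 620 (leaf 620 0)) (move 657 (branch (move 624 (leaf 621 0)) (move 654 (leaf 621 3)))))))))) (move 620 (branch (move 655 (branch (move 656 (leaf 620 0)) (move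 619 (branch (move 654 (leaf 619 0)) (move 651 (branch (move 650 (leaf 618 1)) (move 652 (leaf 619 1)))))))) (branch (move 524 (branch (move 523 (leaf 523 0)) (move 655 (branch (move 656 (leaf 620 0)) (move 619 (branch (move 654 (leaf 619 0)) (move 586 (branch (move 587 (leaf 586 3)) (move 618 (branch (move 585 (leaf 585 3)) (move 650 (branch (move 649 (leaf 617 1)) (move 651 (leaf 618 1)))))))))))))) (branch (move 524 (branch (move 523 (leaf 523 0)) (move 652 (branch (move 651 (leaf 619 1)) (move 624 (branch (move 653 (leaf 620 1)) (move 593 (branch (move 592 (leaf 589 2)) (move 625 (branch (move 594 (leaf 590 2)) (move 657 (branch (move 656 (leaf 621 0)) (move 658 (leaf 622 0)))))))))))))) (branch (move 524 (branch (move 523 (leaf 523 0)) (move 656 (branch (move 655 (leaf 620 0)) (move 624 (branch (move 657 (leaf 621 0)) (move 593 (branch (move 592 (leaf 589 2)) (move 625 (branch (move 594 (leaf 590 2)) (move 653 (branch (move 652 (leaf 620 1)) (move 654 (leaf 621 1)))))))))))))) (move 524 (branch (move 523 (leaf 523 0)) (move 651 (branch (move 652 (leaf 619 1)) (move 619 (branch (move 650 (leaf 618 1)) (move 586 (branch (move 587 (leaf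 586 3)) (move 618 (branch (move 585 (leaf 585 3)) (move 654 (branch (move 653 (leaf 618 0)) (move 655 (leaf 619 0)))))))))))))))))))))))
theorem a6p484 : a6e484.Valid :=
  pos_of_chk [] forall_nil a6c484 a6e484 (by decide +kernel)

def a6e485 : Pos := ⟨3302217122048358970897629524683866517908212942293318269236059172365855388134036318378448375032334284350534646790828587234090342736966048977477653873007162396166743654400, 2389696897213064428336159411604882075378109783925387509650698878457296881488242536771041640207835827279379600889524271675235211363698940313027621215259717083099038022201162368579976692134601696477184, 12⟩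
def a6c485 : Cert := (move 556 (branch (move 523 (branch (move 524 (leaf 523 0)) (move 555 (branch (move 554 (leaf 522 2)) (move 522 (leaf 522 3)))))) (branch (move 555 (branch (move 554 (leaf 522 2)) (move 591 (branch (move 590 (leaf 555 0)) (move 592 (leaf 556 0)))))) (move 622 (branch (move 590 (branch (move 493 (leaf 493 7)) (move 654 (leaf 525 7)))) (branch (move 524 (branch (move 523 (leaf 523 0)) (move 590 (branch (move 493 (leaf 493 7)) (move 591 (branch (move 592 (leaf 556 0)) (move 623 (branch (move 655 (leaf 526 4)) (move 621 (branch (move 653 (leaf 525 5)) (move 620 (branch (move 619 (leaf 587 2)) (move 652 (branch (move 651 (leaf 619 1)) (move 589 (leaf 524 5)))))))))))))))) (move 621 (branch (move 589 (branch (move 654 (leaf 525 4)) (move 653 (leaf 525 6)))) (branch (ref 0) (branch (move 524 (branch (move 523 (leaf 523 0)) (move 653 (branch (move 589 (leaf 525 6)) (move 591 (branch (move 592 (leaf 556 0)) (move 623 (branch (move 655 (leaf 526 7)) (move 652 (branch (move 624 (leaf 620 1)) (move 651 (branch (move 620 (leaf 619 1)) (move 650 (leaf 618 2)))))))))))))) (move 620 (branch (move 589 (branch (move 654 (leaf 525 4))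 (move 652 (leaf 524 5)))) (branch (move 524 (branch (move 523 (leaf 523 0)) (move 591 (branch (move 592 (leaf 556 0)) (move 655 (branch (move 623 (leaf 526 7)) (move 619 (branch (move 654 (leaf 619 0)) (move 650 (branch (move 651 (leaf 618 1)) (move 618 (branch (move 649 (leaf 617 1)) (move 586 (branch (move 585 (leaf 585 3)) (move 587 (leaf 586 3)))))))))))))))) (move 524 (branch (move 523 (leaf 523 0)) (move 591 (branch (move 592 (leaf 556 0)) (move 623 (branch (move 655 (leaf 526 7)) (move 652 (branch (move 651 (leaf 619 1)) (move 589 (leaf 524 5)))))))))))))))))))))))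
theorem a6p485 : a6e485.Valid :=
  pos_of_chk [a6e484] (forall_cons a6p484 forall_nil) a6c485 a6e485 (by decide +kernel)

def a6e486 : Pos := ⟨2026130652169889465071995623090579305451662529745340334869322824749073240438564443993268275872151399587118408672458860258794969595131248649020187080072362704580005073608886976512, 80263304306640013464718022705111069547028671587605229507135209773322788099036714914451145242496953237704089070374805206382266442948863351185491338058496607645072674423531870772490431322515124248082905038848, 11⟩
def a6c486 : Cert := (move 587 (branch (move 588 (branch (move 586 (leaf 554 2)) (move 590 (leaf 555 2)))) (branch (move 588 (branch (move 556 (leaf 555 1)) (move 590 (leaf 555 2)))) (move 555 (branch (move 556 (branch (move 586 (leaf 554 1)) (move 554 (leaf 522 2)))) (branch (move 556 (branch (move 586 (leaf 554 1)) (move 523 (branch (move 524 (leaf 523 0)) (move 522 (leaf 522 3)))))) (branch (move 556 (branch (move 554 (leaf 522 2)) (move 523 (branch (move 524 (leaf 523 0)) (move 522 (leaf 522 3)))))) (move 523 (branch (move 524 (leaf 523 0)) (move 491 (branch (move 586 (branch (move 618 (leaf 490 5)) (move 459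 (branch (move 554 (leaf 458 5)) (move 428 (branch (move 460 (leaf 427 6)) (move 427 (branch (move 396 (leaf 395 6)) (move 426 (branch (move 394 (leaf 394 7)) (move 458 (leaf 426 7)))))))))))) (branch (move 618 (branch (move 586 (leaf 490 5)) (move 619 (branch (move 650 (leaf 522 5)) (move 522 (branch (move 490 (leaf 490 7)) (move 651 (branch (move 554 (leaf 522 7)) (move 652 (branch (move 684 (leaf 555 4)) (move 653 (branch (move 654 (leaf 618 3)) (move 621 (leaf 525 6)))))))))))))) (branch (move 490 (branch (move 458 (leaf 458 7)) (move 619 (branch (move 522 (leaf 490 7)) (move 618 (branch (move 586 (leaf 490 5)) (move 650 (leaf 522 5)))))))) (move 459 (branch (move 428 (branch (move 460 (leaf 427 6)) (move 427 (branch (move 396 (leaf 395 6)) (move 522 (branch (move 554 (leaf 426 5)) (move 490 (branch (move 395 (leaf 394 5)) (move 619 (leaf 490 7)))))))))) (branch (move 428 (branch (move 460 (leaf 427 6)) (move 427 (branch (move 396 (leaf 395 6)) (move 426 (branch (move 394 (leaf 394 7)) (move 458 (leaf 426 7)))))))) (move 458 (branch (move 426 (leaf 426 7)) (move 490 (leaf 458 7))))))))))))))))))))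
theorem a6p486 : a6e486.Valid :=
  pos_of_chk [] forall_nil a6c486 a6e486 (by decide +kernel)

def a6e487 : Pos := ⟨3302217122048358970897629524683866517908212942293318269236059172365855388134036318378448375032334284350534646790828587234090342736966048977477653873007162396166743654400, 1364476171942112768624748915089235013429083516182295684746016104742207295297842988103573434189767241596166962353921362773630639995115145026784346327335148932751216789913857670513373768855472858619219627999232, 12⟩
def a6c487 : Cert := (move 589 (branch (move 621 (branch (move 653 (leaf 525 6)) (move 622 (branch (move 654 (leaf 525 4)) (move 590 (branch (move 493 (leaf 493 4)) (move 588 (branch (move 587 (leaf 555 2)) (move 623 (branch (move 624 (leaf 588 3)) (move 655 (leaf 526 4)))))))))))) (branch (move 556 (branch (move 588 (branch (move 587 (leaf 555 1)) (move 493 (branch (move 461 (leaf 460 5)) (move 590 (branch (move 622 (leaf 493 4)) (move 591 (branch (move 592 (leaf 556 0)) (move 623 (branch (move 624 (leaf 588 0)) (move 655 (leaf 526 7)))))))))))) (move 523 (branch (move 524 (leaf 523 0)) (move 555 (branch (move 554 (leaf 522 2)) (move 522 (leaf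 522 3)))))))) (branch (move 556 (branch (move 524 (branch (move 523 (leaf 523 0)) (move 621 (branch (move 653 (leaf 525 6)) (move 588 (branch (move 587 (leaf 555 1)) (move 591 (branch (move 592 (leaf 556 0)) (move 623 (branch (move 655 (leaf 526 7)) (move 622 (branch (move 624 (leaf 588 3)) (move 654 (leaf 525 4)))))))))))))) (branch (move 523 (branch (move 524 (leaf 523 0)) (move 555 (branch (move 554 (leaf 522 2)) (move 522 (leaf 522 3)))))) (move 588 (branch (move 587 (leaf 555 1)) (move 621 (branch (move 653 (leaf 525 6)) (move 555 (branch (move 554 (leaf 522 2)) (move 461 (branch (move 493 (leaf 460 5)) (move 591 (branch (move 592 (leaf 556 0)) (move 623 (branch (move 655 (leaf 526 7)) (move 622 (branch (move 624 (leaf 588 3)) (move 654 (leaf 525 4))))))))))))))))))) (branch (move 524 (branch (move 523 (leaf 523 0)) (move 621 (branch (move 653 (leaf 525 6)) (move 622 (branch (move 654 (leaf 525 4)) (move 590 (branch (move 493 (leaf 493 4)) (move 623 (branch (move 655 (leaf 526 4)) (move 624 (branch (move 625 (leaf 589 3)) (move 592 (branch (move 593 (leaf 589 2)) (move 591 (branch (move 556 (leaf 556 0)) (move 656 (branch (move 657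 (leaf 621 0)) (move 688 (leaf 559 7)))))))))))))))))))) (ref 0))))))
theorem a6p487 : a6e487.Valid :=
  pos_of_chk [a6e486] (forall_cons a6p486 forall_nil) a6c487 a6e487 (by decide +kernel)

def a6e488 : Pos := ⟨471745303432202956716463588942664849720522026980987947953904447181637266339924679313853331149090208694433365517755703559262404264522454503056578184432640363429697159168, 1364476173140465171491275304938768352711836444595441547074514911756955557538235670089433553959489524333741245724716050889125418667644655456236364289355841081082210260024162660194831581073927647932961160953856, 14⟩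
def a6c488 : Cert := (move 558 (branch (ref 0) (branch (ref 1) (branch (ref 2) (branch (ref 3) (branch (move 559 (branch (move 524 (branch (move 523 (leaf 523 0)) (move 560 (leaf 524 3)))) (branch (move 556 (branch (move 588 (branch (move 587 (leaf 555 1)) (move 493 (branch (move 461 (leaf 460 5)) (move 620 (branch (move 589 (leaf 492 5)) (move 652 (leaf 524 6)))))))) (move 523 (branch (move 524 (leaf 523 0)) (move 555 (branch (move 554 (leaf 522 2)) (move 522 (leaf 522 3)))))))) (move 493 (branch (move 560 (branch (move 561 (leaf 525 3)) (move 589 (branch (move 588 (leaf 556 1)) (move 622 (branch (move 590 (leaf 493 4)) (move 621 (branch (move 654 (leaf 525 4)) (move 653 (leaf 525 6)))))))))) (branch (move 560 (branch (move 561 (leaf 525 3)) (move 461 (branch (move 429 (leaf 429 4)) (move 588 (branch (move 589 (leaf 556 1)) (move 556 (leaf 460 5)))))))) (move 461 (branch (move 429 (leaf 429 4)) (move 590 (leaf 461 4)))))))))) (branch (move 556 (branch (move 555 (branch (move 554 (leaf 522 2)) (move 590 (branch (move 591 (leaf 555 0)) (move 622 (branch (move 493 (leaf 493 7)) (move 654 (leaf 525 7)))))))) (branch (move 555 (branch (move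 554 (leaf 522 2)) (move 523 (branch (move 522 (leaf 522 3)) (move 524 (branch (move 559 (leaf 523 0)) (move 491 (branch (move 490 (leaf 490 3)) (move 588 (branch (move 459 (leaf 459 4)) (move 620 (leaf 491 7)))))))))))) (move 559 (branch (move 560 (branch (move 561 (leaf 525 3)) (move 592 (branch (move 591 (leaf 556 0)) (move 593 (leaf 557 0)))))) (branch (move 524 (branch (move 523 (leaf 523 0)) (move 560 (leaf 524 3)))) (move 493 (branch (move 524 (branch (move 523 (leaf 523 0)) (move 461 (branch (move 429 (leaf 429 4)) (move 588 (leaf 460 5)))))) (branch (move 590 (branch (move 461 (leaf 461 4)) (move 622 (leaf 493 7)))) (move 589 (branch (move 590 (branch (move 622 (leaf 493 4)) (move 591 (branch (move 592 (leaf 556 0)) (move 620 (branch (move 588 (leaf 492 5)) (move 621 (branch (move 652 (leaf 524 5)) (move 653 (leaf 525 6)))))))))) (branch (move 524 (branch (move 523 (leaf 523 0)) (move 621 (branch (move 653 (leaf 525 6)) (move 620 (branch (move 588 (leaf 492 5)) (move 652 (leaf 524 5)))))))) (branch (move 590 (branch (move 622 (leaf 493 4)) (move 591 (branch (move 592 (leaf 556 0)) (move 524 (branch (move 523 (leaf 523 0)) (move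 588 (branch (move 620 (leaf 492 5)) (move 623 (branch (move 624 (leaf 588 0)) (move 655 (leaf 526 7)))))))))))) (move 622 (branch (move 590 (leaf 493 4)) (move 524 (branch (move 523 (leaf 523 0)) (move 621 (branch (move 654 (leaf 525 4)) (move 653 (leaf 525 6))))))))))))))))))))) (branch (move 559 (branch (move 524 (branch (move 523 (leaf 523 0)) (move 560 (leaf 524 3)))) (branch (move 560 (branch (move 561 (leaf 525 3)) (move 592 (branch (move 593 (leaf 557 0)) (move 591 (branch (move 556 (leaf 556 0)) (move 528 (branch (move 529 (leaf 525 2)) (move 623 (branch (move 496 (leaf 495 5)) (move 655 (leaf 527 6)))))))))))) (ref 4)))) (branch (move 524 (branch (move 559 (branch (move 523 (leaf 523 0)) (move 560 (leaf 524 3)))) (branch (move 559 (branch (move 560 (leaf 524 3)) (move 556 (branch (move 588 (branch (move 587 (leaf 555 1)) (move 493 (branch (move 461 (leaf 460 5)) (move 620 (leaf 492 6)))))) (move 555 (branch (move 554 (leaf 522 2)) (move 591 (branch (move 590 (leaf 555 0)) (move 592 (leaf 556 0)))))))))) (move 555 (branch (move 523 (branch (move 522 (leaf 522 0)) (move 554 (leaf 522 1)))) (branch (move 556 (branch (move 554 (leaf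 522 2)) (move 590 (branch (move 591 (leaf 555 0)) (move 622 (branch (move 493 (leaf 493 7)) (move 654 (leaf 525 7)))))))) (move 556 (branch (move 590 (branch (move 591 (leaf 555 0)) (move 493 (branch (move 461 (leaf 461 4)) (move 622 (leaf 493 7)))))) (move 523 (branch (move 522 (leaf 522 0)) (move 491 (branch (move 490 (leaf 490 3)) (move 459 (branch (move 427 (leaf 427 4)) (move 588 (leaf 459 4)))))))))))))))) (move 559 (branch (move 560 (branch (move 561 (leaf 525 3)) (move 592 (branch (move 593 (leaf 557 0)) (move 556 (branch (move 591 (leaf 556 0)) (move 588 (branch (move 587 (leaf 555 1)) (move 589 (leaf 556 1)))))))))) (branch (move 524 (branch (move 523 (leaf 523 0)) (move 560 (leaf 524 3)))) (ref 5)))))))))))))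
theorem a6p488 : a6e488.Valid :=
  pos_of_chk [a6e461, a6e468, a6e482, a6e483, a6e485, a6e487] (forall_cons a6p461 (forall_cons a6p468 (forall_cons a6p482 (forall_cons a6p483 (forall_cons a6p485 (forall_cons a6p487 forall_nil)))))) a6c488 a6e488 (by decide +kernel)

def a6e489 : Pos := ⟨329510287686269266319131238355906874428932894406878659650934246040906072803087490501882862751749818638910222946791081185781855423986398903003553357973522743296, 2413097866953175441305143153443034737659266175781963353231908819245897962640094669218843455269318839474602840441480348728859405925316639905572322249303908408839163924634563018065953875446299171149621176016218129170432, 18⟩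
def a6c489 : Cert := (move 557 (branch (ref 0) (branch (ref 1) (branch (ref 2) (branch (move 589 (branch (move 494 (branch (move 621 (leaf 493 6)) (move 462 (branch (move 430 (leaf 429 5)) (move 493 (leaf 461 6)))))) (branch (ref 3) (branch (move 621 (branch (move 494 (leaf 493 6)) (move 653 (branch (move 558 (leaf 525 6)) (move 654 (branch (move 622 (leaf 525 4)) (move 686 (leaf 557 4)))))))) (move 493 (branch (ref 4) (branch (move 590 (branch (move 622 (leaf 493 4)) (move 558 (branch (move 461 (leaf 461 4)) (move 588 (branch (move 620 (leaf 492 5)) (move 559 (branch (move 560 (leaf 556 1)) (move 587 (leaf 555 2)))))))))) (move 494 (branch (move 462 (leaf 461 6)) (move 495 (branch (move 590 (branch (move 622 (leaf 493 4)) (move 558 (branch (move 463 (leaf 462 6)) (move 588 (branch (move 620 (leaf 492 5)) (move 559 (branch (move 560 (leaf 556 1)) (move 587 (leaf 555 2)))))))))) (move 496 (branch (move 524 (leaf 492 1)) (move 497 (leaf 493 1))))))))))))))) (branch (move 589 (branch (move 494 (branch (move 621 (leaf 493 6)) (move 462 (branch (move 430 (leaf 429 5)) (move 493 (leaf 461 6)))))) (branch (ref 3) (branch (move 621 (branch (move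 494 (leaf 493 6)) (move 653 (branch (move 558 (leaf 525 6)) (move 654 (branch (move 622 (leaf 525 4)) (move 686 (leaf 557 4)))))))) (move 493 (branch (move 588 (branch (move 620 (leaf 492 5)) (move 556 (branch (move 461 (leaf 460 5)) (move 555 (branch (move 554 (leaf 522 2)) (move 590 (branch (move 591 (leaf 555 3)) (move 622 (leaf 493 4)))))))))) (branch (ref 4) (move 558 (branch (move 590 (branch (move 622 (leaf 493 4)) (move 588 (branch (move 620 (leaf 492 5)) (move 559 (branch (move 560 (leaf 556 1)) (move 587 (leaf 555 2)))))))) (branch (move 588 (branch (move 620 (leaf 492 5)) (move 559 (branch (move 560 (leaf 556 1)) (move 587 (branch (move 556 (leaf 555 1)) (move 586 (leaf 554 2)))))))) (move 590 (branch (move 622 (leaf 493 4)) (move 494 (branch (move 462 (leaf 461 5)) (move 591 (branch (move 623 (leaf 494 4)) (move 592 (branch (move 556 (leaf 556 3)) (move 593 (leaf 557 3)))))))))))))))))))) (branch (move 558 (branch (ref 5) (branch (ref 6) (branch (ref 7) (branch (move 494 (branch (move 495 (branch (move 496 (branch (move 497 (leaf 493 1)) (move 493 (branch (move 524 (leaf 492 1)) (move 461 (branch (move 460 (leaf 460 3)) (move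 429 (leaf 429 4)))))))) (move 590 (branch (move 463 (leaf 462 6)) (move 622 (branch (move 654 (leaf 525 7)) (move 623 (branch (move 591 (leaf 494 4)) (move 655 (leaf 526 4)))))))))) (move 462 (branch (move 430 (leaf 429 5)) (move 589 (leaf 461 5)))))) (move 590 (branch (move 493 (branch (move 461 (leaf 461 4)) (move 622 (leaf 493 7)))) (branch (move 494 (branch (move 591 (branch (move 623 (leaf 494 4)) (move 556 (branch (move 555 (leaf 555 0)) (move 592 (branch (move 559 (leaf 556 0)) (move 593 (leaf 557 3)))))))) (move 461 (branch (move 493 (leaf 461 4)) (move 462 (branch (move 430 (leaf 429 5)) (move 429 (leaf 429 7)))))))) (move 622 (branch (move 654 (leaf 525 7)) (move 623 (branch (move 655 (leaf 526 4)) (move 494 (branch (move 591 (leaf 494 4)) (move 462 (branch (move 430 (leaf 429 5)) (move 589 (leaf 461 5)))))))))))))))))) (branch (move 523 (branch (move 524 (branch (move 494 (branch (move 495 (leaf 491 2)) (move 589 (branch (move 621 (leaf 493 6)) (move 462 (branch (move 430 (leaf 429 5)) (move 493 (leaf 461 6)))))))) (move 490 (branch (move 491 (leaf 490 3)) (move 522 (branch (move 489 (leaf 489 3)) (move 521 (branch (move 556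 (leaf 521 0)) (move 553 (branch (move 552 (leaf 520 1)) (move 554 (leaf 521 1)))))))))))) (branch (move 524 (branch (move 494 (branch (move 495 (leaf 491 2)) (move 589 (branch (move 621 (leaf 493 6)) (move 462 (branch (move 430 (leaf 429 5)) (move 493 (leaf 461 6)))))))) (move 558 (branch (move 522 (leaf 522 0)) (move 559 (leaf 523 0)))))) (branch (move 589 (branch (ref 8) (branch (move 621 (branch (move 494 (leaf 493 6)) (move 652 (branch (move 620 (leaf 524 5)) (move 653 (branch (move 684 (leaf 556 5)) (move 654 (branch (move 622 (leaf 525 4)) (move 686 (leaf 557 4)))))))))) (branch (move 494 (branch (move 621 (leaf 493 6)) (move 462 (branch (move 430 (leaf 429 5)) (move 493 (leaf 461 6)))))) (ref 9))))) (branch (ref 10) (move 589 (branch (ref 8) (branch (move 621 (branch (move 494 (leaf 493 6)) (move 652 (branch (move 620 (leaf 524 5)) (move 653 (branch (move 684 (leaf 556 5)) (move 654 (branch (move 622 (leaf 525 4)) (move 686 (leaf 557 4)))))))))) (branch (move 494 (branch (move 621 (leaf 493 6)) (move 462 (branch (move 430 (leaf 429 5)) (move 493 (leaf 461 6)))))) (ref 11)))))))))) (branch (move 558 (branch (ref 12) (branch (ref 6)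 (branch (ref 13) (branch (ref 14) (branch (ref 15) (branch (move 494 (branch (move 589 (branch (move 462 (leaf 461 5)) (move 621 (leaf 493 6)))) (branch (move 462 (branch (move 430 (leaf 429 5)) (move 463 (branch (move 431 (leaf 430 6)) (move 495 (branch (move 590 (leaf 462 6)) (move 524 (branch (move 523 (leaf 491 2)) (move 496 (branch (move 493 (leaf 492 1)) (move 497 (leaf 493 1)))))))))))) (ref 16)))) (move 589 (branch (move 494 (branch (move 462 (leaf 461 5)) (move 621 (leaf 493 6)))) (move 588 (branch (move 620 (branch (move 493 (leaf 492 5)) (move 652 (branch (move 556 (leaf 524 6)) (move 684 (leaf 556 6)))))) (branch (move 559 (branch (move 560 (leaf 556 1)) (move 587 (branch (move 556 (leaf 555 1)) (move 586 (leaf 554 2)))))) (move 559 (branch (move 560 (leaf 556 1)) (move 523 (branch (move 524 (leaf 523 0)) (move 620 (branch (move 493 (leaf 492 5)) (move 587 (branch (move 586 (leaf 554 2)) (move 555 (branch (move 491 (leaf 491 4)) (move 652 (branch (move 619 (leaf 523 4)) (move 684 (leaf 556 6)))))))))))))))))))))))))) (branch (move 523 (branch (move 524 (branch (move 494 (branch (move 495 (leaf 491 2)) (move 589 (branch (move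 621 (leaf 493 6)) (move 462 (branch (move 430 (leaf 429 5)) (move 493 (leaf 461 6)))))))) (move 490 (branch (move 491 (leaf 490 3)) (move 522 (branch (move 489 (leaf 489 3)) (move 521 (branch (move 556 (leaf 521 0)) (move 553 (branch (move 552 (leaf 520 1)) (move 554 (leaf 521 1)))))))))))) (branch (move 524 (branch (move 494 (branch (move 495 (leaf 491 2)) (move 589 (branch (move 621 (leaf 493 6)) (move 462 (branch (move 430 (leaf 429 5)) (move 493 (leaf 461 6)))))))) (move 558 (branch (move 522 (leaf 522 0)) (move 559 (leaf 523 0)))))) (branch (ref 10) (branch (ref 17) (move 589 (branch (ref 18) (branch (move 494 (branch (move 621 (leaf 493 6)) (move 462 (branch (move 430 (leaf 429 5)) (move 493 (leaf 461 6)))))) (branch (move 621 (branch (move 494 (leaf 493 6)) (move 653 (branch (move 558 (leaf 525 6)) (move 652 (branch (move 620 (leaf 524 5)) (move 684 (leaf 556 5)))))))) (ref 11)))))))))) (branch (ref 19) (branch (ref 20) (branch (move 494 (branch (move 462 (branch (move 430 (leaf 429 5)) (move 589 (branch (move 493 (leaf 461 6)) (move 621 (leaf 493 6)))))) (branch (move 462 (branch (move 430 (leaf 429 5)) (move 589 (branch (move 558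 (leaf 461 5)) (move 621 (leaf 493 6)))))) (branch (move 558 (branch (move 559 (branch (move 560 (branch (move 561 (leaf 525 3)) (move 592 (branch (move 593 (leaf 557 0)) (move 556 (branch (move 591 (leaf 556 0)) (move 555 (branch (move 554 (leaf 522 2)) (move 587 (branch (move 586 (leaf 554 1)) (move 588 (leaf 555 1)))))))))))) (branch (move 524 (branch (move 523 (leaf 523 0)) (move 560 (leaf 524 3)))) (move 556 (branch (move 555 (branch (move 554 (leaf 522 2)) (move 587 (branch (move 586 (leaf 554 1)) (move 588 (leaf 555 1)))))) (move 524 (branch (move 523 (leaf 523 0)) (move 591 (branch (move 592 (leaf 556 0)) (move 623 (branch (move 590 (leaf 494 4)) (move 655 (leaf 526 7))))))))))))) (branch (move 462 (branch (move 430 (leaf 429 5)) (move 559 (branch (move 591 (leaf 462 4)) (move 524 (branch (move 523 (leaf 523 0)) (move 560 (leaf 524 3)))))))) (branch (move 462 (branch (move 430 (leaf 429 5)) (move 463 (branch (move 431 (leaf 430 6)) (move 495 (branch (move 590 (leaf 462 6)) (move 524 (branch (move 523 (leaf 491 2)) (move 496 (branch (move 493 (leaf 492 1)) (move 497 (leaf 493 1)))))))))))) (move 462 (branch (move 430 (leaf 429 5))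 (move 559 (branch (move 591 (leaf 462 4)) (move 560 (branch (move 561 (leaf 525 3)) (move 463 (branch (move 431 (leaf 430 6)) (move 590 (branch (move 495 (leaf 462 6)) (move 622 (branch (move 493 (leaf 493 7)) (move 654 (leaf 525 7)))))))))))))))))) (ref 21))))) (branch (move 494 (branch (move 558 (branch (move 559 (branch (move 560 (branch (move 561 (leaf 525 3)) (move 592 (branch (move 593 (leaf 557 0)) (move 556 (branch (move 591 (leaf 556 0)) (move 555 (branch (move 554 (leaf 522 2)) (move 587 (branch (move 586 (leaf 554 1)) (move 588 (leaf 555 1)))))))))))) (branch (move 524 (branch (move 523 (leaf 523 0)) (move 560 (leaf 524 3)))) (move 556 (branch (move 588 (branch (move 587 (leaf 555 1)) (move 493 (branch (move 461 (leaf 460 5)) (move 620 (branch (move 524 (leaf 492 6)) (move 652 (leaf 524 6)))))))) (branch (move 555 (branch (move 554 (leaf 522 2)) (move 587 (branch (move 586 (leaf 554 1)) (move 588 (leaf 555 1)))))) (move 523 (branch (move 524 (leaf 523 0)) (move 555 (branch (move 554 (leaf 522 2)) (move 522 (leaf 522 3)))))))))))) (branch (move 462 (branch (move 430 (leaf 429 5)) (move 559 (branch (move 591 (leaf 462 4)) (move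 524 (branch (move 523 (leaf 523 0)) (move 560 (leaf 524 3)))))))) (branch (ref 22) (move 462 (branch (move 430 (leaf 429 5)) (move 461 (branch (move 429 (leaf 429 7)) (move 559 (branch (move 591 (leaf 462 4)) (move 560 (branch (move 561 (leaf 525 3)) (move 463 (branch (move 431 (leaf 430 6)) (move 592 (branch (move 593 (leaf 557 0)) (move 528 (branch (move 529 (leaf 525 2)) (move 496 (branch (move 495 (leaf 463 7)) (move 497 (branch (move 464 (leaf 461 0)) (move 465 (leaf 464 6)))))))))))))))))))))))) (branch (move 462 (branch (move 430 (leaf 429 5)) (move 589 (branch (move 493 (leaf 461 6)) (move 621 (leaf 493 6)))))) (branch (move 462 (branch (move 430 (leaf 429 5)) (move 589 (branch (move 558 (leaf 461 5)) (move 621 (leaf 493 6)))))) (ref 21))))) (ref 23)))))))))))))))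
theorem a6p489 : a6e489.Valid :=
  pos_of_chk [a6e455, a6e460, a6e466, a6e467, a6e454, a6e468, a6e456, a6e459, a6e469, a6e470, a6e471, a6e473, a6e461, a6e463, a6e464, a6e465, a6e462, a6e474, a6e475, a6e476, a6e480, a6e481, a6e458, a6e488] (forall_cons a6p455 (forall_cons a6p460 (forall_cons a6p466 (forall_cons a6p467 (forall_cons a6p454 (forall_cons a6p468 (forall_cons a6p456 (forall_cons a6p459 (forall_cons a6p469 (forall_cons a6p470 (forall_cons a6p471 (forall_cons a6p473 (forall_cons a6p461 (forall_cons a6p463 (forall_cons a6p464 (forall_cons a6p465 (forall_cons a6p462 (forall_cons a6p474 (forall_cons a6p475 (forall_cons a6p476 (forall_cons a6p480 (forall_cons a6p481 (forall_cons a6p458 (forall_cons a6p488 forall_nil)))))))))))))))))))))))) a6c489 a6e489 (by decide +kernel)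

def a6e490 : Pos := ⟨471745303432202956742036953072807720909429683134833626964815496311773740034513402676930344145189525702683868901939986874450857613342784134814620530828885453200437542912, 321053216778053891366735482282313675179843824896578129981547732475631051268237555330877358116046748440876504760681610817701039530383802583012772432967625910817760537988646287800443081426855887448287848955904, 6⟩
def a6c490 : Cert := (move 589 (branch (move 620 (branch (move 588 (leaf 492 5)) (move 621 (branch (move 652 (leaf 524 5)) (move 653 (branch (move 558 (leaf 525 6)) (move 654 (branch (move 686 (leaf 557 4)) (move 622 (leaf 525 4)))))))))) (branch (move 622 (branch (move 590 (leaf 493 4)) (move 621 (branch (move 654 (leaf 525 4)) (move 620 (branch (move 652 (leaf 524 5)) (move 588 (leaf 492 5)))))))) (branch (move 558 (branch (move 590 (leaf 461 4)) (move 621 (branch (move 653 (leaf 525 6)) (move 620 (branch (move 652 (leaf 524 5)) (move 588 (leaf 492 5)))))))) (move 590 (branch (move 622 (leaf 493 4)) (move 558 (leaf 461 4))))))))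
theorem a6p490 : a6e490.Valid :=
  pos_of_chk [] forall_nil a6c490 a6e490 (by decide +kernel)

def a6e491 : Pos := ⟨329510287711842630443319846715384918935398512783571175635645689708744286616338535786294382711775366235206349174532383405528418478745908719768282991202651865088, 321053216778053891366735482282313675182320487737963373661936512094594819327930324076022893931176674574666663395112074413480505771487965858702711157130048805073332908664720978289060816023828721675219142443008, 12⟩
def a6c491 : Cert := (move 461 (branch (move 430 (branch (move 557 (branch (move 462 (leaf 429 6)) (move 460 (branch (move 428 (leaf 428 7)) (move 589 (branch (move 492 (leaf 460 7)) (move 622 (branch (move 590 (leaf 493 4)) (move 621 (branch (move 654 (leaf 525 4)) (move 620 (branch (move 652 (leaf 524 5)) (move 588 (leaf 492 5)))))))))))))) (branch (move 429 (branch (move 398 (leaf 397 6)) (move 428 (branch (move 396 (leaf 396 7)) (move 460 (branch (move 557 (leaf 428 7)) (move 459 (branch (move 458 (leaf 426 2)) (move 431 (leaf 427 1)))))))))) (branch (move 429 (branch (move 398 (leaf 397 6)) (move 396 (branch (move 428 (leaf 396 7)) (move 397 (branch (move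 364 (leaf 364 7)) (move 492 (branch (move 524 (leaf 396 5)) (move 460 (branch (move 365 (leaf 364 5)) (move 431 (branch (move 432 (leaf 428 1)) (move 459 (branch (move 458 (leaf 426 2)) (move 462 (leaf 427 2)))))))))))))))) (move 462 (branch (move 557 (leaf 429 6)) (move 398 (branch (move 429 (leaf 397 6)) (move 366 (leaf 365 5)))))))))) (branch (move 429 (branch (move 558 (leaf 429 4)) (move 430 (branch (move 398 (leaf 397 6)) (move 396 (branch (move 428 (leaf 396 7)) (move 397 (branch (move 364 (leaf 364 7)) (move 492 (branch (move 524 (leaf 396 5)) (move 460 (branch (move 365 (leaf 364 5)) (move 431 (branch (move 432 (leaf 428 1)) (move 459 (branch (move 458 (leaf 426 2)) (move 462 (leaf 427 2)))))))))))))))))) (branch (move 558 (branch (move 429 (leaf 429 4)) (move 590 (branch (move 622 (leaf 493 7)) (move 557 (leaf 461 4)))))) (move 557 (branch (move 460 (branch (move 428 (leaf 428 7)) (move 492 (branch (move 589 (leaf 460 7)) (move 491 (branch (move 490 (leaf 490 0)) (move 462 (branch (move 463 (leaf 459 1)) (move 430 (leaf 429 6)))))))))) (branch (ref 0) (move 558 (branch (move 590 (leaf 461 4)) (move 460 (branch (move 428 (leaf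 428 7)) (move 462 (branch (move 430 (leaf 429 6)) (move 491 (branch (move 463 (branch (move 492 (leaf 459 1)) (move 496 (branch (move 495 (leaf 460 0)) (move 464 (branch (move 497 (leaf 461 0)) (move 432 (branch (move 431 (leaf 428 2)) (move 433 (leaf 429 2)))))))))) (move 459 (branch (move 490 (leaf 458 1)) (move 426 (branch (move 427 (leaf 426 3)) (move 458 (branch (move 425 (leaf 425 3)) (move 523 (branch (move 555 (leaf 426 7)) (move 524 (branch (move 522 (leaf 522 0)) (move 559 (leaf 523 0)))))))))))))))))))))))))))
theorem a6p491 : a6e491.Valid :=
  pos_of_chk [a6e490] (forall_cons a6p490 forall_nil) a6c491 a6e491 (by decide +kernel)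

def a6e492 : Pos := ⟨329510287762989358691697063434341007948329749536956207605068577044420714242840626355117422631826461427798601630014987845021544588264928353297742257660910108672, 4052261302452797719792659868837995124173544785000751158837842882719728846159310709523749867016953423954674269399947668583375980115870724509072227347624390576311237222585266601984, 7⟩
def a6c492 : Cert := (move 495 (branch (move 524 (branch (move 523 (leaf 491 2)) (move 496 (leaf 492 1)))) (branch (move 496 (branch (move 497 (leaf 493 1)) (move 464 (branch (move 465 (leaf 461 2)) (move 463 (branch (move 492 (leaf 460 2)) (move 528 (branch (move 529 (leaf 493 0)) (move 431 (branch (move 560 (leaf 431 7)) (move 399 (leaf 399 4)))))))))))) (move 524 (branch (move 523 (leaf 491 2)) (move 492 (branch (move 491 (branch (move 490 (leaf 490 0)) (move 459 (branch (move 458 (leaf 458 3)) (move 460 (leaf 459 3)))))) (move 463 (branch (move 464 (leaf 460 2)) (move 558 (branch (move 590 (leaf 462 6)) (move 431 (branch (move 462 (leaf 430 6)) (move 399 (leaf 398 5)))))))))))))))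
theorem a6p492 : a6e492.Valid :=
  pos_of_chk [] forall_nil a6c492 a6e492 (by decide +kernel)

def a6e493 : Pos := ⟨329510287762989358691697063434341007948329749536956207605068577044420714242840626355117422631826461427798601630014987845021544588264928353297742257660910108672, 60915154135112098564711584647831931899185932221013047052226219722624531514559962541333831312758720686814471045603320542567721496504310602460425721219799040355090013088197710674194665046016, 11⟩
def a6c493 : Cert := (move 492 (branch (move 491 (branch (move 490 (leaf 490 0)) (move 462 (branch (move 463 (leaf 459 2)) (move 430 (branch (move 557 (leaf 429 5)) (move 398 (leaf 397 5)))))))) (branch (move 460 (branch (move 557 (branch (move 589 (leaf 460 7)) (move 428 (branch (move 524 (leaf 428 4)) (move 396 (leaf 396 4)))))) (branch (move 491 (branch (move 490 (leaf 490 0)) (move 523 (branch (move 522 (leaf 490 1)) (move 428 (branch (move 396 (leaf 396 4)) (move 555 (branch (move 587 (leaf 459 6)) (move 459 (leaf 427 6)))))))))) (move 491 (branch (move 490 (leaf 490 0)) (move 523 (branch (move 522 (leaf 490 1)) (move 459 (branch (move 458 (leaf 458 3)) (move 555 (branch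 (move 587 (leaf 459 6)) (move 554 (branch (move 524 (leaf 522 1)) (move 586 (leaf 458 5))))))))))))))) (branch (move 491 (branch (move 490 (leaf 490 0)) (move 523 (branch (move 522 (leaf 490 1)) (move 462 (branch (move 463 (leaf 459 2)) (move 430 (branch (move 398 (leaf 397 5)) (move 459 (branch (move 458 (leaf 458 3)) (move 431 (branch (move 399 (leaf 398 6)) (move 429 (branch (move 397 (leaf 397 7)) (move 428 (branch (move 460 (leaf 427 1)) (move 396 (branch (move 395 (leaf 395 3)) (move 427 (leaf 395 6)))))))))))))))))))) (move 462 (branch (move 430 (branch (move 398 (leaf 397 5)) (move 431 (branch (move 399 (leaf 398 6)) (move 558 (branch (move 463 (leaf 430 6)) (move 590 (branch (move 622 (leaf 493 7)) (move 591 (branch (move 623 (leaf 494 4)) (move 559 (leaf 462 4)))))))))))) (branch (move 557 (branch (move 589 (leaf 461 6)) (move 430 (leaf 429 5)))) (move 558 (branch (move 559 (branch (move 591 (leaf 462 4)) (move 524 (branch (move 523 (leaf 523 0)) (move 560 (branch (move 557 (leaf 524 3)) (move 561 (leaf 525 3)))))))) (branch (move 590 (branch (move 622 (leaf 493 7)) (move 591 (branch (move 623 (leaf 494 4)) (move 559 (leaf 462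 4)))))) (move 589 (branch (move 557 (leaf 461 5)) (move 590 (branch (move 622 (leaf 493 7)) (move 621 (leaf 493 5))))))))))))))))
theorem a6p493 : a6e493.Valid :=
  pos_of_chk [] forall_nil a6c493 a6e493 (by decide +kernel)

def a6e494 : Pos := ⟨943490606534895625823378003938764286163571313052439856631007782666474617642457927264372307649532114517193555185489562854957634002502742746405286916155916268573258940416, 68529548449773472587840002974841834781249860140273753344945483831554250853006527189500562585716964861937382157538348110290135742129202666959575844144445750258503616654490498374515036258304, 14⟩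
def a6c494 : Cert := (move 560 (branch (move 559 (branch (move 561 (leaf 525 3)) (move 524 (branch (move 557 (leaf 524 3)) (move 523 (leaf 523 0)))))) (branch (move 590 (branch (move 622 (leaf 493 7)) (move 589 (branch (move 621 (leaf 493 5)) (move 591 (branch (move 623 (leaf 494 4)) (move 592 (branch (move 561 (leaf 557 2)) (move 557 (branch (move 593 (leaf 557 3)) (move 588 (branch (move 620 (leaf 492 5)) (move 587 (branch (move 586 (leaf 554 2)) (move 492 (branch (move 460 (leaf 460 7)) (move 491 (branch (move 490 (leaf 490 0)) (move 523 (branch (move 522 (leaf 490 1)) (move 555 (branch (move 554 (leaf 554 3)) (move 619 (branch (move 618 (leaf 586 1)) (move 524 (leaf 491 6)))))))))))))))))))))))))) (branch (move 590 (branch (move 622 (leaf 493 7)) (move 589 (branch (move 621 (leaf 493 5)) (move 591 (branch (move 623 (leaf 494 4)) (move 559 (branch (move 588 (leaf 556 2)) (move 524 (branch (move 557 (leaf 524 3)) (move 523 (leaf 523 0)))))))))))) (move 590 (branch (move 622 (leaf 493 7)) (move 559 (branch (move 561 (leaf 525 3)) (move 591 (branch (move 623 (leaf 494 4)) (move 589 (branch (move 588 (leaf 556 2)) (move 621 (leaf 493 5))))))))))))))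
theorem a6p494 : a6e494.Valid :=
  pos_of_chk [] forall_nil a6c494 a6e494 (by decide +kernel)

def a6e495 : Pos := ⟨329510287762989358691697063434341007948329749536956207605068577044420714242840626355117422631826461427798601630014987845021544588264928353297742257660910108672, 149502054226773641374207383764370639716027225945634659003807290225091386467808298121266746795667016685022302900874003389366084602073370121592971473397692666985120486375241701818127083274221461176320, 15⟩
def a6c495 : Cert := (move 558 (branch (ref 0) (branch (move 559 (branch (move 560 (branch (move 561 (leaf 525 3)) (move 557 (branch (move 524 (leaf 524 3)) (move 589 (branch (move 588 (leaf 556 1)) (move 621 (leaf 493 6)))))))) (branch (move 462 (branch (move 591 (leaf 462 4)) (move 557 (branch (move 589 (leaf 461 5)) (move 430 (leaf 429 5)))))) (move 524 (branch (move 523 (leaf 523 0)) (move 496 (branch (move 495 (leaf 492 1)) (move 591 (branch (move 462 (leaf 462 4)) (move 560 (branch (move 561 (leaf 525 3)) (move 528 (branch (move 464 (leaf 463 5)) (move 623 (branch (move 655 (leaf 527 6)) (move 592 (leaf 495 5))))))))))))))))) (branch (move 590 (branch (move 622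 (leaf 493 7)) (move 591 (branch (move 623 (leaf 494 4)) (move 559 (branch (move 462 (leaf 462 4)) (move 589 (branch (move 621 (leaf 493 5)) (move 560 (branch (move 588 (leaf 556 2)) (move 561 (leaf 557 1)))))))))))) (branch (move 590 (branch (move 622 (leaf 493 7)) (move 591 (branch (move 623 (leaf 494 4)) (move 559 (branch (move 462 (leaf 462 4)) (move 524 (branch (move 523 (leaf 523 0)) (move 560 (branch (move 557 (leaf 524 3)) (move 561 (leaf 525 3)))))))))))) (branch (move 590 (branch (move 622 (leaf 493 7)) (move 589 (branch (move 621 (leaf 493 5)) (move 557 (branch (move 462 (leaf 461 5)) (move 588 (branch (move 620 (leaf 492 5)) (move 587 (branch (move 586 (leaf 554 2)) (move 559 (leaf 555 2)))))))))))) (move 590 (branch (move 622 (leaf 493 7)) (move 591 (branch (move 623 (leaf 494 4)) (move 589 (branch (move 621 (leaf 493 5)) (move 557 (branch (move 462 (leaf 461 5)) (move 588 (branch (move 620 (leaf 492 5)) (move 492 (branch (move 460 (leaf 460 7)) (move 491 (branch (move 490 (leaf 490 0)) (move 523 (branch (move 522 (leaf 490 1)) (move 524 (branch (move 495 (leaf 491 1)) (move 587 (branch (move 586 (leaf 554 2)) (move 555 (branch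 (move 554 (leaf 522 1)) (move 619 (leaf 491 6))))))))))))))))))))))))))))))
theorem a6p495 : a6e495.Valid :=
  pos_of_chk [a6e494] (forall_cons a6p494 forall_nil) a6c495 a6e495 (by decide +kernel)

def a6e496 : Pos := ⟨329510287711842630443319846715384918935398512783571175635645689708744286616338535786294382711775366235206349174532383405528418478745908719768282991202651865088, 149502054226773641374207383764370639717784614147088415645199369885284427695234122321596785514510480840735189110884988621094924533293067556090300727920059652177786714518205572882870861808763469299712, 16⟩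
def a6c496 : Cert := (move 494 (branch (ref 0) (branch (move 462 (branch (move 430 (branch (move 398 (leaf 397 5)) (move 431 (branch (move 399 (leaf 398 6)) (move 463 (branch (move 558 (leaf 430 6)) (move 429 (branch (move 397 (leaf 397 7)) (move 464 (branch (move 465 (leaf 461 1)) (move 428 (leaf 428 0)))))))))))) (branch (move 557 (branch (move 589 (leaf 461 6)) (move 430 (leaf 429 5)))) (move 558 (branch (move 463 (branch (move 431 (leaf 430 6)) (move 492 (branch (move 491 (leaf 459 2)) (move 464 (branch (move 495 (leaf 460 2)) (move 465 (leaf 461 1)))))))) (move 589 (branch (move 557 (leaf 461 5)) (move 590 (branch (move 622 (leaf 493 7)) (move 621 (leaf 493 5))))))))))) (branch (move 524 (branch (move 495 (branch (move 523 (leaf 491 2)) (move 496 (leaf 492 1)))) (move 462 (branch (move 430 (branch (move 398 (leaf 397 5)) (move 431 (branch (move 399 (leaf 398 6)) (move 463 (branch (move 558 (leaf 430 6)) (move 429 (branch (move 397 (leaf 397 7)) (move 464 (branch (move 465 (leaf 461 1)) (move 428 (leaf 428 0)))))))))))) (branch (move 557 (branch (move 589 (leaf 461 6)) (move 430 (leaf 429 5)))) (move 558 (branch (move 590 (branch (move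 622 (leaf 493 7)) (move 591 (branch (move 623 (leaf 494 4)) (move 559 (leaf 462 4)))))) (branch (move 557 (branch (move 589 (leaf 461 5)) (move 559 (branch (move 560 (leaf 524 3)) (move 591 (leaf 462 4)))))) (move 589 (branch (move 557 (leaf 461 5)) (move 590 (branch (move 622 (leaf 493 7)) (move 621 (leaf 493 5)))))))))))))) (branch (ref 1) (branch (move 495 (branch (move 524 (branch (move 523 (leaf 491 2)) (move 496 (leaf 492 1)))) (branch (move 492 (branch (move 523 (branch (move 524 (leaf 491 1)) (move 491 (branch (move 490 (leaf 490 0)) (move 522 (leaf 490 1)))))) (branch (move 460 (branch (move 459 (leaf 459 3)) (move 557 (branch (move 589 (leaf 460 7)) (move 428 (branch (move 524 (leaf 428 4)) (move 396 (leaf 396 4)))))))) (move 491 (branch (move 490 (leaf 490 0)) (move 459 (branch (move 458 (leaf 458 3)) (move 460 (leaf 459 3))))))))) (move 496 (branch (move 497 (leaf 493 1)) (move 464 (branch (move 465 (leaf 461 2)) (move 492 (branch (move 463 (leaf 460 2)) (move 491 (branch (move 490 (leaf 490 0)) (move 459 (branch (move 458 (leaf 458 3)) (move 460 (leaf 459 3))))))))))))))) (ref 2)))))))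
theorem a6p496 : a6e496.Valid :=
  pos_of_chk [a6e492, a6e493, a6e495] (forall_cons a6p492 (forall_cons a6p493 (forall_cons a6p495 forall_nil))) a6c496 a6e496 (by decide +kernel)

def a6e497 : Pos := ⟨329510287762989358691697063434341007948329749536956207605068577044420714242840626355117422631826461427798601630014987845021544588264928353297742257660910108672, 96107167980259425284740522406656965647325144987982140006565641949573684996004871383812071953224518564560595422474017978564301487842925459437455816811236818944, 10⟩
def a6c497 : Cert := (move 495 (branch (move 496 (branch (move 497 (leaf 493 1)) (move 464 (branch (move 465 (leaf 461 2)) (move 492 (branch (move 463 (leaf 460 2)) (move 460 (branch (move 459 (leaf 459 3)) (move 461 (leaf 460 3)))))))))) (branch (move 524 (branch (move 523 (leaf 491 2)) (move 496 (leaf 492 1)))) (move 492 (branch (move 523 (branch (move 524 (leaf 491 1)) (move 491 (branch (move 490 (leaf 490 0)) (move 522 (leaf 490 1)))))) (branch (move 491 (branch (move 490 (leaf 490 0)) (move 463 (branch (move 462 (leaf 459 2)) (move 464 (leaf 460 2)))))) (move 524 (branch (move 523 (leaf 491 1)) (move 460 (branch (move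 459 (leaf 459 3)) (move 428 (branch (move 396 (leaf 396 4)) (move 429 (branch (move 397 (leaf 396 6)) (move 463 (branch (move 464 (leaf 460 2)) (move 427 (branch (move 395 (leaf 395 7)) (move 462 (branch (move 461 (leaf 427 3)) (move 430 (leaf 427 0))))))))))))))))))))))
theorem a6p497 : a6e497.Valid :=
  pos_of_chk [] forall_nil a6c497 a6e497 (by decide +kernel)

def a6e498 : Pos := ⟨943490606534895625823378003938764286163571313052439856631007782666474617642457927264372307649532114517193555185489562854957634002502742746405286916155916268573258940416, 1886981212506877843381785849686336455366357167272224752337757304684693325014338499371812197538993063539266050314901278141783914395063953301785360287009991267823887843328, 6⟩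
def a6c498 : Cert := (move 524 (branch (move 462 (branch (move 430 (branch (move 398 (leaf 397 5)) (move 431 (branch (move 463 (leaf 430 6)) (move 399 (leaf 398 6)))))) (branch (move 461 (branch (move 429 (leaf 429 4)) (move 463 (branch (move 431 (leaf 430 6)) (move 492 (branch (move 491 (leaf 459 2)) (move 464 (leaf 460 1)))))))) (move 429 (branch (move 461 (leaf 429 4)) (move 430 (branch (move 397 (leaf 397 7)) (move 398 (leaf 397 5))))))))) (move 523 (branch (move 522 (leaf 490 2)) (move 559 (leaf 523 0))))))
theorem a6p498 : a6e498.Valid :=
  pos_of_chk [] forall_nil a6c498 a6e498 (by decide +kernel)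

def a6e499 : Pos := ⟨329510287762989358691697063434341007948329749536956207605068577044420714242840626355117422631826461427798601630014987845021544588264928353297742257660910108672, 52212989258016256765735721259508713822303949593512368713851775111244186686288415425925649891155603218775341814850555164186808744365861150146747860267430776385839458734505087672367928311808, 9⟩
def a6c499 : Cert := (move 492 (branch (move 491 (branch (move 490 (leaf 490 0)) (move 459 (branch (move 458 (leaf 458 3)) (move 460 (branch (move 495 (leaf 459 3)) (move 523 (branch (move 522 (leaf 490 1)) (move 428 (branch (move 555 (leaf 427 6)) (move 396 (leaf 396 4)))))))))))) (branch (move 491 (branch (move 490 (leaf 490 0)) (move 462 (branch (move 463 (leaf 459 2)) (move 430 (branch (move 398 (leaf 397 5)) (move 429 (branch (move 397 (leaf 397 7)) (move 558 (branch (move 461 (leaf 429 4)) (move 590 (branch (move 622 (leaf 493 7)) (move 591 (branch (move 623 (leaf 494 4)) (move 559 (leaf 462 4)))))))))))))))) (move 495 (branch (move 463 (branch (move 464 (leaf 460 2)) (move 558 (branch (move 590 (leaf 462 6)) (move 431 (branch (move 462 (leaf 430 6)) (move 399 (leaf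 398 5)))))))) (move 496 (branch (move 497 (leaf 493 1)) (move 460 (branch (move 459 (leaf 459 3)) (move 461 (leaf 460 3)))))))))))
theorem a6p499 : a6e499.Valid :=
  pos_of_chk [] forall_nil a6c499 a6e499 (by decide +kernel)

def a6e500 : Pos := ⟨329510287762989358691697063434341007948329749536956207605068577044420714242840626355117422631826461427798601630014987845021544588264928353297742257660910108672, 52212989258016256765617784933787959036305069197057733710383158888644102811983479749323171643825466634958365139365307208851104024694282219100990351570814691595153524068450846157243647262720, 8⟩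
def a6c500 : Cert := (move 524 (branch (move 558 (branch (move 590 (branch (move 622 (leaf 493 7)) (move 591 (branch (move 623 (leaf 494 4)) (move 462 (branch (move 559 (leaf 462 4)) (move 430 (branch (move 398 (leaf 397 5)) (move 431 (branch (move 463 (leaf 430 6)) (move 399 (leaf 398 6)))))))))))) (branch (move 461 (branch (move 590 (leaf 461 7)) (move 429 (leaf 429 4)))) (move 462 (branch (move 430 (branch (move 398 (leaf 397 5)) (move 431 (branch (move 463 (leaf 430 6)) (move 399 (leaf 398 6)))))) (branch (move 429 (branch (move 461 (leaf 429 4)) (move 430 (branch (move 397 (leaf 397 7)) (move 398 (leaf 397 5)))))) (move 461 (branch (move 429 (leaf 429 4)) (move 496 (branch (move 495 (leaf 492 1)) (move 463 (branch (move 431 (leaf 430 6)) (move 464 (branch (move 497 (leaf 461 0)) (move 465 (leaf 461 1)))))))))))))))) (branch (move 523 (branch (move 522 (leaf 490 2)) (move 558 (branch (move 559 (leaf 523 0)) (move 590 (branch (move 622 (leaf 493 7)) (move 461 (leaf 461 7)))))))) (move 523 (branch (move 522 (leaf 490 2)) (move 495 (leaf 491 2)))))))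
theorem a6p500 : a6e500.Valid :=
  pos_of_chk [] forall_nil a6c500 a6e500 (by decide +kernel)

def a6e501 : Pos := ⟨329510287762989358691697063434341007948329749536956207605068577044420714242840626355117422631826461427798601630014987845021544588264928353297742257660910108672, 52212989258016256765617784933746770250366662232286449112608090942117020199169670554528873797125110356003456106037154000617755195219369175734276945037629482862966990784567869136380574564352, 9⟩
def a6c501 : Cert := (move 492 (branch (move 491 (branch (move 490 (leaf 490 0)) (move 462 (branch (move 463 (leaf 459 2)) (move 430 (branch (move 398 (leaf 397 5)) (move 429 (branch (move 397 (leaf 397 7)) (move 558 (branch (move 461 (leaf 429 4)) (move 590 (branch (move 622 (leaf 493 7)) (move 591 (branch (move 623 (leaf 494 4)) (move 559 (leaf 462 4)))))))))))))))) (branch (move 495 (branch (move 463 (branch (move 464 (leaf 460 2)) (move 558 (branch (move 590 (leaf 462 6)) (move 431 (branch (move 462 (leaf 430 6)) (move 399 (leaf 398 5)))))))) (move 496 (branch (move 497 (leaf 493 1)) (move 460 (branch (move 459 (leaf 459 3)) (move 461 (leaf 460 3)))))))) (move 491 (branch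 (move 490 (leaf 490 0)) (move 459 (branch (move 458 (leaf 458 3)) (move 495 (branch (move 460 (leaf 459 3)) (move 496 (branch (move 524 (leaf 492 1)) (move 497 (leaf 493 1)))))))))))))
theorem a6p501 : a6e501.Valid :=
  pos_of_chk [] forall_nil a6c501 a6e501 (by decide +kernel)

def a6e502 : Pos := ⟨329510287711842630443319846715384918935398512783571175635645689708744286616338535786294382711775366235206349174532383405528418478745908719768282991202651865088, 60915154135365364895289330227355439530308437385085110969288005221885403371169953374255322075935886484744452828284163720942831904646474732159272090300718533113600198968294795401939073892352, 14⟩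
def a6c502 : Cert := (move 494 (branch (ref 0) (branch (move 495 (branch (move 496 (branch (move 497 (leaf 493 1)) (move 464 (branch (move 465 (leaf 461 2)) (move 492 (branch (move 463 (leaf 460 2)) (move 460 (branch (move 459 (leaf 459 3)) (move 461 (leaf 460 3)))))))))) (branch (move 524 (branch (move 523 (leaf 491 2)) (move 496 (leaf 492 1)))) (move 492 (branch (move 523 (branch (move 524 (leaf 491 1)) (move 491 (branch (move 490 (leaf 490 0)) (move 522 (leaf 490 1)))))) (branch (move 491 (branch (move 490 (leaf 490 0)) (move 459 (branch (move 458 (leaf 458 3)) (move 460 (leaf 459 3)))))) (move 524 (branch (move 523 (leaf 491 1)) (move 463 (branch (move 464 (leaf 460 2)) (move 558 (branch (move 590 (leaf 462 6)) (move 429 (branch (move 461 (leaf 429 4)) (move 460 (branch (move 459 (leaf 459 3)) (move 428 (branch (move 397 (leaf 396 6)) (move 396 (leaf 396 4)))))))))))))))))))) (branch (ref 1) (branch (move 558 (branch (move 461 (branch (move 590 (leaf 461 7)) (move 429 (leaf 429 4)))) (branch (move 590 (branch (move 622 (leaf 493 7)) (move 591 (branch (move 623 (leaf 494 4)) (move 559 (branch (move 462 (leaf 462 4)) (move 589 (branch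 (move 621 (leaf 493 5)) (move 560 (branch (move 588 (leaf 556 2)) (move 561 (leaf 557 1)))))))))))) (ref 2)))) (branch (ref 3) (branch (ref 4) (branch (ref 5) (move 495 (branch (move 524 (branch (move 523 (leaf 491 2)) (move 496 (leaf 492 1)))) (branch (move 496 (branch (move 497 (leaf 493 1)) (move 461 (branch (move 460 (leaf 460 3)) (move 558 (branch (move 590 (leaf 461 7)) (move 429 (leaf 429 4)))))))) (move 492 (branch (move 523 (branch (move 524 (leaf 491 1)) (move 491 (branch (move 490 (leaf 490 0)) (move 522 (leaf 490 1)))))) (branch (move 491 (branch (move 490 (leaf 490 0)) (move 459 (branch (move 458 (leaf 458 3)) (move 460 (leaf 459 3)))))) (move 524 (branch (move 523 (leaf 491 1)) (move 460 (branch (move 459 (leaf 459 3)) (move 428 (branch (move 396 (leaf 396 4)) (move 429 (branch (move 397 (leaf 396 6)) (move 558 (branch (move 461 (leaf 429 4)) (move 590 (branch (move 622 (leaf 493 7)) (move 591 (branch (move 623 (leaf 494 4)) (move 559 (branch (move 462 (leaf 462 4)) (move 589 (branch (move 621 (leaf 493 5)) (move 560 (branch (move 588 (leaf 556 2)) (move 561 (leaf 557 1))))))))))))))))))))))))))))))))))))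
theorem a6p502 : a6e502.Valid :=
  pos_of_chk [a6e497, a6e492, a6e498, a6e499, a6e500, a6e501] (forall_cons a6p497 (forall_cons a6p492 (forall_cons a6p498 (forall_cons a6p499 (forall_cons a6p500 (forall_cons a6p501 forall_nil)))))) a6c502 a6e502 (by decide +kernel)

def a6e503 : Pos := ⟨329510287711842630449274109544814530582778573417789708781070719735494796166164503497982179760000322023094506261979534534602185055744441249399798447744263127040, 93438783879360135144947344263506310954043501745795360404774863897118023402062948158809424904769317743349782057728466680472319519684686660768414773267500336226241543810139888562330781878363162148864, 8⟩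
def a6c503 : Cert := (move 428 (branch (move 557 (branch (move 460 (leaf 428 7)) (move 462 (branch (move 430 (leaf 429 6)) (move 589 (branch (move 494 (leaf 461 6)) (move 622 (branch (move 590 (leaf 493 4)) (move 621 (branch (move 654 (leaf 525 4)) (move 620 (branch (move 652 (leaf 524 5)) (move 588 (leaf 492 5)))))))))))))) (branch (move 429 (branch (move 396 (leaf 396 7)) (move 397 (branch (move 494 (leaf 397 4)) (move 398 (branch (move 430 (leaf 397 6)) (move 366 (leaf 365 6)))))))) (move 460 (branch (move 557 (leaf 428 7)) (move 396 (branch (move 429 (leaf 396 7)) (move 364 (leaf 364 4)))))))))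
theorem a6p503 : a6e503.Valid :=
  pos_of_chk [] forall_nil a6c503 a6e503 (by decide +kernel)

def a6e504 : Pos := ⟨329510287762989358691697063434341007948329749536956207605068577044420714242840626355117422631826461427798601630014987845021544588264928353297742257660910108672, 2026130653113380073680060142935112240200270437739005344273253617323813570416726766104478667790617496189396770684918477307477592472383201152394588717066227108876519524391496712192, 7⟩
def a6c504 : Cert := (move 495 (branch (move 524 (branch (move 523 (leaf 491 2)) (move 496 (leaf 492 1)))) (branch (move 496 (branch (move 497 (leaf 493 1)) (move 464 (branch (move 465 (leaf 461 2)) (move 463 (branch (move 492 (leaf 460 2)) (move 528 (branch (move 529 (leaf 493 0)) (move 431 (branch (move 560 (leaf 431 7)) (move 399 (leaf 399 4)))))))))))) (move 492 (branch (move 523 (branch (move 524 (leaf 491 1)) (move 491 (branch (move 490 (leaf 490 0)) (move 522 (leaf 490 1)))))) (branch (move 460 (branch (move 459 (leaf 459 3)) (move 557 (branch (move 589 (leaf 460 7)) (move 428 (branch (move 524 (leaf 428 4)) (move 396 (leaf 396 4)))))))) (move 491 (branch (move 490 (leaf 490 0))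 (move 459 (branch (move 458 (leaf 458 3)) (move 460 (leaf 459 3))))))))))))
theorem a6p504 : a6e504.Valid :=
  pos_of_chk [] forall_nil a6c504 a6e504 (by decide +kernel)

def a6e505 : Pos := ⟨329510287711842630449274109544814530582778573417789708781070719735494796166164503497982179760000322023094506261979534534602185055744441249399798447744263127040, 471745303102692669401008102429478412563195219441346863109240868235074408608302286144876795029905335177549199184024344409446795926153637328263741666200338940843230494720, 7⟩
def a6c505 : Cert := (move 429 (branch (move 428 (branch (move 396 (leaf 396 7)) (move 460 (branch (move 557 (leaf 428 7)) (move 430 (branch (move 398 (leaf 397 6)) (move 459 (branch (move 458 (leaf 426 2)) (move 431 (leaf 427 1)))))))))) (branch (move 397 (branch (move 494 (leaf 397 4)) (move 398 (branch (move 430 (leaf 397 6)) (move 366 (leaf 365 6)))))) (move 428 (branch (move 396 (leaf 396 7)) (move 460 (branch (move 557 (leaf 428 7)) (move 494 (branch (move 397 (leaf 397 4)) (move 459 (branch (move 458 (leaf 458 0)) (move 495 (branch (move 492 (leaf 459 3)) (move 496 (leaf 460 3)))))))))))))))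
theorem a6p505 : a6e505.Valid :=
  pos_of_chk [] forall_nil a6c505 a6e505 (by decide +kernel)

def a6e506 : Pos := ⟨356969478352365069309201712741140103451856314618362930418648573572236968899755127706472418322646140243003691507545457966750673007743307824650094560908723355648, 23359695987244363538908921656833534061531044369455056567114785330144202967546756180451574316391706441014087740939905190687849473674822945207707950627003426311672258135930075572343954176190376312832, 11⟩
def a6c506 : Cert := (move 524 (branch (move 459 (branch (move 491 (branch (move 490 (leaf 490 3)) (move 555 (branch (move 554 (leaf 522 1)) (move 460 (branch (move 428 (leaf 427 6)) (move 492 (branch (move 587 (leaf 459 6)) (move 458 (branch (move 457 (leaf 457 0)) (move 426 (leaf 426 7)))))))))))) (branch (move 494 (branch (move 495 (leaf 491 2)) (move 460 (branch (move 458 (leaf 458 0)) (move 428 (branch (move 557 (leaf 428 7)) (move 492 (branch (move 396 (leaf 396 4)) (move 555 (leaf 427 5)))))))))) (branch (move 494 (branch (move 495 (leaf 491 2)) (move 491 (branch (move 490 (leaf 490 3)) (move 458 (branch (move 492 (leaf 458 3)) (move 460 (leaf 458 0)))))))) (branch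 (move 491 (branch (move 490 (leaf 490 3)) (move 494 (branch (move 495 (leaf 491 2)) (move 555 (branch (move 554 (leaf 522 1)) (move 458 (branch (move 492 (leaf 458 3)) (move 426 (leaf 426 7)))))))))) (branch (move 494 (branch (move 495 (leaf 491 2)) (move 460 (branch (move 458 (leaf 458 0)) (move 428 (branch (move 557 (leaf 428 7)) (move 491 (branch (move 490 (leaf 490 3)) (move 555 (leaf 427 6)))))))))) (move 491 (branch (move 490 (leaf 490 3)) (move 555 (branch (move 554 (leaf 522 1)) (move 460 (branch (move 428 (leaf 427 6)) (move 494 (branch (move 495 (leaf 491 2)) (move 587 (branch (move 492 (leaf 459 6)) (move 620 (branch (move 588 (leaf 491 4)) (move 619 (branch (move 652 (leaf 523 4)) (move 618 (branch (move 650 (leaf 522 5)) (move 586 (leaf 490 5)))))))))))))))))))))))) (branch (move 494 (branch (move 495 (leaf 491 2)) (move 558 (branch (move 559 (leaf 523 0)) (move 590 (leaf 461 7)))))) (move 558 (branch (move 559 (leaf 523 0)) (move 590 (branch (move 622 (leaf 493 7)) (move 557 (leaf 461 4)))))))))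
theorem a6p506 : a6e506.Valid :=
  pos_of_chk [] forall_nil a6c506 a6e506 (by decide +kernel)

def a6e507 : Pos := ⟨356969478352365069303247449911710491804476253984144397273223543545486459349929159994784621274421184455115534420098306837676906430744775295018579104367112093696, 3891898753301944798380141006853273830901047103427061267203341972027835478519917010306751557509539938263386880653060166861905483938629639462689036874511024746151020593152, 9⟩
def a6c507 : Cert := (move 491 (branch (move 492 (branch (move 490 (leaf 490 0)) (move 494 (branch (move 522 (leaf 490 1)) (move 459 (branch (move 458 (leaf 458 3)) (move 460 (branch (move 495 (leaf 459 3)) (move 428 (branch (move 555 (leaf 427 6)) (move 396 (leaf 396 4)))))))))))) (branch (move 494 (branch (move 492 (branch (move 522 (leaf 490 1)) (move 459 (branch (move 458 (leaf 458 3)) (move 460 (branch (move 495 (leaf 459 3)) (move 428 (branch (move 555 (leaf 427 6)) (move 396 (leaf 396 4)))))))))) (branch (move 522 (branch (move 524 (leaf 490 2)) (move 492 (leaf 490 1)))) (branch (move 524 (branch (move 522 (leaf 490 2)) (move 495 (leaf 491 2)))) (move 495 (branch (move 524 (leaf 491 2))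 (move 496 (branch (move 497 (leaf 493 1)) (move 464 (branch (move 465 (leaf 461 2)) (move 463 (branch (move 492 (leaf 460 2)) (move 528 (branch (move 529 (leaf 493 0)) (move 431 (branch (move 560 (leaf 431 7)) (move 399 (leaf 399 4)))))))))))))))))) (branch (move 524 (branch (move 490 (leaf 490 3)) (move 494 (branch (move 522 (leaf 490 2)) (move 495 (leaf 491 2)))))) (move 490 (branch (move 524 (leaf 490 3)) (move 492 (leaf 490 0))))))))
theorem a6p507 : a6e507.Valid :=
  pos_of_chk [] forall_nil a6c507 a6e507 (by decide +kernel)

def a6e508 : Pos := ⟨6078391946603017029427879434931214411612589748252522281179869981157405134636775741149932841380864201370824791288418780646902838590668175702913087315527434319368622593235153321984, 23359696240422972871250867787578754094265948410607062922967638122933258958000717665259254653988196073446753335633475414748905761361380193547726435256106373356721395974322305225397574236468706017280, 13⟩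
def a6c508 : Cert := (move 587 (branch (move 588 (branch (move 618 (branch (move 619 (leaf 586 1)) (move 586 (branch (move 617 (leaf 585 1)) (move 553 (branch (move 554 (leaf 553 3)) (move 585 (branch (move 552 (leaf 552 3)) (move 621 (branch (move 620 (leaf 585 0)) (move 622 (leaf 586 0)))))))))))) (branch (move 622 (branch (move 623 (leaf 587 0)) (move 586 (branch (move 621 (leaf 586 0)) (move 553 (branch (move 554 (leaf 553 3)) (move 585 (branch (move 552 (leaf 552 3)) (move 617 (branch (move 616 (leaf 584 1)) (move 618 (leaf 585 1)))))))))))) (branch (move 619 (branch (move 618 (leaf 586 1)) (move 591 (branch (move 620 (leaf 587 1)) (move 560 (branch (move 559 (leaf 556 2)) (move 592 (branch (move 561 (leaf 557 2)) (move 624 (branch (move 623 (leaf 588 0)) (move 625 (leaf 589 0)))))))))))) (move 623 (branch (move 622 (leaf 587 0)) (move 591 (branch (move 624 (leaf 588 0)) (move 560 (branch (move 559 (leaf 556 2)) (move 592 (branch (move 561 (leaf 557 2)) (move 620 (branch (move 619 (leaf 587 1)) (move 621 (leaf 588 1)))))))))))))))) (branch (move 588 (branch (move 555 (branch (move 554 (leaf 554 3)) (move 491 (branch (move 620 (leaf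 491 4)) (move 492 (branch (move 490 (leaf 490 0)) (move 460 (leaf 459 6)))))))) (branch (move 622 (branch (move 623 (leaf 587 0)) (move 586 (branch (move 621 (leaf 586 0)) (move 553 (branch (move 554 (leaf 553 3)) (move 585 (branch (move 552 (leaf 552 3)) (move 617 (branch (move 616 (leaf 584 1)) (move 618 (leaf 585 1)))))))))))) (move 622 (branch (move 623 (leaf 587 0)) (move 586 (branch (move 621 (leaf 586 0)) (move 618 (branch (move 617 (leaf 585 1)) (move 491 (branch (move 555 (leaf 490 5)) (move 492 (branch (move 490 (leaf 490 0)) (move 494 (branch (move 522 (leaf 490 1)) (move 459 (branch (move 458 (leaf 458 3)) (move 495 (branch (move 460 (leaf 459 3)) (move 496 (branch (move 497 (leaf 493 1)) (move 464 (branch (move 463 (leaf 460 2)) (move 465 (leaf 461 2))))))))))))))))))))))))) (branch (move 588 (branch (move 555 (branch (move 554 (leaf 554 3)) (move 491 (branch (move 620 (leaf 491 4)) (move 492 (branch (move 490 (leaf 490 0)) (move 460 (leaf 459 6)))))))) (branch (move 622 (branch (move 623 (leaf 587 0)) (move 586 (branch (move 621 (leaf 586 0)) (move 554 (branch (move 553 (leaf 553 3)) (move 555 (leaf 554 3)))))))) (move 623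 (branch (move 622 (leaf 587 0)) (move 591 (branch (move 624 (leaf 588 0)) (move 560 (branch (move 559 (leaf 556 2)) (move 592 (branch (move 561 (leaf 557 2)) (move 620 (branch (move 619 (leaf 587 1)) (move 621 (leaf 588 1))))))))))))))) (branch (move 588 (branch (move 555 (branch (move 554 (leaf 554 3)) (move 491 (branch (move 620 (leaf 491 4)) (move 492 (branch (move 490 (leaf 490 0)) (move 460 (leaf 459 6)))))))) (branch (move 555 (branch (move 554 (leaf 554 3)) (move 619 (branch (move 618 (leaf 586 1)) (move 490 (branch (move 522 (leaf 490 7)) (move 491 (branch (move 492 (leaf 490 0)) (move 458 (leaf 458 7)))))))))) (move 619 (branch (move 618 (leaf 586 1)) (move 591 (branch (move 620 (leaf 587 1)) (move 560 (branch (move 559 (leaf 556 2)) (move 592 (branch (move 561 (leaf 557 2)) (move 624 (branch (move 623 (leaf 588 0)) (move 625 (leaf 589 0))))))))))))))) (branch (move 588 (branch (move 622 (branch (move 623 (leaf 587 0)) (move 586 (branch (move 621 (leaf 586 0)) (move 618 (branch (move 617 (leaf 585 1)) (move 619 (leaf 586 1)))))))) (branch (move 622 (branch (move 623 (leaf 587 0)) (move 586 (branch (move 621 (leaf 586 0)) (move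 554 (branch (move 553 (leaf 553 3)) (move 555 (leaf 554 3)))))))) (move 555 (branch (move 554 (leaf 554 3)) (move 619 (branch (move 618 (leaf 586 1)) (move 490 (branch (move 522 (leaf 490 7)) (move 491 (branch (move 492 (leaf 490 0)) (move 458 (leaf 458 7))))))))))))) (move 491 (branch (move 555 (branch (move 618 (branch (move 586 (leaf 490 5)) (move 619 (branch (move 650 (leaf 522 5)) (move 620 (branch (move 621 (leaf 586 2)) (move 652 (leaf 523 4)))))))) (move 460 (branch (move 492 (leaf 459 6)) (move 459 (branch (move 428 (leaf 427 6)) (move 458 (branch (move 494 (leaf 458 0)) (move 426 (leaf 426 7)))))))))) (branch (move 492 (branch (move 490 (leaf 490 0)) (move 494 (branch (move 522 (leaf 490 1)) (move 459 (branch (move 458 (leaf 458 3)) (move 495 (branch (move 460 (leaf 459 3)) (move 496 (branch (move 497 (leaf 493 1)) (move 464 (branch (move 463 (leaf 460 2)) (move 465 (leaf 461 2)))))))))))))) (branch (move 490 (branch (move 492 (leaf 490 0)) (move 555 (branch (move 458 (leaf 458 7)) (move 619 (branch (move 522 (leaf 490 7)) (move 618 (branch (move 650 (leaf 522 5)) (move 586 (leaf 490 5)))))))))) (branch (move 492 (branch (move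 490 (leaf 490 0)) (move 460 (branch (move 555 (leaf 459 6)) (move 428 (branch (move 396 (leaf 396 4)) (move 494 (branch (move 522 (leaf 490 1)) (move 495 (branch (move 459 (leaf 459 3)) (move 496 (leaf 460 3)))))))))))) (move 555 (branch (move 618 (branch (move 586 (leaf 490 5)) (move 619 (branch (move 650 (leaf 522 5)) (move 620 (branch (move 621 (leaf 586 2)) (move 652 (leaf 523 4)))))))) (move 458 (branch (move 490 (leaf 458 7)) (move 459 (branch (move 426 (leaf 426 7)) (move 460 (branch (move 494 (leaf 458 0)) (move 428 (leaf 427 6)))))))))))))))))))))
theorem a6p508 : a6e508.Valid :=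
  pos_of_chk [] forall_nil a6c508 a6e508 (by decide +kernel)

def a6e509 : Pos := ⟨356969478352365069309201712741140103451856314618362930418648573572236968899755127706472418322646140243003691507545457966750673007743307824650094560908723355648, 23359696240422972877329259735597007032644936374276495233141626992538486593384896492439374220798432301921505027646882010354880172155203474588162024176643060329105607519316969564403363285163659231232, 15⟩
def a6c509 : Cert := (move 590 (branch (move 558 (branch (move 622 (leaf 493 7)) (move 494 (leaf 461 7)))) (branch (move 558 (branch (move 494 (leaf 461 7)) (move 557 (leaf 461 4)))) (branch (move 558 (branch (move 622 (leaf 493 7)) (move 557 (leaf 461 4)))) (move 589 (branch (move 557 (branch (move 620 (branch (move 588 (leaf 492 5)) (move 621 (branch (move 494 (leaf 493 6)) (move 652 (leaf 524 5)))))) (move 460 (branch (move 492 (leaf 460 7)) (move 428 (leaf 428 7)))))) (branch (move 557 (branch (move 622 (leaf 493 4)) (move 620 (branch (move 588 (leaf 492 5)) (move 621 (branch (move 494 (leaf 493 6)) (move 652 (leaf 524 5)))))))) (branch (move 557 (branch (move 622 (leaf 493 4)) (move 460 (branch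 (move 492 (leaf 460 7)) (move 428 (leaf 428 7)))))) (ref 0)))))))))
theorem a6p509 : a6e509.Valid :=
  pos_of_chk [a6e508] (forall_cons a6p508 forall_nil) a6c509 a6e509 (by decide +kernel)

def a6e510 : Pos := ⟨356969478352365069303247449911710491804476253984144397273223543545486459349929159994784621274421184455115534420098306837676906430744775295018579104367112093696, 23359695995946528415244964450631419580710327011816059988740135160170698290187373250057236336031200565918806062019856800967944901567167692561343572472391348146111532932816809139659127509787674148864, 12⟩
def a6c510 : Cert := (move 558 (branch (move 590 (branch (move 622 (leaf 493 7)) (move 461 (branch (move 557 (leaf 461 4)) (move 429 (leaf 429 4)))))) (branch (move 524 (branch (move 559 (leaf 523 0)) (move 459 (branch (move 494 (branch (move 495 (leaf 491 2)) (move 461 (branch (move 429 (leaf 429 4)) (move 460 (branch (move 458 (leaf 458 0)) (move 428 (branch (move 557 (leaf 428 7)) (move 492 (branch (move 396 (leaf 396 4)) (move 555 (leaf 427 5)))))))))))) (branch (move 491 (branch (move 490 (leaf 490 3)) (move 555 (branch (move 554 (leaf 522 1)) (move 460 (branch (move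 428 (leaf 427 6)) (move 492 (branch (move 587 (leaf 459 6)) (move 458 (branch (move 457 (leaf 457 0)) (move 426 (leaf 426 7)))))))))))) (branch (move 494 (branch (move 495 (leaf 491 2)) (move 491 (branch (move 490 (leaf 490 3)) (move 461 (branch (move 429 (leaf 429 4)) (move 458 (branch (move 492 (leaf 458 3)) (move 460 (leaf 458 0)))))))))) (branch (move 494 (branch (move 495 (leaf 491 2)) (move 461 (branch (move 429 (leaf 429 4)) (move 460 (branch (move 458 (leaf 458 0)) (move 428 (branch (move 557 (leaf 428 7)) (move 491 (branch (move 490 (leaf 490 3)) (move 555 (leaf 427 6)))))))))))) (branch (move 491 (branch (move 490 (leaf 490 3)) (move 494 (branch (move 495 (leaf 491 2)) (move 555 (branch (move 554 (leaf 522 1)) (move 458 (branch (move 492 (leaf 458 3)) (move 426 (leaf 426 7)))))))))) (move 494 (branch (move 495 (leaf 491 2)) (move 491 (branch (move 490 (leaf 490 3)) (move 555 (branch (move 554 (leaf 522 1)) (move 460 (branch (move 428 (leaf 427 6)) (move 587 (branch (move 492 (leaf 459 6)) (move 620 (branch (move 588 (leaf 491 4)) (move 619 (branch (move 652 (leaf 523 4)) (move 618 (branch (move 650 (leaf 522 5)) (move 586 (leaf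 490 5)))))))))))))))))))))))))) (branch (move 524 (branch (move 559 (leaf 523 0)) (move 494 (branch (move 495 (leaf 491 2)) (move 590 (branch (move 622 (leaf 493 7)) (move 461 (leaf 461 7)))))))) (move 524 (branch (move 559 (leaf 523 0)) (move 494 (branch (move 495 (leaf 491 2)) (move 590 (branch (move 622 (leaf 493 7)) (move 589 (branch (move 621 (leaf 493 5)) (move 557 (branch (move 462 (leaf 461 5)) (move 492 (branch (move 460 (leaf 460 7)) (move 491 (branch (move 490 (leaf 490 0)) (move 555 (branch (move 554 (leaf 522 1)) (move 587 (branch (move 619 (leaf 491 6)) (move 588 (branch (move 586 (leaf 554 2)) (move 620 (leaf 491 4))))))))))))))))))))))))))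
theorem a6p510 : a6e510.Valid :=
  pos_of_chk [] forall_nil a6c510 a6e510 (by decide +kernel)

def a6e511 : Pos := ⟨356969478352365069309201712741140103451856314618362930418648573572236968899755127706472418322646140243003691507545457966750673007743307824650094560908723355648, 506532662806599714648004595036645359337577169127653689124453075223561360877724655397765844956024572963438075266877903744794718431930925283447588873088507388673987839753671671808, 9⟩
def a6c511 : Cert := (move 429 (branch (move 397 (branch (move 494 (leaf 397 4)) (move 366 (branch (move 398 (leaf 365 6)) (move 365 (branch (move 334 (leaf 333 6)) (move 364 (branch (move 396 (leaf 364 7)) (move 332 (leaf 332 7)))))))))) (branch (move 397 (branch (move 366 (branch (move 398 (leaf 365 6)) (move 365 (branch (move 334 (leaf 333 6)) (move 460 (branch (move 492 (leaf 364 5)) (move 428 (branch (move 557 (leaf 428 7)) (move 333 (leaf 332 5)))))))))) (branch (move 366 (branch (move 398 (leaf 365 6)) (move 365 (branch (move 334 (leaf 333 6)) (move 364 (branch (move 396 (leaf 364 7)) (move 332 (leaf 332 7)))))))) (move 396 (branch (move 428 (leaf 396 7)) (move 364 (leaf 364 7)))))))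 (branch (move 397 (branch (move 494 (leaf 397 4)) (move 366 (branch (move 398 (leaf 365 6)) (move 365 (branch (move 334 (leaf 333 6)) (move 460 (branch (move 492 (leaf 364 5)) (move 428 (branch (move 557 (leaf 428 7)) (move 333 (leaf 332 5)))))))))))) (move 491 (branch (move 428 (branch (move 396 (leaf 396 7)) (move 460 (branch (move 557 (leaf 428 7)) (move 459 (branch (move 555 (leaf 427 6)) (move 458 (branch (move 457 (leaf 425 2)) (move 494 (leaf 458 0)))))))))) (branch (move 492 (branch (move 490 (leaf 490 0)) (move 494 (branch (move 522 (leaf 490 1)) (move 463 (branch (move 462 (leaf 459 2)) (move 495 (branch (move 464 (leaf 460 2)) (move 460 (branch (move 459 (leaf 459 3)) (move 496 (leaf 460 3)))))))))))) (branch (move 492 (branch (move 490 (leaf 490 0)) (move 428 (branch (move 396 (leaf 396 7)) (move 460 (branch (move 557 (leaf 428 7)) (move 555 (branch (move 587 (leaf 459 6)) (move 459 (leaf 427 6)))))))))) (branch (move 492 (branch (move 490 (leaf 490 0)) (move 428 (branch (move 396 (leaf 396 7)) (move 460 (branch (move 557 (leaf 428 7)) (move 463 (branch (move 462 (leaf 459 1)) (move 494 (branch (move 522 (leaf 490 1)) (move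 495 (branch (move 464 (leaf 460 2)) (move 496 (leaf 460 3)))))))))))))) (move 426 (branch (move 428 (branch (move 396 (leaf 396 7)) (move 427 (branch (move 462 (leaf 426 0)) (move 394 (branch (move 393 (leaf 393 3)) (move 459 (leaf 394 7)))))))) (branch (move 490 (branch (move 492 (leaf 490 0)) (move 458 (branch (move 394 (leaf 394 4)) (move 555 (branch (move 587 (leaf 458 7)) (move 459 (leaf 426 7)))))))) (move 492 (branch (move 490 (leaf 490 0)) (move 494 (branch (move 522 (leaf 490 1)) (move 462 (branch (move 463 (leaf 459 2)) (move 428 (branch (move 427 (leaf 426 0)) (move 396 (leaf 396 7))))))))))))))))))))))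
theorem a6p511 : a6e511.Valid :=
  pos_of_chk [] forall_nil a6c511 a6e511 (by decide +kernel)

def a6e512 : Pos := ⟨329510287711842630443319846715384918935398512783571175635645689708744286616338535786294382711775366235206349174532383405528418478745908719768282991202651865088, 321053216778053891366735482290418197788995128058733141564190257693406117251505442477888924538960754988312834286321404085256378316727766104971934416375512082277543075668156989411906361945716674478920463024128, 11⟩
def a6c512 : Cert := (move 461 (branch (move 558 (branch (move 429 (leaf 429 4)) (move 590 (branch (move 622 (leaf 493 7)) (move 557 (leaf 461 4)))))) (branch (move 429 (branch (move 558 (leaf 429 4)) (move 397 (branch (move 494 (leaf 397 4)) (move 398 (branch (move 430 (leaf 397 6)) (move 366 (leaf 365 6)))))))) (branch (move 429 (branch (move 397 (branch (move 494 (leaf 397 4)) (move 396 (branch (move 428 (leaf 396 7)) (move 364 (leaf 364 7)))))) (branch (move 430 (branch (move 398 (leaf 397 6)) (move 428 (branch (move 396 (leaf 396 7)) (move 462 (branch (move 557 (leaf 429 6)) (move 463 (branch (move 464 (leaf 428 3)) (move 427 (leaf 427 0)))))))))) (move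 397 (branch (move 494 (leaf 397 4)) (move 398 (branch (move 430 (leaf 397 6)) (move 366 (leaf 365 6))))))))) (move 557 (branch (ref 0) (branch (move 462 (branch (move 430 (leaf 429 6)) (move 589 (branch (move 494 (leaf 461 6)) (move 622 (branch (move 590 (leaf 493 4)) (move 621 (branch (move 654 (leaf 525 4)) (move 620 (branch (move 652 (leaf 524 5)) (move 588 (leaf 492 5)))))))))))) (branch (move 462 (branch (move 430 (leaf 429 6)) (move 589 (branch (move 494 (leaf 461 6)) (move 620 (branch (move 588 (leaf 492 5)) (move 621 (branch (move 652 (leaf 524 5)) (move 492 (branch (move 524 (leaf 492 7)) (move 491 (branch (move 490 (leaf 490 0)) (move 653 (branch (move 558 (leaf 525 6)) (move 654 (branch (move 686 (leaf 557 4)) (move 622 (leaf 525 4)))))))))))))))))) (move 558 (branch (move 590 (leaf 461 4)) (move 559 (branch (move 524 (branch (move 560 (leaf 524 3)) (move 523 (leaf 523 0)))) (branch (move 462 (branch (move 430 (leaf 429 6)) (move 494 (branch (move 591 (leaf 462 4)) (move 524 (branch (move 523 (leaf 523 0)) (move 463 (branch (move 431 (leaf 430 6)) (move 464 (branch (move 492 (leaf 460 1)) (move 465 (leaf 461 1)))))))))))) (move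 462 (branch (move 430 (leaf 429 6)) (move 560 (branch (move 561 (leaf 525 3)) (move 494 (branch (move 591 (leaf 462 4)) (move 463 (branch (move 431 (leaf 430 6)) (move 464 (branch (move 492 (leaf 460 1)) (move 465 (leaf 461 1)))))))))))))))))))))))))
theorem a6p512 : a6e512.Valid :=
  pos_of_chk [a6e490] (forall_cons a6p490 forall_nil) a6c512 a6e512 (by decide +kernel)

def a6e513 : Pos := ⟨356969478352365069303247449911710491804476253984144397273223543545486459349929159994784621274421184455115534420098306837676906430744775295018579104367112093696, 579320459998079415697808159505774278704174123750958935160565160381729524013165529317040912180702673097396190891154295263750199002806055437984349757227657382619842281362973659133487480675577827950592, 15⟩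
def a6c513 : Cert := (move 558 (branch (move 590 (branch (move 622 (leaf 493 7)) (move 461 (branch (move 557 (leaf 461 4)) (move 429 (leaf 429 4)))))) (branch (move 524 (branch (move 559 (leaf 523 0)) (move 494 (branch (move 495 (leaf 491 2)) (move 590 (branch (move 622 (leaf 493 7)) (move 589 (branch (move 621 (leaf 493 5)) (move 462 (branch (move 557 (leaf 461 5)) (move 491 (branch (move 490 (leaf 490 3)) (move 463 (branch (move 492 (leaf 459 2)) (move 431 (leaf 430 6)))))))))))))))) (branch (move 524 (branch (move 559 (leaf 523 0)) (move 494 (branch (move 495 (leaf 491 2)) (move 461 (branch (move 590 (leaf 461 7)) (move 429 (leaf 429 4)))))))) (move 559 (branch (move 524 (leaf 523 0)) (move 462 (branch (move 494 (branch (move 463 (branch (move 431 (leaf 430 6)) (move 492 (branch (move 491 (leaf 459 2)) (move 464 (branch (move 495 (leaf 460 2)) (move 465 (leaf 461 1)))))))) (move 557 (branch (move 589 (leaf 461 5)) (move 430 (leaf 429 5)))))) (branch (move 494 (branch (move 591 (leaf 462 4)) (move 463 (branch (move 431 (leaf 430 6)) (move 492 (branch (move 491 (leaf 459 2)) (move 464 (branch (move 495 (leaf 460 2)) (move 465 (leaf 461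 1)))))))))) (move 461 (branch (move 429 (leaf 429 4)) (move 560 (branch (move 561 (leaf 525 3)) (move 557 (branch (move 430 (leaf 429 6)) (move 589 (branch (move 588 (leaf 556 1)) (move 621 (branch (move 653 (leaf 525 6)) (move 528 (branch (move 529 (leaf 525 2)) (move 592 (branch (move 593 (leaf 557 0)) (move 620 (branch (move 652 (leaf 524 5)) (move 622 (branch (move 654 (leaf 525 4)) (move 623 (branch (move 591 (leaf 588 2)) (move 655 (branch (move 656 (leaf 620 0)) (move 624 (leaf 527 5)))))))))))))))))))))))))))))))))
theorem a6p513 : a6e513.Valid :=
  pos_of_chk [] forall_nil a6c513 a6e513 (by decide +kernel)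

def a6e514 : Pos := ⟨356969478352365069309201712741140103451856314618362930418648573572236968899755127706472418322646140243003691507545457966750673007743307824650094560908723355648, 321053216778053891366735482339045333361937200619629799115181589673912944254486751120554778458330178680607842353871554396195249979925474295622007229409419369979465122232860823714350667365381437358088673820672, 12⟩
def a6c514 : Cert := (move 557 (branch (move 462 (branch (move 430 (leaf 429 6)) (move 589 (branch (move 494 (leaf 461 6)) (move 620 (branch (move 588 (leaf 492 5)) (move 621 (branch (move 652 (leaf 524 5)) (move 622 (branch (move 654 (leaf 525 4)) (move 590 (leaf 493 4)))))))))))) (branch (move 589 (branch (move 620 (branch (move 588 (leaf 492 5)) (move 621 (branch (move 652 (leaf 524 5)) (move 653 (branch (move 558 (leaf 525 6)) (move 654 (branch (move 686 (leaf 557 4)) (move 622 (leaf 525 4)))))))))) (branch (move 620 (branch (move 588 (leaf 492 5)) (move 621 (branch (move 652 (leaf 524 5)) (move 622 (branch (move 654 (leaf 525 4)) (move 590 (leaf 493 4)))))))) (branch (move 558 (branch (move 590 (leaf 461 4)) (move 621 (branch (move 653 (leaf 525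 6)) (move 620 (branch (move 652 (leaf 524 5)) (move 588 (leaf 492 5)))))))) (move 590 (branch (move 622 (leaf 493 4)) (move 558 (leaf 461 4)))))))) (branch (move 462 (branch (move 430 (leaf 429 6)) (move 589 (branch (move 494 (leaf 461 6)) (move 620 (branch (move 588 (leaf 492 5)) (move 621 (branch (move 652 (leaf 524 5)) (move 653 (branch (move 558 (leaf 525 6)) (move 654 (branch (move 686 (leaf 557 4)) (move 622 (leaf 525 4)))))))))))))) (move 462 (branch (move 430 (leaf 429 6)) (move 463 (branch (move 464 (branch (move 492 (leaf 460 1)) (move 558 (branch (move 590 (leaf 461 4)) (move 433 (branch (move 432 (leaf 429 2)) (move 465 (branch (move 434 (leaf 430 2)) (move 497 (branch (move 496 (leaf 461 0)) (move 498 (leaf 462 0)))))))))))) (branch (move 464 (branch (move 492 (leaf 460 1)) (move 465 (branch (move 494 (leaf 461 1)) (move 433 (branch (move 432 (leaf 429 2)) (move 434 (leaf 430 2)))))))) (branch (move 558 (branch (move 590 (leaf 461 4)) (move 494 (branch (move 431 (leaf 430 6)) (move 464 (branch (move 465 (leaf 461 1)) (move 496 (branch (move 497 (leaf 461 0)) (move 559 (branch (move 591 (leaf 462 4)) (move 560 (branch (move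 561 (leaf 525 3)) (move 528 (branch (move 529 (leaf 525 2)) (move 592 (branch (move 593 (leaf 557 0)) (move 495 (leaf 463 7)))))))))))))))))) (move 558 (branch (move 590 (leaf 461 4)) (move 431 (branch (move 494 (leaf 430 6)) (move 460 (branch (move 432 (leaf 428 2)) (move 491 (branch (move 492 (leaf 459 1)) (move 459 (branch (move 490 (leaf 458 1)) (move 426 (branch (move 427 (leaf 426 3)) (move 458 (branch (move 425 (leaf 425 3)) (move 555 (leaf 426 7))))))))))))))))))))))))))
theorem a6p514 : a6e514.Valid :=
  pos_of_chk [] forall_nil a6c514 a6e514 (by decide +kernel)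

def a6e515 : Pos := ⟨356969478352365069303247449911710491804476253984144397273223543545486459349929159994784621274421184455115534420098306837676906430744775295018579104367112093696, 321053216778053891366735482339045333361937200619643528710501850893348862318915729853484887531316399090941381735630568282219116310069329783959664962932894255274404900796949849856122120880883998442312748236800, 13⟩
def a6c515 : Cert := (move 461 (branch (move 492 (branch (move 557 (branch (move 430 (branch (move 462 (leaf 429 6)) (move 429 (branch (move 398 (leaf 397 6)) (move 397 (branch (move 494 (leaf 397 4)) (move 365 (branch (move 460 (leaf 364 5)) (move 364 (branch (move 396 (leaf 364 7)) (move 332 (leaf 332 7)))))))))))) (branch (move 589 (branch (move 460 (leaf 460 7)) (move 620 (branch (move 588 (leaf 492 5)) (move 621 (branch (move 652 (leaf 524 5)) (move 622 (branch (move 654 (leaf 525 4)) (move 590 (leaf 493 4)))))))))) (move 462 (branch (move 430 (leaf 429 6)) (move 589 (branch (move 494 (leaf 461 6)) (move 620 (branch (move 588 (leaf 492 5)) (move 621 (branch (move 652 (leaf 524 5)) (move 622 (branch (move 654 (leaf 525 4)) (move 590 (leaf 493 4)))))))))))))))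 (branch (move 491 (branch (move 490 (leaf 490 0)) (move 494 (branch (move 522 (leaf 490 1)) (move 459 (branch (move 458 (leaf 458 3)) (move 495 (branch (move 460 (leaf 459 3)) (move 496 (branch (move 497 (leaf 493 1)) (move 464 (branch (move 463 (leaf 460 2)) (move 465 (leaf 461 2)))))))))))))) (branch (move 491 (branch (move 490 (leaf 490 0)) (move 494 (branch (move 522 (leaf 490 1)) (move 462 (branch (move 463 (leaf 459 2)) (move 430 (branch (move 557 (leaf 429 5)) (move 398 (leaf 397 5)))))))))) (move 462 (branch (move 430 (branch (move 557 (leaf 429 6)) (move 398 (branch (move 429 (leaf 397 6)) (move 366 (leaf 365 5)))))) (move 491 (branch (move 490 (leaf 490 0)) (move 463 (branch (move 460 (leaf 459 1)) (move 464 (leaf 460 1)))))))))))) (branch (move 558 (branch (move 429 (leaf 429 4)) (move 590 (branch (move 622 (leaf 493 7)) (move 557 (leaf 461 4)))))) (branch (move 429 (branch (move 558 (leaf 429 4)) (move 397 (branch (move 494 (leaf 397 4)) (move 398 (branch (move 430 (leaf 397 6)) (move 366 (leaf 365 6)))))))) (ref 0)))))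
theorem a6p515 : a6e515.Valid :=
  pos_of_chk [a6e514] (forall_cons a6p514 forall_nil) a6c515 a6e515 (by decide +kernel)

def a6e516 : Pos := ⟨329510287711842630443319846715384918935398512783571175635645689708744286616338535786294382711775366235206349174532383405528418478745908719768282991202651865088, 321053217226560053945893739604066012627949649380236213014108186863755415899435013533673437689619878518298050563537760667917829480161997128960536089350258803881991140256377651549752132976106914214722022670336, 16⟩
def a6c516 : Cert := (move 523 (branch (move 524 (branch (move 558 (branch (move 559 (leaf 523 0)) (move 461 (branch (move 429 (leaf 429 4)) (move 590 (branch (move 622 (leaf 493 7)) (move 557 (leaf 461 4)))))))) (move 554 (branch (move 555 (leaf 522 1)) (move 522 (branch (move 553 (leaf 521 1)) (move 521 (branch (move 492 (leaf 489 2)) (move 489 (branch (move 488 (leaf 488 3)) (move 490 (leaf 489 3)))))))))))) (branch (move 524 (branch (move 558 (branch (move 559 (leaf 523 0)) (move 461 (branch (move 429 (leaf 429 4)) (move 590 (branch (move 622 (leaf 493 7)) (move 557 (leaf 461 4)))))))) (move 494 (branch (move 522 (leaf 490 2))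 (move 495 (leaf 491 2)))))) (branch (move 491 (branch (move 524 (branch (move 490 (leaf 490 3)) (move 494 (branch (move 522 (leaf 490 2)) (move 495 (leaf 491 2)))))) (branch (move 490 (branch (move 524 (leaf 490 3)) (move 492 (leaf 490 0)))) (branch (move 494 (branch (move 492 (branch (move 522 (leaf 490 1)) (move 462 (branch (move 463 (leaf 459 2)) (move 430 (branch (move 557 (leaf 429 5)) (move 398 (leaf 397 5)))))))) (branch (move 524 (branch (move 522 (leaf 490 2)) (move 495 (leaf 491 2)))) (move 495 (branch (move 524 (leaf 491 2)) (move 496 (branch (move 497 (leaf 493 1)) (move 464 (branch (move 465 (leaf 461 2)) (move 463 (branch (move 492 (leaf 460 2)) (move 528 (branch (move 529 (leaf 493 0)) (move 431 (branch (move 560 (leaf 431 7)) (move 399 (leaf 399 4))))))))))))))))) (move 492 (branch (move 490 (leaf 490 0)) (move 494 (branch (move 522 (leaf 490 1)) (move 462 (branch (move 463 (leaf 459 2)) (move 430 (branch (move 557 (leaf 429 5)) (move 398 (leaf 397 5)))))))))))))) (branch (ref 0) (branch (move 524 (branch (move 554 (branch (move 555 (leaf 522 1)) (move 522 (branch (move 553 (leaf 521 1)) (move 521 (branch (move 492 (leaf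 489 2)) (move 489 (branch (move 488 (leaf 488 3)) (move 490 (leaf 489 3)))))))))) (move 494 (branch (move 495 (leaf 491 2)) (move 558 (branch (move 559 (leaf 523 0)) (move 461 (branch (move 590 (leaf 461 7)) (move 429 (leaf 429 4)))))))))) (ref 1)))))))
theorem a6p516 : a6e516.Valid :=
  pos_of_chk [a6e513, a6e515] (forall_cons a6p513 (forall_cons a6p515 forall_nil)) a6c516 a6e516 (by decide +kernel)

def a6e517 : Pos := ⟨943490606534895625772231275690387069444615224039508619877622750697051730306781499637870217080709074597142459992897310399475029563009616636886267282626457002115000696832, 56063270323482552779319841502311869505542486282804281740454553691652760675575311894455128936315256186919857859372809127543914283616840471040812167281209990597281997816382352733660437330717501816832, 12⟩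
def a6c517 : Cert := (move 557 (branch (move 589 (branch (move 621 (branch (move 653 (leaf 525 6)) (move 492 (branch (move 524 (leaf 492 7)) (move 460 (leaf 460 7)))))) (branch (move 588 (branch (move 620 (leaf 492 5)) (move 559 (branch (move 560 (leaf 556 1)) (move 523 (branch (move 524 (leaf 523 0)) (move 492 (branch (move 460 (leaf 460 7)) (move 491 (branch (move 490 (leaf 490 0)) (move 522 (branch (move 494 (leaf 490 1)) (move 586 (branch (move 587 (leaf 554 2)) (move 554 (branch (move 618 (leaf 490 6)) (move 459 (branch (move 555 (leaf 458 5)) (move 427 (leaf 426 5)))))))))))))))))))) (move 621 (branch (move 653 (leaf 525 6)) (move 494 (leaf 493 6))))))) (branch (move 559 (branch (move 524 (branch (move 560 (leaf 524 3)) (move 523 (leaf 523 0)))) (branch (move 524 (branch (move 523 (leaf 523 0)) (move 461 (branch (move 429 (leaf 429 4)) (move 462 (branch (move 430 (leaf 429 6)) (move 494 (branch (move 591 (leaf 462 4)) (move 463 (branch (move 431 (leaf 430 6)) (move 464 (branch (move 492 (leaf 460 1)) (move 465 (leaf 461 1)))))))))))))) (move 560 (branch (move 561 (leaf 525 3)) (move 461 (branch (move 429 (leaf 429 4)) (move 462 (branch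 (move 430 (leaf 429 6)) (move 494 (branch (move 591 (leaf 462 4)) (move 463 (branch (move 431 (leaf 430 6)) (move 464 (branch (move 492 (leaf 460 1)) (move 465 (leaf 461 1))))))))))))))))) (branch (move 461 (branch (move 429 (leaf 429 4)) (move 462 (branch (move 430 (leaf 429 6)) (move 494 (branch (move 589 (leaf 461 5)) (move 559 (branch (move 591 (leaf 462 4)) (move 524 (branch (move 560 (leaf 524 3)) (move 523 (leaf 523 0)))))))))))) (move 461 (branch (move 429 (leaf 429 4)) (move 460 (branch (move 428 (leaf 428 7)) (move 589 (branch (move 492 (leaf 460 7)) (move 621 (branch (move 653 (leaf 525 6)) (move 620 (branch (move 652 (leaf 524 5)) (move 588 (leaf 492 5))))))))))))))))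
theorem a6p517 : a6e517.Valid :=
  pos_of_chk [] forall_nil a6c517 a6e517 (by decide +kernel)

def a6e518 : Pos := ⟨329510287762989358691697063434341007948329749536956207605068577044420714242840626355117422631826461427798601630014987845021544588264928353297742257660910108672, 8702164876336042794269630822281975311413574438029477812948236888859339728700802149001478679331069148911835200786119669136563206340516951508489766721661073715282716767711234439602224758784, 10⟩
def a6c518 : Cert := (move 461 (branch (move 429 (branch (move 397 (leaf 397 4)) (move 428 (branch (move 396 (leaf 396 7)) (move 460 (branch (move 557 (leaf 428 7)) (move 459 (branch (move 458 (leaf 458 0)) (move 430 (branch (move 431 (leaf 427 1)) (move 398 (leaf 397 6)))))))))))) (branch (move 557 (branch (move 589 (branch (move 621 (leaf 493 6)) (move 460 (branch (move 492 (leaf 460 7)) (move 428 (leaf 428 7)))))) (branch (move 462 (branch (move 430 (leaf 429 5)) (move 460 (branch (move 428 (leaf 428 7)) (move 459 (branch (move 458 (leaf 458 0)) (move 491 (branch (move 490 (leaf 458 1)) (move 463 (branch (move 492 (leaf 459 1)) (move 464 (branch (move 465 (leaf 461 1)) (move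 432 (branch (move 431 (leaf 428 2)) (move 433 (leaf 429 2)))))))))))))))) (move 462 (branch (move 589 (leaf 461 6)) (move 430 (leaf 429 5))))))) (branch (move 429 (branch (move 397 (leaf 397 4)) (move 428 (branch (move 396 (leaf 396 7)) (move 557 (branch (move 460 (leaf 428 7)) (move 589 (branch (move 621 (leaf 493 6)) (move 462 (leaf 461 6)))))))))) (branch (move 429 (branch (move 397 (leaf 397 4)) (move 430 (branch (move 398 (leaf 397 6)) (move 462 (branch (move 557 (leaf 429 5)) (move 428 (branch (move 396 (leaf 396 7)) (move 463 (branch (move 464 (leaf 428 3)) (move 427 (leaf 427 0)))))))))))) (branch (move 429 (branch (move 397 (leaf 397 4)) (move 430 (branch (move 398 (leaf 397 6)) (move 462 (branch (move 557 (leaf 429 5)) (move 431 (branch (move 399 (leaf 398 6)) (move 432 (branch (move 460 (leaf 428 1)) (move 433 (leaf 429 1)))))))))))) (move 462 (branch (move 429 (branch (move 397 (leaf 397 4)) (move 428 (branch (move 396 (leaf 396 7)) (move 463 (branch (move 464 (leaf 428 3)) (move 427 (branch (move 460 (leaf 427 3)) (move 426 (leaf 426 0)))))))))) (branch (move 430 (branch (move 398 (leaf 397 5)) (move 431 (branch (move 399 (leaf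 398 6)) (move 460 (branch (move 459 (leaf 427 2)) (move 463 (branch (move 432 (leaf 428 2)) (move 492 (branch (move 491 (leaf 459 1)) (move 464 (leaf 460 1)))))))))))) (branch (move 429 (branch (move 397 (leaf 397 4)) (move 430 (branch (move 398 (leaf 397 5)) (move 431 (branch (move 399 (leaf 398 6)) (move 460 (branch (move 459 (leaf 427 2)) (move 432 (leaf 428 1)))))))))) (move 429 (branch (move 397 (leaf 397 4)) (move 430 (branch (move 398 (leaf 397 5)) (move 428 (branch (move 396 (leaf 396 7)) (move 463 (branch (move 464 (leaf 428 3)) (move 427 (leaf 427 0))))))))))))))))))))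
theorem a6p518 : a6e518.Valid :=
  pos_of_chk [] forall_nil a6c518 a6e518 (by decide +kernel)

def a6e519 : Pos := ⟨329510287762989358691697063434341007948329749536956207605068577044420714242840626355117422631826461427798601630014987845021544588264928353297742257660910108672, 8702164876336042794269630822281975311698078113815807875676556347635688762994009859004593009707761124787037596188193075920248130743100842392957335851161322467505743005114604304610506047488, 8⟩
def a6c519 : Cert := (move 461 (branch (move 429 (branch (move 397 (leaf 397 4)) (move 428 (branch (move 396 (leaf 396 7)) (move 460 (branch (move 557 (leaf 428 7)) (move 459 (branch (move 458 (leaf 458 0)) (move 430 (branch (move 431 (leaf 427 1)) (move 398 (leaf 397 6)))))))))))) (branch (move 429 (branch (move 397 (leaf 397 4)) (move 428 (branch (move 396 (leaf 396 7)) (move 557 (branch (move 460 (leaf 428 7)) (move 589 (branch (move 621 (leaf 493 6)) (move 462 (leaf 461 6)))))))))) (branch (move 429 (branch (move 397 (leaf 397 4)) (move 430 (branch (move 398 (leaf 397 6)) (move 462 (branch (move 557 (leaf 429 5)) (move 428 (branch (move 396 (leaf 396 7)) (move 463 (branch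 (move 464 (leaf 428 3)) (move 427 (leaf 427 0)))))))))))) (branch (move 429 (branch (move 397 (leaf 397 4)) (move 430 (branch (move 398 (leaf 397 6)) (move 462 (branch (move 557 (leaf 429 5)) (move 431 (branch (move 399 (leaf 398 6)) (move 432 (branch (move 460 (leaf 428 1)) (move 433 (leaf 429 1)))))))))))) (branch (move 462 (branch (move 557 (branch (move 589 (leaf 461 6)) (move 460 (branch (move 428 (leaf 428 7)) (move 495 (branch (move 496 (leaf 460 3)) (move 459 (leaf 459 0)))))))) (branch (move 430 (branch (move 398 (leaf 397 5)) (move 431 (branch (move 399 (leaf 398 6)) (move 460 (branch (move 459 (leaf 427 2)) (move 495 (branch (move 496 (leaf 460 3)) (move 432 (branch (move 463 (leaf 428 2)) (move 433 (leaf 429 1)))))))))))) (move 430 (branch (move 557 (leaf 429 5)) (move 398 (leaf 397 5))))))) (move 462 (branch (move 429 (branch (move 397 (leaf 397 4)) (move 428 (branch (move 396 (leaf 396 7)) (move 463 (branch (move 464 (leaf 428 3)) (move 427 (branch (move 460 (leaf 427 3)) (move 426 (leaf 426 0)))))))))) (branch (move 429 (branch (move 397 (leaf 397 4)) (move 430 (branch (move 398 (leaf 397 5)) (move 431 (branch (move 399 (leaf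 398 6)) (move 460 (branch (move 459 (leaf 427 2)) (move 432 (leaf 428 1)))))))))) (branch (move 429 (branch (move 397 (leaf 397 4)) (move 430 (branch (move 398 (leaf 397 5)) (move 428 (branch (move 396 (leaf 396 7)) (move 463 (branch (move 464 (leaf 428 3)) (move 427 (leaf 427 0)))))))))) (move 430 (branch (move 398 (leaf 397 5)) (move 431 (branch (move 399 (leaf 398 6)) (move 460 (branch (move 459 (leaf 427 2)) (move 495 (branch (move 496 (leaf 460 3)) (move 432 (branch (move 463 (leaf 428 2)) (move 433 (leaf 429 1))))))))))))))))))))))
theorem a6p519 : a6e519.Valid :=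
  pos_of_chk [] forall_nil a6c519 a6e519 (by decide +kernel)

def a6e520 : Pos := ⟨219673525315979741810835388270848921292295289719147264262173283757878641081171558163764027572280084693202867107147115714443335893833343044179946512277611479040, 82377571921567316939643569382659291275272727914988331416815251227816820858486593520753058529108100547763976808512320133173865234045096668290000194758768590848, 9⟩
def a6c520 : Cert := (move 431 (branch (move 524 (branch (move 523 (leaf 491 1)) (move 464 (branch (move 463 (leaf 460 2)) (move 432 (branch (move 465 (leaf 429 0)) (move 397 (branch (move 396 (leaf 396 3)) (move 433 (branch (move 398 (leaf 397 3)) (move 401 (branch (move 400 (leaf 397 2)) (move 402 (leaf 398 2)))))))))))))) (branch (move 463 (branch (move 464 (leaf 460 2)) (move 399 (leaf 398 5)))) (branch (move 524 (branch (move 523 (leaf 491 1)) (move 399 (branch (move 463 (leaf 398 5)) (move 400 (branch (move 428 (leaf 396 2)) (move 401 (branch (move 432 (leaf 397 2)) (move 398 (leaf 397 1)))))))))) (move 428 (branch (move 399 (branch (move 400 (leaf 396 2)) (move 427 (branch (move 398 (leaf 395 2)) (move 395 (branch (move 394 (leaf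 394 3)) (move 396 (leaf 395 3)))))))) (branch (move 524 (branch (move 523 (leaf 491 1)) (move 399 (branch (move 400 (leaf 396 2)) (move 427 (branch (move 398 (leaf 395 2)) (move 458 (branch (move 459 (leaf 426 1)) (move 426 (branch (move 457 (leaf 425 1)) (move 394 (branch (move 393 (leaf 393 3)) (move 395 (leaf 394 3)))))))))))))) (branch (move 524 (branch (move 523 (leaf 491 1)) (move 396 (branch (move 395 (leaf 395 3)) (move 432 (branch (move 397 (leaf 396 3)) (move 465 (branch (move 464 (leaf 429 0)) (move 433 (branch (move 466 (leaf 430 0)) (move 401 (branch (move 400 (leaf 397 2)) (move 402 (leaf 398 2)))))))))))))) (branch (move 524 (branch (move 523 (leaf 491 1)) (move 400 (branch (move 399 (leaf 396 2)) (move 432 (branch (move 401 (leaf 397 2)) (move 465 (branch (move 464 (leaf 429 0)) (move 433 (branch (move 466 (leaf 430 0)) (move 397 (branch (move 396 (leaf 396 3)) (move 398 (leaf 397 3)))))))))))))) (move 524 (branch (move 523 (leaf 491 1)) (move 395 (branch (move 396 (leaf 395 3)) (move 427 (branch (move 394 (leaf 394 3)) (move 458 (branch (move 459 (leaf 426 1)) (move 426 (branch (move 457 (leaf 425 1)) (move 398 (branch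 (move 397 (leaf 394 2)) (move 399 (leaf 395 2)))))))))))))))))))))))
theorem a6p520 : a6e520.Valid :=
  pos_of_chk [] forall_nil a6c520 a6e520 (by decide +kernel)

def a6e521 : Pos := ⟨329510287865282815188451496872253185974192223043726271543914351715773569495844807492763502471928651812983106540980196724007796807302967620356660790577426595840, 471745303198799836294399552619668803152428358688345472333929901965419427289971135085184038893884714233733710008696070189941659366644460060170964732350025413240956125184, 12⟩
def a6c521 : Cert := (move 492 (branch (move 523 (branch (move 524 (leaf 491 1)) (move 491 (branch (move 490 (leaf 490 0)) (move 522 (leaf 490 1)))))) (branch (move 491 (branch (move 490 (leaf 490 0)) (move 463 (branch (move 462 (leaf 459 2)) (move 464 (leaf 460 2)))))) (move 430 (branch (move 462 (branch (move 557 (leaf 429 5)) (move 398 (leaf 397 5)))) (branch (move 524 (branch (move 523 (leaf 491 1)) (move 462 (branch (move 557 (leaf 429 5)) (move 463 (branch (move 464 (leaf 460 2)) (move 431 (branch (move 399 (leaf 398 5)) (move 429 (branch (move 397 (leaf 397 7)) (move 428 (branch (move 427 (leaf 427 0)) (move 396 (branch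 (move 395 (leaf 395 3)) (move 461 (leaf 396 7)))))))))))))))) (move 429 (branch (move 461 (branch (move 398 (leaf 397 6)) (move 397 (leaf 397 4)))) (branch (ref 0) (branch (move 524 (branch (move 523 (leaf 491 1)) (move 397 (branch (move 461 (leaf 397 4)) (move 463 (branch (move 464 (leaf 460 2)) (move 431 (branch (move 399 (leaf 398 5)) (move 396 (branch (move 432 (leaf 396 3)) (move 395 (branch (move 428 (leaf 395 3)) (move 394 (leaf 394 0)))))))))))))) (move 428 (branch (move 461 (branch (move 398 (leaf 397 6)) (move 396 (leaf 396 7)))) (branch (move 524 (branch (move 523 (leaf 491 1)) (move 463 (branch (move 464 (leaf 460 2)) (move 399 (branch (move 431 (leaf 398 5)) (move 427 (branch (move 398 (leaf 395 2)) (move 394 (branch (move 395 (leaf 394 3)) (move 426 (branch (move 393 (leaf 393 3)) (move 458 (branch (move 457 (leaf 425 1)) (move 459 (leaf 426 1)))))))))))))))) (move 524 (branch (move 523 (leaf 491 1)) (move 463 (branch (move 464 (leaf 460 2)) (move 431 (branch (move 399 (leaf 398 5)) (move 396 (branch (move 395 (leaf 395 3)) (move 461 (leaf 396 7)))))))))))))))))))))))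
theorem a6p521 : a6e521.Valid :=
  pos_of_chk [a6e520] (forall_cons a6p520 forall_nil) a6c521 a6e521 (by decide +kernel)

def a6e522 : Pos := ⟨329510287865282815194405759701682797621572283677944804689339381742524079045670775204451299520153607600871263628427347853081563384301500149988176247119037857792, 32703574354730289594013955514409742534876151170174083676917558383046651852390915593899269356111465182768156552286658936901933039728429619519593698017995084697695383174516659248400052984383912542208, 11⟩
def a6c522 : Cert := (move 459 (branch (move 460 (branch (move 458 (leaf 458 0)) (move 462 (leaf 459 0)))) (branch (move 460 (branch (move 492 (leaf 459 3)) (move 462 (leaf 459 0)))) (move 491 (branch (move 492 (branch (move 458 (leaf 458 3)) (move 490 (leaf 490 0)))) (branch (move 492 (branch (move 458 (leaf 458 3)) (move 523 (branch (move 524 (leaf 491 1)) (move 522 (leaf 490 1)))))) (branch (move 492 (branch (move 490 (leaf 490 0)) (move 523 (branch (move 524 (leaf 491 1)) (move 522 (leaf 490 1)))))) (move 523 (branch (move 524 (leaf 491 2)) (move 555 (branch (move 458 (branch (move 426 (leaf 426 7)) (move 587 (branch (move 490 (leaf 458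 7)) (move 620 (branch (move 588 (leaf 491 4)) (move 619 (branch (move 652 (leaf 523 4)) (move 618 (branch (move 650 (leaf 522 5)) (move 586 (leaf 490 5)))))))))))) (branch (move 426 (branch (move 458 (leaf 426 7)) (move 427 (branch (move 394 (leaf 394 7)) (move 522 (branch (move 554 (leaf 426 5)) (move 395 (branch (move 490 (leaf 394 5)) (move 396 (branch (move 364 (leaf 363 6)) (move 397 (branch (move 398 (leaf 394 1)) (move 429 (leaf 397 4)))))))))))))) (branch (move 554 (branch (move 586 (leaf 458 5)) (move 427 (branch (move 522 (leaf 426 5)) (move 426 (branch (move 458 (leaf 426 7)) (move 394 (leaf 394 7)))))))) (move 587 (branch (move 620 (branch (move 588 (leaf 491 4)) (move 619 (branch (move 652 (leaf 523 4)) (move 522 (branch (move 490 (leaf 490 7)) (move 554 (branch (move 651 (leaf 522 7)) (move 427 (leaf 426 5)))))))))) (branch (move 620 (branch (move 588 (leaf 491 4)) (move 619 (branch (move 652 (leaf 523 4)) (move 618 (branch (move 650 (leaf 522 5)) (move 586 (leaf 490 5)))))))) (move 586 (branch (move 618 (leaf 490 5)) (move 554 (leaf 458 5))))))))))))))))))))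
theorem a6p522 : a6e522.Valid :=
  pos_of_chk [] forall_nil a6c522 a6e522 (by decide +kernel)

def a6e523 : Pos := ⟨329510287865282815188451496872253185974192223043726271543914351715773569495844807492763502471928651812983106540980196724007796807302967620356660790577426595840, 32703574354730289596040086163749160181002480491397227780481561628343443180713847058819228292659335203662068697959650154924338275128208254967039834038845502214824543258607048238749146374304360824832, 12⟩
def a6c523 : Cert := (move 461 (branch (move 429 (branch (move 397 (leaf 397 4)) (move 430 (branch (move 398 (leaf 397 6)) (move 462 (branch (move 557 (leaf 429 5)) (move 460 (branch (move 459 (leaf 459 0)) (move 431 (branch (move 432 (leaf 428 1)) (move 399 (leaf 398 6)))))))))))) (branch (move 492 (branch (move 460 (branch (move 459 (leaf 459 3)) (move 557 (branch (move 589 (leaf 460 7)) (move 462 (branch (move 430 (leaf 429 5)) (move 463 (branch (move 464 (leaf 460 1)) (move 431 (branch (move 432 (leaf 428 2)) (move 399 (leaf 398 5)))))))))))) (move 523 (branch (move 524 (leaf 491 1)) (move 491 (branch (move 490 (leaf 490 0)) (move 522 (leaf 490 1)))))))) (branch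 (move 492 (branch (move 524 (branch (move 523 (leaf 491 1)) (move 429 (branch (move 397 (leaf 397 4)) (move 460 (branch (move 459 (leaf 459 3)) (move 463 (branch (move 464 (leaf 460 2)) (move 431 (branch (move 399 (leaf 398 5)) (move 430 (branch (move 432 (leaf 428 1)) (move 398 (leaf 397 6)))))))))))))) (branch (move 523 (branch (move 524 (leaf 491 1)) (move 491 (branch (move 490 (leaf 490 0)) (move 522 (leaf 490 1)))))) (move 460 (branch (move 459 (leaf 459 3)) (move 429 (branch (move 397 (leaf 397 4)) (move 491 (branch (move 490 (leaf 490 0)) (move 589 (branch (move 557 (leaf 460 7)) (move 463 (branch (move 464 (leaf 460 2)) (move 431 (branch (move 399 (leaf 398 5)) (move 430 (branch (move 432 (leaf 428 1)) (move 398 (leaf 397 6))))))))))))))))))) (branch (move 524 (branch (move 523 (leaf 491 2)) (move 429 (branch (move 397 (leaf 397 4)) (move 430 (branch (move 398 (leaf 397 6)) (move 462 (branch (move 557 (leaf 429 5)) (move 431 (branch (move 399 (leaf 398 6)) (move 432 (branch (move 433 (leaf 429 1)) (move 464 (branch (move 465 (leaf 429 0)) (move 463 (branch (move 492 (leaf 460 1)) (move 400 (branch (move 401 (leaf 397 2)) (move 368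 (leaf 367 5)))))))))))))))))))) (ref 0))))))
theorem a6p523 : a6e523.Valid :=
  pos_of_chk [a6e522] (forall_cons a6p522 forall_nil) a6c523 a6e523 (by decide +kernel)

def a6e524 : Pos := ⟨329510287711842630443319846715384918935398512783571175635645689708744286616338535786294382711775366235206349174532383405528418478745908719768282991202651865088, 32703574363432454470349998312453335784615750136064191056779138258560933582909133689650489005545421241245219806004817004849674201233762890094572212075318026283318139387075549195121761678976327090176, 14⟩
def a6c524 : Cert := (move 494 (branch (ref 0) (branch (ref 1) (branch (ref 2) (branch (ref 3) (branch (move 495 (branch (move 524 (branch (move 523 (leaf 491 2)) (move 496 (leaf 492 1)))) (branch (move 492 (branch (move 460 (branch (move 459 (leaf 459 3)) (move 557 (branch (move 589 (leaf 460 7)) (move 428 (branch (move 461 (leaf 428 7)) (move 396 (leaf 396 4)))))))) (move 523 (branch (move 524 (leaf 491 1)) (move 491 (branch (move 490 (leaf 490 0)) (move 522 (leaf 490 1)))))))) (move 557 (branch (move 496 (branch (move 497 (leaf 493 1)) (move 461 (branch (move 460 (leaf 460 3)) (move 430 (branch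 (move 462 (leaf 429 5)) (move 429 (branch (move 398 (leaf 397 6)) (move 397 (leaf 397 4)))))))))) (branch (move 496 (branch (move 497 (leaf 493 1)) (move 589 (branch (move 621 (leaf 493 6)) (move 460 (branch (move 461 (leaf 460 3)) (move 492 (leaf 460 7)))))))) (move 589 (branch (move 621 (leaf 493 6)) (move 462 (leaf 461 6)))))))))) (branch (move 492 (branch (move 491 (branch (move 490 (leaf 490 0)) (move 462 (branch (move 463 (leaf 459 2)) (move 430 (branch (move 557 (leaf 429 5)) (move 398 (leaf 397 5)))))))) (branch (move 491 (branch (move 490 (leaf 490 0)) (move 523 (branch (move 522 (leaf 490 1)) (move 524 (branch (move 495 (leaf 491 1)) (move 555 (branch (move 554 (leaf 522 1)) (move 460 (branch (move 587 (leaf 459 6)) (move 428 (leaf 427 5)))))))))))) (move 495 (branch (move 496 (branch (move 497 (leaf 493 1)) (move 464 (branch (move 463 (leaf 460 2)) (move 465 (leaf 461 2)))))) (branch (move 524 (branch (move 523 (leaf 491 1)) (move 496 (leaf 492 1)))) (move 557 (branch (move 524 (branch (move 523 (leaf 491 1)) (move 589 (branch (move 621 (leaf 493 6)) (move 460 (leaf 460 7)))))) (branch (move 462 (branch (move 589 (leaf 461 6))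 (move 430 (leaf 429 5)))) (move 461 (branch (move 462 (branch (move 430 (leaf 429 5)) (move 463 (branch (move 464 (leaf 460 1)) (move 428 (branch (move 460 (leaf 428 7)) (move 429 (branch (move 396 (leaf 396 7)) (move 397 (leaf 397 4)))))))))) (branch (move 524 (branch (move 523 (leaf 491 1)) (move 429 (branch (move 397 (leaf 397 4)) (move 428 (branch (move 460 (leaf 428 4)) (move 396 (leaf 396 7)))))))) (branch (move 462 (branch (move 430 (leaf 429 5)) (move 463 (branch (move 464 (leaf 460 1)) (move 524 (branch (move 523 (leaf 491 1)) (move 460 (branch (move 428 (leaf 428 4)) (move 431 (branch (move 432 (leaf 428 2)) (move 399 (leaf 398 5)))))))))))) (move 430 (branch (move 462 (leaf 429 5)) (move 524 (branch (move 523 (leaf 491 1)) (move 429 (branch (move 398 (leaf 397 6)) (move 397 (leaf 397 4))))))))))))))))))))) (branch (move 495 (branch (move 524 (branch (move 523 (leaf 491 2)) (move 496 (leaf 492 1)))) (branch (move 496 (branch (move 497 (leaf 493 1)) (move 464 (branch (move 465 (leaf 461 2)) (move 463 (branch (move 492 (leaf 460 2)) (move 528 (branch (move 529 (leaf 493 0)) (move 431 (branch (move 560 (leaf 431 7)) (move 399 (leaf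 399 4)))))))))))) (ref 4)))) (branch (move 524 (branch (move 495 (branch (move 523 (leaf 491 2)) (move 496 (leaf 492 1)))) (branch (move 495 (branch (move 496 (leaf 492 1)) (move 492 (branch (move 460 (branch (move 459 (leaf 459 3)) (move 557 (branch (move 589 (leaf 460 7)) (move 428 (leaf 428 4)))))) (move 491 (branch (move 490 (leaf 490 0)) (move 463 (branch (move 462 (leaf 459 2)) (move 464 (leaf 460 2)))))))))) (move 491 (branch (move 523 (branch (move 522 (leaf 490 2)) (move 490 (leaf 490 3)))) (branch (move 492 (branch (move 490 (leaf 490 0)) (move 462 (branch (move 463 (leaf 459 2)) (move 430 (branch (move 557 (leaf 429 5)) (move 398 (leaf 397 5)))))))) (move 492 (branch (move 462 (branch (move 463 (leaf 459 2)) (move 557 (branch (move 589 (leaf 461 6)) (move 430 (leaf 429 5)))))) (move 523 (branch (move 522 (leaf 490 1)) (move 555 (branch (move 554 (leaf 522 1)) (move 587 (branch (move 619 (leaf 491 6)) (move 460 (leaf 459 6)))))))))))))))) (move 495 (branch (move 496 (branch (move 497 (leaf 493 1)) (move 464 (branch (move 465 (leaf 461 2)) (move 492 (branch (move 463 (leaf 460 2)) (move 460 (branch (move 459 (leaf 459 3)) (move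 461 (leaf 460 3)))))))))) (branch (move 524 (branch (move 523 (leaf 491 2)) (move 496 (leaf 492 1)))) (ref 5)))))))))))))
theorem a6p524 : a6e524.Valid :=
  pos_of_chk [a6e497, a6e504, a6e518, a6e519, a6e521, a6e523] (forall_cons a6p497 (forall_cons a6p504 (forall_cons a6p518 (forall_cons a6p519 (forall_cons a6p521 (forall_cons a6p523 forall_nil)))))) a6c524 a6e524 (by decide +kernel)

def a6e525 : Pos := ⟨329510287686269266319131238355906874428932894406878659650934246040906072803087490501882862751749818638910222946791081185781855423986398903003553357973522743296, 321053217240575871666542901090409489596374741265916306070223078834056350300651047586285774452434562733507211273627594964781800890332355046890880958320893694032616203443560017642410595115275804419925047508992, 18⟩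
def a6c525 : Cert := (move 493 (branch (ref 0) (branch (ref 1) (branch (ref 2) (branch (move 461 (branch (move 558 (branch (move 429 (leaf 429 4)) (move 590 (branch (move 622 (leaf 493 7)) (move 557 (leaf 461 4)))))) (branch (ref 3) (branch (move 429 (branch (move 558 (leaf 429 4)) (move 397 (branch (move 494 (leaf 397 4)) (move 398 (branch (move 430 (leaf 397 6)) (move 366 (leaf 365 6)))))))) (move 557 (branch (ref 4) (branch (move 462 (branch (move 430 (leaf 429 6)) (move 494 (branch (move 589 (leaf 461 6)) (move 460 (branch (move 428 (leaf 428 7)) (move 495 (branch (move 496 (leaf 460 3)) (move 459 (leaf 459 0)))))))))) (move 558 (branch (move 590 (leaf 461 4)) (move 559 (branch (move 462 (branch (move 430 (leaf 429 6)) (move 494 (branch (move 591 (leaf 462 4)) (move 460 (branch (move 428 (leaf 428 7)) (move 495 (branch (move 496 (leaf 460 3)) (move 459 (leaf 459 0)))))))))) (move 560 (branch (move 524 (leaf 524 3)) (move 561 (leaf 525 3))))))))))))))) (branch (move 461 (branch (move 558 (branch (move 429 (leaf 429 4)) (move 590 (branch (move 622 (leaf 493 7)) (move 557 (leaf 461 4)))))) (branch (ref 3) (branch (move 429 (branch (move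 558 (leaf 429 4)) (move 397 (branch (move 494 (leaf 397 4)) (move 398 (branch (move 430 (leaf 397 6)) (move 366 (leaf 365 6)))))))) (move 557 (branch (move 460 (branch (move 428 (leaf 428 7)) (move 492 (branch (move 589 (leaf 460 7)) (move 491 (branch (move 490 (leaf 490 0)) (move 462 (branch (move 463 (leaf 459 1)) (move 430 (leaf 429 6)))))))))) (branch (ref 4) (move 494 (branch (move 462 (branch (move 430 (leaf 429 5)) (move 460 (branch (move 428 (leaf 428 7)) (move 495 (branch (move 496 (leaf 460 3)) (move 459 (leaf 459 0)))))))) (branch (move 460 (branch (move 428 (leaf 428 7)) (move 495 (branch (move 496 (leaf 460 3)) (move 459 (branch (move 492 (leaf 459 3)) (move 458 (leaf 458 0)))))))) (move 462 (branch (move 430 (leaf 429 5)) (move 558 (branch (move 590 (leaf 461 4)) (move 463 (branch (move 431 (leaf 430 6)) (move 464 (branch (move 492 (leaf 460 1)) (move 465 (leaf 461 1)))))))))))))))))))) (branch (move 494 (branch (ref 5) (branch (ref 6) (branch (ref 7) (branch (move 558 (branch (move 559 (branch (move 560 (branch (move 561 (leaf 525 3)) (move 557 (branch (move 524 (leaf 524 3)) (move 589 (branch (move 588 (leaf 556 1)) (move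 621 (leaf 493 6)))))))) (move 462 (branch (move 591 (leaf 462 4)) (move 430 (branch (move 398 (leaf 397 5)) (move 431 (branch (move 463 (leaf 430 6)) (move 399 (leaf 398 6)))))))))) (move 590 (branch (move 622 (leaf 493 7)) (move 461 (leaf 461 7)))))) (move 462 (branch (move 557 (branch (move 589 (leaf 461 6)) (move 430 (leaf 429 5)))) (branch (move 558 (branch (move 463 (branch (move 431 (leaf 430 6)) (move 492 (branch (move 491 (leaf 459 2)) (move 464 (branch (move 495 (leaf 460 2)) (move 465 (leaf 461 1)))))))) (move 589 (branch (move 557 (leaf 461 5)) (move 590 (branch (move 622 (leaf 493 7)) (move 621 (leaf 493 5)))))))) (move 430 (branch (move 398 (leaf 397 5)) (move 431 (branch (move 399 (leaf 398 6)) (move 558 (branch (move 463 (leaf 430 6)) (move 590 (branch (move 622 (leaf 493 7)) (move 461 (leaf 461 7)))))))))))))))))) (branch (move 523 (branch (move 524 (branch (move 558 (branch (move 559 (leaf 523 0)) (move 461 (branch (move 429 (leaf 429 4)) (move 590 (branch (move 622 (leaf 493 7)) (move 557 (leaf 461 4)))))))) (move 554 (branch (move 555 (leaf 522 1)) (move 522 (branch (move 553 (leaf 521 1)) (move 521 (branch (move 492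 (leaf 489 2)) (move 489 (branch (move 488 (leaf 488 3)) (move 490 (leaf 489 3)))))))))))) (branch (move 524 (branch (move 558 (branch (move 559 (leaf 523 0)) (move 461 (branch (move 429 (leaf 429 4)) (move 590 (branch (move 622 (leaf 493 7)) (move 557 (leaf 461 4)))))))) (move 494 (branch (move 522 (leaf 490 2)) (move 495 (leaf 491 2)))))) (branch (move 461 (branch (ref 8) (branch (move 429 (branch (move 558 (leaf 429 4)) (move 396 (branch (move 428 (leaf 396 7)) (move 397 (branch (move 364 (leaf 364 7)) (move 398 (branch (move 430 (leaf 397 6)) (move 366 (leaf 365 6)))))))))) (branch (move 558 (branch (move 429 (leaf 429 4)) (move 590 (branch (move 622 (leaf 493 7)) (move 557 (leaf 461 4)))))) (ref 9))))) (branch (ref 10) (move 461 (branch (ref 8) (branch (move 429 (branch (move 558 (leaf 429 4)) (move 396 (branch (move 428 (leaf 396 7)) (move 397 (branch (move 364 (leaf 364 7)) (move 398 (branch (move 430 (leaf 397 6)) (move 366 (leaf 365 6)))))))))) (branch (move 558 (branch (move 429 (leaf 429 4)) (move 590 (branch (move 622 (leaf 493 7)) (move 557 (leaf 461 4)))))) (ref 11)))))))))) (branch (move 494 (branch (ref 12) (branch (ref 6)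 (branch (ref 13) (branch (ref 14) (branch (ref 15) (branch (move 558 (branch (move 461 (branch (move 590 (leaf 461 7)) (move 429 (leaf 429 4)))) (branch (move 590 (branch (move 622 (leaf 493 7)) (move 591 (branch (move 623 (leaf 494 4)) (move 559 (branch (move 462 (leaf 462 4)) (move 524 (branch (move 523 (leaf 523 0)) (move 560 (branch (move 557 (leaf 524 3)) (move 561 (leaf 525 3)))))))))))) (ref 16)))) (move 461 (branch (move 558 (branch (move 590 (leaf 461 7)) (move 429 (leaf 429 4)))) (move 460 (branch (move 428 (branch (move 557 (leaf 428 7)) (move 396 (branch (move 492 (leaf 396 4)) (move 364 (leaf 364 4)))))) (branch (move 495 (branch (move 496 (leaf 460 3)) (move 459 (branch (move 492 (leaf 459 3)) (move 458 (leaf 458 0)))))) (move 495 (branch (move 496 (leaf 460 3)) (move 523 (branch (move 524 (leaf 491 2)) (move 428 (branch (move 557 (leaf 428 7)) (move 459 (branch (move 458 (leaf 458 0)) (move 491 (branch (move 555 (leaf 427 6)) (move 396 (branch (move 427 (leaf 395 6)) (move 364 (leaf 364 4)))))))))))))))))))))))))) (branch (move 523 (branch (move 524 (branch (move 558 (branch (move 559 (leaf 523 0)) (move 461 (branch (move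 429 (leaf 429 4)) (move 590 (branch (move 622 (leaf 493 7)) (move 557 (leaf 461 4)))))))) (move 554 (branch (move 555 (leaf 522 1)) (move 522 (branch (move 553 (leaf 521 1)) (move 521 (branch (move 492 (leaf 489 2)) (move 489 (branch (move 488 (leaf 488 3)) (move 490 (leaf 489 3)))))))))))) (branch (move 524 (branch (move 558 (branch (move 559 (leaf 523 0)) (move 461 (branch (move 429 (leaf 429 4)) (move 590 (branch (move 622 (leaf 493 7)) (move 557 (leaf 461 4)))))))) (move 494 (branch (move 522 (leaf 490 2)) (move 495 (leaf 491 2)))))) (branch (ref 10) (branch (ref 17) (move 461 (branch (ref 18) (branch (move 558 (branch (move 429 (leaf 429 4)) (move 590 (branch (move 622 (leaf 493 7)) (move 557 (leaf 461 4)))))) (branch (move 429 (branch (move 558 (leaf 429 4)) (move 397 (branch (move 494 (leaf 397 4)) (move 396 (branch (move 428 (leaf 396 7)) (move 364 (leaf 364 7)))))))) (ref 11)))))))))) (branch (ref 19) (branch (ref 20) (branch (move 558 (branch (move 590 (branch (move 622 (leaf 493 7)) (move 461 (branch (move 557 (leaf 461 4)) (move 429 (leaf 429 4)))))) (branch (move 590 (branch (move 622 (leaf 493 7)) (move 461 (branch (move 494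 (leaf 461 7)) (move 429 (leaf 429 4)))))) (branch (move 494 (branch (move 495 (branch (move 496 (branch (move 497 (leaf 493 1)) (move 464 (branch (move 465 (leaf 461 2)) (move 492 (branch (move 463 (leaf 460 2)) (move 491 (branch (move 490 (leaf 490 0)) (move 459 (branch (move 458 (leaf 458 3)) (move 460 (leaf 459 3)))))))))))) (branch (move 524 (branch (move 523 (leaf 491 2)) (move 496 (leaf 492 1)))) (move 492 (branch (move 491 (branch (move 490 (leaf 490 0)) (move 459 (branch (move 458 (leaf 458 3)) (move 460 (leaf 459 3)))))) (move 524 (branch (move 523 (leaf 491 1)) (move 463 (branch (move 464 (leaf 460 2)) (move 431 (branch (move 462 (leaf 430 6)) (move 399 (leaf 398 5))))))))))))) (branch (move 590 (branch (move 622 (leaf 493 7)) (move 495 (branch (move 463 (leaf 462 6)) (move 524 (branch (move 523 (leaf 491 2)) (move 496 (leaf 492 1)))))))) (branch (move 590 (branch (move 622 (leaf 493 7)) (move 591 (branch (move 623 (leaf 494 4)) (move 559 (branch (move 462 (leaf 462 4)) (move 524 (branch (move 523 (leaf 523 0)) (move 560 (branch (move 557 (leaf 524 3)) (move 561 (leaf 525 3)))))))))))) (move 590 (branch (move 622 (leaf 493 7))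 (move 495 (branch (move 463 (leaf 462 6)) (move 496 (branch (move 497 (leaf 493 1)) (move 591 (branch (move 623 (leaf 494 4)) (move 462 (branch (move 559 (leaf 462 4)) (move 430 (branch (move 557 (leaf 429 5)) (move 398 (leaf 397 5)))))))))))))))))) (ref 21))))) (branch (move 558 (branch (move 494 (branch (move 495 (branch (move 496 (branch (move 497 (leaf 493 1)) (move 464 (branch (move 465 (leaf 461 2)) (move 492 (branch (move 463 (leaf 460 2)) (move 491 (branch (move 490 (leaf 490 0)) (move 459 (branch (move 458 (leaf 458 3)) (move 460 (leaf 459 3)))))))))))) (branch (move 524 (branch (move 523 (leaf 491 2)) (move 496 (leaf 492 1)))) (move 492 (branch (move 460 (branch (move 459 (leaf 459 3)) (move 557 (branch (move 589 (leaf 460 7)) (move 428 (branch (move 524 (leaf 428 4)) (move 396 (leaf 396 4)))))))) (branch (move 491 (branch (move 490 (leaf 490 0)) (move 459 (branch (move 458 (leaf 458 3)) (move 460 (leaf 459 3)))))) (move 523 (branch (move 524 (leaf 491 1)) (move 491 (branch (move 490 (leaf 490 0)) (move 522 (leaf 490 1)))))))))))) (branch (move 590 (branch (move 622 (leaf 493 7)) (move 495 (branch (move 463 (leaf 462 6)) (move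 524 (branch (move 523 (leaf 491 2)) (move 496 (leaf 492 1)))))))) (branch (ref 22) (move 590 (branch (move 622 (leaf 493 7)) (move 589 (branch (move 621 (leaf 493 5)) (move 495 (branch (move 463 (leaf 462 6)) (move 496 (branch (move 497 (leaf 493 1)) (move 591 (branch (move 623 (leaf 494 4)) (move 464 (branch (move 465 (leaf 461 2)) (move 528 (branch (move 529 (leaf 493 0)) (move 560 (branch (move 559 (leaf 463 5)) (move 561 (branch (move 592 (leaf 557 2)) (move 593 (leaf 464 4)))))))))))))))))))))))) (branch (move 590 (branch (move 622 (leaf 493 7)) (move 461 (branch (move 557 (leaf 461 4)) (move 429 (leaf 429 4)))))) (branch (move 590 (branch (move 622 (leaf 493 7)) (move 461 (branch (move 494 (leaf 461 7)) (move 429 (leaf 429 4)))))) (ref 21))))) (ref 23)))))))))))))))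
theorem a6p525 : a6e525.Valid :=
  pos_of_chk [a6e491, a6e496, a6e502, a6e503, a6e490, a6e504, a6e492, a6e495, a6e505, a6e506, a6e507, a6e509, a6e497, a6e499, a6e500, a6e501, a6e498, a6e510, a6e511, a6e512, a6e516, a6e517, a6e494, a6e524] (forall_cons a6p491 (forall_cons a6p496 (forall_cons a6p502 (forall_cons a6p503 (forall_cons a6p490 (forall_cons a6p504 (forall_cons a6p492 (forall_cons a6p495 (forall_cons a6p505 (forall_cons a6p506 (forall_cons a6p507 (forall_cons a6p509 (forall_cons a6p497 (forall_cons a6p499 (forall_cons a6p500 (forall_cons a6p501 (forall_cons a6p498 (forall_cons a6p510 (forall_cons a6p511 (forall_cons a6p512 (forall_cons a6p516 (forall_cons a6p517 (forall_cons a6p494 (forall_cons a6p524 forall_nil)))))))))))))))))))))))) a6c525 a6e525 (by decide +kernel)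

def a6e526 : Pos := ⟨117936325803132357904464360546858158127348872133707909181502797516431469828456377814594845691394955038323091838694586955619079756770278485456288849798750272835786113024, 23359695969840033786236836065994514064300278199017059889731503884875621004350942312486780325315468319735660011920221278947223426625675138971223680723782373839192414937346690175478939178009714753536, 5⟩
def a6c526 : Cert := (move 587 (branch (move 490 (branch (move 458 (leaf 458 7)) (move 619 (branch (move 522 (leaf 490 7)) (move 618 (branch (move 586 (leaf 490 5)) (move 650 (leaf 522 5)))))))) (branch (move 618 (branch (move 586 (leaf 490 5)) (move 619 (branch (move 650 (leaf 522 5)) (move 620 (branch (move 588 (leaf 491 4)) (move 652 (leaf 523 4)))))))) (move 588 (branch (move 620 (leaf 491 4)) (move 459 (branch (move 556 (leaf 459 4)) (move 458 (branch (move 426 (leaf 426 7)) (move 490 (leaf 458 7)))))))))))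
theorem a6p526 : a6e526.Valid :=
  pos_of_chk [] forall_nil a6c526 a6e526 (by decide +kernel)

def a6e527 : Pos := ⟨117936325803132357904464360546858158127348872133707909181502797516431469828456377814594845691394955038323091838694586955619079756770278485456288849798750272835786113024, 4351082438674554059351733496951815200037667877094618819959353622019962345205600031047990319187067904328264996714638029956464150111211775144327938372577591998498810480264793826520553488384, 5⟩
def a6c527 : Cert := (move 459 (branch (move 426 (branch (move 458 (leaf 426 7)) (move 427 (branch (move 394 (leaf 394 7)) (move 428 (branch (move 396 (leaf 395 6)) (move 460 (leaf 427 6)))))))) (branch (move 460 (branch (move 428 (leaf 427 6)) (move 587 (branch (move 492 (leaf 459 6)) (move 588 (branch (move 556 (leaf 459 4)) (move 620 (leaf 491 4)))))))) (move 556 (branch (move 588 (leaf 459 4)) (move 427 (branch (move 524 (leaf 427 4)) (move 426 (branch (move 394 (leaf 394 7)) (move 458 (leaf 426 7)))))))))))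
theorem a6p527 : a6e527.Valid :=
  pos_of_chk [] forall_nil a6c527 a6e527 (by decide +kernel)

def a6e528 : Pos := ⟨117936326132642645590733626865989396483255746562640803588381457167365715869362450617682336193277817790072910477604809902410160942552133909442687752802303630809308856320, 1013065324669708823118083041898211102828850518878551805368191849413018704535318773160672618670146964650057719617731689336599073434719834108278219603573687895354477154048019529728, 6⟩
def a6c528 : Cert := (move 459 (branch (move 426 (branch (move 458 (leaf 426 7)) (move 427 (branch (move 394 (leaf 394 7)) (move 428 (branch (move 396 (leaf 395 6)) (move 460 (leaf 427 6)))))))) (branch (move 524 (branch (move 490 (leaf 490 3)) (move 556 (branch (move 427 (leaf 427 4)) (move 588 (leaf 459 4)))))) (move 490 (branch (move 524 (leaf 490 3)) (move 458 (branch (move 426 (leaf 426 7)) (move 460 (branch (move 428 (leaf 427 6)) (move 489 (branch (move 461 (leaf 457 1)) (move 488 (leaf 456 2)))))))))))))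
theorem a6p528 : a6e528.Valid :=
  pos_of_chk [] forall_nil a6c528 a6e528 (by decide +kernel)

def a6e529 : Pos := ⟨117936326132642645584340285834942244393386235436024398994208328171187854952402897164369574872174937800066523578530778345474835387615493145752810298611121222502026575872, 23359695969840033786236836065994514064355196580345255657564263232176243963254460913565348839708193821785948227636271033155623052179271690726202117282593029485377259724066600817278231125163495129088, 7⟩
def a6c529 : Cert := (move 491 (branch (move 587 (branch (move 618 (branch (move 586 (leaf 490 5)) (move 619 (branch (move 650 (leaf 522 5)) (move 620 (branch (move 588 (leaf 491 4)) (move 652 (leaf 523 4)))))))) (move 490 (branch (move 458 (leaf 458 7)) (move 492 (branch (move 493 (leaf 490 0)) (move 460 (leaf 459 6)))))))) (branch (ref 0) (branch (ref 1) (branch (move 490 (branch (move 524 (leaf 490 3)) (move 492 (branch (move 493 (leaf 490 0)) (move 460 (branch (move 587 (leaf 459 6)) (move 428 (branch (move 396 (leaf 395 5)) (move 459 (leaf 427 6)))))))))) (ref 2))))))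
theorem a6p529 : a6e529.Valid :=
  pos_of_chk [a6e526, a6e527, a6e528] (forall_cons a6p526 (forall_cons a6p527 (forall_cons a6p528 forall_nil))) a6c529 a6e529 (by decide +kernel)

def a6e530 : Pos := ⟨117936325803132357904464360546858158127348872133707909181502797516431469828456377814594845691394955038323091838694586955619079756770278485456288849798750272835786113024, 23359695969840033786236836066053482227174385187335162972179029644248593935634522004632308343057617101817582235528101762242131157025980109716336746760794947525522083665276644216326414612587471699968, 7⟩
def a6c530 : Cert := (move 587 (branch (move 618 (branch (move 586 (leaf 490 5)) (move 619 (branch (move 650 (leaf 522 5)) (move 620 (branch (move 588 (leaf 491 4)) (move 652 (leaf 523 4)))))))) (branch (move 586 (branch (move 618 (leaf 490 5)) (move 459 (branch (move 554 (leaf 458 5)) (move 428 (branch (move 460 (leaf 427 6)) (move 427 (branch (move 396 (leaf 395 6)) (move 426 (branch (move 394 (leaf 394 7)) (move 458 (leaf 426 7)))))))))))) (move 588 (branch (move 620 (leaf 491 4)) (move 459 (branch (move 556 (leaf 459 4)) (move 460 (branch (move 428 (leaf 427 6)) (move 492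 (leaf 459 6)))))))))))
theorem a6p530 : a6e530.Valid :=
  pos_of_chk [] forall_nil a6c530 a6e530 (by decide +kernel)

def a6e531 : Pos := ⟨117936325803132357904464360546858158127348872133707909181502797516431469828456377814594845691394955038323091838694586955619079756770278485456288849798750272835786113024, 4351082438674554059351733496896896818759819669890287189611637231845115065101540152270923541972063335587740128958208992826175707120930420431663754285748936476346016056859792804345274171392, 5⟩
def a6c531 : Cert := (move 459 (branch (move 426 (branch (move 458 (leaf 426 7)) (move 427 (branch (move 394 (leaf 394 7)) (move 428 (branch (move 396 (leaf 395 6)) (move 460 (leaf 427 6)))))))) (branch (move 458 (branch (move 426 (leaf 426 7)) (move 587 (branch (move 490 (leaf 458 7)) (move 588 (branch (move 556 (leaf 459 4)) (move 620 (leaf 491 4)))))))) (move 460 (branch (move 428 (leaf 427 6)) (move 587 (branch (move 492 (leaf 459 6)) (move 588 (branch (move 556 (leaf 459 4)) (move 620 (leaf 491 4)))))))))))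
theorem a6p531 : a6e531.Valid :=
  pos_of_chk [] forall_nil a6c531 a6e531 (by decide +kernel)

def a6e532 : Pos := ⟨117936326132642645584340285834942244393386235436024398994208328171187854952402897164369574872174937800066523578530778345474835387615493145752810298611121222502026575872, 80263304194513472841683870570800026834791423192101463140385293490177786626468946153858346142518573723878935243085124395451111229745481854292328397327926143167004453782779405786127728662954170206741065629696, 14⟩
def a6c532 : Cert := (move 491 (branch (move 587 (branch (move 618 (branch (move 586 (leaf 490 5)) (move 619 (branch (move 650 (leaf 522 5)) (move 620 (branch (move 588 (leaf 491 4)) (move 652 (leaf 523 4)))))))) (move 490 (branch (move 458 (leaf 458 7)) (move 492 (branch (move 493 (leaf 490 0)) (move 460 (leaf 459 6)))))))) (branch (ref 0) (branch (ref 1) (branch (move 587 (branch (move 618 (branch (move 586 (leaf 490 5)) (move 619 (branch (move 650 (leaf 522 5)) (move 522 (branch (move 490 (leaf 490 7)) (move 652 (branch (move 620 (leaf 523 4)) (move 651 (branch (move 684 (leaf 555 4)) (move 554 (leaf 522 7)))))))))))) (branch (move 588 (branch (move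 620 (leaf 491 4)) (move 459 (branch (move 556 (leaf 459 4)) (move 460 (branch (move 428 (leaf 427 6)) (move 492 (leaf 459 6)))))))) (move 586 (branch (move 618 (leaf 490 5)) (move 459 (branch (move 554 (leaf 458 5)) (move 460 (branch (move 428 (leaf 427 6)) (move 492 (leaf 459 6))))))))))) (branch (ref 2) (branch (move 587 (branch (move 490 (branch (move 458 (leaf 458 7)) (move 619 (branch (move 522 (leaf 490 7)) (move 618 (branch (move 586 (leaf 490 5)) (move 650 (leaf 522 5)))))))) (branch (move 490 (branch (move 458 (leaf 458 7)) (move 492 (branch (move 493 (leaf 490 0)) (move 460 (leaf 459 6)))))) (move 586 (branch (move 618 (leaf 490 5)) (move 459 (branch (move 554 (leaf 458 5)) (move 460 (branch (move 428 (leaf 427 6)) (move 492 (leaf 459 6))))))))))) (move 459 (branch (move 426 (branch (move 458 (leaf 426 7)) (move 427 (branch (move 394 (leaf 394 7)) (move 428 (branch (move 396 (leaf 395 6)) (move 460 (leaf 427 6)))))))) (branch (move 554 (branch (move 586 (leaf 458 5)) (move 427 (branch (move 522 (leaf 426 5)) (move 428 (branch (move 396 (leaf 395 6)) (move 460 (leaf 427 6)))))))) (branch (move 554 (branch (move 586 (leaf 458 5))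 (move 427 (branch (move 522 (leaf 426 5)) (move 426 (branch (move 394 (leaf 394 7)) (move 458 (leaf 426 7)))))))) (move 556 (branch (move 588 (leaf 459 4)) (move 490 (branch (move 460 (branch (move 428 (leaf 427 6)) (move 492 (branch (move 493 (leaf 490 0)) (move 489 (branch (move 488 (leaf 456 2)) (move 461 (leaf 457 2)))))))) (branch (move 458 (branch (move 426 (leaf 426 7)) (move 492 (branch (move 493 (leaf 490 0)) (move 457 (branch (move 456 (leaf 456 0)) (move 554 (branch (move 586 (leaf 458 5)) (move 522 (branch (move 425 (leaf 425 7)) (move 521 (branch (move 520 (leaf 520 0)) (move 553 (branch (move 585 (leaf 457 5)) (move 552 (branch (move 551 (leaf 519 2)) (move 584 (branch (move 583 (leaf 551 1)) (move 489 (leaf 456 5)))))))))))))))))))) (branch (move 458 (branch (move 426 (leaf 426 7)) (move 460 (branch (move 428 (leaf 427 6)) (move 489 (branch (move 461 (leaf 457 1)) (move 488 (leaf 456 2)))))))) (move 458 (branch (move 426 (leaf 426 7)) (move 492 (branch (move 493 (leaf 490 0)) (move 460 (branch (move 428 (leaf 427 6)) (move 457 (branch (move 456 (leaf 456 0)) (move 554 (branch (move 586 (leaf 458 5)) (move 425 (branch (move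 424 (leaf 424 3)) (move 522 (leaf 425 7)))))))))))))))))))))))))))))))
theorem a6p532 : a6e532.Valid :=
  pos_of_chk [a6e526, a6e530, a6e531] (forall_cons a6p526 (forall_cons a6p530 (forall_cons a6p531 forall_nil))) a6c532 a6e532 (by decide +kernel)

def a6e533 : Pos := ⟨117936326132642645590733626865989396483255746562640803588381457167365715869362450617682336193277817790072910477604809902410160942552133909442687752802303630809308856320, 23359695969840033788262966714729508040867471324015641187098637484299248420865262559532366582352469909288224611989643746542382982387437618199737764900808489106731164720979756743830920626203313307648, 6⟩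
def a6c533 : Cert := (move 587 (branch (move 618 (branch (move 586 (leaf 490 5)) (move 619 (branch (move 650 (leaf 522 5)) (move 620 (branch (move 588 (leaf 491 4)) (move 652 (leaf 523 4)))))))) (branch (move 524 (branch (move 554 (leaf 522 1)) (move 492 (branch (move 460 (leaf 459 6)) (move 619 (leaf 491 6)))))) (move 554 (branch (move 524 (leaf 522 1)) (move 586 (branch (move 618 (leaf 490 5)) (move 588 (branch (move 620 (leaf 491 4)) (move 553 (branch (move 552 (leaf 552 0)) (move 589 (leaf 553 3)))))))))))))
theorem a6p533 : a6e533.Valid :=
  pos_of_chk [] forall_nil a6c533 a6e533 (by decide +kernel)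

def a6e534 : Pos := ⟨117936325803132357904464360546858158127348872133707909181502797516431469828456377814594845691394955038323091838694586955619079756770278485456288849798750272835786113024, 23359695969840033786236836065817609575636768448130737018747678780613890322143921667406645654991454687123528034478684088704520671897168808891656625494105627684664690282695372944943031550963649347584, 5⟩
def a6c534 : Cert := (move 587 (branch (move 490 (branch (move 458 (leaf 458 7)) (move 619 (branch (move 522 (leaf 490 7)) (move 620 (branch (move 588 (leaf 491 4)) (move 652 (leaf 523 4)))))))) (branch (move 618 (branch (move 586 (leaf 490 5)) (move 619 (branch (move 650 (leaf 522 5)) (move 620 (branch (move 588 (leaf 491 4)) (move 652 (leaf 523 4)))))))) (move 586 (branch (move 618 (leaf 490 5)) (move 459 (branch (move 554 (leaf 458 5)) (move 458 (branch (move 426 (leaf 426 7)) (move 490 (leaf 458 7)))))))))))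
theorem a6p534 : a6e534.Valid :=
  pos_of_chk [] forall_nil a6c534 a6e534 (by decide +kernel)

def a6e535 : Pos := ⟨117936326132642645584340285834942244393386235436024398994208328171187854952402897164369574872174937800066523578530778345474835387615493145752810298611121222502026575872, 23359695969840033786236836065817609575691686829456535283687841183051382602727538708473835604918475087566143361039379188052805963788900030719148195512524371975008439997388044858172928651398513426432, 6⟩
def a6c535 : Cert := (move 491 (branch (move 587 (branch (move 618 (branch (move 586 (leaf 490 5)) (move 619 (branch (move 650 (leaf 522 5)) (move 620 (branch (move 588 (leaf 491 4)) (move 652 (leaf 523 4)))))))) (move 490 (branch (move 458 (leaf 458 7)) (move 492 (branch (move 493 (leaf 490 0)) (move 460 (leaf 459 6)))))))) (branch (ref 0) (branch (move 554 (branch (move 524 (leaf 522 1)) (move 459 (branch (move 586 (leaf 458 5)) (move 427 (branch (move 522 (leaf 426 5)) (move 428 (branch (move 396 (leaf 395 6)) (move 460 (leaf 427 6)))))))))) (move 490 (branch (move 524 (leaf 490 3)) (move 492 (branch (move 493 (leaf 490 0)) (move 460 (branch (move 587 (leaf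 459 6)) (move 428 (branch (move 396 (leaf 395 5)) (move 459 (leaf 427 6))))))))))))))
theorem a6p535 : a6e535.Valid :=
  pos_of_chk [a6e534] (forall_cons a6p534 forall_nil) a6c535 a6e535 (by decide +kernel)

def a6e536 : Pos := ⟨117936325803132357904464360546858158127348872133707909181502797516431469828456377814594845691394955038323091838694586955619079756770278485456288849798750272835786113024, 100329130234965947463422265813706469290473276945602096990939663342815185284931745755441631595781332424481662863598586064707120691772347175961041389152131892829647364281028842332403847668287240084130025701376, 7⟩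
def a6c536 : Cert := (move 587 (branch (move 490 (branch (move 458 (leaf 458 7)) (move 619 (branch (move 522 (leaf 490 7)) (move 652 (branch (move 620 (leaf 523 4)) (move 651 (branch (move 684 (leaf 555 4)) (move 650 (branch (move 618 (leaf 522 5)) (move 682 (leaf 554 5)))))))))))) (branch (move 586 (branch (move 618 (leaf 490 5)) (move 459 (branch (move 554 (leaf 458 5)) (move 428 (branch (move 460 (leaf 427 6)) (move 427 (branch (move 396 (leaf 395 6)) (move 426 (branch (move 394 (leaf 394 7)) (move 458 (leaf 426 7)))))))))))) (branch (move 618 (branch (move 586 (leaf 490 5)) (move 619 (branch (move 650 (leaf 522 5)) (move 522 (branch (move 490 (leaf 490 7)) (move 652 (branch (move 620 (leaf 523 4)) (move 651 (branch (move 684 (leaf 555 4)) (move 554 (leaf 522 7)))))))))))) (move 458 (branch (move 490 (leaf 458 7)) (move 459 (branch (move 426 (leaf 426 7)) (move 554 (branch (move 586 (leaf 458 5)) (move 428 (branch (move 460 (leaf 427 6)) (move 427 (branch (move 522 (leaf 426 5)) (move 396 (leaf 395 6))))))))))))))))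
theorem a6p536 : a6e536.Valid :=
  pos_of_chk [] forall_nil a6c536 a6e536 (by decide +kernel)

def a6e537 : Pos := ⟨117936326187561026865385163554797450786037381174179881395354771446343562625887242631550823289155414925358160018349148836606682251912469049750543449111713448830947033088, 261628594915074030061758847962711178409867025471982426429770014721474049600242305906327686268188834839649904397115719863354769309534814957304367897744993723122479176611195178491825746735530285989888, 10⟩
def a6c537 : Cert := (move 522 (branch (move 493 (branch (move 494 (leaf 490 2)) (move 521 (branch (move 492 (leaf 489 2)) (move 520 (branch (move 556 (leaf 520 0)) (move 552 (branch (move 551 (leaf 519 1)) (move 553 (leaf 520 1)))))))))) (branch (move 489 (branch (move 490 (leaf 489 3)) (move 521 (branch (move 488 (leaf 488 3)) (move 520 (branch (move 556 (leaf 520 0)) (move 552 (branch (move 551 (leaf 519 1)) (move 553 (leaf 520 1)))))))))) (branch (move 493 (branch (move 494 (leaf 490 2)) (move 521 (branch (move 492 (leaf 489 2)) (move 489 (branch (move 488 (leaf 488 3)) (move 490 (leaf 489 3)))))))) (move 558 (branch (move 559 (leaf 523 0)) (move 490 (branch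 (move 489 (leaf 489 3)) (move 590 (branch (move 622 (branch (move 493 (leaf 493 7)) (move 587 (branch (move 619 (leaf 490 7)) (move 623 (branch (move 655 (leaf 526 4)) (move 621 (branch (move 653 (leaf 525 5)) (move 588 (branch (move 589 (leaf 587 0)) (move 620 (leaf 587 3)))))))))))) (branch (move 494 (branch (move 493 (leaf 490 2)) (move 619 (branch (move 587 (leaf 490 7)) (move 589 (branch (move 621 (leaf 493 5)) (move 591 (branch (move 623 (leaf 494 4)) (move 588 (branch (move 620 (leaf 587 1)) (move 556 (leaf 555 3)))))))))))) (branch (move 493 (branch (move 494 (leaf 490 2)) (move 622 (leaf 493 7)))) (move 621 (branch (move 622 (branch (move 653 (leaf 525 5)) (move 623 (branch (move 655 (leaf 526 4)) (move 589 (branch (move 494 (leaf 493 5)) (move 588 (branch (move 587 (leaf 587 0)) (move 624 (leaf 588 3)))))))))) (branch (move 622 (branch (move 653 (leaf 525 5)) (move 619 (branch (move 587 (leaf 490 7)) (move 620 (branch (move 591 (leaf 587 2)) (move 655 (branch (move 654 (leaf 619 0)) (move 623 (leaf 526 4)))))))))) (branch (move 622 (branch (move 653 (leaf 525 5)) (move 623 (branch (move 655 (leaf 526 4)) (move 591 (branch (move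 494 (leaf 494 4)) (move 592 (branch (move 593 (leaf 589 1)) (move 620 (leaf 588 2)))))))))) (move 619 (branch (move 587 (leaf 490 7)) (move 589 (branch (move 494 (leaf 493 5)) (move 620 (branch (move 618 (leaf 586 2)) (move 591 (branch (move 588 (leaf 587 1)) (move 592 (leaf 588 1))))))))))))))))))))))))))
theorem a6p537 : a6e537.Valid :=
  pos_of_chk [] forall_nil a6c537 a6e537 (by decide +kernel)

def a6e538 : Pos := ⟨589681629207876123974012169598548252561675815119001711340660894064313021414679330941544791310892045180104252237467073712380235034207604272824123004789912114793740763136, 642106433574795539577219877661962576060518996081934360018073926815580499659256856703007330833007955138869690690991726166357867572062386333113110928837587360084701760498017236416492477714404966963139066200064, 11⟩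
def a6c538 : Cert := (move 589 (branch (move 493 (branch (move 590 (branch (move 622 (leaf 493 4)) (move 588 (branch (move 620 (leaf 492 5)) (move 591 (branch (move 556 (leaf 555 3)) (move 559 (branch (move 560 (leaf 556 2)) (move 558 (branch (move 587 (leaf 555 2)) (move 623 (branch (move 624 (leaf 588 0)) (move 655 (leaf 526 7)))))))))))))) (branch (move 588 (branch (move 620 (leaf 492 5)) (move 461 (branch (move 556 (leaf 460 5)) (move 460 (branch (move 428 (leaf 428 7)) (move 492 (leaf 460 7)))))))) (branch (move 590 (branch (move 622 (leaf 493 4)) (move 558 (branch (move 461 (leaf 461 4)) (move 591 (branch (move 556 (leaf 555 0)) (move 592 (branch (move 593 (leaf 557 3)) (move 560 (branch (move 561 (leaf 557 2)) (move 623 (branch (move 494 (leaf 494 4)) (move 655 (branch (move 687 (leaf 559 6)) (move 559 (leaf 526 7)))))))))))))))) (move 590 (branch (move 622 (leaf 493 4)) (move 558 (branch (move 461 (leaf 461 4)) (move 588 (branch (move 620 (leaf 492 5)) (move 559 (branch (move 560 (leaf 556 1)) (move 587 (leaf 555 2)))))))))))))) (branch (move 493 (branch (move 590 (branch (move 622 (leaf 493 4)) (move 588 (branch (move 620 (leaf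 492 5)) (move 591 (branch (move 556 (leaf 555 3)) (move 559 (branch (move 560 (leaf 556 2)) (move 558 (branch (move 587 (leaf 555 2)) (move 623 (branch (move 624 (leaf 588 0)) (move 655 (leaf 526 7)))))))))))))) (branch (move 588 (branch (move 620 (leaf 492 5)) (move 461 (branch (move 556 (leaf 460 5)) (move 460 (branch (move 428 (leaf 428 7)) (move 492 (leaf 460 7)))))))) (branch (move 590 (branch (move 622 (leaf 493 4)) (move 558 (branch (move 461 (leaf 461 4)) (move 588 (branch (move 620 (leaf 492 5)) (move 559 (branch (move 560 (leaf 556 1)) (move 587 (leaf 555 2)))))))))) (branch (move 590 (branch (move 622 (leaf 493 4)) (move 558 (branch (move 461 (leaf 461 4)) (move 591 (branch (move 556 (leaf 555 0)) (move 592 (branch (move 593 (leaf 557 3)) (move 621 (branch (move 620 (leaf 588 1)) (move 653 (leaf 525 6)))))))))))) (move 590 (branch (move 622 (leaf 493 4)) (move 558 (branch (move 461 (leaf 461 4)) (move 591 (branch (move 556 (leaf 555 0)) (move 592 (branch (move 593 (leaf 557 3)) (move 560 (branch (move 561 (leaf 557 2)) (move 559 (branch (move 588 (leaf 556 1)) (move 623 (branch (move 655 (leaf 526 7)) (move 528 (branch (move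 529 (leaf 525 2)) (move 496 (leaf 495 5))))))))))))))))))))))) (branch (move 494 (branch (move 621 (leaf 493 6)) (move 462 (branch (move 430 (leaf 429 5)) (move 558 (leaf 461 5)))))) (move 621 (branch (move 494 (leaf 493 6)) (move 620 (branch (move 652 (leaf 524 5)) (move 622 (branch (move 654 (leaf 525 4)) (move 493 (branch (move 590 (leaf 493 4)) (move 588 (leaf 492 5))))))))))))))
theorem a6p538 : a6e538.Valid :=
  pos_of_chk [] forall_nil a6c538 a6e538 (by decide +kernel)

def a6e539 : Pos := ⟨2026130649339417646236166083785233858831040035987044836604370573862332742153723491505219254938831362035952424515191033226448603955775922719388688989660354414003114135556158652416, 93438783879360135143427746282988245637165697335311432458956760475358805180679361890538468113014453403378418462234205026279912664638331850599410423295986001485836773281518042469409547509703230095360, 6⟩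
def a6c539 : Cert := (move 493 (branch (move 492 (branch (move 460 (leaf 460 7)) (move 621 (branch (move 524 (leaf 492 7)) (move 620 (branch (move 588 (leaf 492 5)) (move 652 (leaf 524 5)))))))) (branch (move 492 (branch (move 460 (leaf 460 7)) (move 621 (branch (move 524 (leaf 492 7)) (move 622 (branch (move 590 (leaf 493 4)) (move 654 (leaf 525 4)))))))) (move 590 (branch (move 622 (leaf 493 4)) (move 558 (branch (move 461 (leaf 461 4)) (move 588 (branch (move 620 (leaf 492 5)) (move 559 (branch (move 560 (leaf 556 1)) (move 587 (leaf 555 2)))))))))))))
theorem a6p539 : a6e539.Valid :=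
  pos_of_chk [] forall_nil a6c539 a6e539 (by decide +kernel)

def a6e540 : Pos := ⟨2026130649457353972011839251042782439486923438828198624742384337249089189036399246579973906566522822197754261000861919946159974108893753489073838759427899234360385886920202256384, 21755412191599905984483493332907604300615866303319553417970804817798431435464824246861971302663077313871659946698775509459178141533752675097323536043147355156220286320464095180238018838528, 7⟩
def a6c540 : Cert := (move 493 (branch (move 462 (branch (move 494 (leaf 461 6)) (move 461 (branch (move 430 (leaf 429 6)) (move 460 (branch (move 428 (leaf 428 7)) (move 492 (leaf 460 7)))))))) (branch (move 590 (branch (move 622 (leaf 493 4)) (move 558 (branch (move 461 (leaf 461 4)) (move 588 (branch (move 620 (leaf 492 5)) (move 559 (branch (move 560 (leaf 556 1)) (move 587 (leaf 555 2)))))))))) (move 494 (branch (move 462 (leaf 461 6)) (move 590 (branch (move 622 (leaf 493 4)) (move 588 (branch (move 620 (leaf 492 5)) (move 587 (branch (move 554 (leaf 554 3)) (move 558 (branch (move 586 (leaf 554 2)) (move 559 (leaf 555 2)))))))))))))))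
theorem a6p540 : a6e540.Valid :=
  pos_of_chk [] forall_nil a6c540 a6e540 (by decide +kernel)

def a6e541 : Pos := ⟨589681628988202598875406022843316035350549276672845400112767636948401634388580162886070842927381656638963254074489717975594149796766263711592700219552272842707188056064, 93438783879360135153051866858741127674641620401294747198061899169803377691456174687963744288710619201005180858620704498893426564981218434111540625014826140785349278646635979303323146020665927139328, 5⟩
def a6c541 : Cert := (move 589 (branch (move 492 (branch (move 460 (leaf 460 7)) (move 621 (branch (move 524 (leaf 492 7)) (move 620 (branch (move 588 (leaf 492 5)) (move 652 (leaf 524 5)))))))) (branch (move 492 (branch (move 460 (leaf 460 7)) (move 621 (branch (move 524 (leaf 492 7)) (move 622 (branch (move 590 (leaf 493 4)) (move 654 (leaf 525 4)))))))) (move 588 (branch (move 620 (leaf 492 5)) (move 556 (branch (move 461 (leaf 460 5)) (move 590 (branch (move 591 (leaf 555 3)) (move 622 (leaf 493 4)))))))))))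
theorem a6p541 : a6e541.Valid :=
  pos_of_chk [] forall_nil a6c541 a6e541 (by decide +kernel)

def a6e542 : Pos := ⟨589681629207876123974012169598548252561675815119001711340660894064313021414679330941544791310892045180104252237467073712380235034207604272824123004789912114793740763136, 93438783879360135153051866858800095837529456985000241580774315221966100114304695534529421078366605845873588362824445405705693282344863683963856009695327430596918731449785815300100433752812450480128, 6⟩
def a6c542 : Cert := (move 493 (branch (ref 0) (branch (move 589 (branch (move 494 (branch (move 462 (leaf 461 6)) (move 621 (leaf 493 6)))) (branch (move 492 (branch (move 460 (leaf 460 7)) (move 621 (branch (move 524 (leaf 492 7)) (move 622 (branch (move 590 (leaf 493 4)) (move 654 (leaf 525 4)))))))) (move 462 (branch (move 494 (leaf 461 6)) (move 461 (branch (move 430 (leaf 429 6)) (move 460 (branch (move 428 (leaf 428 7)) (move 492 (leaf 460 7))))))))))) (branch (move 556 (branch (move 554 (leaf 522 2)) (move 461 (branch (move 588 (leaf 460 5)) (move 429 (branch (move 524 (leaf 428 5)) (move 430 (branch (move 398 (leaf 397 6)) (move 462 (leaf 429 6))))))))))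 (move 589 (branch (move 494 (branch (move 462 (leaf 461 6)) (move 621 (leaf 493 6)))) (move 556 (branch (move 554 (leaf 522 2)) (move 588 (branch (move 620 (leaf 492 5)) (move 590 (branch (move 591 (leaf 555 3)) (move 622 (leaf 493 4))))))))))))))
theorem a6p542 : a6e542.Valid :=
  pos_of_chk [a6e541] (forall_cons a6p541 forall_nil) a6c542 a6e542 (by decide +kernel)

def a6e543 : Pos := ⟨1769044886964607796549497976157382280973213696499139345208225362891070572162225847218459392928910410036813119434580775243558542731059101970499571208362629628434176802816, 289660230208979435424661866063410667791869058124433597467052151799032431157400278784034533748659100459532923942574683917724407520817030543231771313898569308554755057561305580734348446545493721350144, 12⟩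
def a6c543 : Cert := (move 590 (branch (move 591 (leaf 555 0)) (move 622 (branch (move 654 (leaf 525 7)) (move 621 (branch (move 653 (leaf 525 5)) (move 589 (branch (move 494 (leaf 493 5)) (move 524 (branch (move 492 (leaf 492 7)) (move 560 (branch (move 559 (leaf 524 3)) (move 623 (branch (move 655 (leaf 526 4)) (move 624 (branch (move 625 (leaf 589 3)) (move 620 (branch (move 652 (leaf 524 5)) (move 619 (branch (move 618 (leaf 586 2)) (move 587 (branch (move 586 (leaf 554 1)) (move 651 (leaf 523 6))))))))))))))))))))))))
theorem a6p543 : a6e543.Valid :=
  pos_of_chk [] forall_nil a6c543 a6e543 (by decide +kernel)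

def a6e544 : Pos := ⟨589681629207876123974012169598548252561675815119001711340660894064313021414679330941544791310892045180104252237467073712380235034207604272824123004789912114793740763136, 289660230208979435425674931396630760233668527411217441616299363316616952069970306434104396075454798740531761467584549212056036401160473710584251581486368153852325784460285024266751613360836041506816, 14⟩
def a6c544 : Cert := (move 556 (branch (move 554 (leaf 522 2)) (move 558 (branch (move 587 (branch (move 586 (leaf 554 1)) (move 559 (branch (move 588 (leaf 555 1)) (move 560 (branch (move 524 (leaf 524 3)) (move 561 (leaf 525 3)))))))) (branch (move 590 (branch (move 591 (leaf 555 0)) (move 622 (branch (move 654 (leaf 525 7)) (move 621 (branch (move 653 (leaf 525 5)) (move 589 (branch (move 494 (leaf 493 5)) (move 620 (branch (move 652 (leaf 524 5)) (move 623 (branch (move 655 (leaf 526 4)) (move 624 (branch (move 588 (leaf 588 3)) (move 625 (leaf 589 3)))))))))))))))) (ref 0))))))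
theorem a6p544 : a6e544.Valid :=
  pos_of_chk [a6e543] (forall_cons a6p543 forall_nil) a6c544 a6e544 (by decide +kernel)

def a6e545 : Pos := ⟨2026130649339417646455839608909413369710460861557649419556992503466918515254346322199156636807556355703874333016357578985722085920303310176576592605651287016005483040871840481280, 321053216778053891366735482276235283233476680519113484740803385218554499551585186526817826180913626750940125292394650788255954099097975955551162612846195705910548002280907678278353189045687213672631780769792, 6⟩
def a6c545 : Cert := (move 493 (branch (move 588 (branch (move 620 (leaf 492 5)) (move 461 (branch (move 556 (leaf 460 5)) (move 460 (branch (move 428 (leaf 428 7)) (move 492 (leaf 460 7)))))))) (branch (move 492 (branch (move 460 (leaf 460 7)) (move 621 (branch (move 524 (leaf 492 7)) (move 653 (branch (move 558 (leaf 525 6)) (move 654 (branch (move 622 (leaf 525 4)) (move 686 (leaf 557 4)))))))))) (move 620 (branch (move 588 (leaf 492 5)) (move 621 (branch (move 652 (leaf 524 5)) (move 653 (branch (move 558 (leaf 525 6)) (move 654 (branch (move 622 (leaf 525 4)) (move 686 (leaf 557 4)))))))))))))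
theorem a6p545 : a6e545.Valid :=
  pos_of_chk [] forall_nil a6c545 a6e545 (by decide +kernel)

def a6e546 : Pos := ⟨2026130649457353972231512776166961950366344264398803207695006266853674962137022077273911288435247815865676169502028465705433456073421140946261742375418831836362754792235884085248, 4351082438168021397193783574083742620704514826167610860124428697222701155746399500146876532042572110858945994329056419700889115155602094634844889144901754762521968493850938381415854637056, 8⟩
def a6c546 : Cert := (move 493 (branch (move 462 (branch (move 494 (leaf 461 6)) (move 461 (branch (move 430 (leaf 429 6)) (move 460 (branch (move 428 (leaf 428 7)) (move 492 (leaf 460 7)))))))) (branch (move 588 (branch (move 620 (leaf 492 5)) (move 461 (branch (move 556 (leaf 460 5)) (move 460 (branch (move 428 (leaf 428 7)) (move 492 (leaf 460 7)))))))) (branch (move 462 (branch (move 494 (leaf 461 6)) (move 461 (branch (move 430 (leaf 429 6)) (move 588 (branch (move 556 (leaf 460 5)) (move 620 (leaf 492 5)))))))) (move 494 (branch (move 462 (leaf 461 6)) (move 556 (branch (move 554 (leaf 522 2)) (move 588 (branch (move 620 (leaf 492 5)) (move 492 (branch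 (move 460 (leaf 460 7)) (move 491 (branch (move 490 (leaf 490 0)) (move 459 (branch (move 458 (leaf 458 3)) (move 524 (leaf 459 7))))))))))))))))))
theorem a6p546 : a6e546.Valid :=
  pos_of_chk [] forall_nil a6c546 a6e546 (by decide +kernel)

def a6e547 : Pos := ⟨2026130649339417646455839608909413369710460861557649419556992503466918515254346322199156636807556355703874333016357578985722085920303310176576592605651287016005483040871840481280, 80263304217873168809348363139757374812081289206368854475547930451907840657408640114279532322761983933101117767595233116958617708504287190555406621350609173035799981680256386776804759606972770190872062984192, 6⟩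
def a6c547 : Cert := (move 493 (branch (move 588 (branch (move 620 (leaf 492 5)) (move 461 (branch (move 556 (leaf 460 5)) (move 460 (branch (move 428 (leaf 428 7)) (move 492 (leaf 460 7)))))))) (branch (move 492 (branch (move 460 (leaf 460 7)) (move 621 (branch (move 524 (leaf 492 7)) (move 653 (branch (move 558 (leaf 525 6)) (move 652 (branch (move 620 (leaf 524 5)) (move 684 (leaf 556 5)))))))))) (branch (move 588 (branch (move 620 (leaf 492 5)) (move 461 (branch (move 556 (leaf 460 5)) (move 558 (branch (move 429 (leaf 429 4)) (move 590 (leaf 461 4)))))))) (move 492 (branch (move 460 (leaf 460 7)) (move 621 (branch (move 524 (leaf 492 7)) (move 558 (branch (move 653 (leaf 525 6)) (move 461 (branch (move 429 (leaf 429 4)) (move 590 (leaf 461 4))))))))))))))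
theorem a6p547 : a6e547.Valid :=
  pos_of_chk [] forall_nil a6c547 a6e547 (by decide +kernel)

def a6e548 : Pos := ⟨589681629207876123974012169598548252561675815119001711340660894064313021414679330941544791310892045180104252237467073712380235034207604272824123004789912114793740763136, 321053216740678377829350000293083177884452664416302717966161843639461091611426108469797923638959576066552707905601762390135727588260139112015075144013259444305942102832850680009678624681188235138536195489792, 7⟩
def a6c548 : Cert := (move 589 (branch (move 494 (branch (move 621 (leaf 493 6)) (move 462 (branch (move 430 (leaf 429 5)) (move 558 (leaf 461 5)))))) (branch (move 621 (branch (move 494 (leaf 493 6)) (move 622 (branch (move 654 (leaf 525 4)) (move 620 (branch (move 652 (leaf 524 5)) (move 590 (branch (move 493 (leaf 493 4)) (move 591 (branch (move 592 (leaf 588 1)) (move 619 (leaf 587 2)))))))))))) (branch (move 493 (branch (move 462 (branch (move 494 (leaf 461 6)) (move 461 (branch (move 430 (leaf 429 6)) (move 460 (branch (move 428 (leaf 428 7)) (move 492 (leaf 460 7)))))))) (move 590 (branch (move 622 (leaf 493 4)) (move 556 (branch (move 554 (leaf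 554 0)) (move 591 (branch (move 558 (leaf 555 0)) (move 592 (leaf 556 3)))))))))) (move 590 (branch (move 622 (branch (move 493 (leaf 493 4)) (move 654 (branch (move 621 (leaf 525 4)) (move 686 (leaf 557 7)))))) (move 556 (branch (move 554 (leaf 554 0)) (move 591 (branch (move 558 (leaf 555 0)) (move 592 (leaf 556 3))))))))))))
theorem a6p548 : a6e548.Valid :=
  pos_of_chk [] forall_nil a6c548 a6e548 (by decide +kernel)

def a6e549 : Pos := ⟨2026130649457353972231512776166961950366344264398803207695006266853674962137022077273911288435247815865676169502028465705433456073421140946261742375418831836362754792235884085248, 4351082438168021397134815411182176441755479316409705357105689016719155403452734665886749727586823698678304952143910382176730762685791816935503012043984935901638762796047154449151602720768, 8⟩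
def a6c549 : Cert := (move 493 (branch (move 492 (branch (move 460 (leaf 460 7)) (move 494 (branch (move 462 (leaf 461 6)) (move 491 (branch (move 490 (leaf 490 0)) (move 523 (branch (move 522 (leaf 490 1)) (move 588 (branch (move 620 (leaf 492 5)) (move 459 (branch (move 458 (leaf 458 3)) (move 556 (leaf 459 4)))))))))))))) (branch (move 462 (branch (move 494 (leaf 461 6)) (move 461 (branch (move 430 (leaf 429 6)) (move 460 (branch (move 428 (leaf 428 7)) (move 492 (leaf 460 7)))))))) (branch (move 588 (branch (move 620 (leaf 492 5)) (move 461 (branch (move 556 (leaf 460 5)) (move 460 (branch (move 428 (leaf 428 7)) (move 492 (leaf 460 7)))))))) (move 462 (branch (move 494 (leaf 461 6)) (move 461 (branch (move 430 (leaf 429 6)) (move 588 (branch (move 556 (leaf 460 5)) (move 620 (leaf 492 5))))))))))))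
theorem a6p549 : a6e549.Valid :=
  pos_of_chk [] forall_nil a6c549 a6e549 (by decide +kernel)

def a6e550 : Pos := ⟨589681629207876123974012169598548252561675815119001711340660894064313021414679330941544791310892045180104252237467073712380235034207604272824123004789912114793740763136, 321053216759366134592603888252904982672703397800948647439225904884483695892466769984478107270517642582929832331259943827849858199877723042077250171153025878513660110648847024815172471260702375954516409319424, 6⟩
def a6c550 : Cert := (move 589 (branch (move 621 (branch (move 494 (leaf 493 6)) (move 653 (branch (move 558 (leaf 525 6)) (move 654 (branch (move 622 (leaf 525 4)) (move 686 (leaf 557 4)))))))) (branch (move 493 (branch (move 462 (branch (move 494 (leaf 461 6)) (move 461 (branch (move 430 (leaf 429 6)) (move 460 (branch (move 428 (leaf 428 7)) (move 492 (leaf 460 7)))))))) (move 590 (branch (move 622 (leaf 493 4)) (move 556 (branch (move 554 (leaf 554 0)) (move 591 (branch (move 558 (leaf 555 0)) (move 592 (leaf 556 3)))))))))) (branch (move 590 (branch (move 622 (branch (move 493 (leaf 493 4)) (move 654 (branch (move 621 (leaf 525 4)) (move 686 (leaf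 557 7)))))) (move 556 (branch (move 554 (leaf 554 0)) (move 591 (branch (move 558 (leaf 555 0)) (move 592 (leaf 556 3)))))))) (move 556 (branch (move 554 (leaf 522 2)) (move 494 (branch (move 621 (leaf 493 6)) (move 462 (branch (move 430 (leaf 429 5)) (move 493 (leaf 461 6))))))))))))
theorem a6p550 : a6e550.Valid :=
  pos_of_chk [] forall_nil a6c550 a6e550 (by decide +kernel)

def a6e551 : Pos := ⟨117936326105183454943817846975014641197060662566946657793635106533610001115660724430778950663684699237420705358621593099908911955467005193753943723360825109337566347264, 401316521089365844257769313907640434516366713783285972810648371642910412297491374347413140752566663960229532277569219822749393094670764434623374433591924760320316821202952665752894723114662105759730452398080, 12⟩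
def a6c551 : Cert := (move 557 (branch (move 589 (branch (move 494 (branch (move 621 (leaf 493 6)) (move 462 (branch (move 430 (leaf 429 5)) (move 558 (leaf 461 5)))))) (branch (move 621 (branch (move 494 (leaf 493 6)) (move 620 (branch (move 652 (leaf 524 5)) (move 622 (branch (move 654 (leaf 525 4)) (move 493 (branch (move 590 (leaf 493 4)) (move 588 (leaf 492 5)))))))))) (branch (ref 0) (move 493 (branch (move 460 (branch (move 492 (leaf 460 7)) (move 461 (branch (move 428 (leaf 428 7)) (move 429 (branch (move 558 (leaf 429 4)) (move 430 (branch (move 398 (leaf 397 6)) (move 462 (leaf 429 6)))))))))) (move 620 (branch (move 588 (leaf 492 5)) (move 621 (branch (move 652 (leaf 524 5)) (move 622 (branch (move 590 (leaf 493 4)) (move 654 (leaf 525 4)))))))))))))) (branch (move 589 (branch (ref 1) (branch (move 621 (branch (move 494 (leaf 493 6)) (move 622 (branch (move 654 (leaf 525 4)) (move 620 (branch (move 652 (leaf 524 5)) (move 590 (branch (move 493 (leaf 493 4)) (move 591 (branch (move 592 (leaf 588 1)) (move 619 (leaf 587 2)))))))))))) (branch (move 621 (branch (move 494 (leaf 493 6)) (move 556 (branch (move 554 (leaf 522 2)) (move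 652 (branch (move 620 (leaf 524 5)) (move 653 (branch (move 684 (leaf 556 5)) (move 654 (branch (move 622 (leaf 525 4)) (move 686 (leaf 557 4)))))))))))) (move 590 (branch (move 622 (branch (move 493 (leaf 493 4)) (move 654 (branch (move 621 (leaf 525 4)) (move 686 (leaf 557 7)))))) (move 556 (branch (move 554 (leaf 554 0)) (move 591 (branch (move 588 (leaf 555 3)) (move 592 (leaf 556 3)))))))))))) (branch (move 589 (branch (ref 1) (branch (move 621 (branch (move 494 (leaf 493 6)) (move 653 (branch (move 558 (leaf 525 6)) (move 652 (branch (move 620 (leaf 524 5)) (move 684 (leaf 556 5)))))))) (branch (move 494 (branch (move 621 (leaf 493 6)) (move 462 (branch (move 430 (leaf 429 5)) (move 558 (leaf 461 5)))))) (move 493 (branch (move 588 (branch (move 620 (leaf 492 5)) (move 461 (branch (move 556 (leaf 460 5)) (move 460 (branch (move 428 (leaf 428 7)) (move 492 (leaf 460 7)))))))) (branch (move 620 (branch (move 588 (leaf 492 5)) (move 621 (branch (move 652 (leaf 524 5)) (move 653 (branch (move 558 (leaf 525 6)) (move 654 (branch (move 622 (leaf 525 4)) (move 686 (leaf 557 4)))))))))) (move 460 (branch (move 492 (leaf 460 7)) (move 461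 (branch (move 428 (leaf 428 7)) (move 429 (branch (move 558 (leaf 429 4)) (move 430 (branch (move 398 (leaf 397 6)) (move 462 (leaf 429 6))))))))))))))))) (branch (move 556 (branch (move 554 (leaf 522 2)) (move 558 (branch (move 587 (branch (move 586 (leaf 554 1)) (move 588 (branch (move 559 (leaf 555 1)) (move 523 (branch (move 522 (leaf 522 3)) (move 620 (branch (move 491 (leaf 491 4)) (move 652 (leaf 524 6)))))))))) (move 590 (branch (move 591 (leaf 555 0)) (move 622 (branch (move 493 (leaf 493 7)) (move 654 (leaf 525 7)))))))))) (branch (move 589 (branch (ref 1) (branch (move 621 (branch (move 494 (leaf 493 6)) (move 653 (branch (move 558 (leaf 525 6)) (move 652 (branch (move 620 (leaf 524 5)) (move 684 (leaf 556 5)))))))) (branch (move 494 (branch (move 621 (leaf 493 6)) (move 462 (branch (move 430 (leaf 429 5)) (move 558 (leaf 461 5)))))) (move 493 (branch (move 588 (branch (move 620 (leaf 492 5)) (move 461 (branch (move 556 (leaf 460 5)) (move 460 (branch (move 428 (leaf 428 7)) (move 492 (leaf 460 7)))))))) (branch (move 588 (branch (move 620 (leaf 492 5)) (move 461 (branch (move 556 (leaf 460 5)) (move 558 (branch (move 429 (leaf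 429 4)) (move 590 (leaf 461 4)))))))) (branch (move 460 (branch (move 492 (leaf 460 7)) (move 461 (branch (move 428 (leaf 428 7)) (move 429 (branch (move 558 (leaf 429 4)) (move 430 (branch (move 398 (leaf 397 6)) (move 462 (leaf 429 6)))))))))) (move 556 (branch (move 554 (leaf 522 2)) (move 588 (branch (move 620 (leaf 492 5)) (move 590 (branch (move 591 (leaf 555 3)) (move 492 (branch (move 460 (leaf 460 7)) (move 491 (branch (move 490 (leaf 490 0)) (move 523 (branch (move 459 (leaf 459 4)) (move 558 (branch (move 522 (leaf 522 3)) (move 587 (branch (move 586 (leaf 554 1)) (move 559 (leaf 555 1)))))))))))))))))))))))))) (branch (ref 2) (move 556 (branch (move 554 (leaf 522 2)) (move 558 (branch (move 590 (branch (move 591 (leaf 555 0)) (move 622 (branch (move 654 (leaf 525 7)) (move 621 (branch (move 653 (leaf 525 5)) (move 589 (branch (move 494 (leaf 493 5)) (move 620 (branch (move 652 (leaf 524 5)) (move 623 (branch (move 655 (leaf 526 4)) (move 624 (branch (move 588 (leaf 588 3)) (move 625 (leaf 589 3)))))))))))))))) (branch (move 587 (branch (move 586 (leaf 554 1)) (move 588 (branch (move 559 (leaf 555 1)) (move 523 (branch (move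 522 (leaf 522 3)) (move 620 (branch (move 491 (leaf 491 4)) (move 652 (leaf 524 6)))))))))) (move 523 (branch (move 522 (leaf 522 3)) (move 494 (branch (move 590 (branch (move 591 (leaf 555 0)) (move 621 (branch (move 589 (leaf 493 5)) (move 622 (branch (move 653 (leaf 525 5)) (move 654 (leaf 525 7)))))))) (branch (move 462 (branch (move 430 (leaf 429 5)) (move 591 (branch (move 590 (leaf 555 0)) (move 559 (leaf 462 4)))))) (move 462 (branch (move 430 (leaf 429 5)) (move 589 (leaf 461 5)))))))))))))))))))))
theorem a6p551 : a6e551.Valid :=
  pos_of_chk [a6e540, a6e549, a6e550] (forall_cons a6p540 (forall_cons a6p549 (forall_cons a6p550 forall_nil))) a6c551 a6e551 (by decide +kernel)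

def a6e552 : Pos := ⟨117936326132642645584340285834942244393386235436024398994208328171187854952402897164369574872174937800066523578530778345474835387615493145752810298611121222502026575872, 23359695969840033790289097366796203220576837031138695654128091372898780280366687682781418773778067023199864105148749030191893656428481028142095391262650763505364928149196672137334004061011701661696, 12⟩
def a6c552 : Cert := (move 524 (branch (move 558 (branch (move 559 (leaf 523 0)) (move 522 (branch (move 557 (leaf 522 0)) (move 493 (branch (move 494 (leaf 490 2)) (move 521 (branch (move 492 (leaf 489 2)) (move 489 (branch (move 488 (leaf 488 3)) (move 490 (leaf 489 3)))))))))))) (branch (move 558 (branch (move 559 (leaf 523 0)) (move 522 (branch (move 557 (leaf 522 0)) (move 493 (branch (move 494 (leaf 490 2)) (move 492 (branch (move 521 (leaf 489 2)) (move 460 (branch (move 428 (leaf 427 5)) (move 587 (branch (move 491 (leaf 459 6)) (move 619 (leaf 491 6)))))))))))))) (branch (move 522 (branch (move 493 (branch (move 494 (leaf 490 2)) (move 521 (branch (move 492 (leaf 489 2)) (move 489 (branch (move 488 (leaf 488 3)) (move 490 (leaf 489 3))))))))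 (branch (move 493 (branch (move 494 (leaf 490 2)) (move 492 (branch (move 521 (leaf 489 2)) (move 460 (branch (move 428 (leaf 427 5)) (move 587 (branch (move 491 (leaf 459 6)) (move 619 (leaf 491 6)))))))))) (move 490 (branch (move 489 (leaf 489 3)) (move 491 (leaf 490 3))))))) (branch (move 558 (branch (move 559 (leaf 523 0)) (move 522 (branch (move 557 (leaf 522 0)) (move 490 (branch (move 489 (leaf 489 3)) (move 491 (leaf 490 3)))))))) (move 491 (branch (move 490 (leaf 490 3)) (move 587 (branch (move 558 (branch (move 559 (leaf 523 0)) (move 620 (branch (move 588 (leaf 491 4)) (move 619 (branch (move 652 (leaf 523 4)) (move 618 (branch (move 586 (leaf 490 5)) (move 650 (leaf 522 5)))))))))) (branch (move 460 (branch (move 492 (leaf 459 6)) (move 459 (branch (move 428 (leaf 427 6)) (move 426 (branch (move 458 (leaf 426 7)) (move 427 (branch (move 394 (leaf 394 7)) (move 558 (branch (move 559 (leaf 523 0)) (move 461 (branch (move 462 (leaf 426 3)) (move 493 (branch (move 429 (leaf 429 4)) (move 590 (branch (move 557 (leaf 461 4)) (move 494 (leaf 461 7)))))))))))))))))) (move 492 (branch (move 460 (leaf 459 6)) (move 619 (leaf 491 6))))))))))))))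
theorem a6p552 : a6e552.Valid :=
  pos_of_chk [] forall_nil a6c552 a6e552 (by decide +kernel)

def a6e553 : Pos := ⟨117936326132642645584340285834942244393386235436024398994208328171187854952402897164369574872174937800066523578530778345474835387615493145752810298611121222502026575872, 80263304194513472841683870572604549444123469381621081661145509859660366638236825226347258685219105965818885938636732150355809178082058167000093995662427074646845415178641585959071899648943768278863957721088, 9⟩
def a6c553 : Cert := (move 491 (branch (move 587 (branch (move 618 (branch (move 586 (leaf 490 5)) (move 619 (branch (move 650 (leaf 522 5)) (move 620 (branch (move 588 (leaf 491 4)) (move 652 (leaf 523 4)))))))) (move 490 (branch (move 458 (leaf 458 7)) (move 492 (branch (move 493 (leaf 490 0)) (move 460 (leaf 459 6)))))))) (branch (ref 0) (branch (move 459 (branch (move 426 (branch (move 458 (leaf 426 7)) (move 427 (branch (move 394 (leaf 394 7)) (move 428 (branch (move 396 (leaf 395 6)) (move 460 (leaf 427 6)))))))) (branch (move 460 (branch (move 428 (leaf 427 6)) (move 587 (branch (move 492 (leaf 459 6)) (move 586 (branch (move 554 (leaf 458 5))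 (move 618 (leaf 490 5)))))))) (move 554 (branch (move 586 (leaf 458 5)) (move 427 (branch (move 522 (leaf 426 5)) (move 426 (branch (move 394 (leaf 394 7)) (move 458 (leaf 426 7))))))))))) (branch (move 587 (branch (move 618 (branch (move 586 (leaf 490 5)) (move 619 (branch (move 650 (leaf 522 5)) (move 522 (branch (move 490 (leaf 490 7)) (move 652 (branch (move 620 (leaf 523 4)) (move 651 (branch (move 684 (leaf 555 4)) (move 554 (leaf 522 7)))))))))))) (branch (move 586 (branch (move 618 (leaf 490 5)) (move 459 (branch (move 554 (leaf 458 5)) (move 460 (branch (move 428 (leaf 427 6)) (move 492 (leaf 459 6)))))))) (move 492 (branch (move 460 (leaf 459 6)) (move 493 (branch (move 490 (leaf 490 0)) (move 494 (branch (move 522 (leaf 490 1)) (move 462 (branch (move 463 (leaf 459 2)) (move 430 (branch (move 398 (leaf 397 5)) (move 557 (leaf 429 5))))))))))))))) (branch (move 459 (branch (move 426 (branch (move 458 (leaf 426 7)) (move 427 (branch (move 394 (leaf 394 7)) (move 428 (branch (move 396 (leaf 395 6)) (move 460 (leaf 427 6)))))))) (branch (move 460 (branch (move 428 (leaf 427 6)) (move 492 (branch (move 587 (leaf 459 6)) (move 490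 (branch (move 493 (leaf 490 0)) (move 489 (branch (move 488 (leaf 456 2)) (move 461 (leaf 457 2)))))))))) (branch (move 426 (branch (move 458 (leaf 426 7)) (move 427 (branch (move 394 (leaf 394 7)) (move 522 (branch (move 554 (leaf 426 5)) (move 396 (branch (move 428 (leaf 395 6)) (move 395 (branch (move 490 (leaf 394 5)) (move 364 (leaf 363 6)))))))))))) (move 426 (branch (move 458 (leaf 426 7)) (move 427 (branch (move 394 (leaf 394 7)) (move 522 (branch (move 554 (leaf 426 5)) (move 490 (branch (move 395 (leaf 394 5)) (move 492 (branch (move 493 (leaf 490 0)) (move 587 (branch (move 460 (leaf 459 6)) (move 619 (leaf 490 7)))))))))))))))))) (move 459 (branch (move 426 (branch (move 458 (leaf 426 7)) (move 427 (branch (move 394 (leaf 394 7)) (move 428 (branch (move 396 (leaf 395 6)) (move 460 (leaf 427 6)))))))) (branch (move 554 (branch (move 586 (leaf 458 5)) (move 427 (branch (move 522 (leaf 426 5)) (move 428 (branch (move 396 (leaf 395 6)) (move 460 (leaf 427 6)))))))) (branch (move 554 (branch (move 586 (leaf 458 5)) (move 427 (branch (move 522 (leaf 426 5)) (move 426 (branch (move 394 (leaf 394 7)) (move 458 (leaf 426 7)))))))) (move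 493 (branch (move 460 (branch (move 428 (leaf 427 6)) (move 458 (branch (move 426 (leaf 426 7)) (move 461 (branch (move 494 (leaf 458 0)) (move 490 (branch (move 489 (leaf 457 1)) (move 462 (leaf 458 1)))))))))) (branch (move 492 (branch (move 490 (leaf 490 0)) (move 460 (branch (move 428 (leaf 427 6)) (move 494 (branch (move 522 (leaf 490 1)) (move 462 (branch (move 463 (leaf 459 2)) (move 557 (branch (move 430 (leaf 429 5)) (move 589 (leaf 461 6)))))))))))) (branch (move 492 (branch (move 490 (leaf 490 0)) (move 494 (branch (move 522 (leaf 490 1)) (move 458 (leaf 458 3)))))) (branch (move 458 (branch (move 426 (leaf 426 7)) (move 460 (branch (move 428 (leaf 427 6)) (move 492 (branch (move 457 (leaf 457 0)) (move 494 (leaf 458 3)))))))) (move 460 (branch (move 428 (leaf 427 6)) (move 490 (branch (move 492 (leaf 490 0)) (move 458 (branch (move 426 (leaf 426 7)) (move 489 (branch (move 461 (leaf 457 1)) (move 488 (leaf 456 2)))))))))))))))))))))))))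
theorem a6p553 : a6e553.Valid :=
  pos_of_chk [a6e534] (forall_cons a6p534 forall_nil) a6c553 a6e553 (by decide +kernel)

def a6e554 : Pos := ⟨117936326105183454943817846975014641197060662566946657793635106533610001115660724430778950663684699237420705358621593099908911955467005193753943723360825109337566347264, 100329130234965947524337419949293442211971428511160674855127295904242063352309788994758452558449506636899099492565614821872836509314088654124530511558288768085631906926053552886531542254383613494348744753152, 15⟩
def a6c554 : Cert := (move 523 (branch (ref 0) (branch (ref 1) (branch (move 524 (branch (move 554 (leaf 522 1)) (move 490 (branch (move 491 (leaf 490 3)) (move 522 (branch (move 489 (leaf 489 3)) (move 493 (branch (move 494 (leaf 490 2)) (move 521 (branch (move 492 (leaf 489 2)) (move 520 (branch (move 556 (leaf 520 0)) (move 552 (branch (move 551 (leaf 519 1)) (move 553 (leaf 520 1)))))))))))))))) (branch (move 491 (branch (ref 2) (branch (ref 3) (branch (move 554 (branch (move 524 (leaf 522 1)) (move 459 (branch (move 586 (leaf 458 5)) (move 427 (branch (move 522 (leaf 426 5)) (move 428 (branch (move 396 (leaf 395 6))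 (move 460 (leaf 427 6)))))))))) (branch (move 554 (branch (move 524 (leaf 522 1)) (move 586 (branch (move 459 (leaf 458 5)) (move 618 (branch (move 587 (leaf 490 5)) (move 522 (leaf 490 6)))))))) (ref 4)))))) (branch (move 491 (branch (ref 2) (branch (ref 5) (move 524 (branch (move 554 (leaf 522 1)) (move 490 (leaf 490 3))))))) (branch (ref 6) (branch (move 491 (branch (ref 7) (branch (move 554 (branch (move 524 (leaf 522 1)) (move 459 (branch (move 586 (leaf 458 5)) (move 427 (branch (move 522 (leaf 426 5)) (move 428 (branch (move 396 (leaf 395 6)) (move 460 (leaf 427 6)))))))))) (branch (ref 5) (move 524 (branch (move 554 (leaf 522 1)) (move 490 (leaf 490 3)))))))) (move 524 (branch (move 554 (leaf 522 1)) (move 522 (branch (move 493 (branch (move 494 (leaf 490 2)) (move 521 (branch (move 492 (leaf 489 2)) (move 520 (branch (move 556 (leaf 520 0)) (move 552 (branch (move 551 (leaf 519 1)) (move 553 (leaf 520 1)))))))))) (branch (move 489 (branch (move 490 (leaf 489 3)) (move 521 (branch (move 488 (leaf 488 3)) (move 520 (branch (move 556 (leaf 520 0)) (move 552 (branch (move 551 (leaf 519 1)) (move 553 (leaf 520 1)))))))))) (branch (move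 493 (branch (move 494 (leaf 490 2)) (move 521 (branch (move 492 (leaf 489 2)) (move 489 (branch (move 488 (leaf 488 3)) (move 490 (leaf 489 3)))))))) (move 490 (branch (move 489 (leaf 489 3)) (move 493 (branch (move 494 (leaf 490 2)) (move 556 (branch (move 587 (branch (move 619 (leaf 490 7)) (move 492 (branch (move 460 (leaf 459 5)) (move 461 (branch (move 429 (leaf 428 5)) (move 588 (leaf 460 6)))))))) (branch (move 587 (branch (move 619 (leaf 490 7)) (move 460 (branch (move 492 (leaf 459 5)) (move 461 (branch (move 429 (leaf 428 5)) (move 428 (branch (move 557 (leaf 428 7)) (move 426 (branch (move 458 (leaf 426 4)) (move 427 (branch (move 425 (leaf 425 0)) (move 462 (branch (move 459 (leaf 426 3)) (move 463 (leaf 427 3)))))))))))))))) (branch (move 587 (branch (move 619 (leaf 490 7)) (move 588 (branch (move 620 (leaf 492 6)) (move 492 (branch (move 460 (leaf 459 5)) (move 589 (branch (move 621 (leaf 492 4)) (move 590 (branch (move 591 (leaf 555 3)) (move 622 (branch (move 623 (leaf 587 0)) (move 557 (leaf 493 4)))))))))))))) (move 588 (branch (move 620 (leaf 492 6)) (move 461 (branch (move 429 (leaf 428 5)) (move 557 (leaf 460 5))))))))))))))))))))))))))))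
theorem a6p554 : a6e554.Valid :=
  pos_of_chk [a6e529, a6e532, a6e530, a6e527, a6e533, a6e528, a6e535, a6e536] (forall_cons a6p529 (forall_cons a6p532 (forall_cons a6p530 (forall_cons a6p527 (forall_cons a6p533 (forall_cons a6p528 (forall_cons a6p535 (forall_cons a6p536 forall_nil)))))))) a6c554 a6e554 (by decide +kernel)

def a6e555 : Pos := ⟨117936326132642645590733626865989396483255746562640803588381457167365715869362450617682336193277817790072910477604809902410160942552133909442687752802303630809308856320, 112126540649140646769112638419380643099314919334833216435530819719607443814426568923434365506372714511777118024016922537868375954026327147072222186359169172220080195612704736587782446322785076641792, 12⟩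
def a6c555 : Cert := (move 459 (branch (move 426 (branch (move 458 (leaf 426 7)) (move 427 (branch (move 394 (leaf 394 7)) (move 428 (branch (move 396 (leaf 395 6)) (move 460 (leaf 427 6)))))))) (branch (move 460 (branch (move 428 (leaf 427 6)) (move 556 (branch (move 588 (leaf 459 4)) (move 557 (branch (move 554 (leaf 522 2)) (move 558 (branch (move 522 (leaf 522 3)) (move 590 (branch (move 591 (leaf 555 0)) (move 622 (branch (move 654 (leaf 525 7)) (move 621 (branch (move 653 (leaf 525 5)) (move 494 (branch (move 589 (leaf 493 5)) (move 462 (branch (move 430 (leaf 429 5)) (move 461 (branch (move 490 (leaf 458 1)) (move 429 (leaf 429 7)))))))))))))))))))))) (move 458 (branch (move 426 (leaf 426 7)) (move 587 (branch (move 490 (leaf 458 7)) (move 588 (branch (move 556 (leaf 459 4)) (move 620 (leaf 491 4)))))))))))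
theorem a6p555 : a6e555.Valid :=
  pos_of_chk [] forall_nil a6c555 a6e555 (by decide +kernel)

def a6e556 : Pos := ⟨117936326132642645590733626865989396483255746562640803588381457167365715869362450617682336193277817790072910477604809902410160942552133909442687752802303630809308856320, 5438853048216559409107182652784836401710717040026430523689798464985523959441835941347497120338522181974250324046076443997028568846173800027946185316775340181817245881649282591491071410176, 5⟩
def a6c556 : Cert := (move 459 (branch (move 554 (branch (move 586 (leaf 458 5)) (move 556 (branch (move 557 (leaf 522 2)) (move 588 (leaf 459 4)))))) (branch (move 460 (branch (move 428 (leaf 427 6)) (move 587 (branch (move 492 (leaf 459 6)) (move 588 (branch (move 556 (leaf 459 4)) (move 620 (leaf 491 4)))))))) (move 460 (branch (move 428 (leaf 427 6)) (move 587 (branch (move 492 (leaf 459 6)) (move 586 (branch (move 554 (leaf 458 5)) (move 618 (leaf 490 5)))))))))))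
theorem a6p556 : a6e556.Valid :=
  pos_of_chk [] forall_nil a6c556 a6e556 (by decide +kernel)

def a6e557 : Pos := ⟨117936326132642645590733626865989396483255746562640803588381457167365715869362450617682336193277817790072910477604809902410160942552133909442687752802303630809308856320, 1087770610175171177791953496102117454920315640204000863564471016179716038952471245740413340835626839735345834858768064075580621277871430964245790952757691574511874339792664312590670757888, 11⟩
def a6c557 : Cert := (move 459 (branch (move 426 (branch (move 458 (leaf 426 7)) (move 427 (branch (move 394 (leaf 394 7)) (move 428 (branch (move 396 (leaf 395 6)) (move 460 (leaf 427 6)))))))) (branch (move 460 (branch (move 428 (leaf 427 6)) (move 587 (branch (move 492 (leaf 459 6)) (move 586 (branch (move 554 (leaf 458 5)) (move 618 (leaf 490 5)))))))) (move 554 (branch (move 586 (leaf 458 5)) (move 522 (branch (move 427 (leaf 426 5)) (move 458 (branch (move 426 (leaf 426 7)) (move 490 (branch (move 587 (leaf 458 4)) (move 556 (branch (move 557 (leaf 522 2)) (move 521 (branch (move 520 (leaf 520 0)) (move 553 (branch (move 585 (leaf 457 5)) (move 457 (branch (move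 425 (leaf 425 7)) (move 456 (branch (move 455 (leaf 455 0)) (move 492 (leaf 456 0)))))))))))))))))))))))
theorem a6p557 : a6e557.Valid :=
  pos_of_chk [] forall_nil a6c557 a6e557 (by decide +kernel)

def a6e558 : Pos := ⟨117936326132642645590733626865989396483255746562640803588381457167365715869362450617682336193277817790072910477604809902410160942552133909442687752802303630809308856320, 23359695995946528411192703153058237342563415526327032587703894893861567704483533730739102980037312801816506407282598148686976533061867716489044104069738187479083729906360749869405743857019662630912, 8⟩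
def a6c558 : Cert := (move 587 (branch (move 490 (branch (move 458 (leaf 458 7)) (move 619 (branch (move 522 (leaf 490 7)) (move 620 (branch (move 588 (leaf 491 4)) (move 652 (leaf 523 4)))))))) (branch (move 490 (branch (move 458 (leaf 458 7)) (move 619 (branch (move 522 (leaf 490 7)) (move 618 (branch (move 586 (leaf 490 5)) (move 650 (leaf 522 5)))))))) (branch (move 618 (branch (move 586 (leaf 490 5)) (move 619 (branch (move 650 (leaf 522 5)) (move 620 (branch (move 588 (leaf 491 4)) (move 652 (leaf 523 4)))))))) (move 458 (branch (move 490 (leaf 458 7)) (move 557 (branch (move 588 (branch (move 620 (leaf 491 4)) (move 586 (branch (move 618 (leaf 490 5)) (move 589 (branch (move 558 (leaf 554 2)) (move 621 (branch (move 622 (leaf 586 0)) (move 494 (leaf 493 6)))))))))) (branch (move 556 (branch (move 554 (leaf 522 2)) (move 588 (branch (move 620 (leaf 491 4)) (move 558 (branch (move 559 (leaf 555 1)) (move 522 (leaf 522 3)))))))) (branch (move 556 (branch (move 554 (leaf 522 2)) (move 558 (branch (move 586 (leaf 554 1)) (move 522 (leaf 522 3)))))) (move 588 (branch (move 620 (leaf 491 4)) (move 554 (branch (move 556 (leaf 522 2)) (move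 586 (branch (move 618 (leaf 490 5)) (move 553 (branch (move 552 (leaf 552 0)) (move 589 (leaf 553 3))))))))))))))))))))
theorem a6p558 : a6e558.Valid :=
  pos_of_chk [] forall_nil a6c558 a6e558 (by decide +kernel)

def a6e559 : Pos := ⟨117936326105183454943817846975014641197060662566946657793635106533610001115660724430778950663684699237420705358621593099908911955467005193753943723360825109337566347264, 135486236614629598116801553593516231543173850865774337030968905780398008152452219915611712923999647035894872509865046272825057040385879767286050938870249759435027628267186987420897961414531519348736, 14⟩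
def a6c559 : Cert := (move 523 (branch (move 491 (branch (ref 0) (branch (ref 1) (branch (move 554 (branch (move 524 (leaf 522 1)) (move 459 (branch (move 586 (leaf 458 5)) (move 427 (branch (move 522 (leaf 426 5)) (move 428 (branch (move 396 (leaf 395 6)) (move 460 (leaf 427 6)))))))))) (branch (move 554 (branch (move 524 (leaf 522 1)) (move 586 (branch (move 459 (leaf 458 5)) (move 618 (branch (move 587 (leaf 490 5)) (move 522 (leaf 490 6)))))))) (ref 2)))))) (branch (move 491 (branch (ref 0) (branch (ref 3) (move 524 (branch (move 554 (leaf 522 1)) (move 490 (leaf 490 3))))))) (branch (move 524 (branch (move 554 (leaf 522 1)) (move 490 (branch (move 491 (leaf 490 3)) (move 522 (branch (move 489 (leaf 489 3)) (move 558 (branch (move 557 (leaf 522 0)) (move 559 (leaf 523 0)))))))))) (branch (move 491 (branch (ref 4) (branch (ref 1) (branch (ref 3) (branch (move 490 (branch (move 524 (leaf 490 3)) (move 458 (branch (move 587 (leaf 458 7)) (move 426 (branch (move 394 (leaf 394 4)) (move 522 (leaf 426 4)))))))) (move 459 (branch (move 460 (branch (move 428 (leaf 427 6)) (move 587 (branch (move 492 (leaf 459 6)) (move 588 (branch (move 556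 (leaf 459 4)) (move 620 (leaf 491 4)))))))) (branch (move 524 (branch (move 490 (leaf 490 3)) (move 556 (branch (move 427 (leaf 427 4)) (move 588 (leaf 459 4)))))) (branch (move 524 (branch (move 490 (leaf 490 3)) (move 460 (branch (move 428 (leaf 427 6)) (move 587 (branch (move 492 (leaf 459 6)) (move 558 (branch (move 559 (leaf 523 0)) (move 557 (branch (move 522 (leaf 522 0)) (move 588 (branch (move 620 (leaf 491 4)) (move 586 (branch (move 589 (leaf 554 2)) (move 618 (leaf 490 5)))))))))))))))) (move 524 (branch (move 490 (leaf 490 3)) (move 427 (branch (move 556 (leaf 427 4)) (move 428 (branch (move 396 (leaf 395 6)) (move 460 (leaf 427 6))))))))))))))))) (branch (move 524 (branch (move 554 (leaf 522 1)) (move 558 (branch (move 559 (leaf 523 0)) (move 522 (branch (move 557 (leaf 522 0)) (move 489 (branch (move 490 (leaf 489 3)) (move 521 (branch (move 488 (leaf 488 3)) (move 520 (branch (move 556 (leaf 520 0)) (move 552 (branch (move 551 (leaf 519 1)) (move 553 (leaf 520 1)))))))))))))))) (move 491 (branch (move 459 (branch (move 426 (branch (move 458 (leaf 426 7)) (move 427 (branch (move 394 (leaf 394 7)) (move 428 (branch (move 396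 (leaf 395 6)) (move 460 (leaf 427 6)))))))) (move 554 (branch (move 586 (leaf 458 5)) (move 556 (branch (move 557 (leaf 522 2)) (move 588 (leaf 459 4)))))))) (branch (ref 4) (branch (ref 5) (branch (ref 6) (branch (ref 7) (branch (ref 8) (ref 9))))))))))))))
theorem a6p559 : a6e559.Valid :=
  pos_of_chk [a6e530, a6e527, a6e533, a6e528, a6e526, a6e534, a6e555, a6e556, a6e557, a6e558] (forall_cons a6p530 (forall_cons a6p527 (forall_cons a6p533 (forall_cons a6p528 (forall_cons a6p526 (forall_cons a6p534 (forall_cons a6p555 (forall_cons a6p556 (forall_cons a6p557 (forall_cons a6p558 forall_nil)))))))))) a6c559 a6e559 (by decide +kernel)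

def a6e560 : Pos := ⟨589681629207876123974012169598548252561675815119001711340660894064313021414679330941544791310892045180104252237467073712380235034207604272824123004789912114793740763136, 280316351820825867837898931473306492763203432876075396321573330077930897398683916723412495717949793252345209391978091828207128235869288746121296482465979380770545652541055292735065371161683147358208, 10⟩
def a6c560 : Cert := (move 556 (branch (move 554 (leaf 522 2)) (move 558 (branch (move 590 (branch (move 591 (leaf 555 0)) (move 622 (branch (move 654 (leaf 525 7)) (move 621 (branch (move 653 (leaf 525 5)) (move 589 (branch (move 494 (leaf 493 5)) (move 620 (branch (move 652 (leaf 524 5)) (move 623 (branch (move 655 (leaf 526 4)) (move 624 (branch (move 588 (leaf 588 3)) (move 625 (leaf 589 3)))))))))))))))) (branch (move 523 (branch (move 522 (leaf 522 3)) (move 559 (branch (move 524 (leaf 523 0)) (move 560 (branch (move 561 (leaf 525 3)) (move 592 (branch (move 591 (leaf 556 0)) (move 593 (leaf 557 0)))))))))) (move 523 (branch (move 522 (leaf 522 3)) (move 524 (branch (move 559 (leaf 523 0)) (move 491 (branch (move 490 (leaf 490 3)) (move 588 (branch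 (move 459 (leaf 459 4)) (move 620 (leaf 491 7)))))))))))))))
theorem a6p560 : a6e560.Valid :=
  pos_of_chk [] forall_nil a6c560 a6e560 (by decide +kernel)

def a6e561 : Pos := ⟨2026130649457353972231512776166961950366344264398803207695006266853674962137022077273911288435247815865676169502028465705433456073421140946261742375418831836362754792235884085248, 17404329752925351919706688850425848955276213823400007745752097273550586045146539799167179256539458353789060176255706247225474854145235210685840581219543080276262232047707207947028527054848, 8⟩
def a6c561 : Cert := (move 493 (branch (move 590 (branch (move 622 (leaf 493 4)) (move 461 (branch (move 558 (leaf 461 4)) (move 460 (branch (move 428 (leaf 428 7)) (move 492 (leaf 460 7)))))))) (branch (move 462 (branch (move 494 (leaf 461 6)) (move 461 (branch (move 430 (leaf 429 6)) (move 558 (branch (move 429 (leaf 429 4)) (move 590 (leaf 461 4)))))))) (move 494 (branch (move 462 (leaf 461 6)) (move 492 (branch (move 460 (leaf 460 7)) (move 491 (branch (move 490 (leaf 490 0)) (move 523 (branch (move 522 (leaf 490 1)) (move 459 (branch (move 458 (leaf 458 3)) (move 554 (branch (move 524 (leaf 522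 1)) (move 586 (leaf 458 5)))))))))))))))))
theorem a6p561 : a6e561.Valid :=
  pos_of_chk [] forall_nil a6c561 a6e561 (by decide +kernel)

def a6e562 : Pos := ⟨1533172235413261462034400814845615475290906120223111818434712469125719062012716543963076472605306737065471345995158034937322881191688802430964481567648086125706089594880, 58504522499498780043330356566673791650450564376875724813407472660730522435956032554885950662755068477194516784131303113704307636489969597967190019297918360045770848362718470078464, 6⟩
def a6c562 : Cert := (move 559 (branch (move 560 (branch (move 561 (leaf 525 3)) (move 592 (branch (move 593 (leaf 557 0)) (move 556 (branch (move 591 (leaf 556 0)) (move 587 (branch (move 586 (leaf 554 1)) (move 588 (leaf 555 1)))))))))) (branch (move 523 (branch (move 524 (leaf 523 0)) (move 556 (branch (move 522 (leaf 522 3)) (move 587 (branch (move 586 (leaf 554 1)) (move 588 (leaf 555 1)))))))) (move 560 (branch (move 524 (leaf 524 3)) (move 561 (leaf 525 3)))))))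
theorem a6p562 : a6e562.Valid :=
  pos_of_chk [] forall_nil a6c562 a6e562 (by decide +kernel)

def a6e563 : Pos := ⟨1533172235413261462034400814845615475290906120223111818434712469125719062012716543963076472605306737065471345995158034937322881191688802430964481567648086125706089594880, 224253081289579128644667123526403904967779009777039055491175588308259283485028155569273543442970299556544748372475704785454309339576236160060208864502506142440944971697165688560458367495436700221440, 6⟩
def a6c563 : Cert := (move 590 (branch (move 461 (branch (move 493 (leaf 461 4)) (move 591 (branch (move 556 (leaf 555 0)) (move 494 (branch (move 623 (leaf 494 4)) (move 462 (branch (move 430 (leaf 429 5)) (move 429 (leaf 429 7)))))))))) (branch (move 622 (branch (move 654 (leaf 525 7)) (move 591 (branch (move 556 (leaf 555 0)) (move 623 (branch (move 494 (leaf 494 4)) (move 655 (leaf 526 4)))))))) (move 493 (branch (move 461 (leaf 461 4)) (move 622 (leaf 493 7)))))))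
theorem a6p563 : a6e563.Valid :=
  pos_of_chk [] forall_nil a6c563 a6e563 (by decide +kernel)

def a6e564 : Pos := ⟨1415235909637588294776852234189732072449752332085098055047956022243043306937961892335385012443504900579800459275446664784205050422003652661196936747290814374342045990912, 261628594837842316801751845024329545259941685109093346878635709394165860775683932178375698418322006175405506787603577015524626985248780909013121362858083988138388652017558711215935381654399856148480, 8⟩
def a6c564 : Cert := (move 494 (branch (move 462 (branch (move 430 (leaf 429 5)) (move 559 (branch (move 591 (leaf 462 4)) (move 560 (branch (move 524 (leaf 524 3)) (move 561 (leaf 525 3)))))))) (branch (move 589 (branch (move 462 (leaf 461 5)) (move 621 (leaf 493 6)))) (move 590 (branch (move 622 (branch (move 654 (leaf 525 7)) (move 623 (branch (move 591 (leaf 494 4)) (move 655 (leaf 526 4)))))) (branch (move 589 (branch (move 621 (leaf 493 5)) (move 591 (branch (move 623 (leaf 494 4)) (move 592 (branch (move 593 (leaf 557 3)) (move 560 (branch (move 561 (leaf 557 2)) (move 559 (branch (move 588 (leaf 556 1)) (move 524 (leaf 524 3)))))))))))) (move 621 (branch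 (move 589 (leaf 493 5)) (move 622 (branch (move 653 (leaf 525 5)) (move 654 (leaf 525 7))))))))))))
theorem a6p564 : a6e564.Valid :=
  pos_of_chk [] forall_nil a6c564 a6e564 (by decide +kernel)

def a6e565 : Pos := ⟨589681629207876123974012169598548252561675815119001711340660894064313021414679330941544791310892045180104252237467073712380235034207604272824123004789912114793740763136, 261628594837842316802511644018834285646373469312227545875402501203001103779584594218802203251354604418401685488941781108947109311368737897628673331769709961252355582852512213046100306217513013739520, 9⟩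
def a6c565 : Cert := (move 558 (branch (ref 0) (branch (ref 1) (branch (move 559 (branch (move 523 (branch (move 524 (leaf 523 0)) (move 556 (branch (move 522 (leaf 522 3)) (move 587 (branch (move 586 (leaf 554 1)) (move 588 (leaf 555 1)))))))) (branch (move 560 (branch (move 524 (leaf 524 3)) (move 561 (leaf 525 3)))) (move 560 (branch (move 561 (leaf 525 3)) (move 589 (branch (move 588 (leaf 556 1)) (move 621 (branch (move 494 (leaf 493 6)) (move 653 (leaf 525 6))))))))))) (ref 2)))))
theorem a6p565 : a6e565.Valid :=
  pos_of_chk [a6e562, a6e563, a6e564] (forall_cons a6p562 (forall_cons a6p563 (forall_cons a6p564 forall_nil))) a6c565 a6e565 (by decide +kernel)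

def a6e566 : Pos := ⟨589681629235335314614534608458475855758001387988079452541234115701890875251421503675135415519382283742750070457376258957946158466356092224822989580040208227958200991744, 168189810967184346534913407874031441688732384314974076709932164266645241131075580200991379340744424037321715550747354573584890178186658783749935777779259540027849029028111472025501023433050510327808, 8⟩
def a6c566 : Cert := (move 558 (branch (move 556 (branch (move 522 (leaf 522 3)) (move 587 (branch (move 586 (leaf 554 1)) (move 588 (branch (move 559 (leaf 555 1)) (move 620 (branch (move 652 (leaf 524 6)) (move 493 (branch (move 461 (leaf 460 5)) (move 589 (leaf 492 5)))))))))))) (branch (move 524 (branch (move 522 (leaf 522 0)) (move 559 (leaf 523 0)))) (branch (move 522 (branch (move 524 (leaf 522 0)) (move 556 (leaf 522 3)))) (move 559 (branch (move 524 (leaf 523 0)) (move 560 (branch (move 561 (leaf 525 3)) (move 592 (branch (move 593 (leaf 557 0)) (move 591 (branch (move 556 (leaf 556 0)) (move 528 (branch (move 529 (leaf 525 2)) (move 623 (branch (move 496 (leaf 495 5)) (move 655 (leaf 527 6))))))))))))))))))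
theorem a6p566 : a6e566.Valid :=
  pos_of_chk [] forall_nil a6c566 a6e566 (by decide +kernel)

def a6e567 : Pos := ⟨589681629207876123974012169598548252561675815119001711340660894064313021414679330941544791310892045180104252237467073712380235034207604272824123004789912114793740763136, 168189810967184346534913407874090409851647680089243373439120033571262143598013664823885330785823339768695835049294790927874281334992140045329700648101384378844840091864994111010929955421896992358400, 9⟩
def a6c567 : Cert := (move 523 (branch (move 556 (branch (move 554 (leaf 522 2)) (move 558 (branch (move 522 (leaf 522 3)) (move 587 (branch (move 586 (leaf 554 1)) (move 588 (branch (move 559 (leaf 555 1)) (move 620 (branch (move 652 (leaf 524 6)) (move 493 (branch (move 461 (leaf 460 5)) (move 589 (leaf 492 5)))))))))))))) (branch (move 524 (branch (move 554 (leaf 522 1)) (move 558 (branch (move 522 (leaf 522 0)) (move 559 (leaf 523 0)))))) (branch (move 554 (branch (move 524 (leaf 522 1)) (move 556 (leaf 522 2)))) (ref 0)))))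
theorem a6p567 : a6e567.Valid :=
  pos_of_chk [a6e566] (forall_cons a6p566 forall_nil) a6c567 a6e567 (by decide +kernel)

def a6e568 : Pos := ⟨117936326105183454943817846975014641197060662566946657793635106533610001115660724430778950663684699237420705358621593099908911955467005193753943723360825109337566347264, 284988290877299669581581546081090072023710194125968560212612049114281474426143770685544044415288034494164932088251995157397636911491155660713326130088864264900862104314218382511681824018449714642944, 13⟩
def a6c568 : Cert := (move 523 (branch (move 491 (branch (ref 0) (branch (ref 1) (branch (move 554 (branch (move 524 (leaf 522 1)) (move 459 (branch (move 586 (leaf 458 5)) (move 427 (branch (move 522 (leaf 426 5)) (move 428 (branch (move 396 (leaf 395 6)) (move 460 (leaf 427 6)))))))))) (branch (move 554 (branch (move 524 (leaf 522 1)) (move 586 (branch (move 459 (leaf 458 5)) (move 618 (branch (move 587 (leaf 490 5)) (move 522 (leaf 490 6)))))))) (ref 2)))))) (branch (move 524 (branch (move 554 (leaf 522 1)) (ref 3))) (branch (move 491 (branch (move 587 (branch (move 618 (branch (move 586 (leaf 490 5)) (move 619 (branch (move 650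 (leaf 522 5)) (move 620 (branch (move 588 (leaf 491 4)) (move 652 (leaf 523 4)))))))) (move 490 (branch (move 458 (leaf 458 7)) (move 492 (branch (move 493 (leaf 490 0)) (move 460 (leaf 459 6)))))))) (branch (ref 2) (move 524 (branch (move 554 (leaf 522 1)) (move 490 (leaf 490 3))))))) (branch (move 524 (branch (move 554 (leaf 522 1)) (move 490 (branch (move 491 (leaf 490 3)) (move 522 (branch (move 489 (leaf 489 3)) (move 558 (branch (move 557 (leaf 522 0)) (move 559 (leaf 523 0)))))))))) (branch (move 491 (branch (move 587 (branch (move 618 (branch (move 586 (leaf 490 5)) (move 619 (branch (move 650 (leaf 522 5)) (move 620 (branch (move 588 (leaf 491 4)) (move 652 (leaf 523 4)))))))) (move 490 (branch (move 458 (leaf 458 7)) (move 492 (branch (move 493 (leaf 490 0)) (move 460 (leaf 459 6)))))))) (branch (move 459 (branch (move 426 (branch (move 458 (leaf 426 7)) (move 427 (branch (move 394 (leaf 394 7)) (move 428 (branch (move 396 (leaf 395 6)) (move 460 (leaf 427 6)))))))) (move 554 (branch (move 586 (leaf 458 5)) (move 556 (branch (move 557 (leaf 522 2)) (move 588 (leaf 459 4)))))))) (branch (ref 4) (branch (ref 5) (branch (ref 6) (ref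 7))))))) (move 491 (branch (ref 4) (branch (ref 1) (move 524 (branch (move 490 (leaf 490 3)) (move 558 (branch (move 559 (leaf 523 0)) (move 522 (branch (move 557 (leaf 522 0)) (move 493 (branch (move 494 (leaf 490 2)) (move 521 (branch (move 492 (leaf 489 2)) (move 552 (branch (move 553 (leaf 520 1)) (move 520 (branch (move 551 (leaf 519 1)) (move 488 (branch (move 487 (leaf 487 3)) (move 489 (leaf 488 3)))))))))))))))))))))))))))
theorem a6p568 : a6e568.Valid :=
  pos_of_chk [a6e530, a6e527, a6e533, a6e537, a6e526, a6e556, a6e557, a6e531] (forall_cons a6p530 (forall_cons a6p527 (forall_cons a6p533 (forall_cons a6p537 (forall_cons a6p526 (forall_cons a6p556 (forall_cons a6p557 (forall_cons a6p531 forall_nil)))))))) a6c568 a6e568 (by decide +kernel)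

def a6e569 : Pos := ⟨117936326132642645590733626865989396483255746562640803588381457167365715869362450617682336193277817790072910477604809902410160942552133909442687752802303630809308856320, 4671939226166016807795248149212683848943775833747696359935249158405818936323605388646787233567738774632046957558989520868651120825235476213513256344865650883612937003648263371097297420951354343424, 12⟩
def a6c569 : Cert := (move 459 (branch (move 426 (branch (move 458 (leaf 426 7)) (move 427 (branch (move 394 (leaf 394 7)) (move 428 (branch (move 396 (leaf 395 6)) (move 460 (leaf 427 6)))))))) (branch (move 556 (branch (move 588 (leaf 459 4)) (move 524 (branch (move 427 (leaf 427 4)) (move 558 (branch (move 559 (leaf 523 0)) (move 557 (branch (move 522 (leaf 522 0)) (move 590 (branch (move 591 (leaf 555 0)) (move 493 (branch (move 461 (leaf 461 4)) (move 622 (leaf 493 7)))))))))))))) (move 493 (branch (move 460 (branch (move 428 (leaf 427 6)) (move 458 (branch (move 426 (leaf 426 7)) (move 461 (branch (move 494 (leaf 458 0)) (move 429 (branch (move 430 (leaf 426 2)) (move 558 (leaf 429 4)))))))))) (branch (move 588 (branch (move 556 (leaf 459 4)) (move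 587 (branch (move 620 (leaf 491 4)) (move 618 (branch (move 586 (leaf 490 5)) (move 619 (branch (move 650 (leaf 522 5)) (move 590 (branch (move 589 (leaf 586 1)) (move 558 (branch (move 622 (leaf 493 7)) (move 461 (branch (move 429 (leaf 429 4)) (move 557 (leaf 461 4)))))))))))))))) (branch (move 588 (branch (move 556 (leaf 459 4)) (move 587 (branch (move 620 (leaf 491 4)) (move 618 (branch (move 586 (leaf 490 5)) (move 619 (branch (move 650 (leaf 522 5)) (move 460 (branch (move 428 (leaf 427 6)) (move 458 (branch (move 426 (leaf 426 7)) (move 494 (branch (move 461 (leaf 458 0)) (move 589 (branch (move 590 (leaf 586 1)) (move 557 (branch (move 462 (leaf 461 6)) (move 621 (leaf 493 6)))))))))))))))))))) (move 588 (branch (move 556 (leaf 459 4)) (move 587 (branch (move 620 (leaf 491 4)) (move 618 (branch (move 586 (leaf 490 5)) (move 619 (branch (move 650 (leaf 522 5)) (move 590 (branch (move 589 (leaf 586 1)) (move 558 (branch (move 622 (leaf 493 7)) (move 524 (branch (move 559 (leaf 523 0)) (move 522 (branch (move 557 (leaf 522 0)) (move 494 (leaf 490 2)))))))))))))))))))))))))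
theorem a6p569 : a6e569.Valid :=
  pos_of_chk [] forall_nil a6c569 a6e569 (by decide +kernel)

def a6e570 : Pos := ⟨117936326105183454943817846975014641197060662566946657793635106533610001115660724430778950663684699237420705358621593099908911955467005193753943723360825109337566347264, 100329130496594542301264582615584947482052386412671602662491958120131524927912282190797781393788049081311373280008715760365487764756595885503126902228725968695684730219431022174629640763618088561621558362112, 14⟩
def a6c570 : Cert := (move 523 (branch (move 491 (branch (ref 0) (branch (move 554 (branch (move 524 (leaf 522 1)) (move 459 (branch (move 586 (leaf 458 5)) (move 427 (branch (move 522 (leaf 426 5)) (move 428 (branch (move 396 (leaf 395 6)) (move 460 (leaf 427 6)))))))))) (branch (ref 1) (move 524 (branch (move 554 (leaf 522 1)) (move 490 (leaf 490 3)))))))) (branch (move 524 (branch (move 554 (leaf 522 1)) (move 490 (branch (move 491 (leaf 490 3)) (move 522 (branch (move 489 (leaf 489 3)) (move 558 (branch (move 557 (leaf 522 0)) (move 559 (leaf 523 0)))))))))) (branch (move 491 (branch (move 459 (branch (move 426 (branch (move 458 (leaf 426 7))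 (move 427 (branch (move 394 (leaf 394 7)) (move 428 (branch (move 396 (leaf 395 6)) (move 460 (leaf 427 6)))))))) (move 554 (branch (move 586 (leaf 458 5)) (move 556 (branch (move 557 (leaf 522 2)) (move 588 (leaf 459 4)))))))) (branch (ref 2) (branch (ref 3) (branch (ref 0) (branch (move 587 (branch (move 618 (branch (move 586 (leaf 490 5)) (move 619 (branch (move 650 (leaf 522 5)) (move 620 (branch (move 588 (leaf 491 4)) (move 652 (leaf 523 4)))))))) (branch (move 618 (branch (move 586 (leaf 490 5)) (move 619 (branch (move 650 (leaf 522 5)) (move 522 (branch (move 490 (leaf 490 7)) (move 652 (branch (move 620 (leaf 523 4)) (move 651 (branch (move 684 (leaf 555 4)) (move 554 (leaf 522 7)))))))))))) (branch (move 588 (branch (move 620 (leaf 491 4)) (move 556 (branch (move 459 (leaf 459 4)) (move 557 (branch (move 554 (leaf 522 2)) (move 558 (branch (move 559 (leaf 555 1)) (move 522 (leaf 522 3)))))))))) (move 618 (branch (move 586 (leaf 490 5)) (move 619 (branch (move 650 (leaf 522 5)) (move 522 (branch (move 490 (leaf 490 7)) (move 554 (branch (move 651 (leaf 522 7)) (move 556 (branch (move 557 (leaf 522 2)) (move 459 (branch (move 588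 (leaf 459 4)) (move 427 (leaf 426 5)))))))))))))))))) (ref 4))))))) (branch (move 491 (branch (move 459 (branch (move 426 (branch (move 458 (leaf 426 7)) (move 427 (branch (move 394 (leaf 394 7)) (move 428 (branch (move 396 (leaf 395 6)) (move 460 (leaf 427 6)))))))) (move 554 (branch (move 586 (leaf 458 5)) (move 556 (branch (move 557 (leaf 522 2)) (move 588 (leaf 459 4)))))))) (branch (ref 1) (move 524 (branch (move 554 (leaf 522 1)) (move 490 (leaf 490 3))))))) (branch (move 557 (branch (move 556 (branch (move 554 (leaf 522 2)) (move 558 (branch (move 522 (leaf 522 3)) (move 587 (branch (move 586 (leaf 554 1)) (move 588 (branch (move 559 (leaf 555 1)) (move 620 (branch (move 652 (leaf 524 6)) (move 493 (branch (move 461 (leaf 460 5)) (move 589 (leaf 492 5)))))))))))))) (branch (move 524 (branch (move 554 (leaf 522 1)) (move 558 (branch (move 522 (leaf 522 0)) (move 559 (leaf 523 0)))))) (branch (move 554 (branch (move 524 (leaf 522 1)) (move 556 (leaf 522 2)))) (ref 5))))) (move 491 (branch (ref 2) (branch (ref 1) (branch (move 490 (branch (move 524 (leaf 490 3)) (move 458 (branch (move 587 (leaf 458 7)) (move 426 (branch (move 394 (leaf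 394 4)) (move 522 (leaf 426 4)))))))) (branch (move 588 (branch (move 556 (branch (move 459 (leaf 459 4)) (move 620 (branch (move 587 (leaf 491 4)) (move 524 (leaf 491 7)))))) (branch (move 587 (branch (move 620 (leaf 491 4)) (move 524 (branch (move 490 (leaf 490 3)) (move 558 (branch (move 559 (leaf 523 0)) (move 557 (branch (move 522 (leaf 522 0)) (move 586 (branch (move 589 (leaf 554 2)) (move 618 (leaf 490 5)))))))))))) (branch (move 524 (branch (move 490 (leaf 490 3)) (move 558 (branch (move 559 (leaf 523 0)) (move 556 (branch (move 459 (leaf 459 4)) (move 557 (branch (move 522 (leaf 522 0)) (move 590 (branch (move 591 (leaf 555 0)) (move 493 (branch (move 461 (leaf 461 4)) (move 622 (leaf 493 7)))))))))))))) (move 587 (branch (move 620 (leaf 491 4)) (move 586 (branch (move 618 (leaf 490 5)) (move 556 (branch (move 459 (leaf 459 4)) (move 557 (branch (move 558 (leaf 554 1)) (move 585 (leaf 553 2)))))))))))))) (ref 6))))))))))))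
theorem a6p570 : a6e570.Valid :=
  pos_of_chk [a6e536, a6e528, a6e526, a6e555, a6e558, a6e566, a6e569] (forall_cons a6p536 (forall_cons a6p528 (forall_cons a6p526 (forall_cons a6p555 (forall_cons a6p558 (forall_cons a6p566 (forall_cons a6p569 forall_nil))))))) a6c570 a6e570 (by decide +kernel)

def a6e571 : Pos := ⟨2026130649457353972231512776166961950366344264398803207695006266853674962137022077273911288435247815865676169502028465705433456073421140946261742375418831836362754792235884085248, 642106433443981242108261271262930286799082721863594593619674832907249580432934130663127718463519763557334051289427546477859301836451972398907491308339700948458294028204485704683819281563516703772384679690240, 12⟩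
def a6c571 : Cert := (move 493 (branch (move 462 (branch (move 494 (leaf 461 6)) (move 461 (branch (move 430 (leaf 429 6)) (move 460 (branch (move 428 (leaf 428 7)) (move 492 (leaf 460 7)))))))) (branch (move 590 (branch (move 622 (leaf 493 4)) (move 558 (branch (move 461 (leaf 461 4)) (move 591 (branch (move 556 (leaf 555 0)) (move 592 (branch (move 593 (leaf 557 3)) (move 560 (branch (move 561 (leaf 557 2)) (move 623 (branch (move 494 (leaf 494 4)) (move 655 (branch (move 687 (leaf 559 6)) (move 559 (leaf 526 7)))))))))))))))) (branch (move 590 (branch (move 622 (leaf 493 4)) (move 558 (branch (move 461 (leaf 461 4)) (move 556 (branch (move 591 (leaf 555 0)) (move 523 (branch (move 522 (leaf 522 3)) (move 524 (branch (move 559 (leaf 523 0)) (move 492 (branch (move 460 (leaf 460 4)) (move 491 (branch (move 490 (leaf 490 0)) (move 587 (branch (move 586 (leaf 554 1)) (move 619 (leaf 491 6)))))))))))))))))) (move 523 (branch (move 492 (branch (move 460 (leaf 460 7)) (move 491 (branch (move 490 (leaf 490 0)) (move 494 (branch (move 522 (leaf 490 1)) (move 462 (leaf 461 6)))))))) (branch (move 558 (branch (move 524 (branch (move 522 (leaf 522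 0)) (move 559 (leaf 523 0)))) (branch (move 590 (branch (move 622 (leaf 493 4)) (move 556 (branch (move 591 (leaf 555 0)) (move 522 (leaf 522 3)))))) (move 590 (branch (move 622 (leaf 493 4)) (move 559 (branch (move 524 (leaf 523 0)) (move 560 (branch (move 561 (leaf 557 1)) (move 591 (branch (move 556 (leaf 555 0)) (move 592 (branch (move 593 (leaf 557 0)) (move 623 (branch (move 655 (leaf 526 7)) (move 528 (branch (move 529 (leaf 525 2)) (move 496 (leaf 495 5))))))))))))))))))) (move 491 (branch (move 494 (branch (move 462 (leaf 461 6)) (move 590 (branch (move 622 (leaf 493 4)) (move 524 (branch (move 490 (leaf 490 3)) (move 558 (branch (move 559 (leaf 523 0)) (move 591 (branch (move 556 (leaf 555 0)) (move 623 (leaf 494 4)))))))))))) (branch (move 460 (branch (move 492 (leaf 460 7)) (move 494 (branch (move 462 (leaf 461 6)) (move 590 (branch (move 622 (leaf 493 4)) (move 459 (branch (move 428 (leaf 427 6)) (move 426 (branch (move 458 (leaf 426 7)) (move 427 (branch (move 394 (leaf 394 7)) (move 556 (branch (move 524 (leaf 427 4)) (move 591 (branch (move 558 (leaf 555 0)) (move 592 (leaf 556 3)))))))))))))))))) (move 492 (branch (move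 490 (leaf 490 0)) (move 460 (leaf 460 7))))))))))))))
theorem a6p571 : a6e571.Valid :=
  pos_of_chk [] forall_nil a6c571 a6e571 (by decide +kernel)

def a6e572 : Pos := ⟨589681629207876123974012169598548252561675815119001711340660894064313021414679330941544791310892045180104252237467073712380235034207604272824123004789912114793740763136, 722369737736605437996731680861865421224476712364666998925798853860141313744259174014470562007595340592514693205466715984035892545541881463955189560957669434802488592888024492318567270583399290659364686266368, 13⟩
def a6c572 : Cert := (move 589 (branch (move 494 (branch (move 621 (leaf 493 6)) (move 462 (branch (move 430 (leaf 429 5)) (move 558 (leaf 461 5)))))) (branch (move 493 (branch (move 492 (branch (move 460 (leaf 460 7)) (move 621 (branch (move 524 (leaf 492 7)) (move 622 (branch (move 590 (leaf 493 4)) (move 654 (leaf 525 4)))))))) (branch (move 590 (branch (move 622 (leaf 493 4)) (move 558 (branch (move 461 (leaf 461 4)) (move 556 (branch (move 591 (leaf 555 0)) (move 523 (branch (move 522 (leaf 522 3)) (move 524 (branch (move 559 (leaf 523 0)) (move 492 (branch (move 460 (leaf 460 4)) (move 491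 (branch (move 490 (leaf 490 0)) (move 587 (branch (move 586 (leaf 554 1)) (move 619 (leaf 491 6)))))))))))))))))) (branch (move 492 (branch (move 460 (leaf 460 7)) (move 621 (branch (move 524 (leaf 492 7)) (move 653 (branch (move 558 (leaf 525 6)) (move 652 (branch (move 620 (leaf 524 5)) (move 684 (leaf 556 5)))))))))) (move 590 (branch (move 622 (leaf 493 4)) (move 558 (branch (move 461 (leaf 461 4)) (move 591 (branch (move 556 (leaf 555 0)) (move 592 (branch (move 593 (leaf 557 3)) (move 621 (branch (move 620 (leaf 588 1)) (move 653 (leaf 525 6)))))))))))))))) (branch (move 621 (branch (move 494 (leaf 493 6)) (move 622 (branch (move 654 (leaf 525 4)) (move 620 (branch (move 652 (leaf 524 5)) (move 590 (branch (move 493 (leaf 493 4)) (move 591 (branch (move 592 (leaf 588 1)) (move 619 (leaf 587 2)))))))))))) (ref 0)))))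
theorem a6p572 : a6e572.Valid :=
  pos_of_chk [a6e571] (forall_cons a6p571 forall_nil) a6c572 a6e572 (by decide +kernel)

def a6e573 : Pos := ⟨2026130649339417646455839608909413369710460861557649419556992503466918515254346322199156636807556355703874333016357578985722085920303310176576592605651287016005483040871840481280, 112126540644789564320307431117046815633802458250492023855926971544487822875143849770436079846854766196059285218134375921682333825630708738817682603951217544561269937187632198672797781973878500753408, 7⟩
def a6c573 : Cert := (move 493 (branch (move 492 (branch (move 460 (leaf 460 7)) (move 621 (branch (move 524 (leaf 492 7)) (move 622 (branch (move 590 (leaf 493 4)) (move 654 (leaf 525 4)))))))) (branch (move 460 (branch (move 492 (leaf 460 7)) (move 461 (branch (move 428 (leaf 428 7)) (move 429 (branch (move 558 (leaf 429 4)) (move 430 (branch (move 398 (leaf 397 6)) (move 462 (leaf 429 6)))))))))) (branch (move 590 (branch (move 622 (leaf 493 4)) (move 461 (branch (move 558 (leaf 461 4)) (move 428 (branch (move 460 (leaf 428 7)) (move 429 (branch (move 396 (leaf 396 7)) (move 430 (branch (move 398 (leaf 397 6)) (move 462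 (leaf 429 6)))))))))))) (move 590 (branch (move 622 (leaf 493 4)) (move 558 (branch (move 461 (leaf 461 4)) (move 621 (branch (move 653 (leaf 525 6)) (move 524 (branch (move 492 (leaf 492 7)) (move 523 (branch (move 522 (leaf 522 0)) (move 559 (leaf 523 0))))))))))))))))
theorem a6p573 : a6e573.Valid :=
  pos_of_chk [] forall_nil a6c573 a6e573 (by decide +kernel)

def a6e574 : Pos := ⟨2026130649457353972231512776166961950366344264398803207695006266853674962137022077273911288435247815865676169502028465705433456073421140946261742375418831836362754792235884085248, 1087770609542005350463067110638085753840310846601017564219547437702930156858888070344276436422317025583611026136495491608700828761683162144907293594618730675088625276867822767143124992000, 8⟩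
def a6c574 : Cert := (move 493 (branch (move 460 (branch (move 492 (leaf 460 7)) (move 461 (branch (move 428 (leaf 428 7)) (move 429 (branch (move 558 (leaf 429 4)) (move 430 (branch (move 398 (leaf 397 6)) (move 462 (leaf 429 6)))))))))) (branch (move 554 (branch (move 556 (leaf 522 2)) (move 523 (branch (move 524 (leaf 522 1)) (move 492 (branch (move 460 (leaf 460 7)) (move 491 (branch (move 490 (leaf 490 0)) (move 522 (branch (move 494 (leaf 490 1)) (move 586 (branch (move 459 (leaf 458 5)) (move 618 (leaf 490 6)))))))))))))) (move 462 (branch (move 494 (leaf 461 6)) (move 461 (branch (move 430 (leaf 429 6)) (move 429 (branch (move 558 (leaf 429 4)) (move 556 (branch (move 554 (leaf 522 2)) (move 524 (leaf 428 5)))))))))))))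
theorem a6p574 : a6e574.Valid :=
  pos_of_chk [] forall_nil a6c574 a6e574 (by decide +kernel)

def a6e575 : Pos := ⟨2026130649457353972231512776192535314490532872758281252201471885230367478121733520941749502248498861150087689462054013301729582301162443166008305430178341653127484425465013207040, 294840814535290085449633397977789427681860093560306328369725379200400838022741858117294479715454446823690185959307893498962646152397426124815146841626430621877482291200, 7⟩
def a6c575 : Cert := (move 524 (branch (move 462 (branch (move 494 (leaf 461 6)) (move 461 (branch (move 430 (leaf 429 6)) (move 429 (branch (move 556 (leaf 428 5)) (move 397 (branch (move 492 (leaf 396 5)) (move 396 (branch (move 364 (leaf 364 7)) (move 428 (leaf 396 7)))))))))))) (branch (move 523 (branch (move 554 (leaf 522 1)) (move 494 (branch (move 522 (leaf 490 2)) (move 462 (leaf 461 6)))))) (move 554 (branch (move 523 (leaf 522 1)) (move 556 (leaf 522 2)))))))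
theorem a6p575 : a6e575.Valid :=
  pos_of_chk [] forall_nil a6c575 a6e575 (by decide +kernel)

def a6e576 : Pos := ⟨2026130649457353972231512776166961950366344264398803207695006266853674962137022077273911288435247815865676169502028465705433456073421140946261742375418831836362754792235884085248, 1087770610048538011736494590188609578828159646545899344449598980742659798025747157195518546172483845382908123761163015255045405279131322689393336684888547943112354491412271776591526232064, 8⟩
def a6c576 : Cert := (move 493 (branch (move 462 (branch (move 494 (leaf 461 6)) (move 461 (branch (move 430 (leaf 429 6)) (move 460 (branch (move 428 (leaf 428 7)) (move 492 (leaf 460 7)))))))) (branch (move 556 (branch (move 554 (leaf 522 2)) (move 462 (branch (move 494 (leaf 461 6)) (move 461 (branch (move 430 (leaf 429 6)) (move 429 (branch (move 524 (leaf 428 5)) (move 428 (branch (move 396 (leaf 396 7)) (move 460 (leaf 428 7)))))))))))) (branch (move 554 (branch (move 556 (leaf 522 2)) (move 523 (branch (move 524 (leaf 522 1)) (move 492 (branch (move 460 (leaf 460 7)) (move 491 (branch (move 490 (leaf 490 0)) (move 586 (branch (move 459 (leaf 458 5)) (move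 618 (branch (move 587 (leaf 490 5)) (move 522 (leaf 490 6)))))))))))))) (ref 0)))))
theorem a6p576 : a6e576.Valid :=
  pos_of_chk [a6e575] (forall_cons a6p575 forall_nil) a6c576 a6e576 (by decide +kernel)

def a6e577 : Pos := ⟨117936326105183454943817846975014641197060662566946657793635106533610001115660724430778950663684699237420705358621593099908911955467005193753943723360825109337566347264, 1043422954393188910539375988168627024291891997444700427309500288821367692952129992676613590359090149215232818133460196800878011883134660768743348829022867849987371183737471737690638408328897477410559946129408, 15⟩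
def a6c577 : Cert := (move 557 (branch (ref 0) (branch (ref 1) (branch (move 589 (branch (move 494 (branch (move 621 (leaf 493 6)) (move 462 (branch (move 430 (leaf 429 5)) (move 558 (leaf 461 5)))))) (branch (move 621 (branch (move 494 (leaf 493 6)) (move 622 (branch (move 654 (leaf 525 4)) (move 620 (branch (move 652 (leaf 524 5)) (move 590 (branch (move 493 (leaf 493 4)) (move 591 (branch (move 592 (leaf 588 1)) (move 619 (leaf 587 2)))))))))))) (branch (ref 2) (ref 3))))) (branch (move 556 (branch (move 554 (leaf 522 2)) (move 558 (branch (ref 4) (branch (move 523 (branch (move 522 (leaf 522 3)) (move 494 (branch (move 590 (branch (move 591 (leaf 555 0)) (move 621 (branch (move 589 (leaf 493 5)) (move 622 (branch (move 653 (leaf 525 5)) (move 654 (leaf 525 7)))))))) (branch (move 462 (branch (move 430 (leaf 429 5)) (move 591 (branch (move 590 (leaf 555 0)) (move 559 (leaf 462 4)))))) (move 462 (branch (move 430 (leaf 429 5)) (move 589 (leaf 461 5))))))))) (branch (move 523 (branch (move 522 (leaf 522 3)) (move 524 (branch (move 559 (leaf 523 0)) (move 587 (branch (move 586 (leaf 554 1)) (move 492 (branch (move 460 (leaf 459 5)) (move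 619 (leaf 491 6)))))))))) (move 590 (branch (move 591 (leaf 555 0)) (move 622 (branch (move 654 (leaf 525 7)) (move 621 (branch (move 653 (leaf 525 5)) (move 589 (branch (move 494 (leaf 493 5)) (move 524 (branch (move 492 (leaf 492 7)) (move 523 (branch (move 522 (leaf 522 0)) (move 587 (branch (move 586 (leaf 554 1)) (move 619 (branch (move 651 (leaf 523 6)) (move 620 (branch (move 618 (leaf 586 2)) (move 652 (leaf 523 4)))))))))))))))))))))))))) (branch (move 589 (branch (move 494 (branch (move 621 (leaf 493 6)) (move 462 (branch (move 430 (leaf 429 5)) (move 558 (leaf 461 5)))))) (branch (move 621 (branch (move 494 (leaf 493 6)) (move 556 (branch (move 554 (leaf 522 2)) (move 524 (branch (move 492 (leaf 492 7)) (move 653 (leaf 524 7)))))))) (branch (move 554 (branch (move 556 (leaf 522 2)) (move 524 (branch (move 523 (leaf 522 1)) (move 621 (branch (move 492 (leaf 492 7)) (move 653 (branch (move 558 (leaf 525 6)) (move 652 (branch (move 620 (leaf 524 5)) (move 684 (leaf 556 5)))))))))))) (ref 5))))) (branch (move 589 (branch (move 494 (branch (move 621 (leaf 493 6)) (move 462 (branch (move 430 (leaf 429 5)) (move 558 (leaf 461 5))))))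 (branch (move 621 (branch (move 494 (leaf 493 6)) (move 622 (branch (move 654 (leaf 525 4)) (move 620 (branch (move 652 (leaf 524 5)) (move 590 (branch (move 493 (leaf 493 4)) (move 591 (branch (move 592 (leaf 588 1)) (move 619 (leaf 587 2)))))))))))) (branch (move 590 (branch (move 622 (branch (move 493 (leaf 493 4)) (move 654 (branch (move 621 (leaf 525 4)) (move 686 (leaf 557 7)))))) (move 556 (branch (move 554 (leaf 554 0)) (move 591 (branch (move 558 (leaf 555 0)) (move 592 (leaf 556 3)))))))) (move 493 (branch (move 590 (branch (move 622 (leaf 493 4)) (move 556 (branch (move 554 (leaf 554 0)) (move 591 (branch (move 558 (leaf 555 0)) (move 592 (leaf 556 3)))))))) (branch (move 462 (branch (move 494 (leaf 461 6)) (move 461 (branch (move 430 (leaf 429 6)) (move 558 (branch (move 429 (leaf 429 4)) (move 590 (leaf 461 4)))))))) (move 556 (branch (move 554 (leaf 522 2)) (move 462 (branch (move 494 (leaf 461 6)) (move 461 (branch (move 430 (leaf 429 6)) (move 429 (branch (move 524 (leaf 428 5)) (move 428 (branch (move 396 (leaf 396 7)) (move 460 (leaf 428 7))))))))))))))))))) (branch (move 556 (branch (move 554 (leaf 522 2)) (move 558 (branch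 (move 590 (branch (move 591 (leaf 555 0)) (move 493 (branch (move 461 (leaf 461 4)) (move 622 (leaf 493 7)))))) (move 523 (branch (move 522 (leaf 522 3)) (move 524 (branch (move 559 (leaf 523 0)) (move 587 (branch (move 586 (leaf 554 1)) (move 619 (branch (move 492 (leaf 491 6)) (move 651 (leaf 523 6)))))))))))))) (move 589 (branch (move 621 (branch (move 494 (leaf 493 6)) (move 622 (branch (move 654 (leaf 525 4)) (move 620 (branch (move 652 (leaf 524 5)) (move 590 (branch (move 493 (leaf 493 4)) (move 591 (branch (move 592 (leaf 588 1)) (move 619 (leaf 587 2)))))))))))) (branch (move 621 (branch (move 494 (leaf 493 6)) (move 556 (branch (move 554 (leaf 522 2)) (move 524 (branch (move 492 (leaf 492 7)) (move 653 (leaf 524 7)))))))) (branch (move 554 (branch (move 556 (leaf 522 2)) (move 524 (branch (move 523 (leaf 522 1)) (move 621 (branch (move 492 (leaf 492 7)) (move 622 (branch (move 654 (leaf 525 4)) (move 620 (branch (move 652 (leaf 524 5)) (move 590 (branch (move 493 (leaf 493 4)) (move 619 (branch (move 618 (leaf 586 2)) (move 591 (leaf 587 2)))))))))))))))) (ref 6)))))))))))))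
theorem a6p577 : a6e577.Valid :=
  pos_of_chk [a6e572, a6e550, a6e561, a6e573, a6e543, a6e574, a6e576] (forall_cons a6p572 (forall_cons a6p550 (forall_cons a6p561 (forall_cons a6p573 (forall_cons a6p543 (forall_cons a6p574 (forall_cons a6p576 forall_nil))))))) a6c577 a6e577 (by decide +kernel)

def a6e578 : Pos := ⟨2026130649457353972231512776192535314490532872758281252201471885230367478121733520941749502248498861150087689462054013301729582301162443166008305430178341653127484425465013207040, 25562609324110492541286027354134109222117514437886599283906866018668164251573621680508775384910944699286065234822609702114591029223312136532471301107693053927718884240146947451950360166400, 9⟩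
def a6c578 : Cert := (move 523 (branch (move 462 (branch (move 494 (leaf 461 6)) (move 461 (branch (move 430 (leaf 429 6)) (move 588 (branch (move 620 (leaf 492 5)) (move 590 (branch (move 622 (leaf 493 4)) (move 587 (branch (move 554 (leaf 554 3)) (move 618 (branch (move 619 (leaf 586 1)) (move 586 (branch (move 617 (leaf 585 1)) (move 491 (leaf 490 5)))))))))))))))) (branch (move 554 (branch (move 524 (leaf 522 1)) (move 588 (branch (move 620 (leaf 492 5)) (move 590 (branch (move 587 (leaf 554 3)) (move 622 (leaf 493 4)))))))) (move 491 (branch (move 494 (branch (move 462 (leaf 461 6)) (move 522 (branch (move 492 (leaf 490 1)) (move 524 (leaf 490 2)))))) (branch (move 490 (branch (move 492 (leaf 490 0)) (move 524 (leaf 490 3)))) (branch (move 494 (branch (move 462 (leaf 461 6)) (move 524 (branch (move 522 (leaf 490 2)) (move 490 (leaf 490 3)))))) (move 494 (branch (move 462 (leaf 461 6)) (move 492 (branch (move 490 (leaf 490 0)) (move 522 (leaf 490 1)))))))))))))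
theorem a6p578 : a6e578.Valid :=
  pos_of_chk [] forall_nil a6c578 a6e578 (by decide +kernel)

def a6e579 : Pos := ⟨589681629207876123974012169598548252561675815119001711340660894064313021414679330941544791310892045180104252237467073712380235034207604272824123004789912114793740763136, 321053216778053891370542679415584060742296082089996344626152241930364030963916062945553114353286285351944565632909393894724134808639103030027060012277071185389535950738349604430667314061887324255159630954496, 17⟩
def a6c579 : Cert := (move 589 (branch (move 494 (branch (move 621 (leaf 493 6)) (move 462 (branch (move 430 (leaf 429 5)) (move 558 (leaf 461 5)))))) (branch (move 621 (branch (move 494 (leaf 493 6)) (move 620 (branch (move 652 (leaf 524 5)) (move 622 (branch (move 654 (leaf 525 4)) (move 493 (branch (move 590 (leaf 493 4)) (move 588 (leaf 492 5)))))))))) (branch (move 493 (branch (move 590 (branch (move 622 (leaf 493 4)) (move 558 (branch (move 461 (leaf 461 4)) (move 588 (branch (move 620 (leaf 492 5)) (move 559 (branch (move 560 (leaf 556 1)) (move 587 (leaf 555 2)))))))))) (branch (move 620 (branch (move 588 (leaf 492 5)) (move 621 (branch (move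 652 (leaf 524 5)) (move 653 (branch (move 558 (leaf 525 6)) (move 654 (branch (move 622 (leaf 525 4)) (move 686 (leaf 557 4)))))))))) (branch (move 620 (branch (move 588 (leaf 492 5)) (move 621 (branch (move 652 (leaf 524 5)) (move 622 (branch (move 590 (leaf 493 4)) (move 654 (leaf 525 4)))))))) (branch (move 590 (branch (move 622 (leaf 493 4)) (move 558 (branch (move 461 (leaf 461 4)) (move 621 (branch (move 653 (leaf 525 6)) (move 524 (branch (move 492 (leaf 492 7)) (move 523 (branch (move 522 (leaf 522 0)) (move 559 (leaf 523 0)))))))))))) (move 620 (branch (move 588 (leaf 492 5)) (move 621 (branch (move 652 (leaf 524 5)) (move 558 (branch (move 653 (leaf 525 6)) (move 461 (branch (move 429 (leaf 429 4)) (move 590 (leaf 461 4))))))))))))))) (move 493 (branch (move 590 (branch (move 622 (leaf 493 4)) (move 558 (branch (move 461 (leaf 461 4)) (move 588 (branch (move 620 (leaf 492 5)) (move 559 (branch (move 560 (leaf 556 1)) (move 587 (leaf 555 2)))))))))) (branch (move 494 (branch (move 462 (leaf 461 6)) (move 590 (branch (move 622 (leaf 493 4)) (move 588 (branch (move 620 (leaf 492 5)) (move 587 (branch (move 554 (leaf 554 3)) (move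 558 (branch (move 586 (leaf 554 2)) (move 559 (leaf 555 2)))))))))))) (branch (move 462 (branch (move 494 (leaf 461 6)) (move 461 (branch (move 430 (leaf 429 6)) (move 429 (branch (move 558 (leaf 429 4)) (move 396 (branch (move 428 (leaf 396 7)) (move 397 (branch (move 364 (leaf 364 7)) (move 398 (branch (move 366 (leaf 365 6)) (move 524 (branch (move 492 (leaf 396 5)) (move 523 (branch (move 554 (leaf 522 1)) (move 490 (branch (move 491 (leaf 490 3)) (move 522 (branch (move 489 (leaf 489 3)) (move 426 (branch (move 458 (leaf 426 4)) (move 395 (branch (move 427 (leaf 394 1)) (move 394 (branch (move 425 (leaf 393 1)) (move 362 (branch (move 361 (leaf 361 3)) (move 363 (leaf 362 3)))))))))))))))))))))))))))))) (ref 0)))))))))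
theorem a6p579 : a6e579.Valid :=
  pos_of_chk [a6e578] (forall_cons a6p578 forall_nil) a6c579 a6e579 (by decide +kernel)

def a6e580 : Pos := ⟨589681629207876123974012169598548252561675815119001711340660894064313021414679330941544791310892045180104252237467073712380235034207604272824123004789912114793740763136, 321053216740678377827174459075518765172653947293775624794703518437569995424325988315363680299735471393310420358331563962370113854607608467408206065415076411382006928882965677346059372841175114200175182086144, 6⟩
def a6c580 : Cert := (move 589 (branch (move 494 (branch (move 621 (leaf 493 6)) (move 462 (branch (move 430 (leaf 429 5)) (move 558 (leaf 461 5)))))) (branch (move 621 (branch (move 494 (leaf 493 6)) (move 620 (branch (move 652 (leaf 524 5)) (move 622 (branch (move 654 (leaf 525 4)) (move 493 (branch (move 590 (leaf 493 4)) (move 588 (leaf 492 5)))))))))) (branch (move 590 (branch (move 622 (branch (move 493 (leaf 493 4)) (move 654 (branch (move 621 (leaf 525 4)) (move 686 (leaf 557 7)))))) (move 556 (branch (move 554 (leaf 554 0)) (move 591 (branch (move 558 (leaf 555 0)) (move 592 (leaf 556 3)))))))) (move 493 (branch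 (move 462 (branch (move 494 (leaf 461 6)) (move 461 (branch (move 430 (leaf 429 6)) (move 588 (branch (move 556 (leaf 460 5)) (move 620 (leaf 492 5)))))))) (branch (move 556 (branch (move 554 (leaf 522 2)) (move 588 (branch (move 620 (leaf 492 5)) (move 590 (branch (move 591 (leaf 555 3)) (move 622 (leaf 493 4)))))))) (move 462 (branch (move 494 (leaf 461 6)) (move 461 (branch (move 430 (leaf 429 6)) (move 558 (branch (move 429 (leaf 429 4)) (move 590 (leaf 461 4)))))))))))))))
theorem a6p580 : a6e580.Valid :=
  pos_of_chk [] forall_nil a6c580 a6e580 (by decide +kernel)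

def a6e581 : Pos := ⟨589681629207876123974012169598548252561675815119001711340660894064313021414679330941544791310892045180104252237467073712380235034207604272824123004789912114793740763136, 93438783879360135153558399520958045760438718350390078405548840800375475072949447007019336637450173995800460821066908567155943185215914233134585192867160606713999726247345266995104119214161786830848, 10⟩
def a6c581 : Cert := (move 493 (branch (move 589 (branch (move 492 (branch (move 460 (leaf 460 7)) (move 621 (branch (move 524 (leaf 492 7)) (move 620 (branch (move 588 (leaf 492 5)) (move 652 (leaf 524 5)))))))) (branch (move 492 (branch (move 460 (leaf 460 7)) (move 494 (branch (move 462 (leaf 461 6)) (move 491 (branch (move 490 (leaf 490 0)) (move 523 (branch (move 522 (leaf 490 1)) (move 588 (branch (move 620 (leaf 492 5)) (move 459 (branch (move 458 (leaf 458 3)) (move 556 (leaf 459 4)))))))))))))) (move 494 (branch (move 462 (leaf 461 6)) (move 621 (leaf 493 6))))))) (branch (ref 0) (branch (move 589 (branch (move 494 (branch (move 462 (leaf 461 6)) (move 621 (leaf 493 6)))) (move 588 (branch (move 620 (leaf 492 5)) (move 556 (branch (move 461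 (leaf 460 5)) (move 590 (branch (move 591 (leaf 555 3)) (move 622 (leaf 493 4)))))))))) (branch (move 589 (branch (move 494 (branch (move 462 (leaf 461 6)) (move 621 (leaf 493 6)))) (branch (move 492 (branch (move 460 (leaf 460 7)) (move 621 (branch (move 524 (leaf 492 7)) (move 622 (branch (move 590 (leaf 493 4)) (move 654 (leaf 525 4)))))))) (move 462 (branch (move 494 (leaf 461 6)) (move 461 (branch (move 430 (leaf 429 6)) (move 460 (branch (move 428 (leaf 428 7)) (move 492 (leaf 460 7))))))))))) (move 461 (branch (move 556 (branch (move 588 (leaf 460 5)) (move 429 (branch (move 524 (leaf 428 5)) (move 428 (branch (move 396 (leaf 396 7)) (move 460 (leaf 428 7)))))))) (branch (move 430 (branch (move 462 (leaf 429 6)) (move 429 (branch (move 398 (leaf 397 6)) (move 556 (branch (move 524 (leaf 428 5)) (move 588 (leaf 460 5)))))))) (branch (move 430 (branch (move 462 (leaf 429 6)) (move 429 (branch (move 398 (leaf 397 6)) (move 428 (branch (move 396 (leaf 396 7)) (move 460 (leaf 428 7)))))))) (move 492 (branch (move 462 (branch (move 430 (leaf 429 6)) (move 491 (branch (move 490 (leaf 490 0)) (move 463 (branch (move 464 (leaf 460 1)) (move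 494 (leaf 459 2)))))))) (branch (move 460 (branch (move 428 (leaf 428 7)) (move 491 (branch (move 490 (leaf 490 0)) (move 556 (branch (move 588 (leaf 460 5)) (move 587 (branch (move 524 (leaf 459 5)) (move 523 (leaf 459 6)))))))))) (move 460 (branch (move 428 (leaf 428 7)) (move 462 (branch (move 430 (leaf 429 6)) (move 556 (branch (move 588 (leaf 460 5)) (move 524 (branch (move 587 (leaf 459 5)) (move 459 (branch (move 427 (leaf 427 7)) (move 458 (branch (move 457 (leaf 457 0)) (move 494 (leaf 458 0))))))))))))))))))))))))))
theorem a6p581 : a6e581.Valid :=
  pos_of_chk [a6e541] (forall_cons a6p541 forall_nil) a6c581 a6e581 (by decide +kernel)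

def a6e582 : Pos := ⟨117936326105183454943817846975014641197060662566946657793635106533610001115660724430778950663684699237420705358621593099908911955467005193753943723360825109337566347264, 401316521089365844258857084549093997592805213725503661498746610157472351647725068160371124374959435517406558181540356538972591974244275442832921776445410273565412225467352319814374275066432927479589272289280, 14⟩
def a6c582 : Cert := (move 557 (branch (ref 0) (branch (move 589 (branch (ref 1) (branch (move 494 (branch (move 621 (leaf 493 6)) (move 462 (branch (move 430 (leaf 429 5)) (move 558 (leaf 461 5)))))) (ref 2)))) (branch (move 589 (branch (ref 1) (branch (move 494 (branch (move 621 (leaf 493 6)) (move 462 (branch (move 430 (leaf 429 5)) (move 558 (leaf 461 5)))))) (ref 3)))) (branch (ref 4) (branch (move 556 (branch (move 554 (leaf 522 2)) (move 558 (branch (move 590 (branch (move 591 (leaf 555 0)) (move 622 (branch (move 493 (leaf 493 7)) (move 654 (leaf 525 7)))))) (move 523 (branch (move 522 (leaf 522 3)) (move 524 (branch (move 559 (leaf 523 0)) (move 491 (branch (move 490 (leaf 490 3)) (move 588 (branch (move 459 (leaf 459 4)) (move 620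 (leaf 491 7)))))))))))))) (branch (ref 5) (move 589 (branch (move 494 (branch (move 621 (leaf 493 6)) (move 462 (branch (move 430 (leaf 429 5)) (move 558 (leaf 461 5)))))) (branch (ref 6) (branch (move 621 (branch (move 494 (leaf 493 6)) (move 620 (branch (move 652 (leaf 524 5)) (move 622 (branch (move 654 (leaf 525 4)) (move 493 (branch (move 590 (leaf 493 4)) (move 588 (leaf 492 5)))))))))) (move 493 (branch (move 462 (branch (move 494 (leaf 461 6)) (move 461 (branch (move 430 (leaf 429 6)) (move 460 (branch (move 428 (leaf 428 7)) (move 492 (leaf 460 7)))))))) (branch (move 590 (branch (move 622 (leaf 493 4)) (move 558 (branch (move 461 (leaf 461 4)) (move 588 (branch (move 620 (leaf 492 5)) (move 559 (branch (move 560 (leaf 556 1)) (move 587 (leaf 555 2)))))))))) (move 494 (branch (move 462 (leaf 461 6)) (move 590 (branch (move 622 (leaf 493 4)) (move 588 (branch (move 620 (leaf 492 5)) (move 587 (branch (move 554 (leaf 554 3)) (move 558 (branch (move 559 (leaf 555 2)) (move 591 (branch (move 623 (leaf 494 4)) (move 492 (branch (move 460 (leaf 460 7)) (move 491 (branch (move 490 (leaf 490 0)) (move 523 (branch (move 522 (leaf 490 1))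 (move 619 (branch (move 618 (leaf 586 1)) (move 524 (leaf 491 6))))))))))))))))))))))))))))))))))))
theorem a6p582 : a6e582.Valid :=
  pos_of_chk [a6e581, a6e549, a6e545, a6e547, a6e550, a6e560, a6e539] (forall_cons a6p581 (forall_cons a6p549 (forall_cons a6p545 (forall_cons a6p547 (forall_cons a6p550 (forall_cons a6p560 (forall_cons a6p539 forall_nil))))))) a6c582 a6e582 (by decide +kernel)

def a6e583 : Pos := ⟨117936326105183454943817846975014641197060662566946657793635106533610001115660724430778950663684699237420705358621593099908911955467005193753943723360825109337566347264, 321053216908868188788919952536635714195682811159328973446615032822473907191136104874454302835097730306274673481759393239972811642907153956282924851940238697067798946385300026276373843316716920793953334198272, 10⟩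
def a6c583 : Cert := (move 557 (branch (ref 0) (branch (ref 1) (branch (move 556 (branch (move 554 (leaf 522 2)) (move 558 (branch (move 590 (branch (move 591 (leaf 555 0)) (move 622 (branch (move 493 (leaf 493 7)) (move 654 (leaf 525 7)))))) (move 523 (branch (move 522 (leaf 522 3)) (move 524 (branch (move 559 (leaf 523 0)) (move 587 (branch (move 586 (leaf 554 1)) (move 492 (branch (move 460 (leaf 459 5)) (move 619 (leaf 491 6)))))))))))))) (branch (move 589 (branch (move 494 (branch (move 621 (leaf 493 6)) (move 462 (branch (move 430 (leaf 429 5)) (move 558 (leaf 461 5)))))) (branch (move 621 (branch (move 494 (leaf 493 6)) (move 622 (branch (move 654 (leaf 525 4)) (move 493 (branch (move 590 (leaf 493 4)) (move 492 (branch (move 460 (leaf 460 7)) (move 524 (leaf 492 7)))))))))) (branch (ref 2) (ref 3))))) (branch (move 589 (branch (move 621 (branch (move 494 (leaf 493 6)) (move 556 (branch (move 554 (leaf 522 2)) (move 524 (branch (move 492 (leaf 492 7)) (move 653 (leaf 524 7)))))))) (branch (move 590 (branch (move 622 (branch (move 493 (leaf 493 4)) (move 654 (branch (move 621 (leaf 525 4)) (move 686 (leaf 557 7)))))) (move 556 (branch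 (move 554 (leaf 554 0)) (move 591 (branch (move 588 (leaf 555 3)) (move 592 (leaf 556 3)))))))) (branch (move 621 (branch (move 494 (leaf 493 6)) (move 622 (branch (move 654 (leaf 525 4)) (move 493 (branch (move 590 (leaf 493 4)) (move 492 (branch (move 460 (leaf 460 7)) (move 524 (leaf 492 7)))))))))) (ref 4))))) (branch (move 558 (branch (ref 5) (branch (move 523 (branch (move 522 (branch (move 524 (leaf 522 0)) (move 556 (leaf 522 3)))) (branch (move 524 (branch (move 522 (leaf 522 0)) (move 554 (leaf 522 1)))) (branch (move 556 (branch (move 554 (leaf 522 2)) (move 522 (leaf 522 3)))) (move 554 (branch (move 524 (leaf 522 1)) (move 556 (leaf 522 2)))))))) (move 556 (branch (move 554 (leaf 522 2)) (move 590 (branch (move 591 (leaf 555 0)) (move 622 (branch (move 654 (leaf 525 7)) (move 621 (branch (move 653 (leaf 525 5)) (move 589 (branch (move 494 (leaf 493 5)) (move 587 (branch (move 586 (leaf 554 1)) (move 588 (branch (move 623 (leaf 587 0)) (move 559 (leaf 555 1))))))))))))))))))) (move 589 (branch (move 494 (branch (move 621 (leaf 493 6)) (move 462 (branch (move 430 (leaf 429 5)) (move 558 (leaf 461 5)))))) (branch (ref 6) (move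 554 (branch (move 556 (leaf 522 2)) (move 524 (branch (move 523 (leaf 522 1)) (move 492 (branch (move 621 (leaf 492 7)) (move 460 (branch (move 428 (leaf 428 4)) (move 493 (leaf 460 7))))))))))))))))))))
theorem a6p583 : a6e583.Valid :=
  pos_of_chk [a6e565, a6e550, a6e561, a6e573, a6e576, a6e564, a6e574] (forall_cons a6p565 (forall_cons a6p550 (forall_cons a6p561 (forall_cons a6p573 (forall_cons a6p576 (forall_cons a6p564 (forall_cons a6p574 forall_nil))))))) a6c583 a6e583 (by decide +kernel)

def a6e584 : Pos := ⟨589681629207876123974012169598548252561675815119001711340660894064313021414679330941544791310892045180104252237467073712380235034207604272824123004789912114793740763136, 93438783883167332286322252415532441230772604636241494886268298533388274032078968497644447102182320745522688787651878615713632230070498555478619486278589771074242252022375431601322033536326155894784, 10⟩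
def a6c584 : Cert := (move 493 (branch (move 589 (branch (move 494 (branch (move 462 (leaf 461 6)) (move 621 (leaf 493 6)))) (move 588 (branch (move 620 (leaf 492 5)) (move 556 (branch (move 461 (leaf 460 5)) (move 590 (branch (move 591 (leaf 555 3)) (move 622 (leaf 493 4)))))))))) (branch (move 556 (branch (move 554 (leaf 522 2)) (move 461 (branch (move 588 (leaf 460 5)) (move 429 (branch (move 524 (leaf 428 5)) (move 430 (branch (move 398 (leaf 397 6)) (move 462 (leaf 429 6)))))))))) (branch (move 589 (branch (move 492 (branch (move 460 (leaf 460 7)) (move 621 (branch (move 524 (leaf 492 7)) (move 620 (branch (move 588 (leaf 492 5)) (move 652 (leaf 524 5)))))))) (branch (move 492 (branch (move 460 (leaf 460 7)) (move 621 (branch (move 524 (leaf 492 7)) (move 622 (branch (move 590 (leaf 493 4)) (move 654 (leaf 525 4)))))))) (branch (move 620 (branch (move 588 (leaf 492 5)) (move 621 (branch (move 652 (leaf 524 5)) (move 622 (branch (move 590 (leaf 493 4)) (move 654 (leaf 525 4)))))))) (move 492 (branch (move 460 (leaf 460 7)) (move 491 (branch (move 490 (leaf 490 0)) (move 588 (branch (move 620 (leaf 492 5)) (move 590 (branch (move 622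 (leaf 493 4)) (move 587 (branch (move 554 (leaf 554 3)) (move 618 (branch (move 619 (leaf 586 1)) (move 586 (branch (move 617 (leaf 585 1)) (move 523 (leaf 490 5)))))))))))))))))))) (move 589 (branch (move 494 (branch (move 462 (leaf 461 6)) (move 621 (leaf 493 6)))) (branch (move 492 (branch (move 460 (leaf 460 7)) (move 621 (branch (move 524 (leaf 492 7)) (move 622 (branch (move 590 (leaf 493 4)) (move 654 (leaf 525 4)))))))) (move 494 (branch (move 462 (leaf 461 6)) (move 492 (branch (move 460 (leaf 460 7)) (move 491 (branch (move 490 (leaf 490 0)) (move 523 (branch (move 522 (leaf 490 1)) (move 459 (branch (move 458 (leaf 458 3)) (move 554 (branch (move 524 (leaf 522 1)) (move 586 (leaf 458 5)))))))))))))))))))))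
theorem a6p584 : a6e584.Valid :=
  pos_of_chk [] forall_nil a6c584 a6e584 (by decide +kernel)

def a6e585 : Pos := ⟨117936326105183454943817846975014641197060662566946657793635106533610001115660724430778950663684699237420705358621593099908911955467005193753943723360825109337566347264, 321053216936899824157337644685204289600953762201432106330347743632623935711830341110108395826414044298512492354167821867541325208151146206168621151819174026892050575027221983469710694082892588645163452071936, 15⟩
def a6c585 : Cert := (move 557 (branch (ref 0) (branch (ref 1) (branch (ref 2) (branch (move 556 (branch (move 554 (leaf 522 2)) (move 558 (branch (move 590 (branch (move 591 (leaf 555 0)) (move 622 (branch (move 493 (leaf 493 7)) (move 654 (leaf 525 7)))))) (move 523 (branch (move 522 (leaf 522 3)) (move 524 (branch (move 559 (leaf 523 0)) (move 587 (branch (move 586 (leaf 554 1)) (move 492 (branch (move 460 (leaf 459 5)) (move 619 (leaf 491 6)))))))))))))) (branch (ref 3) (branch (move 589 (branch (move 494 (branch (move 621 (leaf 493 6)) (move 462 (branch (move 430 (leaf 429 5)) (move 558 (leaf 461 5)))))) (branch (ref 4) (branch (move 621 (branch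 (move 494 (leaf 493 6)) (move 620 (branch (move 652 (leaf 524 5)) (move 622 (branch (move 654 (leaf 525 4)) (move 493 (branch (move 590 (leaf 493 4)) (move 588 (leaf 492 5)))))))))) (move 493 (branch (move 492 (branch (move 460 (leaf 460 7)) (move 491 (branch (move 490 (leaf 490 0)) (move 588 (branch (move 620 (leaf 492 5)) (move 590 (branch (move 622 (leaf 493 4)) (move 587 (branch (move 554 (leaf 554 3)) (move 618 (branch (move 619 (leaf 586 1)) (move 586 (branch (move 617 (leaf 585 1)) (move 523 (leaf 490 5)))))))))))))))) (branch (move 462 (branch (move 494 (leaf 461 6)) (move 461 (branch (move 430 (leaf 429 6)) (move 558 (branch (move 429 (leaf 429 4)) (move 590 (leaf 461 4)))))))) (move 494 (branch (move 462 (leaf 461 6)) (move 492 (branch (move 460 (leaf 460 7)) (move 491 (branch (move 490 (leaf 490 0)) (move 523 (branch (move 522 (leaf 490 1)) (move 459 (branch (move 458 (leaf 458 3)) (move 554 (branch (move 524 (leaf 522 1)) (move 586 (leaf 458 5))))))))))))))))))))) (ref 5))))))))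
theorem a6p585 : a6e585.Valid :=
  pos_of_chk [a6e565, a6e544, a6e567, a6e580, a6e539, a6e584] (forall_cons a6p565 (forall_cons a6p544 (forall_cons a6p567 (forall_cons a6p580 (forall_cons a6p539 (forall_cons a6p584 forall_nil)))))) a6c585 a6e585 (by decide +kernel)

def a6e586 : Pos := ⟨589681629207876123974012169598548252561675815119001711340660894064313021414679330941544791310892045180104252237467073712380235034207604272824123004789912114793740763136, 261628594913986259452723375286973650937735371726172441868619654841683121440993542474013280514218732727598648940532990462811723140130265697436478345484750304856461146206373126081185331222216330706944, 9⟩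
def a6c586 : Cert := (move 558 (branch (ref 0) (branch (move 590 (branch (move 622 (branch (move 654 (leaf 525 7)) (move 591 (branch (move 556 (leaf 555 0)) (move 623 (branch (move 494 (leaf 494 4)) (move 655 (leaf 526 4)))))))) (branch (move 591 (branch (move 556 (leaf 555 0)) (move 494 (branch (move 623 (leaf 494 4)) (move 589 (branch (move 462 (leaf 461 5)) (move 621 (leaf 493 5)))))))) (branch (move 622 (branch (move 654 (leaf 525 7)) (move 621 (branch (move 653 (leaf 525 5)) (move 589 (branch (move 494 (leaf 493 5)) (move 623 (branch (move 655 (leaf 526 4)) (move 588 (branch (move 587 (leaf 587 0)) (move 624 (leaf 588 3)))))))))))) (move 622 (branch (move 654 (leaf 525 7)) (move 621 (branch (move 653 (leaf 525 5)) (move 591 (branch (move 556 (leaf 555 0)) (move 592 (branch (move 593 (leaf 589 1)) (move 620 (branch (move 589 (leaf 588 1)) (move 619 (leaf 587 2)))))))))))))))) (branch (move 559 (branch (move 523 (branch (move 524 (leaf 523 0)) (move 556 (branch (move 522 (leaf 522 3)) (move 587 (branch (move 586 (leaf 554 1)) (move 588 (leaf 555 1)))))))) (branch (move 560 (branch (move 524 (leaf 524 3)) (move 561 (leaf 525 3)))) (move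 560 (branch (move 561 (leaf 525 3)) (move 589 (branch (move 588 (leaf 556 1)) (move 621 (branch (move 494 (leaf 493 6)) (move 653 (leaf 525 6))))))))))) (branch (move 559 (branch (move 560 (branch (move 524 (leaf 524 3)) (move 561 (leaf 525 3)))) (branch (move 523 (branch (move 524 (leaf 523 0)) (move 556 (branch (move 522 (leaf 522 3)) (move 591 (branch (move 590 (leaf 555 0)) (move 592 (leaf 556 0)))))))) (move 560 (branch (move 561 (leaf 525 3)) (move 592 (branch (move 593 (leaf 557 0)) (move 591 (branch (move 556 (leaf 556 0)) (move 623 (branch (move 655 (leaf 526 7)) (move 494 (branch (move 462 (leaf 462 4)) (move 590 (leaf 494 4))))))))))))))) (ref 1))))))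
theorem a6p586 : a6e586.Valid :=
  pos_of_chk [a6e562, a6e564] (forall_cons a6p562 (forall_cons a6p564 forall_nil)) a6c586 a6e586 (by decide +kernel)

def a6e587 : Pos := ⟨589681629207876123999585533722736860921153859625467329717353410049024465082517544754795836595303565140129799833763199940121537253954167327583632821554641748022869884928, 214909202990622750974499381482346883335637805203565930937997805595812072447899983442093961971007824995718450534720752595142076802275122545688927812292003525674380110962122606114134656767978064838656, 11⟩
def a6c587 : Cert := (move 589 (branch (move 588 (branch (move 620 (leaf 492 5)) (move 556 (branch (move 461 (leaf 460 5)) (move 590 (branch (move 591 (leaf 555 3)) (move 622 (leaf 493 4)))))))) (branch (move 590 (branch (move 622 (leaf 493 4)) (move 588 (branch (move 620 (leaf 492 5)) (move 591 (branch (move 556 (leaf 555 3)) (move 559 (branch (move 560 (leaf 556 2)) (move 558 (branch (move 587 (leaf 555 2)) (move 623 (branch (move 624 (leaf 588 0)) (move 655 (leaf 526 7)))))))))))))) (branch (move 590 (branch (move 622 (leaf 493 4)) (move 558 (branch (move 461 (leaf 461 4)) (move 588 (branch (move 620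 (leaf 492 5)) (move 559 (branch (move 560 (leaf 556 1)) (move 587 (leaf 555 2)))))))))) (branch (move 590 (branch (move 622 (leaf 493 4)) (move 558 (branch (move 461 (leaf 461 4)) (move 556 (branch (move 591 (leaf 555 0)) (move 523 (branch (move 522 (leaf 522 3)) (move 524 (branch (move 559 (leaf 523 0)) (move 621 (branch (move 653 (leaf 525 6)) (move 587 (branch (move 586 (leaf 554 1)) (move 619 (branch (move 651 (leaf 523 6)) (move 620 (branch (move 618 (leaf 586 2)) (move 652 (leaf 523 4)))))))))))))))))))) (branch (move 588 (branch (move 620 (leaf 492 5)) (move 461 (branch (move 556 (leaf 460 5)) (move 558 (branch (move 429 (leaf 429 4)) (move 559 (branch (move 560 (leaf 556 1)) (move 621 (branch (move 653 (leaf 525 6)) (move 524 (branch (move 523 (leaf 523 0)) (move 492 (leaf 492 7)))))))))))))) (move 590 (branch (move 622 (leaf 493 4)) (move 558 (branch (move 461 (leaf 461 4)) (move 556 (branch (move 591 (leaf 555 0)) (move 587 (branch (move 586 (leaf 554 1)) (move 559 (branch (move 588 (leaf 555 1)) (move 524 (branch (move 523 (leaf 523 0)) (move 560 (leaf 524 3))))))))))))))))))))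
theorem a6p587 : a6e587.Valid :=
  pos_of_chk [] forall_nil a6c587 a6e587 (by decide +kernel)

def a6e588 : Pos := ⟨589681629207876123974012169598548252561675815119001711340660894064313021414679330941544791310892045180104252237467073712380235034207604272824123004789912114793740763136, 80263304451470128556698378461907935931004763014011557634018425541540934524023457403166953457979756953418658762304675741139255277474464075323923847186923491415906631151620726020040942910691065520869137711104, 12⟩
def a6c588 : Cert := (move 493 (branch (move 589 (branch (move 492 (branch (move 460 (leaf 460 7)) (move 621 (branch (move 524 (leaf 492 7)) (move 620 (branch (move 588 (leaf 492 5)) (move 652 (leaf 524 5)))))))) (branch (move 492 (branch (move 460 (leaf 460 7)) (move 621 (branch (move 524 (leaf 492 7)) (move 622 (branch (move 590 (leaf 493 4)) (move 654 (leaf 525 4)))))))) (move 590 (branch (move 622 (leaf 493 4)) (move 588 (branch (move 620 (leaf 492 5)) (move 591 (branch (move 556 (leaf 555 3)) (move 559 (branch (move 560 (leaf 556 2)) (move 558 (branch (move 587 (leaf 555 2)) (move 623 (branch (move 624 (leaf 588 0)) (move 655 (leaf 526 7)))))))))))))))))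 (branch (move 461 (branch (move 430 (branch (move 462 (leaf 429 6)) (move 429 (branch (move 398 (leaf 397 6)) (move 428 (branch (move 396 (leaf 396 7)) (move 460 (leaf 428 7)))))))) (move 558 (branch (move 590 (leaf 461 4)) (move 556 (branch (move 588 (leaf 460 5)) (move 523 (branch (move 522 (leaf 522 3)) (move 559 (branch (move 524 (leaf 523 0)) (move 560 (branch (move 561 (leaf 525 3)) (move 592 (branch (move 591 (leaf 556 0)) (move 593 (leaf 557 0)))))))))))))))) (branch (move 589 (branch (move 492 (branch (move 460 (leaf 460 7)) (move 621 (branch (move 524 (leaf 492 7)) (move 620 (branch (move 588 (leaf 492 5)) (move 652 (leaf 524 5)))))))) (branch (move 492 (branch (move 460 (leaf 460 7)) (move 621 (branch (move 524 (leaf 492 7)) (move 622 (branch (move 590 (leaf 493 4)) (move 654 (leaf 525 4)))))))) (move 590 (branch (move 622 (leaf 493 4)) (move 558 (branch (move 461 (leaf 461 4)) (move 588 (branch (move 620 (leaf 492 5)) (move 559 (branch (move 560 (leaf 556 1)) (move 587 (leaf 555 2))))))))))))) (branch (move 589 (branch (move 492 (branch (move 460 (leaf 460 7)) (move 621 (branch (move 524 (leaf 492 7)) (move 622 (branch (move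 590 (leaf 493 4)) (move 654 (leaf 525 4)))))))) (branch (move 590 (branch (move 622 (leaf 493 4)) (move 558 (branch (move 461 (leaf 461 4)) (move 556 (branch (move 591 (leaf 555 0)) (move 523 (branch (move 522 (leaf 522 3)) (move 524 (branch (move 559 (leaf 523 0)) (move 492 (branch (move 460 (leaf 460 4)) (move 491 (branch (move 490 (leaf 490 0)) (move 587 (branch (move 586 (leaf 554 1)) (move 619 (leaf 491 6)))))))))))))))))) (branch (move 492 (branch (move 460 (leaf 460 7)) (move 621 (branch (move 524 (leaf 492 7)) (move 653 (branch (move 558 (leaf 525 6)) (move 652 (branch (move 620 (leaf 524 5)) (move 684 (leaf 556 5)))))))))) (move 590 (branch (move 622 (leaf 493 4)) (move 558 (branch (move 461 (leaf 461 4)) (move 591 (branch (move 556 (leaf 555 0)) (move 592 (branch (move 593 (leaf 557 3)) (move 621 (branch (move 620 (leaf 588 1)) (move 653 (leaf 525 6)))))))))))))))) (branch (ref 0) (branch (move 589 (branch (move 590 (branch (move 622 (leaf 493 4)) (move 588 (branch (move 620 (leaf 492 5)) (move 591 (branch (move 556 (leaf 555 3)) (move 559 (branch (move 560 (leaf 556 2)) (move 558 (branch (move 587 (leaf 555 2)) (move 623 (branch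 (move 624 (leaf 588 0)) (move 655 (leaf 526 7)))))))))))))) (branch (move 588 (branch (move 620 (leaf 492 5)) (move 461 (branch (move 556 (leaf 460 5)) (move 460 (branch (move 428 (leaf 428 7)) (move 492 (leaf 460 7)))))))) (branch (move 590 (branch (move 622 (leaf 493 4)) (move 558 (branch (move 461 (leaf 461 4)) (move 588 (branch (move 620 (leaf 492 5)) (move 559 (branch (move 560 (leaf 556 1)) (move 587 (leaf 555 2)))))))))) (branch (move 590 (branch (move 622 (leaf 493 4)) (move 558 (branch (move 461 (leaf 461 4)) (move 591 (branch (move 556 (leaf 555 0)) (move 592 (branch (move 593 (leaf 557 3)) (move 621 (branch (move 620 (leaf 588 1)) (move 653 (leaf 525 6)))))))))))) (move 590 (branch (move 622 (leaf 493 4)) (move 558 (branch (move 461 (leaf 461 4)) (move 591 (branch (move 556 (leaf 555 0)) (move 592 (branch (move 593 (leaf 557 3)) (move 560 (branch (move 561 (leaf 557 2)) (move 559 (branch (move 588 (leaf 556 1)) (move 623 (branch (move 655 (leaf 526 7)) (move 528 (branch (move 529 (leaf 525 2)) (move 496 (leaf 495 5))))))))))))))))))))))) (move 461 (branch (move 430 (branch (move 462 (leaf 429 6)) (move 429 (branch (move 398 (leaf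 397 6)) (move 556 (branch (move 524 (leaf 428 5)) (move 588 (leaf 460 5)))))))) (branch (move 430 (branch (move 462 (leaf 429 6)) (move 429 (branch (move 398 (leaf 397 6)) (move 428 (branch (move 396 (leaf 396 7)) (move 460 (leaf 428 7)))))))) (move 460 (branch (move 428 (leaf 428 7)) (move 589 (branch (move 492 (leaf 460 7)) (move 588 (branch (move 556 (leaf 460 5)) (move 620 (leaf 492 5))))))))))))))))))
theorem a6p588 : a6e588.Valid :=
  pos_of_chk [a6e587] (forall_cons a6p587 forall_nil) a6c588 a6e588 (by decide +kernel)

def a6e589 : Pos := ⟨1533172235413261462034400814845615475290906120223111818434712469125719062012716543963076472605306737065471345995158034937322881191688802430964481567648086125706089594880, 28031635161197391080836656774002316946464636689730103183705950072955211049421699058738150885469043982442171173466530889923235436004808062565029363108885371236150539504701680738844673469226170712064, 6⟩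
def a6c589 : Cert := (move 523 (branch (move 556 (branch (move 522 (leaf 522 3)) (move 587 (branch (move 586 (leaf 554 1)) (move 588 (branch (move 559 (leaf 555 1)) (move 620 (branch (move 491 (leaf 491 4)) (move 652 (leaf 524 6)))))))))) (branch (move 524 (branch (move 522 (leaf 522 0)) (move 559 (leaf 523 0)))) (branch (move 522 (branch (move 524 (leaf 522 0)) (move 556 (leaf 522 3)))) (move 524 (branch (move 559 (leaf 523 0)) (move 556 (branch (move 587 (branch (move 586 (leaf 554 1)) (move 619 (branch (move 492 (leaf 491 6)) (move 651 (leaf 523 6)))))) (move 491 (branch (move 490 (leaf 490 3)) (move 588 (branch (move 459 (leaf 459 4)) (move 620 (leaf 491 7))))))))))))))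
theorem a6p589 : a6e589.Valid :=
  pos_of_chk [] forall_nil a6c589 a6e589 (by decide +kernel)

def a6e590 : Pos := ⟨4052261301155498133898764633181600105735269547619947088452418884849416977031527108763997057727136508512194608042699778666381907354855908762907962904433482931760415615579534131200, 23359695969840033794341358661229330784843478473369661967001285379120985263986482587157978690564845235865987301095695946653847227081118021203209217457993756763032052008892808687265131828080172597248, 9⟩
def a6c590 : Cert := (move 491 (branch (move 587 (branch (move 620 (branch (move 588 (leaf 491 4)) (move 619 (branch (move 652 (leaf 523 4)) (move 618 (branch (move 586 (leaf 490 5)) (move 650 (leaf 522 5)))))))) (move 490 (branch (move 458 (leaf 458 7)) (move 460 (branch (move 492 (leaf 459 6)) (move 459 (branch (move 428 (leaf 427 6)) (move 462 (branch (move 461 (leaf 458 1)) (move 494 (branch (move 591 (leaf 462 4)) (move 430 (leaf 429 5)))))))))))))) (branch (move 493 (branch (move 461 (leaf 461 4)) (move 492 (branch (move 490 (leaf 490 0)) (move 494 (branch (move 522 (leaf 490 1)) (move 462 (branch (move 463 (leaf 459 2)) (move 591 (leaf 462 4))))))))))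 (branch (move 587 (branch (move 620 (branch (move 588 (leaf 491 4)) (move 619 (branch (move 652 (leaf 523 4)) (move 618 (branch (move 586 (leaf 490 5)) (move 650 (leaf 522 5)))))))) (move 490 (branch (move 458 (leaf 458 7)) (move 492 (branch (move 493 (leaf 490 0)) (move 460 (leaf 459 6)))))))) (branch (move 587 (branch (move 620 (branch (move 588 (leaf 491 4)) (move 619 (branch (move 652 (leaf 523 4)) (move 618 (branch (move 586 (leaf 490 5)) (move 650 (leaf 522 5)))))))) (move 493 (branch (move 461 (leaf 461 4)) (move 492 (branch (move 460 (leaf 459 6)) (move 494 (branch (move 522 (leaf 490 1)) (move 462 (branch (move 463 (leaf 459 2)) (move 591 (leaf 462 4)))))))))))) (move 587 (branch (move 620 (branch (move 588 (leaf 491 4)) (move 619 (branch (move 652 (leaf 523 4)) (move 618 (branch (move 586 (leaf 490 5)) (move 650 (leaf 522 5)))))))) (move 461 (branch (move 493 (leaf 461 4)) (move 458 (branch (move 490 (leaf 458 7)) (move 459 (branch (move 426 (leaf 426 7)) (move 460 (branch (move 428 (leaf 427 6)) (move 430 (branch (move 429 (leaf 426 2)) (move 462 (branch (move 431 (leaf 427 2)) (move 494 (leaf 429 5)))))))))))))))))))))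
theorem a6p590 : a6e590.Valid :=
  pos_of_chk [] forall_nil a6c590 a6e590 (by decide +kernel)

def a6e591 : Pos := ⟨117936326105183454943817846975014641197060662566946657793635106533610001115660724430778950663684699237420705358621593099908911955467005193753943723360825109337566347264, 3611848688472789926263800264870194941369778697421875806479660357823251820464854564527191174947074384362851227995061372128687657553729301744629556725224434158041175029029722507805267341183669997144873629646848, 15⟩
def a6c591 : Cert := (move 557 (branch (ref 0) (branch (ref 1) (branch (ref 2) (branch (move 589 (branch (move 494 (branch (move 621 (leaf 493 6)) (move 462 (branch (move 430 (leaf 429 5)) (move 558 (leaf 461 5)))))) (branch (ref 3) (branch (move 621 (branch (move 494 (leaf 493 6)) (move 620 (branch (move 652 (leaf 524 5)) (move 622 (branch (move 654 (leaf 525 4)) (move 493 (branch (move 590 (leaf 493 4)) (move 588 (leaf 492 5)))))))))) (move 493 (branch (move 462 (branch (move 494 (leaf 461 6)) (move 461 (branch (move 430 (leaf 429 6)) (move 460 (branch (move 428 (leaf 428 7)) (move 492 (leaf 460 7)))))))) (branch (move 590 (branch (move 622 (leaf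 493 4)) (move 558 (branch (move 461 (leaf 461 4)) (move 588 (branch (move 620 (leaf 492 5)) (move 559 (branch (move 560 (leaf 556 1)) (move 587 (leaf 555 2)))))))))) (move 590 (branch (move 622 (leaf 493 4)) (move 587 (branch (move 494 (branch (move 462 (leaf 461 6)) (move 492 (branch (move 460 (leaf 460 7)) (move 491 (branch (move 490 (leaf 490 0)) (move 523 (branch (move 522 (leaf 490 1)) (move 619 (branch (move 524 (leaf 491 6)) (move 618 (branch (move 586 (leaf 490 5)) (move 650 (leaf 522 5)))))))))))))) (branch (move 588 (branch (move 620 (leaf 492 5)) (move 558 (branch (move 586 (leaf 554 2)) (move 559 (leaf 555 2)))))) (move 588 (branch (move 620 (leaf 492 5)) (move 558 (branch (move 559 (leaf 555 2)) (move 494 (branch (move 462 (leaf 461 5)) (move 591 (branch (move 623 (leaf 494 4)) (move 492 (branch (move 460 (leaf 460 7)) (move 491 (branch (move 490 (leaf 490 0)) (move 523 (branch (move 522 (leaf 490 1)) (move 619 (branch (move 618 (leaf 586 1)) (move 524 (leaf 491 6)))))))))))))))))))))))))))))) (branch (move 558 (branch (ref 4) (branch (ref 5) (move 590 (branch (move 493 (branch (move 461 (leaf 461 4)) (move 622 (leaf 493 7))))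 (branch (move 622 (branch (move 654 (leaf 525 7)) (move 623 (branch (move 655 (leaf 526 4)) (move 494 (branch (move 591 (leaf 494 4)) (move 462 (branch (move 430 (leaf 429 5)) (move 589 (leaf 461 5)))))))))) (move 494 (branch (move 462 (branch (move 430 (leaf 429 5)) (move 591 (branch (move 559 (leaf 462 4)) (move 623 (leaf 494 4)))))) (branch (move 461 (branch (move 493 (leaf 461 4)) (move 462 (branch (move 430 (leaf 429 5)) (move 429 (leaf 429 7)))))) (move 493 (branch (move 461 (leaf 461 4)) (move 492 (branch (move 491 (branch (move 490 (leaf 490 0)) (move 523 (branch (move 522 (leaf 490 1)) (move 460 (branch (move 587 (leaf 459 6)) (move 428 (branch (move 396 (leaf 396 4)) (move 459 (leaf 427 6)))))))))) (branch (move 460 (branch (move 589 (leaf 460 7)) (move 428 (branch (move 396 (leaf 396 4)) (move 524 (leaf 428 4)))))) (move 491 (branch (move 490 (leaf 490 0)) (move 523 (branch (move 522 (leaf 490 1)) (move 524 (branch (move 559 (leaf 523 0)) (move 587 (branch (move 619 (leaf 491 6)) (move 459 (branch (move 458 (leaf 458 3)) (move 427 (branch (move 395 (leaf 395 4)) (move 588 (branch (move 620 (leaf 491 4)) (move 586 (branch (move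 589 (leaf 554 2)) (move 618 (leaf 490 5)))))))))))))))))))))))))))))))) (branch (ref 6) (branch (move 589 (branch (move 493 (branch (move 590 (branch (move 622 (leaf 493 4)) (move 588 (branch (move 620 (leaf 492 5)) (move 591 (branch (move 556 (leaf 555 3)) (move 559 (branch (move 560 (leaf 556 2)) (move 558 (branch (move 587 (leaf 555 2)) (move 623 (branch (move 624 (leaf 588 0)) (move 655 (leaf 526 7)))))))))))))) (branch (move 588 (branch (move 620 (leaf 492 5)) (move 461 (branch (move 556 (leaf 460 5)) (move 460 (branch (move 428 (leaf 428 7)) (move 492 (leaf 460 7)))))))) (branch (move 590 (branch (move 622 (leaf 493 4)) (move 558 (branch (move 461 (leaf 461 4)) (move 588 (branch (move 620 (leaf 492 5)) (move 559 (branch (move 560 (leaf 556 1)) (move 587 (leaf 555 2)))))))))) (move 590 (branch (move 622 (leaf 493 4)) (move 558 (branch (move 461 (leaf 461 4)) (move 556 (branch (move 591 (leaf 555 0)) (move 523 (branch (move 522 (leaf 522 3)) (move 524 (branch (move 559 (leaf 523 0)) (move 492 (branch (move 460 (leaf 460 4)) (move 491 (branch (move 490 (leaf 490 0)) (move 587 (branch (move 586 (leaf 554 1)) (move 619 (leaf 491 6))))))))))))))))))))))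 (branch (move 621 (branch (move 494 (leaf 493 6)) (move 653 (branch (move 558 (leaf 525 6)) (move 652 (branch (move 620 (leaf 524 5)) (move 684 (leaf 556 5)))))))) (branch (move 621 (branch (move 494 (leaf 493 6)) (move 620 (branch (move 652 (leaf 524 5)) (move 622 (branch (move 654 (leaf 525 4)) (move 493 (branch (move 590 (leaf 493 4)) (move 588 (leaf 492 5)))))))))) (move 621 (branch (move 494 (leaf 493 6)) (move 653 (branch (move 558 (leaf 525 6)) (move 654 (branch (move 622 (leaf 525 4)) (move 686 (leaf 557 4)))))))))))) (branch (move 589 (branch (ref 7) (branch (move 494 (branch (move 621 (leaf 493 6)) (move 462 (branch (move 430 (leaf 429 5)) (move 558 (leaf 461 5)))))) (ref 8)))) (branch (ref 9) (branch (move 589 (branch (ref 7) (branch (move 494 (branch (move 621 (leaf 493 6)) (move 462 (branch (move 430 (leaf 429 5)) (move 558 (leaf 461 5)))))) (ref 10)))) (branch (ref 11) (move 558 (branch (ref 4) (branch (ref 5) (move 559 (branch (move 524 (branch (move 523 (leaf 523 0)) (move 560 (leaf 524 3)))) (branch (move 623 (branch (move 560 (branch (move 561 (leaf 525 3)) (move 591 (branch (move 655 (leaf 526 7)) (move 592 (branch (move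 593 (leaf 557 0)) (move 528 (branch (move 529 (leaf 525 2)) (move 496 (leaf 495 5)))))))))) (branch (move 591 (branch (move 655 (leaf 526 7)) (move 494 (branch (move 462 (leaf 462 4)) (move 590 (leaf 494 4)))))) (branch (move 560 (branch (move 561 (leaf 525 3)) (move 592 (branch (move 593 (leaf 557 0)) (move 528 (branch (move 529 (leaf 525 2)) (move 624 (branch (move 655 (leaf 527 5)) (move 657 (branch (move 625 (leaf 528 4)) (move 656 (branch (move 689 (leaf 560 4)) (move 622 (branch (move 621 (leaf 621 0)) (move 590 (branch (move 493 (leaf 493 7)) (move 654 (leaf 525 7)))))))))))))))))) (move 560 (branch (move 561 (leaf 525 3)) (move 592 (branch (move 593 (leaf 557 0)) (move 528 (branch (move 529 (leaf 525 2)) (move 591 (branch (move 496 (leaf 495 5)) (move 494 (branch (move 462 (leaf 462 4)) (move 590 (leaf 494 4)))))))))))))))) (move 590 (branch (move 622 (branch (move 654 (leaf 525 7)) (move 623 (branch (move 655 (leaf 526 4)) (move 591 (branch (move 494 (leaf 494 4)) (move 592 (branch (move 593 (leaf 557 3)) (move 621 (branch (move 620 (leaf 588 2)) (move 653 (leaf 525 5)))))))))))) (branch (move 493 (branch (move 461 (leaf 461 4))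 (move 622 (leaf 493 7)))) (move 523 (branch (move 524 (leaf 523 0)) (ref 12))))))))))))))))))))))))
theorem a6p591 : a6e591.Valid :=
  pos_of_chk [a6e581, a6e586, a6e588, a6e539, a6e563, a6e589, a6e538, a6e549, a6e545, a6e572, a6e547, a6e565, a6e590] (forall_cons a6p581 (forall_cons a6p586 (forall_cons a6p588 (forall_cons a6p539 (forall_cons a6p563 (forall_cons a6p589 (forall_cons a6p538 (forall_cons a6p549 (forall_cons a6p545 (forall_cons a6p572 (forall_cons a6p547 (forall_cons a6p565 (forall_cons a6p590 forall_nil))))))))))))) a6c591 a6e591 (by decide +kernel)

end Crest.Agent.SN
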