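import Crest.Agent.Lib_SN_A6x4

set_option autoImplicit false
set_option linter.all false
set_option maxRecDepth 1000000

namespace Crest.Agent.SN
open Cert

def a6e592 : Pos := ⟨329510287686269266319131238355906874428932894406878659650934246040906072803087490501882862751749818638910222946791081185781855423986398903003553357973522743296, 3631914514513242400886082545419202034738908300420723571548146028529694836242751005886707425590808074180343898578227987751284033930363944629230602458863762895015699159354805750684414403041817123972012635586560, 19⟩
def a6c592 : Cert := (move 555 (branch (move 523 (branch (ref 0) (branch (ref 1) (branch (move 524 (branch (move 554 (leaf 522 1)) (move 490 (branch (move 491 (leaf 490 3)) (move 522 (branch (move 489 (leaf 489 3)) (move 493 (branch (move 494 (leaf 490 2)) (move 521 (branch (move 492 (leaf 489 2)) (move 520 (branch (move 556 (leaf 520 0)) (move 552 (branch (move 551 (leaf 519 1)) (move 553 (leaf 520 1)))))))))))))))) (branch (move 491 (branch (ref 2) (branch (ref 3) (branch (move 554 (branch (move 524 (leaf 522 1)) (move 459 (branch (move 586 (leaf 458 5)) (move 427 (branch (move 522 (leaf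 426 5)) (move 428 (branch (move 396 (leaf 395 6)) (move 460 (leaf 427 6)))))))))) (branch (move 554 (branch (move 524 (leaf 522 1)) (move 586 (branch (move 459 (leaf 458 5)) (move 618 (branch (move 587 (leaf 490 5)) (move 522 (leaf 490 6)))))))) (ref 4)))))) (branch (move 491 (branch (ref 2) (branch (ref 5) (move 524 (branch (move 554 (leaf 522 1)) (move 490 (leaf 490 3))))))) (branch (ref 6) (branch (move 491 (branch (ref 7) (branch (move 554 (branch (move 524 (leaf 522 1)) (move 459 (branch (move 586 (leaf 458 5)) (move 427 (branch (move 522 (leaf 426 5)) (move 428 (branch (move 396 (leaf 395 6)) (move 460 (leaf 427 6)))))))))) (branch (ref 5) (move 524 (branch (move 554 (leaf 522 1)) (move 490 (leaf 490 3)))))))) (move 524 (branch (move 554 (leaf 522 1)) (ref 8))))))))))) (branch (move 557 (branch (ref 9) (branch (move 589 (branch (move 494 (branch (move 621 (leaf 493 6)) (move 462 (branch (move 430 (leaf 429 5)) (move 558 (leaf 461 5)))))) (branch (ref 10) (branch (move 621 (branch (move 494 (leaf 493 6)) (move 620 (branch (move 652 (leaf 524 5)) (move 622 (branch (move 654 (leaf 525 4)) (move 493 (branch (move 590 (leaf 493 4))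 (move 588 (leaf 492 5)))))))))) (ref 11))))) (branch (ref 12) (branch (ref 13) (branch (move 556 (branch (move 554 (leaf 522 2)) (move 558 (branch (move 587 (branch (move 586 (leaf 554 1)) (move 559 (branch (move 588 (leaf 555 1)) (move 560 (branch (move 524 (leaf 524 3)) (move 561 (leaf 525 3)))))))) (move 590 (branch (move 591 (leaf 555 0)) (move 493 (branch (move 461 (leaf 461 4)) (move 622 (leaf 493 7)))))))))) (branch (move 589 (branch (move 494 (branch (move 621 (leaf 493 6)) (move 462 (branch (move 430 (leaf 429 5)) (move 558 (leaf 461 5)))))) (branch (ref 14) (ref 15)))) (branch (move 589 (branch (move 494 (branch (move 621 (leaf 493 6)) (move 462 (branch (move 430 (leaf 429 5)) (move 558 (leaf 461 5)))))) (branch (ref 16) (ref 15)))) (ref 17))))))))) (branch (ref 18) (branch (move 523 (branch (ref 19) (branch (move 524 (branch (move 554 (leaf 522 1)) (move 558 (branch (move 559 (leaf 523 0)) (move 522 (branch (move 557 (leaf 522 0)) (move 493 (branch (move 494 (leaf 490 2)) (move 521 (branch (move 492 (leaf 489 2)) (move 489 (branch (move 488 (leaf 488 3)) (move 490 (leaf 489 3)))))))))))))) (branch (move 524 (branch (move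 554 (leaf 522 1)) (move 558 (branch (move 559 (leaf 523 0)) (move 522 (branch (move 557 (leaf 522 0)) (move 493 (branch (move 494 (leaf 490 2)) (move 492 (branch (move 521 (leaf 489 2)) (move 460 (branch (move 428 (leaf 427 5)) (move 587 (branch (move 491 (leaf 459 6)) (move 619 (leaf 491 6)))))))))))))))) (branch (move 491 (branch (move 587 (branch (move 618 (branch (move 586 (leaf 490 5)) (move 619 (branch (move 650 (leaf 522 5)) (move 620 (branch (move 588 (leaf 491 4)) (move 652 (leaf 523 4)))))))) (move 490 (branch (move 458 (leaf 458 7)) (move 492 (branch (move 493 (leaf 490 0)) (move 460 (leaf 459 6)))))))) (branch (ref 4) (move 524 (branch (move 554 (leaf 522 1)) (move 490 (leaf 490 3))))))) (branch (move 524 (branch (move 554 (leaf 522 1)) (move 490 (branch (move 491 (leaf 490 3)) (move 522 (branch (move 489 (leaf 489 3)) (move 558 (branch (move 557 (leaf 522 0)) (move 559 (leaf 523 0)))))))))) (ref 20))))))) (branch (ref 21) (branch (ref 22) (branch (move 523 (branch (ref 0) (branch (ref 1) (branch (move 491 (branch (ref 2) (branch (ref 3) (branch (move 554 (branch (move 524 (leaf 522 1)) (move 459 (branch (move 586 (leaf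 458 5)) (move 427 (branch (move 522 (leaf 426 5)) (move 428 (branch (move 396 (leaf 395 6)) (move 460 (leaf 427 6)))))))))) (branch (move 554 (branch (move 524 (leaf 522 1)) (move 586 (branch (move 459 (leaf 458 5)) (move 618 (branch (move 587 (leaf 490 5)) (move 522 (leaf 490 6)))))))) (ref 4)))))) (branch (move 491 (branch (move 587 (branch (move 618 (branch (move 586 (leaf 490 5)) (move 619 (branch (move 650 (leaf 522 5)) (move 620 (branch (move 588 (leaf 491 4)) (move 652 (leaf 523 4)))))))) (move 490 (branch (move 458 (leaf 458 7)) (move 492 (branch (move 493 (leaf 490 0)) (move 460 (leaf 459 6)))))))) (branch (ref 4) (move 524 (branch (move 554 (leaf 522 1)) (move 490 (leaf 490 3))))))) (move 524 (branch (move 554 (leaf 522 1)) (move 558 (branch (move 559 (leaf 523 0)) (move 522 (branch (move 557 (leaf 522 0)) (move 489 (branch (move 490 (leaf 489 3)) (move 521 (branch (move 488 (leaf 488 3)) (move 520 (branch (move 556 (leaf 520 0)) (move 552 (branch (move 551 (leaf 519 1)) (move 553 (leaf 520 1))))))))))))))))))))) (branch (move 557 (branch (move 589 (branch (ref 23) (branch (move 494 (branch (move 621 (leaf 493 6)) (move 462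 (branch (move 430 (leaf 429 5)) (move 558 (leaf 461 5)))))) (ref 14)))) (branch (move 589 (branch (ref 23) (branch (move 494 (branch (move 621 (leaf 493 6)) (move 462 (branch (move 430 (leaf 429 5)) (move 558 (leaf 461 5)))))) (ref 16)))) (branch (ref 12) (branch (ref 24) (branch (move 556 (branch (move 554 (leaf 522 2)) (move 558 (branch (move 590 (branch (move 591 (leaf 555 0)) (move 622 (branch (move 493 (leaf 493 7)) (move 654 (leaf 525 7)))))) (move 523 (branch (move 522 (leaf 522 3)) (move 524 (branch (move 559 (leaf 523 0)) (move 491 (branch (move 490 (leaf 490 3)) (move 588 (branch (move 459 (leaf 459 4)) (move 620 (leaf 491 7)))))))))))))) (branch (ref 25) (move 589 (branch (move 494 (branch (move 621 (leaf 493 6)) (move 462 (branch (move 430 (leaf 429 5)) (move 558 (leaf 461 5)))))) (branch (move 621 (branch (move 494 (leaf 493 6)) (move 620 (branch (move 652 (leaf 524 5)) (move 622 (branch (move 654 (leaf 525 4)) (move 493 (branch (move 590 (leaf 493 4)) (move 588 (leaf 492 5)))))))))) (branch (move 493 (branch (move 460 (branch (move 492 (leaf 460 7)) (move 461 (branch (move 428 (leaf 428 7)) (move 429 (branch (move 558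 (leaf 429 4)) (move 430 (branch (move 398 (leaf 397 6)) (move 462 (leaf 429 6)))))))))) (move 620 (branch (move 588 (leaf 492 5)) (move 621 (branch (move 652 (leaf 524 5)) (move 622 (branch (move 590 (leaf 493 4)) (move 654 (leaf 525 4)))))))))) (ref 26)))))))))))) (branch (move 523 (branch (ref 0) (branch (ref 1) (branch (move 491 (branch (ref 2) (branch (ref 5) (move 524 (branch (move 554 (leaf 522 1)) (move 490 (leaf 490 3))))))) (branch (move 491 (branch (ref 7) (branch (move 554 (branch (move 524 (leaf 522 1)) (move 459 (branch (move 586 (leaf 458 5)) (move 427 (branch (move 522 (leaf 426 5)) (move 428 (branch (move 396 (leaf 395 6)) (move 460 (leaf 427 6)))))))))) (branch (ref 5) (move 524 (branch (move 554 (leaf 522 1)) (move 490 (leaf 490 3)))))))) (branch (move 524 (branch (move 554 (leaf 522 1)) (move 558 (branch (move 559 (leaf 523 0)) (move 522 (branch (move 557 (leaf 522 0)) (move 493 (branch (move 494 (leaf 490 2)) (move 521 (branch (move 492 (leaf 489 2)) (move 489 (branch (move 488 (leaf 488 3)) (move 490 (leaf 489 3)))))))))))))) (move 524 (branch (move 554 (leaf 522 1)) (move 558 (branch (move 559 (leaf 523 0)) (move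 522 (branch (move 557 (leaf 522 0)) (move 493 (branch (move 494 (leaf 490 2)) (move 492 (branch (move 521 (leaf 489 2)) (move 460 (branch (move 428 (leaf 427 5)) (move 587 (branch (move 491 (leaf 459 6)) (move 619 (leaf 491 6)))))))))))))))))))))) (branch (move 557 (branch (ref 27) (branch (move 589 (branch (move 494 (branch (move 621 (leaf 493 6)) (move 462 (branch (move 430 (leaf 429 5)) (move 558 (leaf 461 5)))))) (branch (ref 10) (branch (move 621 (branch (move 494 (leaf 493 6)) (move 620 (branch (move 652 (leaf 524 5)) (move 622 (branch (move 654 (leaf 525 4)) (move 493 (branch (move 590 (leaf 493 4)) (move 588 (leaf 492 5)))))))))) (ref 11))))) (branch (ref 12) (branch (ref 13) (branch (move 556 (branch (move 554 (leaf 522 2)) (move 558 (branch (move 587 (branch (move 586 (leaf 554 1)) (move 559 (branch (move 588 (leaf 555 1)) (move 560 (branch (move 524 (leaf 524 3)) (move 561 (leaf 525 3)))))))) (move 590 (branch (move 591 (leaf 555 0)) (move 493 (branch (move 461 (leaf 461 4)) (move 622 (leaf 493 7)))))))))) (branch (ref 17) (ref 28)))))))) (branch (ref 29) (branch (ref 30) (branch (ref 31) (branch (move 557 (branch (ref 27)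 (branch (ref 13) (branch (ref 28) (branch (move 556 (branch (move 554 (leaf 522 2)) (move 558 (branch (move 590 (branch (move 591 (leaf 555 0)) (move 493 (branch (move 461 (leaf 461 4)) (move 622 (leaf 493 7)))))) (move 523 (branch (move 522 (leaf 522 3)) (move 524 (branch (move 559 (leaf 523 0)) (move 587 (branch (move 586 (leaf 554 1)) (move 619 (branch (move 492 (leaf 491 6)) (move 651 (leaf 523 6)))))))))))))) (branch (ref 32) (branch (ref 33) (move 589 (branch (move 621 (branch (move 494 (leaf 493 6)) (move 622 (branch (move 654 (leaf 525 4)) (move 620 (branch (move 652 (leaf 524 5)) (move 590 (branch (move 493 (leaf 493 4)) (move 591 (branch (move 592 (leaf 588 1)) (move 619 (leaf 587 2)))))))))))) (branch (move 621 (branch (move 494 (leaf 493 6)) (move 556 (branch (move 554 (leaf 522 2)) (move 524 (branch (move 492 (leaf 492 7)) (move 653 (leaf 524 7)))))))) (branch (move 590 (branch (move 622 (branch (move 493 (leaf 493 4)) (move 654 (branch (move 621 (leaf 525 4)) (move 686 (leaf 557 7)))))) (move 556 (branch (move 554 (leaf 554 0)) (move 591 (branch (move 588 (leaf 555 3)) (move 592 (leaf 556 3)))))))) (move 493 (branch (move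 462 (branch (move 494 (leaf 461 6)) (move 461 (branch (move 430 (leaf 429 6)) (move 588 (branch (move 556 (leaf 460 5)) (move 620 (leaf 492 5)))))))) (branch (move 556 (branch (move 554 (leaf 522 2)) (move 588 (branch (move 620 (leaf 492 5)) (move 590 (branch (move 591 (leaf 555 3)) (move 622 (leaf 493 4)))))))) (branch (ref 34) (ref 35)))))))))))))))) (branch (ref 36) (branch (ref 37) (branch (ref 38) (ref 39)))))))))))))))))))
theorem a6p592 : a6e592.Valid :=
  pos_of_chk [a6e529, a6e532, a6e530, a6e527, a6e533, a6e528, a6e535, a6e536, a6e537, a6e538, a6e539, a6e540, a6e542, a6e544, a6e545, a6e546, a6e547, a6e548, a6e551, a6e552, a6e553, a6e554, a6e559, a6e549, a6e550, a6e560, a6e561, a6e565, a6e567, a6e568, a6e570, a6e577, a6e579, a6e580, a6e575, a6e578, a6e582, a6e583, a6e585, a6e591] (forall_cons a6p529 (forall_cons a6p532 (forall_cons a6p530 (forall_cons a6p527 (forall_cons a6p533 (forall_cons a6p528 (forall_cons a6p535 (forall_cons a6p536 (forall_cons a6p537 (forall_cons a6p538 (forall_cons a6p539 (forall_cons a6p540 (forall_cons a6p542 (forall_cons a6p544 (forall_cons a6p545 (forall_cons a6p546 (forall_cons a6p547 (forall_cons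 a6p548 (forall_cons a6p551 (forall_cons a6p552 (forall_cons a6p553 (forall_cons a6p554 (forall_cons a6p559 (forall_cons a6p549 (forall_cons a6p550 (forall_cons a6p560 (forall_cons a6p561 (forall_cons a6p565 (forall_cons a6p567 (forall_cons a6p568 (forall_cons a6p570 (forall_cons a6p577 (forall_cons a6p579 (forall_cons a6p580 (forall_cons a6p575 (forall_cons a6p578 (forall_cons a6p582 (forall_cons a6p583 (forall_cons a6p585 (forall_cons a6p591 forall_nil)))))))))))))))))))))))))))))))))))))))) a6c592 a6e592 (by decide +kernel)

def a6e593 : Pos := ⟨117936325803132357904464360546858158127348872133707909181502797516431469828456377814594845691394955038323091838694586955619079756770278485456288849798750272835786113024, 1087770610048538011500621938554885672305185064718094670326827023190043908222149073350929595955041952576547195587657368524978129200755315381979876603264920937033278247000970087956056375296, 5⟩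
def a6c593 : Cert := (move 459 (branch (move 554 (branch (move 586 (leaf 458 5)) (move 427 (branch (move 522 (leaf 426 5)) (move 426 (branch (move 458 (leaf 426 7)) (move 394 (leaf 394 7)))))))) (branch (move 426 (branch (move 458 (leaf 426 7)) (move 427 (branch (move 394 (leaf 394 7)) (move 428 (branch (move 460 (leaf 427 6)) (move 396 (leaf 395 6)))))))) (move 460 (branch (move 428 (leaf 427 6)) (move 587 (branch (move 492 (leaf 459 6)) (move 586 (branch (move 618 (leaf 490 5)) (move 554 (leaf 458 5)))))))))))
theorem a6p593 : a6e593.Valid :=
  pos_of_chk [] forall_nil a6c593 a6e593 (by decide +kernel)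

def a6e594 : Pos := ⟨117936325803132357904464360546858158127348872133707909181502797516431469828456377814594845691394955038323091838694586955619079756770278485456288849798750272835786113024, 23359695969840033786236836065994514064341466984987433559570198866366469610279898706702902753855163106320638374233394060741340493269103046565370119639646924194367296648147516770308238426138365394944, 5⟩
def a6c594 : Cert := (move 587 (branch (move 618 (branch (move 586 (leaf 490 5)) (move 619 (branch (move 650 (leaf 522 5)) (move 620 (branch (move 652 (leaf 523 4)) (move 588 (leaf 491 4)))))))) (branch (move 588 (branch (move 620 (leaf 491 4)) (move 459 (branch (move 556 (leaf 459 4)) (move 460 (branch (move 492 (leaf 459 6)) (move 428 (leaf 427 6)))))))) (move 492 (branch (move 460 (leaf 459 6)) (move 619 (branch (move 524 (leaf 491 6)) (move 618 (branch (move 650 (leaf 522 5)) (move 586 (leaf 490 5)))))))))))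
theorem a6p594 : a6e594.Valid :=
  pos_of_chk [] forall_nil a6c594 a6e594 (by decide +kernel)

def a6e595 : Pos := ⟨117936326132642645590733626865989396483255746562640803588381457167365715869362450617682336193277817790072910477604809902410160942552133909442687752802303630809308856320, 23359695969840033788262966714729508040867471324015641187098637484299248420865262559532366582352469909288224611989643746542382982387437618199737764900808489106731164720979756743830920626203313307648, 6⟩
def a6c595 : Cert := (move 587 (branch (move 618 (branch (move 586 (leaf 490 5)) (move 619 (branch (move 650 (leaf 522 5)) (move 620 (branch (move 652 (leaf 523 4)) (move 588 (leaf 491 4)))))))) (branch (move 524 (branch (move 554 (leaf 522 1)) (move 492 (branch (move 619 (leaf 491 6)) (move 460 (leaf 459 6)))))) (move 554 (branch (move 524 (leaf 522 1)) (move 586 (branch (move 618 (leaf 490 5)) (move 588 (branch (move 620 (leaf 491 4)) (move 553 (branch (move 589 (leaf 553 3)) (move 552 (leaf 552 0)))))))))))))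
theorem a6p595 : a6e595.Valid :=
  pos_of_chk [] forall_nil a6c595 a6e595 (by decide +kernel)

def a6e596 : Pos := ⟨356969478333185046210105993642101958424627040201625010284689960794607798989990876031475981304402023757893439749292330172866984139675142932445031879445265252352, 23359695969840033788262966715555062321310913090138742471122017954347736871625044891350571367218652975795475877354622945687825748864999884852524706808759002405005121660369072895445333236522499964928, 7⟩
def a6c596 : Cert := (move 555 (branch (move 459 (branch (move 426 (branch (move 458 (leaf 426 7)) (move 427 (branch (move 394 (leaf 394 7)) (move 428 (branch (move 460 (leaf 427 6)) (move 396 (leaf 395 6)))))))) (move 554 (branch (move 586 (leaf 458 5)) (move 556 (branch (move 557 (leaf 522 2)) (move 588 (leaf 459 4)))))))) (branch (ref 0) (branch (ref 1) (branch (move 554 (branch (move 524 (leaf 522 1)) (move 556 (branch (move 557 (leaf 522 2)) (move 588 (branch (move 459 (leaf 459 4)) (move 620 (branch (move 652 (leaf 523 7)) (move 587 (leaf 491 4)))))))))) (ref 2))))))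
theorem a6p596 : a6e596.Valid :=
  pos_of_chk [a6e593, a6e594, a6e595] (forall_cons a6p593 (forall_cons a6p594 (forall_cons a6p595 forall_nil))) a6c596 a6e596 (by decide +kernel)

def a6e597 : Pos := ⟨117936325803132357904464360546858158127348872133707909181502797516431469828456377814594845691394955038323091838694586955619079756770278485456288849798750272835786113024, 23359695969840033786236836065994514064286548603709585352366611518872951797128823325236016684114368154738684686440912412821781678778147859806018077462703694918147829162237810533243369941059091038208, 7⟩
def a6c597 : Cert := (move 459 (branch (move 426 (branch (move 458 (leaf 426 7)) (move 427 (branch (move 394 (leaf 394 7)) (move 428 (branch (move 460 (leaf 427 6)) (move 396 (leaf 395 6)))))))) (branch (move 458 (branch (move 426 (leaf 426 7)) (move 587 (branch (move 490 (leaf 458 7)) (move 620 (branch (move 588 (leaf 491 4)) (move 619 (branch (move 652 (leaf 523 4)) (move 618 (branch (move 650 (leaf 522 5)) (move 586 (leaf 490 5)))))))))))) (move 460 (branch (move 428 (leaf 427 6)) (move 587 (branch (move 492 (leaf 459 6)) (move 588 (branch (move 620 (leaf 491 4)) (move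 556 (leaf 459 4)))))))))))
theorem a6p597 : a6e597.Valid :=
  pos_of_chk [] forall_nil a6c597 a6e597 (by decide +kernel)

def a6e598 : Pos := ⟨117936325803132357904464360546858158127348872133707909181502797516431469828456377814594845691394955038323091838694586955619079756770278485456288849798750272835786113024, 23359695969840033786236836066053482227174385187335162972178285361394395358610750105995134534021345276184531354580058542405260934386646853485407434225073992714912895629033556029986282075491466739712, 5⟩
def a6c598 : Cert := (move 587 (branch (move 618 (branch (move 586 (leaf 490 5)) (move 619 (branch (move 650 (leaf 522 5)) (move 620 (branch (move 652 (leaf 523 4)) (move 588 (leaf 491 4)))))))) (branch (move 586 (branch (move 618 (leaf 490 5)) (move 459 (branch (move 554 (leaf 458 5)) (move 460 (branch (move 492 (leaf 459 6)) (move 428 (leaf 427 6)))))))) (move 588 (branch (move 620 (leaf 491 4)) (move 459 (branch (move 556 (leaf 459 4)) (move 460 (branch (move 492 (leaf 459 6)) (move 428 (leaf 427 6)))))))))))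
theorem a6p598 : a6e598.Valid :=
  pos_of_chk [] forall_nil a6c598 a6e598 (by decide +kernel)

def a6e599 : Pos := ⟨356969478333185046210105993642101958424627040201625010284689960794607798989990876031475981304402023757893439749292330172866984139675142932445031879445265252352, 23359695970655861745419470727473614088689349653075231335967595461879006235497829625672886748858207776851561769620101211647378475363792254600434071110593925938633936445778791595565928822293162622976, 14⟩
def a6c599 : Cert := (move 555 (branch (move 459 (branch (move 426 (branch (move 458 (leaf 426 7)) (move 427 (branch (move 394 (leaf 394 7)) (move 428 (branch (move 460 (leaf 427 6)) (move 396 (leaf 395 6)))))))) (move 554 (branch (move 586 (leaf 458 5)) (move 556 (branch (move 557 (leaf 522 2)) (move 588 (leaf 459 4)))))))) (branch (ref 0) (branch (ref 1) (branch (move 459 (branch (move 426 (branch (move 458 (leaf 426 7)) (move 427 (branch (move 394 (leaf 394 7)) (move 522 (branch (move 554 (leaf 426 5)) (move 396 (branch (move 428 (leaf 395 6)) (move 395 (branch (move 364 (leaf 363 6)) (move 490 (leaf 394 5)))))))))))) (branch (move 460 (branch (move 428 (leaf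 427 6)) (move 587 (branch (move 492 (leaf 459 6)) (move 588 (branch (move 620 (leaf 491 4)) (move 556 (leaf 459 4)))))))) (move 458 (branch (move 426 (leaf 426 7)) (move 587 (branch (move 490 (leaf 458 7)) (move 588 (branch (move 620 (leaf 491 4)) (move 556 (leaf 459 4))))))))))) (branch (ref 2) (branch (move 459 (branch (move 554 (branch (move 586 (leaf 458 5)) (move 427 (branch (move 522 (leaf 426 5)) (move 426 (branch (move 458 (leaf 426 7)) (move 394 (leaf 394 7)))))))) (branch (move 554 (branch (move 586 (leaf 458 5)) (move 556 (branch (move 557 (leaf 522 2)) (move 588 (leaf 459 4)))))) (move 458 (branch (move 426 (leaf 426 7)) (move 587 (branch (move 490 (leaf 458 7)) (move 588 (branch (move 620 (leaf 491 4)) (move 556 (leaf 459 4))))))))))) (move 587 (branch (move 618 (branch (move 586 (leaf 490 5)) (move 619 (branch (move 650 (leaf 522 5)) (move 620 (branch (move 652 (leaf 523 4)) (move 588 (leaf 491 4)))))))) (branch (move 490 (branch (move 458 (leaf 458 7)) (move 619 (branch (move 522 (leaf 490 7)) (move 620 (branch (move 652 (leaf 523 4)) (move 588 (leaf 491 4)))))))) (branch (move 490 (branch (move 458 (leaf 458 7)) (move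 619 (branch (move 522 (leaf 490 7)) (move 618 (branch (move 650 (leaf 522 5)) (move 586 (leaf 490 5)))))))) (move 492 (branch (move 460 (leaf 459 6)) (move 554 (branch (move 588 (branch (move 620 (leaf 491 4)) (move 556 (branch (move 557 (leaf 522 2)) (move 553 (branch (move 552 (leaf 552 0)) (move 589 (leaf 553 0)))))))) (branch (move 586 (branch (move 618 (leaf 490 5)) (move 556 (branch (move 557 (leaf 522 2)) (move 585 (branch (move 584 (leaf 552 2)) (move 490 (branch (move 458 (leaf 458 7)) (move 522 (branch (move 617 (leaf 489 5)) (move 521 (branch (move 520 (leaf 520 0)) (move 489 (branch (move 457 (leaf 457 7)) (move 488 (branch (move 487 (leaf 487 0)) (move 456 (branch (move 455 (leaf 455 3)) (move 553 (leaf 456 7)))))))))))))))))))) (branch (move 586 (branch (move 618 (leaf 490 5)) (move 588 (branch (move 620 (leaf 491 4)) (move 553 (branch (move 589 (leaf 553 3)) (move 552 (leaf 552 0)))))))) (move 586 (branch (move 618 (leaf 490 5)) (move 556 (branch (move 557 (leaf 522 2)) (move 588 (branch (move 620 (leaf 491 4)) (move 585 (branch (move 584 (leaf 552 2)) (move 490 (branch (move 458 (leaf 458 7)) (move 617 (branch (move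 616 (leaf 584 1)) (move 522 (leaf 489 5)))))))))))))))))))))))))))))))
theorem a6p599 : a6e599.Valid :=
  pos_of_chk [a6e593, a6e597, a6e598] (forall_cons a6p593 (forall_cons a6p597 (forall_cons a6p598 forall_nil))) a6c599 a6e599 (by decide +kernel)

def a6e600 : Pos := ⟨117936326132642645590733626865989396483255746562640803588381457167365715869362450617682336193277817790072910477604809902410160942552133909442687752802303630809308856320, 1013065324669708823118083041898211102828850518878551805368191849413018704535318773160672618670146964650057719617731689336599073434719834108278219603573687895354477154048019529728, 6⟩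
def a6c600 : Cert := (move 459 (branch (move 426 (branch (move 458 (leaf 426 7)) (move 427 (branch (move 394 (leaf 394 7)) (move 428 (branch (move 460 (leaf 427 6)) (move 396 (leaf 395 6)))))))) (branch (move 524 (branch (move 490 (leaf 490 3)) (move 556 (branch (move 588 (leaf 459 4)) (move 427 (leaf 427 4)))))) (move 490 (branch (move 524 (leaf 490 3)) (move 458 (branch (move 426 (leaf 426 7)) (move 460 (branch (move 428 (leaf 427 6)) (move 489 (branch (move 488 (leaf 456 2)) (move 461 (leaf 457 1)))))))))))))
theorem a6p600 : a6e600.Valid :=
  pos_of_chk [] forall_nil a6c600 a6e600 (by decide +kernel)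

def a6e601 : Pos := ⟨117936325803132357904464360546858158127348872133707909181502797516431469828456377814594845691394955038323091838694586955619079756770278485456288849798750272835786113024, 1087770610048538011500621938554885672295595053171523942192022756500119301330889379856662804579602622396578053606003048539968548852144268046576888270859959791498462065714196475495132954624, 5⟩
def a6c601 : Cert := (move 459 (branch (move 554 (branch (move 586 (leaf 458 5)) (move 427 (branch (move 522 (leaf 426 5)) (move 428 (branch (move 460 (leaf 427 6)) (move 396 (leaf 395 6)))))))) (branch (move 426 (branch (move 458 (leaf 426 7)) (move 427 (branch (move 394 (leaf 394 7)) (move 428 (branch (move 460 (leaf 427 6)) (move 396 (leaf 395 6)))))))) (move 458 (branch (move 426 (leaf 426 7)) (move 587 (branch (move 490 (leaf 458 7)) (move 586 (branch (move 618 (leaf 490 5)) (move 554 (leaf 458 5)))))))))))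
theorem a6p601 : a6e601.Valid :=
  pos_of_chk [] forall_nil a6c601 a6e601 (by decide +kernel)

def a6e602 : Pos := ⟨356969478333185046210105993642101958424627040201625010284689960794607798989990876031475981304402023757893439749292330172866984139675142932445031879445265252352, 18687756777394905882348276342406065539430733008792096592148601799981514770585674923894209219281685407034441870317205808504566382241251060005844788113500374293144048702031807266066876866997394604032, 6⟩
def a6c602 : Cert := (move 555 (branch (move 459 (branch (move 426 (branch (move 458 (leaf 426 7)) (move 427 (branch (move 394 (leaf 394 7)) (move 428 (branch (move 460 (leaf 427 6)) (move 396 (leaf 395 6)))))))) (move 554 (branch (move 586 (leaf 458 5)) (move 556 (branch (move 557 (leaf 522 2)) (move 588 (leaf 459 4)))))))) (branch (ref 0) (branch (move 490 (branch (move 524 (leaf 490 3)) (move 587 (branch (move 458 (leaf 458 7)) (move 619 (branch (move 522 (leaf 490 7)) (move 620 (branch (move 652 (leaf 523 4)) (move 588 (leaf 491 4)))))))))) (move 554 (branch (move 524 (leaf 522 1)) (move 556 (branch (move 557 (leaf 522 2)) (move 588 (branch (move 459 (leaf 459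 4)) (move 620 (branch (move 652 (leaf 523 7)) (move 587 (leaf 491 4))))))))))))))
theorem a6p602 : a6e602.Valid :=
  pos_of_chk [a6e601] (forall_cons a6p601 forall_nil) a6c602 a6e602 (by decide +kernel)

def a6e603 : Pos := ⟨117936325803132357904464360546858158127348872133707909181502797516431469828456377814594845691394955038323091838694586955619079756770278485456288849798750272835786113024, 23359695969840033786236836065817609575636768448130737018747678780614930073279499406559450286789157436336312317417640618231847811712593311646619514255834354273118652253866183704334555173894672613376, 7⟩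
def a6c603 : Cert := (move 459 (branch (move 554 (branch (move 586 (leaf 458 5)) (move 427 (branch (move 522 (leaf 426 5)) (move 396 (branch (move 428 (leaf 395 6)) (move 395 (branch (move 364 (leaf 363 6)) (move 394 (branch (move 426 (leaf 394 7)) (move 362 (leaf 362 7)))))))))))) (branch (move 458 (branch (move 426 (leaf 426 7)) (move 587 (branch (move 490 (leaf 458 7)) (move 620 (branch (move 588 (leaf 491 4)) (move 619 (branch (move 652 (leaf 523 4)) (move 618 (branch (move 650 (leaf 522 5)) (move 586 (leaf 490 5)))))))))))) (branch (move 426 (branch (move 458 (leaf 426 7)) (move 427 (branch (move 394 (leaf 394 7)) (move 522 (branch (move 554 (leaf 426 5)) (move 396 (branch (move 428 (leaf 395 6)) (move 395 (branch (move 364 (leaf 363 6)) (move 490 (leaf 394 5)))))))))))) (move 586 (branch (move 554 (leaf 458 5)) (move 587 (branch (move 618 (leaf 490 5)) (move 490 (branch (move 458 (leaf 458 7)) (move 620 (branch (move 588 (leaf 491 4)) (move 619 (branch (move 522 (leaf 490 7)) (move 652 (leaf 523 4))))))))))))))))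
theorem a6p603 : a6e603.Valid :=
  pos_of_chk [] forall_nil a6c603 a6e603 (by decide +kernel)

def a6e604 : Pos := ⟨411887859614229923929961200034753104162782522602771453559845668468092144457172124448456458429693660197711810240424177037163960043672876082945624105774185709568, 1754302845937165154935516224956059198291270910726979312114623949118964036357101071408566904996117474728461114375526084982567166302678606378313943806650983192247620599808, 10⟩
def a6c604 : Cert := (move 522 (branch (move 557 (branch (move 558 (leaf 522 0)) (move 521 (branch (move 556 (leaf 521 0)) (move 520 (branch (move 492 (leaf 488 2)) (move 488 (branch (move 487 (leaf 487 3)) (move 489 (leaf 488 3)))))))))) (branch (move 553 (branch (move 554 (leaf 521 1)) (move 521 (branch (move 552 (leaf 520 1)) (move 520 (branch (move 492 (leaf 488 2)) (move 488 (branch (move 487 (leaf 487 3)) (move 489 (leaf 488 3)))))))))) (branch (move 557 (branch (move 558 (leaf 522 0)) (move 521 (branch (move 556 (leaf 521 0)) (move 553 (branch (move 552 (leaf 520 1)) (move 554 (leaf 521 1)))))))) (move 494 (branch (move 495 (leaf 491 2)) (move 554 (branch (move 553 (leaf 521 1)) (move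 462 (branch (move 430 (branch (move 557 (leaf 429 5)) (move 459 (branch (move 427 (leaf 426 5)) (move 431 (branch (move 399 (leaf 398 6)) (move 429 (branch (move 397 (leaf 397 7)) (move 460 (branch (move 461 (leaf 427 2)) (move 428 (leaf 427 1)))))))))))) (branch (move 558 (branch (move 557 (leaf 522 0)) (move 427 (branch (move 459 (leaf 426 5)) (move 461 (branch (move 429 (leaf 429 7)) (move 463 (branch (move 431 (leaf 430 6)) (move 460 (branch (move 428 (leaf 427 3)) (move 492 (leaf 459 1)))))))))))) (branch (move 557 (branch (move 558 (leaf 522 0)) (move 430 (leaf 429 5)))) (move 429 (branch (move 430 (branch (move 397 (leaf 397 7)) (move 431 (branch (move 399 (leaf 398 6)) (move 461 (branch (move 558 (leaf 429 7)) (move 460 (branch (move 459 (leaf 427 2)) (move 432 (leaf 428 1)))))))))) (branch (move 430 (branch (move 397 (leaf 397 7)) (move 427 (branch (move 459 (leaf 426 5)) (move 428 (branch (move 463 (leaf 427 0)) (move 399 (branch (move 398 (leaf 395 2)) (move 431 (leaf 398 6)))))))))) (branch (move 430 (branch (move 397 (leaf 397 7)) (move 431 (branch (move 399 (leaf 398 6)) (move 463 (branch (move 558 (leaf 430 6)) (move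 464 (branch (move 465 (leaf 429 3)) (move 428 (leaf 428 0)))))))))) (move 427 (branch (move 459 (leaf 426 5)) (move 461 (branch (move 558 (leaf 429 7)) (move 428 (branch (move 426 (leaf 426 0)) (move 463 (branch (move 460 (leaf 427 3)) (move 464 (leaf 428 3))))))))))))))))))))))))))
theorem a6p604 : a6e604.Valid :=
  pos_of_chk [] forall_nil a6c604 a6e604 (by decide +kernel)

def a6e605 : Pos := ⟨329510287718235971474366998805254430062014917377744304631823550625703840069651297107397262701781753134280380731467708960465059242435786173959465399509934145536, 21755412192866237638787457129288891254212834781487000453039465741868017487290182899742586598854015213518041681954840113291413846204323863848719452987089940215485784525225739907192957435904, 11⟩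
def a6c605 : Cert := (move 461 (branch (move 557 (branch (move 462 (branch (move 430 (leaf 429 6)) (move 460 (branch (move 428 (leaf 428 7)) (move 463 (branch (move 492 (leaf 459 1)) (move 495 (branch (move 496 (leaf 460 0)) (move 494 (branch (move 459 (leaf 459 0)) (move 431 (branch (move 432 (leaf 428 2)) (move 399 (leaf 398 5)))))))))))))) (branch (move 460 (branch (move 428 (leaf 428 7)) (move 589 (branch (move 492 (leaf 460 7)) (move 588 (branch (move 620 (leaf 492 5)) (move 556 (leaf 460 5)))))))) (branch (move 462 (branch (move 430 (leaf 429 6)) (move 494 (branch (move 589 (leaf 461 6)) (move 463 (branch (move 492 (leaf 459 2)) (move 464 (branch (move 465 (leaf 461 1)) (move 496 (branch (move 497 (leaf 461 0)) (move 431 (branch (move 558 (leaf 430 6)) (move 399 (branch (move 367 (leaf 367 4)) (move 495 (leaf 398 5)))))))))))))))) (move 462 (branch (move 430 (leaf 429 6)) (move 494 (branch (move 589 (leaf 461 6)) (move 460 (branch (move 428 (leaf 428 7)) (move 495 (branch (move 496 (leaf 460 3)) (move 459 (leaf 459 0)))))))))))))) (branch (move 557 (branch (move 462 (branch (move 430 (leaf 429 6)) (move 460 (branch (move 428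 (leaf 428 7)) (move 463 (branch (move 492 (leaf 459 1)) (move 495 (branch (move 496 (leaf 460 0)) (move 494 (branch (move 459 (leaf 459 0)) (move 431 (branch (move 432 (leaf 428 2)) (move 399 (leaf 398 5)))))))))))))) (branch (move 460 (branch (move 428 (leaf 428 7)) (move 589 (branch (move 492 (leaf 460 7)) (move 588 (branch (move 620 (leaf 492 5)) (move 556 (leaf 460 5)))))))) (branch (move 462 (branch (move 430 (leaf 429 6)) (move 494 (branch (move 589 (leaf 461 6)) (move 460 (branch (move 428 (leaf 428 7)) (move 495 (branch (move 496 (leaf 460 3)) (move 459 (leaf 459 0)))))))))) (branch (move 462 (branch (move 430 (leaf 429 6)) (move 494 (branch (move 589 (leaf 461 6)) (move 463 (branch (move 492 (leaf 459 2)) (move 464 (branch (move 465 (leaf 461 1)) (move 429 (branch (move 428 (leaf 428 3)) (move 397 (leaf 397 4)))))))))))) (move 462 (branch (move 430 (leaf 429 6)) (move 494 (branch (move 589 (leaf 461 6)) (move 463 (branch (move 492 (leaf 459 2)) (move 464 (branch (move 465 (leaf 461 1)) (move 496 (branch (move 497 (leaf 461 0)) (move 495 (branch (move 460 (leaf 460 0)) (move 431 (branch (move 399 (leaf 398 5)) (move 528 (branch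 (move 529 (leaf 493 0)) (move 560 (leaf 431 7))))))))))))))))))))))) (branch (move 558 (branch (move 429 (leaf 429 4)) (move 590 (branch (move 622 (leaf 493 7)) (move 494 (leaf 461 7)))))) (move 429 (branch (move 558 (leaf 429 4)) (move 428 (branch (move 396 (leaf 396 7)) (move 430 (branch (move 398 (leaf 397 6)) (move 557 (branch (move 462 (leaf 429 6)) (move 460 (leaf 428 7))))))))))))))
theorem a6p605 : a6e605.Valid :=
  pos_of_chk [] forall_nil a6c605 a6e605 (by decide +kernel)

def a6e606 : Pos := ⟨109836762587663119569853283974209947630156643813203935680447889041557414297439509830060271258833776263821024297452147077414281439753508647397429542428581298176, 3039195974009126469244412363473788130561864381013741190516577099100166800372670737056423792214056303475677875459014740062453161352458305115897830964444644902702545113315824107520, 6⟩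
def a6c606 : Cert := (move 557 (branch (move 556 (branch (move 588 (leaf 460 5)) (move 429 (branch (move 524 (leaf 428 5)) (move 428 (branch (move 460 (leaf 428 7)) (move 396 (leaf 396 7)))))))) (branch (move 556 (branch (move 588 (leaf 460 5)) (move 429 (branch (move 524 (leaf 428 5)) (move 430 (branch (move 462 (leaf 429 6)) (move 398 (leaf 397 6)))))))) (move 462 (branch (move 430 (leaf 429 6)) (move 494 (branch (move 589 (leaf 461 6)) (move 460 (branch (move 428 (leaf 428 7)) (move 495 (branch (move 496 (leaf 460 3)) (move 459 (leaf 459 0)))))))))))))
theorem a6p606 : a6e606.Valid :=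
  pos_of_chk [] forall_nil a6c606 a6e606 (by decide +kernel)

def a6e607 : Pos := ⟨109836762594056460600900436064079458756773048407377064676625749958516967750752271151163151248840163162895055854387472632350922203443386101588611950735863578624, 21755412192866237635013494701831267600062362232240163854171034157894433996079280446015363317102086546425488406496005062939498935206714675555563161155698454601417033447118627613388495126528, 7⟩
def a6c607 : Cert := (move 557 (branch (move 590 (branch (move 558 (leaf 461 4)) (move 589 (branch (move 622 (leaf 493 4)) (move 588 (branch (move 620 (leaf 492 5)) (move 556 (leaf 460 5)))))))) (branch (move 462 (branch (move 430 (leaf 429 6)) (move 494 (branch (move 589 (leaf 461 6)) (move 460 (branch (move 428 (leaf 428 7)) (move 495 (branch (move 496 (leaf 460 3)) (move 459 (leaf 459 0)))))))))) (move 558 (branch (move 590 (leaf 461 4)) (move 462 (branch (move 430 (leaf 429 6)) (move 460 (branch (move 428 (leaf 428 7)) (move 459 (branch (move 490 (leaf 458 1)) (move 494 (branch (move 458 (leaf 458 0)) (move 495 (leaf 459 0)))))))))))))))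
theorem a6p607 : a6e607.Valid :=
  pos_of_chk [] forall_nil a6c607 a6e607 (by decide +kernel)

def a6e608 : Pos := ⟨471745303212529431624250783218479784599264999661448041320184319061903740230785064711692144086682700143298754253852379379411644582017754705515032853386183499650426732544, 3039195973537381166141719694098353392290067305235963092452291485480330079489132119868654219586074698119432046035054840626078722830853369933679021886864112610699306477839060041728, 5⟩
def a6c608 : Cert := (move 461 (branch (move 556 (branch (move 588 (leaf 460 5)) (move 429 (branch (move 524 (leaf 428 5)) (move 428 (branch (move 460 (leaf 428 7)) (move 396 (leaf 396 7)))))))) (branch (move 556 (branch (move 588 (leaf 460 5)) (move 429 (branch (move 524 (leaf 428 5)) (move 430 (branch (move 462 (leaf 429 6)) (move 398 (leaf 397 6)))))))) (move 460 (branch (move 428 (leaf 428 7)) (move 492 (branch (move 589 (leaf 460 7)) (move 462 (branch (move 463 (leaf 459 1)) (move 430 (leaf 429 6)))))))))))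
theorem a6p608 : a6e608.Valid :=
  pos_of_chk [] forall_nil a6c608 a6e608 (by decide +kernel)

def a6e609 : Pos := ⟨329510287718235971474366998805254430062014917377744304631823550625703840069651297107397262701781753134280380731467708960465059242435786173959465399509934145536, 74751027109579623529393105367737280945092487833926626237760192556259647091334685996618108650983095766813237488282995129268816864881006523349813392167845084694189281565694648182170443571169285111808, 6⟩
def a6c609 : Cert := (move 557 (branch (ref 0) (branch (move 461 (branch (move 558 (branch (move 590 (leaf 461 4)) (move 429 (leaf 429 4)))) (branch (move 556 (branch (move 588 (leaf 460 5)) (move 429 (branch (move 524 (leaf 428 5)) (move 430 (branch (move 462 (leaf 429 6)) (move 398 (leaf 397 6)))))))) (move 590 (branch (move 558 (leaf 461 4)) (move 589 (branch (move 622 (leaf 493 4)) (move 588 (branch (move 620 (leaf 492 5)) (move 556 (leaf 460 5))))))))))) (branch (move 492 (branch (move 490 (leaf 490 0)) (move 589 (branch (move 460 (leaf 460 7)) (move 621 (branch (move 524 (leaf 492 7)) (move 622 (branch (move 654 (leaf 525 4)) (move 590 (leaf 493 4))))))))))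 (move 461 (branch (move 558 (branch (move 590 (leaf 461 4)) (move 429 (leaf 429 4)))) (move 492 (branch (move 490 (leaf 490 0)) (move 460 (branch (move 428 (leaf 428 7)) (move 462 (branch (move 463 (leaf 459 1)) (move 430 (leaf 429 6))))))))))))))
theorem a6p609 : a6e609.Valid :=
  pos_of_chk [a6e608] (forall_cons a6p608 forall_nil) a6c609 a6e609 (by decide +kernel)

def a6e610 : Pos := ⟨329510287782169381784838519703949541328178963319475594593602159795299374602778910318426062601845622125020696300820964509831466879334560715871289482582756950016, 1179363257811650054163411053812865223529158370347860525360310454621969747103770569075133884475217413327066352072961656026156927779608452226068782510183392454586163789824, 12⟩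
def a6c610 : Cert := (move 462 (branch (move 463 (leaf 459 2)) (move 430 (branch (move 398 (leaf 397 5)) (move 429 (branch (move 397 (leaf 397 7)) (move 461 (branch (move 558 (leaf 429 4)) (move 524 (branch (move 556 (leaf 428 5)) (move 496 (branch (move 495 (leaf 492 1)) (move 431 (branch (move 399 (leaf 398 6)) (move 432 (branch (move 433 (leaf 429 1)) (move 428 (branch (move 396 (leaf 396 7)) (move 427 (branch (move 426 (leaf 426 0)) (move 459 (branch (move 458 (leaf 426 1)) (move 395 (leaf 395 4))))))))))))))))))))))))
theorem a6p610 : a6e610.Valid :=
  pos_of_chk [] forall_nil a6c610 a6e610 (by decide +kernel)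

def a6e611 : Pos := ⟨329510287718235971474366998805254430062014917377744304631823550625703840069651297107397262701781753134280380731467708960465059242435786173959465399509934145536, 1179363257811650054639714960628855185639151755104472697943317831409932900430632556121847586753225871106654653947921085561562257186925072409463919112242239601749499314176, 14⟩
def a6c611 : Cert := (move 492 (branch (move 490 (leaf 490 0)) (move 494 (branch (move 459 (branch (move 458 (leaf 458 3)) (move 495 (branch (move 460 (leaf 459 3)) (move 496 (branch (move 524 (leaf 492 1)) (move 497 (leaf 493 1)))))))) (branch (move 462 (branch (move 463 (leaf 459 2)) (move 430 (branch (move 398 (leaf 397 5)) (move 429 (branch (move 397 (leaf 397 7)) (move 461 (branch (move 558 (leaf 429 4)) (move 428 (branch (move 396 (leaf 396 7)) (move 431 (branch (move 399 (leaf 398 6)) (move 432 (branch (move 460 (leaf 428 1)) (move 433 (leaf 429 1)))))))))))))))) (ref 0))))))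
theorem a6p611 : a6e611.Valid :=
  pos_of_chk [a6e610] (forall_cons a6p610 forall_nil) a6c611 a6e611 (by decide +kernel)

def a6e612 : Pos := ⟨329510287711842630449274109544814530582778573417789708781070719735494796166164503497982179760000322023094506261979534534602185055744441249399798447744263127040, 4351082440194152046474233057322235358263721263540143808363373432623646094956223909789506551095939298316587973298834885500167935007643181566850193741388305233129143553746898897760767967232, 6⟩
def a6c612 : Cert := (move 557 (branch (move 460 (branch (move 428 (leaf 428 7)) (move 589 (branch (move 492 (leaf 460 7)) (move 588 (branch (move 620 (leaf 492 5)) (move 556 (leaf 460 5)))))))) (branch (move 556 (branch (move 588 (leaf 460 5)) (move 429 (branch (move 524 (leaf 428 5)) (move 397 (branch (move 494 (leaf 397 4)) (move 398 (branch (move 430 (leaf 397 6)) (move 366 (leaf 365 6)))))))))) (move 428 (branch (move 460 (leaf 428 7)) (move 429 (branch (move 396 (leaf 396 7)) (move 397 (branch (move 494 (leaf 397 4)) (move 398 (branch (move 430 (leaf 397 6)) (move 366 (leaf 365 6)))))))))))))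
theorem a6p612 : a6e612.Valid :=
  pos_of_chk [] forall_nil a6c612 a6e612 (by decide +kernel)

def a6e613 : Pos := ⟨329510287718235971480321261634684041709394978011962837777248580652454349619477264819085059750006708922168537818914860089538825819434318703590980856051545407488, 21755412193626036628515776319183559476456845733041080082188717159861677524926745438943666533802130069659243878133747824383524697922549791881527555587310520510816811144834840641095740686336, 8⟩
def a6c613 : Cert := (move 557 (branch (move 590 (branch (move 558 (leaf 461 4)) (move 589 (branch (move 622 (leaf 493 4)) (move 588 (branch (move 620 (leaf 492 5)) (move 556 (leaf 460 5)))))))) (branch (move 460 (branch (move 428 (leaf 428 7)) (move 589 (branch (move 492 (leaf 460 7)) (move 588 (branch (move 620 (leaf 492 5)) (move 556 (leaf 460 5)))))))) (branch (move 590 (branch (move 558 (leaf 461 4)) (move 589 (branch (move 622 (leaf 493 4)) (move 460 (branch (move 492 (leaf 460 7)) (move 428 (leaf 428 7)))))))) (move 558 (branch (move 590 (leaf 461 4)) (move 492 (branch (move 490 (leaf 490 0)) (move 460 (branch (move 428 (leaf 428 7)) (move 556 (branch (move 588 (leaf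 460 5)) (move 555 (branch (move 554 (leaf 522 2)) (move 587 (branch (move 586 (leaf 554 1)) (move 524 (leaf 459 5))))))))))))))))))
theorem a6p613 : a6e613.Valid :=
  pos_of_chk [] forall_nil a6c613 a6e613 (by decide +kernel)

def a6e614 : Pos := ⟨329510287711842630449274109544814530582778573417789708781070719735494796166164503497982179760000322023094506261979534534602185055744441249399798447744263127040, 13053247314504064191404446233477881348431774904391743363719152746499051763655651249743264840771581048702718551824181334010886316950786713657052340593680553439670256933634164048892130230272, 6⟩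
def a6c614 : Cert := (move 557 (branch (move 460 (branch (move 428 (leaf 428 7)) (move 589 (branch (move 492 (leaf 460 7)) (move 588 (branch (move 620 (leaf 492 5)) (move 556 (leaf 460 5)))))))) (branch (move 556 (branch (move 588 (leaf 460 5)) (move 429 (branch (move 524 (leaf 428 5)) (move 397 (branch (move 494 (leaf 397 4)) (move 396 (branch (move 428 (leaf 396 7)) (move 364 (leaf 364 7)))))))))) (branch (move 460 (branch (move 428 (leaf 428 7)) (move 589 (branch (move 492 (leaf 460 7)) (move 494 (branch (move 621 (leaf 493 6)) (move 462 (leaf 461 6)))))))) (move 556 (branch (move 588 (leaf 460 5)) (move 429 (branch (move 524 (leaf 428 5)) (move 494 (branch (move 397 (leaf 397 4)) (move 589 (branch (move 621 (leaf 493 6)) (move 462 (leaf 461 6))))))))))))))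
theorem a6p614 : a6e614.Valid :=
  pos_of_chk [] forall_nil a6c614 a6e614 (by decide +kernel)

def a6e615 : Pos := ⟨329510287718235971474366998805254430062014917377744304631823550625703840069651297107397262701781753134280380731467708960465059242435786173959465399509934145536, 21755412192866237635013494701831267599768268544884190294845603605854195082311505201104114631378780657005773680218979848377706578615475863640293201323376585567382466791177583912449183055872, 7⟩
def a6c615 : Cert := (move 461 (branch (move 558 (branch (move 429 (leaf 429 4)) (move 590 (branch (move 622 (leaf 493 7)) (move 494 (leaf 461 7)))))) (branch (move 429 (branch (move 558 (leaf 429 4)) (move 430 (branch (move 398 (leaf 397 6)) (move 428 (branch (move 396 (leaf 396 7)) (move 462 (branch (move 557 (leaf 429 6)) (move 463 (branch (move 464 (leaf 428 3)) (move 427 (leaf 427 0)))))))))))) (branch (move 557 (branch (move 590 (branch (move 558 (leaf 461 4)) (move 589 (branch (move 622 (leaf 493 4)) (move 588 (branch (move 620 (leaf 492 5)) (move 556 (leaf 460 5)))))))) (move 462 (branch (move 430 (leaf 429 6)) (move 492 (branch (move 490 (leaf 490 0)) (move 463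 (branch (move 494 (leaf 459 2)) (move 464 (leaf 460 1)))))))))) (move 462 (branch (move 430 (branch (move 557 (leaf 429 6)) (move 398 (branch (move 429 (leaf 397 6)) (move 366 (leaf 365 5)))))) (move 492 (branch (move 490 (leaf 490 0)) (move 463 (branch (move 494 (leaf 459 2)) (move 464 (leaf 460 1))))))))))))
theorem a6p615 : a6e615.Valid :=
  pos_of_chk [] forall_nil a6c615 a6e615 (by decide +kernel)

def a6e616 : Pos := ⟨329510287718235971480321261634684041709394978011962837777248580652454349619477264819085059750006708922168537818914860089538825819434318703590980856051545407488, 21755412193626036628515776319169829881133387843095592704545619617863830452029372263626788676425279206565792185368951265107198595363058183480276931093767956152972439130114101380359869431808, 8⟩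
def a6c616 : Cert := (move 557 (branch (move 556 (branch (move 588 (leaf 460 5)) (move 558 (branch (move 590 (leaf 461 4)) (move 555 (branch (move 554 (leaf 522 2)) (move 523 (branch (move 522 (leaf 522 3)) (move 460 (branch (move 428 (leaf 428 7)) (move 587 (branch (move 586 (leaf 554 1)) (move 492 (leaf 459 6)))))))))))))) (branch (move 590 (branch (move 558 (leaf 461 4)) (move 589 (branch (move 622 (leaf 493 4)) (move 588 (branch (move 620 (leaf 492 5)) (move 556 (leaf 460 5)))))))) (branch (move 460 (branch (move 428 (leaf 428 7)) (move 589 (branch (move 492 (leaf 460 7)) (move 588 (branch (move 620 (leaf 492 5)) (move 556 (leaf 460 5)))))))) (move 590 (branch (move 558 (leaf 461 4)) (move 589 (branch (move 622 (leaf 493 4)) (move 460 (branch (move 492 (leaf 460 7)) (move 428 (leaf 428 7))))))))))))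
theorem a6p616 : a6e616.Valid :=
  pos_of_chk [] forall_nil a6c616 a6e616 (by decide +kernel)

def a6e617 : Pos := ⟨329510287718235971474366998805254430062014917377744304631823550625703840069651297107397262701781753134280380731467708960465059242435786173959465399509934145536, 21755412192866237635013494701831267599768268544884190294844563854719061167356543727571914469938242181344653355615342745004528011834832544508029263495751886060175953701531801521261614465024, 6⟩
def a6c617 : Cert := (move 461 (branch (move 429 (branch (move 558 (leaf 429 4)) (move 397 (branch (move 494 (leaf 397 4)) (move 398 (branch (move 430 (leaf 397 6)) (move 366 (leaf 365 6)))))))) (branch (move 557 (branch (move 590 (branch (move 558 (leaf 461 4)) (move 589 (branch (move 622 (leaf 493 4)) (move 588 (branch (move 620 (leaf 492 5)) (move 556 (leaf 460 5)))))))) (move 462 (branch (move 430 (leaf 429 6)) (move 492 (branch (move 490 (leaf 490 0)) (move 463 (branch (move 494 (leaf 459 2)) (move 464 (leaf 460 1)))))))))) (branch (move 462 (branch (move 430 (branch (move 557 (leaf 429 6)) (move 398 (branch (move 429 (leaf 397 6)) (move 366 (leaf 365 5)))))) (move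 492 (branch (move 490 (leaf 490 0)) (move 463 (branch (move 494 (leaf 459 2)) (move 464 (leaf 460 1)))))))) (move 492 (branch (move 490 (leaf 490 0)) (move 558 (branch (move 429 (leaf 429 4)) (move 590 (branch (move 622 (leaf 493 7)) (move 557 (leaf 461 4))))))))))))
theorem a6p617 : a6e617.Valid :=
  pos_of_chk [] forall_nil a6c617 a6e617 (by decide +kernel)

def a6e618 : Pos := ⟨329510287692662607350178390445776385555549299001051788647112106957865626256400251822985742741756205537984254503726406740718496187676276357194735766280805023744, 74751027109579623530152904361239562562376131734448644519014673439989945383898032178942842242505370563397591802655316422673867990003792096698167407150541373806727973498477738043403952023456637255680, 12⟩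
def a6c618 : Cert := (move 493 (branch (move 461 (branch (move 558 (branch (move 429 (leaf 429 4)) (move 590 (branch (move 622 (leaf 493 7)) (move 494 (leaf 461 7)))))) (branch (move 429 (branch (move 558 (leaf 429 4)) (move 428 (branch (move 396 (leaf 396 7)) (move 430 (branch (move 398 (leaf 397 6)) (move 557 (branch (move 462 (leaf 429 6)) (move 460 (leaf 428 7)))))))))) (branch (ref 0) (move 557 (branch (move 588 (branch (move 556 (leaf 460 5)) (move 589 (branch (move 620 (leaf 492 5)) (move 621 (branch (move 494 (leaf 493 6)) (move 622 (branch (move 654 (leaf 525 4)) (move 590 (leaf 493 4)))))))))) (move 428 (branch (move 460 (leaf 428 7)) (move 429 (branch (move 396 (leaf 396 7)) (move 430 (branch (move 462 (leaf 429 6)) (move 398 (leaf 397 6)))))))))))))) (branch (move 461 (branch (ref 1) (branch (move 429 (branch (move 558 (leaf 429 4)) (move 430 (branch (move 398 (leaf 397 6)) (move 428 (branch (move 396 (leaf 396 7)) (move 462 (branch (move 557 (leaf 429 6)) (move 463 (branch (move 464 (leaf 428 3)) (move 427 (leaf 427 0)))))))))))) (branch (move 429 (branch (move 558 (leaf 429 4)) (move 492 (branch (move 490 (leaf 490 0))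 (move 396 (branch (move 428 (leaf 396 7)) (move 397 (branch (move 364 (leaf 364 7)) (move 398 (branch (move 430 (leaf 397 6)) (move 366 (leaf 365 6)))))))))))) (move 462 (branch (move 430 (branch (move 557 (leaf 429 6)) (move 398 (branch (move 429 (leaf 397 6)) (move 366 (leaf 365 5)))))) (move 492 (branch (move 490 (leaf 490 0)) (move 463 (branch (move 460 (leaf 459 1)) (move 464 (leaf 460 1)))))))))))) (branch (move 461 (branch (ref 1) (branch (move 429 (branch (move 558 (leaf 429 4)) (move 397 (branch (move 494 (leaf 397 4)) (move 396 (branch (move 428 (leaf 396 7)) (move 364 (leaf 364 7)))))))) (branch (move 558 (branch (move 429 (leaf 429 4)) (move 590 (branch (move 622 (leaf 493 7)) (move 494 (leaf 461 7)))))) (move 557 (branch (move 460 (branch (move 428 (leaf 428 7)) (move 589 (branch (move 492 (leaf 460 7)) (move 588 (branch (move 620 (leaf 492 5)) (move 556 (leaf 460 5)))))))) (branch (move 428 (branch (move 460 (leaf 428 7)) (move 429 (branch (move 396 (leaf 396 7)) (move 397 (branch (move 494 (leaf 397 4)) (move 398 (branch (move 430 (leaf 397 6)) (move 366 (leaf 365 6)))))))))) (move 588 (branch (move 556 (leaf 460 5))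 (move 589 (branch (move 620 (leaf 492 5)) (move 621 (branch (move 494 (leaf 493 6)) (move 622 (branch (move 654 (leaf 525 4)) (move 590 (leaf 493 4))))))))))))))))) (branch (move 492 (branch (move 490 (leaf 490 0)) (move 494 (branch (move 459 (branch (move 458 (leaf 458 3)) (move 460 (branch (move 495 (leaf 459 3)) (move 523 (branch (move 522 (leaf 490 1)) (move 428 (branch (move 555 (leaf 427 6)) (move 396 (leaf 396 4)))))))))) (move 462 (branch (move 463 (leaf 459 2)) (move 430 (branch (move 557 (leaf 429 5)) (move 398 (leaf 397 5)))))))))) (branch (move 461 (branch (ref 1) (branch (move 429 (branch (move 558 (leaf 429 4)) (move 397 (branch (move 494 (leaf 397 4)) (move 396 (branch (move 428 (leaf 396 7)) (move 364 (leaf 364 7)))))))) (branch (move 558 (branch (move 429 (leaf 429 4)) (move 590 (branch (move 622 (leaf 493 7)) (move 494 (leaf 461 7)))))) (move 557 (branch (move 460 (branch (move 428 (leaf 428 7)) (move 589 (branch (move 492 (leaf 460 7)) (move 588 (branch (move 620 (leaf 492 5)) (move 556 (leaf 460 5)))))))) (branch (move 460 (branch (move 428 (leaf 428 7)) (move 589 (branch (move 492 (leaf 460 7)) (move 494 (branch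 (move 621 (leaf 493 6)) (move 462 (leaf 461 6)))))))) (branch (move 588 (branch (move 556 (leaf 460 5)) (move 589 (branch (move 620 (leaf 492 5)) (move 621 (branch (move 494 (leaf 493 6)) (move 622 (branch (move 654 (leaf 525 4)) (move 590 (leaf 493 4)))))))))) (move 492 (branch (move 490 (leaf 490 0)) (move 460 (branch (move 428 (leaf 428 7)) (move 462 (branch (move 463 (leaf 459 1)) (move 556 (branch (move 588 (leaf 460 5)) (move 555 (branch (move 554 (leaf 522 2)) (move 523 (branch (move 587 (leaf 459 6)) (move 494 (branch (move 522 (leaf 490 1)) (move 459 (branch (move 458 (leaf 458 0)) (move 495 (leaf 459 0)))))))))))))))))))))))))) (branch (ref 2) (move 492 (branch (move 490 (leaf 490 0)) (move 494 (branch (move 462 (branch (move 463 (leaf 459 2)) (move 430 (branch (move 398 (leaf 397 5)) (move 429 (branch (move 397 (leaf 397 7)) (move 461 (branch (move 558 (leaf 429 4)) (move 428 (branch (move 396 (leaf 396 7)) (move 431 (branch (move 399 (leaf 398 6)) (move 432 (branch (move 460 (leaf 428 1)) (move 433 (leaf 429 1)))))))))))))))) (branch (move 459 (branch (move 458 (leaf 458 3)) (move 460 (branch (move 495 (leaf 459 3)) (move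 523 (branch (move 522 (leaf 490 1)) (move 428 (branch (move 555 (leaf 427 6)) (move 396 (leaf 396 4)))))))))) (move 523 (branch (move 522 (leaf 490 1)) (move 558 (branch (move 462 (branch (move 463 (leaf 459 2)) (move 429 (branch (move 461 (leaf 429 4)) (move 430 (branch (move 397 (leaf 397 7)) (move 398 (leaf 397 5)))))))) (branch (move 590 (branch (move 622 (leaf 493 7)) (move 463 (branch (move 462 (leaf 459 2)) (move 495 (leaf 462 6)))))) (move 590 (branch (move 622 (leaf 493 7)) (move 461 (leaf 461 7)))))))))))))))))))))
theorem a6p618 : a6e618.Valid :=
  pos_of_chk [a6e607, a6e616, a6e617] (forall_cons a6p607 (forall_cons a6p616 (forall_cons a6p617 forall_nil))) a6c618 a6e618 (by decide +kernel)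

def a6e619 : Pos := ⟨356969478333185046210105993642101958424627040201625010284689960794607798989990876031475981304402023757893439749292330172866984139675142932445031879445265252352, 4671939208761687051070901262215717522963418554889340319626112057930031543073889535119717073908831219085809673818382143874063460968177392880085918367291093948163508009700530939323169968856556896256, 12⟩
def a6c619 : Cert := (move 524 (branch (move 494 (branch (move 495 (leaf 491 2)) (move 522 (branch (move 493 (leaf 490 2)) (move 557 (branch (move 558 (leaf 522 0)) (move 521 (branch (move 556 (leaf 521 0)) (move 553 (branch (move 552 (leaf 520 1)) (move 554 (leaf 521 1)))))))))))) (branch (move 494 (branch (move 495 (leaf 491 2)) (move 522 (branch (move 493 (leaf 490 2)) (move 557 (branch (move 558 (leaf 522 0)) (move 556 (branch (move 521 (leaf 521 0)) (move 588 (branch (move 620 (leaf 491 7)) (move 459 (branch (move 555 (leaf 459 4)) (move 427 (leaf 427 4)))))))))))))) (branch (move 522 (branch (move 557 (branch (move 558 (leaf 522 0)) (move 521 (branch (move 556 (leaf 521 0)) (move 553 (branch (move 552 (leaf 520 1)) (move 554 (leaf 521 1)))))))) (branch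 (move 557 (branch (move 558 (leaf 522 0)) (move 556 (branch (move 521 (leaf 521 0)) (move 588 (branch (move 620 (leaf 491 7)) (move 459 (branch (move 555 (leaf 459 4)) (move 427 (leaf 427 4)))))))))) (move 554 (branch (move 553 (leaf 521 1)) (move 555 (leaf 522 1))))))) (branch (move 494 (branch (move 495 (leaf 491 2)) (move 522 (branch (move 493 (leaf 490 2)) (move 554 (branch (move 553 (leaf 521 1)) (move 555 (leaf 522 1)))))))) (move 555 (branch (move 554 (leaf 522 1)) (move 459 (branch (move 494 (branch (move 495 (leaf 491 2)) (move 428 (branch (move 460 (leaf 427 6)) (move 427 (branch (move 396 (leaf 395 6)) (move 426 (branch (move 458 (leaf 426 7)) (move 394 (leaf 394 7)))))))))) (branch (move 588 (branch (move 556 (leaf 459 4)) (move 587 (branch (move 620 (leaf 491 4)) (move 618 (branch (move 586 (leaf 490 5)) (move 619 (branch (move 650 (leaf 522 5)) (move 494 (branch (move 495 (leaf 491 2)) (move 589 (branch (move 590 (leaf 586 1)) (move 557 (branch (move 621 (leaf 493 6)) (move 462 (branch (move 493 (leaf 461 6)) (move 558 (leaf 461 5)))))))))))))))))) (move 556 (branch (move 588 (leaf 459 4)) (move 427 (leaf 427 4))))))))))))))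
theorem a6p619 : a6e619.Valid :=
  pos_of_chk [] forall_nil a6c619 a6e619 (by decide +kernel)

def a6e620 : Pos := ⟨356969478333185046210105993642101958424627040201625010284689960794607798989990876031475981304402023757893439749292330172866984139675142932445031879445265252352, 80263304269264499938210246795724746381879258086262108985643671940550416866550188864634717414391620786643591715994941813057099609466551579202149032560285768254339273588007042453928803125673927235021955923968, 9⟩
def a6c620 : Cert := (move 555 (branch (move 459 (branch (move 426 (branch (move 458 (leaf 426 7)) (move 427 (branch (move 394 (leaf 394 7)) (move 428 (branch (move 460 (leaf 427 6)) (move 396 (leaf 395 6)))))))) (move 554 (branch (move 586 (leaf 458 5)) (move 556 (branch (move 557 (leaf 522 2)) (move 588 (leaf 459 4)))))))) (branch (ref 0) (branch (move 587 (branch (move 618 (branch (move 586 (leaf 490 5)) (move 619 (branch (move 650 (leaf 522 5)) (move 620 (branch (move 652 (leaf 523 4)) (move 588 (leaf 491 4)))))))) (branch (move 588 (branch (move 620 (leaf 491 4)) (move 459 (branch (move 556 (leaf 459 4)) (move 458 (branch (move 490 (leaf 458 7)) (move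 426 (leaf 426 7)))))))) (move 490 (branch (move 458 (leaf 458 7)) (move 619 (branch (move 522 (leaf 490 7)) (move 618 (branch (move 650 (leaf 522 5)) (move 586 (leaf 490 5))))))))))) (branch (move 459 (branch (move 426 (branch (move 458 (leaf 426 7)) (move 427 (branch (move 394 (leaf 394 7)) (move 522 (branch (move 554 (leaf 426 5)) (move 396 (branch (move 428 (leaf 395 6)) (move 395 (branch (move 364 (leaf 363 6)) (move 490 (leaf 394 5)))))))))))) (branch (move 458 (branch (move 426 (leaf 426 7)) (move 587 (branch (move 490 (leaf 458 7)) (move 588 (branch (move 620 (leaf 491 4)) (move 556 (leaf 459 4)))))))) (move 556 (branch (move 588 (leaf 459 4)) (move 557 (branch (move 554 (leaf 522 2)) (move 558 (branch (move 522 (leaf 522 3)) (move 590 (branch (move 591 (leaf 555 0)) (move 622 (branch (move 654 (leaf 525 7)) (move 493 (leaf 493 7))))))))))))))) (branch (move 587 (branch (move 618 (branch (move 586 (leaf 490 5)) (move 619 (branch (move 650 (leaf 522 5)) (move 620 (branch (move 652 (leaf 523 4)) (move 588 (leaf 491 4)))))))) (branch (move 588 (branch (move 620 (leaf 491 4)) (move 556 (branch (move 459 (leaf 459 4)) (move 554 (branch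 (move 557 (leaf 522 2)) (move 553 (branch (move 552 (leaf 552 0)) (move 589 (leaf 553 0)))))))))) (branch (move 618 (branch (move 586 (leaf 490 5)) (move 619 (branch (move 650 (leaf 522 5)) (move 522 (branch (move 490 (leaf 490 7)) (move 652 (branch (move 620 (leaf 523 4)) (move 651 (branch (move 554 (leaf 522 7)) (move 684 (leaf 555 4)))))))))))) (move 618 (branch (move 586 (leaf 490 5)) (move 619 (branch (move 650 (leaf 522 5)) (move 522 (branch (move 490 (leaf 490 7)) (move 554 (branch (move 651 (leaf 522 7)) (move 556 (branch (move 557 (leaf 522 2)) (move 459 (branch (move 588 (leaf 459 4)) (move 427 (leaf 426 5)))))))))))))))))) (move 587 (branch (move 618 (branch (move 586 (leaf 490 5)) (move 619 (branch (move 650 (leaf 522 5)) (move 620 (branch (move 652 (leaf 523 4)) (move 588 (leaf 491 4)))))))) (branch (move 490 (branch (move 458 (leaf 458 7)) (move 619 (branch (move 522 (leaf 490 7)) (move 620 (branch (move 652 (leaf 523 4)) (move 588 (leaf 491 4)))))))) (branch (move 490 (branch (move 458 (leaf 458 7)) (move 619 (branch (move 522 (leaf 490 7)) (move 618 (branch (move 650 (leaf 522 5)) (move 586 (leaf 490 5)))))))) (move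 557 (branch (move 588 (branch (move 620 (leaf 491 4)) (move 586 (branch (move 618 (leaf 490 5)) (move 589 (branch (move 558 (leaf 554 2)) (move 554 (branch (move 553 (leaf 553 3)) (move 590 (leaf 554 3)))))))))) (branch (move 556 (branch (move 554 (leaf 522 2)) (move 588 (branch (move 620 (leaf 491 4)) (move 558 (branch (move 522 (leaf 522 3)) (move 590 (branch (move 591 (leaf 555 0)) (move 493 (branch (move 622 (leaf 493 7)) (move 461 (leaf 461 4)))))))))))) (branch (move 556 (branch (move 554 (leaf 522 2)) (move 558 (branch (move 522 (leaf 522 3)) (move 586 (leaf 554 1)))))) (branch (move 586 (branch (move 618 (leaf 490 5)) (move 588 (branch (move 620 (leaf 491 4)) (move 556 (branch (move 585 (leaf 553 2)) (move 558 (leaf 554 1)))))))) (move 588 (branch (move 620 (leaf 491 4)) (move 554 (branch (move 556 (leaf 522 2)) (move 586 (branch (move 618 (leaf 490 5)) (move 553 (branch (move 589 (leaf 553 3)) (move 552 (leaf 552 0)))))))))))))))))))))))))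
theorem a6p620 : a6e620.Valid :=
  pos_of_chk [a6e601] (forall_cons a6p601 forall_nil) a6c620 a6e620 (by decide +kernel)

def a6e621 : Pos := ⟨329510287692662607350178390445776385555549299001051788647112106957865626256400251822985742741756205537984254503726406740718496187676276357194735766280805023744, 23359695979358026631886166766553351929274578466408512987406781043094860044908161109031701634124558693378764730551941021826063582064027485662068582333362752577725070300595695973522919143201530970112, 15⟩
def a6c621 : Cert := (move 523 (branch (ref 0) (branch (ref 1) (branch (move 524 (branch (move 490 (leaf 490 3)) (move 554 (branch (move 555 (leaf 522 1)) (move 522 (branch (move 553 (leaf 521 1)) (move 557 (branch (move 558 (leaf 522 0)) (move 521 (branch (move 556 (leaf 521 0)) (move 520 (branch (move 492 (leaf 488 2)) (move 488 (branch (move 487 (leaf 487 3)) (move 489 (leaf 488 3)))))))))))))))) (branch (move 555 (branch (ref 2) (branch (ref 3) (branch (move 490 (branch (move 524 (leaf 490 3)) (move 587 (branch (move 458 (leaf 458 7)) (move 619 (branch (move 522 (leaf 490 7)) (move 620 (branch (move 652 (leaf 523 4)) (move 588 (leaf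 491 4)))))))))) (branch (move 490 (branch (move 524 (leaf 490 3)) (move 458 (branch (move 587 (leaf 458 7)) (move 426 (branch (move 459 (leaf 426 7)) (move 522 (leaf 426 4)))))))) (ref 4)))))) (branch (move 555 (branch (ref 2) (branch (ref 5) (move 524 (branch (move 490 (leaf 490 3)) (move 554 (leaf 522 1))))))) (branch (ref 6) (branch (move 555 (branch (ref 7) (branch (move 490 (branch (move 524 (leaf 490 3)) (move 587 (branch (move 458 (leaf 458 7)) (move 619 (branch (move 522 (leaf 490 7)) (move 620 (branch (move 652 (leaf 523 4)) (move 588 (leaf 491 4)))))))))) (branch (ref 5) (move 524 (branch (move 490 (leaf 490 3)) (move 554 (leaf 522 1)))))))) (move 524 (branch (move 490 (leaf 490 3)) (move 522 (branch (move 557 (branch (move 558 (leaf 522 0)) (move 521 (branch (move 556 (leaf 521 0)) (move 520 (branch (move 492 (leaf 488 2)) (move 488 (branch (move 487 (leaf 487 3)) (move 489 (leaf 488 3)))))))))) (branch (move 553 (branch (move 554 (leaf 521 1)) (move 521 (branch (move 552 (leaf 520 1)) (move 520 (branch (move 492 (leaf 488 2)) (move 488 (branch (move 487 (leaf 487 3)) (move 489 (leaf 488 3)))))))))) (branch (move 557 (branch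 (move 558 (leaf 522 0)) (move 521 (branch (move 556 (leaf 521 0)) (move 553 (branch (move 552 (leaf 520 1)) (move 554 (leaf 521 1)))))))) (move 554 (branch (move 553 (leaf 521 1)) (move 557 (branch (move 558 (leaf 522 0)) (move 492 (branch (move 459 (branch (move 427 (leaf 426 5)) (move 556 (branch (move 588 (leaf 459 7)) (move 589 (branch (move 621 (leaf 492 7)) (move 460 (leaf 460 4)))))))) (branch (move 459 (branch (move 427 (leaf 426 5)) (move 588 (branch (move 556 (leaf 459 7)) (move 589 (branch (move 621 (leaf 492 7)) (move 620 (branch (move 493 (leaf 492 5)) (move 618 (branch (move 586 (leaf 490 6)) (move 619 (branch (move 617 (leaf 585 2)) (move 590 (branch (move 587 (leaf 586 1)) (move 591 (leaf 587 1)))))))))))))))) (branch (move 459 (branch (move 427 (leaf 426 5)) (move 460 (branch (move 428 (leaf 428 4)) (move 556 (branch (move 588 (leaf 459 7)) (move 461 (branch (move 429 (leaf 428 6)) (move 462 (branch (move 463 (leaf 459 1)) (move 430 (branch (move 431 (leaf 427 2)) (move 493 (leaf 429 6)))))))))))))) (move 460 (branch (move 428 (leaf 428 4)) (move 589 (branch (move 621 (leaf 492 7)) (move 493 (leaf 460 7))))))))))))))))))))))))))))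
theorem a6p621 : a6e621.Valid :=
  pos_of_chk [a6e596, a6e599, a6e597, a6e594, a6e600, a6e595, a6e602, a6e603] (forall_cons a6p596 (forall_cons a6p599 (forall_cons a6p597 (forall_cons a6p594 (forall_cons a6p600 (forall_cons a6p595 (forall_cons a6p602 (forall_cons a6p603 forall_nil)))))))) a6c621 a6e621 (by decide +kernel)

def a6e622 : Pos := ⟨117936326132642645590733626865989396483255746562640803588381457167365715869362450617682336193277817790072910477604809902410160942552133909442687752802303630809308856320, 23359695995946528415244964448154756739380001713363642703295779945583476507584136045595955521937165279363579842472488667083324720854970746895888936447781287178962456013904913746615793521297438277632, 12⟩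
def a6c622 : Cert := (move 587 (branch (move 618 (branch (move 586 (leaf 490 5)) (move 619 (branch (move 650 (leaf 522 5)) (move 620 (branch (move 652 (leaf 523 4)) (move 588 (leaf 491 4)))))))) (branch (move 588 (branch (move 620 (leaf 491 4)) (move 492 (branch (move 460 (leaf 459 6)) (move 493 (branch (move 490 (leaf 490 0)) (move 494 (branch (move 522 (leaf 490 1)) (move 462 (branch (move 463 (leaf 459 2)) (move 430 (branch (move 398 (leaf 397 5)) (move 429 (branch (move 397 (leaf 397 7)) (move 558 (branch (move 461 (leaf 429 4)) (move 590 (branch (move 622 (leaf 493 7)) (move 589 (branch (move 554 (leaf 554 3)) (move 621 (leaf 493 5)))))))))))))))))))))) (move 586 (branch (move 618 (leaf 490 5)) (move 459 (branch (move 554 (leaf 458 5)) (move 460 (branch (move 492 (leaf 459 6)) (move 428 (leaf 427 6)))))))))))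
theorem a6p622 : a6e622.Valid :=
  pos_of_chk [] forall_nil a6c622 a6e622 (by decide +kernel)

def a6e623 : Pos := ⟨117936326132642645590733626865989396483255746562640803588381457167365715869362450617682336193277817790072910477604809902410160942552133909442687752802303630809308856320, 4351082438674554059351733496896896818785393034014475797970768692639613843349059826749050231491659259463887188905659419751684531791521105361054993986402041040618341204173417055785410625536, 5⟩
def a6c623 : Cert := (move 587 (branch (move 490 (branch (move 458 (leaf 458 7)) (move 492 (branch (move 493 (leaf 490 0)) (move 460 (leaf 459 6)))))) (branch (move 588 (branch (move 620 (leaf 491 4)) (move 459 (branch (move 556 (leaf 459 4)) (move 460 (branch (move 492 (leaf 459 6)) (move 428 (leaf 427 6)))))))) (move 588 (branch (move 620 (leaf 491 4)) (move 459 (branch (move 556 (leaf 459 4)) (move 458 (branch (move 490 (leaf 458 7)) (move 426 (leaf 426 7)))))))))))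
theorem a6p623 : a6e623.Valid :=
  pos_of_chk [] forall_nil a6c623 a6e623 (by decide +kernel)

def a6e624 : Pos := ⟨117936326132642645590733626865989396483255746562640803588381457167365715869362450617682336193277817790072910477604809902410160942552133909442687752802303630809308856320, 23359695970383919091102813614831522213226350112395095710900293657634260389595380873190342831678953542873683052315048816049777602219982100109316212600133939717399694791715959422962018188216498126848, 11⟩
def a6c624 : Cert := (move 587 (branch (move 618 (branch (move 586 (leaf 490 5)) (move 619 (branch (move 650 (leaf 522 5)) (move 620 (branch (move 652 (leaf 523 4)) (move 588 (leaf 491 4)))))))) (branch (move 588 (branch (move 620 (leaf 491 4)) (move 459 (branch (move 556 (leaf 459 4)) (move 458 (branch (move 490 (leaf 458 7)) (move 426 (leaf 426 7)))))))) (move 490 (branch (move 458 (leaf 458 7)) (move 522 (branch (move 619 (leaf 490 7)) (move 586 (branch (move 618 (leaf 490 5)) (move 554 (branch (move 459 (leaf 458 5)) (move 492 (branch (move 493 (leaf 490 0)) (move 521 (branch (move 520 (leaf 488 2)) (move 489 (branch (move 457 (leaf 457 7)) (move 585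 (branch (move 617 (leaf 489 5)) (move 584 (branch (move 583 (leaf 551 2)) (move 556 (leaf 552 2)))))))))))))))))))))))
theorem a6p624 : a6e624.Valid :=
  pos_of_chk [] forall_nil a6c624 a6e624 (by decide +kernel)

def a6e625 : Pos := ⟨117936326132642645590733626865989396483255746562640803588381457167365715869362450617682336193277817790072910477604809902410160942552133909442687752802303630809308856320, 253266332110917811984906098730937281945692290812884635085336351423256992450628957508193870302063449676832371381015684568301193318866237503244091668433823995139060971088738516992, 8⟩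
def a6c625 : Cert := (move 459 (branch (move 554 (branch (move 586 (leaf 458 5)) (move 427 (branch (move 522 (leaf 426 5)) (move 428 (branch (move 460 (leaf 427 6)) (move 396 (leaf 395 6)))))))) (branch (move 554 (branch (move 586 (leaf 458 5)) (move 427 (branch (move 522 (leaf 426 5)) (move 426 (branch (move 458 (leaf 426 7)) (move 394 (leaf 394 7)))))))) (branch (move 426 (branch (move 458 (leaf 426 7)) (move 427 (branch (move 394 (leaf 394 7)) (move 428 (branch (move 460 (leaf 427 6)) (move 396 (leaf 395 6)))))))) (move 586 (branch (move 554 (leaf 458 5)) (move 493 (branch (move 460 (branch (move 428 (leaf 427 6)) (move 458 (branch (move 426 (leaf 426 7)) (move 461 (branch (move 494 (leaf 458 0)) (move 429 (branch (move 430 (leaf 426 2)) (move 558 (leaf 429 4)))))))))) (branch (move 492 (branch (move 490 (leaf 490 0)) (move 460 (branch (move 428 (leaf 427 6)) (move 494 (branch (move 495 (leaf 459 3)) (move 522 (leaf 490 1)))))))) (branch (move 492 (branch (move 490 (leaf 490 0)) (move 494 (branch (move 458 (leaf 458 3)) (move 522 (leaf 490 1)))))) (move 460 (branch (move 428 (leaf 427 6)) (move 490 (branch (move 492 (leaf 490 0))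 (move 458 (branch (move 426 (leaf 426 7)) (move 489 (branch (move 488 (leaf 456 2)) (move 461 (leaf 457 1))))))))))))))))))))
theorem a6p625 : a6e625.Valid :=
  pos_of_chk [] forall_nil a6c625 a6e625 (by decide +kernel)

def a6e626 : Pos := ⟨329510287692662607350178390445776385555549299001051788647112106957865626256400251822985742741756205537984254503726406740718496187676276357194735766280805023744, 23359695996490413720110941997330831824993511554593830172184554455869153973958773920078475038685910643576325356251368000572135704571042284778125222273043970717986221128686188829289720477895670890496, 14⟩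
def a6c626 : Cert := (move 523 (branch (move 555 (branch (ref 0) (branch (ref 1) (branch (move 490 (branch (move 524 (leaf 490 3)) (move 587 (branch (move 458 (leaf 458 7)) (move 619 (branch (move 522 (leaf 490 7)) (move 620 (branch (move 652 (leaf 523 4)) (move 588 (leaf 491 4)))))))))) (branch (move 490 (branch (move 524 (leaf 490 3)) (move 458 (branch (move 587 (leaf 458 7)) (move 426 (branch (move 459 (leaf 426 7)) (move 522 (leaf 426 4)))))))) (ref 2)))))) (branch (move 555 (branch (ref 0) (branch (ref 3) (move 524 (branch (move 490 (leaf 490 3)) (move 554 (leaf 522 1))))))) (branch (move 524 (branch (move 490 (leaf 490 3)) (move 554 (branch (move 555 (leaf 522 1)) (move 522 (branch (move 553 (leaf 521 1)) (move 494 (branch (move 493 (leaf 490 2)) (move 495 (leaf 491 2)))))))))) (branch (move 555 (branch (ref 4) (branch (ref 1) (branch (ref 3) (branch (move 554 (branch (move 524 (leaf 522 1)) (move 586 (branch (move 459 (leaf 458 5)) (move 618 (branch (move 650 (leaf 522 6)) (move 522 (leaf 490 6)))))))) (move 587 (branch (move 588 (branch (move 620 (leaf 491 4)) (move 459 (branch (move 556 (leaf 459 4)) (move 460 (branch (move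 492 (leaf 459 6)) (move 428 (leaf 427 6)))))))) (branch (move 524 (branch (move 554 (leaf 522 1)) (move 492 (branch (move 619 (leaf 491 6)) (move 460 (leaf 459 6)))))) (branch (move 524 (branch (move 554 (leaf 522 1)) (move 588 (branch (move 620 (leaf 491 4)) (move 459 (branch (move 556 (leaf 459 4)) (move 494 (branch (move 495 (leaf 491 2)) (move 493 (branch (move 522 (leaf 490 2)) (move 460 (branch (move 428 (leaf 427 6)) (move 458 (branch (move 461 (leaf 458 0)) (move 426 (leaf 426 7)))))))))))))))) (move 524 (branch (move 554 (leaf 522 1)) (move 619 (branch (move 492 (leaf 491 6)) (move 620 (branch (move 652 (leaf 523 4)) (move 588 (leaf 491 4))))))))))))))))) (branch (move 524 (branch (move 490 (leaf 490 3)) (move 494 (branch (move 495 (leaf 491 2)) (move 522 (branch (move 493 (leaf 490 2)) (move 553 (branch (move 554 (leaf 521 1)) (move 521 (branch (move 552 (leaf 520 1)) (move 520 (branch (move 492 (leaf 488 2)) (move 488 (branch (move 487 (leaf 487 3)) (move 489 (leaf 488 3)))))))))))))))) (move 555 (branch (move 587 (branch (move 618 (branch (move 586 (leaf 490 5)) (move 619 (branch (move 650 (leaf 522 5)) (move 620 (branch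 (move 652 (leaf 523 4)) (move 588 (leaf 491 4)))))))) (move 490 (branch (move 458 (leaf 458 7)) (move 492 (branch (move 493 (leaf 490 0)) (move 460 (leaf 459 6)))))))) (branch (ref 4) (branch (ref 5) (branch (ref 6) (branch (ref 7) (branch (ref 8) (ref 9))))))))))))))
theorem a6p626 : a6e626.Valid :=
  pos_of_chk [a6e597, a6e594, a6e600, a6e595, a6e593, a6e601, a6e622, a6e623, a6e624, a6e625] (forall_cons a6p597 (forall_cons a6p594 (forall_cons a6p600 (forall_cons a6p595 (forall_cons a6p593 (forall_cons a6p601 (forall_cons a6p622 (forall_cons a6p623 (forall_cons a6p624 (forall_cons a6p625 forall_nil)))))))))) a6c626 a6e626 (by decide +kernel)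

def a6e627 : Pos := ⟨329510287718235971474366998805254430062014917377744304631823550625703840069651297107397262701781753134280380731467708960465059242435786173959465399509934145536, 506532663337313180720911420019961773923423351317099768084709151317604634450851826326637840823746267398510168896442372173673035092043377364209796771634189626089176082128188735488, 10⟩
def a6c627 : Cert := (move 492 (branch (move 490 (leaf 490 0)) (move 494 (branch (move 462 (branch (move 463 (leaf 459 2)) (move 430 (branch (move 398 (leaf 397 5)) (move 429 (branch (move 397 (leaf 397 7)) (move 461 (branch (move 558 (leaf 429 4)) (move 428 (branch (move 396 (leaf 396 7)) (move 431 (branch (move 399 (leaf 398 6)) (move 432 (branch (move 460 (leaf 428 1)) (move 433 (leaf 429 1)))))))))))))))) (branch (move 523 (branch (move 522 (leaf 490 1)) (move 495 (branch (move 524 (leaf 491 1)) (move 496 (branch (move 497 (leaf 493 1)) (move 464 (branch (move 463 (leaf 460 2)) (move 465 (leaf 461 2)))))))))) (move 523 (branch (move 522 (leaf 490 1)) (move 524 (branch (move 495 (leaf 491 1)) (move 555 (branch (move 554 (leaf 522 1)) (move 460 (branch (move 587 (leaf 459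 6)) (move 428 (leaf 427 5)))))))))))))))
theorem a6p627 : a6e627.Valid :=
  pos_of_chk [] forall_nil a6c627 a6e627 (by decide +kernel)

def a6e628 : Pos := ⟨329510287718235971480321261634684041709394978011962837777248580652454349619477264819085059750006708922168537818914860089538825819434318703590980856051545407488, 30457577067935948773445989495380394252624043078366621106322017967397987698728136117414961903743564171703588216638633664691796621651132188986355570786587839566397766043096727057053807280128, 8⟩
def a6c628 : Cert := (move 557 (branch (move 462 (branch (move 430 (leaf 429 6)) (move 589 (branch (move 494 (leaf 461 6)) (move 588 (branch (move 620 (leaf 492 5)) (move 556 (leaf 460 5)))))))) (branch (move 590 (branch (move 558 (leaf 461 4)) (move 589 (branch (move 622 (leaf 493 4)) (move 494 (branch (move 621 (leaf 493 6)) (move 462 (leaf 461 6)))))))) (move 558 (branch (move 590 (leaf 461 4)) (move 556 (branch (move 588 (leaf 460 5)) (move 555 (branch (move 554 (leaf 522 2)) (move 523 (branch (move 522 (leaf 522 3)) (move 587 (branch (move 586 (leaf 554 1)) (move 490 (branch (move 524 (leaf 490 3)) (move 458 (leaf 458 7)))))))))))))))))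
theorem a6p628 : a6e628.Valid :=
  pos_of_chk [] forall_nil a6c628 a6e628 (by decide +kernel)

def a6e629 : Pos := ⟨329510287769382699722744215524210519074946154131129336601246437961380267696153387676220302621832848326872633186950313399958185351954805807488924665968192389120, 96107167970669413721051288632043809794141468750803125869946374984407661496446793010429293597484068639392281750144334127301764803474689584280839750744815960064, 6⟩
def a6c629 : Cert := (move 495 (branch (move 496 (branch (move 497 (leaf 493 1)) (move 464 (branch (move 465 (leaf 461 2)) (move 492 (branch (move 463 (leaf 460 2)) (move 459 (branch (move 458 (leaf 458 3)) (move 460 (leaf 459 3)))))))))) (branch (move 523 (branch (move 524 (leaf 491 2)) (move 492 (branch (move 522 (leaf 490 1)) (move 459 (branch (move 458 (leaf 458 3)) (move 460 (leaf 459 3)))))))) (move 496 (branch (move 524 (leaf 492 1)) (move 497 (leaf 493 1)))))))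
theorem a6p629 : a6e629.Valid :=
  pos_of_chk [] forall_nil a6c629 a6e629 (by decide +kernel)

def a6e630 : Pos := ⟨329510287769382699722744215524210519074946154131129336601246437961380267696153387676220302621832848326872633186950313399958185351954805807488924665968192389120, 26106494629008128382808892466845925934186379914790881839868940617432226906441686882785128632299035275548110976496428327345967715611040823376179524967320046806361086055739632200873169387520, 6⟩
def a6c630 : Cert := (move 462 (branch (move 589 (branch (move 557 (leaf 461 6)) (move 463 (branch (move 492 (leaf 459 2)) (move 558 (branch (move 431 (leaf 430 6)) (move 590 (branch (move 622 (leaf 493 7)) (move 621 (leaf 493 5)))))))))) (branch (move 430 (branch (move 398 (leaf 397 5)) (move 463 (branch (move 492 (leaf 459 2)) (move 431 (branch (move 558 (leaf 430 6)) (move 399 (leaf 398 6)))))))) (move 557 (branch (move 589 (leaf 461 6)) (move 430 (leaf 429 5)))))))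
theorem a6p630 : a6e630.Valid :=
  pos_of_chk [] forall_nil a6c630 a6e630 (by decide +kernel)

def a6e631 : Pos := ⟨329510287762989358691697063434341007948329749536956207605068577044420714242840626355117422631826461427798601630014987845021544588264928353297742257660910108672, 17404329752672085588539261644618869004779494561846736825397644113550290095218757180872115324996659909018685628889799177931063310398707246240373824695502825532004011852915110981711157002240, 8⟩
def a6c631 : Cert := (move 558 (branch (move 590 (branch (move 622 (leaf 493 7)) (move 495 (branch (move 463 (leaf 462 6)) (move 496 (branch (move 524 (leaf 492 1)) (move 497 (leaf 493 1)))))))) (branch (move 461 (branch (move 590 (leaf 461 7)) (move 429 (leaf 429 4)))) (move 462 (branch (move 430 (branch (move 398 (leaf 397 5)) (move 431 (branch (move 463 (leaf 430 6)) (move 399 (leaf 398 6)))))) (branch (move 461 (branch (move 429 (leaf 429 4)) (move 463 (branch (move 431 (leaf 430 6)) (move 464 (branch (move 465 (leaf 461 1)) (move 496 (branch (move 497 (leaf 461 0)) (move 495 (branch (move 460 (leaf 460 0)) (move 524 (leaf 492 1)))))))))))) (move 429 (branch (move 461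 (leaf 429 4)) (move 430 (branch (move 397 (leaf 397 7)) (move 398 (leaf 397 5))))))))))))
theorem a6p631 : a6e631.Valid :=
  pos_of_chk [] forall_nil a6c631 a6e631 (by decide +kernel)

def a6e632 : Pos := ⟨329510287718235971474366998805254430062014917377744304631823550625703840069651297107397262701781753134280380731467708960465059242435786173959465399509934145536, 26106494629008128382808892466942033102195409374680353252553298993891309809519423253861645614453167324136935555810100402468226381354683216969866451389401131919188155610683209714247925760000, 9⟩
def a6c632 : Cert := (move 494 (branch (ref 0) (branch (ref 1) (branch (move 495 (branch (move 523 (branch (move 524 (leaf 491 2)) (move 492 (branch (move 522 (leaf 490 1)) (move 459 (branch (move 458 (leaf 458 3)) (move 460 (leaf 459 3)))))))) (branch (move 496 (branch (move 524 (leaf 492 1)) (move 497 (leaf 493 1)))) (move 496 (branch (move 497 (leaf 493 1)) (move 461 (branch (move 460 (leaf 460 3)) (move 429 (branch (move 558 (leaf 429 4)) (move 397 (leaf 397 4))))))))))) (ref 2)))))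
theorem a6p632 : a6e632.Valid :=
  pos_of_chk [a6e629, a6e630, a6e631] (forall_cons a6p629 (forall_cons a6p630 (forall_cons a6p631 forall_nil))) a6c632 a6e632 (by decide +kernel)

def a6e633 : Pos := ⟨356969478358758410334294602001580002931092658578317526269401404462446012803241921315887501264427571354189565977033632392613547194434652749209761512674394374144, 2026130653113380073652600952336146518048103585956261205374562566619584220399730038254724102053385788279763049105539129719437769434344044956408032306050096515500424521765982568448, 8⟩
def a6c633 : Cert := (move 494 (branch (move 492 (branch (move 522 (leaf 490 1)) (move 459 (branch (move 458 (leaf 458 3)) (move 460 (branch (move 495 (leaf 459 3)) (move 428 (branch (move 396 (leaf 396 4)) (move 557 (branch (move 589 (leaf 460 7)) (move 461 (leaf 428 7)))))))))))) (branch (move 524 (branch (move 522 (leaf 490 2)) (move 495 (leaf 491 2)))) (branch (move 522 (branch (move 524 (leaf 490 2)) (move 492 (leaf 490 1)))) (move 495 (branch (move 524 (leaf 491 2)) (move 496 (branch (move 497 (leaf 493 1)) (move 464 (branch (move 465 (leaf 461 2)) (move 463 (branch (move 492 (leaf 460 2)) (move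 528 (branch (move 529 (leaf 493 0)) (move 431 (branch (move 560 (leaf 431 7)) (move 399 (leaf 399 4))))))))))))))))))
theorem a6p633 : a6e633.Valid :=
  pos_of_chk [] forall_nil a6c633 a6e633 (by decide +kernel)

def a6e634 : Pos := ⟨329510287718235971474366998805254430062014917377744304631823550625703840069651297107397262701781753134280380731467708960465059242435786173959465399509934145536, 2026130653113380073680060142979865627423554765197521533806948510117244006535396822549946051513632793148804727663188141388883970458377631166024840639893901817846311839084083937280, 9⟩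
def a6c634 : Cert := (move 523 (branch (move 492 (branch (move 490 (leaf 490 0)) (move 494 (branch (move 522 (leaf 490 1)) (move 459 (branch (move 458 (leaf 458 3)) (move 460 (branch (move 495 (leaf 459 3)) (move 428 (branch (move 396 (leaf 396 4)) (move 557 (branch (move 589 (leaf 460 7)) (move 461 (leaf 428 7)))))))))))))) (branch (move 524 (branch (move 490 (leaf 490 3)) (move 494 (branch (move 522 (leaf 490 2)) (move 495 (leaf 491 2)))))) (branch (move 490 (branch (move 524 (leaf 490 3)) (move 492 (leaf 490 0)))) (ref 0)))))
theorem a6p634 : a6e634.Valid :=
  pos_of_chk [a6e633] (forall_cons a6p633 forall_nil) a6c634 a6e634 (by decide +kernel)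

def a6e635 : Pos := ⟨329510287692662607350178390445776385555549299001051788647112106957865626256400251822985742741756205537984254503726406740718496187676276357194735766280805023744, 23359695970383919091102813616416291590919335869494611016419521963223827477418342862335280199703225602097902764395750138335059892819494550503167497853485608619044484231028715435814105407597056098304, 13⟩
def a6c635 : Cert := (move 523 (branch (move 555 (branch (ref 0) (branch (ref 1) (branch (move 490 (branch (move 524 (leaf 490 3)) (move 587 (branch (move 458 (leaf 458 7)) (move 619 (branch (move 522 (leaf 490 7)) (move 620 (branch (move 652 (leaf 523 4)) (move 588 (leaf 491 4)))))))))) (branch (move 490 (branch (move 524 (leaf 490 3)) (move 458 (branch (move 587 (leaf 458 7)) (move 426 (branch (move 459 (leaf 426 7)) (move 522 (leaf 426 4)))))))) (ref 2)))))) (branch (move 524 (branch (move 490 (leaf 490 3)) (ref 3))) (branch (move 555 (branch (move 459 (branch (move 426 (branch (move 458 (leaf 426 7)) (move 427 (branch (move 394 (leaf 394 7)) (move 428 (branch (move 460 (leaf 427 6)) (move 396 (leaf 395 6)))))))) (move 554 (branch (move 586 (leaf 458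 5)) (move 556 (branch (move 557 (leaf 522 2)) (move 588 (leaf 459 4)))))))) (branch (ref 2) (move 524 (branch (move 490 (leaf 490 3)) (move 554 (leaf 522 1))))))) (branch (move 524 (branch (move 490 (leaf 490 3)) (move 554 (branch (move 555 (leaf 522 1)) (move 522 (branch (move 553 (leaf 521 1)) (move 494 (branch (move 493 (leaf 490 2)) (move 495 (leaf 491 2)))))))))) (branch (move 555 (branch (move 459 (branch (move 426 (branch (move 458 (leaf 426 7)) (move 427 (branch (move 394 (leaf 394 7)) (move 428 (branch (move 460 (leaf 427 6)) (move 396 (leaf 395 6)))))))) (move 554 (branch (move 586 (leaf 458 5)) (move 556 (branch (move 557 (leaf 522 2)) (move 588 (leaf 459 4)))))))) (branch (move 587 (branch (move 618 (branch (move 586 (leaf 490 5)) (move 619 (branch (move 650 (leaf 522 5)) (move 620 (branch (move 652 (leaf 523 4)) (move 588 (leaf 491 4)))))))) (move 490 (branch (move 458 (leaf 458 7)) (move 492 (branch (move 493 (leaf 490 0)) (move 460 (leaf 459 6)))))))) (branch (ref 4) (branch (ref 5) (branch (ref 6) (ref 7))))))) (move 555 (branch (ref 4) (branch (ref 1) (move 524 (branch (move 554 (leaf 522 1)) (move 494 (branch (move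 495 (leaf 491 2)) (move 522 (branch (move 493 (leaf 490 2)) (move 557 (branch (move 558 (leaf 522 0)) (move 521 (branch (move 556 (leaf 521 0)) (move 488 (branch (move 489 (leaf 488 3)) (move 520 (branch (move 487 (leaf 487 3)) (move 552 (branch (move 551 (leaf 519 1)) (move 553 (leaf 520 1)))))))))))))))))))))))))))
theorem a6p635 : a6e635.Valid :=
  pos_of_chk [a6e597, a6e594, a6e600, a6e604, a6e593, a6e623, a6e624, a6e598] (forall_cons a6p597 (forall_cons a6p594 (forall_cons a6p600 (forall_cons a6p604 (forall_cons a6p593 (forall_cons a6p623 (forall_cons a6p624 (forall_cons a6p598 forall_nil)))))))) a6c635 a6e635 (by decide +kernel)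

def a6e636 : Pos := ⟨117936326132642645590733626865989396483255746562640803588381457167365715869362450617682336193277817790072910477604809902410160942552133909442687752802303630809308856320, 23359695995946528415244964448567533879649776180145204399293202202167341911290536135375943815270740335006878110415961800096213702877679326552787370808411674626634106143465182193417089105521314627584, 12⟩
def a6c636 : Cert := (move 587 (branch (move 618 (branch (move 586 (leaf 490 5)) (move 619 (branch (move 650 (leaf 522 5)) (move 620 (branch (move 652 (leaf 523 4)) (move 588 (leaf 491 4)))))))) (branch (move 492 (branch (move 460 (leaf 459 6)) (move 524 (branch (move 619 (leaf 491 6)) (move 494 (branch (move 495 (leaf 491 2)) (move 493 (branch (move 522 (leaf 490 1)) (move 462 (branch (move 463 (leaf 459 2)) (move 557 (branch (move 589 (leaf 461 6)) (move 430 (leaf 429 5)))))))))))))) (move 557 (branch (move 588 (branch (move 620 (leaf 491 4)) (move 586 (branch (move 618 (leaf 490 5)) (move 589 (branch (move 558 (leaf 554 2)) (move 621 (branch (move 622 (leaf 586 0)) (move 494 (leaf 493 6)))))))))) (branch (move 460 (branch (move 492 (leaf 459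 6)) (move 459 (branch (move 428 (leaf 427 6)) (move 426 (branch (move 458 (leaf 426 7)) (move 427 (branch (move 394 (leaf 394 7)) (move 462 (branch (move 461 (leaf 426 3)) (move 494 (branch (move 430 (leaf 429 5)) (move 589 (branch (move 621 (leaf 493 6)) (move 493 (leaf 461 6)))))))))))))))) (branch (move 460 (branch (move 492 (leaf 459 6)) (move 459 (branch (move 428 (leaf 427 6)) (move 426 (branch (move 458 (leaf 426 7)) (move 427 (branch (move 394 (leaf 394 7)) (move 588 (branch (move 620 (leaf 491 4)) (move 586 (branch (move 618 (leaf 490 5)) (move 558 (branch (move 589 (leaf 554 2)) (move 461 (branch (move 462 (leaf 426 3)) (move 493 (branch (move 590 (leaf 461 4)) (move 429 (leaf 429 4)))))))))))))))))))) (move 460 (branch (move 492 (leaf 459 6)) (move 459 (branch (move 428 (leaf 427 6)) (move 426 (branch (move 458 (leaf 426 7)) (move 427 (branch (move 394 (leaf 394 7)) (move 462 (branch (move 461 (leaf 426 3)) (move 494 (branch (move 430 (leaf 429 5)) (move 524 (branch (move 495 (leaf 491 2)) (move 522 (branch (move 493 (leaf 490 2)) (move 558 (leaf 522 0)))))))))))))))))))))))))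
theorem a6p636 : a6e636.Valid :=
  pos_of_chk [] forall_nil a6c636 a6e636 (by decide +kernel)

def a6e637 : Pos := ⟨329510287692662607350178390445776385555549299001051788647112106957865626256400251822985742741756205537984254503726406740718496187676276357194735766280805023744, 23359695995946528415244964452562626917964246213744694050950197291499811312813083354917926769499124237446632147810605984722824953001468821272730740009318909945954508440769078077421562853298611945472, 14⟩
def a6c637 : Cert := (move 523 (branch (move 555 (branch (ref 0) (branch (move 490 (branch (move 524 (leaf 490 3)) (move 587 (branch (move 458 (leaf 458 7)) (move 619 (branch (move 522 (leaf 490 7)) (move 620 (branch (move 652 (leaf 523 4)) (move 588 (leaf 491 4)))))))))) (branch (ref 1) (move 524 (branch (move 490 (leaf 490 3)) (move 554 (leaf 522 1)))))))) (branch (move 524 (branch (move 490 (leaf 490 3)) (move 554 (branch (move 555 (leaf 522 1)) (move 522 (branch (move 553 (leaf 521 1)) (move 494 (branch (move 493 (leaf 490 2)) (move 495 (leaf 491 2)))))))))) (branch (move 555 (branch (move 587 (branch (move 618 (branch (move 586 (leaf 490 5)) (move 619 (branch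 (move 650 (leaf 522 5)) (move 620 (branch (move 652 (leaf 523 4)) (move 588 (leaf 491 4)))))))) (move 490 (branch (move 458 (leaf 458 7)) (move 492 (branch (move 493 (leaf 490 0)) (move 460 (leaf 459 6)))))))) (branch (ref 2) (branch (ref 3) (branch (ref 0) (branch (move 459 (branch (move 426 (branch (move 458 (leaf 426 7)) (move 427 (branch (move 394 (leaf 394 7)) (move 428 (branch (move 460 (leaf 427 6)) (move 396 (leaf 395 6)))))))) (branch (move 426 (branch (move 458 (leaf 426 7)) (move 427 (branch (move 394 (leaf 394 7)) (move 522 (branch (move 554 (leaf 426 5)) (move 396 (branch (move 428 (leaf 395 6)) (move 395 (branch (move 364 (leaf 363 6)) (move 490 (leaf 394 5)))))))))))) (branch (move 460 (branch (move 428 (leaf 427 6)) (move 492 (branch (move 587 (leaf 459 6)) (move 493 (branch (move 490 (leaf 490 0)) (move 494 (branch (move 495 (leaf 459 3)) (move 522 (leaf 490 1)))))))))) (move 426 (branch (move 458 (leaf 426 7)) (move 427 (branch (move 394 (leaf 394 7)) (move 522 (branch (move 554 (leaf 426 5)) (move 490 (branch (move 395 (leaf 394 5)) (move 492 (branch (move 493 (leaf 490 0)) (move 587 (branch (move 460 (leaf 459 6))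 (move 619 (leaf 490 7)))))))))))))))))) (ref 4))))))) (branch (move 555 (branch (move 587 (branch (move 618 (branch (move 586 (leaf 490 5)) (move 619 (branch (move 650 (leaf 522 5)) (move 620 (branch (move 652 (leaf 523 4)) (move 588 (leaf 491 4)))))))) (move 490 (branch (move 458 (leaf 458 7)) (move 492 (branch (move 493 (leaf 490 0)) (move 460 (leaf 459 6)))))))) (branch (ref 1) (move 524 (branch (move 490 (leaf 490 3)) (move 554 (leaf 522 1))))))) (branch (move 493 (branch (move 492 (branch (move 490 (leaf 490 0)) (move 494 (branch (move 522 (leaf 490 1)) (move 459 (branch (move 458 (leaf 458 3)) (move 460 (branch (move 495 (leaf 459 3)) (move 428 (branch (move 396 (leaf 396 4)) (move 557 (branch (move 589 (leaf 460 7)) (move 461 (leaf 428 7)))))))))))))) (branch (move 524 (branch (move 490 (leaf 490 3)) (move 494 (branch (move 522 (leaf 490 2)) (move 495 (leaf 491 2)))))) (branch (move 490 (branch (move 524 (leaf 490 3)) (move 492 (leaf 490 0)))) (ref 5))))) (move 555 (branch (ref 2) (branch (ref 1) (branch (move 554 (branch (move 524 (leaf 522 1)) (move 586 (branch (move 459 (leaf 458 5)) (move 618 (branch (move 650 (leaf 522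 6)) (move 522 (leaf 490 6)))))))) (branch (move 460 (branch (move 492 (branch (move 587 (leaf 459 6)) (move 428 (branch (move 459 (leaf 427 6)) (move 524 (leaf 427 5)))))) (branch (move 459 (branch (move 428 (leaf 427 6)) (move 524 (branch (move 554 (leaf 522 1)) (move 494 (branch (move 495 (leaf 491 2)) (move 493 (branch (move 522 (leaf 490 2)) (move 458 (branch (move 461 (leaf 458 0)) (move 426 (leaf 426 7)))))))))))) (branch (move 524 (branch (move 554 (leaf 522 1)) (move 494 (branch (move 495 (leaf 491 2)) (move 492 (branch (move 587 (leaf 459 6)) (move 493 (branch (move 522 (leaf 490 1)) (move 462 (branch (move 463 (leaf 459 2)) (move 557 (branch (move 589 (leaf 461 6)) (move 430 (leaf 429 5)))))))))))))) (move 459 (branch (move 428 (leaf 427 6)) (move 458 (branch (move 426 (leaf 426 7)) (move 492 (branch (move 587 (leaf 459 6)) (move 493 (branch (move 494 (leaf 458 3)) (move 457 (leaf 457 0)))))))))))))) (ref 6))))))))))))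
theorem a6p637 : a6e637.Valid :=
  pos_of_chk [a6e603, a6e595, a6e593, a6e622, a6e625, a6e633, a6e636] (forall_cons a6p603 (forall_cons a6p595 (forall_cons a6p593 (forall_cons a6p622 (forall_cons a6p625 (forall_cons a6p633 (forall_cons a6p636 forall_nil))))))) a6c637 a6e637 (by decide +kernel)

def a6e638 : Pos := ⟨329510287718235971480321261634684041709394978011962837777248580652454349619477264819085059750006708922168537818914860089538825819434318703590980856051545407488, 4671939217463851925380813410875667004431405154648887840488285835990211944306190964037571348319195700079928445940658301036849511194364600839375651457162826496111085293360484337681986134755099279360, 12⟩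
def a6c638 : Cert := (move 557 (branch (move 590 (branch (move 558 (leaf 461 4)) (move 589 (branch (move 622 (leaf 493 4)) (move 588 (branch (move 620 (leaf 492 5)) (move 556 (leaf 460 5)))))))) (branch (move 462 (branch (move 430 (leaf 429 6)) (move 494 (branch (move 589 (leaf 461 6)) (move 463 (branch (move 492 (leaf 459 2)) (move 464 (branch (move 465 (leaf 461 1)) (move 496 (branch (move 497 (leaf 461 0)) (move 431 (branch (move 558 (leaf 430 6)) (move 399 (branch (move 367 (leaf 367 4)) (move 495 (leaf 398 5)))))))))))))))) (branch (move 462 (branch (move 430 (leaf 429 6)) (move 494 (branch (move 589 (leaf 461 6)) (move 492 (branch (move 463 (leaf 459 2)) (move 523 (branch (move 522 (leaf 490 1)) (move 524 (branch (move 495 (leaf 491 1)) (move 556 (branch (move 588 (leaf 460 5)) (move 555 (branch (move 554 (leaf 522 1)) (move 459 (branch (move 458 (leaf 458 3)) (move 427 (leaf 427 4)))))))))))))))))) (move 523 (branch (move 556 (branch (move 588 (leaf 460 5)) (move 555 (branch (move 554 (leaf 522 2)) (move 558 (branch (move 522 (leaf 522 3)) (move 590 (leaf 461 4)))))))) (branch (move 494 (branch (move 524 (branch (move 522 (leaf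 490 2)) (move 495 (leaf 491 2)))) (branch (move 462 (branch (move 430 (leaf 429 5)) (move 492 (branch (move 463 (leaf 459 2)) (move 522 (leaf 490 1)))))) (move 462 (branch (move 430 (leaf 429 5)) (move 495 (branch (move 524 (leaf 491 2)) (move 496 (branch (move 497 (leaf 493 1)) (move 463 (branch (move 492 (leaf 459 2)) (move 464 (branch (move 465 (leaf 461 1)) (move 431 (branch (move 399 (leaf 398 5)) (move 528 (branch (move 529 (leaf 493 0)) (move 560 (leaf 431 7))))))))))))))))))) (move 555 (branch (move 558 (branch (move 590 (leaf 461 4)) (move 462 (branch (move 430 (leaf 429 6)) (move 524 (branch (move 554 (leaf 522 1)) (move 494 (branch (move 495 (leaf 491 2)) (move 463 (branch (move 492 (leaf 459 2)) (move 431 (leaf 430 6)))))))))))) (branch (move 588 (branch (move 556 (leaf 460 5)) (move 558 (branch (move 590 (leaf 461 4)) (move 462 (branch (move 430 (leaf 429 6)) (move 587 (branch (move 620 (leaf 491 4)) (move 618 (branch (move 586 (leaf 490 5)) (move 619 (branch (move 650 (leaf 522 5)) (move 492 (branch (move 524 (leaf 491 6)) (move 463 (branch (move 494 (leaf 459 2)) (move 464 (leaf 460 1)))))))))))))))))) (move 556 (branch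 (move 554 (leaf 522 2)) (move 588 (leaf 460 5))))))))))))))
theorem a6p638 : a6e638.Valid :=
  pos_of_chk [] forall_nil a6c638 a6e638 (by decide +kernel)

def a6e639 : Pos := ⟨329510287718235971474366998805254430062014917377744304631823550625703840069651297107397262701781753134280380731467708960465059242435786173959465399509934145536, 4671939217463851925380813410875667004431405154648887840494240098821721058225291370138174291292026888853653832681584006856715964135696469194535877752066841796815260131087539760761918207155029147648, 13⟩
def a6c639 : Cert := (move 461 (branch (move 558 (branch (move 429 (leaf 429 4)) (move 590 (branch (move 622 (leaf 493 7)) (move 494 (leaf 461 7)))))) (branch (move 557 (branch (move 556 (branch (move 588 (leaf 460 5)) (move 429 (branch (move 524 (leaf 428 5)) (move 430 (branch (move 462 (leaf 429 6)) (move 398 (leaf 397 6)))))))) (branch (move 462 (branch (move 430 (leaf 429 6)) (move 494 (branch (move 589 (leaf 461 6)) (move 492 (branch (move 463 (leaf 459 2)) (move 523 (branch (move 522 (leaf 490 1)) (move 524 (branch (move 495 (leaf 491 1)) (move 556 (branch (move 588 (leaf 460 5)) (move 555 (branch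 (move 554 (leaf 522 1)) (move 459 (branch (move 458 (leaf 458 3)) (move 427 (leaf 427 4)))))))))))))))))) (branch (move 556 (branch (move 588 (leaf 460 5)) (move 429 (branch (move 524 (leaf 428 5)) (move 397 (branch (move 494 (leaf 397 4)) (move 396 (branch (move 428 (leaf 396 7)) (move 364 (leaf 364 7)))))))))) (move 462 (branch (move 430 (leaf 429 6)) (move 494 (branch (move 589 (leaf 461 6)) (move 463 (branch (move 492 (leaf 459 2)) (move 464 (branch (move 465 (leaf 461 1)) (move 429 (branch (move 428 (leaf 428 3)) (move 397 (leaf 397 4)))))))))))))))) (branch (move 429 (branch (move 558 (leaf 429 4)) (move 430 (branch (move 398 (leaf 397 6)) (move 428 (branch (move 396 (leaf 396 7)) (move 462 (branch (move 557 (leaf 429 6)) (move 463 (branch (move 464 (leaf 428 3)) (move 427 (leaf 427 0)))))))))))) (ref 0)))))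
theorem a6p639 : a6e639.Valid :=
  pos_of_chk [a6e638] (forall_cons a6p638 forall_nil) a6c639 a6e639 (by decide +kernel)

def a6e640 : Pos := ⟨329510287711842630449274109544814530582778573417789708781070719735494796166164503497982179760000322023094506261979534534602185055744441249399798447744263127040, 93438783879360135144947344263742183605690955247654579558590154616009974688159228628642141952892813829053526110070775275089406707972660273342368308140599740194381363707628331881588646244364475957248, 7⟩
def a6c640 : Cert := (move 557 (branch (move 556 (branch (move 588 (leaf 460 5)) (move 429 (branch (move 524 (leaf 428 5)) (move 430 (branch (move 462 (leaf 429 6)) (move 398 (leaf 397 6)))))))) (branch (move 588 (branch (move 556 (leaf 460 5)) (move 589 (branch (move 620 (leaf 492 5)) (move 621 (branch (move 494 (leaf 493 6)) (move 622 (branch (move 654 (leaf 525 4)) (move 590 (leaf 493 4)))))))))) (branch (move 462 (branch (move 430 (leaf 429 6)) (move 589 (branch (move 494 (leaf 461 6)) (move 620 (branch (move 588 (leaf 492 5)) (move 621 (branch (move 652 (leaf 524 5)) (move 622 (branch (move 654 (leaf 525 4)) (move 590 (leaf 493 4))))))))))))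 (move 462 (branch (move 430 (leaf 429 6)) (move 494 (branch (move 589 (leaf 461 6)) (move 429 (branch (move 397 (leaf 397 4)) (move 524 (branch (move 556 (leaf 428 5)) (move 523 (branch (move 522 (leaf 490 2)) (move 495 (leaf 491 2))))))))))))))))
theorem a6p640 : a6e640.Valid :=
  pos_of_chk [] forall_nil a6c640 a6e640 (by decide +kernel)

def a6e641 : Pos := ⟨329510287718235971480321261634684041709394978011962837777248580652454349619477264819085059750006708922168537818914860089538825819434318703590980856051545407488, 74751027109579623529899638030131103519553095533873116940430322596622381803993191853790939287933557806542882205119454867127217228583307925877311969170930587653904870567208393970150950543083574394880, 8⟩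
def a6c641 : Cert := (move 557 (branch (move 588 (branch (move 556 (leaf 460 5)) (move 589 (branch (move 620 (leaf 492 5)) (move 621 (branch (move 494 (leaf 493 6)) (move 622 (branch (move 654 (leaf 525 4)) (move 590 (leaf 493 4)))))))))) (branch (move 490 (branch (move 492 (leaf 490 0)) (move 523 (branch (move 524 (leaf 490 3)) (move 556 (branch (move 588 (leaf 460 5)) (move 555 (branch (move 554 (leaf 522 2)) (move 522 (branch (move 558 (leaf 522 3)) (move 458 (branch (move 587 (leaf 458 7)) (move 426 (leaf 426 4)))))))))))))) (move 590 (branch (move 558 (leaf 461 4)) (move 589 (branch (move 622 (leaf 493 4)) (move 621 (branch (move 494 (leaf 493 6)) (move 492 (branch (move 490 (leaf 490 0)) (move 524 (leaf 492 7)))))))))))))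
theorem a6p641 : a6e641.Valid :=
  pos_of_chk [] forall_nil a6c641 a6e641 (by decide +kernel)

def a6e642 : Pos := ⟨471745303432202956748430294103854872999299194261450031558988625307951600951472956130243105466292405692690255801014018431386183168279424898504497985020067861507719823360, 80263304217873168826752692889390264426375551730233153567918919588643415700960310481737156943664139527827848579479934058386155227076970320608393413341214487607916123508262724882610463676031336407811856793600, 7⟩
def a6c642 : Cert := (move 524 (branch (move 590 (branch (move 558 (leaf 461 4)) (move 589 (branch (move 622 (leaf 493 4)) (move 621 (branch (move 492 (leaf 492 7)) (move 653 (branch (move 556 (leaf 524 7)) (move 652 (branch (move 684 (leaf 556 5)) (move 620 (leaf 524 5)))))))))))) (branch (move 523 (branch (move 490 (leaf 490 3)) (move 558 (branch (move 522 (leaf 522 0)) (move 590 (leaf 461 4)))))) (move 490 (branch (move 523 (leaf 490 3)) (move 492 (leaf 490 0)))))))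
theorem a6p642 : a6e642.Valid :=
  pos_of_chk [] forall_nil a6c642 a6e642 (by decide +kernel)

def a6e643 : Pos := ⟨329510287718235971480321261634684041709394978011962837777248580652454349619477264819085059750006708922168537818914860089538825819434318703590980856051545407488, 80263304217873168826752692890909862413674955779267083476980149117828854274025711257151886132592616137553140353277004828857131252810799593387899222652797720730077552249355823383283528460972869067838119215104, 8⟩
def a6c643 : Cert := (move 557 (branch (move 590 (branch (move 558 (leaf 461 4)) (move 589 (branch (move 622 (leaf 493 4)) (move 588 (branch (move 620 (leaf 492 5)) (move 556 (leaf 460 5)))))))) (branch (move 492 (branch (move 490 (leaf 490 0)) (move 590 (branch (move 558 (leaf 461 4)) (move 589 (branch (move 622 (leaf 493 4)) (move 621 (branch (move 524 (leaf 492 7)) (move 620 (branch (move 652 (leaf 524 5)) (move 588 (leaf 492 5)))))))))))) (branch (move 490 (branch (move 492 (leaf 490 0)) (move 523 (branch (move 524 (leaf 490 3)) (move 556 (branch (move 588 (leaf 460 5)) (move 555 (branch (move 554 (leaf 522 2)) (move 458 (branch (move 587 (leaf 458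 7)) (move 426 (branch (move 459 (leaf 426 7)) (move 522 (leaf 426 4)))))))))))))) (ref 0)))))
theorem a6p643 : a6e643.Valid :=
  pos_of_chk [a6e642] (forall_cons a6p642 forall_nil) a6c643 a6e643 (by decide +kernel)

def a6e644 : Pos := ⟨329510287692662607350178390445776385555549299001051788647112106957865626256400251822985742741756205537984254503726406740718496187676276357194735766280805023744, 80263304297296135101583179085134861114936878574402350813524702226838044067897648765109611241546919910078491124576563106805825838499244395357850031558342666974472456838029604531192865247599369760072938815488, 15⟩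
def a6c644 : Cert := (move 493 (branch (ref 0) (branch (ref 1) (branch (move 461 (branch (move 558 (branch (move 429 (leaf 429 4)) (move 590 (branch (move 622 (leaf 493 7)) (move 494 (leaf 461 7)))))) (branch (move 429 (branch (move 558 (leaf 429 4)) (move 430 (branch (move 398 (leaf 397 6)) (move 428 (branch (move 396 (leaf 396 7)) (move 462 (branch (move 557 (leaf 429 6)) (move 463 (branch (move 464 (leaf 428 3)) (move 427 (leaf 427 0)))))))))))) (branch (ref 2) (ref 3))))) (branch (move 492 (branch (move 490 (leaf 490 0)) (move 494 (branch (ref 4) (branch (move 523 (branch (move 522 (leaf 490 1)) (move 558 (branch (move 462 (branch (move 463 (leaf 459 2)) (move 429 (branch (move 461 (leaf 429 4)) (move 430 (branch (move 397 (leaf 397 7)) (move 398 (leaf 397 5)))))))) (branch (move 590 (branch (move 622 (leaf 493 7)) (move 463 (branch (move 462 (leaf 459 2)) (move 495 (leaf 462 6)))))) (move 590 (branch (move 622 (leaf 493 7)) (move 461 (leaf 461 7))))))))) (branch (move 523 (branch (move 522 (leaf 490 1)) (move 524 (branch (move 495 (leaf 491 1)) (move 459 (branch (move 458 (leaf 458 3)) (move 556 (branch (move 588 (leaf 459 7))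 (move 427 (leaf 427 4)))))))))) (move 462 (branch (move 463 (leaf 459 2)) (move 430 (branch (move 398 (leaf 397 5)) (move 429 (branch (move 397 (leaf 397 7)) (move 461 (branch (move 558 (leaf 429 4)) (move 524 (branch (move 556 (leaf 428 5)) (move 523 (branch (move 522 (leaf 490 1)) (move 459 (branch (move 458 (leaf 458 3)) (move 427 (branch (move 395 (leaf 395 4)) (move 428 (branch (move 426 (leaf 426 0)) (move 396 (leaf 395 6)))))))))))))))))))))))))) (branch (move 461 (branch (move 558 (branch (move 429 (leaf 429 4)) (move 590 (branch (move 622 (leaf 493 7)) (move 494 (leaf 461 7)))))) (branch (move 429 (branch (move 558 (leaf 429 4)) (move 492 (branch (move 490 (leaf 490 0)) (move 524 (branch (move 556 (leaf 428 5)) (move 397 (leaf 396 5)))))))) (branch (move 490 (branch (move 492 (leaf 490 0)) (move 524 (branch (move 523 (leaf 490 3)) (move 429 (branch (move 556 (leaf 428 5)) (move 397 (branch (move 494 (leaf 397 4)) (move 396 (branch (move 428 (leaf 396 7)) (move 364 (leaf 364 7)))))))))))) (ref 5))))) (branch (move 461 (branch (move 558 (branch (move 429 (leaf 429 4)) (move 590 (branch (move 622 (leaf 493 7)) (move 494 (leaf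 461 7)))))) (branch (move 429 (branch (move 558 (leaf 429 4)) (move 430 (branch (move 398 (leaf 397 6)) (move 428 (branch (move 396 (leaf 396 7)) (move 462 (branch (move 557 (leaf 429 6)) (move 463 (branch (move 464 (leaf 428 3)) (move 427 (leaf 427 0)))))))))))) (branch (move 462 (branch (move 430 (branch (move 557 (leaf 429 6)) (move 398 (branch (move 429 (leaf 397 6)) (move 366 (leaf 365 5)))))) (move 492 (branch (move 490 (leaf 490 0)) (move 463 (branch (move 494 (leaf 459 2)) (move 464 (leaf 460 1)))))))) (move 557 (branch (move 462 (branch (move 430 (leaf 429 6)) (move 492 (branch (move 490 (leaf 490 0)) (move 463 (branch (move 494 (leaf 459 2)) (move 464 (leaf 460 1)))))))) (branch (move 590 (branch (move 558 (leaf 461 4)) (move 589 (branch (move 622 (leaf 493 4)) (move 494 (branch (move 621 (leaf 493 6)) (move 462 (leaf 461 6)))))))) (move 492 (branch (move 490 (leaf 490 0)) (move 590 (branch (move 558 (leaf 461 4)) (move 589 (branch (move 622 (leaf 493 4)) (move 621 (branch (move 524 (leaf 492 7)) (move 620 (branch (move 652 (leaf 524 5)) (move 588 (leaf 492 5))))))))))))))))))) (branch (move 492 (branch (move 490 (leaf 490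 0)) (move 494 (branch (move 462 (branch (move 463 (leaf 459 2)) (move 557 (branch (move 589 (leaf 461 6)) (move 430 (leaf 429 5)))))) (move 523 (branch (move 522 (leaf 490 1)) (move 524 (branch (move 495 (leaf 491 1)) (move 459 (branch (move 458 (leaf 458 3)) (move 427 (branch (move 556 (leaf 427 4)) (move 395 (leaf 395 4)))))))))))))) (move 461 (branch (move 429 (branch (move 558 (leaf 429 4)) (move 430 (branch (move 398 (leaf 397 6)) (move 428 (branch (move 396 (leaf 396 7)) (move 462 (branch (move 557 (leaf 429 6)) (move 463 (branch (move 464 (leaf 428 3)) (move 427 (leaf 427 0)))))))))))) (branch (move 429 (branch (move 558 (leaf 429 4)) (move 492 (branch (move 490 (leaf 490 0)) (move 524 (branch (move 556 (leaf 428 5)) (move 397 (leaf 396 5)))))))) (branch (move 490 (branch (move 492 (leaf 490 0)) (move 524 (branch (move 523 (leaf 490 3)) (move 429 (branch (move 556 (leaf 428 5)) (move 430 (branch (move 398 (leaf 397 6)) (move 428 (branch (move 396 (leaf 396 7)) (move 462 (branch (move 557 (leaf 429 6)) (move 427 (branch (move 426 (leaf 426 0)) (move 463 (leaf 427 0)))))))))))))))) (ref 6)))))))))))))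
theorem a6p644 : a6e644.Valid :=
  pos_of_chk [a6e639, a6e617, a6e628, a6e640, a6e610, a6e641, a6e643] (forall_cons a6p639 (forall_cons a6p617 (forall_cons a6p628 (forall_cons a6p640 (forall_cons a6p610 (forall_cons a6p641 (forall_cons a6p643 forall_nil))))))) a6c644 a6e644 (by decide +kernel)

def a6e645 : Pos := ⟨471745303432202956748430294103854872999299194261450031558988625307951600951472956130243105466292405692690255801014018431386183168279424898504497985020067861507719823360, 17404329754698216237819711127898550527621790508067817920454793014570533712654624552301443759567814962202157867286550171183802579572020943063147838946805733136648651115823114208154788823040, 9⟩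
def a6c645 : Cert := (move 523 (branch (move 590 (branch (move 558 (leaf 461 4)) (move 589 (branch (move 622 (leaf 493 4)) (move 460 (branch (move 428 (leaf 428 7)) (move 462 (branch (move 430 (leaf 429 6)) (move 459 (branch (move 490 (leaf 458 1)) (move 426 (branch (move 427 (leaf 426 3)) (move 458 (branch (move 425 (leaf 425 3)) (move 555 (leaf 426 7)))))))))))))))) (branch (move 490 (branch (move 524 (leaf 490 3)) (move 460 (branch (move 428 (leaf 428 7)) (move 462 (branch (move 459 (leaf 458 1)) (move 430 (leaf 429 6)))))))) (move 555 (branch (move 558 (branch (move 590 (leaf 461 4)) (move 522 (branch (move 556 (leaf 522 3)) (move 524 (leaf 522 0)))))) (branch (move 554 (branch (move 556 (leaf 522 2)) (move 524 (leaf 522 1)))) (branch (move 558 (branch (move 590 (leaf 461 4)) (move 524 (branch (move 522 (leaf 522 0)) (move 554 (leaf 522 1)))))) (move 558 (branch (move 590 (leaf 461 4)) (move 556 (branch (move 554 (leaf 522 2)) (move 522 (leaf 522 3)))))))))))))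
theorem a6p645 : a6e645.Valid :=
  pos_of_chk [] forall_nil a6c645 a6e645 (by decide +kernel)

def a6e646 : Pos := ⟨329510287718235971474366998805254430062014917377744304631823550625703840069651297107397262701781753134280380731467708960465059242435786173959465399509934145536, 471546912095463268610916027456788510574473677869585655874881055401753213502276452180581870266321338354608534586872654265052422941191369599201403760844368205455818378249213147550808864836548210890949636653056, 17⟩
def a6c646 : Cert := (move 461 (branch (move 558 (branch (move 429 (leaf 429 4)) (move 590 (branch (move 622 (leaf 493 7)) (move 494 (leaf 461 7)))))) (branch (move 429 (branch (move 558 (leaf 429 4)) (move 428 (branch (move 396 (leaf 396 7)) (move 430 (branch (move 398 (leaf 397 6)) (move 557 (branch (move 462 (leaf 429 6)) (move 460 (leaf 428 7)))))))))) (branch (move 557 (branch (move 462 (branch (move 430 (leaf 429 6)) (move 494 (branch (move 589 (leaf 461 6)) (move 460 (branch (move 428 (leaf 428 7)) (move 495 (branch (move 496 (leaf 460 3)) (move 459 (leaf 459 0)))))))))) (branch (move 428 (branch (move 460 (leaf 428 7)) (move 429 (branch (move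 396 (leaf 396 7)) (move 397 (branch (move 494 (leaf 397 4)) (move 398 (branch (move 430 (leaf 397 6)) (move 366 (leaf 365 6)))))))))) (branch (move 428 (branch (move 460 (leaf 428 7)) (move 429 (branch (move 396 (leaf 396 7)) (move 430 (branch (move 462 (leaf 429 6)) (move 398 (leaf 397 6)))))))) (branch (move 462 (branch (move 430 (leaf 429 6)) (move 494 (branch (move 589 (leaf 461 6)) (move 429 (branch (move 397 (leaf 397 4)) (move 524 (branch (move 556 (leaf 428 5)) (move 523 (branch (move 522 (leaf 490 2)) (move 495 (leaf 491 2)))))))))))) (move 428 (branch (move 460 (leaf 428 7)) (move 429 (branch (move 396 (leaf 396 7)) (move 494 (branch (move 397 (leaf 397 4)) (move 589 (branch (move 621 (leaf 493 6)) (move 462 (leaf 461 6))))))))))))))) (move 557 (branch (move 462 (branch (move 430 (leaf 429 6)) (move 494 (branch (move 589 (leaf 461 6)) (move 460 (branch (move 428 (leaf 428 7)) (move 495 (branch (move 496 (leaf 460 3)) (move 459 (leaf 459 0)))))))))) (branch (move 558 (branch (move 590 (leaf 461 4)) (move 462 (branch (move 430 (leaf 429 6)) (move 460 (branch (move 428 (leaf 428 7)) (move 459 (branch (move 490 (leaf 458 1))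 (move 494 (branch (move 458 (leaf 458 0)) (move 495 (leaf 459 0)))))))))))) (branch (move 590 (branch (move 558 (leaf 461 4)) (move 589 (branch (move 622 (leaf 493 4)) (move 621 (branch (move 494 (leaf 493 6)) (move 652 (branch (move 620 (leaf 524 5)) (move 653 (branch (move 684 (leaf 556 5)) (move 654 (branch (move 686 (leaf 557 4)) (move 524 (branch (move 556 (leaf 524 7)) (move 523 (branch (move 490 (leaf 490 3)) (move 554 (branch (move 555 (leaf 522 1)) (move 522 (branch (move 553 (leaf 521 1)) (move 618 (branch (move 586 (leaf 490 6)) (move 651 (branch (move 619 (leaf 618 3)) (move 650 (branch (move 617 (leaf 617 3)) (move 682 (branch (move 681 (leaf 649 1)) (move 683 (leaf 650 1)))))))))))))))))))))))))))))) (ref 0)))))))))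
theorem a6p646 : a6e646.Valid :=
  pos_of_chk [a6e645] (forall_cons a6p645 forall_nil) a6c646 a6e646 (by decide +kernel)

def a6e647 : Pos := ⟨329510287718235971474366998805254430062014917377744304631823550625703840069651297107397262701781753134280380731467708960465059242435786173959465399509934145536, 26106494629008128382808892466845925934240723313611348129508946935539796168621248810621322441406859383343571641553263038139657526606589285199623453257808966404910980868805742603100124872704, 6⟩
def a6c647 : Cert := (move 461 (branch (move 558 (branch (move 429 (leaf 429 4)) (move 590 (branch (move 622 (leaf 493 7)) (move 494 (leaf 461 7)))))) (branch (move 429 (branch (move 558 (leaf 429 4)) (move 428 (branch (move 396 (leaf 396 7)) (move 430 (branch (move 398 (leaf 397 6)) (move 557 (branch (move 462 (leaf 429 6)) (move 460 (leaf 428 7)))))))))) (branch (move 462 (branch (move 430 (branch (move 557 (leaf 429 6)) (move 398 (branch (move 429 (leaf 397 6)) (move 366 (leaf 365 5)))))) (move 492 (branch (move 490 (leaf 490 0)) (move 463 (branch (move 494 (leaf 459 2)) (move 464 (leaf 460 1)))))))) (move 557 (branch (move 590 (branch (move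 558 (leaf 461 4)) (move 589 (branch (move 622 (leaf 493 4)) (move 460 (branch (move 492 (leaf 460 7)) (move 428 (leaf 428 7)))))))) (branch (move 492 (branch (move 490 (leaf 490 0)) (move 460 (branch (move 428 (leaf 428 7)) (move 462 (branch (move 463 (leaf 459 1)) (move 430 (leaf 429 6)))))))) (move 590 (branch (move 558 (leaf 461 4)) (move 589 (branch (move 622 (leaf 493 4)) (move 494 (branch (move 621 (leaf 493 6)) (move 462 (leaf 461 6)))))))))))))))
theorem a6p647 : a6e647.Valid :=
  pos_of_chk [] forall_nil a6c647 a6e647 (by decide +kernel)

def a6e648 : Pos := ⟨329510287718235971474366998805254430062014917377744304631823550625703840069651297107397262701781753134280380731467708960465059242435786173959465399509934145536, 93438783881535676388724822246386806760955242695652463880681632262942915000313512281871953355621625252249586100926863120911999635672080414272379518992914691431021314041512228894462537145226507583488, 10⟩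
def a6c648 : Cert := (move 557 (branch (move 461 (branch (move 556 (branch (move 588 (leaf 460 5)) (move 429 (branch (move 524 (leaf 428 5)) (move 428 (branch (move 460 (leaf 428 7)) (move 396 (leaf 396 7)))))))) (branch (move 556 (branch (move 588 (leaf 460 5)) (move 558 (branch (move 590 (leaf 461 4)) (move 555 (branch (move 554 (leaf 522 2)) (move 523 (branch (move 522 (leaf 522 3)) (move 460 (branch (move 428 (leaf 428 7)) (move 587 (branch (move 586 (leaf 554 1)) (move 492 (leaf 459 6)))))))))))))) (move 558 (branch (move 590 (leaf 461 4)) (move 429 (leaf 429 4))))))) (branch (ref 0) (branch (move 461 (branch (move 558 (branch (move 590 (leaf 461 4)) (move 429 (leaf 429 4)))) (move 460 (branch (move 428 (leaf 428 7)) (move 492 (branch (move 589 (leaf 460 7)) (move 462 (branch (move 463 (leaf 459 1)) (move 430 (leaf 429 6)))))))))) (branch (move 461 (branch (move 558 (branch (move 590 (leaf 461 4)) (move 429 (leaf 429 4)))) (branch (move 556 (branch (move 588 (leaf 460 5)) (move 429 (branch (move 524 (leaf 428 5)) (move 430 (branch (move 462 (leaf 429 6)) (move 398 (leaf 397 6)))))))) (move 590 (branch (move 558 (leaf 461 4)) (move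 589 (branch (move 622 (leaf 493 4)) (move 588 (branch (move 620 (leaf 492 5)) (move 556 (leaf 460 5))))))))))) (move 589 (branch (move 492 (branch (move 460 (leaf 460 7)) (move 621 (branch (move 524 (leaf 492 7)) (move 620 (branch (move 652 (leaf 524 5)) (move 588 (leaf 492 5)))))))) (branch (move 622 (branch (move 590 (leaf 493 4)) (move 621 (branch (move 654 (leaf 525 4)) (move 492 (branch (move 524 (leaf 492 7)) (move 460 (leaf 460 7)))))))) (branch (move 622 (branch (move 590 (leaf 493 4)) (move 621 (branch (move 654 (leaf 525 4)) (move 620 (branch (move 652 (leaf 524 5)) (move 588 (leaf 492 5)))))))) (move 556 (branch (move 590 (branch (move 622 (leaf 493 4)) (move 555 (branch (move 554 (leaf 554 0)) (move 591 (branch (move 592 (leaf 556 3)) (move 558 (leaf 555 0)))))))) (branch (move 588 (branch (move 620 (leaf 492 5)) (move 555 (branch (move 554 (leaf 522 2)) (move 492 (branch (move 460 (leaf 460 7)) (move 459 (branch (move 524 (leaf 459 7)) (move 523 (leaf 459 4)))))))))) (move 588 (branch (move 620 (leaf 492 5)) (move 590 (branch (move 622 (leaf 493 4)) (move 492 (branch (move 460 (leaf 460 7)) (move 524 (branch (move 459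 (leaf 459 7)) (move 587 (branch (move 619 (leaf 491 5)) (move 586 (branch (move 585 (leaf 553 2)) (move 558 (leaf 554 2))))))))))))))))))))))))))
theorem a6p648 : a6e648.Valid :=
  pos_of_chk [a6e608] (forall_cons a6p608 forall_nil) a6c648 a6e648 (by decide +kernel)

def a6e649 : Pos := ⟨329510287692662607350178390445776385555549299001051788647112106957865626256400251822985742741756205537984254503726406740718496187676276357194735766280805023744, 93438783881535676388724822246386806760955242696448434839189905006077317066401329076062013663648656513236300226936218741212754821934676289608399019498457089473658664254400672522454252090530914631680, 14⟩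
def a6c649 : Cert := (move 493 (branch (ref 0) (branch (move 461 (branch (ref 1) (branch (move 558 (branch (move 429 (leaf 429 4)) (move 590 (branch (move 622 (leaf 493 7)) (move 494 (leaf 461 7)))))) (ref 2)))) (branch (move 461 (branch (ref 1) (branch (move 558 (branch (move 429 (leaf 429 4)) (move 590 (branch (move 622 (leaf 493 7)) (move 494 (leaf 461 7)))))) (ref 3)))) (branch (ref 4) (branch (move 492 (branch (move 490 (leaf 490 0)) (move 494 (branch (move 462 (branch (move 463 (leaf 459 2)) (move 430 (branch (move 557 (leaf 429 5)) (move 398 (leaf 397 5)))))) (move 523 (branch (move 522 (leaf 490 1)) (move 524 (branch (move 495 (leaf 491 1)) (move 555 (branch (move 554 (leaf 522 1)) (move 460 (branch (move 587 (leaf 459 6)) (move 428 (leaf 427 5)))))))))))))) (branch (ref 5) (move 461 (branch (move 558 (branch (move 429 (leaf 429 4)) (move 590 (branch (move 622 (leaf 493 7)) (move 494 (leaf 461 7)))))) (branch (ref 6) (branch (move 429 (branch (move 558 (leaf 429 4)) (move 428 (branch (move 396 (leaf 396 7)) (move 430 (branch (move 398 (leaf 397 6)) (move 557 (branch (move 462 (leaf 429 6)) (move 460 (leaf 428 7)))))))))) (move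 557 (branch (move 590 (branch (move 558 (leaf 461 4)) (move 589 (branch (move 622 (leaf 493 4)) (move 588 (branch (move 620 (leaf 492 5)) (move 556 (leaf 460 5)))))))) (branch (move 462 (branch (move 430 (leaf 429 6)) (move 494 (branch (move 589 (leaf 461 6)) (move 460 (branch (move 428 (leaf 428 7)) (move 495 (branch (move 496 (leaf 460 3)) (move 459 (leaf 459 0)))))))))) (move 558 (branch (move 590 (leaf 461 4)) (move 462 (branch (move 430 (leaf 429 6)) (move 460 (branch (move 428 (leaf 428 7)) (move 459 (branch (move 490 (leaf 458 1)) (move 494 (branch (move 495 (leaf 459 0)) (move 463 (branch (move 431 (leaf 430 6)) (move 556 (branch (move 588 (leaf 460 5)) (move 555 (branch (move 554 (leaf 522 2)) (move 523 (branch (move 522 (leaf 522 3)) (move 427 (branch (move 426 (leaf 426 3)) (move 524 (leaf 427 4))))))))))))))))))))))))))))))))))))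
theorem a6p649 : a6e649.Valid :=
  pos_of_chk [a6e648, a6e616, a6e612, a6e614, a6e617, a6e627, a6e606] (forall_cons a6p648 (forall_cons a6p616 (forall_cons a6p612 (forall_cons a6p614 (forall_cons a6p617 (forall_cons a6p627 (forall_cons a6p606 forall_nil))))))) a6c649 a6e649 (by decide +kernel)

def a6e650 : Pos := ⟨329510287692662607350178390445776385555549299001051788647112106957865626256400251822985742741756205537984254503726406740718496187676276357194735766280805023744, 80263304292624195905874739353380084332576987889195693922057448031071725127047979595007210504709418289451750331805354749174385632216864675599617969952815709077064756771686153858929867488314769099800730140672, 10⟩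
def a6c650 : Cert := (move 493 (branch (ref 0) (branch (ref 1) (branch (move 492 (branch (move 490 (leaf 490 0)) (move 494 (branch (move 462 (branch (move 463 (leaf 459 2)) (move 430 (branch (move 557 (leaf 429 5)) (move 398 (leaf 397 5)))))) (move 523 (branch (move 522 (leaf 490 1)) (move 524 (branch (move 495 (leaf 491 1)) (move 459 (branch (move 458 (leaf 458 3)) (move 556 (branch (move 588 (leaf 459 7)) (move 427 (leaf 427 4)))))))))))))) (branch (move 461 (branch (move 558 (branch (move 429 (leaf 429 4)) (move 590 (branch (move 622 (leaf 493 7)) (move 494 (leaf 461 7)))))) (branch (move 429 (branch (move 558 (leaf 429 4)) (move 430 (branch (move 398 (leaf 397 6)) (move 557 (branch (move 462 (leaf 429 6)) (move 556 (branch (move 588 (leaf 460 5)) (move 524 (leaf 428 5)))))))))) (branch (ref 2) (ref 3))))) (branch (move 461 (branch (move 429 (branch (move 558 (leaf 429 4)) (move 492 (branch (move 490 (leaf 490 0)) (move 524 (branch (move 556 (leaf 428 5)) (move 397 (leaf 396 5)))))))) (branch (move 462 (branch (move 430 (branch (move 557 (leaf 429 6)) (move 398 (branch (move 429 (leaf 397 6)) (move 366 (leaf 365 5)))))) (move 492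 (branch (move 490 (leaf 490 0)) (move 463 (branch (move 460 (leaf 459 1)) (move 464 (leaf 460 1)))))))) (branch (move 429 (branch (move 558 (leaf 429 4)) (move 430 (branch (move 398 (leaf 397 6)) (move 557 (branch (move 462 (leaf 429 6)) (move 556 (branch (move 588 (leaf 460 5)) (move 524 (leaf 428 5)))))))))) (ref 4))))) (branch (move 494 (branch (ref 5) (branch (move 523 (branch (move 522 (branch (move 524 (leaf 490 2)) (move 492 (leaf 490 1)))) (branch (move 524 (branch (move 522 (leaf 490 2)) (move 490 (leaf 490 3)))) (branch (move 492 (branch (move 490 (leaf 490 0)) (move 522 (leaf 490 1)))) (move 490 (branch (move 524 (leaf 490 3)) (move 492 (leaf 490 0)))))))) (move 492 (branch (move 490 (leaf 490 0)) (move 462 (branch (move 463 (leaf 459 2)) (move 430 (branch (move 398 (leaf 397 5)) (move 429 (branch (move 397 (leaf 397 7)) (move 461 (branch (move 558 (leaf 429 4)) (move 459 (branch (move 458 (leaf 458 3)) (move 460 (branch (move 431 (leaf 427 2)) (move 495 (leaf 459 0))))))))))))))))))) (move 461 (branch (move 558 (branch (move 429 (leaf 429 4)) (move 590 (branch (move 622 (leaf 493 7)) (move 494 (leaf 461 7)))))) (branch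 (ref 6) (move 490 (branch (move 492 (leaf 490 0)) (move 524 (branch (move 523 (leaf 490 3)) (move 556 (branch (move 429 (leaf 428 5)) (move 588 (branch (move 620 (leaf 492 6)) (move 557 (leaf 460 5))))))))))))))))))))
theorem a6p650 : a6e650.Valid :=
  pos_of_chk [a6e632, a6e617, a6e628, a6e640, a6e643, a6e631, a6e641] (forall_cons a6p632 (forall_cons a6p617 (forall_cons a6p628 (forall_cons a6p640 (forall_cons a6p643 (forall_cons a6p631 (forall_cons a6p641 forall_nil))))))) a6c650 a6e650 (by decide +kernel)

def a6e651 : Pos := ⟨329510287718235971474366998805254430062014917377744304631823550625703840069651297107397262701781753134280380731467708960465059242435786173959465399509934145536, 74751027105228541092997948288774455974353227120262062114404219903466585150786975450424746584803838543391094562376938700648669154057827789707221180458850944122642099348776669342747695449235620102144, 10⟩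
def a6c651 : Cert := (move 557 (branch (move 461 (branch (move 558 (branch (move 590 (leaf 461 4)) (move 429 (leaf 429 4)))) (move 460 (branch (move 428 (leaf 428 7)) (move 492 (branch (move 589 (leaf 460 7)) (move 462 (branch (move 463 (leaf 459 1)) (move 430 (leaf 429 6)))))))))) (branch (move 492 (branch (move 490 (leaf 490 0)) (move 589 (branch (move 460 (leaf 460 7)) (move 621 (branch (move 524 (leaf 492 7)) (move 622 (branch (move 654 (leaf 525 4)) (move 590 (leaf 493 4)))))))))) (branch (move 461 (branch (move 556 (branch (move 588 (leaf 460 5)) (move 429 (branch (move 524 (leaf 428 5)) (move 428 (branch (move 460 (leaf 428 7)) (move 396 (leaf 396 7)))))))) (branch (move 556 (branch (move 588 (leaf 460 5)) (move 429 (branch (move 524 (leaf 428 5)) (move 430 (branch (move 462 (leaf 429 6)) (move 398 (leaf 397 6)))))))) (branch (move 428 (branch (move 460 (leaf 428 7)) (move 429 (branch (move 396 (leaf 396 7)) (move 430 (branch (move 462 (leaf 429 6)) (move 398 (leaf 397 6)))))))) (move 556 (branch (move 588 (leaf 460 5)) (move 555 (branch (move 554 (leaf 522 2)) (move 460 (branch (move 428 (leaf 428 7)) (move 462 (branch (move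 430 (leaf 429 6)) (move 459 (branch (move 490 (leaf 458 1)) (move 426 (branch (move 427 (leaf 426 3)) (move 458 (branch (move 425 (leaf 425 3)) (move 523 (leaf 426 7)))))))))))))))))))) (move 461 (branch (move 558 (branch (move 590 (leaf 461 4)) (move 429 (leaf 429 4)))) (branch (move 556 (branch (move 588 (leaf 460 5)) (move 429 (branch (move 524 (leaf 428 5)) (move 430 (branch (move 462 (leaf 429 6)) (move 398 (leaf 397 6)))))))) (move 558 (branch (move 590 (leaf 461 4)) (move 556 (branch (move 588 (leaf 460 5)) (move 555 (branch (move 554 (leaf 522 2)) (move 523 (branch (move 522 (leaf 522 3)) (move 587 (branch (move 586 (leaf 554 1)) (move 490 (branch (move 524 (leaf 490 3)) (move 458 (leaf 458 7)))))))))))))))))))))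
theorem a6p651 : a6e651.Valid :=
  pos_of_chk [] forall_nil a6c651 a6e651 (by decide +kernel)

def a6e652 : Pos := ⟨329510287692662607350178390445776385555549299001051788647112106957865626256400251822985742741756205537984254503726406740718496187676276357194735766280805023744, 74751027105228541092997948292548418401810850774786545113938287868319708801591820668471437592338454542586810876650355797787338007273515579227496317438348429245776581715574123990307894602981668028416, 15⟩
def a6c652 : Cert := (move 493 (branch (ref 0) (branch (ref 1) (branch (ref 2) (branch (move 492 (branch (move 490 (leaf 490 0)) (move 494 (branch (move 462 (branch (move 463 (leaf 459 2)) (move 430 (branch (move 557 (leaf 429 5)) (move 398 (leaf 397 5)))))) (move 523 (branch (move 522 (leaf 490 1)) (move 524 (branch (move 495 (leaf 491 1)) (move 459 (branch (move 458 (leaf 458 3)) (move 556 (branch (move 588 (leaf 459 7)) (move 427 (leaf 427 4)))))))))))))) (branch (ref 3) (branch (move 461 (branch (move 558 (branch (move 429 (leaf 429 4)) (move 590 (branch (move 622 (leaf 493 7)) (move 494 (leaf 461 7)))))) (branch (ref 4) (branch (move 429 (branch (move 558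 (leaf 429 4)) (move 428 (branch (move 396 (leaf 396 7)) (move 430 (branch (move 398 (leaf 397 6)) (move 557 (branch (move 462 (leaf 429 6)) (move 460 (leaf 428 7)))))))))) (move 557 (branch (move 556 (branch (move 588 (leaf 460 5)) (move 555 (branch (move 554 (leaf 522 2)) (move 460 (branch (move 428 (leaf 428 7)) (move 462 (branch (move 430 (leaf 429 6)) (move 459 (branch (move 490 (leaf 458 1)) (move 426 (branch (move 427 (leaf 426 3)) (move 458 (branch (move 425 (leaf 425 3)) (move 523 (leaf 426 7)))))))))))))))) (branch (move 590 (branch (move 558 (leaf 461 4)) (move 589 (branch (move 622 (leaf 493 4)) (move 494 (branch (move 621 (leaf 493 6)) (move 462 (leaf 461 6)))))))) (move 558 (branch (move 590 (leaf 461 4)) (move 556 (branch (move 588 (leaf 460 5)) (move 555 (branch (move 554 (leaf 522 2)) (move 523 (branch (move 522 (leaf 522 3)) (move 587 (branch (move 586 (leaf 554 1)) (move 490 (branch (move 524 (leaf 490 3)) (move 458 (leaf 458 7))))))))))))))))))))) (ref 5))))))))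
theorem a6p652 : a6e652.Valid :=
  pos_of_chk [a6e632, a6e611, a6e634, a6e647, a6e606, a6e651] (forall_cons a6p632 (forall_cons a6p611 (forall_cons a6p634 (forall_cons a6p647 (forall_cons a6p606 (forall_cons a6p651 forall_nil)))))) a6c652 a6e652 (by decide +kernel)

def a6e653 : Pos := ⟨329510287718235971474366998805254430062014917377744304631823550625703840069651297107397262701781753134280380731467708960465059242435786173959465399509934145536, 17404329752672085588539261644660057790804211630449332599663994118399616840709835815275421092383934555938153113821817107733369233361419010686668535093200238217451622504270338157485536313344, 9⟩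
def a6c653 : Cert := (move 494 (branch (ref 0) (branch (move 462 (branch (move 430 (branch (move 398 (leaf 397 5)) (move 463 (branch (move 492 (leaf 459 2)) (move 431 (branch (move 558 (leaf 430 6)) (move 399 (leaf 398 6)))))))) (branch (move 463 (branch (move 492 (leaf 459 2)) (move 558 (branch (move 431 (leaf 430 6)) (move 461 (branch (move 590 (leaf 461 7)) (move 429 (leaf 429 4)))))))) (branch (move 430 (branch (move 398 (leaf 397 5)) (move 429 (branch (move 397 (leaf 397 7)) (move 461 (branch (move 558 (leaf 429 4)) (move 431 (branch (move 399 (leaf 398 6)) (move 460 (branch (move 459 (leaf 427 2)) (move 432 (leaf 428 1)))))))))))) (move 430 (branch (move 398 (leaf 397 5)) (move 429 (branch (move 397 (leaf 397 7)) (move 463 (branch (move 492 (leaf 459 2)) (move 464 (branch (move 465 (leaf 461 1)) (move 428 (branch (move 461 (leaf 428 3)) (move 427 (leaf 427 0)))))))))))))))) (branch (move 495 (branch (move 523 (branch (move 524 (leaf 491 2)) (move 492 (branch (move 522 (leaf 490 1)) (move 459 (branch (move 458 (leaf 458 3)) (move 460 (leaf 459 3)))))))) (branch (move 496 (branch (move 524 (leaf 492 1)) (move 497 (leaf 493 1))))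 (move 496 (branch (move 497 (leaf 493 1)) (move 461 (branch (move 460 (leaf 460 3)) (move 429 (branch (move 558 (leaf 429 4)) (move 397 (leaf 397 4))))))))))) (branch (move 495 (branch (move 496 (branch (move 524 (leaf 492 1)) (move 497 (leaf 493 1)))) (branch (move 523 (branch (move 524 (leaf 491 2)) (move 492 (branch (move 522 (leaf 490 1)) (move 463 (branch (move 462 (leaf 459 2)) (move 464 (leaf 460 2)))))))) (move 496 (branch (move 497 (leaf 493 1)) (move 464 (branch (move 465 (leaf 461 2)) (move 463 (branch (move 492 (leaf 460 2)) (move 431 (branch (move 399 (leaf 398 5)) (move 558 (branch (move 590 (leaf 462 6)) (move 462 (leaf 430 6))))))))))))))) (ref 1))))))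
theorem a6p653 : a6e653.Valid :=
  pos_of_chk [a6e629, a6e631] (forall_cons a6p629 (forall_cons a6p631 forall_nil)) a6c653 a6e653 (by decide +kernel)

def a6e654 : Pos := ⟨471745303432202956748430294097900610169869582614069970924770092162526570924722446580417137754604608644465300013125861343939032039205658321505965455388552404966108561408, 8702164876336042794033758170826736144488742898776625099422465136935025505253027441042010454996073728783225576368286432144082266564307037664342473580928654235068040844317965235197130571776, 11⟩
def a6c654 : Cert := (move 461 (branch (move 460 (branch (move 428 (leaf 428 7)) (move 492 (branch (move 589 (leaf 460 7)) (move 462 (branch (move 463 (leaf 459 1)) (move 430 (leaf 429 6)))))))) (branch (move 462 (branch (move 430 (leaf 429 6)) (move 460 (branch (move 428 (leaf 428 7)) (move 463 (branch (move 492 (leaf 459 1)) (move 495 (branch (move 496 (leaf 460 0)) (move 494 (branch (move 459 (leaf 459 0)) (move 431 (branch (move 432 (leaf 428 2)) (move 399 (leaf 398 5)))))))))))))) (branch (move 462 (branch (move 430 (leaf 429 6)) (move 494 (branch (move 589 (leaf 461 6)) (move 460 (branch (move 428 (leaf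 428 7)) (move 495 (branch (move 496 (leaf 460 3)) (move 459 (leaf 459 0)))))))))) (branch (move 462 (branch (move 430 (leaf 429 6)) (move 494 (branch (move 589 (leaf 461 6)) (move 492 (branch (move 463 (leaf 459 2)) (move 523 (branch (move 522 (leaf 490 1)) (move 524 (branch (move 495 (leaf 491 1)) (move 429 (branch (move 397 (leaf 397 4)) (move 459 (branch (move 458 (leaf 458 3)) (move 427 (branch (move 395 (leaf 395 4)) (move 428 (branch (move 426 (leaf 426 0)) (move 396 (leaf 395 6)))))))))))))))))))) (branch (move 460 (branch (move 428 (leaf 428 7)) (move 589 (branch (move 492 (leaf 460 7)) (move 494 (branch (move 621 (leaf 493 6)) (move 495 (branch (move 496 (leaf 460 3)) (move 429 (branch (move 397 (leaf 397 4)) (move 524 (branch (move 523 (leaf 491 2)) (move 556 (leaf 428 5)))))))))))))) (move 462 (branch (move 430 (leaf 429 6)) (move 494 (branch (move 589 (leaf 461 6)) (move 492 (branch (move 463 (leaf 459 2)) (move 459 (branch (move 458 (leaf 458 3)) (move 495 (branch (move 460 (leaf 459 0)) (move 524 (branch (move 523 (leaf 491 1)) (move 496 (leaf 492 1))))))))))))))))))))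
theorem a6p654 : a6e654.Valid :=
  pos_of_chk [] forall_nil a6c654 a6e654 (by decide +kernel)

def a6e655 : Pos := ⟨329510287718235971474366998805254430062014917377744304631823550625703840069651297107397262701781753134280380731467708960465059242435786173959465399509934145536, 93438783879360135144947344267693050521812088652899158562335803024890152385745475775553445239981782418977158316911504220789176632774712359616270818540958114872966879913778881363016336358398769496064, 12⟩
def a6c655 : Cert := (move 557 (branch (move 461 (branch (move 556 (branch (move 588 (leaf 460 5)) (move 429 (branch (move 524 (leaf 428 5)) (move 428 (branch (move 460 (leaf 428 7)) (move 396 (leaf 396 7)))))))) (branch (move 556 (branch (move 588 (leaf 460 5)) (move 429 (branch (move 524 (leaf 428 5)) (move 430 (branch (move 462 (leaf 429 6)) (move 398 (leaf 397 6)))))))) (move 462 (branch (move 430 (leaf 429 6)) (move 460 (branch (move 428 (leaf 428 7)) (move 463 (branch (move 492 (leaf 459 1)) (move 495 (branch (move 496 (leaf 460 0)) (move 494 (branch (move 459 (leaf 459 0)) (move 431 (branch (move 432 (leaf 428 2)) (move 399 (leaf 398 5))))))))))))))))) (branch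 (move 589 (branch (move 622 (branch (move 590 (leaf 493 4)) (move 621 (branch (move 654 (leaf 525 4)) (move 620 (branch (move 652 (leaf 524 5)) (move 588 (leaf 492 5)))))))) (move 494 (branch (move 462 (leaf 461 6)) (move 492 (branch (move 460 (leaf 460 7)) (move 523 (branch (move 522 (leaf 490 1)) (move 495 (branch (move 524 (leaf 491 1)) (move 496 (branch (move 497 (leaf 493 1)) (move 464 (branch (move 463 (leaf 460 2)) (move 465 (leaf 461 2)))))))))))))))) (branch (move 461 (branch (move 556 (branch (move 588 (leaf 460 5)) (move 429 (branch (move 524 (leaf 428 5)) (move 428 (branch (move 460 (leaf 428 7)) (move 396 (leaf 396 7)))))))) (branch (move 556 (branch (move 588 (leaf 460 5)) (move 429 (branch (move 524 (leaf 428 5)) (move 430 (branch (move 462 (leaf 429 6)) (move 398 (leaf 397 6)))))))) (move 462 (branch (move 430 (leaf 429 6)) (move 494 (branch (move 589 (leaf 461 6)) (move 460 (branch (move 428 (leaf 428 7)) (move 495 (branch (move 496 (leaf 460 3)) (move 459 (leaf 459 0))))))))))))) (branch (move 461 (branch (move 556 (branch (move 588 (leaf 460 5)) (move 429 (branch (move 524 (leaf 428 5)) (move 430 (branch (move 462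 (leaf 429 6)) (move 398 (leaf 397 6)))))))) (branch (move 462 (branch (move 430 (leaf 429 6)) (move 494 (branch (move 589 (leaf 461 6)) (move 492 (branch (move 463 (leaf 459 2)) (move 523 (branch (move 522 (leaf 490 1)) (move 524 (branch (move 495 (leaf 491 1)) (move 556 (branch (move 588 (leaf 460 5)) (move 555 (branch (move 554 (leaf 522 1)) (move 459 (branch (move 458 (leaf 458 3)) (move 427 (leaf 427 4)))))))))))))))))) (branch (move 556 (branch (move 588 (leaf 460 5)) (move 429 (branch (move 524 (leaf 428 5)) (move 397 (branch (move 494 (leaf 397 4)) (move 396 (branch (move 428 (leaf 396 7)) (move 364 (leaf 364 7)))))))))) (move 462 (branch (move 430 (leaf 429 6)) (move 494 (branch (move 589 (leaf 461 6)) (move 463 (branch (move 492 (leaf 459 2)) (move 464 (branch (move 465 (leaf 461 1)) (move 429 (branch (move 428 (leaf 428 3)) (move 397 (leaf 397 4)))))))))))))))) (branch (ref 0) (branch (move 461 (branch (move 462 (branch (move 430 (leaf 429 6)) (move 460 (branch (move 428 (leaf 428 7)) (move 463 (branch (move 492 (leaf 459 1)) (move 495 (branch (move 496 (leaf 460 0)) (move 494 (branch (move 459 (leaf 459 0)) (move 431 (branch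 (move 432 (leaf 428 2)) (move 399 (leaf 398 5)))))))))))))) (branch (move 460 (branch (move 428 (leaf 428 7)) (move 589 (branch (move 492 (leaf 460 7)) (move 588 (branch (move 620 (leaf 492 5)) (move 556 (leaf 460 5)))))))) (branch (move 462 (branch (move 430 (leaf 429 6)) (move 494 (branch (move 589 (leaf 461 6)) (move 460 (branch (move 428 (leaf 428 7)) (move 495 (branch (move 496 (leaf 460 3)) (move 459 (leaf 459 0)))))))))) (branch (move 462 (branch (move 430 (leaf 429 6)) (move 494 (branch (move 589 (leaf 461 6)) (move 463 (branch (move 492 (leaf 459 2)) (move 464 (branch (move 465 (leaf 461 1)) (move 429 (branch (move 428 (leaf 428 3)) (move 397 (leaf 397 4)))))))))))) (move 462 (branch (move 430 (leaf 429 6)) (move 494 (branch (move 589 (leaf 461 6)) (move 463 (branch (move 492 (leaf 459 2)) (move 464 (branch (move 465 (leaf 461 1)) (move 496 (branch (move 497 (leaf 461 0)) (move 495 (branch (move 460 (leaf 460 0)) (move 431 (branch (move 399 (leaf 398 5)) (move 528 (branch (move 529 (leaf 493 0)) (move 560 (leaf 431 7))))))))))))))))))))))) (move 589 (branch (move 622 (branch (move 590 (leaf 493 4)) (move 621 (branch (move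 654 (leaf 525 4)) (move 492 (branch (move 524 (leaf 492 7)) (move 460 (leaf 460 7)))))))) (branch (move 622 (branch (move 590 (leaf 493 4)) (move 621 (branch (move 654 (leaf 525 4)) (move 620 (branch (move 652 (leaf 524 5)) (move 588 (leaf 492 5)))))))) (move 588 (branch (move 620 (leaf 492 5)) (move 461 (branch (move 556 (leaf 460 5)) (move 460 (branch (move 492 (leaf 460 7)) (move 428 (leaf 428 7))))))))))))))))))
theorem a6p655 : a6e655.Valid :=
  pos_of_chk [a6e654] (forall_cons a6p654 forall_nil) a6c655 a6e655 (by decide +kernel)

def a6e656 : Pos := ⟨329510287769382699722744215524210519074946154131129336601246437961380267696153387676220302621832848326872633186950313399958185351954805807488924665968192389120, 506532662629695226066872415806566152061346241684901473274911632182377448271847191744889478920124818096063625533959678458501040285209552675515927646779161857196199831023600533504, 6⟩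
def a6c656 : Cert := (move 523 (branch (move 492 (branch (move 522 (leaf 490 1)) (move 459 (branch (move 458 (leaf 458 3)) (move 460 (branch (move 495 (leaf 459 3)) (move 428 (branch (move 555 (leaf 427 6)) (move 396 (leaf 396 4)))))))))) (branch (move 524 (branch (move 522 (leaf 490 2)) (move 495 (leaf 491 2)))) (branch (move 522 (branch (move 524 (leaf 490 2)) (move 492 (leaf 490 1)))) (move 524 (branch (move 495 (leaf 491 2)) (move 492 (branch (move 459 (branch (move 458 (leaf 458 3)) (move 427 (branch (move 556 (leaf 427 4)) (move 395 (leaf 395 4)))))) (move 555 (branch (move 554 (leaf 522 1)) (move 460 (branch (move 587 (leaf 459 6)) (move 428 (leaf 427 5))))))))))))))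
theorem a6p656 : a6e656.Valid :=
  pos_of_chk [] forall_nil a6c656 a6e656 (by decide +kernel)

def a6e657 : Pos := ⟨356969478512198595091334777817307493264646490106909688468520126522976314782400128445732215121030768507742637518375747969240458676988776709061170225132391628800, 66354007182568858966753808219034602998863152754574221271608264415982161394421152749514016517645058962480490937650081321203147749370342966201113900886208241840479128559553182203403418206208, 9⟩
def a6c657 : Cert := (move 555 (branch (move 459 (branch (move 428 (branch (move 460 (leaf 427 6)) (move 427 (branch (move 396 (leaf 395 6)) (move 426 (branch (move 458 (leaf 426 7)) (move 394 (leaf 394 7)))))))) (move 554 (branch (move 586 (leaf 458 5)) (move 588 (branch (move 556 (leaf 459 4)) (move 587 (branch (move 620 (leaf 491 4)) (move 590 (branch (move 589 (leaf 554 3)) (move 558 (branch (move 463 (leaf 462 6)) (move 622 (leaf 493 7)))))))))))))) (branch (move 557 (branch (move 589 (leaf 461 6)) (move 556 (branch (move 554 (leaf 522 2)) (move 558 (branch (move 522 (leaf 522 3)) (move 590 (branch (move 591 (leaf 555 0)) (move 463 (leaf 462 6)))))))))) (branch (move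 459 (branch (move 428 (branch (move 460 (leaf 427 6)) (move 427 (branch (move 396 (leaf 395 6)) (move 426 (branch (move 458 (leaf 426 7)) (move 394 (leaf 394 7)))))))) (move 554 (branch (move 586 (leaf 458 5)) (move 556 (branch (move 557 (leaf 522 2)) (move 588 (leaf 459 4)))))))) (branch (move 459 (branch (move 428 (branch (move 460 (leaf 427 6)) (move 427 (branch (move 396 (leaf 395 6)) (move 426 (branch (move 458 (leaf 426 7)) (move 394 (leaf 394 7)))))))) (move 557 (branch (move 589 (leaf 461 6)) (move 556 (branch (move 588 (leaf 459 4)) (move 558 (branch (move 522 (leaf 522 3)) (move 590 (branch (move 591 (leaf 555 0)) (move 463 (leaf 462 6)))))))))))) (move 459 (branch (move 428 (branch (move 460 (leaf 427 6)) (move 427 (branch (move 396 (leaf 395 6)) (move 426 (branch (move 458 (leaf 426 7)) (move 394 (leaf 394 7)))))))) (move 589 (branch (move 557 (leaf 461 6)) (move 586 (branch (move 554 (leaf 458 5)) (move 587 (branch (move 618 (leaf 490 5)) (move 588 (branch (move 620 (leaf 491 4)) (move 622 (branch (move 621 (leaf 586 0)) (move 590 (branch (move 623 (leaf 587 0)) (move 558 (leaf 493 7)))))))))))))))))))))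
theorem a6p657 : a6e657.Valid :=
  pos_of_chk [] forall_nil a6c657 a6e657 (by decide +kernel)

def a6e658 : Pos := ⟨329510287692662607350178390445776385555549299001051788647112106957865626256400251822985742741756205537984254503726406740718496187676276357194735766280805023744, 107454601494767490206918889020709193490126904033887744255419449423148043177950845878556241239759450467456852860456959217000852228873373943205158845417572371725735918042131989685940047506549336178688, 15⟩
def a6c658 : Cert := (move 493 (branch (ref 0) (branch (ref 1) (branch (ref 2) (branch (move 461 (branch (move 558 (branch (move 429 (leaf 429 4)) (move 590 (branch (move 622 (leaf 493 7)) (move 494 (leaf 461 7)))))) (branch (ref 3) (branch (move 429 (branch (move 558 (leaf 429 4)) (move 428 (branch (move 396 (leaf 396 7)) (move 430 (branch (move 398 (leaf 397 6)) (move 557 (branch (move 462 (leaf 429 6)) (move 460 (leaf 428 7)))))))))) (move 557 (branch (move 590 (branch (move 558 (leaf 461 4)) (move 589 (branch (move 622 (leaf 493 4)) (move 588 (branch (move 620 (leaf 492 5)) (move 556 (leaf 460 5)))))))) (branch (move 462 (branch (move 430 (leaf 429 6)) (move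 494 (branch (move 589 (leaf 461 6)) (move 460 (branch (move 428 (leaf 428 7)) (move 495 (branch (move 496 (leaf 460 3)) (move 459 (leaf 459 0)))))))))) (move 462 (branch (move 430 (leaf 429 6)) (move 459 (branch (move 558 (branch (move 590 (leaf 461 4)) (move 556 (branch (move 588 (leaf 460 5)) (move 555 (branch (move 554 (leaf 522 2)) (move 523 (branch (move 522 (leaf 522 3)) (move 427 (branch (move 524 (leaf 427 4)) (move 426 (branch (move 458 (leaf 426 7)) (move 394 (leaf 394 7)))))))))))))) (branch (move 460 (branch (move 428 (leaf 428 7)) (move 494 (branch (move 458 (leaf 458 0)) (move 495 (leaf 459 0)))))) (move 460 (branch (move 428 (leaf 428 7)) (move 494 (branch (move 495 (leaf 459 0)) (move 558 (branch (move 590 (leaf 461 4)) (move 463 (branch (move 431 (leaf 430 6)) (move 556 (branch (move 588 (leaf 460 5)) (move 555 (branch (move 554 (leaf 522 2)) (move 523 (branch (move 522 (leaf 522 3)) (move 427 (branch (move 426 (leaf 426 3)) (move 524 (leaf 427 4)))))))))))))))))))))))))))))) (branch (move 494 (branch (ref 4) (branch (ref 5) (move 462 (branch (move 557 (branch (move 589 (leaf 461 6)) (move 430 (leaf 429 5)))) (branch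 (move 430 (branch (move 398 (leaf 397 5)) (move 431 (branch (move 399 (leaf 398 6)) (move 558 (branch (move 463 (leaf 430 6)) (move 590 (branch (move 622 (leaf 493 7)) (move 461 (leaf 461 7)))))))))) (move 558 (branch (move 590 (branch (move 622 (leaf 493 7)) (move 463 (branch (move 495 (leaf 462 6)) (move 431 (leaf 430 6)))))) (branch (move 589 (branch (move 557 (leaf 461 5)) (move 590 (branch (move 622 (leaf 493 7)) (move 621 (leaf 493 5)))))) (move 557 (branch (move 589 (leaf 461 5)) (move 556 (branch (move 555 (branch (move 554 (leaf 522 2)) (move 523 (branch (move 522 (leaf 522 3)) (move 588 (branch (move 459 (leaf 459 4)) (move 620 (branch (move 652 (leaf 524 6)) (move 587 (leaf 491 4)))))))))) (branch (move 588 (branch (move 461 (leaf 460 5)) (move 620 (branch (move 652 (leaf 524 6)) (move 524 (leaf 492 6)))))) (move 555 (branch (move 554 (leaf 522 2)) (move 523 (branch (move 522 (leaf 522 3)) (move 524 (branch (move 495 (leaf 491 2)) (move 459 (branch (move 427 (leaf 427 4)) (move 587 (branch (move 586 (leaf 554 1)) (move 619 (branch (move 651 (leaf 523 6)) (move 460 (branch (move 428 (leaf 427 6)) (move 458 (branch (move 461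 (leaf 458 0)) (move 426 (leaf 426 7)))))))))))))))))))))))))))))))) (branch (ref 6) (branch (move 461 (branch (move 557 (branch (move 462 (branch (move 430 (leaf 429 6)) (move 460 (branch (move 428 (leaf 428 7)) (move 463 (branch (move 492 (leaf 459 1)) (move 495 (branch (move 496 (leaf 460 0)) (move 494 (branch (move 459 (leaf 459 0)) (move 431 (branch (move 432 (leaf 428 2)) (move 399 (leaf 398 5)))))))))))))) (branch (move 460 (branch (move 428 (leaf 428 7)) (move 589 (branch (move 492 (leaf 460 7)) (move 588 (branch (move 620 (leaf 492 5)) (move 556 (leaf 460 5)))))))) (branch (move 462 (branch (move 430 (leaf 429 6)) (move 494 (branch (move 589 (leaf 461 6)) (move 460 (branch (move 428 (leaf 428 7)) (move 495 (branch (move 496 (leaf 460 3)) (move 459 (leaf 459 0)))))))))) (move 462 (branch (move 430 (leaf 429 6)) (move 494 (branch (move 589 (leaf 461 6)) (move 492 (branch (move 463 (leaf 459 2)) (move 523 (branch (move 522 (leaf 490 1)) (move 524 (branch (move 495 (leaf 491 1)) (move 556 (branch (move 588 (leaf 460 5)) (move 555 (branch (move 554 (leaf 522 1)) (move 459 (branch (move 458 (leaf 458 3)) (move 427 (leaf 427 4))))))))))))))))))))))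 (branch (move 429 (branch (move 558 (leaf 429 4)) (move 397 (branch (move 494 (leaf 397 4)) (move 396 (branch (move 428 (leaf 396 7)) (move 364 (leaf 364 7)))))))) (branch (move 429 (branch (move 558 (leaf 429 4)) (move 428 (branch (move 396 (leaf 396 7)) (move 430 (branch (move 398 (leaf 397 6)) (move 557 (branch (move 462 (leaf 429 6)) (move 460 (leaf 428 7)))))))))) (move 429 (branch (move 558 (leaf 429 4)) (move 397 (branch (move 494 (leaf 397 4)) (move 398 (branch (move 430 (leaf 397 6)) (move 366 (leaf 365 6)))))))))))) (branch (move 461 (branch (ref 7) (branch (move 558 (branch (move 429 (leaf 429 4)) (move 590 (branch (move 622 (leaf 493 7)) (move 494 (leaf 461 7)))))) (ref 8)))) (branch (ref 9) (branch (move 461 (branch (ref 7) (branch (move 558 (branch (move 429 (leaf 429 4)) (move 590 (branch (move 622 (leaf 493 7)) (move 494 (leaf 461 7)))))) (ref 10)))) (branch (ref 11) (move 494 (branch (ref 4) (branch (ref 5) (move 495 (branch (move 524 (branch (move 523 (leaf 491 2)) (move 496 (leaf 492 1)))) (branch (move 431 (branch (move 496 (branch (move 497 (leaf 493 1)) (move 463 (branch (move 399 (leaf 398 5)) (move 464 (branch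 (move 465 (leaf 461 2)) (move 528 (branch (move 529 (leaf 493 0)) (move 560 (leaf 431 7)))))))))) (branch (move 463 (branch (move 399 (leaf 398 5)) (move 558 (branch (move 590 (leaf 462 6)) (move 462 (leaf 430 6)))))) (branch (move 496 (branch (move 497 (leaf 493 1)) (move 464 (branch (move 465 (leaf 461 2)) (move 528 (branch (move 529 (leaf 493 0)) (move 432 (branch (move 399 (leaf 399 7)) (move 401 (branch (move 433 (leaf 400 6)) (move 400 (branch (move 369 (leaf 368 6)) (move 430 (branch (move 429 (leaf 397 2)) (move 462 (branch (move 557 (leaf 429 5)) (move 398 (leaf 397 5)))))))))))))))))) (move 496 (branch (move 497 (leaf 493 1)) (move 464 (branch (move 465 (leaf 461 2)) (move 528 (branch (move 529 (leaf 493 0)) (move 463 (branch (move 560 (leaf 431 7)) (move 558 (branch (move 590 (leaf 462 6)) (move 462 (leaf 430 6)))))))))))))))) (move 462 (branch (move 430 (branch (move 398 (leaf 397 5)) (move 431 (branch (move 399 (leaf 398 6)) (move 463 (branch (move 558 (leaf 430 6)) (move 464 (branch (move 465 (leaf 461 1)) (move 429 (branch (move 428 (leaf 428 0)) (move 397 (leaf 397 7)))))))))))) (branch (move 557 (branch (move 589 (leaf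 461 6)) (move 430 (leaf 429 5)))) (move 523 (branch (move 524 (leaf 491 2)) (ref 12))))))))))))))))))))))))
theorem a6p658 : a6e658.Valid :=
  pos_of_chk [a6e648, a6e653, a6e655, a6e606, a6e630, a6e656, a6e605, a6e616, a6e612, a6e639, a6e614, a6e632, a6e657] (forall_cons a6p648 (forall_cons a6p653 (forall_cons a6p655 (forall_cons a6p606 (forall_cons a6p630 (forall_cons a6p656 (forall_cons a6p605 (forall_cons a6p616 (forall_cons a6p612 (forall_cons a6p639 (forall_cons a6p614 (forall_cons a6p632 (forall_cons a6p657 forall_nil))))))))))))) a6c658 a6e658 (by decide +kernel)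

def a6e659 : Pos := ⟨329510287686269266319131238355906874428932894406878659650934246040906072803087490501882862751749818638910222946791081185781855423986398903003553357973522743296, 471546912095463268645996629632405117725302399260583540916579154513508666126646781892033952106935756757410631464416224887962003256280805926519266277768687341499883768295990976683211234710849547922418171904000, 19⟩
def a6c659 : Cert := (move 491 (branch (move 523 (branch (ref 0) (branch (ref 1) (branch (move 524 (branch (move 490 (leaf 490 3)) (move 554 (branch (move 555 (leaf 522 1)) (move 522 (branch (move 553 (leaf 521 1)) (move 557 (branch (move 558 (leaf 522 0)) (move 521 (branch (move 556 (leaf 521 0)) (move 520 (branch (move 492 (leaf 488 2)) (move 488 (branch (move 487 (leaf 487 3)) (move 489 (leaf 488 3)))))))))))))))) (branch (move 555 (branch (ref 2) (branch (ref 3) (branch (move 490 (branch (move 524 (leaf 490 3)) (move 587 (branch (move 458 (leaf 458 7)) (move 619 (branch (move 522 (leaf 490 7)) (move 620 (branch (move 652 (leaf 523 4)) (move 588 (leaf 491 4)))))))))) (branch (move 490 (branch (move 524 (leaf 490 3)) (move 458 (branch (move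 587 (leaf 458 7)) (move 426 (branch (move 459 (leaf 426 7)) (move 522 (leaf 426 4)))))))) (ref 4)))))) (branch (move 555 (branch (ref 2) (branch (ref 5) (move 524 (branch (move 490 (leaf 490 3)) (move 554 (leaf 522 1))))))) (branch (ref 6) (branch (move 555 (branch (ref 7) (branch (move 490 (branch (move 524 (leaf 490 3)) (move 587 (branch (move 458 (leaf 458 7)) (move 619 (branch (move 522 (leaf 490 7)) (move 620 (branch (move 652 (leaf 523 4)) (move 588 (leaf 491 4)))))))))) (branch (ref 5) (move 524 (branch (move 490 (leaf 490 3)) (move 554 (leaf 522 1)))))))) (move 524 (branch (move 490 (leaf 490 3)) (ref 8))))))))))) (branch (move 493 (branch (ref 9) (branch (move 461 (branch (move 558 (branch (move 429 (leaf 429 4)) (move 590 (branch (move 622 (leaf 493 7)) (move 494 (leaf 461 7)))))) (branch (ref 10) (branch (move 429 (branch (move 558 (leaf 429 4)) (move 428 (branch (move 396 (leaf 396 7)) (move 430 (branch (move 398 (leaf 397 6)) (move 557 (branch (move 462 (leaf 429 6)) (move 460 (leaf 428 7)))))))))) (ref 11))))) (branch (ref 12) (branch (ref 13) (branch (move 492 (branch (move 490 (leaf 490 0)) (move 494 (branch (move 459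 (branch (move 458 (leaf 458 3)) (move 495 (branch (move 460 (leaf 459 3)) (move 496 (branch (move 524 (leaf 492 1)) (move 497 (leaf 493 1)))))))) (move 462 (branch (move 463 (leaf 459 2)) (move 557 (branch (move 589 (leaf 461 6)) (move 430 (leaf 429 5)))))))))) (branch (move 461 (branch (move 558 (branch (move 429 (leaf 429 4)) (move 590 (branch (move 622 (leaf 493 7)) (move 494 (leaf 461 7)))))) (branch (ref 14) (ref 15)))) (branch (move 461 (branch (move 558 (branch (move 429 (leaf 429 4)) (move 590 (branch (move 622 (leaf 493 7)) (move 494 (leaf 461 7)))))) (branch (ref 16) (ref 15)))) (ref 17))))))))) (branch (ref 18) (branch (move 523 (branch (ref 19) (branch (move 524 (branch (move 490 (leaf 490 3)) (move 494 (branch (move 495 (leaf 491 2)) (move 522 (branch (move 493 (leaf 490 2)) (move 557 (branch (move 558 (leaf 522 0)) (move 521 (branch (move 556 (leaf 521 0)) (move 553 (branch (move 552 (leaf 520 1)) (move 554 (leaf 521 1)))))))))))))) (branch (move 524 (branch (move 490 (leaf 490 3)) (move 494 (branch (move 495 (leaf 491 2)) (move 522 (branch (move 493 (leaf 490 2)) (move 557 (branch (move 558 (leaf 522 0)) (move 556 (branch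 (move 521 (leaf 521 0)) (move 588 (branch (move 620 (leaf 491 7)) (move 459 (branch (move 555 (leaf 459 4)) (move 427 (leaf 427 4)))))))))))))))) (branch (move 555 (branch (move 459 (branch (move 426 (branch (move 458 (leaf 426 7)) (move 427 (branch (move 394 (leaf 394 7)) (move 428 (branch (move 460 (leaf 427 6)) (move 396 (leaf 395 6)))))))) (move 554 (branch (move 586 (leaf 458 5)) (move 556 (branch (move 557 (leaf 522 2)) (move 588 (leaf 459 4)))))))) (branch (ref 4) (move 524 (branch (move 490 (leaf 490 3)) (move 554 (leaf 522 1))))))) (branch (move 524 (branch (move 490 (leaf 490 3)) (move 554 (branch (move 555 (leaf 522 1)) (move 522 (branch (move 553 (leaf 521 1)) (move 494 (branch (move 493 (leaf 490 2)) (move 495 (leaf 491 2)))))))))) (ref 20))))))) (branch (ref 21) (branch (ref 22) (branch (move 523 (branch (ref 0) (branch (ref 1) (branch (move 555 (branch (ref 2) (branch (ref 3) (branch (move 490 (branch (move 524 (leaf 490 3)) (move 587 (branch (move 458 (leaf 458 7)) (move 619 (branch (move 522 (leaf 490 7)) (move 620 (branch (move 652 (leaf 523 4)) (move 588 (leaf 491 4)))))))))) (branch (move 490 (branch (move 524 (leaf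 490 3)) (move 458 (branch (move 587 (leaf 458 7)) (move 426 (branch (move 459 (leaf 426 7)) (move 522 (leaf 426 4)))))))) (ref 4)))))) (branch (move 555 (branch (move 459 (branch (move 426 (branch (move 458 (leaf 426 7)) (move 427 (branch (move 394 (leaf 394 7)) (move 428 (branch (move 460 (leaf 427 6)) (move 396 (leaf 395 6)))))))) (move 554 (branch (move 586 (leaf 458 5)) (move 556 (branch (move 557 (leaf 522 2)) (move 588 (leaf 459 4)))))))) (branch (ref 4) (move 524 (branch (move 490 (leaf 490 3)) (move 554 (leaf 522 1))))))) (move 524 (branch (move 490 (leaf 490 3)) (move 494 (branch (move 495 (leaf 491 2)) (move 522 (branch (move 493 (leaf 490 2)) (move 553 (branch (move 554 (leaf 521 1)) (move 521 (branch (move 552 (leaf 520 1)) (move 520 (branch (move 492 (leaf 488 2)) (move 488 (branch (move 487 (leaf 487 3)) (move 489 (leaf 488 3))))))))))))))))))))) (branch (move 493 (branch (move 461 (branch (ref 23) (branch (move 558 (branch (move 429 (leaf 429 4)) (move 590 (branch (move 622 (leaf 493 7)) (move 494 (leaf 461 7)))))) (ref 14)))) (branch (move 461 (branch (ref 23) (branch (move 558 (branch (move 429 (leaf 429 4)) (move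 590 (branch (move 622 (leaf 493 7)) (move 494 (leaf 461 7)))))) (ref 16)))) (branch (ref 12) (branch (ref 24) (branch (move 492 (branch (move 490 (leaf 490 0)) (move 494 (branch (move 462 (branch (move 463 (leaf 459 2)) (move 430 (branch (move 557 (leaf 429 5)) (move 398 (leaf 397 5)))))) (move 523 (branch (move 522 (leaf 490 1)) (move 524 (branch (move 495 (leaf 491 1)) (move 555 (branch (move 554 (leaf 522 1)) (move 460 (branch (move 587 (leaf 459 6)) (move 428 (leaf 427 5)))))))))))))) (branch (ref 25) (move 461 (branch (move 558 (branch (move 429 (leaf 429 4)) (move 590 (branch (move 622 (leaf 493 7)) (move 494 (leaf 461 7)))))) (branch (move 429 (branch (move 558 (leaf 429 4)) (move 428 (branch (move 396 (leaf 396 7)) (move 430 (branch (move 398 (leaf 397 6)) (move 557 (branch (move 462 (leaf 429 6)) (move 460 (leaf 428 7)))))))))) (branch (move 557 (branch (move 588 (branch (move 556 (leaf 460 5)) (move 589 (branch (move 620 (leaf 492 5)) (move 621 (branch (move 494 (leaf 493 6)) (move 622 (branch (move 654 (leaf 525 4)) (move 590 (leaf 493 4)))))))))) (move 428 (branch (move 460 (leaf 428 7)) (move 429 (branch (move 396 (leaf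 396 7)) (move 430 (branch (move 462 (leaf 429 6)) (move 398 (leaf 397 6)))))))))) (ref 26)))))))))))) (branch (move 523 (branch (ref 0) (branch (ref 1) (branch (move 555 (branch (ref 2) (branch (ref 5) (move 524 (branch (move 490 (leaf 490 3)) (move 554 (leaf 522 1))))))) (branch (move 555 (branch (ref 7) (branch (move 490 (branch (move 524 (leaf 490 3)) (move 587 (branch (move 458 (leaf 458 7)) (move 619 (branch (move 522 (leaf 490 7)) (move 620 (branch (move 652 (leaf 523 4)) (move 588 (leaf 491 4)))))))))) (branch (ref 5) (move 524 (branch (move 490 (leaf 490 3)) (move 554 (leaf 522 1)))))))) (branch (move 524 (branch (move 490 (leaf 490 3)) (move 494 (branch (move 495 (leaf 491 2)) (move 522 (branch (move 493 (leaf 490 2)) (move 557 (branch (move 558 (leaf 522 0)) (move 521 (branch (move 556 (leaf 521 0)) (move 553 (branch (move 552 (leaf 520 1)) (move 554 (leaf 521 1)))))))))))))) (move 524 (branch (move 490 (leaf 490 3)) (move 494 (branch (move 495 (leaf 491 2)) (move 522 (branch (move 493 (leaf 490 2)) (move 557 (branch (move 558 (leaf 522 0)) (move 556 (branch (move 521 (leaf 521 0)) (move 588 (branch (move 620 (leaf 491 7))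 (move 459 (branch (move 555 (leaf 459 4)) (move 427 (leaf 427 4)))))))))))))))))))))) (branch (move 493 (branch (ref 27) (branch (move 461 (branch (move 558 (branch (move 429 (leaf 429 4)) (move 590 (branch (move 622 (leaf 493 7)) (move 494 (leaf 461 7)))))) (branch (ref 10) (branch (move 429 (branch (move 558 (leaf 429 4)) (move 428 (branch (move 396 (leaf 396 7)) (move 430 (branch (move 398 (leaf 397 6)) (move 557 (branch (move 462 (leaf 429 6)) (move 460 (leaf 428 7)))))))))) (ref 11))))) (branch (ref 12) (branch (ref 13) (branch (move 492 (branch (move 490 (leaf 490 0)) (move 494 (branch (move 459 (branch (move 458 (leaf 458 3)) (move 495 (branch (move 460 (leaf 459 3)) (move 496 (branch (move 524 (leaf 492 1)) (move 497 (leaf 493 1)))))))) (move 462 (branch (move 463 (leaf 459 2)) (move 557 (branch (move 589 (leaf 461 6)) (move 430 (leaf 429 5)))))))))) (branch (ref 17) (ref 28)))))))) (branch (ref 29) (branch (ref 30) (branch (ref 31) (branch (move 493 (branch (ref 27) (branch (ref 13) (branch (ref 28) (branch (move 492 (branch (move 490 (leaf 490 0)) (move 494 (branch (move 462 (branch (move 463 (leaf 459 2)) (move 557 (branch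 (move 589 (leaf 461 6)) (move 430 (leaf 429 5)))))) (move 523 (branch (move 522 (leaf 490 1)) (move 524 (branch (move 495 (leaf 491 1)) (move 459 (branch (move 458 (leaf 458 3)) (move 427 (branch (move 556 (leaf 427 4)) (move 395 (leaf 395 4)))))))))))))) (branch (ref 32) (branch (ref 33) (move 461 (branch (move 429 (branch (move 558 (leaf 429 4)) (move 430 (branch (move 398 (leaf 397 6)) (move 428 (branch (move 396 (leaf 396 7)) (move 462 (branch (move 557 (leaf 429 6)) (move 463 (branch (move 464 (leaf 428 3)) (move 427 (leaf 427 0)))))))))))) (branch (move 429 (branch (move 558 (leaf 429 4)) (move 492 (branch (move 490 (leaf 490 0)) (move 524 (branch (move 556 (leaf 428 5)) (move 397 (leaf 396 5)))))))) (branch (move 462 (branch (move 430 (branch (move 557 (leaf 429 6)) (move 398 (branch (move 429 (leaf 397 6)) (move 366 (leaf 365 5)))))) (move 492 (branch (move 490 (leaf 490 0)) (move 463 (branch (move 460 (leaf 459 1)) (move 464 (leaf 460 1)))))))) (move 557 (branch (move 590 (branch (move 558 (leaf 461 4)) (move 589 (branch (move 622 (leaf 493 4)) (move 460 (branch (move 492 (leaf 460 7)) (move 428 (leaf 428 7)))))))) (branch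 (move 492 (branch (move 490 (leaf 490 0)) (move 460 (branch (move 428 (leaf 428 7)) (move 462 (branch (move 463 (leaf 459 1)) (move 430 (leaf 429 6)))))))) (branch (ref 34) (ref 35)))))))))))))))) (branch (ref 36) (branch (ref 37) (branch (ref 38) (ref 39)))))))))))))))))))
theorem a6p659 : a6e659.Valid :=
  pos_of_chk [a6e596, a6e599, a6e597, a6e594, a6e600, a6e595, a6e602, a6e603, a6e604, a6e605, a6e606, a6e607, a6e609, a6e611, a6e612, a6e613, a6e614, a6e615, a6e618, a6e619, a6e620, a6e621, a6e626, a6e616, a6e617, a6e627, a6e628, a6e632, a6e634, a6e635, a6e637, a6e644, a6e646, a6e647, a6e642, a6e645, a6e649, a6e650, a6e652, a6e658] (forall_cons a6p596 (forall_cons a6p599 (forall_cons a6p597 (forall_cons a6p594 (forall_cons a6p600 (forall_cons a6p595 (forall_cons a6p602 (forall_cons a6p603 (forall_cons a6p604 (forall_cons a6p605 (forall_cons a6p606 (forall_cons a6p607 (forall_cons a6p609 (forall_cons a6p611 (forall_cons a6p612 (forall_cons a6p613 (forall_cons a6p614 (forall_cons a6p615 (forall_cons a6p618 (forall_cons a6p619 (forall_cons a6p620 (forall_cons a6p621 (forall_cons a6p626 (forall_cons a6p616 (forall_cons a6p617 (forall_cons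 a6p627 (forall_cons a6p628 (forall_cons a6p632 (forall_cons a6p634 (forall_cons a6p635 (forall_cons a6p637 (forall_cons a6p644 (forall_cons a6p646 (forall_cons a6p647 (forall_cons a6p642 (forall_cons a6p645 (forall_cons a6p649 (forall_cons a6p650 (forall_cons a6p652 (forall_cons a6p658 forall_nil)))))))))))))))))))))))))))))))))))))))) a6c659 a6e659 (by decide +kernel)

def a6e660 : Pos := ⟨471745303432202956742036953072807720909429683134833626964815496311773740034513402676930344145189525702683868901939986874450857613342784134814620530828885453200437542912, 1519597987063531397537501956207581037027541475580361397354921471327139042941127435736918639452866055025140390276956715766237763762338587710279818002108459696933808425062444826624, 9⟩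
def a6c660 : Cert := (move 492 (branch (move 460 (branch (move 428 (leaf 428 7)) (move 556 (branch (move 588 (leaf 460 5)) (move 491 (branch (move 490 (leaf 490 0)) (move 555 (branch (move 554 (leaf 522 2)) (move 524 (branch (move 587 (leaf 459 5)) (move 459 (branch (move 427 (leaf 427 7)) (move 458 (branch (move 457 (leaf 457 0)) (move 494 (leaf 458 0)))))))))))))))) (branch (move 462 (branch (move 430 (leaf 429 6)) (move 491 (branch (move 490 (leaf 490 0)) (move 463 (branch (move 464 (leaf 460 1)) (move 494 (leaf 459 2)))))))) (branch (move 460 (branch (move 428 (leaf 428 7)) (move 462 (branch (move 430 (leaf 429 6)) (move 463 (branch (move 464 (leaf 460 1)) (move 495 (branch (move 496 (leaf 460 0)) (move 459 (branch (move 494 (leaf 459 0)) (move 556 (branch (move 588 (leaf 460 5)) (move 427 (branch (move 426 (leaf 426 3)) (move 524 (leaf 427 7)))))))))))))))) (move 460 (branch (move 428 (leaf 428 7)) (move 462 (branch (move 430 (leaf 429 6)) (move 491 (branch (move 490 (leaf 490 0)) (move 463 (leaf 459 1))))))))))))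
theorem a6p660 : a6e660.Valid :=
  pos_of_chk [] forall_nil a6c660 a6e660 (by decide +kernel)

def a6e661 : Pos := ⟨329510287711842630443319846715384918935398512783571175635645689708744286616338535786294382711775366235206349174532383405528418478745908719768282991202651865088, 93438783879360135153558399521606695552163731984627118946232382803161764329831910446917978589566858691034183275181798148397592802577204820154129190947554113616639020379054158579290783365677067534336, 11⟩
def a6c661 : Cert := (move 557 (branch (move 461 (branch (move 460 (branch (move 428 (leaf 428 7)) (move 492 (branch (move 589 (leaf 460 7)) (move 462 (branch (move 430 (leaf 429 6)) (move 491 (branch (move 490 (leaf 490 0)) (move 463 (leaf 459 1)))))))))) (branch (move 556 (branch (move 588 (leaf 460 5)) (move 429 (branch (move 524 (leaf 428 5)) (move 430 (branch (move 398 (leaf 397 6)) (move 462 (leaf 429 6)))))))) (move 556 (branch (move 588 (leaf 460 5)) (move 460 (branch (move 428 (leaf 428 7)) (move 492 (branch (move 589 (leaf 460 7)) (move 524 (branch (move 429 (leaf 428 5)) (move 555 (branch (move 554 (leaf 522 2)) (move 587 (leaf 459 5))))))))))))))) (branch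 (move 589 (branch (move 492 (branch (move 460 (leaf 460 7)) (move 621 (branch (move 524 (leaf 492 7)) (move 620 (branch (move 588 (leaf 492 5)) (move 652 (leaf 524 5)))))))) (branch (move 494 (branch (move 462 (leaf 461 6)) (move 492 (branch (move 460 (leaf 460 7)) (move 491 (branch (move 490 (leaf 490 0)) (move 588 (branch (move 620 (leaf 492 5)) (move 590 (branch (move 622 (leaf 493 4)) (move 459 (branch (move 458 (leaf 458 3)) (move 556 (branch (move 524 (leaf 459 7)) (move 555 (branch (move 554 (leaf 554 0)) (move 591 (leaf 555 3)))))))))))))))))) (move 494 (branch (move 462 (leaf 461 6)) (move 621 (leaf 493 6))))))) (branch (move 589 (branch (move 588 (branch (move 620 (leaf 492 5)) (move 556 (branch (move 461 (leaf 460 5)) (move 590 (branch (move 622 (leaf 493 4)) (move 555 (branch (move 554 (leaf 554 0)) (move 591 (leaf 555 3)))))))))) (move 621 (branch (move 494 (leaf 493 6)) (move 492 (branch (move 460 (leaf 460 7)) (move 524 (leaf 492 7)))))))) (branch (move 589 (branch (move 494 (branch (move 462 (leaf 461 6)) (move 621 (leaf 493 6)))) (move 588 (branch (move 620 (leaf 492 5)) (move 556 (branch (move 461 (leaf 460 5)) (move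 590 (branch (move 622 (leaf 493 4)) (move 555 (branch (move 554 (leaf 554 0)) (move 591 (leaf 555 3)))))))))))) (branch (move 589 (branch (move 494 (branch (move 462 (leaf 461 6)) (move 621 (leaf 493 6)))) (branch (move 462 (branch (move 494 (leaf 461 6)) (move 461 (branch (move 430 (leaf 429 6)) (move 460 (branch (move 428 (leaf 428 7)) (move 492 (leaf 460 7)))))))) (move 492 (branch (move 460 (leaf 460 7)) (move 621 (branch (move 524 (leaf 492 7)) (move 622 (branch (move 590 (leaf 493 4)) (move 654 (leaf 525 4))))))))))) (move 461 (branch (move 556 (branch (move 588 (leaf 460 5)) (move 429 (branch (move 524 (leaf 428 5)) (move 430 (branch (move 398 (leaf 397 6)) (move 462 (leaf 429 6)))))))) (branch (move 556 (branch (move 588 (leaf 460 5)) (move 429 (branch (move 524 (leaf 428 5)) (move 428 (branch (move 396 (leaf 396 7)) (move 460 (leaf 428 7)))))))) (branch (move 430 (branch (move 462 (leaf 429 6)) (move 429 (branch (move 398 (leaf 397 6)) (move 428 (branch (move 396 (leaf 396 7)) (move 460 (leaf 428 7)))))))) (ref 0)))))))))))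
theorem a6p661 : a6e661.Valid :=
  pos_of_chk [a6e660] (forall_cons a6p660 forall_nil) a6c661 a6e661 (by decide +kernel)

def a6e662 : Pos := ⟨329510287762989358691697063434341007948329749536956207605068577044420714242840626355117422631826461427798601630014987845021544588264928353297742257660910108672, 2026130653113380073638871356974328581921543275749697506808474619212113487608031916649522614096155249336076032306371542079904109142997724371185169120940175739060166835660327485440, 7⟩
def a6c662 : Cert := (move 495 (branch (move 496 (branch (move 524 (leaf 492 1)) (move 497 (leaf 493 1)))) (branch (move 496 (branch (move 497 (leaf 493 1)) (move 464 (branch (move 465 (leaf 461 2)) (move 463 (branch (move 492 (leaf 460 2)) (move 431 (branch (move 399 (leaf 398 5)) (move 528 (branch (move 529 (leaf 493 0)) (move 560 (leaf 431 7)))))))))))) (move 492 (branch (move 491 (branch (move 490 (leaf 490 0)) (move 463 (branch (move 462 (leaf 459 2)) (move 464 (leaf 460 2)))))) (move 460 (branch (move 459 (leaf 459 3)) (move 557 (branch (move 589 (leaf 460 7)) (move 428 (branch (move 396 (leaf 396 4)) (move 524 (leaf 428 4)))))))))))))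
theorem a6p662 : a6e662.Valid :=
  pos_of_chk [] forall_nil a6c662 a6e662 (by decide +kernel)

def a6e663 : Pos := ⟨329510287762989358691697063434341007948329749536956207605068577044420714242840626355117422631826461427798601630014987845021544588264928353297742257660910108672, 65266236621907255534611568128611173837900391189300136492936945472681164573795599412603273159581656579432511582366281097887888420868072584977355532514783986561954746630594994025554912477184, 7⟩
def a6c663 : Cert := (move 558 (branch (move 590 (branch (move 622 (leaf 493 7)) (move 591 (branch (move 623 (leaf 494 4)) (move 559 (branch (move 462 (leaf 462 4)) (move 589 (branch (move 621 (leaf 493 5)) (move 560 (branch (move 561 (leaf 557 1)) (move 588 (leaf 556 2)))))))))))) (branch (move 557 (branch (move 590 (branch (move 622 (leaf 493 7)) (move 591 (branch (move 623 (leaf 494 4)) (move 556 (branch (move 555 (leaf 555 0)) (move 592 (branch (move 559 (leaf 556 0)) (move 593 (leaf 557 3)))))))))) (branch (move 589 (branch (move 621 (leaf 493 6)) (move 588 (branch (move 620 (leaf 492 5)) (move 559 (branch (move 560 (leaf 556 1)) (move 587 (branch (move 556 (leaf 555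 1)) (move 586 (leaf 554 2)))))))))) (branch (move 589 (branch (move 621 (leaf 493 6)) (move 590 (branch (move 622 (leaf 493 4)) (move 591 (branch (move 623 (leaf 494 4)) (move 556 (branch (move 555 (leaf 555 0)) (move 592 (leaf 556 3)))))))))) (move 589 (branch (move 621 (leaf 493 6)) (move 590 (branch (move 622 (leaf 493 4)) (move 588 (branch (move 620 (leaf 492 5)) (move 559 (branch (move 560 (leaf 556 1)) (move 587 (leaf 555 2)))))))))))))) (branch (move 590 (branch (move 622 (leaf 493 7)) (move 591 (branch (move 623 (leaf 494 4)) (move 462 (branch (move 559 (leaf 462 4)) (move 430 (branch (move 398 (leaf 397 5)) (move 557 (leaf 429 5)))))))))) (branch (move 557 (branch (move 462 (branch (move 430 (leaf 429 5)) (move 559 (branch (move 591 (leaf 462 4)) (move 560 (branch (move 524 (leaf 524 3)) (move 561 (leaf 525 3)))))))) (branch (move 589 (branch (move 621 (leaf 493 6)) (move 588 (branch (move 620 (leaf 492 5)) (move 559 (branch (move 560 (leaf 556 1)) (move 587 (branch (move 556 (leaf 555 1)) (move 586 (leaf 554 2)))))))))) (move 589 (branch (move 462 (leaf 461 5)) (move 621 (leaf 493 6))))))) (branch (move 590 (branch (move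 622 (leaf 493 7)) (move 589 (branch (move 621 (leaf 493 5)) (move 557 (branch (move 462 (leaf 461 5)) (move 591 (branch (move 623 (leaf 494 4)) (move 556 (branch (move 555 (leaf 555 0)) (move 592 (leaf 556 3)))))))))))) (move 590 (branch (move 622 (leaf 493 7)) (move 589 (branch (move 621 (leaf 493 5)) (move 557 (branch (move 462 (leaf 461 5)) (move 588 (branch (move 620 (leaf 492 5)) (move 559 (branch (move 560 (leaf 556 1)) (move 587 (leaf 555 2))))))))))))))))))
theorem a6p663 : a6e663.Valid :=
  pos_of_chk [] forall_nil a6c663 a6e663 (by decide +kernel)

def a6e664 : Pos := ⟨6078391946603017029400420244444132157491839532383635363702205889582768475762041519293469441976953881157115875437701292216882253624102914460170211115087094115075188822903856562176, 140460782353246410795240351977010736870598577985542342031628395564077623768728650853170845082245613637315754286138590779995388144976057361170489141923440170858833944568153502864606846629143294519850058121216, 12⟩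
def a6c664 : Cert := (move 588 (branch (move 591 (branch (move 620 (branch (move 619 (leaf 587 1)) (move 556 (branch (move 555 (leaf 555 3)) (move 524 (leaf 492 6)))))) (move 624 (branch (move 623 (leaf 588 0)) (move 592 (branch (move 625 (leaf 589 0)) (move 560 (branch (move 559 (leaf 556 2)) (move 561 (leaf 557 2)))))))))) (branch (move 587 (branch (move 618 (branch (move 619 (leaf 586 1)) (move 586 (branch (move 617 (leaf 585 1)) (move 554 (branch (move 553 (leaf 553 3)) (move 555 (leaf 554 3)))))))) (branch (move 622 (branch (move 623 (leaf 587 0)) (move 586 (branch (move 621 (leaf 586 0)) (move 618 (branch (move 617 (leaf 585 1)) (move 619 (leaf 586 1)))))))) (move 555 (branch (move 554 (leaf 554 3)) (move 591 (branch (move 556 (leaf 555 3)) (move 623 (branch (move 622 (leaf 587 0)) (move 624 (leaf 588 0))))))))))) (branch (move 591 (branch (move 623 (branch (move 624 (leaf 588 0)) (move 587 (branch (move 622 (leaf 587 0)) (move 555 (branch (move 554 (leaf 554 3)) (move 556 (leaf 555 3)))))))) (branch (move 624 (branch (move 623 (leaf 588 0)) (move 592 (branch (move 625 (leaf 589 0)) (move 560 (branch (move 559 (leaf 556 2)) (move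 561 (leaf 557 2)))))))) (move 556 (branch (move 555 (leaf 555 3)) (move 620 (branch (move 524 (leaf 492 6)) (move 592 (branch (move 621 (leaf 588 1)) (move 560 (branch (move 559 (leaf 556 2)) (move 561 (leaf 557 2))))))))))))) (branch (move 591 (branch (move 620 (branch (move 619 (leaf 587 1)) (move 556 (branch (move 555 (leaf 555 3)) (move 524 (leaf 492 6)))))) (branch (move 560 (branch (move 559 (leaf 556 2)) (move 592 (branch (move 561 (leaf 557 2)) (move 625 (branch (move 624 (leaf 589 0)) (move 593 (branch (move 626 (leaf 590 0)) (move 556 (branch (move 555 (leaf 555 3)) (move 621 (branch (move 622 (leaf 589 1)) (move 492 (branch (move 524 (leaf 492 4)) (move 491 (branch (move 490 (leaf 490 0)) (move 459 (branch (move 458 (leaf 458 3)) (move 460 (leaf 459 3)))))))))))))))))))) (move 620 (branch (move 619 (leaf 587 1)) (move 592 (branch (move 621 (leaf 588 1)) (move 560 (branch (move 559 (leaf 556 2)) (move 561 (leaf 557 2))))))))))) (branch (move 591 (branch (move 623 (branch (move 624 (leaf 588 0)) (move 587 (branch (move 622 (leaf 587 0)) (move 619 (branch (move 618 (leaf 586 1)) (move 620 (leaf 587 1)))))))) (branch (move 624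 (branch (move 623 (leaf 588 0)) (move 592 (branch (move 625 (leaf 589 0)) (move 560 (branch (move 559 (leaf 556 2)) (move 561 (leaf 557 2)))))))) (move 620 (branch (move 619 (leaf 587 1)) (move 592 (branch (move 621 (leaf 588 1)) (move 560 (branch (move 559 (leaf 556 2)) (move 561 (leaf 557 2))))))))))) (move 587 (branch (move 622 (branch (move 623 (leaf 587 0)) (move 586 (branch (move 621 (leaf 586 0)) (move 554 (branch (move 553 (leaf 553 3)) (move 555 (leaf 554 3)))))))) (branch (move 618 (branch (move 619 (leaf 586 1)) (move 586 (branch (move 617 (leaf 585 1)) (move 554 (branch (move 553 (leaf 553 3)) (move 555 (leaf 554 3)))))))) (branch (move 622 (branch (move 623 (leaf 587 0)) (move 586 (branch (move 621 (leaf 586 0)) (move 618 (branch (move 617 (leaf 585 1)) (move 619 (leaf 586 1)))))))) (move 492 (branch (move 491 (branch (move 490 (leaf 490 0)) (move 459 (branch (move 458 (leaf 458 3)) (move 460 (leaf 459 3)))))) (move 619 (branch (move 618 (leaf 586 1)) (move 556 (branch (move 524 (leaf 491 5)) (move 555 (branch (move 554 (leaf 554 3)) (move 651 (branch (move 683 (leaf 555 6)) (move 652 (branch (move 684 (leaf 555 4)) (move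 650 (branch (move 682 (leaf 554 5)) (move 622 (branch (move 623 (leaf 587 0)) (move 621 (branch (move 620 (leaf 618 1)) (move 653 (leaf 618 2))))))))))))))))))))))))))))))
theorem a6p664 : a6e664.Valid :=
  pos_of_chk [] forall_nil a6c664 a6e664 (by decide +kernel)

def a6e665 : Pos := ⟨329510287711842630443319846715384918935398512783571175635645689708744286616338535786294382711775366235206349174532383405528418478745908719768282991202651865088, 140460782353246410795240351983089128818616830926557412297555182928708948680857374345109848161327669414565119150141673622968669344306051986966998503578243602277121481781877487232590606007731096061127428145152, 16⟩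
def a6c665 : Cert := (move 494 (branch (move 495 (branch (move 496 (branch (move 524 (leaf 492 1)) (move 497 (leaf 493 1)))) (move 463 (branch (move 558 (branch (move 590 (leaf 462 6)) (move 431 (branch (move 399 (leaf 398 5)) (move 462 (leaf 430 6)))))) (move 492 (branch (move 464 (leaf 460 2)) (move 491 (branch (move 490 (leaf 490 0)) (move 459 (branch (move 458 (leaf 458 3)) (move 460 (leaf 459 3)))))))))))) (branch (ref 0) (branch (ref 1) (branch (move 462 (branch (move 557 (branch (move 430 (leaf 429 5)) (move 589 (leaf 461 6)))) (move 558 (branch (move 590 (branch (move 622 (leaf 493 7)) (move 591 (branch (move 559 (leaf 462 4)) (move 623 (leaf 494 4)))))) (move 463 (branch (move 431 (leaf 430 6)) (move 492 (branch (move 491 (leaf 459 2)) (move 464 (branch (move 465 (leaf 461 1)) (move 495 (leaf 460 2)))))))))))) (move 495 (branch (move 496 (branch (move 524 (leaf 492 1)) (move 497 (leaf 493 1)))) (branch (move 496 (branch (move 497 (leaf 493 1)) (move 464 (branch (move 465 (leaf 461 2)) (move 463 (branch (move 492 (leaf 460 2)) (move 431 (branch (move 399 (leaf 398 5)) (move 528 (branch (move 529 (leaf 493 0)) (move 560 (leaf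 431 7)))))))))))) (move 590 (branch (move 558 (branch (move 463 (leaf 462 6)) (move 622 (leaf 493 7)))) (branch (move 463 (branch (move 558 (leaf 462 6)) (move 492 (branch (move 464 (leaf 460 2)) (move 460 (branch (move 459 (leaf 459 3)) (move 557 (branch (move 589 (leaf 460 7)) (move 428 (branch (move 396 (leaf 396 4)) (move 524 (leaf 428 4)))))))))))) (move 589 (branch (move 557 (branch (move 622 (leaf 493 4)) (move 492 (branch (move 460 (leaf 460 7)) (move 588 (branch (move 620 (leaf 492 5)) (move 491 (branch (move 490 (leaf 490 0)) (move 459 (branch (move 458 (leaf 458 3)) (move 556 (branch (move 524 (leaf 459 7)) (move 555 (branch (move 554 (leaf 554 0)) (move 591 (leaf 555 3)))))))))))))))) (branch (move 557 (branch (move 621 (leaf 493 6)) (move 492 (branch (move 460 (leaf 460 7)) (move 588 (branch (move 620 (leaf 492 5)) (move 491 (branch (move 490 (leaf 490 0)) (move 459 (branch (move 458 (leaf 458 3)) (move 556 (branch (move 524 (leaf 459 7)) (move 555 (branch (move 554 (leaf 554 0)) (move 591 (leaf 555 3)))))))))))))))) (branch (move 557 (branch (move 622 (leaf 493 4)) (move 621 (leaf 493 6)))) (ref 2))))))))))))))))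
theorem a6p665 : a6e665.Valid :=
  pos_of_chk [a6e662, a6e663, a6e664] (forall_cons a6p662 (forall_cons a6p663 (forall_cons a6p664 forall_nil))) a6c665 a6e665 (by decide +kernel)

def a6e666 : Pos := ⟨329510287711842630443319846715384918935398512783571175635645689708744286616338535786294382711775366235206349174532383405528418478745908719768282991202651865088, 21755412193626036628515776319183559476463239074113807074089272832629993658666490419020259796094353516100321671067406210208162452838866611484471351543654244051267505319326204581511964917760, 11⟩
def a6c666 : Cert := (move 461 (branch (move 429 (branch (move 558 (leaf 429 4)) (move 428 (branch (move 396 (leaf 396 7)) (move 398 (branch (move 430 (leaf 397 6)) (move 397 (branch (move 366 (leaf 365 6)) (move 524 (branch (move 492 (leaf 396 5)) (move 556 (leaf 428 5)))))))))))) (branch (move 557 (branch (move 460 (branch (move 428 (leaf 428 7)) (move 492 (branch (move 589 (leaf 460 7)) (move 462 (branch (move 430 (leaf 429 6)) (move 491 (branch (move 490 (leaf 490 0)) (move 463 (leaf 459 1)))))))))) (branch (move 556 (branch (move 588 (leaf 460 5)) (move 429 (branch (move 524 (leaf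 428 5)) (move 430 (branch (move 398 (leaf 397 6)) (move 462 (leaf 429 6)))))))) (move 556 (branch (move 588 (leaf 460 5)) (move 460 (branch (move 428 (leaf 428 7)) (move 492 (branch (move 589 (leaf 460 7)) (move 524 (branch (move 429 (leaf 428 5)) (move 555 (branch (move 554 (leaf 522 2)) (move 587 (leaf 459 5))))))))))))))) (branch (move 429 (branch (move 558 (leaf 429 4)) (move 430 (branch (move 398 (leaf 397 6)) (move 428 (branch (move 396 (leaf 396 7)) (move 557 (branch (move 462 (leaf 429 6)) (move 460 (leaf 428 7)))))))))) (branch (move 429 (branch (move 558 (leaf 429 4)) (move 430 (branch (move 398 (leaf 397 6)) (move 557 (branch (move 462 (leaf 429 6)) (move 556 (branch (move 524 (leaf 428 5)) (move 588 (leaf 460 5)))))))))) (branch (move 429 (branch (move 558 (leaf 429 4)) (move 428 (branch (move 396 (leaf 396 7)) (move 460 (branch (move 557 (leaf 428 7)) (move 524 (branch (move 556 (leaf 428 5)) (move 492 (branch (move 397 (leaf 396 5)) (move 491 (branch (move 490 (leaf 490 0)) (move 427 (branch (move 395 (leaf 395 7)) (move 462 (branch (move 426 (leaf 426 0)) (move 463 (leaf 459 1)))))))))))))))))) (move 557 (branch (move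 460 (branch (move 428 (leaf 428 7)) (move 492 (branch (move 589 (leaf 460 7)) (move 462 (branch (move 430 (leaf 429 6)) (move 491 (branch (move 490 (leaf 490 0)) (move 463 (leaf 459 1)))))))))) (branch (move 558 (branch (move 590 (leaf 461 4)) (move 556 (branch (move 588 (leaf 460 5)) (move 555 (branch (move 554 (leaf 522 2)) (move 460 (branch (move 428 (leaf 428 7)) (move 462 (branch (move 430 (leaf 429 6)) (move 587 (branch (move 586 (leaf 554 1)) (move 492 (branch (move 524 (leaf 459 5)) (move 491 (branch (move 490 (leaf 490 0)) (move 463 (leaf 459 1)))))))))))))))))) (move 590 (branch (move 558 (leaf 461 4)) (move 589 (branch (move 622 (leaf 493 4)) (move 588 (branch (move 556 (leaf 460 5)) (move 620 (leaf 492 5)))))))))))))))))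
theorem a6p666 : a6e666.Valid :=
  pos_of_chk [] forall_nil a6c666 a6e666 (by decide +kernel)

def a6e667 : Pos := ⟨329510287711842630443319846715384918935398512783571175635645689708744286616338535786294382711775366235206349174532383405528418478745908719768282991202651865088, 21755412217179805434634431305045220540501048842122198724750640775478202355227863775053209250866771442996406770127220472883280980437489978394831769706226921285493808370644174469272258478080, 8⟩
def a6c667 : Cert := (move 461 (branch (move 558 (branch (move 429 (leaf 429 4)) (move 590 (branch (move 494 (leaf 461 7)) (move 622 (leaf 493 7)))))) (branch (move 429 (branch (move 558 (leaf 429 4)) (move 430 (branch (move 398 (leaf 397 6)) (move 428 (branch (move 396 (leaf 396 7)) (move 557 (branch (move 462 (leaf 429 6)) (move 460 (leaf 428 7)))))))))) (branch (move 557 (branch (move 556 (branch (move 588 (leaf 460 5)) (move 429 (branch (move 524 (leaf 428 5)) (move 428 (branch (move 396 (leaf 396 7)) (move 460 (leaf 428 7)))))))) (branch (move 430 (branch (move 462 (leaf 429 6)) (move 429 (branch (move 398 (leaf 397 6)) (move 428 (branch (move 396 (leaf 396 7)) (move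 460 (leaf 428 7)))))))) (move 462 (branch (move 430 (leaf 429 6)) (move 589 (branch (move 494 (leaf 461 6)) (move 588 (branch (move 556 (leaf 460 5)) (move 620 (leaf 492 5))))))))))) (move 557 (branch (move 590 (branch (move 558 (leaf 461 4)) (move 589 (branch (move 622 (leaf 493 4)) (move 588 (branch (move 556 (leaf 460 5)) (move 620 (leaf 492 5)))))))) (branch (move 462 (branch (move 430 (leaf 429 6)) (move 589 (branch (move 494 (leaf 461 6)) (move 588 (branch (move 556 (leaf 460 5)) (move 620 (leaf 492 5)))))))) (branch (move 558 (branch (move 590 (leaf 461 4)) (move 462 (branch (move 430 (leaf 429 6)) (move 494 (branch (move 589 (leaf 461 5)) (move 460 (branch (move 428 (leaf 428 7)) (move 495 (branch (move 459 (leaf 459 0)) (move 496 (leaf 460 3)))))))))))) (move 558 (branch (move 590 (leaf 461 4)) (move 462 (branch (move 430 (leaf 429 6)) (move 559 (branch (move 556 (branch (move 588 (leaf 460 5)) (move 591 (branch (move 592 (leaf 556 0)) (move 494 (leaf 462 4)))))) (move 560 (branch (move 524 (leaf 524 3)) (move 561 (leaf 525 3))))))))))))))))))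
theorem a6p667 : a6e667.Valid :=
  pos_of_chk [] forall_nil a6c667 a6e667 (by decide +kernel)

def a6e668 : Pos := ⟨109836762587663119569853283975596282477217051242993142772519430893275632835127418117645511049141086917723837108972134280466351228802204252878131328343068377088, 54918381293831559823443279674595472161477661728321999441008215720877905141477900010650181490693823311485245755004303602597748092744096512934304872551554220032, 8⟩
def a6c668 : Cert := (move 428 (branch (move 396 (leaf 396 7)) (move 427 (branch (move 426 (branch (move 462 (leaf 426 0)) (move 425 (branch (move 460 (leaf 425 0)) (move 457 (branch (move 456 (leaf 424 1)) (move 458 (leaf 425 1)))))))) (branch (move 430 (branch (move 398 (leaf 397 6)) (move 459 (branch (move 458 (leaf 426 1)) (move 460 (branch (move 431 (leaf 427 1)) (move 395 (branch (move 394 (leaf 394 3)) (move 492 (branch (move 363 (leaf 363 4)) (move 524 (leaf 395 7)))))))))))) (move 430 (branch (move 398 (leaf 397 6)) (move 462 (branch (move 426 (leaf 426 0)) (move 463 (leaf 427 0)))))))))))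
theorem a6p668 : a6e668.Valid :=
  pos_of_chk [] forall_nil a6c668 a6e668 (by decide +kernel)

def a6e669 : Pos := ⟨329510287762989358691697063438500012489510971826323828881283202599575369855904351217873142002748393389507040064574949454177753955411015169739847615404371345408, 235872651619994311138779952242552326654314603167446890189993136791111597327490469620020062547825807274429130398996620944588726473165726615679874459156372716854263676928, 10⟩
def a6c669 : Cert := (move 428 (branch (move 431 (branch (move 400 (branch (move 399 (leaf 396 2)) (move 432 (branch (move 401 (leaf 397 2)) (move 464 (branch (move 463 (leaf 428 0)) (move 465 (leaf 429 0)))))))) (move 396 (branch (move 395 (leaf 395 3)) (move 460 (branch (move 459 (leaf 427 1)) (move 492 (leaf 396 4)))))))) (branch (move 427 (branch (move 398 (branch (move 399 (leaf 395 2)) (move 426 (branch (move 397 (leaf 394 2)) (move 458 (branch (move 457 (leaf 425 1)) (move 459 (leaf 426 1)))))))) (branch (move 398 (branch (move 399 (leaf 395 2)) (move 426 (branch (move 397 (leaf 394 2)) (move 394 (branch (move 393 (leaf 393 3)) (move 395 (leaf 394 3)))))))) (move 459 (branch (move 458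 (leaf 426 1)) (move 395 (branch (move 394 (leaf 394 3)) (move 460 (branch (move 431 (leaf 427 1)) (move 492 (branch (move 363 (leaf 363 4)) (move 524 (leaf 395 7))))))))))))) (branch (move 431 (branch (move 400 (branch (move 399 (leaf 396 2)) (move 432 (branch (move 401 (leaf 397 2)) (move 464 (branch (move 463 (leaf 428 0)) (move 465 (leaf 429 0)))))))) (branch (move 460 (branch (move 459 (leaf 427 1)) (move 492 (branch (move 396 (leaf 396 4)) (move 397 (branch (move 524 (leaf 396 6)) (move 464 (branch (move 463 (leaf 428 0)) (move 432 (branch (move 465 (leaf 429 0)) (move 433 (branch (move 398 (leaf 397 3)) (move 401 (branch (move 400 (leaf 397 2)) (move 402 (leaf 398 2)))))))))))))))) (branch (move 460 (branch (move 459 (leaf 427 1)) (move 492 (branch (move 396 (leaf 396 4)) (move 397 (branch (move 524 (leaf 396 6)) (move 464 (branch (move 463 (leaf 428 0)) (move 432 (branch (move 465 (leaf 429 0)) (move 398 (branch (move 433 (leaf 397 3)) (move 427 (branch (move 426 (leaf 394 2)) (move 399 (leaf 395 2)))))))))))))))) (move 399 (branch (move 400 (leaf 396 2)) (move 427 (branch (move 398 (leaf 395 2)) (move 459 (branch (move 458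 (leaf 426 1)) (move 460 (leaf 427 1)))))))))))) (branch (move 431 (branch (move 400 (branch (move 399 (leaf 396 2)) (move 432 (branch (move 401 (leaf 397 2)) (move 464 (branch (move 463 (leaf 428 0)) (move 465 (leaf 429 0)))))))) (branch (move 396 (branch (move 395 (leaf 395 3)) (move 432 (branch (move 397 (leaf 396 3)) (move 464 (branch (move 463 (leaf 428 0)) (move 465 (leaf 429 0)))))))) (move 399 (branch (move 400 (leaf 396 2)) (move 427 (branch (move 398 (leaf 395 2)) (move 395 (branch (move 394 (leaf 394 3)) (move 396 (leaf 395 3))))))))))) (branch (move 459 (branch (move 427 (branch (move 458 (leaf 426 1)) (move 395 (branch (move 394 (leaf 394 3)) (move 396 (branch (move 431 (leaf 395 3)) (move 364 (branch (move 332 (leaf 331 5)) (move 491 (leaf 363 6)))))))))) (branch (move 431 (branch (move 460 (leaf 427 1)) (move 396 (branch (move 395 (leaf 395 3)) (move 432 (branch (move 397 (leaf 396 3)) (move 464 (branch (move 463 (leaf 428 0)) (move 465 (leaf 429 0)))))))))) (branch (move 458 (branch (move 427 (leaf 426 1)) (move 492 (branch (move 491 (leaf 458 3)) (move 460 (branch (move 457 (leaf 457 0)) (move 396 (leaf 396 4))))))))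 (move 458 (branch (move 427 (leaf 426 1)) (move 460 (branch (move 431 (leaf 427 1)) (move 457 (leaf 425 2)))))))))) (move 427 (branch (move 398 (branch (move 399 (leaf 395 2)) (move 426 (branch (move 397 (leaf 394 2)) (move 458 (branch (move 457 (leaf 425 1)) (move 459 (leaf 426 1)))))))) (branch (move 398 (branch (move 399 (leaf 395 2)) (move 426 (branch (move 397 (leaf 394 2)) (move 394 (branch (move 393 (leaf 393 3)) (move 395 (leaf 394 3)))))))) (branch (move 395 (branch (move 394 (leaf 394 3)) (move 458 (branch (move 459 (leaf 426 1)) (move 426 (branch (move 457 (leaf 425 1)) (move 363 (branch (move 331 (leaf 330 5)) (move 490 (branch (move 522 (leaf 394 6)) (move 492 (branch (move 491 (leaf 490 0)) (move 460 (branch (move 396 (leaf 396 4)) (move 524 (leaf 395 7)))))))))))))))) (move 492 (branch (move 395 (branch (move 394 (leaf 394 3)) (move 459 (branch (move 458 (leaf 426 1)) (move 491 (branch (move 490 (leaf 490 0)) (move 524 (leaf 395 4)))))))) (branch (move 459 (branch (move 458 (leaf 426 1)) (move 460 (branch (move 396 (leaf 396 4)) (move 524 (branch (move 397 (leaf 396 6)) (move 556 (leaf 427 7)))))))) (branch (move 460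 (branch (move 396 (leaf 396 4)) (move 395 (branch (move 394 (leaf 394 3)) (move 524 (leaf 395 7)))))) (move 459 (branch (move 458 (leaf 426 1)) (move 395 (branch (move 394 (leaf 394 3)) (move 460 (branch (move 363 (leaf 363 4)) (move 396 (leaf 396 4))))))))))))))))))))))
theorem a6p669 : a6e669.Valid :=
  pos_of_chk [] forall_nil a6c669 a6e669 (by decide +kernel)

def a6e670 : Pos := ⟨329510287775776040756768499030181170872312996472200939262208355743433294462067041140752320926259023773793556099129201722483779193192645131976566588460767379456, 54918381281044877731763732055496081720776351081141834572010682854146981206747425133486380823011735975882945311615946954015810950467434830148450952358003736576, 7⟩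
def a6c670 : Cert := (move 428 (branch (move 396 (leaf 396 4)) (move 430 (branch (move 398 (branch (move 462 (leaf 397 5)) (move 427 (branch (move 399 (leaf 395 2)) (move 395 (branch (move 394 (leaf 394 3)) (move 524 (leaf 395 7)))))))) (branch (move 397 (branch (move 524 (leaf 396 6)) (move 462 (leaf 397 7)))) (branch (move 462 (branch (move 398 (leaf 397 5)) (move 397 (leaf 397 7)))) (move 427 (branch (move 398 (branch (move 399 (leaf 395 2)) (move 426 (branch (move 397 (leaf 394 2)) (move 394 (branch (move 393 (leaf 393 3)) (move 395 (leaf 394 3)))))))) (branch (move 397 (branch (move 524 (leaf 396 6)) (move 398 (branch (move 426 (leaf 394 2)) (move 399 (leaf 395 2)))))) (move 395 (branch (move 394 (leaf 394 3)) (move 524 (leaf 395 7)))))))))))))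
theorem a6p670 : a6e670.Valid :=
  pos_of_chk [] forall_nil a6c670 a6e670 (by decide +kernel)

def a6e671 : Pos := ⟨329510287762989358691697063435727342795390156966745414697140118896138932780528534642702662422133772081701414441534975048073614377313623958778444043575397187584, 54918382019475766847108971161278663742151760808749069404375871926928920117388706447668476755589384637242617002996306061207820786773317576208433822181261049856, 9⟩
def a6c671 : Cert := (move 492 (branch (move 460 (branch (move 495 (branch (move 459 (leaf 459 3)) (move 496 (branch (move 524 (leaf 492 1)) (move 497 (leaf 493 1)))))) (branch (move 428 (branch (move 396 (leaf 396 4)) (move 459 (branch (move 495 (leaf 459 3)) (move 458 (branch (move 457 (leaf 457 0)) (move 430 (branch (move 427 (leaf 426 1)) (move 431 (leaf 427 1)))))))))) (ref 0)))) (branch (move 491 (branch (move 490 (leaf 490 0)) (move 459 (branch (move 458 (leaf 458 3)) (move 495 (branch (move 460 (leaf 459 3)) (move 496 (branch (move 524 (leaf 492 1)) (move 497 (leaf 493 1)))))))))) (move 491 (branch (move 490 (leaf 490 0)) (move 462 (branch (move 463 (leaf 459 2)) (move 430 (branch (move 398 (leaf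 397 5)) (move 397 (leaf 397 7)))))))))))
theorem a6p671 : a6e671.Valid :=
  pos_of_chk [a6e670] (forall_cons a6p670 forall_nil) a6c671 a6e671 (by decide +kernel)

def a6e672 : Pos := ⟨329510287762989358691697063438500012489510971826323828881283202599575369855904351217873142002748393389507040064574949454177753955411015169739847615404371345408, 933612482493817117077285292521839459637546071453789770618290375323416685564346618732646205152288101811549620892172755429465941810668977312805571331092448804864, 15⟩
def a6c672 : Cert := (move 431 (branch (move 428 (branch (move 463 (branch (move 464 (leaf 428 0)) (move 495 (branch (move 399 (leaf 398 5)) (move 496 (branch (move 524 (leaf 492 1)) (move 497 (leaf 493 1)))))))) (move 395 (branch (move 396 (leaf 395 3)) (move 427 (branch (move 394 (leaf 394 3)) (move 459 (branch (move 458 (leaf 426 1)) (move 460 (leaf 427 1)))))))))) (branch (move 432 (branch (move 401 (branch (move 400 (leaf 397 2)) (move 433 (branch (move 402 (leaf 398 2)) (move 465 (branch (move 464 (leaf 429 0)) (move 466 (leaf 430 0)))))))) (branch (move 397 (branch (move 396 (leaf 396 3)) (move 433 (branch (move 398 (leaf 397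 3)) (move 401 (branch (move 400 (leaf 397 2)) (move 402 (leaf 398 2)))))))) (move 464 (branch (move 465 (leaf 429 0)) (move 428 (branch (move 463 (leaf 428 0)) (move 396 (branch (move 395 (leaf 395 3)) (move 397 (leaf 396 3))))))))))) (branch (move 428 (branch (move 399 (branch (move 400 (leaf 396 2)) (move 427 (branch (move 398 (leaf 395 2)) (move 459 (branch (move 458 (leaf 426 1)) (move 460 (leaf 427 1)))))))) (branch (move 396 (branch (move 395 (leaf 395 3)) (move 432 (branch (move 397 (leaf 396 3)) (move 400 (branch (move 399 (leaf 396 2)) (move 401 (leaf 397 2)))))))) (move 395 (branch (move 396 (leaf 395 3)) (move 427 (branch (move 394 (leaf 394 3)) (move 459 (branch (move 458 (leaf 426 1)) (move 460 (leaf 427 1))))))))))) (branch (move 428 (branch (move 399 (branch (move 400 (leaf 396 2)) (move 427 (branch (move 398 (leaf 395 2)) (move 459 (branch (move 458 (leaf 426 1)) (move 460 (leaf 427 1)))))))) (branch (move 463 (branch (move 464 (leaf 428 0)) (move 495 (branch (move 399 (leaf 398 5)) (move 496 (branch (move 524 (leaf 492 1)) (move 497 (leaf 493 1)))))))) (move 464 (branch (move 463 (leaf 428 0)) (move 432 (branch (move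 465 (leaf 429 0)) (move 401 (branch (move 400 (leaf 397 2)) (move 433 (branch (move 402 (leaf 398 2)) (move 496 (branch (move 528 (leaf 400 6)) (move 495 (branch (move 524 (leaf 492 1)) (move 497 (leaf 493 1))))))))))))))))) (move 495 (branch (move 496 (branch (move 524 (leaf 492 1)) (move 497 (leaf 493 1)))) (move 432 (branch (move 397 (branch (move 396 (leaf 396 3)) (move 433 (branch (move 398 (leaf 397 3)) (move 465 (branch (move 464 (leaf 429 0)) (move 466 (leaf 430 0)))))))) (branch (move 463 (branch (move 399 (leaf 398 5)) (move 400 (branch (move 401 (leaf 397 2)) (move 368 (branch (move 336 (leaf 335 5)) (move 464 (leaf 367 5)))))))) (move 399 (branch (move 463 (leaf 398 5)) (move 400 (branch (move 401 (leaf 397 2)) (move 397 (branch (move 396 (leaf 396 3)) (move 398 (branch (move 433 (leaf 397 0)) (move 368 (branch (move 369 (leaf 365 2)) (move 336 (branch (move 304 (leaf 303 5)) (move 335 (branch (move 303 (leaf 303 7)) (move 365 (branch (move 364 (leaf 364 3)) (move 333 (branch (move 301 (leaf 301 4)) (move 334 (branch (move 302 (leaf 301 6)) (move 337 (branch (move 366 (leaf 333 1)) (move 305 (leaf 304 6))))))))))))))))))))))))))))))))))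
theorem a6p672 : a6e672.Valid :=
  pos_of_chk [] forall_nil a6c672 a6e672 (by decide +kernel)

def a6e673 : Pos := ⟨329510287762989358691697063438500012489510971826323828881283202599575369855904351217873142002748393389507040064574949454177753955411015169739847615404371345408, 40522612991505805956244513798264865180593930548757730279398136434710373917299838870579989493445875338433587664202060886378887858206408504329039791282227808805515964574590811766784, 13⟩
def a6c673 : Cert := (move 431 (branch (move 428 (branch (move 396 (branch (move 395 (leaf 395 3)) (move 460 (branch (move 459 (leaf 427 1)) (move 492 (leaf 396 4)))))) (branch (move 399 (branch (move 400 (leaf 396 2)) (move 427 (branch (move 398 (leaf 395 2)) (move 459 (branch (move 458 (leaf 426 1)) (move 460 (leaf 427 1)))))))) (move 399 (branch (move 400 (leaf 396 2)) (move 427 (branch (move 398 (leaf 395 2)) (move 395 (branch (move 394 (leaf 394 3)) (move 396 (leaf 395 3))))))))))) (branch (move 496 (branch (move 495 (branch (move 524 (leaf 492 1)) (move 497 (leaf 493 1)))) (move 432 (branch (move 401 (branch (move 400 (leaf 397 2)) (move 433 (branch (move 402 (leaf 398 2))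 (move 466 (branch (move 465 (leaf 430 0)) (move 434 (branch (move 467 (leaf 431 0)) (move 398 (branch (move 397 (leaf 397 3)) (move 399 (leaf 398 3)))))))))))) (branch (move 464 (branch (move 465 (leaf 429 0)) (move 528 (branch (move 399 (leaf 399 7)) (move 433 (branch (move 401 (leaf 400 6)) (move 561 (branch (move 529 (leaf 432 4)) (move 560 (branch (move 593 (leaf 464 4)) (move 559 (branch (move 558 (leaf 525 3)) (move 591 (leaf 463 5)))))))))))))) (branch (move 464 (branch (move 465 (leaf 429 0)) (move 399 (branch (move 528 (leaf 399 7)) (move 400 (branch (move 428 (leaf 396 2)) (move 367 (leaf 367 7)))))))) (branch (move 400 (branch (move 401 (leaf 397 2)) (move 399 (branch (move 428 (leaf 396 2)) (move 464 (branch (move 367 (leaf 367 7)) (move 528 (leaf 399 7)))))))) (move 401 (branch (move 400 (leaf 397 2)) (move 433 (branch (move 402 (leaf 398 2)) (move 465 (branch (move 464 (leaf 429 0)) (move 466 (leaf 430 0))))))))))))))) (branch (move 496 (branch (move 495 (branch (move 524 (leaf 492 1)) (move 497 (leaf 493 1)))) (move 428 (branch (move 459 (branch (move 460 (leaf 427 1)) (move 427 (branch (move 458 (leaf 426 1)) (move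 394 (branch (move 395 (leaf 394 3)) (move 426 (branch (move 393 (leaf 393 3)) (move 398 (branch (move 397 (leaf 394 2)) (move 399 (leaf 395 2)))))))))))) (branch (move 396 (branch (move 395 (leaf 395 3)) (move 432 (branch (move 397 (leaf 396 3)) (move 464 (branch (move 465 (leaf 429 0)) (move 528 (branch (move 399 (leaf 399 7)) (move 433 (branch (move 401 (leaf 400 6)) (move 561 (branch (move 529 (leaf 432 4)) (move 560 (branch (move 593 (leaf 464 4)) (move 559 (branch (move 558 (leaf 525 3)) (move 591 (leaf 463 5)))))))))))))))))) (branch (move 460 (branch (move 459 (leaf 427 1)) (move 396 (branch (move 492 (leaf 396 4)) (move 432 (branch (move 397 (leaf 396 3)) (move 464 (branch (move 465 (leaf 429 0)) (move 528 (branch (move 399 (leaf 399 7)) (move 433 (branch (move 401 (leaf 400 6)) (move 561 (branch (move 529 (leaf 432 4)) (move 560 (branch (move 593 (leaf 464 4)) (move 559 (branch (move 558 (leaf 525 3)) (move 591 (leaf 463 5)))))))))))))))))))) (move 459 (branch (move 460 (leaf 427 1)) (move 427 (branch (move 458 (leaf 426 1)) (move 395 (branch (move 394 (leaf 394 3)) (move 396 (leaf 395 3)))))))))))))) (branch (move 432 (branch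 (move 401 (branch (move 400 (leaf 397 2)) (move 433 (branch (move 402 (leaf 398 2)) (move 465 (branch (move 464 (leaf 429 0)) (move 466 (leaf 430 0)))))))) (move 396 (branch (move 397 (leaf 396 3)) (move 428 (branch (move 395 (leaf 395 3)) (move 460 (branch (move 459 (leaf 427 1)) (move 492 (leaf 396 4)))))))))) (move 496 (branch (move 495 (branch (move 524 (leaf 492 1)) (move 497 (leaf 493 1)))) (move 432 (branch (move 464 (branch (move 465 (leaf 429 0)) (move 528 (branch (move 399 (leaf 399 7)) (move 433 (branch (move 401 (leaf 400 6)) (move 561 (branch (move 529 (leaf 432 4)) (move 560 (branch (move 593 (leaf 464 4)) (move 559 (branch (move 558 (leaf 525 3)) (move 591 (leaf 463 5)))))))))))))) (branch (move 464 (branch (move 465 (leaf 429 0)) (move 399 (branch (move 528 (leaf 399 7)) (move 367 (branch (move 335 (leaf 335 4)) (move 400 (leaf 367 7)))))))) (move 401 (branch (move 400 (leaf 397 2)) (move 433 (branch (move 402 (leaf 398 2)) (move 397 (branch (move 396 (leaf 396 3)) (move 398 (leaf 397 3))))))))))))))))))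
theorem a6p673 : a6e673.Valid :=
  pos_of_chk [] forall_nil a6c673 a6e673 (by decide +kernel)

def a6e674 : Pos := ⟨329510287762989358691697063435727342795390156966745414697140118896138932780528534642702662422133772081701414441534975048073614377313623958778444043575397187584, 40522612991505805956244513798271258521637258367936071034241595029222238761773932069965103773658326094136563586590889811693941728884533771920622688736166767500700601535800744607744, 14⟩
def a6c674 : Cert := (move 430 (branch (move 462 (branch (move 398 (leaf 397 5)) (move 397 (leaf 397 7)))) (branch (ref 0) (branch (move 431 (branch (move 399 (branch (move 462 (leaf 398 6)) (move 428 (branch (move 400 (leaf 396 2)) (move 459 (branch (move 460 (leaf 427 1)) (move 427 (branch (move 458 (leaf 426 1)) (move 395 (branch (move 394 (leaf 394 3)) (move 396 (leaf 395 3)))))))))))) (branch (move 432 (branch (move 401 (branch (move 400 (leaf 397 2)) (move 433 (branch (move 402 (leaf 398 2)) (move 465 (branch (move 464 (leaf 429 0)) (move 466 (leaf 430 0)))))))) (move 396 (branch (move 397 (leaf 396 3)) (move 428 (branch (move 395 (leaf 395 3)) (move 460 (branch (move 459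 (leaf 427 1)) (move 492 (leaf 396 4)))))))))) (move 462 (branch (move 399 (leaf 398 6)) (move 397 (leaf 397 7))))))) (move 428 (branch (move 459 (branch (move 427 (branch (move 458 (leaf 426 1)) (move 395 (branch (move 394 (leaf 394 3)) (move 396 (branch (move 431 (leaf 395 3)) (move 364 (branch (move 332 (leaf 331 5)) (move 491 (leaf 363 6)))))))))) (branch (move 460 (branch (move 431 (leaf 427 1)) (move 492 (branch (move 495 (leaf 459 3)) (move 396 (leaf 396 4)))))) (branch (move 458 (branch (move 427 (leaf 426 1)) (move 492 (branch (move 491 (leaf 458 3)) (move 460 (branch (move 457 (leaf 457 0)) (move 396 (leaf 396 4)))))))) (move 458 (branch (move 427 (leaf 426 1)) (move 460 (branch (move 431 (leaf 427 1)) (move 457 (leaf 425 2)))))))))) (branch (move 398 (branch (move 462 (leaf 397 5)) (move 427 (branch (move 399 (leaf 395 2)) (move 458 (branch (move 459 (leaf 426 1)) (move 426 (branch (move 457 (leaf 425 1)) (move 394 (branch (move 393 (leaf 393 3)) (move 395 (leaf 394 3)))))))))))) (branch (move 462 (branch (move 398 (leaf 397 5)) (move 431 (branch (move 399 (leaf 398 6)) (move 460 (branch (move 459 (leaf 427 1)) (move 396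 (branch (move 395 (leaf 395 3)) (move 492 (leaf 396 4)))))))))) (move 398 (branch (move 462 (leaf 397 5)) (move 399 (branch (move 427 (leaf 395 2)) (move 400 (branch (move 401 (leaf 397 1)) (move 431 (leaf 396 2))))))))))))))))
theorem a6p674 : a6e674.Valid :=
  pos_of_chk [a6e673] (forall_cons a6p673 forall_nil) a6c674 a6e674 (by decide +kernel)

def a6e675 : Pos := ⟨109836762587663119563899021154484679912199435187509852179523651976834434511428900131469152742759995053252556890644906369705003386095845356130826587288379588608, 12786682067304284156529683584787038682697225472547754206557566869820972314163349709109600344045076846214462846366376452795248856246599640911167094784, 5⟩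
def a6c675 : Cert := (move 428 (branch (move 399 (branch (move 400 (leaf 396 2)) (move 427 (branch (move 398 (leaf 395 2)) (move 459 (branch (move 458 (leaf 426 1)) (move 460 (leaf 427 1)))))))) (branch (move 396 (branch (move 395 (leaf 395 3)) (move 460 (branch (move 459 (leaf 427 1)) (move 492 (leaf 396 4)))))) (move 399 (branch (move 400 (leaf 396 2)) (move 427 (branch (move 398 (leaf 395 2)) (move 395 (branch (move 394 (leaf 394 3)) (move 396 (leaf 395 3)))))))))))
theorem a6p675 : a6e675.Valid :=
  pos_of_chk [] forall_nil a6c675 a6e675 (by decide +kernel)

def a6e676 : Pos := ⟨9704343929422852008524449644500792962027529763815358013096678532151174577319689680639910421364488523340869238364912501401409552384, 878694100701304958016876382317655665996324913247176564391381424883851857227280236095251163347857028926442024224981135942118514621992535658385664704168234844160, 10⟩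
def a6c676 : Cert := (move 464 (branch (move 428 (branch (move 463 (leaf 428 0)) (move 399 (branch (move 400 (leaf 396 2)) (move 427 (branch (move 398 (leaf 395 2)) (move 459 (branch (move 458 (leaf 426 1)) (move 460 (leaf 427 1)))))))))) (branch (move 432 (branch (move 465 (leaf 429 0)) (move 401 (branch (move 400 (leaf 397 2)) (move 433 (branch (move 402 (leaf 398 2)) (move 496 (branch (move 528 (leaf 400 6)) (move 398 (branch (move 397 (leaf 397 3)) (move 434 (branch (move 399 (leaf 398 3)) (move 435 (branch (move 463 (leaf 431 1)) (move 467 (branch (move 466 (leaf 431 0)) (move 468 (leaf 432 0)))))))))))))))))) (branch (move 432 (branch (move 465 (leaf 429 0)) (move 400 (branch (move 401 (leaf 397 2)) (move 399 (branch (move 428 (leaf 396 2)) (move 367 (branch (move 335 (leaf 335 4)) (move 496 (leaf 367 7)))))))))) (move 465 (branch (move 432 (leaf 429 0)) (move 463 (branch (move 428 (leaf 428 0)) (move 466 (leaf 430 3))))))))))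
theorem a6p676 : a6e676.Valid :=
  pos_of_chk [] forall_nil a6c676 a6e676 (by decide +kernel)

def a6e677 : Pos := ⟨109836762587663119563899021154484679912199435187509852179523651976834434511428900131469152742759995053252556890644906369705003386095845356130826587288379588608, 12786682805632875083609571185071953972605258787000703083845297326552209735055325525904332547067924775191525302324944172773132425755133118663861731328, 8⟩
def a6c677 : Cert := (move 432 (branch (move 397 (branch (move 396 (leaf 396 3)) (move 433 (branch (move 398 (leaf 397 3)) (move 466 (branch (move 465 (leaf 430 0)) (move 434 (branch (move 467 (leaf 431 0)) (move 402 (branch (move 401 (leaf 398 2)) (move 403 (leaf 399 2)))))))))))) (branch (move 464 (branch (move 465 (leaf 429 0)) (move 428 (branch (move 463 (leaf 428 0)) (move 459 (branch (move 460 (leaf 427 1)) (move 427 (branch (move 458 (leaf 426 1)) (move 395 (branch (move 394 (leaf 394 3)) (move 396 (leaf 395 3)))))))))))) (branch (move 464 (branch (move 465 (leaf 429 0)) (move 428 (branch (move 463 (leaf 428 0)) (move 459 (branch (move 460 (leaf 427 1)) (move 427 (branch (move 458 (leaf 426 1)) (move 398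 (branch (move 399 (leaf 395 2)) (move 397 (branch (move 426 (leaf 394 2)) (move 433 (leaf 397 3)))))))))))))) (move 396 (branch (move 397 (leaf 396 3)) (move 428 (branch (move 395 (leaf 395 3)) (move 460 (branch (move 459 (leaf 427 1)) (move 492 (leaf 396 4))))))))))))
theorem a6p677 : a6e677.Valid :=
  pos_of_chk [] forall_nil a6c677 a6e677 (by decide +kernel)

def a6e678 : Pos := ⟨9704343929422852008524449644500792962027529763815358013096678532151174577319689680639910421364488523340869238364912501401409552384, 362465749775839396518332801426642787232225383761423219650367906359935549849642088393395089329497304073960519594696915559118960421087672795136, 7⟩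
def a6c678 : Cert := (move 432 (branch (move 401 (branch (move 400 (leaf 397 2)) (move 433 (branch (move 402 (leaf 398 2)) (move 465 (branch (move 464 (leaf 429 0)) (move 466 (leaf 430 0)))))))) (branch (move 397 (branch (move 396 (leaf 396 3)) (move 433 (branch (move 398 (leaf 397 3)) (move 401 (branch (move 400 (leaf 397 2)) (move 402 (leaf 398 2)))))))) (move 464 (branch (move 465 (leaf 429 0)) (move 428 (branch (move 463 (leaf 428 0)) (move 459 (branch (move 460 (leaf 427 1)) (move 427 (branch (move 458 (leaf 426 1)) (move 395 (branch (move 394 (leaf 394 3)) (move 396 (leaf 395 3)))))))))))))))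
theorem a6p678 : a6e678.Valid :=
  pos_of_chk [] forall_nil a6c678 a6e678 (by decide +kernel)

def a6e679 : Pos := ⟨9704343929422852008524449644500792962027529763815358013096678532151174577319689680639910421364488523340869238364912501401409552384, 204586913350764636674873091244474971791012217897959512551401878453029475580601819259474071687596792256659915641252650199148243688822426610359171284992, 9⟩
def a6c679 : Cert := (move 432 (branch (move 401 (branch (move 400 (leaf 397 2)) (move 433 (branch (move 402 (leaf 398 2)) (move 465 (branch (move 464 (leaf 429 0)) (move 466 (leaf 430 0)))))))) (branch (move 397 (branch (move 396 (leaf 396 3)) (move 433 (branch (move 398 (leaf 397 3)) (move 465 (branch (move 464 (leaf 429 0)) (move 466 (leaf 430 0)))))))) (branch (move 397 (branch (move 396 (leaf 396 3)) (move 433 (branch (move 398 (leaf 397 3)) (move 401 (branch (move 400 (leaf 397 2)) (move 402 (leaf 398 2)))))))) (move 400 (branch (move 401 (leaf 397 2)) (move 368 (branch (move 336 (branch (move 463 (leaf 335 5)) (move 304 (branch (move 399 (leaf 303 5)) (move 303 (branch (move 271 (leaf 271 7)) (move 335 (leaf 303 7)))))))) (branch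 (move 464 (branch (move 465 (leaf 429 0)) (move 367 (branch (move 335 (leaf 335 7)) (move 399 (branch (move 496 (leaf 367 7)) (move 397 (branch (move 396 (leaf 396 3)) (move 369 (branch (move 398 (leaf 365 2)) (move 337 (leaf 336 6)))))))))))) (move 464 (branch (move 465 (leaf 429 0)) (move 336 (branch (move 463 (leaf 335 5)) (move 337 (branch (move 305 (leaf 304 6)) (move 369 (leaf 336 6)))))))))))))))))
theorem a6p679 : a6e679.Valid :=
  pos_of_chk [] forall_nil a6c679 a6e679 (by decide +kernel)

def a6e680 : Pos := ⟨329510287762989358691697063441272682183631786685902243065426286303011806931280167793043621583363014697312665687614923860281893533508406380701251187233345503232, 115080139302387308524294418907637492219295246379598304691876971587917642781867272227885465376053428765053671442883982475900802279362321454924233179136, 11⟩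
def a6c680 : Cert := (move 430 (branch (ref 0) (branch (ref 1) (branch (ref 2) (branch (move 428 (branch (move 400 (branch (move 399 (leaf 396 2)) (move 432 (branch (move 401 (leaf 397 2)) (move 464 (branch (move 463 (leaf 428 0)) (move 465 (leaf 429 0)))))))) (move 396 (branch (move 395 (leaf 395 3)) (move 460 (branch (move 459 (leaf 427 1)) (move 492 (leaf 396 4)))))))) (branch (move 432 (branch (move 401 (branch (move 400 (leaf 397 2)) (move 433 (branch (move 402 (leaf 398 2)) (move 465 (branch (move 464 (leaf 429 0)) (move 466 (leaf 430 0)))))))) (branch (move 464 (branch (move 465 (leaf 429 0)) (move 428 (branch (move 463 (leaf 428 0)) (move 459 (branch (move 460 (leaf 427 1)) (move 427 (branch (move 458 (leaf 426 1)) (move 398 (branch (move 399 (leaf 395 2)) (move 397 (branch (move 426 (leaf 394 2)) (move 433 (leaf 397 3)))))))))))))) (branch (move 401 (branch (move 400 (leaf 397 2)) (move 433 (branch (move 402 (leaf 398 2)) (move 466 (branch (move 465 (leaf 430 0)) (move 434 (branch (move 467 (leaf 431 0)) (move 398 (branch (move 397 (leaf 397 3)) (move 399 (leaf 398 3)))))))))))) (branch (move 400 (branch (move 401 (leaf 397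 2)) (move 464 (branch (move 465 (leaf 429 0)) (move 428 (branch (move 463 (leaf 428 0)) (move 399 (leaf 396 2)))))))) (move 401 (branch (move 400 (leaf 397 2)) (move 433 (branch (move 402 (leaf 398 2)) (move 398 (branch (move 397 (leaf 397 3)) (move 399 (branch (move 434 (leaf 398 3)) (move 463 (branch (move 495 (leaf 398 5)) (move 428 (branch (move 464 (leaf 428 0)) (move 427 (leaf 395 2))))))))))))))))))) (move 432 (branch (move 401 (branch (move 400 (leaf 397 2)) (move 433 (branch (move 402 (leaf 398 2)) (move 465 (branch (move 464 (leaf 429 0)) (move 466 (leaf 430 0)))))))) (branch (move 397 (branch (move 396 (leaf 396 3)) (move 433 (branch (move 398 (leaf 397 3)) (move 465 (branch (move 464 (leaf 429 0)) (move 466 (leaf 430 0)))))))) (branch (move 397 (branch (move 396 (leaf 396 3)) (move 433 (branch (move 398 (leaf 397 3)) (move 401 (branch (move 400 (leaf 397 2)) (move 402 (leaf 398 2)))))))) (move 400 (branch (move 401 (leaf 397 2)) (move 368 (branch (move 336 (branch (move 463 (leaf 335 5)) (move 304 (branch (move 399 (leaf 303 5)) (move 303 (branch (move 271 (leaf 271 7)) (move 335 (leaf 303 7)))))))) (branch (move 464 (branch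 (move 465 (leaf 429 0)) (move 336 (branch (move 463 (leaf 335 5)) (move 337 (branch (move 305 (leaf 304 6)) (move 369 (leaf 336 6)))))))) (branch (move 464 (branch (move 465 (leaf 429 0)) (move 463 (branch (move 495 (leaf 367 5)) (move 367 (branch (move 335 (leaf 335 7)) (move 369 (branch (move 337 (leaf 336 6)) (move 397 (branch (move 396 (leaf 396 3)) (move 398 (branch (move 366 (leaf 365 1)) (move 399 (leaf 365 2)))))))))))))) (move 464 (branch (move 465 (leaf 429 0)) (move 335 (branch (move 367 (leaf 335 7)) (move 336 (branch (move 303 (leaf 303 7)) (move 337 (branch (move 305 (leaf 304 6)) (move 369 (leaf 336 6))))))))))))))))))))))))))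
theorem a6p680 : a6e680.Valid :=
  pos_of_chk [a6e675, a6e677, a6e678] (forall_cons a6p675 (forall_cons a6p677 (forall_cons a6p678 forall_nil))) a6c680 a6e680 (by decide +kernel)

def a6e681 : Pos := ⟨943490606534895625823378003938764286170502987287741893779953818126832326901049019952811849087458313468730108455003626912557570017763091691648764943559425198145694334976, 32418090395091625977944581851432677412275679278677217734295887290704687655763383530818394956992575822273598231564691016019737159116296635457832782639636843675861863860416177766400, 9⟩
def a6c681 : Cert := (move 430 (branch (ref 0) (branch (move 496 (branch (move 495 (branch (move 524 (leaf 492 1)) (move 497 (leaf 493 1)))) (move 432 (branch (move 401 (branch (move 400 (leaf 397 2)) (move 433 (branch (move 402 (leaf 398 2)) (move 466 (branch (move 465 (leaf 430 0)) (move 434 (branch (move 467 (leaf 431 0)) (move 398 (branch (move 397 (leaf 397 3)) (move 399 (leaf 398 3)))))))))))) (branch (move 464 (branch (move 465 (leaf 429 0)) (move 528 (branch (move 399 (leaf 399 7)) (move 433 (branch (move 401 (leaf 400 6)) (move 561 (branch (move 529 (leaf 432 4)) (move 560 (branch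 (move 559 (leaf 525 3)) (move 593 (leaf 464 4)))))))))))) (branch (move 464 (branch (move 465 (leaf 429 0)) (move 399 (branch (move 528 (leaf 399 7)) (move 400 (branch (move 428 (leaf 396 2)) (move 367 (leaf 367 7)))))))) (branch (move 400 (branch (move 401 (leaf 397 2)) (move 399 (branch (move 428 (leaf 396 2)) (move 464 (branch (move 367 (leaf 367 7)) (move 528 (leaf 399 7)))))))) (move 401 (branch (move 400 (leaf 397 2)) (move 433 (branch (move 402 (leaf 398 2)) (move 465 (branch (move 464 (leaf 429 0)) (move 466 (leaf 430 0))))))))))))))) (branch (move 428 (branch (move 396 (branch (move 395 (leaf 395 3)) (move 460 (branch (move 459 (leaf 427 1)) (move 492 (leaf 396 4)))))) (branch (move 459 (branch (move 460 (leaf 427 1)) (move 427 (branch (move 458 (leaf 426 1)) (move 398 (branch (move 399 (leaf 395 2)) (move 426 (branch (move 397 (leaf 394 2)) (move 394 (branch (move 393 (leaf 393 3)) (move 395 (leaf 394 3)))))))))))) (branch (move 459 (branch (move 460 (leaf 427 1)) (move 427 (branch (move 458 (leaf 426 1)) (move 398 (branch (move 399 (leaf 395 2)) (move 397 (branch (move 426 (leaf 394 2)) (move 432 (branch (move 396 (leaf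 396 3)) (move 433 (leaf 397 3)))))))))))) (move 427 (branch (move 398 (branch (move 399 (leaf 395 2)) (move 397 (branch (move 426 (leaf 394 2)) (move 432 (branch (move 396 (leaf 396 3)) (move 433 (leaf 397 3)))))))) (branch (move 398 (branch (move 399 (leaf 395 2)) (move 426 (branch (move 397 (leaf 394 2)) (move 394 (branch (move 393 (leaf 393 3)) (move 395 (leaf 394 3)))))))) (move 395 (branch (move 394 (leaf 394 3)) (move 396 (leaf 395 3))))))))))) (branch (move 432 (branch (move 401 (branch (move 400 (leaf 397 2)) (move 433 (branch (move 402 (leaf 398 2)) (move 465 (branch (move 464 (leaf 429 0)) (move 466 (leaf 430 0)))))))) (move 396 (branch (move 397 (leaf 396 3)) (move 428 (branch (move 395 (leaf 395 3)) (move 460 (branch (move 459 (leaf 427 1)) (move 492 (leaf 396 4)))))))))) (move 432 (branch (move 397 (branch (move 396 (leaf 396 3)) (move 433 (branch (move 398 (leaf 397 3)) (move 465 (branch (move 464 (leaf 429 0)) (move 466 (leaf 430 0)))))))) (branch (move 397 (branch (move 396 (leaf 396 3)) (move 433 (branch (move 398 (leaf 397 3)) (move 401 (branch (move 400 (leaf 397 2)) (move 402 (leaf 398 2)))))))) (move 496 (branch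 (move 464 (branch (move 465 (leaf 429 0)) (move 400 (branch (move 401 (leaf 397 2)) (move 399 (branch (move 367 (leaf 367 7)) (move 528 (leaf 399 7)))))))) (move 495 (branch (move 524 (leaf 492 1)) (move 497 (leaf 493 1))))))))))))))
theorem a6p681 : a6e681.Valid :=
  pos_of_chk [a6e675] (forall_cons a6p675 forall_nil) a6c681 a6e681 (by decide +kernel)

def a6e682 : Pos := ⟨943490606534895625976818188731530038962808147505576089113857179198501229122082379230925862487429809614683040335885640978582592368832602636194084081199926649853359161344, 32418090395091625977889663469844752164445573154855951866189024709644861947738272727625989109634928264839452803309471981715863835928407840097415995602830189864260278504826796507136, 8⟩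
def a6c682 : Cert := (move 432 (branch (move 401 (branch (move 433 (branch (move 528 (leaf 400 6)) (move 402 (branch (move 430 (leaf 398 2)) (move 403 (branch (move 404 (leaf 400 1)) (move 434 (leaf 399 2)))))))) (branch (move 400 (branch (move 430 (leaf 397 2)) (move 369 (leaf 368 6)))) (move 400 (branch (move 369 (leaf 368 6)) (move 528 (branch (move 433 (leaf 400 6)) (move 529 (branch (move 497 (leaf 400 4)) (move 561 (leaf 432 4))))))))))) (branch (move 430 (branch (move 465 (leaf 429 0)) (move 396 (branch (move 397 (leaf 396 3)) (move 428 (branch (move 395 (leaf 395 3)) (move 460 (branch (move 459 (leaf 427 1)) (move 492 (leaf 396 4)))))))))) (move 400 (branch (move 497 (branch (move 529 (leaf 400 4)) (move 368 (branch (move 465 (leaf 368 4)) (move 337 (branch (move 369 (leaf 336 6)) (move 336 (branch (move 305 (leaf 304 6)) (move 335 (branch (move 303 (leaf 303 7)) (move 367 (leaf 335 7)))))))))))) (branch (move 401 (branch (move 369 (leaf 368 6)) (move 528 (branch (move 433 (leaf 400 6)) (move 561 (branch (move 529 (leaf 432 4)) (move 560 (branch (move 559 (leaf 525 3)) (move 593 (leaf 464 4)))))))))) (branch (move 369 (branch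 (move 401 (leaf 368 6)) (move 368 (branch (move 337 (leaf 336 6)) (move 465 (branch (move 497 (leaf 368 4)) (move 336 (branch (move 433 (leaf 336 4)) (move 335 (branch (move 303 (leaf 303 7)) (move 367 (leaf 335 7)))))))))))) (move 528 (branch (move 433 (branch (move 401 (leaf 400 6)) (move 465 (branch (move 560 (leaf 432 6)) (move 368 (branch (move 336 (leaf 336 4)) (move 497 (leaf 368 4)))))))) (branch (move 529 (branch (move 497 (leaf 400 4)) (move 561 (leaf 432 4)))) (move 561 (branch (move 529 (leaf 432 4)) (move 560 (branch (move 559 (leaf 525 3)) (move 593 (leaf 464 4))))))))))))))))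
theorem a6p682 : a6e682.Valid :=
  pos_of_chk [] forall_nil a6c682 a6e682 (by decide +kernel)

def a6e683 : Pos := ⟨943490606534895625823378003938764286170502987287741893779953818126832326901049019952811849087458313468730108455003626912557570017763091691648764943559425198145694334976, 32418090395091625977944581851442267423464994237046072010347788406923785188233257239612330439590702829102366457136178415355468512698922065744543156513764315380060356688798669602816, 10⟩
def a6c683 : Cert := (move 464 (branch (move 430 (branch (move 465 (branch (move 432 (leaf 429 0)) (move 463 (branch (move 428 (leaf 428 0)) (move 466 (leaf 430 3)))))) (branch (move 428 (branch (move 463 (leaf 428 0)) (move 396 (branch (move 395 (leaf 395 3)) (move 460 (branch (move 459 (leaf 427 1)) (move 492 (leaf 396 4)))))))) (move 432 (branch (move 465 (leaf 429 0)) (move 401 (branch (move 400 (leaf 397 2)) (move 433 (branch (move 402 (leaf 398 2)) (move 397 (branch (move 396 (leaf 396 3)) (move 398 (leaf 397 3))))))))))))) (branch (move 495 (branch (move 492 (branch (move 463 (leaf 460 2)) (move 491 (branch (move 490 (leaf 490 0)) (move 459 (branch (move 458 (leaf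 458 3)) (move 460 (leaf 459 3)))))))) (move 496 (branch (move 524 (leaf 492 1)) (move 497 (leaf 493 1)))))) (branch (move 495 (branch (move 430 (branch (move 428 (branch (move 463 (leaf 428 0)) (move 395 (branch (move 396 (leaf 395 3)) (move 427 (branch (move 394 (leaf 394 3)) (move 459 (branch (move 458 (leaf 426 1)) (move 460 (leaf 427 1)))))))))) (branch (move 432 (branch (move 465 (leaf 429 0)) (move 397 (branch (move 396 (leaf 396 3)) (move 433 (branch (move 398 (leaf 397 3)) (move 401 (branch (move 400 (leaf 397 2)) (move 402 (leaf 398 2)))))))))) (move 465 (branch (move 432 (leaf 429 0)) (move 463 (branch (move 428 (leaf 428 0)) (move 466 (leaf 462 1))))))))) (move 496 (branch (move 524 (leaf 492 1)) (move 497 (leaf 493 1)))))) (branch (move 495 (branch (move 463 (branch (move 492 (leaf 460 2)) (move 430 (branch (move 428 (leaf 428 0)) (move 465 (branch (move 432 (leaf 429 0)) (move 466 (leaf 462 1)))))))) (move 496 (branch (move 524 (leaf 492 1)) (move 497 (leaf 493 1)))))) (move 496 (branch (move 495 (branch (move 524 (leaf 492 1)) (move 497 (leaf 493 1)))) (branch (move 495 (branch (move 524 (leaf 492 1)) (move 465 (leaf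 461 2)))) (ref 0)))))))))
theorem a6p683 : a6e683.Valid :=
  pos_of_chk [a6e682] (forall_cons a6p682 forall_nil) a6c683 a6e683 (by decide +kernel)

def a6e684 : Pos := ⟨109836762587663119563899021151712010219369745266974892290208527859399503373217936452713284918560703423717255078613352560915686484638523060887374601445779177472, 12786682733437438368273629909182732142027625244511919362976805083891536866227483473303227834749172626956787940283743401547877943474058204453990825984, 12⟩
def a6c684 : Cert := (move 397 (branch (move 396 (branch (move 430 (branch (move 432 (leaf 396 3)) (move 395 (branch (move 394 (leaf 394 0)) (move 428 (leaf 395 3)))))) (branch (move 398 (branch (move 432 (leaf 396 0)) (move 395 (branch (move 430 (leaf 395 0)) (move 367 (branch (move 366 (leaf 363 2)) (move 368 (leaf 364 2)))))))) (branch (move 398 (branch (move 432 (leaf 396 0)) (move 428 (branch (move 427 (leaf 395 1)) (move 460 (branch (move 492 (leaf 396 4)) (move 364 (branch (move 363 (leaf 363 3)) (move 333 (branch (move 365 (leaf 332 5)) (move 332 (branch (move 300 (leaf 300 4)) (move 301 (leaf 300 6)))))))))))))) (move 398 (branch (move 428 (branch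 (move 427 (leaf 395 1)) (move 460 (branch (move 492 (leaf 396 4)) (move 364 (branch (move 363 (leaf 363 3)) (move 333 (branch (move 365 (leaf 332 5)) (move 332 (branch (move 300 (leaf 300 4)) (move 301 (leaf 300 6)))))))))))) (move 395 (branch (move 430 (leaf 395 0)) (move 367 (branch (move 366 (leaf 363 2)) (move 368 (leaf 364 2)))))))))))) (branch (move 398 (branch (move 400 (branch (move 401 (branch (move 430 (leaf 397 1)) (move 369 (branch (move 368 (leaf 365 2)) (move 370 (leaf 366 2)))))) (branch (move 368 (branch (move 369 (leaf 365 2)) (move 396 (branch (move 367 (leaf 364 2)) (move 364 (branch (move 363 (leaf 363 3)) (move 365 (leaf 364 3)))))))) (move 401 (branch (move 430 (leaf 397 1)) (move 365 (branch (move 364 (leaf 364 3)) (move 366 (leaf 365 3))))))))) (branch (move 400 (branch (move 428 (leaf 396 1)) (move 401 (branch (move 430 (leaf 397 1)) (move 369 (branch (move 368 (leaf 365 2)) (move 370 (leaf 366 2)))))))) (branch (move 428 (branch (move 400 (leaf 396 1)) (move 427 (branch (move 396 (leaf 395 1)) (move 426 (leaf 394 2)))))) (move 396 (branch (move 428 (branch (move 427 (leaf 395 1)) (move 460 (branch (move 492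 (leaf 396 4)) (move 364 (branch (move 363 (leaf 363 3)) (move 333 (branch (move 365 (leaf 332 5)) (move 332 (branch (move 300 (leaf 300 4)) (move 301 (leaf 300 6)))))))))))) (move 395 (branch (move 430 (leaf 395 0)) (move 367 (branch (move 366 (leaf 363 2)) (move 368 (leaf 364 2)))))))))))) (branch (move 430 (branch (move 400 (branch (move 428 (leaf 396 2)) (move 401 (branch (move 402 (leaf 398 1)) (move 432 (leaf 397 2)))))) (branch (move 396 (branch (move 432 (leaf 396 3)) (move 395 (branch (move 394 (leaf 394 0)) (move 428 (leaf 395 3)))))) (branch (move 428 (branch (move 400 (leaf 396 2)) (move 396 (branch (move 395 (leaf 395 3)) (move 460 (branch (move 459 (leaf 427 1)) (move 492 (leaf 396 4)))))))) (move 432 (branch (move 396 (leaf 396 3)) (move 433 (branch (move 466 (branch (move 465 (leaf 430 0)) (move 434 (branch (move 467 (leaf 431 0)) (move 435 (branch (move 400 (leaf 399 3)) (move 403 (branch (move 402 (leaf 399 2)) (move 404 (leaf 400 2)))))))))) (branch (move 466 (branch (move 465 (leaf 430 0)) (move 434 (branch (move 467 (leaf 431 0)) (move 402 (branch (move 401 (leaf 398 2)) (move 403 (leaf 399 2)))))))) (branch (move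 400 (branch (move 401 (leaf 397 2)) (move 434 (branch (move 435 (leaf 399 3)) (move 466 (branch (move 465 (leaf 430 0)) (move 467 (leaf 431 0)))))))) (move 401 (branch (move 400 (leaf 397 2)) (move 402 (leaf 398 2)))))))))))))) (branch (move 398 (branch (move 428 (branch (move 400 (leaf 396 1)) (move 427 (branch (move 396 (leaf 395 1)) (move 426 (leaf 394 2)))))) (branch (move 400 (branch (move 428 (leaf 396 1)) (move 433 (branch (move 432 (leaf 397 0)) (move 401 (branch (move 434 (leaf 398 0)) (move 369 (branch (move 368 (leaf 365 2)) (move 370 (leaf 366 2)))))))))) (branch (move 396 (branch (move 432 (leaf 396 0)) (move 428 (branch (move 427 (leaf 395 1)) (move 460 (branch (move 492 (leaf 396 4)) (move 364 (branch (move 363 (leaf 363 3)) (move 365 (branch (move 333 (leaf 332 5)) (move 367 (branch (move 368 (leaf 364 2)) (move 366 (branch (move 395 (leaf 363 1)) (move 334 (branch (move 302 (leaf 302 4)) (move 332 (branch (move 331 (leaf 331 3)) (move 300 (leaf 300 4)))))))))))))))))))) (move 396 (branch (move 432 (leaf 396 0)) (move 364 (branch (move 363 (leaf 363 3)) (move 367 (branch (move 368 (leaf 364 2)) (move 366 (branch (move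 395 (leaf 363 2)) (move 365 (branch (move 400 (leaf 364 0)) (move 334 (branch (move 302 (leaf 302 4)) (move 332 (branch (move 331 (leaf 331 3)) (move 300 (leaf 300 4)))))))))))))))))))) (branch (move 400 (branch (move 430 (branch (move 428 (leaf 396 2)) (move 401 (branch (move 402 (leaf 398 1)) (move 432 (leaf 397 2)))))) (branch (move 428 (branch (move 398 (leaf 396 1)) (move 430 (leaf 396 2)))) (branch (move 398 (branch (move 428 (leaf 396 1)) (move 433 (branch (move 432 (leaf 397 0)) (move 401 (branch (move 434 (leaf 398 0)) (move 369 (branch (move 368 (leaf 365 2)) (move 370 (leaf 366 2)))))))))) (move 398 (branch (move 401 (branch (move 430 (leaf 397 1)) (move 369 (branch (move 368 (leaf 365 2)) (move 370 (leaf 366 2)))))) (branch (move 401 (branch (move 430 (leaf 397 1)) (move 433 (branch (move 432 (leaf 397 0)) (move 434 (leaf 398 0)))))) (move 432 (branch (move 433 (leaf 397 0)) (move 368 (branch (move 369 (leaf 365 2)) (move 336 (branch (move 304 (leaf 303 5)) (move 335 (branch (move 303 (leaf 303 7)) (move 365 (branch (move 364 (leaf 364 3)) (move 337 (branch (move 305 (leaf 304 6)) (move 366 (branch (move 334 (leaf 333 1))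 (move 367 (leaf 333 2))))))))))))))))))))))) (move 398 (branch (move 432 (branch (move 396 (leaf 396 0)) (move 433 (branch (move 400 (leaf 397 0)) (move 430 (leaf 397 3)))))) (branch (move 400 (branch (move 401 (branch (move 430 (leaf 397 1)) (move 369 (branch (move 368 (leaf 365 2)) (move 370 (leaf 366 2)))))) (branch (move 368 (branch (move 369 (leaf 365 2)) (move 396 (branch (move 367 (leaf 364 2)) (move 364 (branch (move 363 (leaf 363 3)) (move 365 (leaf 364 3)))))))) (move 401 (branch (move 430 (leaf 397 1)) (move 365 (branch (move 364 (leaf 364 3)) (move 366 (leaf 365 3))))))))) (branch (move 396 (branch (move 432 (leaf 396 0)) (move 364 (branch (move 363 (leaf 363 3)) (move 367 (branch (move 368 (leaf 364 2)) (move 366 (branch (move 395 (leaf 363 2)) (move 365 (branch (move 400 (leaf 364 0)) (move 334 (branch (move 302 (leaf 302 4)) (move 332 (branch (move 331 (leaf 331 3)) (move 300 (leaf 300 4)))))))))))))))) (branch (move 396 (branch (move 432 (leaf 396 0)) (move 395 (branch (move 430 (leaf 395 0)) (move 363 (branch (move 362 (leaf 362 3)) (move 364 (leaf 363 3)))))))) (move 400 (branch (move 401 (branch (move 430 (leaf 397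 1)) (move 369 (branch (move 368 (leaf 365 2)) (move 370 (leaf 366 2)))))) (branch (move 401 (branch (move 430 (leaf 397 1)) (move 433 (branch (move 432 (leaf 397 0)) (move 434 (leaf 398 0)))))) (move 432 (branch (move 433 (leaf 397 0)) (move 368 (branch (move 369 (leaf 365 2)) (move 336 (branch (move 304 (leaf 303 5)) (move 335 (branch (move 303 (leaf 303 7)) (move 365 (branch (move 364 (leaf 364 3)) (move 337 (branch (move 305 (leaf 304 6)) (move 366 (branch (move 334 (leaf 333 1)) (move 367 (leaf 333 2))))))))))))))))))))))))))))))
theorem a6p684 : a6e684.Valid :=
  pos_of_chk [] forall_nil a6c684 a6e684 (by decide +kernel)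

def a6e685 : Pos := ⟨943490606534895625823378003938764286164957647899500264060796989758546159494176145802060215937117354307500865839392375666477621205554812535453982521636618054487746019328, 32418090395091625977944581851442267424608212700391001508102061603617045420455511417918672156415015256990494156010197185697856808760960239467422484480797422629059925997795487514624, 14⟩
def a6c685 : Cert := (move 431 (branch (move 430 (branch (ref 0) (branch (ref 1) (branch (ref 2) (branch (ref 3) (branch (move 428 (branch (move 400 (branch (move 399 (leaf 396 2)) (move 432 (branch (move 401 (leaf 397 2)) (move 464 (branch (move 463 (leaf 428 0)) (move 465 (leaf 429 0)))))))) (move 396 (branch (move 395 (leaf 395 3)) (move 460 (branch (move 459 (leaf 427 1)) (move 492 (leaf 396 4)))))))) (ref 4))))))) (branch (move 495 (branch (move 496 (branch (move 524 (leaf 492 1)) (move 497 (leaf 493 1)))) (move 463 (branch (move 399 (leaf 398 5)) (move 492 (branch (move 464 (leaf 460 2)) (move 491 (branch (move 490 (leaf 490 0)) (move 459 (branch (move 458 (leaf 458 3)) (move 460 (leaf 459 3)))))))))))) (branch (ref 5) (branch (move 430 (branch (ref 1) (branch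 (ref 3) (branch (ref 4) (branch (move 428 (branch (move 396 (branch (move 395 (leaf 395 3)) (move 432 (branch (move 397 (leaf 396 3)) (move 400 (branch (move 399 (leaf 396 2)) (move 401 (leaf 397 2)))))))) (branch (move 395 (branch (move 396 (leaf 395 3)) (move 427 (branch (move 394 (leaf 394 3)) (move 459 (branch (move 458 (leaf 426 1)) (move 460 (leaf 427 1)))))))) (move 399 (branch (move 400 (leaf 396 2)) (move 427 (branch (move 398 (leaf 395 2)) (move 459 (branch (move 458 (leaf 426 1)) (move 460 (leaf 427 1))))))))))) (move 428 (branch (move 395 (branch (move 396 (leaf 395 3)) (move 427 (branch (move 394 (leaf 394 3)) (move 459 (branch (move 458 (leaf 426 1)) (move 460 (leaf 427 1)))))))) (move 463 (branch (move 464 (leaf 428 0)) (move 495 (branch (move 399 (leaf 398 5)) (move 496 (branch (move 524 (leaf 492 1)) (move 497 (leaf 493 1))))))))))))))) (branch (ref 6) (branch (ref 7) (branch (move 495 (branch (move 496 (branch (move 524 (leaf 492 1)) (move 497 (leaf 493 1)))) (move 463 (branch (move 399 (leaf 398 5)) (move 464 (branch (move 492 (leaf 460 2)) (move 430 (branch (move 428 (leaf 428 0)) (move 465 (branch (move 432 (leaf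 429 0)) (move 466 (leaf 462 1)))))))))))) (move 399 (branch (move 495 (branch (move 463 (leaf 398 5)) (move 496 (branch (move 524 (leaf 492 1)) (move 497 (leaf 493 1)))))) (ref 8)))))))))))
theorem a6p685 : a6e685.Valid :=
  pos_of_chk [a6e675, a6e676, a6e677, a6e678, a6e679, a6e680, a6e681, a6e683, a6e684] (forall_cons a6p675 (forall_cons a6p676 (forall_cons a6p677 (forall_cons a6p678 (forall_cons a6p679 (forall_cons a6p680 (forall_cons a6p681 (forall_cons a6p683 (forall_cons a6p684 forall_nil))))))))) a6c685 a6e685 (by decide +kernel)

def a6e686 : Pos := ⟨329510287711842630443319846716771253782458920213360382727717231560462505154026444073879622502082676889109161986052370608580488267794604325248984777117138944000, 69073433754417842097635243337058143062611874738859273605333084610024069277376391833124463835085105220860458410804672912984506918776557168183473701923001602250426372342597571881512766275584, 17⟩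
def a6c686 : Cert := (move 494 (branch (move 430 (branch (move 462 (branch (move 397 (leaf 397 7)) (move 431 (branch (move 399 (leaf 398 6)) (move 463 (branch (move 558 (leaf 430 6)) (move 464 (branch (move 428 (leaf 428 0)) (move 465 (leaf 461 1)))))))))) (branch (move 462 (branch (move 398 (leaf 397 5)) (move 431 (branch (move 399 (leaf 398 6)) (move 463 (branch (move 558 (leaf 430 6)) (move 464 (branch (move 428 (leaf 428 0)) (move 465 (leaf 461 1)))))))))) (branch (move 462 (branch (move 398 (leaf 397 5)) (move 397 (leaf 397 7)))) (ref 0))))) (branch (move 495 (branch (move 496 (branch (move 524 (leaf 492 1)) (move 497 (leaf 493 1)))) (move 492 (branch (move 491 (branch (move 490 (leaf 490 0)) (move 459 (branch (move 458 (leaf 458 3)) (move 460 (leaf 459 3)))))) (move 463 (branch (move 464 (leaf 460 2)) (move 558 (branch (move 590 (leaf 462 6)) (move 431 (branch (move 399 (leaf 398 5)) (move 462 (leaf 430 6)))))))))))) (branch (ref 1) (branch (move 430 (branch (move 462 (branch (move 397 (leaf 397 7)) (move 431 (branch (move 399 (leaf 398 6)) (move 463 (branch (move 558 (leaf 430 6)) (move 464 (branch (move 428 (leaf 428 0)) (move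 465 (leaf 461 1)))))))))) (branch (move 462 (branch (move 398 (leaf 397 5)) (move 431 (branch (move 399 (leaf 398 6)) (move 463 (branch (move 558 (leaf 430 6)) (move 464 (branch (move 428 (leaf 428 0)) (move 465 (leaf 461 1)))))))))) (branch (move 462 (branch (move 398 (leaf 397 5)) (move 397 (leaf 397 7)))) (ref 2))))) (branch (ref 3) (branch (move 462 (branch (move 430 (branch (move 398 (leaf 397 5)) (move 397 (leaf 397 7)))) (move 558 (branch (move 590 (branch (move 622 (leaf 493 7)) (move 591 (branch (move 559 (leaf 462 4)) (move 623 (leaf 494 4)))))) (move 463 (branch (move 431 (leaf 430 6)) (move 492 (branch (move 491 (leaf 459 2)) (move 464 (branch (move 465 (leaf 461 1)) (move 495 (leaf 460 2)))))))))))) (branch (move 492 (branch (move 460 (branch (move 495 (branch (move 459 (leaf 459 3)) (move 496 (branch (move 497 (leaf 493 1)) (move 464 (branch (move 463 (leaf 460 2)) (move 465 (leaf 461 2)))))))) (ref 4))) (branch (move 491 (branch (move 490 (leaf 490 0)) (move 459 (branch (move 458 (leaf 458 3)) (move 495 (branch (move 460 (leaf 459 3)) (move 496 (branch (move 524 (leaf 492 1)) (move 497 (leaf 493 1)))))))))) (move 491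 (branch (move 490 (leaf 490 0)) (move 462 (branch (move 463 (leaf 459 2)) (move 430 (branch (move 398 (leaf 397 5)) (move 397 (leaf 397 7))))))))))) (move 558 (branch (move 590 (branch (move 622 (leaf 493 7)) (move 495 (branch (move 463 (leaf 462 6)) (move 496 (branch (move 524 (leaf 492 1)) (move 497 (leaf 493 1)))))))) (branch (move 590 (branch (move 622 (leaf 493 7)) (move 589 (branch (move 621 (leaf 493 5)) (move 588 (branch (move 587 (branch (move 559 (leaf 555 2)) (move 554 (branch (move 555 (leaf 554 3)) (move 586 (branch (move 553 (leaf 553 3)) (move 618 (branch (move 617 (leaf 585 1)) (move 619 (leaf 586 1)))))))))) (branch (move 591 (branch (move 623 (leaf 494 4)) (move 620 (branch (move 619 (leaf 587 1)) (move 556 (branch (move 555 (leaf 555 3)) (move 524 (leaf 492 6)))))))) (move 591 (branch (move 623 (leaf 494 4)) (move 559 (branch (move 587 (leaf 555 2)) (move 560 (leaf 556 2))))))))))))) (branch (move 590 (branch (move 622 (leaf 493 7)) (move 495 (branch (move 463 (leaf 462 6)) (move 496 (branch (move 497 (leaf 493 1)) (move 591 (branch (move 623 (leaf 494 4)) (move 589 (branch (move 621 (leaf 493 5)) (move 464 (branch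 (move 465 (leaf 461 2)) (move 528 (branch (move 529 (leaf 493 0)) (move 560 (branch (move 559 (leaf 463 5)) (move 561 (branch (move 592 (leaf 557 2)) (move 593 (leaf 464 4)))))))))))))))))))) (ref 5)))))))))))))
theorem a6p686 : a6e686.Valid :=
  pos_of_chk [a6e669, a6e671, a6e672, a6e674, a6e670, a6e685] (forall_cons a6p669 (forall_cons a6p671 (forall_cons a6p672 (forall_cons a6p674 (forall_cons a6p670 (forall_cons a6p685 forall_nil)))))) a6c686 a6e686 (by decide +kernel)

def a6e687 : Pos := ⟨329510287878069497250545801051992208227425032232072529536270073549692676402470330134969262451941425611131169654850847833881078334682722528739025607191991156736, 235872651606264715796142039126518075941087869271890044995697051691908064439560740961378072445320919914878076125602367374626110194719393776368157949193908209142785376256, 11⟩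
def a6c687 : Cert := (move 461 (branch (move 460 (branch (move 459 (leaf 459 3)) (move 463 (branch (move 464 (leaf 460 2)) (move 428 (branch (move 396 (leaf 396 4)) (move 462 (branch (move 427 (leaf 427 3)) (move 431 (branch (move 432 (leaf 428 2)) (move 399 (leaf 398 5)))))))))))) (branch (move 429 (branch (move 397 (leaf 397 4)) (move 463 (branch (move 464 (leaf 460 2)) (move 430 (branch (move 398 (leaf 397 6)) (move 431 (branch (move 399 (leaf 398 5)) (move 428 (branch (move 396 (leaf 396 7)) (move 427 (branch (move 462 (leaf 427 0)) (move 458 (branch (move 459 (leaf 426 1)) (move 426 (branch (move 457 (leaf 425 1)) (move 394 (branch (move 393 (leaf 393 3)) (move 395 (leaf 394 3)))))))))))))))))))) (branch (move 429 (branch (move 397 (leaf 397 4)) (move 460 (branch (move 459 (leaf 459 3)) (move 428 (branch (move 396 (leaf 396 4)) (move 524 (branch (move 556 (leaf 428 5)) (move 430 (branch (move 398 (leaf 397 6)) (move 427 (branch (move 395 (leaf 395 7)) (move 426 (branch (move 425 (leaf 425 0)) (move 462 (leaf 426 0)))))))))))))))) (branch (move 429 (branch (move 397 (leaf 397 4)) (move 463 (branch (move 464 (leaf 460 2)) (move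 430 (branch (move 398 (leaf 397 6)) (move 431 (branch (move 399 (leaf 398 5)) (move 428 (branch (move 396 (leaf 396 7)) (move 427 (branch (move 462 (leaf 427 0)) (move 524 (branch (move 556 (leaf 428 5)) (move 460 (branch (move 432 (leaf 428 1)) (move 395 (leaf 395 7)))))))))))))))))) (move 429 (branch (move 397 (leaf 397 4)) (move 460 (branch (move 459 (leaf 459 3)) (move 524 (branch (move 556 (leaf 428 5)) (move 463 (branch (move 464 (leaf 460 2)) (move 431 (branch (move 399 (leaf 398 5)) (move 430 (branch (move 432 (leaf 428 1)) (move 398 (leaf 397 6)))))))))))))))))))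
theorem a6p687 : a6e687.Valid :=
  pos_of_chk [] forall_nil a6c687 a6e687 (by decide +kernel)

def a6e688 : Pos := ⟨329510287762989358691697063434341007948329749536956207605068577044420714242840626355117422631826461427798601630014987845021544588264928353297742257660910108672, 40522612991977551259347206467301452844266746242131502133288090550833272289542131662142591108256605810783043969372105625014578179395972233331489124181284174917241905783713017364480, 15⟩
def a6c688 : Cert := (move 429 (branch (move 430 (branch (move 462 (branch (move 398 (leaf 397 5)) (move 397 (leaf 397 7)))) (branch (move 398 (branch (move 462 (leaf 397 5)) (move 461 (leaf 397 6)))) (branch (move 461 (branch (move 397 (leaf 397 4)) (move 398 (leaf 397 6)))) (move 397 (branch (move 461 (leaf 397 4)) (move 462 (leaf 397 7)))))))) (branch (move 461 (branch (move 397 (leaf 397 4)) (move 558 (leaf 429 4)))) (branch (ref 0) (move 461 (branch (move 558 (leaf 429 4)) (move 430 (branch (move 398 (leaf 397 6)) (move 462 (branch (move 557 (leaf 429 5)) (move 431 (branch (move 399 (leaf 398 6)) (move 460 (branch (move 432 (leaf 428 1)) (move 459 (leaf 427 2))))))))))))))))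
theorem a6p688 : a6e688.Valid :=
  pos_of_chk [a6e674] (forall_cons a6p674 forall_nil) a6c688 a6e688 (by decide +kernel)

def a6e689 : Pos := ⟨329510287711842630443319846715384918935398512783571175635645689708744286616338535786294382711775366235206349174532383405528418478745908719768282991202651865088, 52212989290434347159530047653879702047265114811702114736023632714600787528010769277742470001811779192878548011641826884211206555652997489681798248883534373321038956938050502584891045052416, 17⟩
def a6c689 : Cert := (move 494 (branch (move 495 (branch (move 496 (branch (move 524 (leaf 492 1)) (move 497 (leaf 493 1)))) (move 463 (branch (move 558 (branch (move 590 (leaf 462 6)) (move 431 (branch (move 399 (leaf 398 5)) (move 462 (leaf 430 6)))))) (move 492 (branch (move 464 (leaf 460 2)) (move 491 (branch (move 490 (leaf 490 0)) (move 459 (branch (move 458 (leaf 458 3)) (move 460 (leaf 459 3)))))))))))) (branch (move 558 (branch (move 590 (branch (move 622 (leaf 493 7)) (move 591 (branch (move 623 (leaf 494 4)) (move 462 (branch (move 559 (leaf 462 4)) (move 430 (branch (move 398 (leaf 397 5)) (move 431 (branch (move 399 (leaf 398 6))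 (move 463 (leaf 430 6)))))))))))) (branch (move 461 (branch (move 429 (leaf 429 4)) (move 590 (leaf 461 7)))) (move 462 (branch (move 430 (branch (move 398 (leaf 397 5)) (move 431 (branch (move 399 (leaf 398 6)) (move 463 (leaf 430 6)))))) (branch (move 461 (branch (move 429 (leaf 429 4)) (move 463 (branch (move 431 (leaf 430 6)) (move 492 (branch (move 464 (leaf 460 1)) (move 491 (leaf 459 2)))))))) (move 429 (branch (move 461 (leaf 429 4)) (move 430 (branch (move 398 (leaf 397 5)) (move 397 (leaf 397 7)))))))))))) (branch (move 495 (branch (move 496 (branch (move 524 (leaf 492 1)) (move 497 (leaf 493 1)))) (branch (move 496 (branch (move 497 (leaf 493 1)) (move 464 (branch (move 465 (leaf 461 2)) (move 463 (branch (move 492 (leaf 460 2)) (move 431 (branch (move 399 (leaf 398 5)) (move 528 (branch (move 529 (leaf 493 0)) (move 560 (leaf 431 7)))))))))))) (move 492 (branch (move 491 (branch (move 490 (leaf 490 0)) (move 459 (branch (move 458 (leaf 458 3)) (move 460 (leaf 459 3)))))) (branch (move 491 (branch (move 490 (leaf 490 0)) (move 463 (branch (move 462 (leaf 459 2)) (move 464 (leaf 460 2)))))) (ref 0))))))) (branch (move 558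 (branch (move 590 (branch (move 622 (leaf 493 7)) (move 591 (branch (move 623 (leaf 494 4)) (move 462 (branch (move 559 (leaf 462 4)) (move 430 (branch (move 398 (leaf 397 5)) (move 431 (branch (move 399 (leaf 398 6)) (move 463 (leaf 430 6)))))))))))) (branch (move 461 (branch (move 429 (leaf 429 4)) (move 590 (leaf 461 7)))) (move 462 (branch (move 430 (branch (move 398 (leaf 397 5)) (move 431 (branch (move 399 (leaf 398 6)) (move 463 (leaf 430 6)))))) (branch (move 429 (branch (move 461 (leaf 429 4)) (move 430 (branch (move 398 (leaf 397 5)) (move 397 (leaf 397 7)))))) (move 461 (branch (move 429 (leaf 429 4)) (move 463 (branch (move 431 (leaf 430 6)) (move 464 (branch (move 465 (leaf 461 1)) (move 496 (branch (move 497 (leaf 461 0)) (move 495 (branch (move 460 (leaf 460 0)) (move 524 (leaf 492 1)))))))))))))))))) (branch (ref 1) (branch (move 429 (branch (move 461 (branch (move 397 (leaf 397 4)) (move 558 (leaf 429 4)))) (branch (ref 2) (move 461 (branch (move 558 (leaf 429 4)) (move 430 (branch (move 398 (leaf 397 6)) (move 462 (branch (move 557 (leaf 429 5)) (move 431 (branch (move 399 (leaf 398 6)) (move 460 (branch (move 432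 (leaf 428 1)) (move 459 (leaf 427 2))))))))))))))) (branch (move 495 (branch (move 496 (branch (move 524 (leaf 492 1)) (move 497 (leaf 493 1)))) (move 492 (branch (move 491 (branch (move 490 (leaf 490 0)) (move 463 (branch (move 462 (leaf 459 2)) (move 464 (leaf 460 2)))))) (move 460 (branch (move 459 (leaf 459 3)) (move 428 (branch (move 396 (leaf 396 4)) (move 461 (branch (move 557 (leaf 428 7)) (move 429 (branch (move 397 (leaf 397 4)) (move 558 (leaf 429 4)))))))))))))) (move 558 (branch (move 461 (branch (move 429 (leaf 429 4)) (move 590 (leaf 461 7)))) (branch (move 590 (branch (move 622 (leaf 493 7)) (move 495 (branch (move 463 (leaf 462 6)) (move 496 (branch (move 524 (leaf 492 1)) (move 497 (leaf 493 1)))))))) (move 429 (branch (move 461 (leaf 429 4)) (ref 3))))))))))))))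
theorem a6p689 : a6e689.Valid :=
  pos_of_chk [a6e687, a6e688, a6e671, a6e685] (forall_cons a6p687 (forall_cons a6p688 (forall_cons a6p671 (forall_cons a6p685 forall_nil)))) a6c689 a6e689 (by decide +kernel)

def a6e690 : Pos := ⟨329510287711842630443319846715384918935398512783571175635645689708744286616338535786294382711775366235206349174532383405528418478745908719768282991202651865088, 37375513570018600322598195373461431014726194462071682127899861227564883348388984348440821538591482840436858992604589079060651513942382500149739053893735318795652249711155624060860202014846929076224, 11⟩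
def a6c690 : Cert := (move 461 (branch (move 558 (branch (move 429 (leaf 429 4)) (move 590 (branch (move 494 (leaf 461 7)) (move 622 (leaf 493 7)))))) (branch (move 429 (branch (move 558 (leaf 429 4)) (move 428 (branch (move 396 (leaf 396 7)) (move 460 (branch (move 557 (leaf 428 7)) (move 524 (branch (move 556 (leaf 428 5)) (move 492 (branch (move 397 (leaf 396 5)) (move 491 (branch (move 490 (leaf 490 0)) (move 427 (branch (move 395 (leaf 395 7)) (move 462 (branch (move 426 (leaf 426 0)) (move 463 (leaf 459 1)))))))))))))))))) (branch (move 429 (branch (move 397 (branch (move 494 (leaf 397 4)) (move 396 (branch (move 364 (leaf 364 7)) (move 428 (leaf 396 7)))))) (branch (move 428 (branch (move 396 (leaf 396 7)) (move 557 (branch (move 460 (leaf 428 7)) (move 556 (branch (move 524 (leaf 428 5)) (move 588 (leaf 460 5)))))))) (move 397 (branch (move 494 (leaf 397 4)) (move 524 (branch (move 492 (leaf 396 5)) (move 556 (leaf 428 5))))))))) (move 557 (branch (move 590 (branch (move 558 (leaf 461 4)) (move 589 (branch (move 622 (leaf 493 4)) (move 588 (branch (move 556 (leaf 460 5)) (move 620 (leaf 492 5)))))))) (branch (move 460 (branch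 (move 428 (leaf 428 7)) (move 589 (branch (move 492 (leaf 460 7)) (move 588 (branch (move 556 (leaf 460 5)) (move 620 (leaf 492 5)))))))) (branch (move 558 (branch (move 590 (leaf 461 4)) (move 460 (branch (move 428 (leaf 428 7)) (move 589 (branch (move 492 (leaf 460 7)) (move 621 (branch (move 494 (leaf 493 6)) (move 653 (leaf 525 6)))))))))) (move 558 (branch (move 590 (leaf 461 4)) (move 559 (branch (move 560 (branch (move 524 (leaf 524 3)) (move 561 (leaf 525 3)))) (move 556 (branch (move 588 (leaf 460 5)) (move 591 (branch (move 592 (leaf 556 0)) (move 460 (branch (move 428 (leaf 428 7)) (move 494 (branch (move 462 (leaf 462 4)) (move 495 (branch (move 496 (leaf 460 3)) (move 459 (branch (move 458 (leaf 458 0)) (move 492 (leaf 459 3))))))))))))))))))))))))))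
theorem a6p690 : a6e690.Valid :=
  pos_of_chk [] forall_nil a6c690 a6e690 (by decide +kernel)

def a6e691 : Pos := ⟨329510287711842630449274109544814530582778573417789708781070719735494796166164503497982179760000322023094506261979534534602185055744441249399798447744263127040, 471745303102692669081341050877120808069719663110526633400621995107505744091970845168787358367199346598012387348254083218225033523723432878865288140615374824727627431936, 6⟩
def a6c691 : Cert := (move 429 (branch (move 397 (branch (move 494 (leaf 397 4)) (move 396 (branch (move 364 (leaf 364 7)) (move 428 (leaf 396 7)))))) (branch (move 397 (branch (move 494 (leaf 397 4)) (move 398 (branch (move 366 (leaf 365 6)) (move 430 (leaf 397 6)))))) (move 428 (branch (move 396 (leaf 396 7)) (move 460 (branch (move 557 (leaf 428 7)) (move 430 (branch (move 398 (leaf 397 6)) (move 459 (branch (move 431 (leaf 427 1)) (move 458 (leaf 426 2)))))))))))))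
theorem a6p691 : a6e691.Valid :=
  pos_of_chk [] forall_nil a6c691 a6e691 (by decide +kernel)

def a6e692 : Pos := ⟨329510287711842630449274109544814530582778573417789708781070719735494796166164503497982179760000322023094506261979534534602185055744441249399798447744263127040, 21755412192866237635190399190494777351379436455262614125907185062931007856108902227925961460783149493223551265332440704169210361981091204029048362755423271851698695810994334162423944052736, 15⟩
def a6c692 : Cert := (move 557 (branch (move 460 (branch (move 428 (leaf 428 7)) (move 492 (branch (move 589 (leaf 460 7)) (move 462 (branch (move 430 (leaf 429 6)) (move 491 (branch (move 490 (leaf 490 0)) (move 463 (leaf 459 1)))))))))) (branch (move 590 (branch (move 558 (leaf 461 4)) (move 589 (branch (move 622 (leaf 493 4)) (move 588 (branch (move 556 (leaf 460 5)) (move 620 (leaf 492 5)))))))) (move 460 (branch (move 428 (leaf 428 7)) (move 459 (branch (move 558 (branch (move 590 (leaf 461 4)) (move 458 (branch (move 494 (leaf 458 0)) (move 556 (branch (move 588 (leaf 460 5)) (move 555 (branch (move 554 (leaf 522 2)) (move 489 (branch (move 490 (leaf 457 1)) (move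 457 (branch (move 488 (leaf 456 1)) (move 425 (branch (move 424 (leaf 424 3)) (move 426 (leaf 425 3)))))))))))))))) (branch (move 494 (branch (move 458 (leaf 458 0)) (move 495 (branch (move 492 (leaf 459 3)) (move 496 (leaf 460 3)))))) (branch (move 462 (branch (move 430 (leaf 429 6)) (move 491 (branch (move 490 (leaf 458 1)) (move 463 (branch (move 492 (leaf 459 1)) (move 558 (branch (move 590 (leaf 461 4)) (move 556 (branch (move 588 (leaf 460 5)) (move 555 (branch (move 554 (leaf 522 2)) (move 426 (branch (move 427 (leaf 426 3)) (move 458 (branch (move 425 (leaf 425 3)) (move 496 (branch (move 495 (leaf 460 0)) (move 464 (branch (move 497 (leaf 461 0)) (move 432 (branch (move 431 (leaf 428 2)) (move 433 (leaf 429 2)))))))))))))))))))))))) (move 462 (branch (move 430 (leaf 429 6)) (move 494 (branch (move 495 (leaf 459 0)) (move 558 (branch (move 590 (leaf 461 4)) (move 463 (branch (move 431 (leaf 430 6)) (move 491 (branch (move 490 (leaf 458 1)) (move 492 (leaf 459 1)))))))))))))))))))))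
theorem a6p692 : a6e692.Valid :=
  pos_of_chk [] forall_nil a6c692 a6e692 (by decide +kernel)

def a6e693 : Pos := ⟨329510287711842630443319846715384918935398512783571175635645689708744286616338535786294382711775366235206349174532383405528418478745908719768282991202651865088, 60915154166770389953092060521507638355111021071997834971878058645248235206046111771645011513269286074857345395907695930710333144633774161346369069388139224696530764194933340398601279373312, 17⟩
def a6c693 : Cert := (move 494 (branch (move 462 (branch (move 430 (branch (move 398 (leaf 397 5)) (move 431 (branch (move 399 (leaf 398 6)) (move 463 (branch (move 558 (leaf 430 6)) (move 429 (branch (move 397 (leaf 397 7)) (move 464 (branch (move 428 (leaf 428 0)) (move 465 (leaf 461 1)))))))))))) (branch (move 557 (branch (move 430 (leaf 429 5)) (move 589 (leaf 461 6)))) (move 558 (branch (move 590 (branch (move 622 (leaf 493 7)) (move 591 (branch (move 559 (leaf 462 4)) (move 623 (leaf 494 4)))))) (branch (move 557 (branch (move 589 (leaf 461 5)) (move 559 (branch (move 591 (leaf 462 4)) (move 560 (branch (move 524 (leaf 524 3)) (move 561 (leaf 525 3)))))))) (move 589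 (branch (move 557 (leaf 461 5)) (move 590 (branch (move 621 (leaf 493 5)) (move 622 (leaf 493 7)))))))))))) (branch (ref 0) (branch (move 462 (branch (move 557 (branch (move 430 (leaf 429 5)) (move 589 (leaf 461 6)))) (move 558 (branch (move 590 (branch (move 622 (leaf 493 7)) (move 591 (branch (move 559 (leaf 462 4)) (move 623 (leaf 494 4)))))) (move 463 (branch (move 431 (leaf 430 6)) (move 492 (branch (move 491 (leaf 459 2)) (move 464 (branch (move 465 (leaf 461 1)) (move 495 (leaf 460 2)))))))))))) (branch (ref 1) (branch (move 429 (branch (move 461 (branch (move 397 (leaf 397 4)) (move 558 (leaf 429 4)))) (branch (ref 2) (move 461 (branch (move 558 (leaf 429 4)) (move 430 (branch (move 398 (leaf 397 6)) (move 462 (branch (move 557 (leaf 429 5)) (move 431 (branch (move 399 (leaf 398 6)) (move 460 (branch (move 432 (leaf 428 1)) (move 459 (leaf 427 2))))))))))))))) (branch (move 495 (branch (move 496 (branch (move 524 (leaf 492 1)) (move 497 (leaf 493 1)))) (move 492 (branch (move 491 (branch (move 490 (leaf 490 0)) (move 463 (branch (move 462 (leaf 459 2)) (move 464 (leaf 460 2)))))) (move 460 (branch (move 459 (leaf 459 3)) (move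 428 (branch (move 396 (leaf 396 4)) (move 461 (branch (move 557 (leaf 428 7)) (move 429 (branch (move 397 (leaf 397 4)) (move 558 (leaf 429 4)))))))))))))) (move 558 (branch (move 461 (branch (move 429 (leaf 429 4)) (move 590 (leaf 461 7)))) (branch (move 590 (branch (move 622 (leaf 493 7)) (move 495 (branch (move 463 (leaf 462 6)) (move 496 (branch (move 524 (leaf 492 1)) (move 497 (leaf 493 1)))))))) (move 429 (branch (move 461 (leaf 429 4)) (ref 3)))))))))))))
theorem a6p693 : a6e693.Valid :=
  pos_of_chk [a6e662, a6e688, a6e671, a6e685] (forall_cons a6p662 (forall_cons a6p688 (forall_cons a6p671 (forall_cons a6p685 forall_nil)))) a6c693 a6e693 (by decide +kernel)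

def a6e694 : Pos := ⟨6078391946603017029180746719166512461873241319485592125358170310352246139898575056619253286778548583494412644224606416667720171380574864813576695747537635142115957574755011264512, 140460782353246410517043018619187592353831525365179752503350523630467193279654451493348693072127805247880635091332618596747122254714231769799569056887148211516356646205065770499900474072961485806669458833408, 11⟩
def a6c694 : Cert := (move 588 (branch (move 587 (branch (move 622 (branch (move 623 (leaf 587 0)) (move 586 (branch (move 621 (leaf 586 0)) (move 554 (branch (move 553 (leaf 553 3)) (move 555 (leaf 554 3)))))))) (branch (move 618 (branch (move 619 (leaf 586 1)) (move 586 (branch (move 617 (leaf 585 1)) (move 554 (branch (move 553 (leaf 553 3)) (move 555 (leaf 554 3)))))))) (move 619 (branch (move 618 (leaf 586 1)) (move 591 (branch (move 620 (leaf 587 1)) (move 623 (branch (move 622 (leaf 587 0)) (move 624 (leaf 588 0))))))))))) (branch (move 591 (branch (move 624 (branch (move 623 (leaf 588 0)) (move 592 (branch (move 625 (leaf 589 0)) (move 560 (branch (move 559 (leaf 556 2)) (move 561 (leaf 557 2)))))))) (move 620 (branch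 (move 619 (leaf 587 1)) (move 556 (branch (move 555 (leaf 555 3)) (move 524 (leaf 492 6)))))))) (branch (move 587 (branch (move 618 (branch (move 619 (leaf 586 1)) (move 586 (branch (move 617 (leaf 585 1)) (move 554 (branch (move 553 (leaf 553 3)) (move 555 (leaf 554 3)))))))) (branch (move 622 (branch (move 623 (leaf 587 0)) (move 586 (branch (move 621 (leaf 586 0)) (move 618 (branch (move 617 (leaf 585 1)) (move 619 (leaf 586 1)))))))) (move 555 (branch (move 554 (leaf 554 3)) (move 591 (branch (move 556 (leaf 555 3)) (move 623 (branch (move 622 (leaf 587 0)) (move 624 (leaf 588 0))))))))))) (branch (move 587 (branch (move 555 (branch (move 554 (leaf 554 3)) (move 556 (branch (move 591 (leaf 555 3)) (move 524 (branch (move 492 (leaf 460 6)) (move 620 (leaf 492 6)))))))) (branch (move 622 (branch (move 623 (leaf 587 0)) (move 586 (branch (move 621 (leaf 586 0)) (move 617 (branch (move 618 (leaf 585 1)) (move 585 (branch (move 616 (leaf 584 1)) (move 553 (branch (move 552 (leaf 552 3)) (move 554 (leaf 553 3)))))))))))) (move 622 (branch (move 623 (leaf 587 0)) (move 586 (branch (move 621 (leaf 586 0)) (move 617 (branch (move 618 (leaf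 585 1)) (move 585 (branch (move 616 (leaf 584 1)) (move 552 (branch (move 553 (leaf 552 3)) (move 584 (branch (move 551 (leaf 551 3)) (move 556 (branch (move 555 (leaf 552 2)) (move 524 (branch (move 492 (leaf 460 6)) (move 620 (leaf 492 6))))))))))))))))))))) (branch (move 587 (branch (move 618 (branch (move 619 (leaf 586 1)) (move 586 (branch (move 617 (leaf 585 1)) (move 554 (branch (move 553 (leaf 553 3)) (move 555 (leaf 554 3)))))))) (branch (move 555 (branch (move 554 (leaf 554 3)) (move 556 (branch (move 591 (leaf 555 3)) (move 524 (branch (move 492 (leaf 460 6)) (move 620 (leaf 492 6)))))))) (branch (move 618 (branch (move 619 (leaf 586 1)) (move 586 (branch (move 617 (leaf 585 1)) (move 621 (branch (move 622 (leaf 586 0)) (move 585 (branch (move 620 (leaf 585 0)) (move 553 (branch (move 552 (leaf 552 3)) (move 554 (leaf 553 3)))))))))))) (move 618 (branch (move 619 (leaf 586 1)) (move 586 (branch (move 617 (leaf 585 1)) (move 621 (branch (move 622 (leaf 586 0)) (move 620 (branch (move 585 (leaf 585 0)) (move 556 (branch (move 524 (leaf 492 6)) (move 591 (branch (move 592 (leaf 588 1)) (move 555 (leaf 555 3))))))))))))))))))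 (branch (move 587 (branch (move 622 (branch (move 623 (leaf 587 0)) (move 586 (branch (move 621 (leaf 586 0)) (move 617 (branch (move 618 (leaf 585 1)) (move 585 (branch (move 616 (leaf 584 1)) (move 553 (branch (move 552 (leaf 552 3)) (move 554 (leaf 553 3)))))))))))) (branch (move 619 (branch (move 618 (leaf 586 1)) (move 591 (branch (move 620 (leaf 587 1)) (move 560 (branch (move 559 (leaf 556 2)) (move 592 (branch (move 561 (leaf 557 2)) (move 624 (branch (move 623 (leaf 588 0)) (move 625 (leaf 589 0)))))))))))) (branch (move 623 (branch (move 622 (leaf 587 0)) (move 591 (branch (move 624 (leaf 588 0)) (move 620 (branch (move 619 (leaf 587 1)) (move 556 (branch (move 524 (leaf 492 6)) (move 592 (branch (move 621 (leaf 588 1)) (move 560 (branch (move 559 (leaf 556 2)) (move 561 (leaf 557 2)))))))))))))) (move 618 (branch (move 619 (leaf 586 1)) (move 586 (branch (move 617 (leaf 585 1)) (move 621 (branch (move 622 (leaf 586 0)) (move 585 (branch (move 620 (leaf 585 0)) (move 553 (branch (move 552 (leaf 552 3)) (move 554 (leaf 553 3)))))))))))))))) (move 587 (branch (move 622 (branch (move 623 (leaf 587 0)) (move 586 (branch (move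 621 (leaf 586 0)) (move 554 (branch (move 553 (leaf 553 3)) (move 555 (leaf 554 3)))))))) (branch (move 618 (branch (move 619 (leaf 586 1)) (move 586 (branch (move 617 (leaf 585 1)) (move 554 (branch (move 553 (leaf 553 3)) (move 555 (leaf 554 3)))))))) (branch (move 622 (branch (move 623 (leaf 587 0)) (move 586 (branch (move 621 (leaf 586 0)) (move 618 (branch (move 617 (leaf 585 1)) (move 619 (leaf 586 1)))))))) (move 619 (branch (move 618 (leaf 586 1)) (move 556 (branch (move 555 (branch (move 554 (leaf 554 3)) (move 651 (branch (move 683 (leaf 555 6)) (move 652 (branch (move 684 (leaf 555 4)) (move 650 (branch (move 682 (leaf 554 5)) (move 622 (branch (move 623 (leaf 587 0)) (move 621 (branch (move 620 (leaf 618 1)) (move 653 (leaf 618 2)))))))))))))) (branch (move 524 (branch (move 492 (leaf 491 5)) (move 620 (leaf 492 6)))) (move 524 (branch (move 492 (leaf 491 5)) (move 555 (branch (move 554 (leaf 554 3)) (move 651 (leaf 523 6))))))))))))))))))))))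
theorem a6p694 : a6e694.Valid :=
  pos_of_chk [] forall_nil a6c694 a6e694 (by decide +kernel)

def a6e695 : Pos := ⟨329510287686269266319131238355906874428932894406878659650934246040906072803087490501882862751749818638910222946791081185781855423986398903003553357973522743296, 140460782427997437874634341097818218909292930498618066347860451996195700693861321017145626865524756239195131632763247086121624315943711412888434889704915815283268421621188005307018930983317307324322992357376, 19⟩
def a6c695 : Cert := (move 493 (branch (ref 0) (branch (ref 1) (branch (ref 2) (branch (ref 3) (branch (move 461 (branch (move 429 (branch (move 558 (leaf 429 4)) (move 397 (branch (move 494 (leaf 397 4)) (move 398 (branch (move 366 (leaf 365 6)) (move 430 (leaf 397 6)))))))) (branch (move 429 (branch (move 558 (leaf 429 4)) (move 428 (branch (move 396 (leaf 396 7)) (move 460 (branch (move 557 (leaf 428 7)) (move 524 (branch (move 556 (leaf 428 5)) (move 492 (branch (move 397 (leaf 396 5)) (move 491 (branch (move 490 (leaf 490 0)) (move 427 (branch (move 395 (leaf 395 7)) (move 462 (branch (move 426 (leaf 426 0)) (move 463 (leaf 459 1))))))))))))))))))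 (move 557 (branch (move 460 (branch (move 428 (leaf 428 7)) (move 492 (branch (move 589 (leaf 460 7)) (move 462 (branch (move 430 (leaf 429 6)) (move 491 (branch (move 490 (leaf 490 0)) (move 463 (leaf 459 1)))))))))) (branch (ref 4) (branch (move 462 (branch (move 430 (leaf 429 6)) (move 589 (branch (move 494 (leaf 461 6)) (move 588 (branch (move 556 (leaf 460 5)) (move 620 (leaf 492 5)))))))) (move 460 (branch (move 428 (leaf 428 7)) (move 589 (branch (move 492 (leaf 460 7)) (move 588 (branch (move 556 (leaf 460 5)) (move 620 (leaf 492 5))))))))))))))) (branch (move 429 (branch (move 461 (branch (move 397 (branch (move 494 (leaf 397 4)) (move 396 (branch (move 364 (leaf 364 7)) (move 428 (leaf 396 7)))))) (branch (move 397 (branch (move 494 (leaf 397 4)) (move 398 (branch (move 366 (leaf 365 6)) (move 430 (leaf 397 6)))))) (ref 5)))) (branch (move 461 (branch (move 558 (leaf 429 4)) (ref 5))) (branch (move 461 (branch (move 558 (leaf 429 4)) (move 397 (branch (move 494 (leaf 397 4)) (move 396 (branch (move 364 (leaf 364 7)) (move 428 (leaf 396 7)))))))) (branch (move 461 (branch (move 558 (leaf 429 4)) (move 397 (branch (move 494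 (leaf 397 4)) (move 398 (branch (move 366 (leaf 365 6)) (move 430 (leaf 397 6)))))))) (ref 6)))))) (branch (ref 7) (branch (ref 8) (branch (move 461 (branch (move 558 (branch (move 429 (leaf 429 4)) (move 590 (branch (move 494 (leaf 461 7)) (move 622 (leaf 493 7)))))) (branch (move 429 (branch (move 558 (leaf 429 4)) (move 430 (branch (move 398 (leaf 397 6)) (move 428 (branch (move 396 (leaf 396 7)) (move 557 (branch (move 462 (leaf 429 6)) (move 460 (leaf 428 7)))))))))) (branch (ref 9) (ref 10))))) (branch (ref 11) (branch (move 461 (branch (move 558 (branch (move 429 (leaf 429 4)) (move 590 (branch (move 494 (leaf 461 7)) (move 622 (leaf 493 7)))))) (branch (move 429 (branch (move 558 (leaf 429 4)) (move 430 (branch (move 398 (leaf 397 6)) (move 557 (branch (move 462 (leaf 429 6)) (move 556 (branch (move 524 (leaf 428 5)) (move 588 (leaf 460 5)))))))))) (branch (move 557 (branch (move 590 (branch (move 558 (leaf 461 4)) (move 589 (branch (move 622 (leaf 493 4)) (move 588 (branch (move 556 (leaf 460 5)) (move 620 (leaf 492 5)))))))) (branch (move 462 (branch (move 430 (leaf 429 6)) (move 589 (branch (move 494 (leaf 461 6)) (move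 588 (branch (move 556 (leaf 460 5)) (move 620 (leaf 492 5)))))))) (branch (move 558 (branch (move 590 (leaf 461 4)) (move 462 (branch (move 430 (leaf 429 6)) (move 559 (branch (move 556 (branch (move 588 (leaf 460 5)) (move 591 (branch (move 592 (leaf 556 0)) (move 494 (leaf 462 4)))))) (move 560 (branch (move 524 (leaf 524 3)) (move 561 (leaf 525 3)))))))))) (move 558 (branch (move 590 (leaf 461 4)) (move 462 (branch (move 430 (leaf 429 6)) (move 494 (branch (move 589 (leaf 461 5)) (move 463 (branch (move 431 (leaf 430 6)) (move 464 (branch (move 492 (leaf 460 1)) (move 465 (leaf 461 1)))))))))))))))) (move 429 (branch (move 397 (branch (move 494 (leaf 397 4)) (move 398 (branch (move 366 (leaf 365 6)) (move 430 (leaf 397 6)))))) (branch (move 397 (branch (move 494 (leaf 397 4)) (move 524 (branch (move 492 (leaf 396 5)) (move 556 (leaf 428 5)))))) (move 430 (branch (move 398 (leaf 397 6)) (move 557 (branch (move 462 (leaf 429 6)) (move 556 (branch (move 524 (leaf 428 5)) (move 588 (leaf 460 5))))))))))))))) (move 461 (branch (move 429 (branch (move 558 (leaf 429 4)) (move 428 (branch (move 396 (leaf 396 7)) (move 398 (branch (move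 430 (leaf 397 6)) (move 397 (branch (move 366 (leaf 365 6)) (move 524 (branch (move 492 (leaf 396 5)) (move 556 (leaf 428 5)))))))))))) (branch (move 558 (branch (move 429 (leaf 429 4)) (move 590 (branch (move 494 (leaf 461 7)) (move 622 (leaf 493 7)))))) (branch (ref 9) (move 590 (branch (move 558 (branch (move 494 (leaf 461 7)) (move 622 (leaf 493 7)))) (branch (move 558 (branch (move 557 (leaf 461 4)) (move 494 (leaf 461 7)))) (move 589 (branch (move 557 (branch (move 460 (branch (move 428 (leaf 428 7)) (move 492 (leaf 460 7)))) (move 588 (branch (move 556 (leaf 460 5)) (move 620 (leaf 492 5)))))) (branch (move 557 (branch (move 622 (leaf 493 4)) (move 460 (branch (move 428 (leaf 428 7)) (move 492 (leaf 460 7)))))) (branch (move 557 (branch (move 622 (leaf 493 4)) (move 588 (branch (move 556 (leaf 460 5)) (move 620 (leaf 492 5)))))) (ref 12))))))))))))))))))))))))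
theorem a6p695 : a6e695.Valid :=
  pos_of_chk [a6e661, a6e665, a6e666, a6e667, a6e660, a6e668, a6e686, a6e689, a6e690, a6e691, a6e692, a6e693, a6e694] (forall_cons a6p661 (forall_cons a6p665 (forall_cons a6p666 (forall_cons a6p667 (forall_cons a6p660 (forall_cons a6p668 (forall_cons a6p686 (forall_cons a6p689 (forall_cons a6p690 (forall_cons a6p691 (forall_cons a6p692 (forall_cons a6p693 (forall_cons a6p694 forall_nil))))))))))))) a6c695 a6e695 (by decide +kernel)

def a6e696 : Pos := ⟨471745303432202956716463588942664849720522026980987947953904447181637266339924679313853331149090208694433365517755703559262404264522454503056578184432640363429697159168, 93438783879360135153558399521134950249088498506263020426592593261942229586526128641703721308332046908703445552982636483617441416020302760922135432343649461570752035274266539149109506433568022200320, 11⟩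
def a6c696 : Cert := (move 493 (branch (move 589 (branch (move 492 (branch (move 460 (leaf 460 7)) (move 621 (branch (move 524 (leaf 492 7)) (move 620 (branch (move 588 (leaf 492 5)) (move 652 (leaf 524 5)))))))) (branch (move 492 (branch (move 460 (leaf 460 7)) (move 621 (branch (move 524 (leaf 492 7)) (move 622 (branch (move 590 (leaf 493 4)) (move 654 (leaf 525 4)))))))) (branch (move 622 (branch (move 590 (leaf 493 4)) (move 621 (branch (move 654 (leaf 525 4)) (move 620 (branch (move 588 (leaf 492 5)) (move 652 (leaf 524 5)))))))) (move 494 (branch (move 462 (leaf 461 6)) (move 492 (branch (move 460 (leaf 460 7)) (move 491 (branch (move 490 (leaf 490 0)) (move 588 (branch (move 620 (leaf 492 5)) (move 590 (branch (move 622 (leaf 493 4)) (move 459 (branch (move 458 (leaf 458 3)) (move 556 (branch (move 524 (leaf 459 7)) (move 555 (branch (move 554 (leaf 554 0)) (move 591 (leaf 555 3)))))))))))))))))))))) (branch (move 589 (branch (move 588 (branch (move 620 (leaf 492 5)) (move 461 (branch (move 556 (leaf 460 5)) (move 460 (branch (move 428 (leaf 428 7)) (move 492 (leaf 460 7)))))))) (branch (move 492 (branch (move 460 (leaf 460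 7)) (move 621 (branch (move 524 (leaf 492 7)) (move 622 (branch (move 590 (leaf 493 4)) (move 654 (leaf 525 4)))))))) (move 622 (branch (move 590 (leaf 493 4)) (move 621 (branch (move 654 (leaf 525 4)) (move 620 (branch (move 588 (leaf 492 5)) (move 652 (leaf 524 5))))))))))) (branch (move 589 (branch (move 622 (branch (move 590 (leaf 493 4)) (move 621 (branch (move 654 (leaf 525 4)) (move 620 (branch (move 588 (leaf 492 5)) (move 652 (leaf 524 5)))))))) (move 462 (branch (move 494 (leaf 461 6)) (move 461 (branch (move 430 (leaf 429 6)) (move 460 (branch (move 428 (leaf 428 7)) (move 492 (leaf 460 7)))))))))) (branch (move 461 (branch (move 556 (branch (move 588 (leaf 460 5)) (move 429 (branch (move 524 (leaf 428 5)) (move 430 (branch (move 398 (leaf 397 6)) (move 462 (leaf 429 6)))))))) (branch (move 462 (branch (move 430 (leaf 429 6)) (move 589 (branch (move 494 (leaf 461 6)) (move 622 (branch (move 590 (leaf 493 4)) (move 621 (branch (move 654 (leaf 525 4)) (move 620 (branch (move 588 (leaf 492 5)) (move 652 (leaf 524 5)))))))))))) (branch (move 556 (branch (move 588 (leaf 460 5)) (move 429 (branch (move 524 (leaf 428 5)) (move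 397 (branch (move 494 (leaf 397 4)) (move 396 (branch (move 364 (leaf 364 7)) (move 428 (leaf 396 7)))))))))) (move 462 (branch (move 430 (leaf 429 6)) (move 494 (branch (move 589 (leaf 461 6)) (move 429 (branch (move 397 (leaf 397 4)) (move 524 (branch (move 556 (leaf 428 5)) (move 495 (branch (move 496 (leaf 492 1)) (move 523 (leaf 491 2)))))))))))))))) (branch (move 461 (branch (move 460 (branch (move 428 (leaf 428 7)) (move 492 (branch (move 589 (leaf 460 7)) (move 462 (branch (move 430 (leaf 429 6)) (move 491 (branch (move 490 (leaf 490 0)) (move 463 (leaf 459 1)))))))))) (branch (move 430 (branch (move 462 (leaf 429 6)) (move 429 (branch (move 398 (leaf 397 6)) (move 428 (branch (move 396 (leaf 396 7)) (move 460 (leaf 428 7)))))))) (branch (move 462 (branch (move 430 (leaf 429 6)) (move 494 (branch (move 589 (leaf 461 6)) (move 429 (branch (move 397 (leaf 397 4)) (move 524 (branch (move 556 (leaf 428 5)) (move 495 (branch (move 496 (leaf 492 1)) (move 523 (leaf 491 2)))))))))))) (move 460 (branch (move 428 (leaf 428 7)) (move 589 (branch (move 492 (leaf 460 7)) (move 494 (branch (move 621 (leaf 493 6)) (move 495 (branch (move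 496 (leaf 460 3)) (move 429 (branch (move 397 (leaf 397 4)) (move 524 (branch (move 523 (leaf 491 2)) (move 556 (leaf 428 5)))))))))))))))))) (move 461 (branch (move 556 (branch (move 588 (leaf 460 5)) (move 429 (branch (move 524 (leaf 428 5)) (move 428 (branch (move 396 (leaf 396 7)) (move 460 (leaf 428 7)))))))) (branch (move 556 (branch (move 588 (leaf 460 5)) (move 429 (branch (move 524 (leaf 428 5)) (move 430 (branch (move 398 (leaf 397 6)) (move 462 (leaf 429 6)))))))) (branch (move 430 (branch (move 462 (leaf 429 6)) (move 429 (branch (move 398 (leaf 397 6)) (move 428 (branch (move 396 (leaf 396 7)) (move 460 (leaf 428 7)))))))) (move 492 (branch (move 462 (branch (move 430 (leaf 429 6)) (move 491 (branch (move 490 (leaf 490 0)) (move 463 (branch (move 464 (leaf 460 1)) (move 494 (leaf 459 2)))))))) (branch (move 460 (branch (move 428 (leaf 428 7)) (move 556 (branch (move 588 (leaf 460 5)) (move 491 (branch (move 490 (leaf 490 0)) (move 555 (branch (move 554 (leaf 522 2)) (move 587 (branch (move 524 (leaf 459 5)) (move 523 (leaf 459 6)))))))))))) (move 460 (branch (move 428 (leaf 428 7)) (move 462 (branch (move 430 (leaf 429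 6)) (move 463 (branch (move 464 (leaf 460 1)) (move 495 (branch (move 496 (leaf 460 0)) (move 494 (branch (move 459 (leaf 459 0)) (move 431 (branch (move 432 (leaf 428 2)) (move 399 (leaf 398 5)))))))))))))))))))))))))))
theorem a6p696 : a6e696.Valid :=
  pos_of_chk [] forall_nil a6c696 a6e696 (by decide +kernel)

def a6e697 : Pos := ⟨1415235909637588294776852234189732072449752332085098055047956022243043306937961892335385012443504900579800459275446664784205050422003652661196936747290814374342045990912, 74751027100877458710548519747530135225467180864831866232378878361913411390721309337660693043956720952749831333231771122573622404974196530827663638722676343169172204493855613793799055395145272786944, 6⟩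
def a6c697 : Cert := (move 556 (branch (move 559 (branch (move 524 (branch (move 523 (leaf 523 0)) (move 588 (branch (move 587 (leaf 555 1)) (move 493 (branch (move 461 (leaf 460 5)) (move 620 (leaf 492 6)))))))) (move 560 (branch (move 561 (leaf 525 3)) (move 592 (branch (move 591 (leaf 556 0)) (move 593 (leaf 557 0)))))))) (branch (move 555 (branch (move 554 (leaf 522 2)) (move 590 (branch (move 591 (leaf 555 0)) (move 622 (branch (move 493 (leaf 493 7)) (move 654 (leaf 525 7)))))))) (move 555 (branch (move 554 (leaf 522 2)) (move 587 (branch (move 586 (leaf 554 1)) (move 559 (branch (move 588 (leaf 555 1)) (move 524 (branch (move 523 (leaf 523 0)) (move 560 (leaf 524 3)))))))))))))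
theorem a6p697 : a6e697.Valid :=
  pos_of_chk [] forall_nil a6c697 a6e697 (by decide +kernel)

def a6e698 : Pos := ⟨1415235909692506676057897111909587278842403477823253537449102465518199014611446237802566260860485377705092095715265035275336897286300628565194669897791406600670966448128, 17404329753685150912265479861421729946145533205948151132515532087602257666828080003412748276041036696494673267675888164345716158064940204610218850657619123960848682433666552319546694303744, 8⟩
def a6c698 : Cert := (move 494 (branch (move 462 (branch (move 430 (leaf 429 5)) (move 461 (branch (move 429 (leaf 429 7)) (move 493 (branch (move 590 (leaf 461 4)) (move 463 (branch (move 431 (leaf 430 6)) (move 492 (branch (move 464 (leaf 460 1)) (move 491 (leaf 459 2)))))))))))) (branch (move 462 (branch (move 430 (leaf 429 5)) (move 463 (branch (move 431 (leaf 430 6)) (move 461 (branch (move 429 (leaf 429 7)) (move 495 (branch (move 590 (leaf 462 6)) (move 496 (branch (move 460 (leaf 460 0)) (move 497 (leaf 493 1)))))))))))) (branch (move 462 (branch (move 430 (leaf 429 5)) (move 463 (branch (move 431 (leaf 430 6)) (move 495 (branch (move 590 (leaf 462 6))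 (move 496 (branch (move 493 (leaf 492 1)) (move 497 (leaf 493 1)))))))))) (branch (move 493 (branch (move 495 (branch (move 496 (leaf 492 1)) (move 590 (branch (move 463 (leaf 462 6)) (move 622 (leaf 493 7)))))) (branch (move 461 (branch (move 429 (leaf 429 4)) (move 556 (branch (move 588 (leaf 460 5)) (move 460 (branch (move 428 (leaf 428 7)) (move 495 (branch (move 496 (leaf 492 1)) (move 459 (branch (move 458 (leaf 458 0)) (move 492 (leaf 459 3)))))))))))) (move 461 (branch (move 429 (leaf 429 4)) (move 590 (leaf 461 4))))))) (branch (move 462 (branch (move 430 (leaf 429 5)) (move 461 (branch (move 429 (leaf 429 7)) (move 493 (branch (move 590 (leaf 461 4)) (move 460 (branch (move 428 (leaf 428 7)) (move 495 (branch (move 459 (leaf 459 0)) (move 496 (leaf 492 1)))))))))))) (move 493 (branch (move 462 (branch (move 430 (leaf 429 5)) (move 463 (branch (move 431 (leaf 430 6)) (move 492 (branch (move 491 (leaf 459 2)) (move 495 (branch (move 496 (leaf 492 1)) (move 464 (leaf 460 2)))))))))) (branch (move 461 (branch (move 429 (leaf 429 4)) (move 556 (branch (move 588 (leaf 460 5)) (move 460 (branch (move 428 (leaf 428 7)) (move 495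 (branch (move 496 (leaf 492 1)) (move 459 (branch (move 458 (leaf 458 0)) (move 492 (leaf 459 3)))))))))))) (branch (move 461 (branch (move 429 (leaf 429 4)) (move 462 (branch (move 430 (leaf 429 5)) (move 463 (branch (move 431 (leaf 430 6)) (move 492 (branch (move 464 (leaf 460 1)) (move 491 (leaf 459 2)))))))))) (move 461 (branch (move 429 (leaf 429 4)) (move 462 (branch (move 430 (leaf 429 5)) (move 495 (branch (move 496 (leaf 492 1)) (move 460 (branch (move 459 (leaf 459 0)) (move 428 (leaf 428 7))))))))))))))))))))
theorem a6p698 : a6e698.Valid :=
  pos_of_chk [] forall_nil a6c698 a6e698 (by decide +kernel)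

def a6e699 : Pos := ⟨3302217122048358970897629524701729306396501777235458451138714771802130478214287847027926278167397675495209514154493058496431796124187348708473251461901708765791577440256, 1772864318171990440442915728731847631562833423514772106443258707530119852477344469570944145121260108603246509938226890452853703637421188547954399460852905152715634094248495677440, 12⟩
def a6c699 : Cert := (move 460 (branch (move 524 (branch (move 523 (leaf 523 0)) (move 492 (branch (move 428 (leaf 428 4)) (move 556 (branch (move 429 (leaf 428 6)) (move 555 (branch (move 554 (leaf 522 2)) (move 587 (leaf 459 5)))))))))) (branch (move 463 (branch (move 431 (branch (move 432 (leaf 428 2)) (move 459 (branch (move 430 (leaf 427 2)) (move 491 (branch (move 490 (leaf 458 1)) (move 492 (leaf 459 1)))))))) (move 428 (branch (move 427 (leaf 427 3)) (move 464 (branch (move 429 (leaf 428 3)) (move 496 (branch (move 495 (leaf 460 0)) (move 497 (leaf 461 0)))))))))) (branch (move 463 (branch (move 428 (branch (move 427 (leaf 427 3)) (move 464 (branch (move 429 (leaf 428 3)) (move 496 (branch (move 495 (leaf 460 0)) (move 497 (leaf 461 0)))))))) (branch (move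 431 (branch (move 432 (leaf 428 2)) (move 459 (branch (move 430 (leaf 427 2)) (move 523 (branch (move 524 (leaf 523 0)) (move 426 (branch (move 427 (leaf 426 3)) (move 458 (branch (move 425 (leaf 425 3)) (move 491 (branch (move 490 (leaf 458 1)) (move 555 (leaf 426 7)))))))))))))) (move 431 (branch (move 432 (leaf 428 2)) (move 430 (branch (move 459 (leaf 427 2)) (move 496 (branch (move 495 (leaf 460 0)) (move 464 (branch (move 497 (leaf 461 0)) (move 429 (branch (move 428 (leaf 428 0)) (move 465 (leaf 429 3))))))))))))))) (branch (move 524 (branch (move 523 (leaf 523 0)) (move 492 (branch (move 428 (leaf 428 4)) (move 491 (branch (move 463 (leaf 459 1)) (move 490 (branch (move 489 (leaf 489 0)) (move 459 (leaf 458 1)))))))))) (move 463 (branch (move 431 (branch (move 432 (leaf 428 2)) (move 459 (branch (move 430 (leaf 427 2)) (move 491 (branch (move 490 (leaf 458 1)) (move 492 (leaf 459 1)))))))) (branch (move 431 (branch (move 432 (leaf 428 2)) (move 459 (branch (move 430 (leaf 427 2)) (move 523 (branch (move 524 (leaf 523 0)) (move 426 (branch (move 427 (leaf 426 3)) (move 458 (branch (move 425 (leaf 425 3)) (move 491 (branch (move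 490 (leaf 458 1)) (move 555 (leaf 426 7)))))))))))))) (branch (move 524 (branch (move 523 (leaf 523 0)) (move 492 (branch (move 491 (leaf 459 1)) (move 556 (branch (move 429 (leaf 428 6)) (move 555 (branch (move 554 (leaf 522 2)) (move 587 (leaf 459 5)))))))))) (move 431 (branch (move 432 (leaf 428 2)) (move 459 (branch (move 430 (leaf 427 2)) (move 524 (branch (move 523 (leaf 523 0)) (move 496 (branch (move 495 (leaf 460 0)) (move 464 (branch (move 497 (leaf 461 0)) (move 427 (branch (move 426 (leaf 426 3)) (move 556 (branch (move 492 (leaf 427 7)) (move 555 (branch (move 554 (leaf 522 2)) (move 587 (branch (move 586 (leaf 554 1)) (move 588 (leaf 555 1)))))))))))))))))))))))))))))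
theorem a6p699 : a6e699.Valid :=
  pos_of_chk [] forall_nil a6c699 a6e699 (by decide +kernel)

def a6e700 : Pos := ⟨1415235909637588294776852234189732072449752332085098055047956022243043306937961892335385012443504900579800459275446664784205050422003652661196936747290814374342045990912, 4351082495659478572140791122694042019630783569883386908427387714059633915879099806489985209969732997959860684413699866703713417361471478120900397488978756421758956350670368598809712263168, 15⟩
def a6c700 : Cert := (move 462 (branch (move 494 (branch (move 430 (leaf 429 5)) (move 559 (branch (move 591 (leaf 462 4)) (move 524 (branch (move 523 (leaf 523 0)) (move 560 (leaf 524 3)))))))) (branch (move 559 (branch (move 591 (branch (move 494 (leaf 462 4)) (move 556 (branch (move 592 (leaf 556 0)) (move 524 (branch (move 523 (leaf 523 0)) (move 588 (branch (move 587 (leaf 555 1)) (move 493 (branch (move 461 (leaf 460 5)) (move 620 (leaf 492 6)))))))))))) (branch (move 560 (branch (move 561 (leaf 525 3)) (move 592 (branch (move 593 (leaf 557 0)) (move 556 (branch (move 591 (leaf 556 0)) (move 528 (branch (move 529 (leaf 525 2)) (move 555 (branch (move 554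 (leaf 522 2)) (move 587 (branch (move 586 (leaf 554 1)) (move 588 (leaf 555 1)))))))))))))) (move 560 (branch (move 524 (leaf 524 3)) (move 561 (leaf 525 3))))))) (branch (move 461 (branch (move 494 (branch (move 430 (leaf 429 5)) (move 429 (leaf 429 7)))) (branch (move 493 (branch (move 429 (leaf 429 4)) (move 430 (leaf 429 6)))) (branch (move 430 (branch (move 494 (leaf 429 5)) (move 493 (leaf 429 6)))) (move 429 (branch (move 493 (leaf 429 4)) (move 494 (leaf 429 7)))))))) (move 559 (branch (move 560 (branch (move 561 (leaf 525 3)) (move 592 (branch (move 593 (leaf 557 0)) (move 556 (branch (move 591 (leaf 556 0)) (move 528 (branch (move 529 (leaf 525 2)) (move 555 (branch (move 554 (leaf 522 2)) (move 587 (branch (move 586 (leaf 554 1)) (move 588 (leaf 555 1)))))))))))))) (branch (move 524 (branch (move 523 (leaf 523 0)) (move 560 (leaf 524 3)))) (move 461 (branch (move 493 (branch (move 429 (leaf 429 4)) (move 430 (leaf 429 6)))) (branch (move 493 (branch (move 430 (leaf 429 6)) (move 556 (branch (move 588 (leaf 460 5)) (move 524 (branch (move 523 (leaf 523 0)) (move 460 (branch (move 428 (leaf 428 7)) (move 555 (branch (move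 554 (leaf 522 2)) (move 492 (branch (move 587 (leaf 459 5)) (move 491 (branch (move 490 (leaf 490 0)) (move 463 (leaf 459 1)))))))))))))))) (branch (move 493 (branch (move 429 (leaf 429 4)) (move 556 (branch (move 588 (leaf 460 5)) (move 524 (branch (move 523 (leaf 523 0)) (move 460 (branch (move 428 (leaf 428 7)) (move 555 (branch (move 554 (leaf 522 2)) (move 492 (branch (move 587 (leaf 459 5)) (move 491 (branch (move 490 (leaf 490 0)) (move 463 (leaf 459 1)))))))))))))))) (ref 0))))))))))))
theorem a6p700 : a6e700.Valid :=
  pos_of_chk [a6e699] (forall_cons a6p699 forall_nil) a6c700 a6e700 (by decide +kernel)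

def a6e701 : Pos := ⟨471745303432202956716463588942664849720522026980987947953904447181637266339924679313853331149090208694433365517755703559262404264522454503056578184432640363429697159168, 261628594842193399237640469442608624382713518112914867921677099109144757314658032659115665785149223970987315040950575527760454599223550545703609502659474533206472983611337886663796143149106430214144, 16⟩
def a6c701 : Cert := (move 558 (branch (move 590 (branch (move 622 (branch (move 654 (leaf 525 7)) (move 623 (branch (move 655 (leaf 526 4)) (move 591 (branch (move 494 (leaf 494 4)) (move 621 (branch (move 653 (leaf 525 5)) (move 592 (branch (move 593 (leaf 589 1)) (move 620 (leaf 588 2)))))))))))) (branch (move 493 (branch (move 461 (leaf 461 4)) (move 622 (leaf 493 7)))) (move 494 (branch (move 462 (branch (move 430 (leaf 429 5)) (move 463 (branch (move 431 (leaf 430 6)) (move 495 (leaf 462 6)))))) (branch (move 493 (branch (move 461 (leaf 461 4)) (move 495 (branch (move 463 (leaf 462 6)) (move 496 (branch (move 524 (leaf 492 1)) (move 497 (leaf 493 1)))))))) (move 461 (branch (move 493 (leaf 461 4)) (move 462 (branch (move 430 (leaf 429 5))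 (move 429 (leaf 429 7)))))))))))) (branch (move 559 (branch (move 524 (branch (move 523 (leaf 523 0)) (move 560 (leaf 524 3)))) (move 556 (branch (move 587 (branch (move 588 (leaf 555 1)) (move 555 (branch (move 586 (leaf 554 1)) (move 554 (leaf 522 2)))))) (move 591 (branch (move 592 (leaf 556 0)) (move 494 (branch (move 462 (leaf 462 4)) (move 623 (branch (move 590 (leaf 494 4)) (move 655 (leaf 526 7)))))))))))) (branch (move 590 (branch (move 622 (branch (move 654 (leaf 525 7)) (move 623 (branch (move 655 (leaf 526 4)) (move 591 (branch (move 494 (leaf 494 4)) (move 621 (branch (move 653 (leaf 525 5)) (move 592 (branch (move 593 (leaf 589 1)) (move 620 (leaf 588 2)))))))))))) (branch (move 493 (branch (move 461 (leaf 461 4)) (move 622 (leaf 493 7)))) (move 494 (branch (move 462 (branch (move 430 (leaf 429 5)) (move 463 (branch (move 431 (leaf 430 6)) (move 495 (leaf 462 6)))))) (move 493 (branch (move 461 (leaf 461 4)) (move 591 (branch (move 623 (leaf 494 4)) (move 556 (branch (move 555 (leaf 555 0)) (move 592 (branch (move 559 (leaf 556 0)) (move 593 (leaf 557 3))))))))))))))) (branch (ref 0) (branch (move 524 (branch (move 559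 (branch (move 523 (leaf 523 0)) (move 560 (leaf 524 3)))) (ref 1))) (ref 2)))))))
theorem a6p701 : a6e701.Valid :=
  pos_of_chk [a6e697, a6e698, a6e700] (forall_cons a6p697 (forall_cons a6p698 (forall_cons a6p700 forall_nil))) a6c701 a6e701 (by decide +kernel)

def a6e702 : Pos := ⟨2026130649339417646455839608909413369710460861557649419556992503466918515254346322199156636807556355703874333016357578985722085920303310176576592605651287016005483040871840481280, 401316520939863789855864604498729988309679183318841878235989572329324813640042153411647247624024865581342873330206194063288107703738177466513201758006543406197402716685745050193533133087960187438332930686976, 6⟩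
def a6c702 : Cert := (move 621 (branch (move 653 (branch (move 558 (leaf 525 6)) (move 652 (branch (move 620 (leaf 524 5)) (move 684 (leaf 556 5)))))) (branch (move 622 (branch (move 654 (leaf 525 4)) (move 620 (branch (move 652 (leaf 524 5)) (move 590 (branch (move 493 (leaf 493 4)) (move 591 (branch (move 592 (leaf 588 1)) (move 619 (leaf 587 2)))))))))) (move 653 (branch (move 558 (leaf 525 6)) (move 654 (branch (move 622 (leaf 525 4)) (move 686 (leaf 557 4)))))))))
theorem a6p702 : a6e702.Valid :=
  pos_of_chk [] forall_nil a6c702 a6e702 (by decide +kernel)

def a6e703 : Pos := ⟨471745303432202956716463588942664849720522026980987947953904447181637266339924679313853331149090208694433365517755703559262404264522454503056578184432640363429697159168, 224253081293930211134248210152649297016056180843559561110300458984651329777185140139612038957871588082746392582018310393323414181832528815221788128078865485156255014167325573482922997943048561754112, 16⟩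
def a6c703 : Cert := (move 558 (branch (move 559 (branch (move 524 (branch (move 523 (leaf 523 0)) (move 560 (leaf 524 3)))) (move 556 (branch (move 587 (branch (move 588 (leaf 555 1)) (move 555 (branch (move 586 (leaf 554 1)) (move 554 (leaf 522 2)))))) (move 591 (branch (move 592 (leaf 556 0)) (move 494 (branch (move 462 (leaf 462 4)) (move 623 (branch (move 590 (leaf 494 4)) (move 655 (leaf 526 7)))))))))))) (branch (ref 0) (branch (move 524 (branch (move 559 (branch (move 523 (leaf 523 0)) (move 560 (leaf 524 3)))) (ref 1))) (branch (ref 2) (branch (move 590 (branch (move 493 (branch (move 461 (leaf 461 4)) (move 622 (leaf 493 7)))) (branch (move 494 (branch (move 462 (branch (move 430 (leaf 429 5)) (move 463 (branch (move 431 (leaf 430 6)) (move 495 (leaf 462 6)))))) (branch (move 493 (branch (move 461 (leaf 461 4)) (move 495 (branch (move 463 (leaf 462 6)) (move 496 (branch (move 524 (leaf 492 1)) (move 497 (leaf 493 1)))))))) (move 461 (branch (move 493 (leaf 461 4)) (move 462 (branch (move 430 (leaf 429 5)) (move 429 (leaf 429 7))))))))) (move 622 (branch (move 654 (leaf 525 7)) (move 623 (branch (move 655 (leaf 526 4)) (move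 494 (branch (move 591 (leaf 494 4)) (move 462 (branch (move 430 (leaf 429 5)) (move 589 (leaf 461 5))))))))))))) (move 590 (branch (move 493 (branch (move 461 (leaf 461 4)) (move 622 (leaf 493 7)))) (branch (move 494 (branch (move 462 (branch (move 430 (leaf 429 5)) (move 463 (branch (move 431 (leaf 430 6)) (move 495 (leaf 462 6)))))) (move 493 (branch (move 461 (leaf 461 4)) (move 591 (branch (move 623 (leaf 494 4)) (move 556 (branch (move 555 (leaf 555 0)) (move 592 (branch (move 559 (leaf 556 0)) (move 593 (leaf 557 3)))))))))))) (move 622 (branch (move 654 (leaf 525 7)) (move 623 (branch (move 655 (leaf 526 4)) (move 494 (branch (move 591 (leaf 494 4)) (move 462 (branch (move 430 (leaf 429 5)) (move 589 (leaf 461 5)))))))))))))))))))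
theorem a6p703 : a6e703.Valid :=
  pos_of_chk [a6e697, a6e698, a6e700] (forall_cons a6p697 (forall_cons a6p698 (forall_cons a6p700 forall_nil))) a6c703 a6e703 (by decide +kernel)

def a6e704 : Pos := ⟨2026130649339417646455839608934986733834649469917127464063458121843611031239057765866994850620807400988285852976383126582018212148044612396323155660410796832770212674100969603072, 149502054284425483631813064354890615631691750226571683422937467539840865354081225310534652214155074214203763120223739270988627977608814946536955007514119422920855965292130211523739079849873585995776, 8⟩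
def a6c704 : Cert := (move 556 (branch (move 590 (branch (move 622 (leaf 493 4)) (move 555 (branch (move 554 (leaf 554 0)) (move 591 (branch (move 558 (leaf 555 0)) (move 592 (leaf 556 3)))))))) (branch (move 588 (branch (move 620 (leaf 492 5)) (move 492 (branch (move 460 (leaf 460 7)) (move 555 (branch (move 554 (leaf 522 2)) (move 491 (branch (move 490 (leaf 490 0)) (move 459 (branch (move 523 (leaf 459 4)) (move 524 (leaf 459 7)))))))))))) (move 588 (branch (move 620 (leaf 492 5)) (move 590 (branch (move 622 (leaf 493 4)) (move 591 (branch (move 592 (leaf 556 3)) (move 559 (branch (move 560 (leaf 556 2)) (move 558 (branch (move 587 (leaf 555 1)) (move 623 (branch (move 624 (leaf 588 0)) (move 655 (leaf 526 7)))))))))))))))))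
theorem a6p704 : a6e704.Valid :=
  pos_of_chk [] forall_nil a6c704 a6e704 (by decide +kernel)

def a6e705 : Pos := ⟨2026130649339417646455839608909413369710460861557649419556992503466918515254346322199156636807556355703874333016357578985722085920303310176576592605651287016005483040871840481280, 56063270322394782159900449232840019759738564225888960987204710196014656280690740228293492621030377219192516312903966328908676988405788208169269888785980339382448281793405209480583289400147643990016, 7⟩
def a6c705 : Cert := (move 558 (branch (move 621 (branch (move 653 (leaf 525 6)) (move 620 (branch (move 652 (leaf 524 5)) (move 493 (branch (move 588 (leaf 492 5)) (move 492 (branch (move 460 (leaf 460 7)) (move 524 (leaf 492 7)))))))))) (branch (move 493 (branch (move 588 (branch (move 620 (leaf 492 5)) (move 559 (branch (move 560 (leaf 556 1)) (move 587 (branch (move 556 (leaf 555 1)) (move 586 (leaf 554 2)))))))) (move 461 (branch (move 429 (leaf 429 4)) (move 460 (branch (move 428 (leaf 428 7)) (move 492 (leaf 460 7)))))))) (branch (move 621 (branch (move 653 (leaf 525 6)) (move 524 (branch (move 492 (leaf 492 7)) (move 559 (branch (move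 523 (leaf 523 0)) (move 560 (leaf 524 3)))))))) (move 621 (branch (move 653 (leaf 525 6)) (move 620 (branch (move 652 (leaf 524 5)) (move 588 (branch (move 493 (leaf 492 5)) (move 587 (branch (move 586 (leaf 554 2)) (move 559 (branch (move 556 (leaf 555 1)) (move 560 (leaf 556 1))))))))))))))))
theorem a6p705 : a6e705.Valid :=
  pos_of_chk [] forall_nil a6c705 a6e705 (by decide +kernel)

def a6e706 : Pos := ⟨8702164876336042794269630822611485599077467010550151891257342179832404428227121660292784759312673253206639130006537005651795934853824041330788885508688359779899018557372565541487674130432, 541944946591226406863242424685497390033841954465848579638165570174922028029432847330630278436078525588311726600413029859906842778249700959001160705454574423738640140103285794471735966966164309934080, 7⟩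
def a6c706 : Cert := (move 622 (branch (move 654 (leaf 525 4)) (move 623 (branch (move 624 (branch (move 588 (leaf 588 3)) (move 625 (branch (move 590 (leaf 589 3)) (move 593 (branch (move 592 (leaf 589 2)) (move 594 (leaf 590 2)))))))) (branch (move 620 (branch (move 652 (leaf 524 5)) (move 591 (branch (move 592 (leaf 588 2)) (move 590 (branch (move 619 (leaf 587 2)) (move 655 (branch (move 656 (leaf 620 0)) (move 558 (leaf 526 4)))))))))) (move 620 (branch (move 652 (leaf 524 5)) (move 588 (branch (move 587 (leaf 587 3)) (move 624 (leaf 588 3)))))))))))
theorem a6p706 : a6e706.Valid :=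
  pos_of_chk [] forall_nil a6c706 a6e706 (by decide +kernel)

end Crest.Agent.SN
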