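import Crest.Agent.Lib_SN_A6x5

set_option autoImplicit false
set_option linter.all false
set_option maxRecDepth 1000000

namespace Crest.Agent.SN
open Cert

def a6e707 : Pos := ⟨471745303432202956716463588942664849720522026980987947953904447181637266339924679313853331149090208694433365517755703559262404264522454503056578184432640363429697159168, 401316521388369952574257499853762528012835469539337324851088575918263792889757146860680435697953232165788150390597347036415692391661489808976402039489731819513738741568464869272952409272776617279249973248000, 10⟩
def a6c707 : Cert := (move 589 (branch (move 493 (branch (move 588 (branch (move 620 (leaf 492 5)) (move 461 (branch (move 556 (leaf 460 5)) (move 460 (branch (move 428 (leaf 428 7)) (move 492 (leaf 460 7)))))))) (branch (move 590 (branch (move 622 (leaf 493 4)) (move 461 (branch (move 558 (leaf 461 4)) (move 460 (branch (move 428 (leaf 428 7)) (move 492 (leaf 460 7)))))))) (branch (move 590 (branch (move 622 (leaf 493 4)) (move 461 (branch (move 558 (leaf 461 4)) (move 588 (branch (move 556 (leaf 460 5)) (move 620 (leaf 492 5)))))))) (ref 0))))) (branch (move 621 (branch (move 524 (branch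 (move 492 (leaf 492 7)) (move 653 (branch (move 556 (leaf 524 7)) (move 654 (branch (move 622 (leaf 525 4)) (move 686 (leaf 557 4)))))))) (branch (move 620 (branch (move 652 (leaf 524 5)) (move 493 (branch (move 588 (leaf 492 5)) (move 492 (branch (move 460 (leaf 460 7)) (move 524 (leaf 492 7)))))))) (move 622 (branch (move 654 (leaf 525 4)) (move 620 (branch (move 652 (leaf 524 5)) (move 590 (branch (move 493 (leaf 493 4)) (move 591 (branch (move 592 (leaf 588 1)) (move 619 (leaf 587 2))))))))))))) (branch (ref 1) (branch (ref 2) (branch (move 621 (branch (move 653 (branch (move 558 (leaf 525 6)) (move 524 (branch (move 492 (leaf 492 7)) (move 556 (leaf 524 7)))))) (branch (move 622 (branch (move 654 (leaf 525 4)) (move 493 (branch (move 590 (leaf 493 4)) (move 492 (branch (move 460 (leaf 460 7)) (move 524 (leaf 492 7)))))))) (move 653 (branch (move 558 (leaf 525 6)) (move 654 (branch (move 622 (leaf 525 4)) (move 686 (leaf 557 4))))))))) (move 621 (branch (move 653 (branch (move 558 (leaf 525 6)) (move 652 (branch (move 620 (leaf 524 5)) (move 684 (leaf 556 5)))))) (branch (move 524 (branch (move 492 (leaf 492 7)) (move 653 (branch (move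 556 (leaf 524 7)) (move 654 (branch (move 622 (leaf 525 4)) (move 686 (leaf 557 4)))))))) (ref 3))))))))))
theorem a6p707 : a6e707.Valid :=
  pos_of_chk [a6e704, a6e705, a6e702, a6e706] (forall_cons a6p704 (forall_cons a6p705 (forall_cons a6p702 (forall_cons a6p706 forall_nil)))) a6c707 a6e707 (by decide +kernel)

def a6e708 : Pos := ⟨2026130649339417646455839608909413369710460861557649419556992503466918515254346322199156636807556355703874333016357578985722085920303310176576592605651287016005483040871840481280, 4351082438168021398078306017428750566083531989436927284944530550051852731532506335886838404702251331581214234675687564155784298002370464525962262339028398103100251857367717910971271872512, 9⟩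
def a6c708 : Cert := (move 493 (branch (move 588 (branch (move 620 (leaf 492 5)) (move 461 (branch (move 556 (leaf 460 5)) (move 460 (branch (move 428 (leaf 428 7)) (move 492 (leaf 460 7)))))))) (branch (move 462 (branch (move 494 (leaf 461 6)) (move 461 (branch (move 430 (leaf 429 6)) (move 460 (branch (move 428 (leaf 428 7)) (move 492 (leaf 460 7)))))))) (branch (move 494 (branch (move 462 (leaf 461 6)) (move 588 (branch (move 620 (leaf 492 5)) (move 461 (branch (move 556 (leaf 460 5)) (move 429 (branch (move 397 (leaf 397 4)) (move 558 (leaf 429 4)))))))))) (move 494 (branch (move 462 (leaf 461 6)) (move 492 (branch (move 460 (leaf 460 7)) (move 491 (branch (move 490 (leaf 490 0)) (move 588 (branch (move 620 (leaf 492 5)) (move 459 (branch (move 458 (leaf 458 3)) (move 524 (branch (move 556 (leaf 459 7)) (move 495 (branch (move 523 (leaf 491 1)) (move 496 (leaf 492 1))))))))))))))))))))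
theorem a6p708 : a6e708.Valid :=
  pos_of_chk [] forall_nil a6c708 a6e708 (by decide +kernel)

def a6e709 : Pos := ⟨2026130649339417646455839608934986733834649469917127464063458121843611031239057765866994850620807400988285852976383126582018212148044612396323155660410796832770212674100969603072, 56564071745571212732676076130855524273538637552965216665684046211886807796859325811950208682616591935344377631472972360755171840477752801076505301032777346460255574467211805678685103587328, 6⟩
def a6c709 : Cert := (move 558 (branch (move 588 (branch (move 620 (leaf 492 5)) (move 559 (branch (move 560 (leaf 556 1)) (move 587 (branch (move 556 (leaf 555 1)) (move 586 (leaf 554 2)))))))) (branch (move 590 (branch (move 622 (leaf 493 4)) (move 588 (branch (move 620 (leaf 492 5)) (move 559 (branch (move 560 (leaf 556 1)) (move 587 (leaf 555 2)))))))) (move 590 (branch (move 622 (leaf 493 4)) (move 494 (branch (move 462 (leaf 461 5)) (move 591 (branch (move 623 (leaf 494 4)) (move 592 (branch (move 556 (leaf 556 3)) (move 593 (leaf 557 3)))))))))))))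
theorem a6p709 : a6e709.Valid :=
  pos_of_chk [] forall_nil a6c709 a6e709 (by decide +kernel)

def a6e710 : Pos := ⟨471745303432202956716463588942664849720522026980987947953904447181637266339924679313853331149090208694433365517755703559262404264522454503056578184432640363429697159168, 401316521388369952574257499853762528012835469539309865660489610196113114603683839626964503054787002123269324222928357802356740251335259549283643729249085835917593459108653564858918972448958941716128185974784, 9⟩
def a6c710 : Cert := (move 589 (branch (move 621 (branch (move 653 (branch (move 558 (leaf 525 6)) (move 652 (branch (move 620 (leaf 524 5)) (move 684 (leaf 556 5)))))) (branch (move 524 (branch (move 492 (leaf 492 7)) (move 653 (branch (move 556 (leaf 524 7)) (move 654 (branch (move 622 (leaf 525 4)) (move 686 (leaf 557 4)))))))) (ref 0)))) (branch (move 621 (branch (move 494 (leaf 493 6)) (move 524 (branch (move 492 (leaf 492 7)) (move 653 (branch (move 556 (leaf 524 7)) (move 654 (branch (move 622 (leaf 525 4)) (move 686 (leaf 557 4)))))))))) (branch (move 494 (branch (move 621 (leaf 493 6)) (move 462 (branch (move 430 (leaf 429 5)) (move 558 (leaf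 461 5)))))) (move 493 (branch (move 590 (branch (move 622 (leaf 493 4)) (move 461 (branch (move 558 (leaf 461 4)) (move 588 (branch (move 556 (leaf 460 5)) (move 620 (leaf 492 5)))))))) (branch (move 494 (branch (move 462 (leaf 461 6)) (move 588 (branch (move 620 (leaf 492 5)) (move 556 (branch (move 461 (leaf 460 5)) (move 590 (branch (move 622 (leaf 493 4)) (move 555 (branch (move 554 (leaf 554 0)) (move 591 (leaf 555 3)))))))))))) (branch (move 494 (branch (move 462 (leaf 461 6)) (move 590 (branch (move 622 (leaf 493 4)) (move 558 (branch (move 461 (leaf 461 4)) (move 588 (branch (move 620 (leaf 492 5)) (move 559 (branch (move 560 (leaf 556 1)) (move 587 (leaf 555 2)))))))))))) (branch (ref 1) (branch (move 494 (branch (move 462 (leaf 461 6)) (move 588 (branch (move 620 (leaf 492 5)) (move 461 (branch (move 556 (leaf 460 5)) (move 429 (branch (move 397 (leaf 397 4)) (move 558 (leaf 429 4)))))))))) (move 494 (branch (move 462 (leaf 461 6)) (move 590 (branch (move 622 (leaf 493 4)) (move 558 (branch (move 461 (leaf 461 4)) (move 591 (branch (move 623 (leaf 494 4)) (move 592 (branch (move 556 (leaf 556 3)) (move 593 (leaf 557 3))))))))))))))))))))))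
theorem a6p710 : a6e710.Valid :=
  pos_of_chk [a6e706, a6e709] (forall_cons a6p706 (forall_cons a6p709 forall_nil)) a6c710 a6e710 (by decide +kernel)

def a6e711 : Pos := ⟨26106494622929736436205875438104526265281013156708805161548830612911333829328565457358358618278511741532633335351492918486115526879752531015661776418338954183940131371392061876189546938368, 344728266524137511527203860031811412741649642681782455369970694402008269233690819901556558552420218351954898003119045697676063797754237456728530432941863663053444910136005997077140853809645711951941938256491197759488, 9⟩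
def a6c711 : Cert := (move 620 (branch (move 623 (branch (move 656 (branch (move 655 (leaf 620 0)) (move 624 (branch (move 657 (leaf 621 0)) (move 592 (branch (move 591 (leaf 588 2)) (move 593 (leaf 589 2)))))))) (move 652 (branch (move 651 (leaf 619 1)) (move 588 (branch (move 587 (leaf 587 3)) (move 556 (leaf 524 6)))))))) (branch (move 619 (branch (move 654 (branch (move 655 (leaf 619 0)) (move 618 (branch (move 653 (leaf 618 0)) (move 650 (branch (move 649 (leaf 617 1)) (move 651 (leaf 618 1)))))))) (branch (move 586 (branch (move 587 (leaf 586 3)) (move 618 (branch (move 585 (leaf 585 3)) (move 650 (branch (move 649 (leaf 617 1)) (move 651 (leaf 618 1)))))))) (move 587 (branch (move 586 (leaf 586 3)) (move 623 (branch (move 588 (leaf 587 3)) (move 655 (branch (move 654 (leaf 619 0)) (move 656 (leaf 620 0))))))))))) (branch (move 619 (branch (move 654 (branch (move 655 (leaf 619 0)) (move 618 (branch (move 653 (leaf 618 0)) (move 585 (branch (move 586 (leaf 585 3)) (move 617 (branch (move 584 (leaf 584 3)) (move 649 (branch (move 648 (leaf 616 1)) (move 650 (leaf 617 1)))))))))))) (branch (move 651 (branch (move 650 (leaf 618 1)) (move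 623 (branch (move 652 (leaf 619 1)) (move 592 (branch (move 591 (leaf 588 2)) (move 624 (branch (move 593 (leaf 589 2)) (move 656 (branch (move 655 (leaf 620 0)) (move 657 (leaf 621 0)))))))))))) (branch (move 655 (branch (move 654 (leaf 619 0)) (move 623 (branch (move 656 (leaf 620 0)) (move 652 (branch (move 651 (leaf 619 1)) (move 624 (branch (move 653 (leaf 620 1)) (move 592 (branch (move 591 (leaf 588 2)) (move 593 (leaf 589 2)))))))))))) (move 650 (branch (move 651 (leaf 618 1)) (move 618 (branch (move 649 (leaf 617 1)) (move 653 (branch (move 654 (leaf 618 0)) (move 585 (branch (move 586 (leaf 585 3)) (move 617 (branch (move 652 (leaf 617 0)) (move 584 (leaf 584 3)))))))))))))))) (branch (move 619 (branch (move 654 (branch (move 655 (leaf 619 0)) (move 618 (branch (move 653 (leaf 618 0)) (move 585 (branch (move 586 (leaf 585 3)) (move 617 (branch (move 584 (leaf 584 3)) (move 649 (branch (move 648 (leaf 616 1)) (move 650 (leaf 617 1)))))))))))) (branch (move 655 (branch (move 654 (leaf 619 0)) (move 623 (branch (move 656 (leaf 620 0)) (move 592 (branch (move 591 (leaf 588 2)) (move 624 (branch (move 593 (leaf 589 2)) (move 652 (branch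 (move 653 (leaf 620 1)) (move 588 (branch (move 587 (leaf 587 3)) (move 556 (leaf 524 6)))))))))))))) (move 587 (branch (move 586 (leaf 586 3)) (move 588 (branch (move 623 (leaf 587 3)) (move 652 (branch (move 556 (leaf 524 6)) (move 684 (branch (move 555 (leaf 555 7)) (move 716 (leaf 587 7))))))))))))) (branch (move 619 (branch (move 586 (branch (move 587 (leaf 586 3)) (move 618 (branch (move 585 (leaf 585 3)) (move 650 (branch (move 649 (leaf 617 1)) (move 651 (leaf 618 1)))))))) (branch (move 650 (branch (move 651 (leaf 618 1)) (move 618 (branch (move 649 (leaf 617 1)) (move 653 (branch (move 654 (leaf 618 0)) (move 585 (branch (move 586 (leaf 585 3)) (move 617 (branch (move 652 (leaf 617 0)) (move 584 (leaf 584 3)))))))))))) (branch (move 587 (branch (move 586 (leaf 586 3)) (move 588 (branch (move 623 (leaf 587 3)) (move 652 (branch (move 556 (leaf 524 6)) (move 684 (branch (move 555 (leaf 555 7)) (move 716 (leaf 587 7)))))))))) (move 651 (branch (move 650 (leaf 618 1)) (move 652 (branch (move 623 (leaf 619 1)) (move 556 (branch (move 588 (leaf 524 6)) (move 555 (branch (move 554 (leaf 522 2)) (move 587 (branch (move 523 (leaf 523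 4)) (move 684 (leaf 555 4)))))))))))))))) (move 619 (branch (move 654 (branch (move 655 (leaf 619 0)) (move 618 (branch (move 653 (leaf 618 0)) (move 586 (branch (move 585 (leaf 585 3)) (move 587 (leaf 586 3)))))))) (branch (move 654 (branch (move 655 (leaf 619 0)) (move 618 (branch (move 653 (leaf 618 0)) (move 650 (branch (move 649 (leaf 617 1)) (move 651 (leaf 618 1)))))))) (branch (move 586 (branch (move 587 (leaf 586 3)) (move 618 (branch (move 585 (leaf 585 3)) (move 650 (branch (move 649 (leaf 617 1)) (move 651 (leaf 618 1)))))))) (move 556 (branch (move 555 (branch (move 554 (leaf 522 2)) (move 587 (branch (move 586 (leaf 554 1)) (move 651 (branch (move 650 (leaf 618 1)) (move 524 (leaf 523 6)))))))) (branch (move 588 (branch (move 652 (leaf 524 6)) (move 524 (branch (move 653 (leaf 524 4)) (move 651 (leaf 523 5)))))) (move 587 (branch (move 586 (leaf 586 3)) (move 652 (branch (move 588 (leaf 524 6)) (move 555 (branch (move 554 (leaf 522 2)) (move 523 (leaf 523 4)))))))))))))))))))))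
theorem a6p711 : a6e711.Valid :=
  pos_of_chk [] forall_nil a6c711 a6e711 (by decide +kernel)

def a6e712 : Pos := ⟨26106494622929736436205875438104526265281013156708805161548830612911333829328565457358358618278511741532633335351492918486115526879752531015661776418338954183940131371392061876189546938368, 6359114108654747902144118837480446270961638876473192835511980282805941068335718846178068786893683341423657264323753087125757512407165096620590194514059446078684852993202824053229524001571661884493742073740179220875533874303046151831552, 10⟩
def a6c712 : Cert := (move 620 (branch (move 623 (branch (move 652 (branch (move 651 (leaf 619 1)) (move 624 (branch (move 653 (leaf 620 1)) (move 592 (branch (move 591 (leaf 588 2)) (move 593 (leaf 589 2)))))))) (branch (move 652 (branch (move 651 (leaf 619 1)) (move 624 (branch (move 653 (leaf 620 1)) (move 656 (branch (move 655 (leaf 620 0)) (move 657 (leaf 621 0)))))))) (move 655 (branch (move 656 (leaf 620 0)) (move 591 (branch (move 592 (leaf 588 2)) (move 559 (leaf 526 7))))))))) (branch (move 623 (branch (move 592 (branch (move 591 (leaf 588 2)) (move 624 (branch (move 593 (leaf 589 2)) (move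 657 (branch (move 656 (leaf 621 0)) (move 625 (branch (move 658 (leaf 622 0)) (move 560 (branch (move 528 (leaf 528 4)) (move 559 (branch (move 524 (leaf 524 3)) (move 561 (leaf 525 3)))))))))))))) (move 651 (branch (move 652 (leaf 619 1)) (move 619 (branch (move 650 (leaf 618 1)) (move 587 (branch (move 586 (leaf 586 3)) (move 588 (leaf 587 3)))))))))) (branch (move 623 (branch (move 592 (branch (move 591 (leaf 588 2)) (move 624 (branch (move 593 (leaf 589 2)) (move 657 (branch (move 656 (leaf 621 0)) (move 625 (branch (move 658 (leaf 622 0)) (move 560 (branch (move 528 (leaf 528 4)) (move 559 (branch (move 524 (leaf 524 3)) (move 561 (leaf 525 3)))))))))))))) (branch (move 655 (branch (move 656 (leaf 620 0)) (move 619 (branch (move 654 (leaf 619 0)) (move 587 (branch (move 586 (leaf 586 3)) (move 588 (leaf 587 3)))))))) (move 591 (branch (move 592 (leaf 588 2)) (move 559 (branch (move 655 (leaf 526 7)) (move 560 (branch (move 524 (leaf 524 3)) (move 561 (leaf 525 3))))))))))) (move 619 (branch (move 654 (branch (move 655 (leaf 619 0)) (move 618 (branch (move 653 (leaf 618 0)) (move 586 (branch (move 585 (leaf 585 3)) (move 587 (leaf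 586 3)))))))) (branch (move 654 (branch (move 655 (leaf 619 0)) (move 618 (branch (move 653 (leaf 618 0)) (move 650 (branch (move 649 (leaf 617 1)) (move 651 (leaf 618 1)))))))) (branch (move 586 (branch (move 587 (leaf 586 3)) (move 618 (branch (move 585 (leaf 585 3)) (move 650 (branch (move 649 (leaf 617 1)) (move 651 (leaf 618 1)))))))) (move 651 (branch (move 650 (leaf 618 1)) (move 683 (branch (move 715 (branch (move 588 (leaf 587 6)) (move 747 (branch (move 652 (leaf 619 6)) (move 748 (branch (move 716 (leaf 619 4)) (move 780 (leaf 651 4)))))))) (branch (move 587 (branch (move 586 (leaf 586 3)) (move 684 (branch (move 716 (leaf 587 4)) (move 652 (branch (move 555 (leaf 555 4)) (move 654 (branch (move 655 (leaf 619 0)) (move 682 (branch (move 653 (leaf 650 1)) (move 714 (leaf 586 5)))))))))))) (move 587 (branch (move 586 (leaf 586 3)) (move 715 (branch (move 588 (leaf 587 6)) (move 714 (branch (move 682 (leaf 586 5)) (move 746 (leaf 618 5)))))))))))))))))))))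
theorem a6p712 : a6e712.Valid :=
  pos_of_chk [] forall_nil a6c712 a6e712 (by decide +kernel)

def a6e713 : Pos := ⟨8702164874816444808562367171549143447993143320221372105108726940504511118686412684299659008016286498107893542884863604295719868510540215784950852232128954361093345496551107544318415470592, 100329130498930511889328866937459664726267966009166131617557743153043962607023567982107401466477082312329009251560896123113366935542125583306514966994152789346995681503664105691771915263108767098217609297920, 9⟩
def a6c713 : Cert := (move 555 (branch (move 523 (branch (move 524 (branch (move 559 (leaf 523 0)) (move 491 (branch (move 490 (leaf 490 3)) (move 492 (branch (move 460 (leaf 459 6)) (move 619 (leaf 491 6)))))))) (branch (move 586 (branch (move 556 (leaf 554 1)) (move 618 (branch (move 491 (leaf 490 5)) (move 650 (branch (move 619 (leaf 522 5)) (move 682 (leaf 554 6)))))))) (branch (move 524 (branch (move 559 (leaf 523 0)) (move 619 (branch (move 492 (leaf 491 6)) (move 556 (branch (move 586 (leaf 554 1)) (move 651 (leaf 523 6)))))))) (move 524 (branch (move 559 (leaf 523 0)) (move 491 (branch (move 490 (leaf 490 3)) (move 586 (branch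 (move 556 (leaf 554 1)) (move 618 (leaf 490 5)))))))))))) (branch (move 523 (branch (move 524 (branch (move 559 (leaf 523 0)) (move 554 (leaf 522 1)))) (move 491 (branch (move 460 (branch (move 492 (leaf 459 6)) (move 459 (branch (move 428 (leaf 427 6)) (move 458 (branch (move 426 (leaf 426 7)) (move 490 (leaf 458 7)))))))) (move 618 (branch (move 586 (leaf 490 5)) (move 619 (branch (move 650 (leaf 522 5)) (move 620 (branch (move 652 (leaf 523 4)) (move 654 (branch (move 653 (leaf 618 0)) (move 622 (branch (move 655 (leaf 619 0)) (move 590 (leaf 525 7)))))))))))))))) (branch (move 556 (branch (move 586 (leaf 554 1)) (move 554 (leaf 522 2)))) (move 556 (branch (move 554 (leaf 522 2)) (move 619 (branch (move 523 (branch (move 620 (branch (move 652 (leaf 523 4)) (move 618 (branch (move 650 (leaf 522 5)) (move 654 (branch (move 653 (leaf 618 0)) (move 622 (branch (move 655 (leaf 619 0)) (move 590 (leaf 525 7)))))))))) (move 524 (branch (move 559 (leaf 523 0)) (move 492 (leaf 491 6)))))) (branch (move 651 (branch (move 524 (leaf 523 6)) (move 650 (branch (move 682 (leaf 554 5)) (move 652 (branch (move 684 (leaf 555 4)) (move 620 (branch (move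 622 (leaf 618 1)) (move 649 (leaf 617 2)))))))))) (branch (move 524 (branch (move 651 (leaf 523 6)) (move 523 (branch (move 559 (leaf 523 0)) (move 492 (leaf 491 6)))))) (move 651 (branch (move 652 (branch (move 684 (leaf 555 4)) (move 620 (branch (move 523 (leaf 523 4)) (move 622 (branch (move 623 (leaf 619 1)) (move 654 (branch (move 655 (leaf 619 0)) (move 590 (leaf 525 7)))))))))) (branch (move 650 (branch (move 682 (leaf 554 5)) (move 622 (branch (move 620 (leaf 618 1)) (move 590 (branch (move 653 (leaf 525 5)) (move 654 (leaf 525 7)))))))) (branch (move 652 (branch (move 684 (leaf 555 4)) (move 650 (branch (move 682 (leaf 554 5)) (move 620 (branch (move 649 (leaf 617 2)) (move 523 (leaf 523 4)))))))) (move 650 (branch (move 682 (leaf 554 5)) (move 652 (branch (move 684 (leaf 555 4)) (move 653 (branch (move 622 (leaf 618 2)) (move 618 (branch (move 617 (leaf 617 3)) (move 654 (leaf 618 3))))))))))))))))))))))))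
theorem a6p713 : a6e713.Valid :=
  pos_of_chk [] forall_nil a6c713 a6e713 (by decide +kernel)

def a6e714 : Pos := ⟨8702164874309912146345449085793234284944905875029423102149445092360509979808159167281481744051478508734467786746167573215238815143548620194690625754115419835444668288657896874957879640064, 344728266544203337567656334810460718371449150832320602605452086933267039794549240138825387889269893229413036038419377453527859541450189983567299851761216803455896643571497707545973705536673424158547259230762850844672, 11⟩
def a6c714 : Cert := (move 587 (branch (move 559 (branch (move 556 (branch (move 588 (leaf 555 1)) (move 555 (branch (move 586 (leaf 554 1)) (move 554 (leaf 522 2)))))) (move 560 (branch (move 524 (leaf 524 3)) (move 561 (leaf 525 3)))))) (branch (move 622 (branch (move 590 (branch (move 654 (leaf 525 7)) (move 623 (branch (move 655 (leaf 526 4)) (move 620 (branch (move 588 (leaf 587 3)) (move 619 (branch (move 586 (leaf 586 3)) (move 651 (branch (move 650 (leaf 618 1)) (move 652 (leaf 619 1)))))))))))) (branch (move 590 (branch (move 653 (leaf 525 5)) (move 623 (branch (move 655 (leaf 526 4)) (move 620 (branch (move 588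 (leaf 587 3)) (move 619 (branch (move 586 (leaf 586 3)) (move 651 (branch (move 650 (leaf 618 1)) (move 652 (leaf 619 1)))))))))))) (branch (move 590 (branch (move 653 (leaf 525 5)) (move 654 (leaf 525 7)))) (move 620 (branch (move 619 (branch (move 586 (leaf 586 3)) (move 650 (branch (move 651 (leaf 618 1)) (move 618 (branch (move 649 (leaf 617 1)) (move 654 (branch (move 653 (leaf 618 0)) (move 655 (leaf 619 0)))))))))) (move 588 (branch (move 623 (leaf 587 3)) (move 556 (branch (move 559 (leaf 555 1)) (move 652 (leaf 524 6)))))))))))) (branch (move 622 (branch (move 590 (branch (move 654 (leaf 525 7)) (move 623 (branch (move 655 (leaf 526 4)) (move 620 (branch (move 588 (leaf 587 3)) (move 619 (branch (move 586 (leaf 586 3)) (move 651 (branch (move 650 (leaf 618 1)) (move 652 (leaf 619 1)))))))))))) (branch (move 590 (branch (move 653 (leaf 525 5)) (move 623 (branch (move 655 (leaf 526 4)) (move 620 (branch (move 588 (leaf 587 3)) (move 619 (branch (move 586 (leaf 586 3)) (move 651 (branch (move 650 (leaf 618 1)) (move 652 (leaf 619 1)))))))))))) (branch (move 590 (branch (move 653 (leaf 525 5)) (move 654 (leaf 525 7)))) (move 620 (branch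 (move 619 (branch (move 586 (leaf 586 3)) (move 651 (branch (move 650 (leaf 618 1)) (move 652 (branch (move 623 (leaf 619 1)) (move 684 (branch (move 555 (leaf 555 4)) (move 716 (leaf 587 7)))))))))) (branch (move 623 (branch (move 588 (leaf 587 3)) (move 652 (branch (move 651 (leaf 619 1)) (move 624 (branch (move 653 (leaf 620 1)) (move 656 (branch (move 655 (leaf 620 0)) (move 657 (leaf 621 0)))))))))) (branch (move 619 (branch (move 586 (leaf 586 3)) (move 650 (branch (move 651 (leaf 618 1)) (move 618 (branch (move 649 (leaf 617 1)) (move 654 (branch (move 653 (leaf 618 0)) (move 655 (leaf 619 0)))))))))) (move 619 (branch (move 586 (leaf 586 3)) (move 654 (branch (move 655 (leaf 619 0)) (move 618 (branch (move 653 (leaf 618 0)) (move 588 (branch (move 623 (leaf 587 3)) (move 617 (branch (move 616 (leaf 584 2)) (move 649 (branch (move 648 (leaf 616 1)) (move 650 (leaf 617 1)))))))))))))))))))))) (branch (move 559 (branch (move 560 (branch (move 524 (leaf 524 3)) (move 561 (leaf 525 3)))) (branch (move 622 (branch (move 590 (branch (move 653 (leaf 525 5)) (move 654 (leaf 525 7)))) (move 523 (branch (move 524 (leaf 523 0)) (move 588 (branch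 (move 556 (leaf 555 1)) (move 620 (branch (move 623 (leaf 587 3)) (move 555 (branch (move 491 (leaf 491 4)) (move 652 (branch (move 619 (leaf 523 4)) (move 684 (leaf 555 7)))))))))))))) (move 622 (branch (move 590 (branch (move 653 (leaf 525 5)) (move 654 (leaf 525 7)))) (move 560 (branch (move 561 (leaf 525 3)) (move 588 (branch (move 556 (leaf 555 1)) (move 623 (branch (move 620 (leaf 587 3)) (move 592 (branch (move 593 (leaf 557 0)) (move 528 (branch (move 529 (leaf 525 2)) (move 624 (branch (move 655 (leaf 527 5)) (move 657 (branch (move 656 (leaf 621 0)) (move 625 (leaf 528 4))))))))))))))))))))) (ref 0))))))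
theorem a6p714 : a6e714.Valid :=
  pos_of_chk [a6e713] (forall_cons a6p713 forall_nil) a6c714 a6e714 (by decide +kernel)

def a6e715 : Pos := ⟨13053247311464868220225791583179135287119515663319869451093136930154381102829338102392810023505292636466306695839120947361008633714136039737347382656393100659779071903628699141634319712256, 1193680463794823799570363152277676639073807108279155979716183493712214409063927134940667386989584908349044141058426708789003548939787776488191372516797719192478175090787578233493503799751301446762496, 11⟩
def a6c715 : Cert := (move 622 (branch (move 587 (branch (move 619 (branch (move 586 (leaf 586 3)) (move 650 (branch (move 651 (leaf 618 1)) (move 618 (branch (move 649 (leaf 617 1)) (move 654 (branch (move 653 (leaf 618 0)) (move 655 (leaf 619 0)))))))))) (branch (move 623 (branch (move 588 (leaf 587 3)) (move 655 (branch (move 656 (leaf 620 0)) (move 591 (leaf 526 7)))))) (move 619 (branch (move 586 (leaf 586 3)) (move 651 (branch (move 650 (leaf 618 1)) (move 623 (branch (move 652 (leaf 619 1)) (move 588 (leaf 587 3))))))))))) (branch (move 524 (branch (move 523 (leaf 523 0)) (move 623 (branch (move 652 (branch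 (move 651 (leaf 619 1)) (move 624 (branch (move 653 (leaf 620 1)) (move 592 (branch (move 591 (leaf 588 2)) (move 593 (leaf 589 2)))))))) (branch (move 652 (branch (move 651 (leaf 619 1)) (move 624 (branch (move 653 (leaf 620 1)) (move 656 (branch (move 655 (leaf 620 0)) (move 657 (leaf 621 0)))))))) (move 655 (branch (move 656 (leaf 620 0)) (move 591 (leaf 526 7))))))))) (branch (move 523 (branch (move 524 (leaf 523 0)) (move 619 (branch (move 654 (branch (move 655 (leaf 619 0)) (move 618 (branch (move 653 (leaf 618 0)) (move 650 (branch (move 649 (leaf 617 1)) (move 651 (leaf 618 1)))))))) (branch (move 587 (branch (move 586 (leaf 586 3)) (move 555 (branch (move 652 (leaf 523 4)) (move 491 (branch (move 588 (leaf 491 4)) (move 654 (branch (move 655 (leaf 619 0)) (move 460 (branch (move 492 (leaf 459 6)) (move 459 (branch (move 428 (leaf 427 6)) (move 458 (branch (move 426 (leaf 426 7)) (move 490 (leaf 458 7)))))))))))))))) (move 587 (branch (move 586 (leaf 586 3)) (move 555 (branch (move 652 (leaf 523 4)) (move 650 (branch (move 651 (leaf 618 1)) (move 618 (leaf 522 5))))))))))))) (branch (move 587 (branch (move 623 (branch (move 588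 (leaf 587 3)) (move 655 (branch (move 656 (leaf 620 0)) (move 591 (leaf 526 7)))))) (branch (move 619 (branch (move 586 (leaf 586 3)) (move 523 (branch (move 524 (leaf 523 0)) (move 555 (branch (move 652 (leaf 523 4)) (move 618 (branch (move 650 (leaf 522 5)) (move 654 (branch (move 653 (leaf 618 0)) (move 655 (leaf 619 0)))))))))))) (move 523 (branch (move 524 (leaf 523 0)) (move 588 (branch (move 623 (leaf 587 3)) (move 586 (branch (move 585 (leaf 585 0)) (move 619 (leaf 586 3))))))))))) (branch (move 587 (branch (move 619 (branch (move 586 (leaf 586 3)) (move 650 (branch (move 651 (leaf 618 1)) (move 618 (branch (move 649 (leaf 617 1)) (move 654 (branch (move 653 (leaf 618 0)) (move 655 (leaf 619 0)))))))))) (branch (move 623 (branch (move 588 (leaf 587 3)) (move 655 (branch (move 656 (leaf 620 0)) (move 591 (leaf 526 7)))))) (move 523 (branch (move 524 (leaf 523 0)) (move 588 (branch (move 623 (leaf 587 3)) (move 586 (branch (move 585 (leaf 585 0)) (move 619 (leaf 586 3))))))))))) (branch (move 587 (branch (move 623 (branch (move 588 (leaf 587 3)) (move 655 (branch (move 656 (leaf 620 0)) (move 591 (leaf 526 7)))))) (move 619 (branch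 (move 586 (leaf 586 3)) (move 523 (branch (move 524 (leaf 523 0)) (move 555 (branch (move 652 (leaf 523 4)) (move 650 (branch (move 651 (leaf 618 1)) (move 618 (leaf 522 5)))))))))))) (move 587 (branch (move 523 (branch (move 524 (leaf 523 0)) (move 588 (branch (move 623 (leaf 587 3)) (move 586 (branch (move 585 (leaf 585 0)) (move 619 (leaf 586 3)))))))) (branch (move 619 (branch (move 586 (leaf 586 3)) (move 523 (branch (move 524 (leaf 523 0)) (move 555 (branch (move 652 (leaf 523 4)) (move 650 (branch (move 651 (leaf 618 1)) (move 618 (leaf 522 5)))))))))) (move 623 (branch (move 588 (leaf 587 3)) (move 652 (branch (move 651 (leaf 619 1)) (move 624 (branch (move 653 (leaf 620 1)) (move 592 (branch (move 591 (leaf 588 2)) (move 593 (leaf 589 2))))))))))))))))))))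
theorem a6p715 : a6e715.Valid :=
  pos_of_chk [] forall_nil a6c715 a6e715 (by decide +kernel)

def a6e716 : Pos := ⟨13053247311464868220697536886281827956149709985943403062457752082706436156376363889923513043804311242977072536486328293303692180592981520349818705735133699738849251185057786147090494128128, 344728266544203336969648117964417278550092806282987556652915202685650199574427081044551921820924743973800157485467319732228477364475181537793398514539764578079168562048998755772587333479648017647713831595392303628288, 9⟩
def a6c716 : Cert := (move 619 (branch (move 556 (branch (move 555 (branch (move 554 (leaf 522 2)) (move 587 (branch (move 586 (leaf 554 1)) (move 652 (branch (move 523 (leaf 523 4)) (move 684 (branch (move 651 (leaf 555 4)) (move 716 (leaf 587 7)))))))))) (move 591 (branch (move 592 (leaf 556 0)) (move 655 (branch (move 623 (leaf 526 7)) (move 654 (branch (move 622 (leaf 619 0)) (move 653 (branch (move 618 (leaf 618 0)) (move 656 (leaf 620 3)))))))))))) (branch (move 591 (branch (move 655 (branch (move 623 (leaf 526 7)) (move 654 (branch (move 622 (leaf 619 0)) (move 653 (branch (move 618 (leaf 618 0)) (move 652 (leaf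 619 3)))))))) (branch (move 556 (branch (move 592 (leaf 556 0)) (move 555 (branch (move 554 (leaf 522 2)) (move 587 (branch (move 586 (leaf 554 1)) (move 651 (branch (move 524 (leaf 523 6)) (move 650 (branch (move 622 (leaf 618 1)) (move 682 (leaf 554 5)))))))))))) (move 556 (branch (move 592 (leaf 556 0)) (move 555 (branch (move 554 (leaf 522 2)) (move 587 (branch (move 586 (leaf 554 1)) (move 651 (branch (move 524 (leaf 523 6)) (move 652 (branch (move 684 (leaf 555 4)) (move 650 (branch (move 649 (leaf 617 2)) (move 682 (leaf 554 5))))))))))))))))) (branch (move 556 (branch (move 555 (branch (move 554 (leaf 522 2)) (move 587 (branch (move 586 (leaf 554 1)) (move 652 (branch (move 523 (leaf 523 4)) (move 684 (branch (move 651 (leaf 555 4)) (move 716 (leaf 587 7)))))))))) (branch (move 524 (branch (move 523 (leaf 523 0)) (move 591 (branch (move 592 (leaf 556 0)) (move 655 (branch (move 623 (leaf 526 7)) (move 654 (branch (move 622 (leaf 619 0)) (move 653 (branch (move 652 (leaf 619 3)) (move 656 (leaf 620 3)))))))))))) (branch (move 555 (branch (move 554 (leaf 522 2)) (move 587 (branch (move 586 (leaf 554 1)) (move 651 (branch (move 524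 (leaf 523 6)) (move 652 (branch (move 684 (leaf 555 4)) (move 650 (branch (move 649 (leaf 617 2)) (move 682 (leaf 554 5)))))))))))) (move 524 (branch (move 523 (leaf 523 0)) (move 555 (branch (move 554 (leaf 522 2)) (move 587 (branch (move 586 (leaf 554 1)) (move 651 (leaf 523 6)))))))))))) (branch (move 523 (branch (move 524 (leaf 523 0)) (move 587 (branch (move 586 (branch (move 622 (leaf 586 3)) (move 585 (branch (move 584 (leaf 584 0)) (move 618 (leaf 585 3)))))) (branch (move 555 (branch (move 652 (leaf 523 4)) (move 650 (branch (move 618 (leaf 522 5)) (move 651 (branch (move 622 (leaf 618 1)) (move 682 (leaf 554 5)))))))) (move 555 (branch (move 652 (leaf 523 4)) (move 556 (branch (move 586 (leaf 554 1)) (move 554 (leaf 522 2))))))))))) (branch (move 618 (branch (move 653 (branch (move 654 (leaf 618 0)) (move 617 (branch (move 652 (leaf 617 0)) (move 585 (branch (move 584 (leaf 584 3)) (move 586 (leaf 585 3)))))))) (branch (move 523 (branch (move 524 (leaf 523 0)) (move 650 (branch (move 649 (leaf 617 1)) (move 555 (branch (move 587 (leaf 522 5)) (move 554 (branch (move 556 (leaf 522 2)) (move 586 (leaf 522 6)))))))))) (move 523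 (branch (move 524 (leaf 523 0)) (move 653 (branch (move 654 (leaf 618 0)) (move 617 (branch (move 652 (leaf 617 0)) (move 649 (branch (move 648 (leaf 616 1)) (move 650 (leaf 617 1))))))))))))) (branch (move 556 (branch (move 591 (branch (move 592 (leaf 556 0)) (move 655 (branch (move 623 (leaf 526 7)) (move 654 (branch (move 622 (leaf 619 0)) (move 653 (branch (move 618 (leaf 618 0)) (move 656 (leaf 620 3)))))))))) (branch (move 524 (branch (move 523 (leaf 523 0)) (move 591 (branch (move 592 (leaf 556 0)) (move 655 (branch (move 623 (leaf 526 7)) (move 654 (branch (move 622 (leaf 619 0)) (move 653 (branch (move 652 (leaf 619 3)) (move 656 (leaf 620 3)))))))))))) (move 650 (branch (move 649 (branch (move 618 (leaf 617 1)) (move 651 (branch (move 648 (leaf 616 2)) (move 652 (leaf 617 2)))))) (branch (move 523 (branch (move 524 (leaf 523 0)) (move 555 (branch (move 554 (leaf 522 2)) (move 587 (branch (move 652 (leaf 523 4)) (move 618 (leaf 522 5)))))))) (branch (move 524 (branch (move 523 (leaf 523 0)) (move 555 (branch (move 554 (leaf 522 2)) (move 651 (branch (move 587 (leaf 523 6)) (move 649 (branch (move 648 (leaf 616 2)) (move 652 (leaf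 617 2)))))))))) (move 524 (branch (move 523 (leaf 523 0)) (move 555 (branch (move 554 (leaf 522 2)) (move 651 (branch (move 587 (leaf 523 6)) (move 649 (branch (move 618 (leaf 617 1)) (move 648 (leaf 616 2))))))))))))))))) (branch (move 556 (branch (move 591 (branch (move 592 (leaf 556 0)) (move 655 (branch (move 623 (leaf 526 7)) (move 654 (branch (move 622 (leaf 619 0)) (move 653 (branch (move 618 (leaf 618 0)) (move 656 (leaf 620 3)))))))))) (move 524 (branch (move 523 (leaf 523 0)) (move 555 (branch (move 554 (leaf 522 2)) (move 587 (branch (move 586 (leaf 554 1)) (move 651 (leaf 523 6)))))))))) (move 618 (branch (move 653 (branch (move 654 (leaf 618 0)) (move 617 (branch (move 652 (leaf 617 0)) (move 585 (branch (move 584 (leaf 584 3)) (move 586 (leaf 585 3)))))))) (branch (move 524 (branch (move 523 (leaf 523 0)) (move 650 (branch (move 649 (leaf 617 1)) (move 585 (branch (move 586 (leaf 585 3)) (move 617 (branch (move 584 (leaf 584 3)) (move 651 (branch (move 622 (leaf 618 1)) (move 616 (branch (move 615 (leaf 615 0)) (move 652 (leaf 616 0)))))))))))))) (move 524 (branch (move 523 (leaf 523 0)) (move 650 (branch (move 649 (leaf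 617 1)) (move 622 (branch (move 651 (leaf 618 1)) (move 654 (branch (move 653 (leaf 618 0)) (move 655 (leaf 619 0)))))))))))))))))))))
theorem a6p716 : a6e716.Valid :=
  pos_of_chk [] forall_nil a6c716 a6e716 (by decide +kernel)

def a6e717 : Pos := ⟨13053247311464868220697536886281827956149709985943403062457752082706436156376363889923513043804311242977072536486328293303692180592981520349818705735133699738849251185057786147090494128128, 4774721855218454940104410028074934664069830345151398616420777188547850366719513804778183354788824399583689086409376353435457724419264947637535790405532523506587017700500418964129604902198467117449216, 11⟩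
def a6c717 : Cert := (move 623 (branch (move 588 (branch (move 622 (branch (move 587 (leaf 587 3)) (move 652 (branch (move 651 (leaf 619 1)) (move 624 (branch (move 653 (leaf 620 1)) (move 592 (branch (move 591 (leaf 588 2)) (move 593 (leaf 589 2)))))))))) (branch (move 652 (branch (move 556 (leaf 524 6)) (move 622 (branch (move 651 (leaf 619 1)) (move 624 (branch (move 653 (leaf 620 1)) (move 592 (branch (move 591 (leaf 588 2)) (move 593 (leaf 589 2)))))))))) (branch (move 556 (branch (move 587 (leaf 555 1)) (move 652 (leaf 524 6)))) (move 587 (branch (move 556 (leaf 555 1)) (move 622 (leaf 587 3)))))))) (branch (move 655 (branch (move 591 (leaf 526 7)) (move 622 (branch (move 656 (leaf 620 0)) (move 652 (branch (move 651 (leaf 619 1)) (move 624 (branch (move 653 (leaf 620 1)) (move 524 (branch (move 523 (leaf 523 0)) (move 593 (branch (move 592 (leaf 589 2)) (move 625 (branch (move 594 (leaf 590 2)) (move 626 (branch (move 654 (leaf 622 1)) (move 658 (branch (move 657 (leaf 622 0)) (move 659 (leaf 623 0)))))))))))))))))))) (branch (move 524 (branch (move 523 (leaf 523 0)) (move 591 (branch (move 655 (leaf 526 7)) (move 556 (branch (move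 592 (leaf 556 0)) (move 588 (branch (move 587 (leaf 555 1)) (move 653 (leaf 524 4)))))))))) (branch (move 524 (branch (move 523 (leaf 523 0)) (move 655 (branch (move 591 (leaf 526 7)) (move 622 (branch (move 656 (leaf 620 0)) (move 588 (branch (move 587 (leaf 587 3)) (move 652 (branch (move 651 (leaf 619 1)) (move 556 (leaf 524 6)))))))))))) (move 588 (branch (move 587 (branch (move 556 (leaf 555 1)) (move 622 (leaf 587 3)))) (branch (move 556 (branch (move 652 (leaf 524 6)) (move 524 (branch (move 523 (leaf 523 0)) (move 653 (leaf 524 4)))))) (move 622 (branch (move 587 (leaf 587 3)) (move 652 (branch (move 651 (leaf 619 1)) (move 624 (branch (move 653 (leaf 620 1)) (move 656 (branch (move 655 (leaf 620 0)) (move 657 (leaf 621 0))))))))))))))))))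
theorem a6p717 : a6e717.Valid :=
  pos_of_chk [] forall_nil a6c717 a6e717 (by decide +kernel)

def a6e718 : Pos := ⟨15228788538146868851929034249312593393433328196600976255866569690527252306071445160943255856220599620540889487633923112807565076553027058034132400137637594863719840115261840476556851412992, 3179557057288567212527943822190460125219317396490029660003931451276511360000333356345840048684366573722452516170423431871648703272550612228166673699097699866029566466336290056718470820674508193122192477986576588761538988922246317211648, 11⟩
def a6c718 : Cert := (move 618 (branch (move 524 (branch (move 523 (leaf 523 0)) (move 655 (branch (move 623 (leaf 526 7)) (move 585 (branch (move 586 (leaf 585 3)) (move 617 (branch (move 584 (leaf 584 3)) (move 649 (branch (move 648 (leaf 616 1)) (move 650 (leaf 617 1)))))))))))) (branch (move 653 (branch (move 654 (leaf 618 0)) (move 617 (branch (move 652 (leaf 617 0)) (move 585 (branch (move 584 (leaf 584 3)) (move 586 (leaf 585 3)))))))) (branch (move 653 (branch (move 654 (leaf 618 0)) (move 617 (branch (move 652 (leaf 617 0)) (move 649 (branch (move 648 (leaf 616 1)) (move 650 (leaf 617 1))))))))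 (move 650 (branch (move 649 (leaf 617 1)) (move 586 (branch (move 585 (leaf 585 3)) (move 682 (branch (move 523 (branch (move 524 (leaf 523 0)) (move 554 (branch (move 555 (leaf 522 6)) (move 715 (branch (move 683 (leaf 586 4)) (move 714 (branch (move 747 (leaf 618 4)) (move 713 (branch (move 681 (leaf 585 5)) (move 745 (leaf 617 5)))))))))))) (branch (move 523 (branch (move 524 (leaf 523 0)) (move 653 (branch (move 654 (leaf 618 0)) (move 713 (branch (move 681 (leaf 585 5)) (move 714 (branch (move 745 (leaf 617 5)) (move 747 (branch (move 715 (leaf 618 4)) (move 746 (branch (move 779 (leaf 650 4)) (move 651 (leaf 618 6)))))))))))))) (branch (move 523 (branch (move 524 (leaf 523 0)) (move 554 (branch (move 555 (leaf 522 6)) (move 651 (branch (move 683 (leaf 554 4)) (move 653 (branch (move 654 (leaf 618 0)) (move 681 (branch (move 652 (leaf 649 1)) (move 713 (leaf 585 5)))))))))))) (branch (move 683 (branch (move 715 (leaf 586 4)) (move 651 (branch (move 554 (leaf 554 4)) (move 653 (branch (move 654 (leaf 618 0)) (move 652 (branch (move 681 (leaf 649 1)) (move 685 (branch (move 686 (leaf 650 0)) (move 717 (branch (move 588 (leaf 588 7))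 (move 749 (leaf 620 7)))))))))))))) (move 683 (branch (move 715 (leaf 586 4)) (move 523 (branch (move 524 (leaf 523 0)) (move 554 (branch (move 651 (leaf 554 4)) (move 555 (leaf 522 6)))))))))))))))))))))
theorem a6p718 : a6e718.Valid :=
  pos_of_chk [] forall_nil a6c718 a6e718 (by decide +kernel)

def a6e719 : Pos := ⟨18687756782833758927019107114815458334208662382534466014975153122014887669328226480617842266794625344809581122057195191279743243685178147601478055476045569120582371834616888130020347900479854870528, 11104474733217392643957637974453517470556442272688132288233147179346133926881785878886764188354773324218902016261831813684173003934161489249332759412731743860625684160083873704225429533765147458287637480862736286548047020687360, 10⟩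
def a6c719 : Cert := (move 651 (branch (move 650 (branch (move 649 (leaf 617 2)) (move 653 (branch (move 622 (leaf 618 2)) (move 618 (branch (move 617 (leaf 617 3)) (move 654 (branch (move 619 (leaf 618 0)) (move 682 (branch (move 681 (leaf 649 1)) (move 683 (leaf 650 1)))))))))))) (branch (move 556 (branch (move 588 (leaf 524 6)) (move 650 (branch (move 649 (leaf 617 2)) (move 653 (branch (move 622 (leaf 618 2)) (move 685 (branch (move 686 (leaf 650 0)) (move 717 (branch (move 749 (leaf 620 7)) (move 682 (branch (move 681 (leaf 649 1)) (move 683 (branch (move 654 (leaf 650 1)) (move 718 (branch (move 684 (leaf 682 0)) (move 750 (leaf 621 4)))))))))))))))))) (branch (move 588 (branch (move 556 (leaf 524 6)) (move 684 (branch (move 717 (branch (move 685 (leaf 588 4)) (move 716 (branch (move 749 (leaf 620 4)) (move 748 (branch (move 653 (leaf 620 6)) (move 619 (leaf 619 7)))))))) (branch (move 715 (branch (move 683 (leaf 587 5)) (move 716 (branch (move 747 (leaf 619 5)) (move 748 (branch (move 653 (leaf 620 6)) (move 619 (leaf 619 7)))))))) (branch (move 683 (branch (move 715 (leaf 587 5)) (move 685 (branch (move 717 (leaf 588 4)) (move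 686 (branch (move 687 (leaf 651 3)) (move 654 (branch (move 655 (leaf 651 2)) (move 653 (branch (move 682 (leaf 650 1)) (move 718 (branch (move 719 (leaf 683 0)) (move 750 (leaf 621 7)))))))))))))) (move 715 (branch (move 683 (leaf 587 5)) (move 716 (branch (move 747 (leaf 619 5)) (move 717 (branch (move 685 (leaf 588 4)) (move 749 (leaf 620 4)))))))))))))) (branch (move 556 (branch (move 588 (leaf 524 6)) (move 650 (branch (move 649 (leaf 617 2)) (move 622 (branch (move 619 (leaf 618 1)) (move 653 (leaf 618 2)))))))) (move 588 (branch (move 556 (leaf 524 6)) (move 684 (branch (move 715 (branch (move 683 (leaf 587 5)) (move 716 (branch (move 747 (leaf 619 5)) (move 717 (branch (move 685 (leaf 588 4)) (move 749 (leaf 620 4)))))))) (branch (move 650 (branch (move 649 (leaf 617 2)) (move 619 (branch (move 622 (leaf 618 1)) (move 716 (branch (move 748 (leaf 619 7)) (move 717 (branch (move 685 (leaf 588 4)) (move 749 (leaf 620 4)))))))))) (branch (move 715 (branch (move 683 (leaf 587 5)) (move 716 (branch (move 747 (leaf 619 5)) (move 619 (branch (move 748 (leaf 619 7)) (move 650 (branch (move 622 (leaf 618 1)) (move 649 (leaf 617 2))))))))))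 (move 650 (branch (move 649 (leaf 617 2)) (move 683 (branch (move 715 (leaf 587 5)) (move 685 (branch (move 686 (leaf 650 3)) (move 717 (leaf 588 4)))))))))))))))))))
theorem a6p719 : a6e719.Valid :=
  pos_of_chk [] forall_nil a6c719 a6e719 (by decide +kernel)

def a6e720 : Pos := ⟨18687756782833758928032172438777549202507951277038656827295807103783533921587862740025030626749965437093209803358918366075967005652873434576979025061831005269274889998848596963376497781086911201280, 13656093568076612717593180372500263651493304303917157941736062607211115789365386342906730233672445765727127769277200522893606607480785205578233095404030995751605598444853450530292868386646349845291132155876165307710273780454901045480016859627520, 8⟩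
def a6c720 : Cert := (move 684 (branch (move 717 (branch (move 685 (leaf 588 4)) (move 716 (branch (move 749 (leaf 620 4)) (move 748 (branch (move 653 (leaf 620 6)) (move 651 (branch (move 619 (leaf 619 7)) (move 780 (branch (move 683 (leaf 651 7)) (move 779 (branch (move 747 (leaf 651 5)) (move 811 (leaf 683 5)))))))))))))) (branch (move 717 (branch (move 685 (leaf 588 4)) (move 716 (branch (move 749 (leaf 620 4)) (move 748 (branch (move 653 (leaf 620 6)) (move 747 (branch (move 715 (leaf 619 5)) (move 779 (leaf 651 5)))))))))) (branch (move 715 (branch (move 683 (leaf 587 5)) (move 716 (branch (move 747 (leaf 619 5)) (move 717 (branch (move 685 (leaf 588 4)) (move 749 (leaf 620 4)))))))) (branch (move 651 (branch (move 715 (branch (move 683 (leaf 587 5)) (move 716 (branch (move 747 (leaf 619 5)) (move 748 (branch (move 653 (leaf 620 6)) (move 619 (leaf 619 7)))))))) (branch (move 650 (branch (move 649 (leaf 617 2)) (move 622 (branch (move 619 (leaf 618 1)) (move 623 (leaf 619 1)))))) (move 650 (branch (move 649 (leaf 617 2)) (move 653 (branch (move 622 (leaf 618 2)) (move 683 (branch (move 715 (leaf 587 5)) (move 682 (branch (move 681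 (leaf 649 1)) (move 654 (leaf 650 1))))))))))))) (move 650 (branch (move 685 (branch (move 717 (leaf 588 4)) (move 683 (branch (move 715 (leaf 587 5)) (move 682 (branch (move 649 (leaf 649 3)) (move 653 (branch (move 681 (leaf 649 2)) (move 654 (leaf 650 2)))))))))) (branch (move 685 (branch (move 717 (leaf 588 4)) (move 683 (branch (move 715 (leaf 587 5)) (move 651 (branch (move 686 (leaf 650 3)) (move 622 (branch (move 619 (leaf 618 1)) (move 623 (leaf 619 1)))))))))) (move 651 (branch (move 649 (leaf 617 2)) (move 622 (branch (move 619 (leaf 618 1)) (move 623 (leaf 619 1))))))))))))))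
theorem a6p720 : a6e720.Valid :=
  pos_of_chk [] forall_nil a6c720 a6e720 (by decide +kernel)

def a6e721 : Pos := ⟨13053247319569390816168226258376374564921509109014587109806261653010454378428420162214349267241239072951884634705464790591389034464847049793982329383350252149228086511349156856859067416576, 68280467814946607148905120364498842433318399827448826839520162239403365229951878664811600179907947210737628000672462451770224709758897793967459151627938817755925101606723614565711961726955633033430206748556348329718640959660042724357542953091072, 12⟩
def a6c721 : Cert := (move 652 (branch (move 524 (branch (move 523 (leaf 523 0)) (ref 0))) (branch (move 651 (branch (move 650 (branch (move 649 (leaf 617 2)) (move 653 (branch (move 622 (leaf 618 2)) (move 618 (branch (move 617 (leaf 617 3)) (move 654 (branch (move 619 (leaf 618 0)) (move 682 (branch (move 681 (leaf 649 1)) (move 683 (leaf 650 1)))))))))))) (branch (move 623 (branch (move 622 (leaf 619 1)) (move 655 (leaf 526 7)))) (move 653 (branch (move 655 (branch (move 623 (leaf 526 7)) (move 654 (branch (move 619 (leaf 619 3)) (move 656 (leaf 620 3)))))) (move 650 (branch (move 649 (leaf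 617 2)) (move 618 (branch (move 617 (leaf 617 3)) (move 685 (branch (move 686 (leaf 650 0)) (move 717 (branch (move 749 (leaf 620 7)) (move 682 (branch (move 681 (leaf 649 1)) (move 716 (branch (move 748 (leaf 620 5)) (move 718 (branch (move 750 (leaf 621 4)) (move 683 (branch (move 684 (leaf 682 0)) (move 715 (leaf 682 3))))))))))))))))))))))) (branch (move 655 (branch (move 623 (leaf 526 7)) (move 588 (branch (move 556 (leaf 524 6)) (move 684 (branch (move 715 (branch (move 683 (leaf 587 5)) (move 716 (branch (move 747 (leaf 619 5)) (move 653 (branch (move 748 (leaf 620 6)) (move 654 (branch (move 619 (leaf 619 3)) (move 656 (leaf 620 3)))))))))) (branch (move 715 (branch (move 683 (leaf 587 5)) (move 716 (branch (move 747 (leaf 619 5)) (move 717 (branch (move 685 (leaf 588 4)) (move 749 (leaf 620 4)))))))) (branch (move 717 (branch (move 685 (leaf 588 4)) (move 716 (branch (move 749 (leaf 620 4)) (move 653 (branch (move 748 (leaf 620 6)) (move 654 (branch (move 619 (leaf 619 3)) (move 656 (leaf 620 3)))))))))) (move 685 (branch (move 717 (leaf 588 4)) (move 683 (branch (move 715 (leaf 587 5)) (move 654 (branch (move 653 (leaf 651 1))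 (move 686 (leaf 651 2)))))))))))))))) (branch (move 588 (branch (move 556 (leaf 524 6)) (move 524 (branch (move 523 (leaf 523 0)) (ref 1))))) (branch (move 524 (branch (move 523 (leaf 523 0)) (move 651 (branch (move 623 (branch (move 622 (leaf 619 1)) (move 655 (leaf 526 7)))) (branch (move 556 (branch (move 588 (leaf 524 6)) (move 650 (branch (move 649 (leaf 617 2)) (move 653 (branch (move 622 (leaf 618 2)) (move 685 (branch (move 686 (leaf 650 0)) (move 717 (branch (move 749 (leaf 620 7)) (move 682 (branch (move 681 (leaf 649 1)) (move 683 (branch (move 654 (leaf 650 1)) (move 718 (branch (move 684 (leaf 682 0)) (move 750 (leaf 621 4)))))))))))))))))) (move 655 (branch (move 623 (leaf 526 7)) (move 653 (branch (move 650 (branch (move 649 (leaf 617 2)) (move 685 (branch (move 686 (leaf 650 0)) (move 717 (branch (move 588 (leaf 588 7)) (move 749 (leaf 620 7)))))))) (move 654 (branch (move 656 (leaf 620 3)) (move 683 (branch (move 682 (leaf 650 1)) (move 684 (leaf 651 1))))))))))))))) (branch (move 556 (branch (move 588 (leaf 524 6)) (move 554 (branch (move 555 (leaf 522 2)) (move 651 (branch (move 623 (branch (move 622 (leaf 619 1)) (move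 655 (leaf 526 7)))) (branch (move 650 (branch (move 649 (leaf 617 2)) (move 653 (branch (move 622 (leaf 618 2)) (move 618 (branch (move 617 (leaf 617 3)) (move 654 (branch (move 619 (leaf 618 0)) (move 683 (branch (move 682 (leaf 650 1)) (move 586 (leaf 554 4)))))))))))) (move 653 (branch (move 655 (branch (move 623 (leaf 526 7)) (move 654 (branch (move 619 (leaf 619 3)) (move 656 (leaf 620 3)))))) (move 650 (branch (move 649 (leaf 617 2)) (move 618 (branch (move 617 (leaf 617 3)) (move 586 (branch (move 683 (leaf 554 4)) (move 682 (branch (move 681 (leaf 649 1)) (move 553 (branch (move 521 (leaf 521 7)) (move 585 (leaf 553 7))))))))))))))))))))) (branch (move 651 (branch (move 623 (branch (move 622 (leaf 619 1)) (move 655 (leaf 526 7)))) (branch (move 653 (branch (move 655 (branch (move 623 (leaf 526 7)) (move 654 (branch (move 619 (leaf 619 3)) (move 656 (leaf 620 3)))))) (move 650 (branch (move 649 (leaf 617 2)) (move 685 (branch (move 686 (leaf 650 0)) (move 717 (branch (move 588 (leaf 588 7)) (move 749 (leaf 620 7)))))))))) (move 650 (branch (move 649 (leaf 617 2)) (move 653 (branch (move 622 (leaf 618 2)) (move 556 (branch (move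 588 (leaf 524 6)) (move 524 (branch (move 523 (leaf 523 0)) (move 618 (branch (move 617 (leaf 617 3)) (move 654 (branch (move 619 (leaf 618 0)) (move 686 (branch (move 685 (leaf 650 0)) (move 687 (leaf 651 0))))))))))))))))))) (move 588 (branch (move 556 (leaf 524 6)) (move 684 (branch (move 715 (branch (move 683 (leaf 587 5)) (move 716 (branch (move 747 (leaf 619 5)) (move 717 (branch (move 685 (leaf 588 4)) (move 749 (leaf 620 4)))))))) (branch (move 623 (branch (move 655 (leaf 526 7)) (move 651 (branch (move 622 (leaf 619 1)) (move 650 (branch (move 649 (leaf 617 2)) (move 685 (branch (move 717 (leaf 588 4)) (move 686 (branch (move 683 (leaf 650 3)) (move 687 (leaf 651 3)))))))))))) (branch (move 623 (branch (move 655 (leaf 526 7)) (move 651 (branch (move 622 (leaf 619 1)) (move 650 (branch (move 649 (leaf 617 2)) (move 524 (branch (move 523 (leaf 523 0)) (move 717 (branch (move 685 (leaf 588 4)) (move 716 (branch (move 749 (leaf 620 4)) (move 747 (branch (move 715 (leaf 619 5)) (move 748 (branch (move 779 (leaf 651 5)) (move 619 (leaf 619 7)))))))))))))))))) (move 716 (branch (move 623 (branch (move 655 (leaf 526 7)) (move 651 (branch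 (move 622 (leaf 619 1)) (move 748 (branch (move 619 (leaf 619 7)) (move 780 (branch (move 683 (leaf 651 7)) (move 781 (branch (move 749 (leaf 652 4)) (move 813 (leaf 684 4)))))))))))) (branch (move 715 (branch (move 683 (leaf 587 5)) (move 747 (leaf 619 5)))) (move 623 (branch (move 655 (leaf 526 7)) (move 651 (branch (move 622 (leaf 619 1)) (move 748 (branch (move 619 (leaf 619 7)) (move 747 (branch (move 715 (leaf 619 5)) (move 779 (leaf 651 5)))))))))))))))))))))))))))
theorem a6p721 : a6e721.Valid :=
  pos_of_chk [a6e719, a6e720] (forall_cons a6p719 (forall_cons a6p720 forall_nil)) a6c721 a6e721 (by decide +kernel)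

def a6e722 : Pos := ⟨8702164874309912148232430298204004961065683165523557547607905702568730193996262317404293825247552934777531149334996956985973002658930542644575918069077816151725385414374244896782577303552, 68280467814946607149460344101021820758875023050198174383560633384748497989263919660363011726084170037606866326088894687613507755334526946054455883917815168419736499904683037374912378818169505666655451258721449174726266030343189664330907130003456, 14⟩
def a6c722 : Cert := (move 620 (branch (move 556 (branch (move 588 (branch (move 652 (leaf 524 6)) (move 591 (branch (move 592 (leaf 556 0)) (move 653 (branch (move 524 (leaf 524 4)) (move 655 (branch (move 623 (leaf 526 7)) (move 654 (branch (move 656 (leaf 620 3)) (move 619 (branch (move 618 (leaf 618 0)) (move 622 (leaf 619 0)))))))))))))) (branch (move 588 (branch (move 587 (leaf 555 1)) (move 591 (branch (move 592 (leaf 556 0)) (move 653 (branch (move 524 (leaf 524 4)) (move 655 (branch (move 623 (leaf 526 7)) (move 654 (branch (move 656 (leaf 620 3)) (move 619 (branch (move 618 (leaf 618 0)) (move 622 (leaf 619 0)))))))))))))) (branch (move 588 (branch (move 587 (leaf 555 1))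 (move 652 (leaf 524 6)))) (move 555 (branch (move 554 (leaf 522 2)) (move 619 (branch (move 591 (branch (move 592 (leaf 556 0)) (move 655 (branch (move 623 (leaf 526 7)) (move 654 (branch (move 622 (leaf 619 0)) (move 653 (branch (move 618 (leaf 618 0)) (move 652 (leaf 619 3)))))))))) (branch (move 587 (branch (move 586 (leaf 554 1)) (move 651 (branch (move 524 (leaf 523 6)) (move 650 (branch (move 622 (leaf 618 1)) (move 682 (leaf 554 5)))))))) (move 587 (branch (move 586 (leaf 554 1)) (move 651 (branch (move 524 (leaf 523 6)) (move 652 (branch (move 684 (leaf 555 4)) (move 650 (branch (move 649 (leaf 617 2)) (move 682 (leaf 554 5))))))))))))))))))) (branch (move 556 (branch (move 588 (branch (move 587 (leaf 555 1)) (move 652 (leaf 524 6)))) (branch (move 619 (branch (move 555 (branch (move 554 (leaf 522 2)) (move 587 (branch (move 586 (leaf 554 1)) (move 652 (branch (move 523 (leaf 523 4)) (move 684 (branch (move 651 (leaf 555 4)) (move 716 (leaf 587 7)))))))))) (move 591 (branch (move 592 (leaf 556 0)) (move 655 (branch (move 623 (leaf 526 7)) (move 654 (branch (move 622 (leaf 619 0)) (move 653 (branch (move 618 (leaf 618 0)) (move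 656 (leaf 620 3)))))))))))) (branch (move 587 (branch (move 588 (leaf 555 1)) (move 555 (branch (move 586 (leaf 554 1)) (move 554 (leaf 522 2)))))) (move 554 (branch (move 555 (leaf 522 2)) (move 623 (branch (move 652 (branch (move 588 (leaf 524 6)) (move 622 (branch (move 651 (leaf 619 1)) (move 624 (branch (move 653 (leaf 620 1)) (move 656 (branch (move 655 (leaf 620 0)) (move 657 (leaf 621 0)))))))))) (branch (move 591 (branch (move 592 (leaf 556 0)) (move 655 (leaf 526 7)))) (move 652 (branch (move 588 (leaf 524 6)) (move 622 (branch (move 651 (leaf 619 1)) (move 592 (branch (move 591 (leaf 556 0)) (move 624 (branch (move 653 (leaf 620 1)) (move 593 (leaf 589 2))))))))))))))))))) (branch (ref 0) (branch (move 556 (branch (move 587 (branch (move 588 (leaf 555 1)) (move 555 (branch (move 586 (leaf 554 1)) (move 554 (leaf 522 2)))))) (branch (move 524 (branch (move 523 (leaf 523 0)) (move 591 (branch (move 592 (leaf 556 0)) (move 655 (branch (move 623 (leaf 526 7)) (move 653 (branch (move 588 (leaf 524 4)) (move 654 (branch (move 656 (leaf 620 3)) (move 619 (branch (move 618 (leaf 618 0)) (move 622 (leaf 619 0)))))))))))))) (move 524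 (branch (move 523 (leaf 523 0)) (move 555 (branch (move 554 (leaf 522 2)) (move 587 (branch (move 586 (leaf 554 1)) (move 492 (branch (move 460 (leaf 459 5)) (move 591 (branch (move 592 (leaf 556 0)) (move 619 (branch (move 651 (leaf 523 6)) (move 655 (branch (move 623 (leaf 526 7)) (move 654 (branch (move 622 (leaf 619 0)) (move 653 (branch (move 618 (leaf 618 0)) (move 656 (leaf 620 3))))))))))))))))))))))) (branch (ref 1) (branch (ref 2) (branch (move 556 (branch (move 587 (branch (move 588 (leaf 555 1)) (move 555 (branch (move 586 (leaf 554 1)) (move 554 (leaf 522 2)))))) (branch (move 524 (branch (move 523 (leaf 523 0)) (move 588 (branch (move 653 (leaf 524 4)) (move 652 (leaf 524 6)))))) (move 555 (branch (move 554 (leaf 522 2)) (move 587 (branch (move 586 (leaf 554 1)) (move 619 (branch (move 651 (branch (move 524 (leaf 523 6)) (move 652 (branch (move 684 (leaf 555 4)) (move 650 (branch (move 649 (leaf 617 2)) (move 682 (leaf 554 5)))))))) (branch (move 652 (branch (move 523 (leaf 523 4)) (move 684 (branch (move 651 (leaf 555 4)) (move 716 (leaf 587 7)))))) (branch (move 523 (branch (move 524 (leaf 523 0)) (move 652 (leaf 523 4))))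 (move 524 (branch (move 523 (leaf 523 0)) (move 651 (leaf 523 6))))))))))))))) (branch (move 556 (branch (move 588 (branch (move 587 (leaf 555 1)) (move 652 (leaf 524 6)))) (branch (move 587 (branch (move 588 (leaf 555 1)) (move 555 (branch (move 586 (leaf 554 1)) (move 554 (leaf 522 2)))))) (branch (move 591 (branch (move 592 (leaf 556 0)) (move 651 (branch (move 652 (branch (move 588 (leaf 524 6)) (move 623 (branch (move 622 (leaf 619 1)) (move 655 (leaf 526 7)))))) (branch (move 524 (branch (move 523 (leaf 523 0)) (move 619 (branch (move 588 (leaf 523 5)) (move 650 (branch (move 622 (leaf 618 1)) (move 649 (branch (move 618 (leaf 617 1)) (move 648 (leaf 616 2)))))))))) (branch (move 524 (branch (move 523 (leaf 523 0)) (move 588 (branch (move 619 (leaf 523 5)) (move 652 (leaf 524 6)))))) (move 623 (branch (move 655 (leaf 526 7)) (move 554 (branch (move 555 (leaf 522 2)) (move 650 (branch (move 619 (branch (move 622 (leaf 618 1)) (move 649 (branch (move 618 (leaf 617 1)) (move 648 (leaf 616 2)))))) (branch (move 649 (branch (move 652 (leaf 617 2)) (move 619 (branch (move 618 (leaf 617 1)) (move 648 (leaf 616 2)))))) (branch (move 622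 (branch (move 619 (leaf 618 1)) (move 652 (leaf 619 1)))) (move 652 (branch (move 622 (leaf 619 1)) (move 649 (leaf 617 2)))))))))))))))))) (move 523 (branch (move 524 (leaf 523 0)) (move 555 (branch (move 554 (leaf 522 2)) (move 587 (branch (move 586 (leaf 554 1)) (move 619 (branch (move 652 (leaf 523 4)) (move 650 (branch (move 618 (leaf 522 5)) (move 651 (branch (move 622 (leaf 618 1)) (move 682 (leaf 554 5)))))))))))))))))) (branch (move 556 (branch (move 588 (branch (move 652 (leaf 524 6)) (move 591 (branch (move 592 (leaf 556 0)) (move 653 (branch (move 524 (leaf 524 4)) (move 655 (branch (move 623 (leaf 526 7)) (move 654 (branch (move 656 (leaf 620 3)) (move 619 (branch (move 618 (leaf 618 0)) (move 622 (leaf 619 0)))))))))))))) (branch (move 588 (branch (move 587 (leaf 555 1)) (move 591 (branch (move 592 (leaf 556 0)) (move 653 (branch (move 524 (leaf 524 4)) (move 655 (branch (move 623 (leaf 526 7)) (move 654 (branch (move 656 (leaf 620 3)) (move 619 (branch (move 618 (leaf 618 0)) (move 622 (leaf 619 0)))))))))))))) (branch (move 588 (branch (move 587 (leaf 555 1)) (move 652 (leaf 524 6)))) (move 523 (branch (move 524 (leaf 523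 0)) (move 555 (branch (move 554 (leaf 522 2)) (move 587 (branch (move 586 (leaf 554 1)) (move 619 (branch (move 652 (leaf 523 4)) (move 618 (branch (move 650 (leaf 522 5)) (move 591 (branch (move 592 (leaf 556 0)) (move 655 (branch (move 623 (leaf 526 7)) (move 654 (branch (move 653 (leaf 618 0)) (move 622 (leaf 619 0)))))))))))))))))))))) (move 591 (branch (move 592 (branch (move 556 (leaf 556 0)) (move 623 (branch (move 622 (leaf 588 2)) (move 655 (leaf 526 7)))))) (branch (move 619 (branch (move 623 (branch (move 655 (leaf 526 7)) (move 622 (branch (move 592 (leaf 588 2)) (move 651 (branch (move 650 (leaf 618 1)) (move 652 (leaf 619 1)))))))) (branch (move 618 (branch (move 650 (branch (move 649 (leaf 617 1)) (move 651 (branch (move 622 (leaf 618 1)) (move 586 (branch (move 585 (leaf 585 3)) (move 683 (branch (move 554 (leaf 554 4)) (move 715 (leaf 586 7)))))))))) (branch (move 653 (branch (move 654 (leaf 618 0)) (move 617 (branch (move 652 (leaf 617 0)) (move 585 (branch (move 584 (leaf 584 3)) (move 586 (leaf 585 3)))))))) (move 650 (branch (move 649 (leaf 617 1)) (move 651 (branch (move 622 (leaf 618 1)) (move 653 (branch (move 654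 (leaf 618 0)) (move 652 (branch (move 617 (leaf 617 0)) (move 685 (branch (move 686 (leaf 650 0)) (move 717 (branch (move 588 (leaf 588 7)) (move 749 (leaf 620 7))))))))))))))))) (branch (move 655 (branch (move 623 (leaf 526 7)) (move 654 (branch (move 622 (leaf 619 0)) (move 653 (branch (move 618 (leaf 618 0)) (move 656 (leaf 620 3)))))))) (ref 3))))) (branch (move 556 (branch (move 592 (leaf 556 0)) (move 524 (branch (move 523 (leaf 523 0)) (move 588 (branch (move 653 (leaf 524 4)) (move 652 (leaf 524 6)))))))) (ref 4)))))))))))))))
theorem a6p722 : a6e722.Valid :=
  pos_of_chk [a6e715, a6e716, a6e717, a6e718, a6e721] (forall_cons a6p715 (forall_cons a6p716 (forall_cons a6p717 (forall_cons a6p718 (forall_cons a6p721 forall_nil))))) a6c722 a6e722 (by decide +kernel)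

def a6e723 : Pos := ⟨8702164874309912145401958479587848946884517229782355879420214787256399872714107592220075703453441295712936105451752881329871721385857658969747979596634221677304309725799722864045530808320, 68280467814946607149460344101021820758875023050198174383560633384752550250575807364144775861761719121901571216758861362194556817592046298852196904526120808407311954789903549199626200260136296682752622071209841428195794863734490342810808685166592, 17⟩
def a6c723 : Cert := (move 558 (branch (move 622 (branch (move 590 (branch (move 653 (leaf 525 5)) (move 623 (branch (move 655 (leaf 526 4)) (move 591 (branch (move 494 (leaf 494 4)) (move 592 (branch (move 593 (leaf 589 1)) (move 620 (leaf 588 2)))))))))) (branch (move 590 (branch (move 654 (leaf 525 7)) (move 623 (branch (move 655 (leaf 526 4)) (move 591 (branch (move 494 (leaf 494 4)) (move 592 (branch (move 593 (leaf 589 1)) (move 620 (leaf 588 2)))))))))) (branch (move 590 (branch (move 653 (leaf 525 5)) (move 654 (leaf 525 7)))) (ref 0))))) (branch (move 590 (branch (move 622 (branch (move 653 (leaf 525 5)) (move 654 (leaf 525 7)))) (move 591 (branch (move 494 (branch (move 623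 (leaf 494 4)) (move 462 (branch (move 430 (leaf 429 5)) (move 463 (branch (move 431 (leaf 430 6)) (move 495 (leaf 462 6)))))))) (move 556 (branch (move 555 (leaf 555 0)) (move 592 (branch (move 559 (leaf 556 0)) (move 593 (leaf 557 3)))))))))) (branch (move 559 (branch (move 524 (branch (move 523 (leaf 523 0)) (move 560 (leaf 524 3)))) (move 556 (branch (move 587 (branch (move 588 (leaf 555 1)) (move 555 (branch (move 586 (leaf 554 1)) (move 554 (leaf 522 2)))))) (move 591 (branch (move 592 (leaf 556 0)) (move 494 (branch (move 462 (leaf 462 4)) (move 623 (branch (move 590 (leaf 494 4)) (move 655 (leaf 526 7)))))))))))) (branch (move 622 (branch (move 590 (branch (move 653 (leaf 525 5)) (move 623 (branch (move 655 (leaf 526 4)) (move 591 (branch (move 494 (leaf 494 4)) (move 592 (branch (move 593 (leaf 589 1)) (move 620 (leaf 588 2)))))))))) (branch (move 590 (branch (move 654 (leaf 525 7)) (move 623 (branch (move 655 (leaf 526 4)) (move 591 (branch (move 494 (leaf 494 4)) (move 592 (branch (move 593 (leaf 589 1)) (move 620 (leaf 588 2)))))))))) (branch (move 590 (branch (move 653 (leaf 525 5)) (move 654 (leaf 525 7)))) (ref 1))))) (branch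 (move 494 (branch (move 462 (branch (move 430 (leaf 429 5)) (move 463 (branch (move 431 (leaf 430 6)) (move 590 (branch (move 495 (leaf 462 6)) (move 622 (branch (move 653 (leaf 525 5)) (move 654 (leaf 525 7)))))))))) (branch (move 462 (branch (move 430 (leaf 429 5)) (move 559 (branch (move 591 (leaf 462 4)) (move 560 (branch (move 524 (leaf 524 3)) (move 561 (leaf 525 3)))))))) (move 590 (branch (move 622 (branch (move 653 (leaf 525 5)) (move 654 (leaf 525 7)))) (move 495 (branch (move 463 (leaf 462 6)) (move 524 (branch (move 523 (leaf 491 2)) (move 559 (branch (move 560 (leaf 524 3)) (move 591 (branch (move 623 (leaf 494 4)) (move 592 (branch (move 556 (leaf 556 0)) (move 593 (leaf 557 3))))))))))))))))) (branch (ref 2) (branch (move 556 (branch (move 559 (branch (move 524 (branch (move 523 (leaf 523 0)) (move 588 (branch (move 587 (leaf 555 1)) (move 620 (branch (move 653 (leaf 524 4)) (move 652 (leaf 524 6)))))))) (move 560 (branch (move 561 (leaf 525 3)) (move 592 (branch (move 591 (leaf 556 0)) (move 593 (leaf 557 0)))))))) (branch (move 555 (branch (move 554 (leaf 522 2)) (move 590 (branch (move 591 (leaf 555 0)) (move 622 (branch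 (move 653 (leaf 525 5)) (move 654 (leaf 525 7)))))))) (move 555 (branch (move 554 (leaf 522 2)) (move 587 (branch (move 586 (leaf 554 1)) (move 559 (branch (move 588 (leaf 555 1)) (move 524 (branch (move 523 (leaf 523 0)) (move 560 (leaf 524 3))))))))))))) (branch (move 494 (branch (move 462 (branch (move 430 (leaf 429 5)) (move 463 (branch (move 431 (leaf 430 6)) (move 590 (branch (move 495 (leaf 462 6)) (move 622 (branch (move 653 (leaf 525 5)) (move 654 (leaf 525 7)))))))))) (branch (move 462 (branch (move 430 (leaf 429 5)) (move 559 (branch (move 591 (leaf 462 4)) (move 560 (branch (move 524 (leaf 524 3)) (move 561 (leaf 525 3)))))))) (move 590 (branch (move 622 (branch (move 653 (leaf 525 5)) (move 654 (leaf 525 7)))) (branch (move 622 (branch (move 654 (leaf 525 7)) (move 623 (branch (move 591 (leaf 494 4)) (move 655 (leaf 526 4)))))) (move 495 (branch (move 463 (leaf 462 6)) (move 524 (branch (move 523 (leaf 491 2)) (move 559 (branch (move 560 (leaf 524 3)) (move 591 (branch (move 623 (leaf 494 4)) (move 556 (branch (move 555 (leaf 555 0)) (move 588 (branch (move 587 (leaf 555 1)) (move 620 (branch (move 653 (leaf 524 4)) (move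 652 (leaf 524 6)))))))))))))))))))))) (move 494 (branch (move 462 (branch (move 430 (leaf 429 5)) (move 461 (branch (move 429 (leaf 429 7)) (move 463 (branch (move 431 (leaf 430 6)) (move 460 (branch (move 492 (branch (move 491 (leaf 459 1)) (move 428 (branch (move 427 (leaf 427 3)) (move 524 (leaf 428 4)))))) (move 495 (branch (move 459 (leaf 459 0)) (move 496 (leaf 460 0)))))))))))) (branch (move 559 (branch (move 524 (branch (move 523 (leaf 523 0)) (move 560 (leaf 524 3)))) (branch (move 524 (branch (move 523 (leaf 523 0)) (move 591 (branch (move 462 (leaf 462 4)) (move 556 (branch (move 592 (leaf 556 0)) (move 588 (branch (move 587 (leaf 555 1)) (move 620 (branch (move 653 (leaf 524 4)) (move 652 (leaf 524 6)))))))))))) (move 560 (branch (move 561 (leaf 525 3)) (move 591 (branch (move 462 (leaf 462 4)) (move 592 (branch (move 556 (leaf 556 0)) (move 593 (leaf 557 0))))))))))) (branch (move 462 (branch (move 430 (leaf 429 5)) (move 559 (branch (move 591 (leaf 462 4)) (move 560 (branch (move 561 (leaf 525 3)) (move 463 (branch (move 431 (leaf 430 6)) (move 461 (branch (move 429 (leaf 429 7)) (move 592 (branch (move 593 (leaf 557 0))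 (move 528 (branch (move 529 (leaf 525 2)) (move 496 (branch (move 495 (leaf 463 7)) (move 497 (branch (move 464 (leaf 461 0)) (move 465 (leaf 464 6)))))))))))))))))))) (move 559 (branch (move 524 (branch (move 523 (leaf 523 0)) (move 560 (leaf 524 3)))) (branch (move 560 (branch (move 561 (leaf 525 3)) (move 592 (branch (move 593 (leaf 557 0)) (move 591 (branch (move 556 (leaf 556 0)) (move 623 (branch (move 655 (leaf 526 7)) (move 528 (branch (move 529 (leaf 525 2)) (move 496 (leaf 495 5)))))))))))) (ref 3)))))))))))))))))
theorem a6p723 : a6e723.Valid :=
  pos_of_chk [a6e711, a6e712, a6e714, a6e722] (forall_cons a6p711 (forall_cons a6p712 (forall_cons a6p714 (forall_cons a6p722 forall_nil)))) a6c723 a6e723 (by decide +kernel)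

def a6e724 : Pos := ⟨329510287686269266319131238355906874428932894406878659650934246040906072803087490501882862751749818638910222946791081185781855423986398903003553357973522743296, 68280467814946607149460344101021820758875023050198174383569335549628886293370076994967057837073137491345184187808155920246955254239555197186736464560024530882173927154164761986257187489084054737347660209930203094725390119289305353901537300054016, 19⟩
def a6c724 : Cert := (move 557 (branch (ref 0) (branch (ref 1) (branch (move 589 (branch (ref 2) (branch (move 494 (branch (move 621 (leaf 493 6)) (move 462 (branch (move 430 (leaf 429 5)) (move 558 (leaf 461 5)))))) (branch (move 621 (branch (move 494 (leaf 493 6)) (move 622 (branch (move 654 (leaf 525 4)) (move 620 (branch (move 652 (leaf 524 5)) (move 493 (branch (move 590 (leaf 493 4)) (move 588 (leaf 492 5)))))))))) (move 493 (branch (move 590 (branch (move 622 (leaf 493 4)) (move 461 (branch (move 558 (leaf 461 4)) (move 460 (branch (move 428 (leaf 428 7)) (move 492 (leaf 460 7)))))))) (branch (move 462 (branch (move 494 (leaf 461 6)) (move 461 (branch (move 430 (leaf 429 6)) (move 460 (branch (move 428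 (leaf 428 7)) (move 492 (leaf 460 7)))))))) (branch (move 494 (branch (move 462 (leaf 461 6)) (move 590 (branch (move 622 (leaf 493 4)) (move 558 (branch (move 461 (leaf 461 4)) (move 588 (branch (move 620 (leaf 492 5)) (move 559 (branch (move 560 (leaf 556 1)) (move 587 (leaf 555 2)))))))))))) (move 494 (branch (move 462 (leaf 461 6)) (move 495 (branch (move 492 (branch (move 460 (leaf 460 7)) (move 590 (branch (move 622 (leaf 493 4)) (move 463 (branch (move 464 (leaf 460 2)) (move 558 (leaf 462 6)))))))) (move 496 (branch (move 524 (leaf 492 1)) (move 497 (leaf 493 1)))))))))))))))) (branch (ref 3) (branch (ref 4) (branch (move 589 (branch (ref 5) (branch (move 621 (branch (move 494 (leaf 493 6)) (move 524 (branch (move 492 (leaf 492 7)) (move 653 (branch (move 556 (leaf 524 7)) (move 654 (branch (move 622 (leaf 525 4)) (move 686 (leaf 557 4)))))))))) (branch (move 494 (branch (move 621 (leaf 493 6)) (move 462 (branch (move 430 (leaf 429 5)) (move 558 (leaf 461 5)))))) (ref 6))))) (branch (move 589 (branch (move 621 (branch (move 653 (branch (move 558 (leaf 525 6)) (move 652 (branch (move 620 (leaf 524 5)) (move 684 (leaf 556 5))))))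 (branch (move 524 (branch (move 492 (leaf 492 7)) (move 653 (branch (move 556 (leaf 524 7)) (move 654 (branch (move 622 (leaf 525 4)) (move 686 (leaf 557 4)))))))) (ref 7)))) (branch (move 621 (branch (move 494 (leaf 493 6)) (move 524 (branch (move 492 (leaf 492 7)) (move 653 (branch (move 556 (leaf 524 7)) (move 654 (branch (move 622 (leaf 525 4)) (move 686 (leaf 557 4)))))))))) (branch (move 494 (branch (move 621 (leaf 493 6)) (move 462 (branch (move 430 (leaf 429 5)) (move 558 (leaf 461 5)))))) (move 493 (branch (ref 8) (branch (move 494 (branch (move 462 (leaf 461 6)) (move 495 (branch (move 492 (branch (move 460 (leaf 460 7)) (move 590 (branch (move 622 (leaf 493 4)) (move 463 (branch (move 464 (leaf 460 2)) (move 558 (leaf 462 6)))))))) (move 496 (branch (move 524 (leaf 492 1)) (move 497 (leaf 493 1)))))))) (branch (ref 9) (move 494 (branch (move 462 (leaf 461 6)) (move 492 (branch (move 460 (leaf 460 7)) (move 491 (branch (move 490 (leaf 490 0)) (move 588 (branch (move 620 (leaf 492 5)) (move 459 (branch (move 458 (leaf 458 3)) (move 524 (branch (move 556 (leaf 459 7)) (move 495 (branch (move 523 (leaf 491 1)) (move 496 (leaf 492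 1)))))))))))))))))))))))) (branch (move 589 (branch (ref 2) (branch (move 494 (branch (move 621 (leaf 493 6)) (move 462 (branch (move 430 (leaf 429 5)) (move 558 (leaf 461 5)))))) (branch (move 621 (branch (move 494 (leaf 493 6)) (move 622 (branch (move 654 (leaf 525 4)) (move 620 (branch (move 652 (leaf 524 5)) (move 493 (branch (move 590 (leaf 493 4)) (move 588 (leaf 492 5)))))))))) (move 493 (branch (move 590 (branch (move 622 (leaf 493 4)) (move 461 (branch (move 558 (leaf 461 4)) (move 588 (branch (move 556 (leaf 460 5)) (move 620 (leaf 492 5)))))))) (branch (move 494 (branch (move 462 (leaf 461 6)) (move 588 (branch (move 620 (leaf 492 5)) (move 461 (branch (move 556 (leaf 460 5)) (move 429 (branch (move 397 (leaf 397 4)) (move 428 (branch (move 396 (leaf 396 7)) (move 460 (leaf 428 7)))))))))))) (branch (move 494 (branch (move 462 (leaf 461 6)) (move 590 (branch (move 622 (leaf 493 4)) (move 558 (branch (move 461 (leaf 461 4)) (move 588 (branch (move 620 (leaf 492 5)) (move 559 (branch (move 560 (leaf 556 1)) (move 587 (leaf 555 2)))))))))))) (branch (ref 9) (move 494 (branch (move 462 (leaf 461 6)) (move 590 (branch (move 622 (leaf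 493 4)) (move 558 (branch (move 461 (leaf 461 4)) (move 591 (branch (move 623 (leaf 494 4)) (move 592 (branch (move 556 (leaf 556 3)) (move 593 (leaf 557 3))))))))))))))))))))) (branch (move 589 (branch (ref 5) (branch (move 494 (branch (move 621 (leaf 493 6)) (move 462 (branch (move 430 (leaf 429 5)) (move 558 (leaf 461 5)))))) (branch (ref 6) (move 621 (branch (move 494 (leaf 493 6)) (move 620 (branch (move 652 (leaf 524 5)) (move 524 (branch (move 492 (leaf 492 7)) (move 556 (branch (move 653 (leaf 524 7)) (move 588 (branch (move 493 (leaf 492 5)) (move 555 (branch (move 554 (leaf 522 2)) (move 619 (branch (move 651 (leaf 523 5)) (move 590 (branch (move 591 (leaf 587 1)) (move 618 (leaf 586 2)))))))))))))))))))))) (branch (move 589 (branch (move 621 (branch (move 653 (branch (move 558 (leaf 525 6)) (move 524 (branch (move 492 (leaf 492 7)) (move 556 (leaf 524 7)))))) (branch (move 622 (branch (move 654 (leaf 525 4)) (move 493 (branch (move 590 (leaf 493 4)) (move 492 (branch (move 460 (leaf 460 7)) (move 524 (leaf 492 7)))))))) (move 653 (branch (move 558 (leaf 525 6)) (move 654 (branch (move 622 (leaf 525 4)) (move 686 (leaf 557 4)))))))))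 (branch (move 621 (branch (move 494 (leaf 493 6)) (move 524 (branch (move 492 (leaf 492 7)) (move 653 (branch (move 556 (leaf 524 7)) (move 654 (branch (move 622 (leaf 525 4)) (move 686 (leaf 557 4)))))))))) (branch (move 494 (branch (move 621 (leaf 493 6)) (move 462 (branch (move 430 (leaf 429 5)) (move 558 (leaf 461 5)))))) (move 493 (branch (move 590 (branch (move 622 (leaf 493 4)) (move 461 (branch (move 558 (leaf 461 4)) (move 460 (branch (move 428 (leaf 428 7)) (move 492 (leaf 460 7)))))))) (branch (move 462 (branch (move 494 (leaf 461 6)) (move 461 (branch (move 430 (leaf 429 6)) (move 460 (branch (move 428 (leaf 428 7)) (move 492 (leaf 460 7)))))))) (branch (move 494 (branch (move 462 (leaf 461 6)) (move 495 (branch (move 492 (branch (move 460 (leaf 460 7)) (move 590 (branch (move 622 (leaf 493 4)) (move 463 (branch (move 464 (leaf 460 2)) (move 558 (leaf 462 6)))))))) (move 496 (branch (move 524 (leaf 492 1)) (move 497 (leaf 493 1)))))))) (move 494 (branch (move 462 (leaf 461 6)) (move 590 (branch (move 622 (leaf 493 4)) (move 558 (branch (move 461 (leaf 461 4)) (move 591 (branch (move 623 (leaf 494 4)) (move 592 (branch (move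 556 (leaf 556 3)) (move 593 (leaf 557 3)))))))))))))))))))) (branch (ref 10) (move 621 (branch (move 589 (branch (move 653 (branch (move 558 (leaf 525 6)) (move 652 (branch (move 620 (leaf 524 5)) (move 684 (leaf 556 5)))))) (branch (move 524 (branch (move 492 (leaf 492 7)) (move 653 (branch (move 556 (leaf 524 7)) (move 654 (branch (move 622 (leaf 525 4)) (move 686 (leaf 557 4)))))))) (ref 7)))) (branch (move 589 (branch (move 494 (leaf 493 6)) (move 524 (branch (move 492 (leaf 492 7)) (move 653 (branch (move 556 (leaf 524 7)) (move 654 (branch (move 622 (leaf 525 4)) (move 686 (leaf 557 4)))))))))) (branch (move 589 (branch (move 494 (leaf 493 6)) (move 653 (branch (move 558 (leaf 525 6)) (move 652 (branch (move 620 (leaf 524 5)) (move 684 (leaf 556 5)))))))) (branch (move 589 (branch (move 494 (leaf 493 6)) (ref 7))) (ref 11))))))))))))))))))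
theorem a6p724 : a6e724.Valid :=
  pos_of_chk [a6e696, a6e701, a6e702, a6e703, a6e707, a6e705, a6e708, a6e706, a6e704, a6e709, a6e710, a6e723] (forall_cons a6p696 (forall_cons a6p701 (forall_cons a6p702 (forall_cons a6p703 (forall_cons a6p707 (forall_cons a6p705 (forall_cons a6p708 (forall_cons a6p706 (forall_cons a6p704 (forall_cons a6p709 (forall_cons a6p710 (forall_cons a6p723 forall_nil)))))))))))) a6c724 a6e724 (by decide +kernel)

def a6e725 : Pos := ⟨8702164876336042794269630822391812073953287499670731065686737596879782498622535887192161928618735871337914136338615097150629389094550559366261498051500456163908085955370196636171992301568, 107454601486609210619081487122439079485517344495287503124145793473850026523790887599605490232765452037737540660759364871455004441451243455852083896052083240016404195215246052542206735777910866575360, 8⟩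
def a6c725 : Cert := (move 524 (branch (move 492 (leaf 492 7)) (move 620 (branch (move 652 (leaf 524 5)) (move 619 (branch (move 618 (branch (move 590 (leaf 586 2)) (move 617 (branch (move 588 (leaf 585 2)) (move 585 (branch (move 584 (leaf 584 3)) (move 586 (leaf 585 3)))))))) (branch (move 622 (branch (move 654 (leaf 525 4)) (move 587 (branch (move 586 (leaf 586 3)) (move 588 (branch (move 623 (leaf 587 3)) (move 651 (branch (move 650 (leaf 618 1)) (move 556 (leaf 523 5)))))))))) (move 622 (branch (move 654 (leaf 525 4)) (move 590 (branch (move 618 (leaf 586 2)) (move 591 (leaf 587 2)))))))))))))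
theorem a6p725 : a6e725.Valid :=
  pos_of_chk [] forall_nil a6c725 a6e725 (by decide +kernel)

def a6e726 : Pos := ⟨8702164876336042794269630822611485599077467010550151891257342179832404428227121660292784759312673253206639130006537005651795934853824041330788885508688359779899018557372565541487674130432, 1153968980662303524215049978510750744616008749821079607505503561250541112218918789126954052937104064482971732262698313967181421061570455016399513309599085363714108287228266362015687128846699686002688, 11⟩
def a6c726 : Cert := (move 620 (branch (move 652 (leaf 524 5)) (move 622 (branch (move 654 (leaf 525 4)) (move 623 (branch (move 588 (branch (move 587 (leaf 587 3)) (move 624 (leaf 588 3)))) (branch (move 524 (branch (move 492 (leaf 492 7)) (move 592 (branch (move 591 (leaf 588 2)) (move 624 (branch (move 593 (leaf 589 2)) (move 656 (branch (move 655 (leaf 620 0)) (move 657 (leaf 621 0)))))))))) (move 587 (branch (move 588 (leaf 587 3)) (move 619 (branch (move 586 (leaf 586 3)) (move 524 (branch (move 492 (leaf 492 7)) (move 651 (branch (move 650 (leaf 618 1)) (move 555 (branch (move 556 (leaf 523 6)) (move 523 (branch (move 554 (leaf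 522 1)) (move 490 (branch (move 491 (leaf 490 3)) (move 522 (leaf 490 7)))))))))))))))))))))))
theorem a6p726 : a6e726.Valid :=
  pos_of_chk [] forall_nil a6c726 a6e726 (by decide +kernel)

def a6e727 : Pos := ⟨8702164876336042794269630822611485599077467010550151891257342179832404428227121660292784759312673253206639130006537005651795934853824041330788885508688359779899018557372565541487674130432, 559464718355675335335495620311893260505337408607892228387260942873189381290631975380030039014109987810712788111643800847139118916250358788907223142800262808190505898419997230695599441662512273031168, 13⟩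
def a6c727 : Cert := (move 524 (branch (move 492 (leaf 492 7)) (move 620 (branch (move 652 (leaf 524 5)) (move 619 (branch (move 622 (branch (move 654 (leaf 525 4)) (move 590 (branch (move 618 (leaf 586 2)) (move 591 (leaf 587 2)))))) (branch (move 618 (branch (move 590 (leaf 586 2)) (move 585 (branch (move 586 (leaf 585 3)) (move 617 (branch (move 584 (leaf 584 3)) (move 649 (branch (move 648 (leaf 616 1)) (move 650 (leaf 617 1)))))))))) (branch (move 622 (branch (move 654 (leaf 525 4)) (move 586 (branch (move 587 (leaf 586 3)) (move 618 (branch (move 585 (leaf 585 3)) (move 650 (branch (move 649 (leaf 617 1)) (move 651 (leaf 618 1)))))))))) (move 622 (branch (move 654 (leaf 525 4)) (move 591 (branch (move 590 (leaf 587 2)) (move 623 (branch (move 592 (leaf 588 2)) (move 655 (branch (move 656 (leaf 620 0)) (move 558 (branch (move 559 (leaf 526 7)) (move 523 (branch (move 522 (leaf 522 0)) (move 555 (branch (move 554 (leaf 522 1)) (move 587 (branch (move 586 (leaf 586 3)) (move 651 (branch (move 650 (leaf 618 1)) (move 556 (leaf 523 6))))))))))))))))))))))))))))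
theorem a6p727 : a6e727.Valid :=
  pos_of_chk [] forall_nil a6c727 a6e727 (by decide +kernel)

def a6e728 : Pos := ⟨8702164876336042794269630822611485599077467010550151891257342179832404428227121660292784759312673253206639130006537005651795934853824041330788885508688359779899018557372565541487674130432, 541944946449816227533631980738433409688304251051594871716090751866752032759745484521936475063223215999291956444596723925942268763051678142055038720003534603935375921489171033490906192531935658508288, 11⟩
def a6c728 : Cert := (move 524 (branch (move 492 (leaf 492 7)) (move 523 (branch (move 554 (branch (move 555 (leaf 522 1)) (move 522 (branch (move 553 (leaf 521 1)) (move 490 (branch (move 489 (leaf 489 3)) (move 491 (leaf 490 3)))))))) (branch (move 558 (branch (move 522 (leaf 522 0)) (move 559 (leaf 523 0)))) (move 558 (branch (move 559 (leaf 523 0)) (move 622 (branch (move 654 (leaf 525 4)) (move 620 (branch (move 652 (leaf 524 5)) (move 555 (branch (move 554 (leaf 522 1)) (move 491 (branch (move 490 (leaf 490 3)) (move 588 (branch (move 556 (leaf 491 7)) (move 623 (branch (move 624 (leaf 588 3)) (move 655 (branch (move 656 (leaf 620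 0)) (move 590 (leaf 526 4)))))))))))))))))))))))
theorem a6p728 : a6e728.Valid :=
  pos_of_chk [] forall_nil a6c728 a6e728 (by decide +kernel)

def a6e729 : Pos := ⟨8702164876336042794269630822666403980358511888270007097649993325570559910628268103567940466986157598673820378423517482777087571293642411821920732372985335683896751707873157767816594587648, 224253081359196447640919285006641684065934632611829443540662940966731864064244623568984328772044758530304486070209057380065484536698914117509841755265012375062964289367983897181604305220437576515584, 12⟩
def a6c729 : Cert := (move 523 (branch (move 554 (branch (move 555 (leaf 522 1)) (move 522 (branch (move 553 (leaf 521 1)) (move 490 (branch (move 489 (leaf 489 3)) (move 491 (leaf 490 3)))))))) (branch (move 558 (branch (move 522 (leaf 522 0)) (move 559 (leaf 523 0)))) (move 622 (branch (move 654 (leaf 525 4)) (move 588 (branch (move 555 (branch (move 554 (leaf 522 1)) (move 587 (branch (move 586 (leaf 586 0)) (move 623 (branch (move 590 (leaf 587 0)) (move 624 (leaf 588 3)))))))) (branch (move 558 (branch (move 559 (leaf 523 0)) (move 555 (branch (move 554 (leaf 522 1)) (move 623 (branch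 (move 624 (leaf 588 3)) (move 590 (branch (move 655 (leaf 526 4)) (move 556 (branch (move 591 (leaf 555 0)) (move 491 (branch (move 490 (leaf 490 3)) (move 459 (leaf 459 4)))))))))))))) (branch (move 558 (branch (move 559 (leaf 523 0)) (move 587 (branch (move 586 (leaf 586 0)) (move 623 (branch (move 590 (leaf 587 0)) (move 624 (leaf 588 3)))))))) (move 558 (branch (move 559 (leaf 523 0)) (move 587 (branch (move 586 (leaf 586 0)) (move 555 (branch (move 554 (leaf 522 1)) (move 491 (branch (move 490 (leaf 490 3)) (move 459 (branch (move 556 (leaf 459 4)) (move 428 (branch (move 460 (leaf 427 6)) (move 427 (branch (move 396 (leaf 395 6)) (move 426 (branch (move 394 (leaf 394 7)) (move 458 (leaf 426 7)))))))))))))))))))))))))))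
theorem a6p729 : a6e729.Valid :=
  pos_of_chk [] forall_nil a6c729 a6e729 (by decide +kernel)

def a6e730 : Pos := ⟨8702164874309912145401958479587848946884517229782355879420214787256399872714107592220075703453441295712936105451752881329871721385857658969747979596634221677304309725799722864045530808320, 80263304217873168802821739482758609053708666317250140729971666914237831579361858797661620893062815844214689684748168695564405993894458373521565589903708505911164766629374006252029880756445943027955530727424, 9⟩
def a6c730 : Cert := (move 524 (branch (move 523 (branch (move 554 (branch (move 555 (leaf 522 1)) (move 522 (branch (move 553 (leaf 521 1)) (move 521 (branch (move 556 (leaf 521 0)) (move 489 (branch (move 488 (leaf 488 3)) (move 490 (leaf 489 3)))))))))) (branch (move 558 (branch (move 522 (leaf 522 0)) (move 559 (leaf 523 0)))) (move 558 (branch (move 559 (leaf 523 0)) (move 589 (branch (move 653 (leaf 525 6)) (move 555 (branch (move 554 (leaf 522 1)) (move 620 (branch (move 652 (leaf 524 5)) (move 491 (branch (move 490 (leaf 490 3)) (move 588 (branch (move 587 (leaf 491 4)) (move 556 (leaf 491 7))))))))))))))))) (branch (move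 589 (branch (move 492 (leaf 492 7)) (move 653 (branch (move 556 (leaf 524 7)) (move 652 (branch (move 620 (leaf 524 5)) (move 684 (leaf 556 5)))))))) (branch (move 589 (branch (move 492 (leaf 492 7)) (move 558 (branch (move 653 (leaf 525 6)) (move 559 (branch (move 523 (leaf 523 0)) (move 560 (leaf 524 3)))))))) (move 523 (branch (move 554 (branch (move 555 (leaf 522 1)) (move 522 (branch (move 553 (leaf 521 1)) (move 521 (branch (move 556 (leaf 521 0)) (move 489 (branch (move 488 (leaf 488 3)) (move 490 (leaf 489 3)))))))))) (branch (move 558 (branch (move 522 (leaf 522 0)) (move 559 (leaf 523 0)))) (move 491 (branch (move 490 (leaf 490 3)) (move 556 (branch (move 588 (branch (move 620 (leaf 491 7)) (move 459 (branch (move 427 (leaf 427 4)) (move 492 (leaf 459 7)))))) (branch (move 555 (branch (move 554 (leaf 522 1)) (move 588 (branch (move 459 (leaf 459 4)) (move 620 (leaf 491 7)))))) (move 555 (branch (move 554 (leaf 522 1)) (move 558 (branch (move 559 (leaf 523 0)) (move 587 (branch (move 586 (leaf 554 1)) (move 492 (branch (move 460 (leaf 459 5)) (move 619 (leaf 491 6))))))))))))))))))))))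
theorem a6p730 : a6e730.Valid :=
  pos_of_chk [] forall_nil a6c730 a6e730 (by decide +kernel)

def a6e731 : Pos := ⟨26106494626981997733941220124151799569666912718244397185223085398063342940354593593503776729996975656520039384461061167129963953815685295737743588242447230389129549034537747231073833582592, 184541598144005606024490086465744313820837912820607595013440536631995065668543375414528509212846795573250951715807689305005886528204979401679020607565098175599898466446351164419470300999702928162816, 6⟩
def a6c731 : Cert := (move 620 (branch (move 619 (branch (move 591 (leaf 587 2)) (move 586 (branch (move 587 (leaf 586 3)) (move 618 (branch (move 585 (leaf 585 3)) (move 650 (branch (move 649 (leaf 617 1)) (move 651 (leaf 618 1)))))))))) (branch (move 623 (branch (move 655 (leaf 526 4)) (move 652 (branch (move 651 (leaf 619 1)) (move 588 (branch (move 587 (leaf 587 3)) (move 556 (leaf 524 6)))))))) (move 591 (branch (move 619 (leaf 587 2)) (move 592 (branch (move 593 (leaf 589 1)) (move 623 (leaf 588 2)))))))))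
theorem a6p731 : a6e731.Valid :=
  pos_of_chk [] forall_nil a6c731 a6e731 (by decide +kernel)

def a6e732 : Pos := ⟨30457577060084692507255746116544760965588187742938918603948924660963941736660711007634534529897308157396789710059319354224034245538356843936699513662391185109867060394784788752155417772032, 1191344494180109135258610811624150007768688317453705220034623253719119534967031762797100835723948744328898153236569420309708607797643552206591042583693458232192245864126138942431426464680357153210368, 5⟩
def a6c732 : Cert := (move 623 (branch (move 656 (branch (move 655 (leaf 620 0)) (move 624 (branch (move 657 (leaf 621 0)) (move 592 (branch (move 591 (leaf 588 2)) (move 593 (leaf 589 2)))))))) (branch (move 652 (branch (move 651 (leaf 619 1)) (move 624 (branch (move 653 (leaf 620 1)) (move 592 (branch (move 591 (leaf 588 2)) (move 593 (leaf 589 2)))))))) (move 655 (branch (move 656 (leaf 620 0)) (move 619 (branch (move 654 (leaf 619 0)) (move 651 (branch (move 650 (leaf 618 1)) (move 652 (leaf 619 1)))))))))))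
theorem a6p732 : a6e732.Valid :=
  pos_of_chk [] forall_nil a6c732 a6e732 (by decide +kernel)

def a6e733 : Pos := ⟨30457577060084692508670982026182349260365039977128650676398676993049039791708667029877577836835270049732174722502824254803834704813803508720904564084394837771063997142075603126497463762944, 344728266564269162560426445365117188288972425338351717743332546562866215733609178093735928880341222864977048647429447353416678745324541346140566902177901840430382856375181869581216728566283019296809078032519286226944, 13⟩
def a6c733 : Cert := (move 619 (branch (move 587 (branch (move 586 (leaf 586 3)) (move 651 (branch (move 650 (leaf 618 1)) (move 588 (branch (move 623 (leaf 587 3)) (move 556 (branch (move 524 (leaf 523 5)) (move 683 (leaf 555 6)))))))))) (branch (move 651 (branch (move 650 (leaf 618 1)) (move 652 (branch (move 623 (leaf 619 1)) (move 587 (branch (move 586 (leaf 586 3)) (move 555 (branch (move 523 (leaf 523 4)) (move 684 (leaf 555 4)))))))))) (branch (move 587 (branch (move 586 (leaf 586 3)) (move 588 (branch (move 623 (leaf 587 3)) (move 652 (branch (move 556 (leaf 524 6)) (move 684 (branch (move 555 (leaf 555 7)) (move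 716 (leaf 587 7)))))))))) (branch (move 650 (branch (move 651 (leaf 618 1)) (move 618 (branch (move 649 (leaf 617 1)) (move 653 (branch (move 654 (leaf 618 0)) (move 652 (branch (move 617 (leaf 617 0)) (move 556 (branch (move 588 (leaf 524 6)) (move 586 (branch (move 585 (leaf 585 3)) (move 554 (branch (move 555 (leaf 522 2)) (move 623 (branch (move 624 (leaf 620 1)) (move 521 (branch (move 553 (leaf 521 7)) (move 522 (branch (move 489 (leaf 489 7)) (move 523 (branch (move 524 (leaf 522 0)) (move 491 (leaf 490 6)))))))))))))))))))))))) (branch (move 651 (branch (move 650 (leaf 618 1)) (move 652 (branch (move 623 (leaf 619 1)) (move 556 (branch (move 588 (leaf 524 6)) (move 555 (branch (move 554 (leaf 522 2)) (move 587 (branch (move 523 (leaf 523 4)) (move 684 (leaf 555 4)))))))))))) (move 651 (branch (move 650 (leaf 618 1)) (move 586 (branch (move 587 (leaf 586 3)) (move 618 (branch (move 585 (leaf 585 3)) (move 653 (branch (move 654 (leaf 618 0)) (move 652 (branch (move 617 (leaf 617 0)) (move 556 (branch (move 588 (leaf 524 6)) (move 554 (branch (move 555 (leaf 522 2)) (move 522 (leaf 522 4))))))))))))))))))))))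
theorem a6p733 : a6e733.Valid :=
  pos_of_chk [] forall_nil a6c733 a6e733 (by decide +kernel)

def a6e734 : Pos := ⟨26106494622929736436205875438104526265281013156708805161548830612911333829328565457358358618278511741532633335351492918486115526879752531015661776418338954183940131371392061876189546938368, 344728266564269163606940824477176921253896417808221672874781377897998519052060174925689483006264640588901801134717902331657790264100558192122386053679711461754694983062172624429278009452118865541741564971964203794432, 14⟩
def a6c734 : Cert := (move 620 (branch (move 623 (branch (move 656 (branch (move 655 (leaf 620 0)) (move 624 (branch (move 657 (leaf 621 0)) (move 592 (branch (move 591 (leaf 588 2)) (move 593 (leaf 589 2)))))))) (move 652 (branch (move 651 (leaf 619 1)) (move 588 (branch (move 587 (leaf 587 3)) (move 556 (leaf 524 6)))))))) (branch (move 619 (branch (move 654 (branch (move 655 (leaf 619 0)) (move 618 (branch (move 653 (leaf 618 0)) (move 650 (branch (move 649 (leaf 617 1)) (move 651 (leaf 618 1)))))))) (branch (move 587 (branch (move 586 (leaf 586 3)) (move 651 (branch (move 650 (leaf 618 1)) (move 588 (branch (move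 623 (leaf 587 3)) (move 556 (branch (move 524 (leaf 523 5)) (move 683 (leaf 555 6)))))))))) (move 587 (branch (move 586 (leaf 586 3)) (move 623 (branch (move 588 (leaf 587 3)) (move 655 (branch (move 654 (leaf 619 0)) (move 656 (leaf 620 0))))))))))) (branch (ref 0) (branch (move 623 (branch (move 656 (branch (move 655 (leaf 620 0)) (move 624 (branch (move 657 (leaf 621 0)) (move 592 (branch (move 591 (leaf 588 2)) (move 593 (leaf 589 2)))))))) (move 588 (branch (move 587 (leaf 587 3)) (move 556 (branch (move 652 (leaf 524 6)) (move 524 (branch (move 653 (leaf 524 4)) (move 523 (branch (move 522 (leaf 522 0)) (move 491 (leaf 491 7)))))))))))) (branch (ref 1) (move 619 (branch (move 654 (branch (move 655 (leaf 619 0)) (move 618 (branch (move 653 (leaf 618 0)) (move 650 (branch (move 649 (leaf 617 1)) (move 651 (leaf 618 1)))))))) (branch (move 654 (branch (move 655 (leaf 619 0)) (move 618 (branch (move 653 (leaf 618 0)) (move 586 (branch (move 585 (leaf 585 3)) (move 587 (leaf 586 3)))))))) (branch (move 586 (branch (move 587 (leaf 586 3)) (move 618 (branch (move 585 (leaf 585 3)) (move 650 (branch (move 649 (leaf 617 1)) (move 651 (leaf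 618 1)))))))) (move 556 (branch (move 555 (branch (move 554 (leaf 522 2)) (move 587 (branch (move 586 (leaf 554 1)) (move 523 (branch (move 522 (leaf 522 3)) (move 652 (leaf 523 4)))))))) (branch (move 588 (branch (move 652 (leaf 524 6)) (move 524 (branch (move 653 (leaf 524 4)) (move 651 (leaf 523 5)))))) (move 555 (branch (move 554 (leaf 522 2)) (move 587 (branch (move 586 (leaf 554 1)) (move 651 (branch (move 650 (leaf 618 1)) (move 524 (leaf 523 6)))))))))))))))))))))
theorem a6p734 : a6e734.Valid :=
  pos_of_chk [a6e732, a6e733] (forall_cons a6p732 (forall_cons a6p733 forall_nil)) a6c734 a6e734 (by decide +kernel)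

def a6e735 : Pos := ⟨26106494626981997733941220124151799569666912718244397185223085398063342940354593593503776729996975656520039384461061167129963953815685295737743588242447230389129549034537747231073833582592, 2277570356568274863950002734415262471762249441622040354460043560137317959595198587196496597404008062543899312862879399271749725464349680233733035438354159968217975004522808381590508942953633355399168, 9⟩
def a6c735 : Cert := (move 620 (branch (move 619 (branch (move 591 (leaf 587 2)) (move 586 (branch (move 587 (leaf 586 3)) (move 618 (branch (move 585 (leaf 585 3)) (move 650 (branch (move 649 (leaf 617 1)) (move 651 (leaf 618 1)))))))))) (branch (move 623 (branch (move 655 (leaf 526 4)) (move 587 (branch (move 588 (leaf 587 3)) (move 619 (branch (move 586 (leaf 586 3)) (move 651 (branch (move 650 (leaf 618 1)) (move 652 (leaf 619 1)))))))))) (move 623 (branch (move 655 (leaf 526 4)) (move 592 (branch (move 591 (leaf 588 2)) (move 624 (branch (move 593 (leaf 589 2)) (move 657 (branch (move 656 (leaf 621 0)) (move 625 (branch (move 658 (leaf 622 0)) (move 560 (branch (move 528 (leaf 528 4)) (move 559 (branch (move 524 (leaf 524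 3)) (move 561 (leaf 525 3)))))))))))))))))))
theorem a6p735 : a6e735.Valid :=
  pos_of_chk [] forall_nil a6c735 a6e735 (by decide +kernel)

def a6e736 : Pos := ⟨30457577060084692508670982026182349260365039977128650676398676993049039791708667029877577836835270049732174722502824254803834704813803508720904564084394837771063997142075603126497463762944, 2240194843024362758281739300548900578640646290695576124688318969515837251045287396083860058081176936818355916754652972499909232258954453467717298659117752801921758780563325225348746496320441260441600, 10⟩
def a6c736 : Cert := (move 619 (branch (move 586 (branch (move 587 (leaf 586 3)) (move 618 (branch (move 585 (leaf 585 3)) (move 650 (branch (move 649 (leaf 617 1)) (move 651 (leaf 618 1)))))))) (branch (move 587 (branch (move 586 (leaf 586 3)) (move 623 (branch (move 588 (leaf 587 3)) (move 592 (branch (move 591 (leaf 588 2)) (move 624 (branch (move 593 (leaf 589 2)) (move 653 (branch (move 652 (leaf 620 1)) (move 654 (branch (move 618 (leaf 618 0)) (move 625 (leaf 621 1)))))))))))))) (move 651 (branch (move 650 (leaf 618 1)) (move 623 (branch (move 652 (leaf 619 1)) (move 592 (branch (move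 591 (leaf 588 2)) (move 624 (branch (move 593 (leaf 589 2)) (move 657 (branch (move 656 (leaf 621 0)) (move 625 (branch (move 658 (leaf 622 0)) (move 560 (branch (move 528 (leaf 528 4)) (move 559 (branch (move 524 (leaf 524 3)) (move 561 (leaf 525 3)))))))))))))))))))))
theorem a6p736 : a6e736.Valid :=
  pos_of_chk [] forall_nil a6c736 a6e736 (by decide +kernel)

def a6e737 : Pos := ⟨26106494622929736436205875438104526265281013156708805161548830612911333829328565457358358618278511741532633335351492918486115526879752531015661776418338954183940131371392061876189546938368, 2390864881985613100924007993820024263514932006970659824230208574576563603585516161817220250233751029037013782861823137001501054208104162896249803745976799381234946852090928298544191033726780957523968, 11⟩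
def a6c737 : Cert := (move 620 (branch (move 623 (branch (move 652 (branch (move 651 (leaf 619 1)) (move 624 (branch (move 653 (leaf 620 1)) (move 592 (branch (move 591 (leaf 588 2)) (move 593 (leaf 589 2)))))))) (branch (move 652 (branch (move 651 (leaf 619 1)) (move 624 (branch (move 653 (leaf 620 1)) (move 656 (branch (move 655 (leaf 620 0)) (move 657 (leaf 621 0)))))))) (move 655 (branch (move 656 (leaf 620 0)) (move 591 (branch (move 592 (leaf 588 2)) (move 559 (leaf 526 7))))))))) (branch (ref 0) (branch (move 619 (branch (move 587 (branch (move 586 (leaf 586 3)) (move 623 (branch (move 588 (leaf 587 3)) (move 592 (branch (move 591 (leaf 588 2)) (move 624 (branch (move 593 (leaf 589 2)) (move 653 (branch (move 652 (leaf 620 1)) (move 654 (branch (move 618 (leaf 618 0)) (move 625 (leaf 621 1)))))))))))))) (branch (move 654 (branch (move 655 (leaf 619 0)) (move 618 (branch (move 653 (leaf 618 0)) (move 649 (branch (move 650 (leaf 617 1)) (move 617 (branch (move 648 (leaf 616 1)) (move 585 (branch (move 584 (leaf 584 3)) (move 586 (leaf 585 3)))))))))))) (branch (move 587 (branch (move 586 (leaf 586 3)) (move 623 (branch (move 588 (leaf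 587 3)) (move 655 (branch (move 656 (leaf 620 0)) (move 591 (branch (move 592 (leaf 588 2)) (move 559 (leaf 526 7)))))))))) (move 655 (branch (move 654 (leaf 619 0)) (move 623 (branch (move 656 (leaf 620 0)) (move 591 (branch (move 592 (leaf 588 2)) (move 559 (leaf 526 7)))))))))))) (branch (move 619 (branch (move 654 (branch (move 655 (leaf 619 0)) (move 618 (branch (move 653 (leaf 618 0)) (move 650 (branch (move 649 (leaf 617 1)) (move 651 (leaf 618 1)))))))) (branch (move 587 (branch (move 586 (leaf 586 3)) (move 623 (branch (move 588 (leaf 587 3)) (move 655 (branch (move 654 (leaf 619 0)) (move 656 (leaf 620 0)))))))) (move 586 (branch (move 587 (leaf 586 3)) (move 618 (branch (move 585 (leaf 585 3)) (move 650 (branch (move 649 (leaf 617 1)) (move 651 (leaf 618 1))))))))))) (branch (move 619 (branch (move 587 (branch (move 586 (leaf 586 3)) (move 623 (branch (move 588 (leaf 587 3)) (move 655 (branch (move 654 (leaf 619 0)) (move 656 (leaf 620 0)))))))) (branch (move 586 (branch (move 587 (leaf 586 3)) (move 618 (branch (move 585 (leaf 585 3)) (move 650 (branch (move 649 (leaf 617 1)) (move 651 (leaf 618 1)))))))) (move 651 (branch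 (move 650 (leaf 618 1)) (move 623 (branch (move 652 (leaf 619 1)) (move 592 (branch (move 591 (leaf 588 2)) (move 624 (branch (move 593 (leaf 589 2)) (move 657 (branch (move 656 (leaf 621 0)) (move 625 (branch (move 658 (leaf 622 0)) (move 560 (branch (move 528 (leaf 528 4)) (move 559 (branch (move 524 (leaf 524 3)) (move 561 (leaf 525 3))))))))))))))))))))) (move 523 (branch (move 524 (branch (move 559 (leaf 523 0)) (move 555 (branch (move 554 (leaf 522 1)) (move 491 (branch (move 490 (leaf 490 3)) (move 587 (branch (move 588 (leaf 491 4)) (move 619 (branch (move 586 (leaf 586 3)) (move 652 (leaf 523 4)))))))))))) (branch (move 524 (branch (move 522 (leaf 522 0)) (move 559 (leaf 523 0)))) (move 619 (branch (move 654 (branch (move 655 (leaf 619 0)) (move 618 (branch (move 653 (leaf 618 0)) (move 650 (branch (move 649 (leaf 617 1)) (move 651 (leaf 618 1)))))))) (move 587 (branch (move 586 (leaf 586 3)) (move 555 (branch (move 652 (leaf 523 4)) (move 491 (branch (move 588 (leaf 491 4)) (move 490 (branch (move 458 (leaf 458 7)) (move 522 (leaf 490 7)))))))))))))))))))))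
theorem a6p737 : a6e737.Valid :=
  pos_of_chk [a6e736] (forall_cons a6p736 forall_nil) a6c737 a6e737 (by decide +kernel)

def a6e738 : Pos := ⟨8702164874309912146581321737344580619460003036341189907831752668636537506581672061046833254200987811989850707069771246186580588582971360500926287293485719374979757929372440377685966848000, 65407148700758414311945134565953154104691357361360754554189363315560714416373879620692384578859978659448701035330235427906627977699774139244963576749536436057640129498021298240232534386671330787328, 7⟩
def a6c738 : Cert := (move 588 (branch (move 620 (branch (move 652 (leaf 524 6)) (move 524 (branch (move 653 (leaf 524 4)) (move 523 (branch (move 522 (leaf 522 0)) (move 491 (leaf 491 7)))))))) (branch (move 555 (branch (move 554 (leaf 522 2)) (move 523 (branch (move 522 (leaf 522 3)) (move 587 (branch (move 586 (leaf 554 1)) (move 491 (branch (move 459 (leaf 459 4)) (move 490 (branch (move 524 (leaf 490 3)) (move 458 (leaf 458 7)))))))))))) (branch (move 555 (branch (move 554 (leaf 522 2)) (move 620 (branch (move 652 (leaf 524 6)) (move 587 (branch (move 586 (leaf 554 1)) (move 523 (branch (move 522 (leaf 522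 3)) (move 491 (leaf 491 4)))))))))) (move 555 (branch (move 554 (leaf 522 2)) (move 587 (branch (move 586 (leaf 554 1)) (move 620 (branch (move 652 (leaf 524 6)) (move 524 (branch (move 653 (leaf 524 4)) (move 619 (branch (move 492 (leaf 491 5)) (move 651 (leaf 523 5))))))))))))))))
theorem a6p738 : a6e738.Valid :=
  pos_of_chk [] forall_nil a6c738 a6e738 (by decide +kernel)

def a6e739 : Pos := ⟨26106494622929736436205875438104526265281013156708805161548830612911333829328565457358358618278511741532633335351492918486115526879752531015661776418338954183940131371392061876189546938368, 603274466577767253794938664200790058700082276405218788336844245405991042216480829452838246354378829017972402205308804762463194739641334678738047265309067598048426330729864420057475508938562347112997978207589329010688, 12⟩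
def a6c739 : Cert := (move 620 (branch (move 623 (branch (move 656 (branch (move 655 (leaf 620 0)) (move 624 (branch (move 657 (leaf 621 0)) (move 592 (branch (move 591 (leaf 588 2)) (move 593 (leaf 589 2)))))))) (move 652 (branch (move 651 (leaf 619 1)) (move 588 (branch (move 587 (leaf 587 3)) (move 556 (leaf 524 6)))))))) (branch (ref 0) (branch (move 623 (branch (move 656 (branch (move 655 (leaf 620 0)) (move 624 (branch (move 657 (leaf 621 0)) (move 592 (branch (move 591 (leaf 588 2)) (move 593 (leaf 589 2)))))))) (move 588 (branch (move 587 (leaf 587 3)) (move 556 (branch (move 652 (leaf 524 6)) (move 524 (branch (move 653 (leaf 524 4)) (move 523 (branch (move 522 (leaf 522 0)) (move 491 (leaf 491 7)))))))))))) (branch (ref 1) (branch (move 619 (branch (move 654 (branch (move 655 (leaf 619 0)) (move 618 (branch (move 653 (leaf 618 0)) (move 650 (branch (move 649 (leaf 617 1)) (move 651 (leaf 618 1)))))))) (branch (move 587 (branch (move 586 (leaf 586 3)) (move 651 (branch (move 650 (leaf 618 1)) (move 588 (branch (move 623 (leaf 587 3)) (move 556 (branch (move 524 (leaf 523 5)) (move 683 (leaf 555 6)))))))))) (move 654 (branch (move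 655 (leaf 619 0)) (move 618 (branch (move 653 (leaf 618 0)) (move 586 (branch (move 585 (leaf 585 3)) (move 587 (leaf 586 3))))))))))) (move 524 (branch (move 559 (branch (move 523 (leaf 523 0)) (move 560 (leaf 524 3)))) (move 619 (branch (move 654 (branch (move 655 (leaf 619 0)) (move 618 (branch (move 653 (leaf 618 0)) (move 586 (branch (move 585 (leaf 585 3)) (move 587 (leaf 586 3)))))))) (branch (move 650 (branch (move 651 (leaf 618 1)) (move 618 (branch (move 649 (leaf 617 1)) (move 586 (branch (move 585 (leaf 585 3)) (move 587 (leaf 586 3)))))))) (branch (move 654 (branch (move 655 (leaf 619 0)) (move 618 (branch (move 653 (leaf 618 0)) (move 650 (branch (move 649 (leaf 617 1)) (move 651 (leaf 618 1)))))))) (move 651 (branch (move 650 (leaf 618 1)) (move 588 (branch (move 556 (leaf 523 5)) (move 587 (branch (move 586 (leaf 586 3)) (move 683 (branch (move 715 (leaf 587 6)) (move 684 (branch (move 716 (leaf 587 4)) (move 682 (branch (move 714 (leaf 586 5)) (move 654 (branch (move 655 (leaf 619 0)) (move 653 (branch (move 652 (leaf 650 1)) (move 685 (leaf 650 2))))))))))))))))))))))))))))))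
theorem a6p739 : a6e739.Valid :=
  pos_of_chk [a6e732, a6e736] (forall_cons a6p732 (forall_cons a6p736 forall_nil)) a6c739 a6e739 (by decide +kernel)

def a6e740 : Pos := ⟨8702164874309912146345449085793234284944905875029423102149445092360509979808159167281481744051478508734467786746167573215238815143548620194690625754115419835444668288657896874957879640064, 252284716450776519774130915884493277258387713592415926103038066881312564591976406886981530673028826254643467526419235073704912084036062153078096910468671321855972668388426125886036406783195748499456, 11⟩
def a6c740 : Cert := (move 556 (branch (move 555 (branch (move 554 (leaf 522 2)) (move 587 (branch (move 586 (leaf 554 1)) (move 559 (branch (move 588 (leaf 555 1)) (move 560 (branch (move 561 (leaf 525 3)) (move 592 (branch (move 591 (leaf 556 0)) (move 593 (leaf 557 0)))))))))))) (branch (move 555 (branch (move 554 (leaf 522 2)) (move 587 (branch (move 586 (leaf 554 1)) (move 588 (branch (move 559 (leaf 555 1)) (move 620 (branch (move 652 (leaf 524 6)) (move 523 (branch (move 522 (leaf 522 3)) (move 491 (leaf 491 4)))))))))))) (branch (move 555 (branch (move 554 (leaf 522 2)) (move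 523 (branch (move 522 (leaf 522 3)) (move 559 (branch (move 524 (leaf 523 0)) (move 591 (branch (move 590 (leaf 555 0)) (move 592 (leaf 556 0)))))))))) (branch (move 555 (branch (move 554 (leaf 522 2)) (move 523 (branch (move 522 (leaf 522 3)) (move 587 (branch (move 586 (leaf 554 1)) (move 590 (branch (move 591 (leaf 555 0)) (move 622 (branch (move 654 (leaf 525 7)) (move 623 (branch (move 655 (leaf 526 4)) (move 620 (branch (move 588 (leaf 587 3)) (move 619 (branch (move 652 (leaf 523 4)) (move 524 (branch (move 492 (leaf 491 6)) (move 651 (leaf 523 6)))))))))))))))))))) (move 559 (branch (move 560 (branch (move 561 (leaf 525 3)) (move 592 (branch (move 591 (leaf 556 0)) (move 593 (leaf 557 0)))))) (branch (move 560 (branch (move 524 (leaf 524 3)) (move 561 (leaf 525 3)))) (move 524 (branch (move 523 (leaf 523 0)) (move 588 (branch (move 587 (leaf 555 1)) (move 591 (branch (move 592 (leaf 556 0)) (move 620 (branch (move 652 (leaf 524 6)) (move 619 (branch (move 651 (leaf 523 5)) (move 622 (branch (move 590 (leaf 587 2)) (move 655 (branch (move 654 (leaf 619 0)) (move 623 (leaf 526 7))))))))))))))))))))))))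
theorem a6p740 : a6e740.Valid :=
  pos_of_chk [] forall_nil a6c740 a6e740 (by decide +kernel)

def a6e741 : Pos := ⟨8702164874309912146581321737344580619460003036341189907831752668636537506581672061046833254200987811989850707069771246186580588582971360500926287293485719374979757929372440377685966848000, 595672247166198510313834724958619437972544301670186607319872409438132648619139354398520593209901902691180609274127722946521064076479592395362767460077805290342254633164400022917454663222516307197952, 7⟩
def a6c741 : Cert := (move 622 (branch (move 590 (branch (move 653 (leaf 525 5)) (move 654 (leaf 525 7)))) (branch (move 588 (branch (move 559 (branch (move 587 (leaf 555 1)) (move 560 (branch (move 561 (leaf 525 3)) (move 592 (branch (move 591 (leaf 556 0)) (move 593 (leaf 557 0)))))))) (branch (move 620 (branch (move 652 (leaf 524 6)) (move 587 (branch (move 623 (leaf 587 3)) (move 586 (branch (move 585 (leaf 585 0)) (move 619 (leaf 586 3)))))))) (move 620 (branch (move 652 (leaf 524 6)) (move 590 (branch (move 653 (leaf 525 5)) (move 591 (branch (move 619 (leaf 587 2)) (move 592 (branch (move 559 (leaf 556 0)) (move 593 (leaf 589 1)))))))))))))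 (branch (move 588 (branch (move 559 (branch (move 587 (leaf 555 1)) (move 560 (branch (move 561 (leaf 525 3)) (move 592 (branch (move 591 (leaf 556 0)) (move 593 (leaf 557 0)))))))) (branch (move 620 (branch (move 652 (leaf 524 6)) (move 587 (branch (move 623 (leaf 587 3)) (move 586 (branch (move 585 (leaf 585 0)) (move 619 (leaf 586 3)))))))) (move 590 (branch (move 654 (leaf 525 7)) (move 620 (branch (move 652 (leaf 524 6)) (move 591 (branch (move 619 (leaf 587 2)) (move 592 (branch (move 559 (leaf 556 0)) (move 593 (leaf 589 1))))))))))))) (move 620 (branch (move 623 (branch (move 592 (branch (move 591 (leaf 588 2)) (move 624 (branch (move 593 (leaf 589 2)) (move 652 (branch (move 651 (leaf 619 1)) (move 653 (leaf 620 1)))))))) (branch (move 655 (branch (move 656 (leaf 620 0)) (move 619 (branch (move 654 (leaf 619 0)) (move 651 (branch (move 650 (leaf 618 1)) (move 652 (leaf 619 1)))))))) (move 655 (branch (move 656 (leaf 620 0)) (move 591 (branch (move 592 (leaf 588 2)) (move 559 (leaf 526 7))))))))) (branch (move 588 (branch (move 652 (leaf 524 6)) (move 587 (branch (move 559 (leaf 555 1)) (move 586 (branch (move 585 (leaf 585 0))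 (move 619 (leaf 586 3)))))))) (branch (move 588 (branch (move 652 (leaf 524 6)) (move 587 (branch (move 559 (leaf 555 1)) (move 623 (leaf 587 3)))))) (branch (move 652 (branch (move 588 (leaf 524 6)) (move 651 (branch (move 623 (leaf 619 1)) (move 650 (branch (move 619 (leaf 618 1)) (move 649 (leaf 617 2)))))))) (move 619 (branch (move 654 (branch (move 655 (leaf 619 0)) (move 618 (branch (move 653 (leaf 618 0)) (move 650 (branch (move 649 (leaf 617 1)) (move 651 (leaf 618 1)))))))) (move 587 (branch (move 586 (leaf 586 3)) (move 588 (branch (move 559 (leaf 555 1)) (move 623 (leaf 587 3)))))))))))))))))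
theorem a6p741 : a6e741.Valid :=
  pos_of_chk [] forall_nil a6c741 a6e741 (by decide +kernel)

def a6e742 : Pos := ⟨8702164874309912148232430298204004961065683165523557547607905702568730193996262317404293825247552934777531149334996956985973002658930542644575918069077816151725385414374244896782577303552, 35534319137470612840118631023419854012404783117666764091781106592887200133442316921760395824662780918394932355549261426144962083803882333145544736493546792098819220702830399448411029131676639410605424147033683829162943203770368, 12⟩
def a6c742 : Cert := (move 623 (branch (move 591 (branch (move 655 (leaf 526 7)) (move 556 (branch (move 592 (leaf 556 0)) (move 555 (branch (move 590 (leaf 555 0)) (move 554 (leaf 522 2)))))))) (branch (move 655 (branch (move 591 (leaf 526 7)) (move 622 (branch (move 590 (leaf 526 4)) (move 656 (branch (move 620 (leaf 620 0)) (move 657 (branch (move 624 (leaf 621 0)) (move 654 (leaf 621 3)))))))))) (branch (move 524 (branch (move 523 (leaf 523 0)) (move 591 (branch (move 655 (leaf 526 7)) (move 592 (branch (move 556 (leaf 556 0)) (move 622 (branch (move 620 (leaf 588 2)) (move 593 (branch (move 594 (leaf 590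 1)) (move 624 (leaf 589 2)))))))))))) (branch (move 622 (branch (move 590 (branch (move 653 (leaf 525 5)) (move 654 (leaf 525 7)))) (branch (move 624 (branch (move 524 (branch (move 523 (leaf 523 0)) (move 653 (branch (move 652 (leaf 620 1)) (move 625 (branch (move 654 (leaf 621 1)) (move 657 (branch (move 656 (leaf 621 0)) (move 658 (leaf 622 0)))))))))) (move 592 (branch (move 593 (leaf 589 2)) (move 591 (branch (move 556 (leaf 556 0)) (move 620 (leaf 588 2)))))))) (branch (move 524 (branch (move 523 (leaf 523 0)) (move 653 (branch (move 590 (leaf 525 5)) (move 624 (branch (move 652 (leaf 620 1)) (move 592 (branch (move 593 (leaf 589 2)) (move 591 (branch (move 556 (leaf 556 0)) (move 620 (leaf 588 2)))))))))))) (move 624 (branch (move 592 (branch (move 593 (leaf 589 2)) (move 591 (branch (move 556 (leaf 556 0)) (move 620 (leaf 588 2)))))) (branch (move 524 (branch (move 523 (leaf 523 0)) (move 657 (branch (move 656 (leaf 621 0)) (move 625 (branch (move 658 (leaf 622 0)) (move 594 (branch (move 593 (leaf 590 2)) (move 626 (branch (move 595 (leaf 591 2)) (move 590 (branch (move 591 (leaf 590 3)) (move 654 (leaf 525 7)))))))))))))) (branch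 (move 524 (branch (move 523 (leaf 523 0)) (move 657 (branch (move 656 (leaf 621 0)) (move 625 (branch (move 658 (leaf 622 0)) (move 590 (branch (move 654 (leaf 525 7)) (move 591 (branch (move 626 (leaf 590 3)) (move 556 (branch (move 555 (leaf 555 0)) (move 592 (leaf 556 0)))))))))))))) (move 524 (branch (move 523 (leaf 523 0)) (move 593 (branch (move 592 (leaf 589 2)) (move 625 (branch (move 594 (leaf 590 2)) (move 657 (branch (move 656 (leaf 621 0)) (move 658 (leaf 622 0)))))))))))))))))) (move 622 (branch (move 590 (branch (move 655 (leaf 526 4)) (move 653 (leaf 525 5)))) (branch (move 590 (branch (move 653 (leaf 525 5)) (move 654 (leaf 525 7)))) (branch (move 590 (branch (move 655 (leaf 526 4)) (move 654 (leaf 525 7)))) (move 624 (branch (move 656 (branch (move 657 (leaf 621 0)) (move 653 (branch (move 652 (leaf 620 1)) (move 655 (branch (move 620 (leaf 620 0)) (move 654 (branch (move 625 (leaf 621 1)) (move 688 (branch (move 689 (leaf 653 0)) (move 720 (branch (move 752 (leaf 623 7)) (move 719 (branch (move 751 (leaf 623 5)) (move 592 (branch (move 593 (leaf 589 2)) (move 687 (leaf 591 5)))))))))))))))))) (branch (move 524 (branch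 (move 523 (leaf 523 0)) (move 593 (branch (move 592 (leaf 589 2)) (move 625 (branch (move 594 (leaf 590 2)) (move 657 (branch (move 656 (leaf 621 0)) (move 658 (leaf 622 0)))))))))) (branch (move 524 (branch (move 523 (leaf 523 0)) (move 653 (branch (move 652 (leaf 620 1)) (move 625 (branch (move 654 (leaf 621 1)) (move 593 (branch (move 592 (leaf 589 2)) (move 594 (leaf 590 2)))))))))) (move 524 (branch (move 523 (leaf 523 0)) (move 656 (branch (move 657 (leaf 621 0)) (move 620 (branch (move 655 (leaf 620 0)) (move 652 (branch (move 651 (leaf 619 1)) (move 653 (leaf 620 1)))))))))))))))))))))))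
theorem a6p742 : a6e742.Valid :=
  pos_of_chk [] forall_nil a6c742 a6e742 (by decide +kernel)

def a6e743 : Pos := ⟨1284212866887962484212171459965618180578212778805696805874630753401278939317128958067837193507569557718294152182158186980846711195850277264266760128061891725308741462110716848550233761904763458966775257890816, 254364564336566038007923374111966259212919101838123508645297540791667927445341489366824193309197455686558455211576406535692699211443089332853842750404150708475499475202285279851012038309177400991369120971072701788027230684689728846954496, 8⟩
def a6c743 : Cert := (move 720 (branch (move 752 (branch (move 655 (leaf 623 7)) (move 753 (branch (move 721 (leaf 624 4)) (move 785 (leaf 656 4)))))) (branch (move 752 (branch (move 655 (leaf 623 7)) (move 751 (branch (move 719 (leaf 623 5)) (move 783 (leaf 655 5)))))) (branch (move 751 (branch (move 719 (leaf 623 5)) (move 752 (branch (move 783 (leaf 655 5)) (move 753 (branch (move 721 (leaf 624 4)) (move 785 (leaf 656 4)))))))) (move 719 (branch (move 751 (leaf 623 5)) (move 718 (branch (move 717 (branch (move 689 (leaf 685 2)) (move 716 (branch (move 687 (leaf 684 2)) (move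 748 (branch (move 747 (leaf 715 1)) (move 749 (leaf 716 1)))))))) (branch (move 721 (branch (move 753 (leaf 624 4)) (move 686 (branch (move 685 (leaf 685 3)) (move 750 (branch (move 749 (leaf 717 1)) (move 687 (branch (move 722 (leaf 686 3)) (move 655 (leaf 622 5)))))))))) (move 721 (branch (move 753 (leaf 624 4)) (move 689 (branch (move 717 (leaf 685 2)) (move 690 (leaf 686 2)))))))))))))))
theorem a6p743 : a6e743.Valid :=
  pos_of_chk [] forall_nil a6c743 a6e743 (by decide +kernel)

def a6e744 : Pos := ⟨60915154120169385015926728142727110225953227720067569280347601654012981528369378037512112366732578207128964432562143609027868950352160352657604077746786022880931057536860391878652881534976, 254364564336566038007923374113330735393069811768645576649675139445267273949039946484091567628590551006948567421406026796543013688161658093410332823452234627953264217909897168837271356434132559489399320035284526927900185149062087102693376, 12⟩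
def a6c744 : Cert := (move 624 (branch (move 653 (branch (move 652 (leaf 620 1)) (move 625 (branch (move 654 (leaf 621 1)) (move 594 (branch (move 593 (leaf 590 2)) (move 626 (branch (move 595 (leaf 591 2)) (move 659 (branch (move 658 (leaf 623 0)) (move 627 (branch (move 660 (leaf 624 0)) (move 655 (branch (move 656 (leaf 623 1)) (move 559 (branch (move 591 (leaf 526 7)) (move 524 (branch (move 523 (leaf 523 0)) (move 560 (leaf 524 3)))))))))))))))))))) (branch (move 653 (branch (move 652 (leaf 620 1)) (move 625 (branch (move 654 (leaf 621 1)) (move 594 (branch (move 593 (leaf 590 2)) (move 626 (branch (move 595 (leaf 591 2)) (move 658 (branch (move 657 (leaf 622 0)) (move 659 (leaf 623 0)))))))))))) (branch (move 625 (branch (move 594 (branch (move 593 (leaf 590 2)) (move 626 (branch (move 595 (leaf 591 2)) (move 659 (branch (move 658 (leaf 623 0)) (move 627 (branch (move 660 (leaf 624 0)) (move 655 (branch (move 656 (leaf 623 1)) (move 559 (branch (move 591 (leaf 526 7)) (move 524 (branch (move 523 (leaf 523 0)) (move 560 (leaf 524 3)))))))))))))))) (branch (move 594 (branch (move 593 (leaf 590 2)) (move 626 (branch (move 595 (leaf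 591 2)) (move 658 (branch (move 657 (leaf 622 0)) (move 659 (leaf 623 0)))))))) (branch (move 594 (branch (move 593 (leaf 590 2)) (move 626 (branch (move 595 (leaf 591 2)) (move 656 (branch (move 657 (leaf 621 0)) (move 655 (branch (move 627 (leaf 623 1)) (move 559 (branch (move 591 (leaf 526 7)) (move 524 (branch (move 523 (leaf 523 0)) (move 560 (leaf 524 3)))))))))))))) (move 657 (branch (move 656 (leaf 621 0)) (move 658 (leaf 622 0)))))))) (move 656 (branch (move 657 (leaf 621 0)) (move 688 (branch (move 655 (branch (move 653 (branch (move 652 (leaf 620 1)) (move 654 (branch (move 689 (leaf 653 0)) (move 685 (branch (move 684 (leaf 652 1)) (move 717 (branch (move 749 (leaf 621 6)) (move 718 (branch (move 750 (leaf 621 4)) (move 716 (branch (move 748 (leaf 620 5)) (move 687 (branch (move 686 (leaf 684 1)) (move 719 (leaf 684 2)))))))))))))))) (move 559 (branch (move 591 (leaf 559 4)) (move 524 (branch (move 523 (leaf 523 0)) (move 560 (leaf 524 3)))))))) (branch (move 720 (branch (move 591 (leaf 591 7)) (move 751 (branch (move 719 (leaf 623 5)) (move 752 (branch (move 783 (leaf 655 5)) (move 753 (branch (move 721 (leaf 624 4)) (move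 785 (leaf 656 4)))))))))) (branch (move 720 (branch (move 591 (leaf 591 7)) (move 752 (branch (move 655 (leaf 623 7)) (move 753 (branch (move 721 (leaf 624 4)) (move 785 (leaf 656 4)))))))) (ref 0)))))))))))
theorem a6p744 : a6e744.Valid :=
  pos_of_chk [a6e743] (forall_cons a6p743 forall_nil) a6c744 a6e744 (by decide +kernel)

def a6e745 : Pos := ⟨26106494622929736436205875438104526265281013156708805161548830612911333829328565457358358618278511741532633335351492918486115526879752531015661776418338954183940131371392061876189546938368, 254364564336566038007923374113330735393069811768680385309190361003363656095781397864432031542696042649137921658107039601803107130165622919014753466818387455240610556728272987438734134177960452474895222536931322440078124564973543617462272, 13⟩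
def a6c745 : Cert := (move 623 (branch (move 624 (branch (move 657 (branch (move 656 (leaf 621 0)) (move 625 (branch (move 658 (leaf 622 0)) (move 593 (branch (move 592 (leaf 589 2)) (move 594 (leaf 590 2)))))))) (branch (move 653 (branch (move 652 (leaf 620 1)) (move 625 (branch (move 654 (leaf 621 1)) (move 593 (branch (move 592 (leaf 589 2)) (move 594 (leaf 590 2)))))))) (branch (move 653 (branch (move 652 (leaf 620 1)) (move 625 (branch (move 654 (leaf 621 1)) (move 657 (branch (move 656 (leaf 621 0)) (move 658 (leaf 622 0)))))))) (move 656 (branch (move 657 (leaf 621 0)) (move 688 (branch (move 720 (branch (move 591 (leaf 591 7)) (move 752 (branch (move 655 (leaf 623 7)) (move 751 (branch (move 719 (leaf 623 5)) (move 783 (leaf 655 5)))))))) (branch (move 592 (branch (move 593 (leaf 589 2)) (move 687 (branch (move 719 (leaf 591 5)) (move 655 (branch (move 560 (leaf 559 5)) (move 653 (branch (move 652 (leaf 620 1)) (move 689 (branch (move 654 (leaf 653 0)) (move 721 (leaf 592 4)))))))))))) (move 592 (branch (move 593 (leaf 589 2)) (move 720 (branch (move 591 (leaf 591 7)) (move 721 (branch (move 689 (leaf 592 4)) (move 753 (leaf 624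 4))))))))))))))))) (branch (move 560 (branch (move 559 (branch (move 524 (leaf 524 3)) (move 561 (leaf 525 3)))) (move 624 (branch (move 653 (branch (move 652 (leaf 620 1)) (move 625 (branch (move 654 (leaf 621 1)) (move 657 (branch (move 656 (leaf 621 0)) (move 658 (leaf 622 0)))))))) (branch (move 592 (branch (move 593 (leaf 589 2)) (move 655 (branch (move 528 (leaf 527 5)) (move 687 (branch (move 656 (leaf 559 5)) (move 719 (leaf 591 6)))))))) (move 592 (branch (move 593 (leaf 589 2)) (move 528 (branch (move 655 (leaf 527 5)) (move 625 (branch (move 657 (leaf 528 4)) (move 653 (branch (move 652 (leaf 620 1)) (move 654 (leaf 621 1))))))))))))))) (branch (move 559 (branch (move 624 (branch (move 653 (branch (move 652 (leaf 620 1)) (move 625 (branch (move 654 (leaf 621 1)) (move 657 (branch (move 656 (leaf 621 0)) (move 658 (leaf 622 0)))))))) (move 524 (branch (move 523 (leaf 523 0)) (move 592 (branch (move 593 (leaf 589 2)) (move 556 (branch (move 591 (leaf 556 0)) (move 555 (branch (move 554 (leaf 522 2)) (move 587 (branch (move 586 (leaf 554 1)) (move 588 (leaf 555 1)))))))))))))) (branch (move 524 (branch (move 523 (leaf 523 0)) (move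 560 (leaf 524 3)))) (move 560 (branch (move 561 (leaf 525 3)) (move 592 (branch (move 593 (leaf 557 0)) (move 528 (branch (move 529 (leaf 525 2)) (move 591 (branch (move 556 (leaf 556 0)) (move 496 (leaf 495 5))))))))))))) (branch (ref 0) (branch (move 559 (branch (move 524 (branch (move 523 (leaf 523 0)) (move 560 (leaf 524 3)))) (move 591 (branch (move 655 (leaf 526 7)) (move 556 (branch (move 592 (leaf 556 0)) (move 555 (branch (move 554 (leaf 522 2)) (move 587 (branch (move 586 (leaf 554 1)) (move 588 (leaf 555 1)))))))))))) (move 624 (branch (move 657 (branch (move 656 (leaf 621 0)) (move 625 (branch (move 658 (leaf 622 0)) (move 593 (branch (move 592 (leaf 589 2)) (move 594 (leaf 590 2)))))))) (branch (move 653 (branch (move 652 (leaf 620 1)) (move 625 (branch (move 654 (leaf 621 1)) (move 593 (branch (move 592 (leaf 589 2)) (move 594 (leaf 590 2)))))))) (branch (move 653 (branch (move 652 (leaf 620 1)) (move 625 (branch (move 654 (leaf 621 1)) (move 657 (branch (move 656 (leaf 621 0)) (move 658 (leaf 622 0)))))))) (move 656 (branch (move 657 (leaf 621 0)) (move 688 (branch (move 592 (branch (move 593 (leaf 589 2)) (move 720 (branch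 (move 591 (leaf 591 7)) (move 719 (branch (move 687 (leaf 591 5)) (move 751 (leaf 623 5)))))))) (branch (move 592 (branch (move 593 (leaf 589 2)) (move 720 (branch (move 591 (leaf 591 7)) (move 721 (branch (move 689 (leaf 592 4)) (move 753 (leaf 624 4)))))))) (branch (ref 1) (move 592 (branch (move 593 (leaf 589 2)) (move 559 (branch (move 591 (leaf 559 7)) (move 524 (branch (move 523 (leaf 523 0)) (move 687 (branch (move 719 (leaf 591 5)) (move 689 (branch (move 721 (leaf 592 4)) (move 653 (branch (move 652 (leaf 620 1)) (move 654 (branch (move 655 (leaf 653 0)) (move 686 (leaf 653 3))))))))))))))))))))))))))))))))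
theorem a6p745 : a6e745.Valid :=
  pos_of_chk [a6e744, a6e743] (forall_cons a6p744 (forall_cons a6p743 forall_nil)) a6c745 a6e745 (by decide +kernel)

def a6e746 : Pos := ⟨8702164874309912146345449085793234284944905875029423102149445092360509979808159167281481744051478508734467786746167573215238815143548620194690625754115419835444668288657896874957879640064, 254364564336566038007923374113330735393069811768697789638943033088951251866819756429716753549539257623220995298412742434763653564591845214000698963966173026838325450322187712577406270853503505437383554347485007320824004415329659571404800, 14⟩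
def a6c746 : Cert := (move 622 (branch (move 590 (branch (move 653 (leaf 525 5)) (move 654 (leaf 525 7)))) (branch (move 559 (branch (move 560 (branch (move 561 (leaf 525 3)) (move 592 (branch (move 593 (leaf 557 0)) (move 556 (branch (move 591 (leaf 556 0)) (move 555 (branch (move 554 (leaf 522 2)) (move 587 (branch (move 586 (leaf 554 1)) (move 588 (leaf 555 1)))))))))))) (branch (move 524 (branch (move 523 (leaf 523 0)) (move 560 (leaf 524 3)))) (move 556 (branch (move 555 (branch (move 554 (leaf 522 2)) (move 587 (branch (move 586 (leaf 554 1)) (move 588 (leaf 555 1)))))) (branch (move 523 (branch (move 524 (leaf 523 0)) (move 591 (branch (move 592 (leaf 556 0)) (move 590 (branch (move 555 (leaf 555 0)) (move 654 (leaf 525 7)))))))) (move 587 (branch (move 588 (leaf 555 1)) (move 623 (branch (move 591 (branch (move 592 (leaf 556 0)) (move 655 (leaf 526 7)))) (branch (move 524 (branch (move 523 (leaf 523 0)) (move 590 (branch (move 655 (leaf 526 4)) (move 654 (leaf 525 7)))))) (move 524 (branch (move 523 (leaf 523 0)) (move 624 (branch (move 657 (branch (move 656 (leaf 621 0)) (move 625 (branch (move 658 (leaf 622 0)) (move 593 (branch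 (move 592 (leaf 589 2)) (move 594 (leaf 590 2)))))))) (branch (move 657 (branch (move 656 (leaf 621 0)) (move 625 (branch (move 658 (leaf 622 0)) (move 594 (branch (move 593 (leaf 590 2)) (move 626 (branch (move 595 (leaf 591 2)) (move 590 (branch (move 591 (leaf 590 3)) (move 654 (leaf 525 7)))))))))))) (branch (move 657 (branch (move 656 (leaf 621 0)) (move 625 (branch (move 658 (leaf 622 0)) (move 591 (branch (move 592 (leaf 556 0)) (move 590 (branch (move 626 (leaf 590 3)) (move 654 (leaf 525 7)))))))))) (move 592 (branch (move 591 (leaf 556 0)) (move 593 (leaf 589 2))))))))))))))))))))) (branch (move 559 (branch (move 560 (branch (move 561 (leaf 525 3)) (move 592 (branch (move 593 (leaf 557 0)) (move 556 (branch (move 591 (leaf 556 0)) (move 555 (branch (move 554 (leaf 522 2)) (move 587 (branch (move 586 (leaf 554 1)) (move 588 (leaf 555 1)))))))))))) (branch (move 524 (branch (move 523 (leaf 523 0)) (move 560 (leaf 524 3)))) (move 623 (branch (move 591 (branch (move 655 (leaf 526 7)) (move 592 (branch (move 556 (leaf 556 0)) (move 593 (branch (move 594 (leaf 590 1)) (move 624 (leaf 589 2)))))))) (branch (move 590 (branch (move 655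 (leaf 526 4)) (move 653 (leaf 525 5)))) (move 524 (branch (move 523 (leaf 523 0)) (move 653 (branch (move 590 (leaf 525 5)) (move 624 (branch (move 652 (leaf 620 1)) (move 592 (branch (move 593 (leaf 589 2)) (move 556 (branch (move 591 (leaf 556 0)) (move 555 (branch (move 554 (leaf 522 2)) (move 587 (branch (move 586 (leaf 554 1)) (move 588 (leaf 555 1)))))))))))))))))))))) (ref 0)))))
theorem a6p746 : a6e746.Valid :=
  pos_of_chk [a6e745] (forall_cons a6p745 forall_nil) a6c746 a6e746 (by decide +kernel)

def a6e747 : Pos := ⟨8702164874309912145401958479587848946884517229782355879420214787256399872714107592220075703453441295712936105451752881329871721385857658969747979596634221677304309725799722864045530808320, 254364564336566038008181920313223838525836598099266156418054024329751051205016737701139174802067977487038601255941765728033742531225327829064798759576977036215401797824342230214145316935250650633048689298051114765765865850951721180725248, 16⟩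
def a6c747 : Cert := (move 558 (branch (move 622 (branch (move 590 (branch (move 653 (leaf 525 5)) (ref 0))) (branch (move 590 (branch (move 654 (leaf 525 7)) (ref 0))) (branch (move 590 (branch (move 653 (leaf 525 5)) (move 654 (leaf 525 7)))) (ref 1))))) (branch (move 556 (branch (move 555 (branch (move 554 (leaf 522 2)) (move 590 (branch (move 591 (leaf 555 0)) (move 622 (branch (move 653 (leaf 525 5)) (move 654 (leaf 525 7)))))))) (branch (move 555 (branch (move 554 (leaf 522 2)) (move 587 (branch (move 586 (leaf 554 1)) (move 559 (branch (move 588 (leaf 555 1)) (move 560 (branch (move 524 (leaf 524 3)) (move 561 (leaf 525 3)))))))))) (move 559 (branch (move 560 (branch (move 561 (leaf 525 3)) (move 592 (branch (move 591 (leaf 556 0)) (move 593 (leaf 557 0)))))) (branch (move 588 (branch (move 587 (leaf 555 1)) (move 620 (branch (move 652 (leaf 524 6)) (move 653 (branch (move 524 (leaf 524 4)) (move 622 (branch (move 590 (leaf 525 5)) (move 591 (branch (move 592 (leaf 556 0)) (move 655 (branch (move 623 (leaf 526 7)) (move 654 (branch (move 619 (leaf 619 0)) (move 656 (leaf 620 3)))))))))))))))) (move 560 (branch (move 524 (leaf 524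 3)) (move 561 (leaf 525 3)))))))))) (branch (move 622 (branch (move 590 (branch (move 653 (leaf 525 5)) (move 654 (leaf 525 7)))) (branch (move 590 (branch (move 653 (leaf 525 5)) (ref 2))) (branch (move 590 (branch (move 654 (leaf 525 7)) (ref 2))) (ref 3))))) (branch (move 556 (branch (move 559 (branch (move 560 (branch (move 561 (leaf 525 3)) (move 592 (branch (move 591 (leaf 556 0)) (move 593 (leaf 557 0)))))) (move 524 (branch (move 523 (leaf 523 0)) (move 588 (branch (move 587 (leaf 555 1)) (move 620 (branch (move 653 (leaf 524 4)) (move 652 (leaf 524 6)))))))))) (branch (move 555 (branch (move 554 (leaf 522 2)) (move 587 (branch (move 586 (leaf 554 1)) (move 559 (branch (move 588 (leaf 555 1)) (move 560 (branch (move 561 (leaf 525 3)) (move 592 (branch (move 591 (leaf 556 0)) (move 593 (leaf 557 0)))))))))))) (branch (ref 4) (move 555 (branch (move 554 (leaf 522 2)) (move 523 (branch (move 522 (leaf 522 3)) (move 559 (branch (move 524 (leaf 523 0)) (move 560 (branch (move 561 (leaf 525 3)) (move 592 (branch (move 591 (leaf 556 0)) (move 593 (leaf 557 0)))))))))))))))) (branch (move 622 (branch (move 590 (branch (move 653 (leaf 525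 5)) (ref 0))) (branch (move 590 (branch (move 654 (leaf 525 7)) (ref 0))) (branch (move 590 (branch (move 653 (leaf 525 5)) (move 654 (leaf 525 7)))) (ref 5))))) (branch (ref 6) (branch (move 556 (branch (move 555 (branch (move 554 (leaf 522 2)) (move 587 (branch (move 586 (leaf 554 1)) (move 588 (branch (move 559 (leaf 555 1)) (move 620 (branch (move 652 (leaf 524 6)) (move 523 (branch (move 522 (leaf 522 3)) (move 491 (leaf 491 4)))))))))))) (branch (ref 4) (branch (move 555 (branch (move 554 (leaf 522 2)) (move 587 (branch (move 586 (leaf 554 1)) (move 559 (branch (move 588 (leaf 555 1)) (move 560 (branch (move 524 (leaf 524 3)) (move 561 (leaf 525 3)))))))))) (branch (move 555 (branch (move 554 (leaf 522 2)) (move 523 (branch (move 522 (leaf 522 3)) (move 524 (branch (move 559 (leaf 523 0)) (move 587 (branch (move 586 (leaf 554 1)) (move 492 (branch (move 460 (leaf 459 5)) (move 619 (leaf 491 6)))))))))))) (branch (move 555 (branch (move 554 (leaf 522 2)) (move 523 (branch (move 522 (leaf 522 3)) (move 524 (branch (move 559 (leaf 523 0)) (move 491 (branch (move 490 (leaf 490 3)) (move 588 (branch (move 459 (leaf 459 4)) (move 620 (leaf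 491 7)))))))))))) (move 588 (branch (move 620 (branch (move 652 (leaf 524 6)) (move 524 (branch (move 653 (leaf 524 4)) (move 523 (branch (move 522 (leaf 522 0)) (move 491 (leaf 491 7)))))))) (branch (move 559 (branch (move 587 (leaf 555 1)) (move 524 (branch (move 523 (leaf 523 0)) (move 560 (leaf 524 3)))))) (move 620 (branch (move 652 (leaf 524 6)) (move 587 (branch (move 559 (leaf 555 1)) (move 586 (branch (move 585 (leaf 585 0)) (move 622 (branch (move 619 (leaf 586 3)) (move 623 (leaf 587 3))))))))))))))))))) (branch (move 556 (branch (move 555 (branch (move 554 (leaf 522 2)) (move 590 (branch (move 591 (leaf 555 0)) (move 622 (branch (move 653 (leaf 525 5)) (move 654 (leaf 525 7)))))))) (branch (move 555 (branch (move 554 (leaf 522 2)) (move 587 (branch (move 586 (leaf 554 1)) (move 588 (branch (move 559 (leaf 555 1)) (move 620 (branch (move 652 (leaf 524 6)) (move 523 (branch (move 522 (leaf 522 3)) (move 491 (leaf 491 4)))))))))))) (ref 7)))) (branch (move 559 (branch (move 623 (branch (move 655 (branch (move 591 (leaf 526 7)) (move 622 (branch (move 590 (leaf 526 4)) (move 656 (branch (move 620 (leaf 620 0)) (move 657 (branch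 (move 624 (leaf 621 0)) (move 654 (leaf 621 3)))))))))) (branch (move 560 (branch (move 561 (leaf 525 3)) (move 592 (branch (move 593 (leaf 557 0)) (move 528 (branch (move 529 (leaf 525 2)) (move 496 (branch (move 591 (leaf 495 5)) (move 463 (branch (move 495 (leaf 463 7)) (move 464 (branch (move 431 (leaf 431 7)) (move 465 (branch (move 433 (leaf 432 6)) (move 497 (leaf 464 6)))))))))))))))) (move 560 (branch (move 561 (leaf 525 3)) (move 592 (branch (move 593 (leaf 557 0)) (move 528 (branch (move 529 (leaf 525 2)) (move 624 (branch (move 655 (leaf 527 5)) (move 657 (branch (move 625 (leaf 528 4)) (move 656 (branch (move 622 (leaf 621 0)) (move 689 (leaf 560 4))))))))))))))))) (branch (move 524 (branch (move 523 (leaf 523 0)) (move 560 (leaf 524 3)))) (ref 8)))) (branch (move 556 (branch (move 555 (branch (move 554 (leaf 522 2)) (move 590 (branch (move 591 (leaf 555 0)) (move 622 (branch (move 653 (leaf 525 5)) (move 654 (leaf 525 7)))))))) (branch (move 555 (branch (move 554 (leaf 522 2)) (move 587 (branch (move 586 (leaf 554 1)) (move 559 (branch (move 588 (leaf 555 1)) (move 560 (branch (move 524 (leaf 524 3)) (move 561 (leaf 525 3))))))))))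 (move 559 (branch (move 560 (branch (move 561 (leaf 525 3)) (move 592 (branch (move 591 (leaf 556 0)) (move 593 (leaf 557 0)))))) (branch (move 524 (branch (move 523 (leaf 523 0)) (move 560 (leaf 524 3)))) (move 524 (branch (move 523 (leaf 523 0)) (move 588 (branch (move 587 (leaf 555 1)) (move 591 (branch (move 592 (leaf 556 0)) (move 620 (branch (move 653 (leaf 524 4)) (move 619 (branch (move 651 (leaf 523 5)) (move 622 (branch (move 590 (leaf 587 2)) (move 655 (branch (move 654 (leaf 619 0)) (move 623 (leaf 526 7)))))))))))))))))))))) (ref 9))))))))))))
theorem a6p747 : a6e747.Valid :=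
  pos_of_chk [a6e731, a6e734, a6e735, a6e737, a6e738, a6e739, a6e740, a6e741, a6e742, a6e746] (forall_cons a6p731 (forall_cons a6p734 (forall_cons a6p735 (forall_cons a6p737 (forall_cons a6p738 (forall_cons a6p739 (forall_cons a6p740 (forall_cons a6p741 (forall_cons a6p742 (forall_cons a6p746 forall_nil)))))))))) a6c747 a6e747 (by decide +kernel)

def a6e748 : Pos := ⟨471745303432202956716463588942664849720522026980987947953904447181637266339924679313853331149090208694433365517755703559262404264522454503056578184432640363429697159168, 254364564336566038008181920313223838525836598099274858582930360372544849090535916983781536604657213854974150522826499351159362811175502628258191694271574645037441084349201802373928164226272344084508223285532061060243456217928803115073536, 17⟩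
def a6c748 : Cert := (move 621 (branch (move 589 (branch (move 652 (branch (move 620 (leaf 524 5)) (move 653 (branch (move 684 (leaf 556 5)) (move 654 (branch (move 622 (leaf 525 4)) (move 686 (leaf 557 4)))))))) (branch (move 524 (branch (move 492 (leaf 492 7)) (move 653 (branch (move 556 (leaf 524 7)) (move 654 (branch (move 622 (leaf 525 4)) (move 686 (leaf 557 4)))))))) (branch (move 524 (branch (move 492 (leaf 492 7)) (move 653 (branch (move 556 (leaf 524 7)) (move 652 (branch (move 620 (leaf 524 5)) (move 684 (leaf 556 5)))))))) (ref 0))))) (branch (move 589 (branch (move 652 (branch (move 620 (leaf 524 5)) (move 653 (branch (move 684 (leaf 556 5)) (move 654 (branch (move 622 (leaf 525 4)) (move 686 (leaf 557 4)))))))) (branch (move 653 (branch (move 558 (leaf 525 6)) (move 652 (branch (move 620 (leaf 524 5)) (move 684 (leaf 556 5)))))) (branch (move 653 (branch (move 558 (leaf 525 6)) (move 654 (branch (move 622 (leaf 525 4)) (move 686 (leaf 557 4)))))) (move 622 (branch (move 654 (leaf 525 4)) (move 620 (branch (move 652 (leaf 524 5)) (move 623 (branch (move 591 (branch (move 592 (leaf 588 2)) (move 590 (branch (move 619 (leaf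 587 2)) (move 655 (branch (move 656 (leaf 620 0)) (move 558 (leaf 526 4)))))))) (move 588 (branch (move 587 (leaf 587 3)) (move 624 (leaf 588 3)))))))))))))) (branch (move 589 (branch (move 622 (branch (move 654 (leaf 525 4)) (move 620 (branch (move 652 (leaf 524 5)) (move 623 (branch (move 591 (branch (move 592 (leaf 588 2)) (move 590 (branch (move 619 (leaf 587 2)) (move 655 (branch (move 656 (leaf 620 0)) (move 558 (leaf 526 4)))))))) (move 588 (branch (move 587 (leaf 587 3)) (move 624 (leaf 588 3)))))))))) (branch (ref 1) (branch (ref 2) (branch (ref 3) (branch (move 524 (branch (move 492 (leaf 492 7)) (move 523 (branch (move 554 (branch (move 555 (leaf 522 1)) (move 522 (branch (move 553 (leaf 521 1)) (move 490 (branch (move 489 (leaf 489 3)) (move 491 (leaf 490 3)))))))) (branch (move 558 (branch (move 522 (leaf 522 0)) (move 559 (leaf 523 0)))) (move 558 (branch (move 559 (leaf 523 0)) (move 555 (branch (move 554 (leaf 522 1)) (move 620 (branch (move 652 (leaf 524 5)) (move 491 (branch (move 490 (leaf 490 3)) (move 588 (branch (move 587 (leaf 491 4)) (move 556 (leaf 491 7))))))))))))))))) (move 524 (branch (move 492 (leaf 492 7))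 (ref 4))))))))) (branch (ref 5) (branch (move 524 (branch (move 589 (branch (move 492 (leaf 492 7)) (move 653 (branch (move 558 (leaf 525 6)) (move 654 (branch (move 622 (leaf 525 4)) (move 686 (leaf 557 4)))))))) (branch (move 589 (branch (move 492 (leaf 492 7)) (move 653 (branch (move 558 (leaf 525 6)) (move 556 (leaf 524 7)))))) (branch (move 589 (branch (move 492 (leaf 492 7)) (move 653 (branch (move 556 (leaf 524 7)) (move 654 (branch (move 622 (leaf 525 4)) (move 686 (leaf 557 4)))))))) (branch (move 589 (branch (move 492 (leaf 492 7)) (ref 4))) (move 523 (branch (move 554 (branch (move 555 (leaf 522 1)) (move 522 (branch (move 553 (leaf 521 1)) (move 521 (branch (move 556 (leaf 521 0)) (move 489 (branch (move 488 (leaf 488 3)) (move 490 (leaf 489 3)))))))))) (branch (move 558 (branch (move 522 (leaf 522 0)) (move 559 (leaf 523 0)))) (move 558 (branch (move 559 (leaf 523 0)) (move 590 (branch (move 622 (branch (move 653 (leaf 525 5)) (move 654 (leaf 525 7)))) (move 555 (branch (move 554 (leaf 522 1)) (move 491 (branch (move 490 (leaf 490 3)) (move 556 (branch (move 591 (leaf 555 0)) (move 459 (branch (move 427 (leaf 427 4)) (move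 588 (leaf 459 4)))))))))))))))))))))) (branch (move 589 (branch (move 652 (branch (move 620 (leaf 524 5)) (move 653 (branch (move 684 (leaf 556 5)) (move 654 (branch (move 622 (leaf 525 4)) (move 686 (leaf 557 4)))))))) (branch (move 524 (branch (move 492 (leaf 492 7)) (move 653 (branch (move 556 (leaf 524 7)) (move 654 (branch (move 622 (leaf 525 4)) (move 686 (leaf 557 4)))))))) (branch (move 524 (branch (move 492 (leaf 492 7)) (move 653 (branch (move 556 (leaf 524 7)) (move 652 (branch (move 620 (leaf 524 5)) (move 684 (leaf 556 5)))))))) (ref 2))))) (branch (move 589 (branch (move 652 (branch (move 620 (leaf 524 5)) (move 653 (branch (move 684 (leaf 556 5)) (move 654 (branch (move 622 (leaf 525 4)) (move 686 (leaf 557 4)))))))) (branch (move 524 (branch (move 492 (leaf 492 7)) (move 653 (branch (move 556 (leaf 524 7)) (move 654 (branch (move 622 (leaf 525 4)) (move 686 (leaf 557 4)))))))) (branch (move 524 (branch (move 492 (leaf 492 7)) (move 653 (branch (move 556 (leaf 524 7)) (move 652 (branch (move 620 (leaf 524 5)) (move 684 (leaf 556 5)))))))) (ref 3))))) (ref 6)))))))))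
theorem a6p748 : a6e748.Valid :=
  pos_of_chk [a6e725, a6e726, a6e727, a6e728, a6e729, a6e730, a6e747] (forall_cons a6p725 (forall_cons a6p726 (forall_cons a6p727 (forall_cons a6p728 (forall_cons a6p729 (forall_cons a6p730 (forall_cons a6p747 forall_nil))))))) a6c748 a6e748 (by decide +kernel)

def a6e749 : Pos := ⟨471745303432202956742036953066853458080000071487453566330596963166348710007762893127104376433501728654458913114051829787003706484269017557816088001197369996658826280960, 93438783883439274930666547742901812156888556736485578198670373188964099572898688525997815068623927991133919521270838940595605179306808918182866976438812990768203243837722920828661271607214543470592, 13⟩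
def a6c749 : Cert := (move 589 (branch (move 620 (branch (move 588 (leaf 492 5)) (move 621 (branch (move 652 (leaf 524 5)) (move 622 (branch (move 590 (leaf 493 4)) (move 654 (leaf 525 4)))))))) (branch (move 492 (branch (move 460 (leaf 460 7)) (move 621 (branch (move 524 (leaf 492 7)) (move 622 (branch (move 590 (leaf 493 4)) (move 654 (leaf 525 4)))))))) (branch (move 492 (branch (move 460 (leaf 460 7)) (move 621 (branch (move 524 (leaf 492 7)) (move 620 (branch (move 588 (leaf 492 5)) (move 652 (leaf 524 5)))))))) (move 588 (branch (move 620 (leaf 492 5)) (move 587 (branch (move 492 (branch (move 460 (leaf 460 7)) (move 586 (branch (move 617 (branch (move 618 (leaf 585 1)) (move 585 (branch (move 616 (leaf 584 1)) (move 490 (branch (move 491 (leaf 490 0)) (move 553 (branch (move 552 (leaf 552 3)) (move 521 (branch (move 522 (leaf 489 6)) (move 489 (branch (move 458 (leaf 457 6)) (move 488 (branch (move 456 (leaf 456 7)) (move 520 (leaf 488 7)))))))))))))))) (branch (move 553 (branch (move 554 (leaf 553 3)) (move 585 (branch (move 552 (leaf 552 3)) (move 617 (branch (move 616 (leaf 584 1)) (move 618 (leaf 585 1)))))))) (branch (move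 490 (branch (move 491 (leaf 490 0)) (move 554 (branch (move 553 (leaf 553 3)) (move 522 (branch (move 619 (leaf 490 4)) (move 458 (branch (move 555 (leaf 458 4)) (move 457 (branch (move 425 (leaf 425 7)) (move 489 (leaf 457 7)))))))))))) (move 491 (branch (move 490 (leaf 490 0)) (move 618 (branch (move 617 (leaf 585 1)) (move 523 (branch (move 555 (leaf 490 5)) (move 522 (branch (move 554 (leaf 490 6)) (move 521 (branch (move 520 (leaf 488 2)) (move 524 (leaf 489 2)))))))))))))))))) (branch (move 590 (branch (move 622 (leaf 493 4)) (move 492 (branch (move 460 (leaf 460 7)) (move 490 (branch (move 491 (leaf 490 0)) (move 555 (branch (move 554 (leaf 554 3)) (move 619 (branch (move 618 (leaf 586 1)) (move 523 (branch (move 524 (leaf 491 6)) (move 522 (leaf 490 7)))))))))))))) (move 590 (branch (move 622 (leaf 493 4)) (move 558 (branch (move 586 (leaf 554 2)) (move 559 (leaf 555 2)))))))))))))))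
theorem a6p749 : a6e749.Valid :=
  pos_of_chk [] forall_nil a6c749 a6e749 (by decide +kernel)

def a6e750 : Pos := ⟨471745303432202956742036953066853458080000071487453566330596963166348710007762893127104376433501728654458913114051829787003706484269017557816088001197369996658826280960, 4052261312005640105878527811026255289700651875080057177373100209915669307535755736865109348703015210684165503582393675392600327973777105300154514801232193036593292802175864406016, 12⟩
def a6c750 : Cert := (move 461 (branch (move 428 (branch (move 460 (leaf 428 7)) (move 429 (branch (move 396 (leaf 396 7)) (move 430 (branch (move 398 (leaf 397 6)) (move 462 (leaf 429 6)))))))) (branch (move 558 (branch (move 429 (leaf 429 4)) (move 590 (leaf 461 4)))) (move 462 (branch (move 430 (leaf 429 6)) (move 463 (branch (move 460 (branch (move 428 (leaf 428 7)) (move 496 (branch (move 495 (leaf 460 0)) (move 464 (branch (move 497 (leaf 461 0)) (move 432 (branch (move 431 (leaf 428 2)) (move 433 (leaf 429 2)))))))))) (branch (move 464 (branch (move 492 (leaf 460 1)) (move 558 (branch (move 590 (leaf 461 4)) (move 496 (branch (move 497 (leaf 461 0)) (move 433 (branch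 (move 432 (leaf 429 2)) (move 465 (branch (move 434 (leaf 430 2)) (move 560 (branch (move 528 (leaf 432 6)) (move 559 (branch (move 524 (leaf 524 3)) (move 561 (leaf 525 3)))))))))))))))) (move 460 (branch (move 428 (leaf 428 7)) (move 491 (branch (move 492 (leaf 459 1)) (move 558 (branch (move 590 (leaf 461 4)) (move 459 (branch (move 490 (leaf 458 1)) (move 426 (branch (move 427 (leaf 426 3)) (move 458 (branch (move 425 (leaf 425 3)) (move 523 (branch (move 555 (leaf 426 7)) (move 524 (branch (move 522 (leaf 522 0)) (move 559 (leaf 523 0))))))))))))))))))))))))))
theorem a6p750 : a6e750.Valid :=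
  pos_of_chk [] forall_nil a6c750 a6e750 (by decide +kernel)

def a6e751 : Pos := ⟨471745303432202956742036953066853458080000071487453566330596963166348710007762893127104376433501728654458913114051829787003706484269017557816088001197369996658826280960, 321053216778053891366735482278261413882108480210585775058455664473898248675043546526447924497303761823977250059838191656362321244779083506287299013655063136252570418599806107646116484753344895277936578396160, 6⟩
def a6c751 : Cert := (move 589 (branch (move 492 (branch (move 460 (leaf 460 7)) (move 621 (branch (move 524 (leaf 492 7)) (move 620 (branch (move 588 (leaf 492 5)) (move 652 (leaf 524 5)))))))) (branch (move 620 (branch (move 588 (leaf 492 5)) (move 621 (branch (move 652 (leaf 524 5)) (move 653 (branch (move 558 (leaf 525 6)) (move 654 (branch (move 622 (leaf 525 4)) (move 686 (leaf 557 4)))))))))) (move 460 (branch (move 492 (leaf 460 7)) (move 461 (branch (move 428 (leaf 428 7)) (move 429 (branch (move 558 (leaf 429 4)) (move 430 (branch (move 398 (leaf 397 6)) (move 462 (leaf 429 6)))))))))))))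
theorem a6p751 : a6e751.Valid :=
  pos_of_chk [] forall_nil a6c751 a6e751 (by decide +kernel)

def a6e752 : Pos := ⟨471745303432202956742036953066853458080000071487453566330596963166348710007762893127104376433501728654458913114051829787003706484269017557816088001197369996658826280960, 321053216778053891366735482282313675179843824896578129981547732475651891188145411143608706707357677690642010236997502307218066129441517344295394946562813257846025785024408479254508422972072367538125676740608, 7⟩
def a6c752 : Cert := (move 589 (branch (move 620 (branch (move 588 (leaf 492 5)) (move 621 (branch (move 652 (leaf 524 5)) (move 622 (branch (move 590 (leaf 493 4)) (move 654 (leaf 525 4)))))))) (branch (move 620 (branch (move 588 (leaf 492 5)) (move 621 (branch (move 652 (leaf 524 5)) (move 653 (branch (move 558 (leaf 525 6)) (move 654 (branch (move 622 (leaf 525 4)) (move 686 (leaf 557 4)))))))))) (branch (move 620 (branch (move 588 (leaf 492 5)) (move 621 (branch (move 652 (leaf 524 5)) (move 558 (branch (move 653 (leaf 525 6)) (move 461 (branch (move 429 (leaf 429 4)) (move 590 (leaf 461 4)))))))))) (move 590 (branch (move 622 (leaf 493 4)) (move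 461 (branch (move 558 (leaf 461 4)) (move 430 (branch (move 462 (leaf 429 6)) (move 429 (branch (move 398 (leaf 397 6)) (move 428 (branch (move 396 (leaf 396 7)) (move 460 (leaf 428 7))))))))))))))))
theorem a6p752 : a6e752.Valid :=
  pos_of_chk [] forall_nil a6c752 a6e752 (by decide +kernel)

def a6e753 : Pos := ⟨471745303432202956742036953066853458080000071487453566330596963166348710007762893127104376433501728654458913114051829787003706484269017557816088001197369996658826280960, 321053216778053891366735482282820207847721686619648728744892655790953234984171750697000926398343385071405704123457256438398566645555936277911938543780429862507212201149991593024357492781143612581686521364480, 7⟩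
def a6c753 : Cert := (move 589 (branch (move 620 (branch (move 588 (leaf 492 5)) (move 621 (branch (move 652 (leaf 524 5)) (move 622 (branch (move 590 (leaf 493 4)) (move 654 (leaf 525 4)))))))) (branch (move 620 (branch (move 588 (leaf 492 5)) (move 621 (branch (move 652 (leaf 524 5)) (move 653 (branch (move 558 (leaf 525 6)) (move 654 (branch (move 622 (leaf 525 4)) (move 686 (leaf 557 4)))))))))) (branch (move 620 (branch (move 588 (leaf 492 5)) (move 621 (branch (move 652 (leaf 524 5)) (move 558 (branch (move 653 (leaf 525 6)) (move 461 (branch (move 429 (leaf 429 4)) (move 590 (leaf 461 4)))))))))) (branch (move 590 (branch (move 622 (leaf 493 4)) (move 558 (branch (move 461 (leaf 461 4)) (move 621 (branch (move 653 (leaf 525 6)) (move 524 (branch (move 492 (leaf 492 7)) (move 559 (branch (move 523 (leaf 523 0)) (move 560 (leaf 524 3)))))))))))) (move 590 (branch (move 622 (leaf 493 4)) (move 558 (branch (move 461 (leaf 461 4)) (move 588 (branch (move 620 (leaf 492 5)) (move 559 (branch (move 560 (leaf 556 1)) (move 587 (leaf 555 2)))))))))))))))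
theorem a6p753 : a6e753.Valid :=
  pos_of_chk [] forall_nil a6c753 a6e753 (by decide +kernel)

def a6e754 : Pos := ⟨3039195973832221980855494518673022596608583481436007076673700090481842546709105893167907262088130165988784593360193450474005151518994631847066081123971678567117634705118627627008, 50164565117482973749115462660031852895071440658098001228183548922544809567983266043884080099449935402049869778430010242727913207496229525747274076682869829128334022164453137147620660122514598103178893328384, 11⟩
def a6c754 : Cert := (move 586 (branch (move 587 (branch (move 553 (leaf 553 3)) (move 618 (branch (move 617 (leaf 585 1)) (move 590 (branch (move 619 (leaf 586 1)) (move 622 (leaf 493 4)))))))) (branch (move 618 (branch (move 491 (branch (move 490 (leaf 490 0)) (move 522 (branch (move 523 (leaf 490 6)) (move 590 (branch (move 622 (leaf 493 4)) (move 619 (branch (move 587 (leaf 586 1)) (move 651 (leaf 522 4)))))))))) (branch (move 617 (branch (move 587 (leaf 585 1)) (move 649 (branch (move 522 (leaf 521 5)) (move 681 (branch (move 650 (leaf 553 5)) (move 585 (leaf 553 6)))))))) (branch (move 491 (branch (move 490 (leaf 490 0)) (move 522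 (branch (move 523 (leaf 490 6)) (move 649 (branch (move 617 (leaf 521 5)) (move 650 (branch (move 681 (leaf 553 5)) (move 651 (branch (move 619 (leaf 522 4)) (move 683 (leaf 554 4)))))))))))) (move 587 (branch (move 617 (leaf 585 1)) (move 590 (branch (move 619 (leaf 586 1)) (move 622 (leaf 493 4)))))))))) (branch (move 490 (branch (move 491 (leaf 490 0)) (move 522 (branch (move 585 (branch (move 617 (leaf 489 5)) (move 458 (branch (move 553 (leaf 457 5)) (move 427 (branch (move 459 (leaf 426 6)) (move 426 (branch (move 395 (leaf 394 6)) (move 425 (branch (move 393 (leaf 393 7)) (move 457 (leaf 425 7)))))))))))) (branch (move 489 (branch (move 457 (leaf 457 7)) (move 523 (branch (move 524 (leaf 489 3)) (move 618 (branch (move 521 (leaf 489 7)) (move 651 (branch (move 619 (leaf 522 4)) (move 650 (branch (move 683 (leaf 554 4)) (move 649 (branch (move 617 (leaf 521 5)) (move 681 (leaf 553 5)))))))))))))) (branch (move 617 (branch (move 585 (leaf 489 5)) (move 618 (branch (move 649 (leaf 521 5)) (move 521 (branch (move 489 (leaf 489 7)) (move 650 (branch (move 553 (leaf 521 7)) (move 651 (branch (move 619 (leaf 522 4)) (move 683 (leaf 554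 4)))))))))))) (move 457 (branch (move 489 (leaf 457 7)) (move 458 (branch (move 425 (leaf 425 7)) (move 553 (branch (move 585 (leaf 457 5)) (move 523 (branch (move 524 (leaf 521 1)) (move 426 (branch (move 521 (leaf 425 5)) (move 427 (branch (move 395 (leaf 394 6)) (move 459 (leaf 426 6)))))))))))))))))))) (branch (move 490 (branch (move 491 (leaf 490 0)) (move 587 (branch (move 553 (leaf 553 3)) (move 590 (branch (move 622 (leaf 493 4)) (move 619 (branch (move 618 (leaf 586 1)) (move 522 (leaf 490 4)))))))))) (move 553 (branch (move 587 (leaf 553 3)) (move 490 (branch (move 491 (leaf 490 0)) (move 522 (branch (move 523 (branch (move 524 (leaf 521 1)) (move 457 (branch (move 489 (leaf 457 7)) (move 458 (branch (move 425 (leaf 425 7)) (move 426 (branch (move 521 (leaf 425 5)) (move 427 (branch (move 395 (leaf 394 6)) (move 459 (leaf 426 6)))))))))))) (branch (move 523 (branch (move 524 (leaf 521 1)) (move 585 (branch (move 617 (leaf 489 5)) (move 489 (branch (move 457 (leaf 457 7)) (move 552 (branch (move 551 (leaf 519 2)) (move 488 (branch (move 487 (leaf 487 0)) (move 456 (branch (move 520 (leaf 456 4)) (move 521 (leaf 456 7))))))))))))))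 (move 585 (branch (move 458 (leaf 457 5)) (move 617 (leaf 489 5))))))))))))))))
theorem a6p754 : a6e754.Valid :=
  pos_of_chk [] forall_nil a6c754 a6e754 (by decide +kernel)

def a6e755 : Pos := ⟨2026130649339417646455839608934986733834649469917127464063458121843611031239057765866994850620807400988285852976383126582018212148044612396323155660410796832770212674100969603072, 50164565117482973753466545098199874292147287906351152300263160186415312417101001637501753514055097734889063100643536258773871663137130820694371323413751308613300540724095915035038732559639143408513518141440, 14⟩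
def a6c755 : Cert := (move 588 (branch (move 620 (leaf 492 5)) (move 554 (branch (move 590 (branch (move 622 (leaf 493 4)) (move 587 (branch (move 555 (leaf 554 3)) (move 586 (branch (move 553 (leaf 553 3)) (move 618 (branch (move 617 (leaf 585 1)) (move 619 (leaf 586 1)))))))))) (branch (move 461 (branch (move 430 (branch (move 462 (leaf 429 6)) (move 429 (branch (move 398 (leaf 397 6)) (move 396 (branch (move 428 (leaf 396 7)) (move 397 (branch (move 364 (leaf 364 7)) (move 524 (branch (move 492 (leaf 396 5)) (move 523 (branch (move 555 (leaf 522 1)) (move 522 (branch (move 553 (leaf 521 1)) (move 490 (branch (move 489 (leaf 489 3)) (move 491 (leaf 490 3)))))))))))))))))) (branch (move 430 (branch (move 462 (leaf 429 6)) (move 429 (branch (move 398 (leaf 397 6)) (move 428 (branch (move 396 (leaf 396 7)) (move 460 (leaf 428 7)))))))) (branch (move 492 (branch (move 460 (leaf 460 7)) (move 490 (branch (move 491 (leaf 490 0)) (move 430 (branch (move 462 (leaf 429 6)) (move 429 (branch (move 398 (leaf 397 6)) (move 524 (branch (move 397 (leaf 396 5)) (move 523 (branch (move 555 (leaf 522 1)) (move 522 (branch (move 553 (leaf 521 1)) (move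 521 (leaf 489 2)))))))))))))))) (move 460 (branch (move 428 (leaf 428 7)) (move 492 (leaf 460 7)))))))) (branch (move 590 (branch (move 622 (leaf 493 4)) (move 492 (branch (move 460 (leaf 460 7)) (move 491 (branch (move 490 (leaf 490 0)) (move 555 (branch (move 587 (leaf 554 3)) (move 523 (branch (move 524 (leaf 522 1)) (move 459 (branch (move 586 (leaf 458 5)) (move 427 (branch (move 522 (leaf 426 5)) (move 426 (branch (move 394 (leaf 394 7)) (move 458 (leaf 426 7)))))))))))))))))) (move 492 (branch (move 460 (leaf 460 7)) (ref 0)))))))))
theorem a6p755 : a6e755.Valid :=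
  pos_of_chk [a6e754] (forall_cons a6p754 forall_nil) a6c755 a6e755 (by decide +kernel)

def a6e756 : Pos := ⟨2026130649339417646236166083785233858831040035987044836604370573862332742153723491505219254938831362035952424515191033226448603955775922719388688989660354414003114135556158652416, 401316520902488276421817330370148793259181272337480956171882763495825693964612719458024073542880247504704523767278973272895766655156780332196308404687867435100126379927897316421919667488029066502359146823680, 8⟩
def a6c756 : Cert := (move 620 (branch (move 621 (branch (move 652 (leaf 524 5)) (move 622 (branch (move 654 (leaf 525 4)) (move 590 (branch (move 493 (leaf 493 4)) (move 591 (branch (move 592 (leaf 588 1)) (move 619 (leaf 587 2)))))))))) (branch (move 588 (branch (move 493 (leaf 492 5)) (move 652 (branch (move 556 (leaf 524 6)) (move 684 (leaf 556 6)))))) (branch (move 652 (branch (move 621 (leaf 524 5)) (move 588 (branch (move 556 (leaf 524 6)) (move 684 (leaf 556 6)))))) (move 590 (branch (move 622 (branch (move 493 (leaf 493 4)) (move 654 (branch (move 621 (leaf 525 4)) (move 686 (leaf 557 7)))))) (branch (move 588 (branch (move 493 (leaf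 492 5)) (move 591 (branch (move 619 (leaf 587 1)) (move 592 (branch (move 621 (leaf 588 1)) (move 556 (leaf 556 3)))))))) (branch (move 493 (branch (move 622 (leaf 493 4)) (move 588 (leaf 492 5)))) (move 591 (branch (move 588 (branch (move 619 (leaf 587 1)) (move 555 (branch (move 556 (leaf 555 3)) (move 587 (branch (move 554 (leaf 554 3)) (move 623 (branch (move 622 (leaf 587 0)) (move 624 (leaf 588 0)))))))))) (branch (move 592 (branch (move 621 (leaf 588 1)) (move 556 (leaf 556 3)))) (move 621 (branch (move 592 (leaf 588 1)) (move 619 (branch (move 588 (leaf 587 1)) (move 618 (leaf 586 2)))))))))))))))))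
theorem a6p756 : a6e756.Valid :=
  pos_of_chk [] forall_nil a6c756 a6e756 (by decide +kernel)

def a6e757 : Pos := ⟨2026130649339417646455839608909413369710460861557649419556992503466918515254346322199156636807556355703874333016357578985722085920303310176576592605651287016005483040871840481280, 401316521388369952435022861765270265562253934092281292783687790406509705676527180072159550322482624360616833007634632814706751834771748540349970697908675150040241541447304381275003919044226944415185550442496, 8⟩
def a6c757 : Cert := (move 621 (branch (move 652 (branch (move 620 (leaf 524 5)) (move 653 (branch (move 684 (leaf 556 5)) (move 654 (branch (move 622 (leaf 525 4)) (move 686 (leaf 557 4)))))))) (branch (move 653 (branch (move 558 (leaf 525 6)) (move 652 (branch (move 620 (leaf 524 5)) (move 684 (leaf 556 5)))))) (branch (move 653 (branch (move 558 (leaf 525 6)) (move 654 (branch (move 622 (leaf 525 4)) (move 686 (leaf 557 4)))))) (move 622 (branch (move 654 (leaf 525 4)) (move 620 (branch (move 652 (leaf 524 5)) (move 623 (branch (move 591 (branch (move 592 (leaf 588 2)) (move 590 (branch (move 619 (leaf 587 2)) (move 655 (branch (move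 656 (leaf 620 0)) (move 558 (leaf 526 4)))))))) (move 588 (branch (move 587 (leaf 587 3)) (move 624 (leaf 588 3))))))))))))))
theorem a6p757 : a6e757.Valid :=
  pos_of_chk [] forall_nil a6c757 a6e757 (by decide +kernel)

def a6e758 : Pos := ⟨2026130649339417646455839608909413369710460861557649419556992503466918515254346322199156636807556355703874333016357578985722085920303310176576592605651287016005483040871840481280, 149502054284425483632066330685999074674487327236190218181547651334741986941358185823075377048361457145815917899455473696397159564463035866352895767201193910865051384294919077570940852415012001546240, 10⟩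
def a6c758 : Cert := (move 493 (branch (move 588 (branch (move 620 (leaf 492 5)) (move 556 (branch (move 461 (leaf 460 5)) (move 555 (branch (move 554 (leaf 522 2)) (move 590 (branch (move 591 (leaf 555 3)) (move 622 (leaf 493 4)))))))))) (branch (move 492 (branch (move 460 (leaf 460 7)) (move 590 (branch (move 622 (leaf 493 4)) (move 555 (branch (move 588 (branch (move 620 (leaf 492 5)) (move 587 (branch (move 554 (leaf 554 3)) (move 558 (branch (move 586 (leaf 554 2)) (move 559 (leaf 555 2)))))))) (branch (move 588 (branch (move 620 (leaf 492 5)) (move 591 (branch (move 556 (leaf 555 3)) (move 559 (branch (move 560 (leaf 556 2)) (move 558 (branch (move 587 (leaf 555 2)) (move 623 (branch (move 624 (leaf 588 0)) (move 655 (leaf 526 7)))))))))))) (branch (move 556 (branch (move 554 (leaf 554 0)) (move 591 (branch (move 558 (leaf 555 0)) (move 592 (leaf 556 3)))))) (move 556 (branch (move 554 (leaf 554 0)) (move 588 (branch (move 591 (leaf 555 3)) (move 620 (leaf 492 5)))))))))))))) (move 460 (branch (move 492 (leaf 460 7)) (move 461 (branch (move 428 (leaf 428 7)) (move 429 (branch (move 558 (leaf 429 4)) (move 430 (branch (move 398 (leaf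 397 6)) (move 462 (leaf 429 6)))))))))))))
theorem a6p758 : a6e758.Valid :=
  pos_of_chk [] forall_nil a6c758 a6e758 (by decide +kernel)

def a6e759 : Pos := ⟨2026130649339417646455839608934986733834649469917127464063458121843611031239057765866994850620807400988285852976383126582018212148044612396323155660410796832770212674100969603072, 1723641332781214160116211151632352456584844195374190601026573916423254866476920870414406423488754301051392770445515137899397889547387870708314644051798693012366119882300320968766342441269805948168023965501797148131328, 6⟩
def a6c759 : Cert := (move 621 (branch (move 620 (branch (move 588 (leaf 492 5)) (move 652 (leaf 524 5)))) (branch (move 653 (branch (move 558 (leaf 525 6)) (move 686 (branch (move 654 (leaf 557 4)) (move 685 (branch (move 718 (leaf 589 4)) (move 684 (branch (move 652 (leaf 556 5)) (move 716 (leaf 588 5)))))))))) (move 653 (branch (move 558 (leaf 525 6)) (move 588 (branch (move 620 (leaf 492 5)) (move 685 (branch (move 556 (leaf 556 7)) (move 686 (branch (move 654 (leaf 557 4)) (move 718 (leaf 589 4)))))))))))))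
theorem a6p759 : a6e759.Valid :=
  pos_of_chk [] forall_nil a6c759 a6e759 (by decide +kernel)

def a6e760 : Pos := ⟨2026130649339417646455839608909413369710460861557649419556992503466918515254346322199156636807556355703874333016357578985722085920303310176576592605651287016005483040871840481280, 401316520939863789855864604498729988309679183318841878235989572329324813640042153411647247624024865581342873330206194063288107703738177466513201758006543406197402716685745050193533133087960187438332930686976, 6⟩
def a6c760 : Cert := (move 621 (branch (move 653 (branch (move 558 (leaf 525 6)) (move 652 (branch (move 620 (leaf 524 5)) (move 684 (leaf 556 5)))))) (branch (move 653 (branch (move 558 (leaf 525 6)) (move 654 (branch (move 622 (leaf 525 4)) (move 686 (leaf 557 4)))))) (move 622 (branch (move 654 (leaf 525 4)) (move 590 (branch (move 493 (leaf 493 4)) (move 620 (branch (move 652 (leaf 524 5)) (move 591 (branch (move 592 (leaf 588 1)) (move 619 (leaf 587 2)))))))))))))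
theorem a6p760 : a6e760.Valid :=
  pos_of_chk [] forall_nil a6c760 a6e760 (by decide +kernel)

def a6e761 : Pos := ⟨6078391947074762332503112913295312931246052885231904204709001614492946651399764433917620551794962404813442581660206005921654850642385122000684868810840704679151168395756127125504, 6894565331124856640464844607573669611375854680895607426740616998103949782607775886246739096380500337765932801362104825212373633290828938945883370799951802363028300486548422135318776724145542263612021418478185203367936, 9⟩
def a6c761 : Cert := (move 591 (branch (move 592 (branch (move 556 (leaf 556 3)) (move 625 (branch (move 624 (leaf 589 0)) (move 593 (branch (move 626 (leaf 590 0)) (move 561 (branch (move 560 (leaf 557 2)) (move 562 (leaf 558 2)))))))))) (branch (move 556 (branch (move 592 (leaf 556 3)) (move 555 (branch (move 554 (leaf 554 0)) (move 588 (leaf 555 3)))))) (branch (move 592 (branch (move 593 (branch (move 558 (leaf 557 3)) (move 626 (branch (move 625 (leaf 590 0)) (move 594 (branch (move 627 (leaf 591 0)) (move 562 (branch (move 561 (leaf 558 2)) (move 563 (leaf 559 2)))))))))) (branch (move 558 (branch (move 593 (leaf 557 3))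 (move 622 (branch (move 654 (leaf 525 7)) (move 623 (branch (move 655 (leaf 526 4)) (move 588 (branch (move 587 (leaf 587 0)) (move 624 (leaf 588 0)))))))))) (move 560 (branch (move 561 (leaf 557 2)) (move 624 (branch (move 625 (leaf 589 0)) (move 588 (branch (move 623 (leaf 588 0)) (move 559 (leaf 556 2))))))))))) (move 588 (branch (move 555 (branch (move 556 (leaf 555 3)) (move 587 (branch (move 554 (leaf 554 3)) (move 623 (branch (move 622 (leaf 587 0)) (move 624 (leaf 588 0)))))))) (branch (move 559 (branch (move 560 (leaf 556 2)) (move 623 (branch (move 624 (leaf 588 0)) (move 655 (branch (move 558 (leaf 526 7)) (move 686 (branch (move 654 (leaf 558 5)) (move 687 (branch (move 718 (leaf 590 5)) (move 688 (branch (move 656 (leaf 559 4)) (move 720 (leaf 591 4)))))))))))))) (move 555 (branch (move 556 (leaf 555 3)) (move 587 (branch (move 554 (leaf 554 3)) (move 558 (branch (move 586 (leaf 554 2)) (move 559 (leaf 555 2)))))))))))))))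
theorem a6p761 : a6e761.Valid :=
  pos_of_chk [] forall_nil a6c761 a6e761 (by decide +kernel)

def a6e762 : Pos := ⟨6078391947074762332503112913295312931246052885231904204709001614492946651399764433917620551794962404813442581660206005921654850642385122000684868810840704679151168395756127125504, 6894565331124856640464844607003133926739201518265261566649824691215653890634468664777646783599404763472684959586281371807994864679674090004372491281812253604332305779613419700133251220697203518523499326597709466435584, 9⟩
def a6c762 : Cert := (move 591 (branch (move 592 (branch (move 556 (leaf 556 3)) (move 625 (branch (move 624 (leaf 589 0)) (move 593 (branch (move 626 (leaf 590 0)) (move 561 (branch (move 560 (leaf 557 2)) (move 562 (leaf 558 2)))))))))) (branch (move 556 (branch (move 592 (leaf 556 3)) (move 555 (branch (move 554 (leaf 554 0)) (move 588 (leaf 555 3)))))) (branch (move 592 (branch (move 593 (branch (move 558 (leaf 557 3)) (move 625 (branch (move 624 (leaf 589 0)) (move 626 (leaf 590 0)))))) (branch (move 560 (branch (move 561 (leaf 557 2)) (move 624 (branch (move 625 (leaf 589 0)) (move 588 (branch (move 623 (leaf 588 0)) (move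 559 (leaf 556 2)))))))) (move 558 (branch (move 593 (leaf 557 3)) (move 560 (branch (move 561 (leaf 557 2)) (move 559 (branch (move 588 (leaf 556 1)) (move 623 (branch (move 655 (leaf 526 7)) (move 528 (branch (move 529 (leaf 525 2)) (move 496 (leaf 495 5))))))))))))))) (move 588 (branch (move 559 (branch (move 560 (leaf 556 2)) (move 623 (branch (move 624 (leaf 588 0)) (move 655 (branch (move 558 (leaf 526 7)) (move 686 (branch (move 654 (leaf 558 5)) (move 687 (branch (move 718 (leaf 590 5)) (move 688 (branch (move 656 (leaf 559 4)) (move 720 (leaf 591 4)))))))))))))) (move 587 (branch (move 618 (branch (move 619 (leaf 586 1)) (move 586 (branch (move 617 (leaf 585 1)) (move 585 (branch (move 556 (leaf 553 2)) (move 553 (branch (move 552 (leaf 552 3)) (move 554 (leaf 553 3)))))))))) (branch (move 618 (branch (move 619 (leaf 586 1)) (move 586 (branch (move 617 (leaf 585 1)) (move 554 (branch (move 553 (leaf 553 3)) (move 555 (leaf 554 3)))))))) (branch (move 556 (branch (move 555 (leaf 555 3)) (move 493 (branch (move 461 (leaf 460 5)) (move 586 (branch (move 585 (leaf 553 2)) (move 618 (branch (move 617 (leaf 585 1)) (move 619 (leaf 586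 1)))))))))) (move 555 (branch (move 554 (leaf 554 3)) (move 556 (leaf 555 3))))))))))))))
theorem a6p762 : a6e762.Valid :=
  pos_of_chk [] forall_nil a6c762 a6e762 (by decide +kernel)

def a6e763 : Pos := ⟨2026130649339417646455839608909413369710460861557649419556992503466918515254346322199156636807556355703874333016357578985722085920303310176576592605651287016005483040871840481280, 321053216759366134592603888227578349561061423314270367372687580469741205152458516282535462511448241109776572772036072552887561923111315291325448959754326815098895839289739302852622235994241710426750233608192, 9⟩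
def a6c763 : Cert := (move 622 (branch (move 493 (branch (move 590 (leaf 493 4)) (move 460 (branch (move 492 (leaf 460 7)) (move 461 (branch (move 428 (leaf 428 7)) (move 556 (branch (move 588 (leaf 460 5)) (move 429 (branch (move 524 (leaf 428 5)) (move 430 (branch (move 398 (leaf 397 6)) (move 462 (leaf 429 6)))))))))))))) (branch (move 590 (branch (move 493 (leaf 493 4)) (move 654 (branch (move 621 (leaf 525 4)) (move 686 (leaf 557 7)))))) (move 621 (branch (move 654 (leaf 525 4)) (move 524 (branch (move 492 (leaf 492 7)) (move 523 (branch (move 554 (branch (move 555 (leaf 522 1)) (move 522 (branch (move 553 (leaf 521 1)) (move 490 (branch (move 489 (leaf 489 3)) (move 491 (leaf 490 3)))))))) (branch (move 556 (branch (move 653 (leaf 524 7)) (move 522 (branch (move 521 (leaf 521 0)) (move 490 (branch (move 489 (leaf 489 3)) (move 491 (leaf 490 3)))))))) (branch (move 556 (branch (move 653 (leaf 524 7)) (move 554 (branch (move 555 (leaf 522 1)) (move 522 (branch (move 521 (leaf 521 0)) (move 553 (leaf 521 1)))))))) (move 556 (branch (move 653 (leaf 524 7)) (move 555 (branch (move 554 (leaf 522 1)) (move 491 (branch (move 490 (leaf 490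 3)) (move 459 (branch (move 427 (leaf 427 4)) (move 588 (leaf 459 4)))))))))))))))))))))
theorem a6p763 : a6e763.Valid :=
  pos_of_chk [] forall_nil a6c763 a6e763 (by decide +kernel)

def a6e764 : Pos := ⟨2026130649339417646236166083785233858831040035987044836604370573862332742153723491505219254938831362035952424515191033226448603955775922719388688989660354414003114135556158652416, 80263304217873168809348363135705113513402453914116195833101642245137089936666786917013423775091582724877261223673420762819726976383213108990119047009053920221342168385569054987629499952446552947725701218304, 7⟩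
def a6c764 : Cert := (move 493 (branch (move 492 (branch (move 460 (leaf 460 7)) (move 621 (branch (move 524 (leaf 492 7)) (move 620 (branch (move 588 (leaf 492 5)) (move 652 (leaf 524 5)))))))) (branch (move 588 (branch (move 620 (leaf 492 5)) (move 461 (branch (move 556 (leaf 460 5)) (move 430 (branch (move 462 (leaf 429 6)) (move 429 (branch (move 398 (leaf 397 6)) (move 428 (branch (move 396 (leaf 396 7)) (move 460 (leaf 428 7)))))))))))) (branch (move 621 (branch (move 620 (branch (move 588 (leaf 492 5)) (move 652 (leaf 524 5)))) (branch (move 524 (branch (move 492 (leaf 492 7)) (move 556 (branch (move 653 (leaf 524 7)) (move 461 (branch (move 429 (leaf 428 5)) (move 588 (leaf 460 5)))))))) (move 524 (branch (move 492 (leaf 492 7)) (move 653 (branch (move 556 (leaf 524 7)) (move 652 (branch (move 620 (leaf 524 5)) (move 684 (leaf 556 5))))))))))) (move 461 (branch (move 430 (branch (move 462 (leaf 429 6)) (move 429 (branch (move 398 (leaf 397 6)) (move 524 (branch (move 556 (leaf 428 5)) (move 492 (branch (move 397 (leaf 396 5)) (move 621 (leaf 492 7)))))))))) (branch (move 430 (branch (move 462 (leaf 429 6)) (move 429 (branch (move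 398 (leaf 397 6)) (move 428 (branch (move 396 (leaf 396 7)) (move 460 (leaf 428 7)))))))) (move 460 (branch (move 428 (leaf 428 7)) (move 492 (leaf 460 7)))))))))))
theorem a6p764 : a6e764.Valid :=
  pos_of_chk [] forall_nil a6c764 a6e764 (by decide +kernel)

def a6e765 : Pos := ⟨2026130649339417646455839608934986733834649469917127464063458121843611031239057765866994850620807400988285852976383126582018212148044612396323155660410796832770212674100969603072, 269223225829101600399306741866978251007705353797776317276188532268249678412452514804234499839397676874380350794066494160762935660889424812441830150979251175075196418682223848389858578923520, 9⟩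
def a6c765 : Cert := (move 555 (branch (move 492 (branch (move 460 (leaf 460 7)) (move 588 (branch (move 620 (leaf 492 5)) (move 590 (branch (move 622 (leaf 493 4)) (move 591 (branch (move 556 (leaf 555 3)) (move 560 (branch (move 559 (leaf 556 2)) (move 592 (branch (move 561 (leaf 557 2)) (move 624 (branch (move 623 (leaf 588 0)) (move 625 (leaf 589 0)))))))))))))))) (branch (move 492 (branch (move 460 (leaf 460 7)) (move 491 (branch (move 490 (leaf 490 0)) (move 588 (branch (move 620 (leaf 492 5)) (move 590 (branch (move 622 (leaf 493 4)) (move 587 (branch (move 554 (leaf 554 3)) (move 618 (branch (move 619 (leaf 586 1)) (move 586 (branch (move 617 (leaf 585 1)) (move 523 (leaf 490 5)))))))))))))))) (branch (move 554 (branch (move 556 (leaf 522 2)) (move 523 (branch (move 524 (leaf 522 1)) (move 492 (branch (move 460 (leaf 460 7)) (move 491 (branch (move 490 (leaf 490 0)) (move 586 (branch (move 459 (leaf 458 5)) (move 618 (branch (move 587 (leaf 490 5)) (move 522 (leaf 490 6)))))))))))))) (move 554 (branch (move 556 (leaf 522 2)) (move 588 (branch (move 620 (leaf 492 5)) (move 590 (branch (move 587 (leaf 554 3)) (move 622 (leaf 493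 4))))))))))))
theorem a6p765 : a6e765.Valid :=
  pos_of_chk [] forall_nil a6c765 a6e765 (by decide +kernel)

def a6e766 : Pos := ⟨2026130649339417646455839608934986733834649469917127464063458121843611031239057765866994850620807400988285852976383126582018212148044612396323155660410796832770212674100969603072, 17404329752672085587831643689964830000540525575876101047370998129391844758346427404769961564521887331285596872753594249118889781830823141426255977863770059528453052584884248799831381770240, 8⟩
def a6c766 : Cert := (move 590 (branch (move 622 (leaf 493 4)) (move 461 (branch (move 430 (branch (move 462 (leaf 429 6)) (move 429 (branch (move 398 (leaf 397 6)) (move 396 (branch (move 428 (leaf 396 7)) (move 397 (branch (move 364 (leaf 364 7)) (move 524 (branch (move 492 (leaf 396 5)) (move 556 (leaf 428 5)))))))))))) (branch (move 430 (branch (move 462 (leaf 429 6)) (move 429 (branch (move 398 (leaf 397 6)) (move 428 (branch (move 396 (leaf 396 7)) (move 460 (leaf 428 7)))))))) (branch (move 492 (branch (move 460 (leaf 460 7)) (move 491 (branch (move 490 (leaf 490 0)) (move 430 (branch (move 462 (leaf 429 6)) (move 429 (branch (move 398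 (leaf 397 6)) (move 524 (branch (move 397 (leaf 396 5)) (move 556 (leaf 428 5)))))))))))) (move 460 (branch (move 428 (leaf 428 7)) (move 492 (leaf 460 7))))))))))
theorem a6p766 : a6e766.Valid :=
  pos_of_chk [] forall_nil a6c766 a6e766 (by decide +kernel)

def a6e767 : Pos := ⟨471745303432202956716463588942664849720522026980987947953904447181637266339924679313853331149090208694433365517755703559262404264522454503056578184432640363429697159168, 451481086057346763829060812671292330207725046873040299510484316396347162871755481627174606744118043719570700108026386999852089390131088318296641477582181892243695718529986515686798213844402778288212794146816, 16⟩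
def a6c767 : Cert := (move 589 (branch (move 621 (branch (move 652 (branch (move 620 (leaf 524 5)) (move 653 (branch (move 684 (leaf 556 5)) (move 654 (branch (move 622 (leaf 525 4)) (move 686 (leaf 557 4)))))))) (branch (move 524 (branch (move 492 (leaf 492 7)) (move 653 (branch (move 556 (leaf 524 7)) (move 654 (branch (move 622 (leaf 525 4)) (move 686 (leaf 557 4)))))))) (branch (move 524 (branch (move 492 (leaf 492 7)) (move 653 (branch (move 556 (leaf 524 7)) (move 652 (branch (move 620 (leaf 524 5)) (move 684 (leaf 556 5)))))))) (ref 0))))) (branch (move 621 (branch (move 652 (branch (move 620 (leaf 524 5)) (move 653 (branch (move 684 (leaf 556 5)) (move 654 (branch (move 622 (leaf 525 4)) (move 686 (leaf 557 4)))))))) (branch (move 622 (branch (move 654 (leaf 525 4)) (move 493 (branch (move 590 (leaf 493 4)) (move 492 (branch (move 460 (leaf 460 7)) (move 524 (leaf 492 7)))))))) (move 620 (branch (move 652 (leaf 524 5)) (move 493 (branch (move 588 (leaf 492 5)) (move 492 (branch (move 460 (leaf 460 7)) (move 524 (leaf 492 7))))))))))) (branch (ref 1) (branch (move 621 (branch (move 652 (branch (move 620 (leaf 524 5)) (move 653 (branch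 (move 684 (leaf 556 5)) (move 654 (branch (move 622 (leaf 525 4)) (move 686 (leaf 557 4)))))))) (branch (move 524 (branch (move 492 (leaf 492 7)) (move 653 (branch (move 556 (leaf 524 7)) (move 652 (branch (move 620 (leaf 524 5)) (move 684 (leaf 556 5)))))))) (move 622 (branch (move 654 (leaf 525 4)) (move 493 (branch (move 590 (leaf 493 4)) (move 492 (branch (move 460 (leaf 460 7)) (move 524 (leaf 492 7))))))))))) (branch (ref 2) (branch (ref 3) (move 493 (branch (move 588 (branch (move 620 (leaf 492 5)) (move 556 (branch (move 461 (leaf 460 5)) (move 555 (branch (move 554 (leaf 522 2)) (move 590 (branch (move 591 (leaf 555 3)) (move 622 (leaf 493 4)))))))))) (branch (move 492 (branch (move 460 (leaf 460 7)) (move 588 (branch (move 620 (leaf 492 5)) (move 461 (branch (move 556 (leaf 460 5)) (move 491 (branch (move 490 (leaf 490 0)) (move 430 (branch (move 462 (leaf 429 6)) (move 429 (branch (move 398 (leaf 397 6)) (move 396 (branch (move 428 (leaf 396 7)) (move 397 (branch (move 524 (leaf 396 5)) (move 364 (leaf 364 7)))))))))))))))))) (branch (ref 4) (branch (ref 5) (ref 6)))))))))))))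
theorem a6p767 : a6e767.Valid :=
  pos_of_chk [a6e725, a6e763, a6e756, a6e764, a6e765, a6e766, a6e755] (forall_cons a6p725 (forall_cons a6p763 (forall_cons a6p756 (forall_cons a6p764 (forall_cons a6p765 (forall_cons a6p766 (forall_cons a6p755 forall_nil))))))) a6c767 a6e767 (by decide +kernel)

def a6e768 : Pos := ⟨2026130649339417646455839608909413369710460861557649419556992503466918515254346322199156636807556355703874333016357578985722085920303310176576592605651287016005483040871840481280, 321053216759366134592603888226565284242789760164516877642806438742658585372234877198804185069317084046923218190456268045072252426230134171137703957285044049777063378274918407548724789266136414073456601071616, 5⟩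
def a6c768 : Cert := (move 621 (branch (move 622 (branch (move 654 (leaf 525 4)) (move 493 (branch (move 590 (leaf 493 4)) (move 492 (branch (move 460 (leaf 460 7)) (move 524 (leaf 492 7)))))))) (branch (move 653 (branch (move 558 (leaf 525 6)) (move 654 (branch (move 622 (leaf 525 4)) (move 686 (leaf 557 4)))))) (move 558 (branch (move 653 (leaf 525 6)) (move 524 (branch (move 492 (leaf 492 7)) (move 559 (branch (move 523 (leaf 523 0)) (move 560 (leaf 524 3)))))))))))
theorem a6p768 : a6e768.Valid :=
  pos_of_chk [] forall_nil a6c768 a6e768 (by decide +kernel)

def a6e769 : Pos := ⟨2026130649339417646455839608909413369710460861557649419556992503466918515254346322199156636807556355703874333016357578985722085920303310176576592605651287016005483040871840481280, 269495168481550418312711896103107437145579120798451828300474492484681068611439060338840213444270083288613556102131057882551549030278027861174679183198821626042088425663340759413231911436288, 14⟩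
def a6c769 : Cert := (move 493 (branch (ref 0) (branch (move 460 (branch (move 492 (leaf 460 7)) (move 461 (branch (move 428 (leaf 428 7)) (move 429 (branch (move 558 (leaf 429 4)) (move 430 (branch (move 398 (leaf 397 6)) (move 462 (leaf 429 6)))))))))) (branch (move 590 (branch (move 622 (leaf 493 4)) (move 558 (branch (move 461 (leaf 461 4)) (move 588 (branch (move 620 (leaf 492 5)) (move 559 (branch (move 560 (leaf 556 1)) (move 587 (leaf 555 2)))))))))) (move 588 (branch (move 620 (leaf 492 5)) (move 587 (branch (move 590 (branch (move 622 (leaf 493 4)) (move 586 (branch (move 618 (branch (move 617 (leaf 585 1)) (move 619 (leaf 586 1)))) (branch (move 492 (branch (move 460 (leaf 460 7)) (move 490 (branch (move 491 (leaf 490 0)) (move 553 (branch (move 554 (leaf 553 3)) (move 585 (branch (move 552 (leaf 552 3)) (move 617 (branch (move 616 (leaf 584 1)) (move 521 (branch (move 522 (leaf 489 6)) (move 489 (branch (move 458 (leaf 457 6)) (move 488 (branch (move 456 (leaf 456 7)) (move 520 (leaf 488 7)))))))))))))))))) (move 492 (branch (move 460 (leaf 460 7)) (move 490 (branch (move 491 (leaf 490 0)) (move 554 (branch (move 553 (leaf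 553 3)) (move 619 (branch (move 618 (leaf 586 1)) (move 522 (leaf 490 4))))))))))))))) (branch (move 586 (branch (move 558 (leaf 554 2)) (move 585 (branch (move 556 (leaf 553 2)) (move 617 (branch (move 616 (leaf 584 1)) (move 618 (leaf 585 1)))))))) (move 590 (branch (move 622 (leaf 493 4)) (move 559 (branch (move 558 (leaf 555 2)) (move 591 (branch (move 560 (leaf 556 2)) (move 492 (branch (move 460 (leaf 460 7)) (move 592 (branch (move 556 (leaf 556 3)) (move 624 (branch (move 623 (leaf 588 0)) (move 625 (leaf 589 0)))))))))))))))))))))))
theorem a6p769 : a6e769.Valid :=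
  pos_of_chk [a6e766] (forall_cons a6p766 forall_nil) a6c769 a6e769 (by decide +kernel)

def a6e770 : Pos := ⟨471745303212529431617857442187432632509395488534831636726011190065725879313825511258379382765579820153292367354778347822476319027081113941825155399195001091343144452096, 93438783879360135144947344263270438302547073792522948075002623648118579516412434966271289466467150908844018753838180048164473133403806660153030206967757037479284267824824686727800982215922764742656, 8⟩
def a6c770 : Cert := (move 461 (branch (move 428 (branch (move 460 (leaf 428 7)) (move 429 (branch (move 396 (leaf 396 7)) (move 430 (branch (move 398 (leaf 397 6)) (move 462 (leaf 429 6)))))))) (branch (move 556 (branch (move 588 (leaf 460 5)) (move 429 (branch (move 524 (leaf 428 5)) (move 430 (branch (move 398 (leaf 397 6)) (move 462 (leaf 429 6)))))))) (branch (move 556 (branch (move 588 (leaf 460 5)) (move 429 (branch (move 524 (leaf 428 5)) (move 428 (branch (move 396 (leaf 396 7)) (move 460 (leaf 428 7)))))))) (move 460 (branch (move 428 (leaf 428 7)) (move 589 (branch (move 492 (leaf 460 7)) (move 462 (branch (move 430 (leaf 429 6)) (move 622 (branch (move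 590 (leaf 493 4)) (move 621 (branch (move 654 (leaf 525 4)) (move 620 (branch (move 588 (leaf 492 5)) (move 652 (leaf 524 5))))))))))))))))))
theorem a6p770 : a6e770.Valid :=
  pos_of_chk [] forall_nil a6c770 a6e770 (by decide +kernel)

def a6e771 : Pos := ⟨471745303487121337997508466662520056113173172719143430355050890456792974013409024781034579566070685819725001957574074050394251128819430407054311334933232589758617616384, 80263304189841533649238742666816492236506589060134696538789694203614197745303608890483629358204024288356555487737933025867429791768909633091417588107530396716471057278553216618437822957705077545348032888832, 8⟩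
def a6c771 : Cert := (move 523 (branch (move 554 (branch (move 555 (leaf 522 1)) (move 522 (branch (move 553 (leaf 521 1)) (move 521 (branch (move 556 (leaf 521 0)) (move 489 (branch (move 488 (leaf 488 3)) (move 490 (leaf 489 3)))))))))) (branch (move 522 (branch (move 521 (branch (move 556 (leaf 521 0)) (move 552 (branch (move 553 (leaf 520 1)) (move 520 (branch (move 551 (leaf 519 1)) (move 488 (branch (move 487 (leaf 487 3)) (move 489 (leaf 488 3)))))))))) (branch (move 490 (branch (move 489 (leaf 489 3)) (move 491 (leaf 490 3)))) (move 521 (branch (move 556 (leaf 521 0)) (move 491 (branch (move 490 (leaf 490 3)) (move 520 (branch (move 492 (leaf 488 2)) (move 552 (branch (move 551 (leaf 519 1)) (move 553 (leaf 520 1))))))))))))) (branch (move 490 (branch (move 491 (leaf 490 3)) (move 522 (branch (move 489 (leaf 489 3)) (move 554 (branch (move 553 (leaf 521 1)) (move 555 (leaf 522 1)))))))) (branch (move 554 (branch (move 555 (leaf 522 1)) (move 522 (branch (move 553 (leaf 521 1)) (move 521 (branch (move 556 (leaf 521 0)) (move 492 (branch (move 493 (leaf 489 2)) (move 520 (branch (move 491 (leaf 488 2)) (move 488 (branch (move 487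 (leaf 487 3)) (move 489 (leaf 488 3)))))))))))))) (move 555 (branch (move 554 (leaf 522 1)) (move 587 (branch (move 491 (branch (move 490 (leaf 490 3)) (move 492 (branch (move 460 (leaf 459 6)) (move 619 (leaf 491 6)))))) (branch (move 491 (branch (move 490 (leaf 490 3)) (move 588 (branch (move 620 (leaf 491 4)) (move 556 (branch (move 459 (leaf 459 4)) (move 586 (branch (move 585 (leaf 553 2)) (move 618 (leaf 490 5)))))))))) (move 619 (branch (move 492 (leaf 491 6)) (move 651 (branch (move 556 (leaf 523 6)) (move 652 (branch (move 620 (leaf 523 4)) (move 684 (leaf 555 4))))))))))))))))))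
theorem a6p771 : a6e771.Valid :=
  pos_of_chk [] forall_nil a6c771 a6e771 (by decide +kernel)

def a6e772 : Pos := ⟨471745303487121337997508466662520056113173172719143430355050890456792974013409024781034579566070685819725001957574074050394251128819430407054311334933232589758617616384, 401316520939863789890673263971529435937669611037293191414121804017114798689667639360663218921512548693673409849539721898863106743189845120902787236649947977664925426249718253338740019380589143529927217250304, 9⟩
def a6c772 : Cert := (move 589 (branch (move 621 (branch (move 653 (branch (move 558 (leaf 525 6)) (move 652 (branch (move 620 (leaf 524 5)) (move 684 (leaf 556 5)))))) (branch (move 653 (branch (move 556 (leaf 524 7)) (move 654 (branch (move 622 (leaf 525 4)) (move 686 (leaf 557 4)))))) (move 620 (branch (move 652 (leaf 524 5)) (move 588 (branch (move 493 (leaf 492 5)) (move 622 (branch (move 654 (leaf 525 4)) (move 587 (branch (move 586 (leaf 586 0)) (move 623 (leaf 587 3))))))))))))) (branch (move 621 (branch (move 492 (leaf 492 7)) (move 653 (branch (move 558 (leaf 525 6)) (move 652 (branch (move 620 (leaf 524 5)) (move 684 (leaf 556 5))))))))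 (branch (move 492 (branch (move 621 (leaf 492 7)) (move 460 (branch (move 428 (leaf 428 4)) (move 556 (leaf 460 4)))))) (move 493 (branch (move 588 (branch (move 620 (leaf 492 5)) (move 461 (branch (move 556 (leaf 460 5)) (move 429 (branch (move 558 (leaf 429 4)) (move 430 (branch (move 398 (leaf 397 6)) (move 462 (leaf 429 6)))))))))) (branch (move 588 (branch (move 620 (leaf 492 5)) (move 461 (branch (move 556 (leaf 460 5)) (move 430 (branch (move 462 (leaf 429 6)) (move 429 (branch (move 398 (leaf 397 6)) (move 428 (branch (move 396 (leaf 396 7)) (move 460 (leaf 428 7)))))))))))) (branch (move 460 (branch (move 492 (leaf 460 7)) (move 461 (branch (move 428 (leaf 428 7)) (move 429 (branch (move 558 (leaf 429 4)) (move 430 (branch (move 398 (leaf 397 6)) (move 462 (leaf 429 6)))))))))) (move 492 (branch (move 460 (leaf 460 7)) (move 588 (branch (move 620 (leaf 492 5)) (move 491 (branch (move 490 (leaf 490 0)) (move 556 (branch (move 459 (leaf 459 7)) (move 587 (branch (move 619 (leaf 491 5)) (move 586 (branch (move 585 (leaf 553 2)) (move 558 (leaf 554 2))))))))))))))))))))))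
theorem a6p772 : a6e772.Valid :=
  pos_of_chk [] forall_nil a6c772 a6e772 (by decide +kernel)

def a6e773 : Pos := ⟨471745303487121337997508466662520056113173172719143430355050890456792974013409024781034579566070685819725001957574074050394251128819430407054311334933232589758617616384, 4351082440194152049039348142936261948439288930521753362663315070463315916270893646030850675471274207750146787431845003936205107557699134994259547838722306470777164642362157606746365886464, 12⟩
def a6c773 : Cert := (move 523 (branch (move 554 (branch (move 555 (leaf 522 1)) (move 522 (branch (move 553 (leaf 521 1)) (move 491 (branch (move 490 (leaf 490 3)) (move 556 (branch (move 521 (leaf 521 0)) (move 459 (branch (move 427 (leaf 427 4)) (move 588 (branch (move 492 (leaf 459 7)) (move 620 (leaf 491 7)))))))))))))) (branch (move 558 (branch (move 522 (leaf 522 0)) (move 559 (leaf 523 0)))) (move 491 (branch (move 490 (leaf 490 3)) (move 459 (branch (move 427 (branch (move 428 (branch (move 396 (leaf 395 6)) (move 426 (branch (move 394 (leaf 394 7)) (move 460 (branch (move 492 (leaf 428 4)) (move 425 (branch (move 424 (leaf 424 0)) (move 461 (leaf 425 0))))))))))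 (branch (move 395 (branch (move 492 (leaf 395 4)) (move 394 (branch (move 362 (leaf 362 7)) (move 426 (leaf 394 7)))))) (branch (move 558 (branch (move 559 (leaf 523 0)) (move 396 (branch (move 428 (leaf 395 6)) (move 395 (branch (move 364 (leaf 363 6)) (move 394 (branch (move 362 (leaf 362 7)) (move 426 (leaf 394 7)))))))))) (move 395 (branch (move 492 (leaf 395 4)) (move 396 (branch (move 364 (leaf 363 6)) (move 428 (leaf 395 6)))))))))) (branch (move 558 (branch (move 559 (leaf 523 0)) (move 427 (branch (move 556 (leaf 427 4)) (move 396 (branch (move 428 (leaf 395 6)) (move 395 (branch (move 364 (leaf 363 6)) (move 394 (branch (move 362 (leaf 362 7)) (move 426 (leaf 394 7)))))))))))) (branch (move 556 (branch (move 427 (leaf 427 4)) (move 588 (branch (move 492 (leaf 459 7)) (move 620 (leaf 491 7)))))) (move 555 (branch (move 554 (leaf 522 1)) (move 556 (branch (move 588 (leaf 459 4)) (move 558 (branch (move 559 (leaf 523 0)) (move 460 (branch (move 428 (leaf 427 6)) (move 492 (branch (move 589 (leaf 460 4)) (move 461 (branch (move 429 (leaf 428 6)) (move 458 (branch (move 426 (leaf 426 7)) (move 457 (branch (move 456 (leaf 456 0)) (move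 493 (leaf 457 0)))))))))))))))))))))))))))
theorem a6p773 : a6e773.Valid :=
  pos_of_chk [] forall_nil a6c773 a6e773 (by decide +kernel)

def a6e774 : Pos := ⟨471745303432202956716463588942664849720522026980987947953904447181637266339924679313853331149090208694433365517755703559262404264522454503056578184432640363429697159168, 421382346994332082091650641493591524214322934344975941727367811155911722362716473424393890782402835852263388018151447721955343486178780675592939444199899822661513270065370428005077036215992848335900376039424, 13⟩
def a6c774 : Cert := (move 524 (branch (move 523 (branch (move 490 (branch (move 491 (leaf 490 3)) (move 522 (branch (move 489 (leaf 489 3)) (move 554 (branch (move 553 (leaf 521 1)) (move 555 (leaf 522 1)))))))) (branch (move 558 (branch (move 522 (leaf 522 0)) (move 559 (leaf 523 0)))) (move 555 (branch (move 554 (leaf 522 1)) (move 587 (branch (move 619 (branch (move 492 (leaf 491 6)) (move 558 (branch (move 559 (leaf 523 0)) (move 652 (branch (move 620 (leaf 523 4)) (move 651 (branch (move 684 (leaf 555 4)) (move 650 (branch (move 618 (leaf 522 5)) (move 682 (leaf 554 5)))))))))))) (branch (move 491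 (branch (move 490 (leaf 490 3)) (move 558 (branch (move 559 (leaf 523 0)) (move 588 (branch (move 620 (leaf 491 4)) (move 586 (branch (move 589 (leaf 554 2)) (move 618 (leaf 490 5)))))))))) (move 491 (branch (move 490 (leaf 490 3)) (move 492 (branch (move 460 (leaf 459 6)) (move 619 (leaf 491 6)))))))))))))) (branch (ref 0) (branch (ref 1) (branch (move 523 (branch (move 554 (branch (move 555 (leaf 522 1)) (move 522 (branch (move 553 (leaf 521 1)) (move 491 (branch (move 490 (leaf 490 3)) (move 556 (branch (move 521 (leaf 521 0)) (move 459 (branch (move 427 (leaf 427 4)) (move 588 (branch (move 492 (leaf 459 7)) (move 620 (leaf 491 7)))))))))))))) (branch (move 558 (branch (move 522 (leaf 522 0)) (move 559 (leaf 523 0)))) (move 555 (branch (move 554 (leaf 522 1)) (move 587 (branch (move 491 (branch (move 490 (leaf 490 3)) (move 558 (branch (move 559 (leaf 523 0)) (move 588 (branch (move 620 (leaf 491 4)) (move 586 (branch (move 589 (leaf 554 2)) (move 618 (leaf 490 5)))))))))) (branch (move 558 (branch (move 559 (leaf 523 0)) (move 491 (branch (move 490 (leaf 490 3)) (move 586 (branch (move 556 (leaf 554 1)) (move 618 (leaf 490 5))))))))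 (move 619 (branch (move 492 (leaf 491 6)) (move 651 (branch (move 556 (leaf 523 6)) (move 652 (branch (move 620 (leaf 523 4)) (move 684 (leaf 555 4)))))))))))))))) (branch (move 492 (branch (move 523 (branch (move 558 (branch (move 522 (leaf 522 0)) (move 559 (leaf 523 0)))) (move 555 (branch (move 554 (leaf 522 1)) (move 460 (branch (move 428 (leaf 428 4)) (move 587 (branch (move 556 (leaf 459 5)) (move 619 (leaf 491 6)))))))))) (branch (move 460 (branch (move 428 (leaf 428 4)) (move 589 (branch (move 493 (leaf 460 7)) (move 621 (leaf 492 7)))))) (move 523 (branch (move 558 (branch (move 522 (leaf 522 0)) (move 559 (leaf 523 0)))) (branch (move 554 (branch (move 555 (leaf 522 1)) (move 522 (branch (move 553 (leaf 521 1)) (move 521 (branch (move 556 (leaf 521 0)) (move 520 (branch (move 491 (leaf 488 2)) (move 488 (branch (move 487 (leaf 487 3)) (move 489 (leaf 488 3)))))))))))) (move 558 (branch (move 559 (leaf 523 0)) (move 555 (branch (move 554 (leaf 522 1)) (move 587 (branch (move 619 (leaf 491 6)) (move 589 (branch (move 621 (leaf 492 7)) (move 586 (branch (move 556 (leaf 554 1)) (move 588 (leaf 554 2)))))))))))))))))) (branch (move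 523 (branch (move 554 (branch (move 555 (leaf 522 1)) (move 522 (branch (move 553 (leaf 521 1)) (move 521 (branch (move 556 (leaf 521 0)) (move 489 (branch (move 488 (leaf 488 3)) (move 490 (leaf 489 3)))))))))) (branch (move 558 (branch (move 522 (leaf 522 0)) (move 559 (leaf 523 0)))) (move 492 (branch (move 555 (branch (move 554 (leaf 522 1)) (move 460 (branch (move 428 (leaf 428 4)) (move 587 (branch (move 556 (leaf 459 5)) (move 619 (leaf 491 6)))))))) (branch (move 558 (branch (move 559 (leaf 523 0)) (move 555 (branch (move 554 (leaf 522 1)) (move 587 (branch (move 619 (leaf 491 6)) (move 589 (branch (move 621 (leaf 492 7)) (move 586 (branch (move 556 (leaf 554 1)) (move 588 (leaf 554 2)))))))))))) (move 460 (branch (move 428 (leaf 428 4)) (move 589 (branch (move 493 (leaf 460 7)) (move 621 (leaf 492 7)))))))))))) (branch (move 523 (branch (move 492 (branch (move 460 (branch (move 428 (leaf 428 4)) (move 589 (branch (move 556 (leaf 460 4)) (move 621 (leaf 492 7)))))) (branch (move 554 (branch (move 555 (leaf 522 1)) (move 522 (branch (move 553 (leaf 521 1)) (move 521 (branch (move 556 (leaf 521 0)) (move 520 (branch (move 491 (leaf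 488 2)) (move 488 (branch (move 487 (leaf 487 3)) (move 489 (leaf 488 3)))))))))))) (move 555 (branch (move 554 (leaf 522 1)) (move 460 (branch (move 428 (leaf 428 4)) (move 587 (branch (move 491 (leaf 459 6)) (move 619 (leaf 491 6))))))))))) (branch (move 558 (branch (move 522 (leaf 522 0)) (move 559 (leaf 523 0)))) (move 492 (branch (move 460 (branch (move 428 (leaf 428 4)) (move 589 (branch (move 556 (leaf 460 4)) (move 621 (leaf 492 7)))))) (branch (move 555 (branch (move 554 (leaf 522 1)) (move 491 (branch (move 490 (leaf 490 3)) (move 587 (branch (move 460 (leaf 459 6)) (move 619 (leaf 491 6)))))))) (move 491 (branch (move 490 (leaf 490 3)) (move 555 (branch (move 554 (leaf 522 1)) (move 558 (branch (move 559 (leaf 523 0)) (move 587 (branch (move 619 (leaf 491 6)) (move 586 (branch (move 556 (leaf 554 1)) (move 618 (leaf 490 5)))))))))))))))))) (branch (ref 2) (move 523 (branch (move 490 (branch (move 491 (leaf 490 3)) (move 522 (branch (move 489 (leaf 489 3)) (move 554 (branch (move 553 (leaf 521 1)) (move 555 (leaf 522 1)))))))) (branch (move 558 (branch (move 522 (leaf 522 0)) (move 559 (leaf 523 0)))) (move 555 (branch (move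 554 (leaf 522 1)) (move 587 (branch (move 491 (branch (move 490 (leaf 490 3)) (move 558 (branch (move 559 (leaf 523 0)) (move 588 (branch (move 620 (leaf 491 4)) (move 586 (branch (move 589 (leaf 554 2)) (move 618 (leaf 490 5)))))))))) (branch (move 491 (branch (move 490 (leaf 490 3)) (move 588 (branch (move 620 (leaf 491 4)) (move 556 (branch (move 459 (leaf 459 4)) (move 586 (branch (move 585 (leaf 553 2)) (move 618 (leaf 490 5)))))))))) (branch (move 558 (branch (move 559 (leaf 523 0)) (move 491 (branch (move 490 (leaf 490 3)) (move 586 (branch (move 556 (leaf 554 1)) (move 618 (leaf 490 5)))))))) (branch (move 558 (branch (move 559 (leaf 523 0)) (move 556 (branch (move 586 (leaf 554 1)) (move 619 (branch (move 651 (leaf 523 6)) (move 620 (branch (move 652 (leaf 523 4)) (move 588 (branch (move 493 (leaf 492 6)) (move 621 (branch (move 653 (leaf 524 4)) (move 618 (branch (move 650 (leaf 522 5)) (move 617 (branch (move 616 (leaf 584 2)) (move 589 (leaf 585 2)))))))))))))))))) (move 491 (branch (move 490 (leaf 490 3)) (move 588 (branch (move 620 (leaf 491 4)) (move 558 (branch (move 559 (leaf 523 0)) (move 459 (branch (move 556 (leaf 459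 4)) (move 428 (branch (move 460 (leaf 427 6)) (move 427 (branch (move 396 (leaf 395 6)) (move 426 (branch (move 394 (leaf 394 7)) (move 458 (leaf 426 7)))))))))))))))))))))))))))))))))))
theorem a6p774 : a6e774.Valid :=
  pos_of_chk [a6e771, a6e772, a6e773] (forall_cons a6p771 (forall_cons a6p772 (forall_cons a6p773 forall_nil))) a6c774 a6e774 (by decide +kernel)

def a6e775 : Pos := ⟨117936326132642645590733626865989396483255746562640803588381457167365715869362450617682336193277817790072910477604809902410160942552133909442687752802303630809308856320, 474874370938926010834885226516085752846859684458187957379150899620277309463569884033667151358903399321151938185819340446217745875653409227835493489148484515258652184125311549440, 12⟩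
def a6c775 : Cert := (move 459 (branch (move 426 (branch (move 458 (leaf 426 7)) (move 427 (branch (move 394 (leaf 394 7)) (move 428 (branch (move 396 (leaf 395 6)) (move 460 (leaf 427 6)))))))) (branch (move 554 (branch (move 586 (leaf 458 5)) (move 427 (branch (move 522 (leaf 426 5)) (move 426 (branch (move 394 (leaf 394 7)) (move 458 (leaf 426 7)))))))) (branch (move 428 (branch (move 460 (leaf 427 6)) (move 427 (branch (move 396 (leaf 395 6)) (move 554 (branch (move 522 (leaf 426 5)) (move 586 (leaf 458 5)))))))) (move 490 (branch (move 460 (branch (move 428 (leaf 427 6)) (move 461 (branch (move 462 (leaf 458 1)) (move 489 (branch (move 488 (leaf 456 2)) (move 492 (leaf 457 2)))))))) (branch (move 458 (branch (move 426 (leaf 426 7)) (move 492 (branch (move 493 (leaf 490 0)) (move 457 (branch (move 456 (leaf 456 0)) (move 554 (branch (move 586 (leaf 458 5)) (move 522 (branch (move 425 (leaf 425 7)) (move 521 (branch (move 520 (leaf 488 2)) (move 553 (branch (move 585 (leaf 457 5)) (move 552 (branch (move 551 (leaf 519 2)) (move 584 (branch (move 583 (leaf 551 1)) (move 489 (leaf 456 5)))))))))))))))))))) (branch (move 458 (branch (move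 426 (leaf 426 7)) (move 460 (branch (move 428 (leaf 427 6)) (move 489 (branch (move 461 (leaf 457 1)) (move 488 (leaf 456 2)))))))) (move 458 (branch (move 426 (leaf 426 7)) (move 492 (branch (move 493 (leaf 490 0)) (move 460 (branch (move 428 (leaf 427 6)) (move 457 (branch (move 456 (leaf 456 0)) (move 554 (branch (move 586 (leaf 458 5)) (move 425 (branch (move 424 (leaf 424 3)) (move 522 (leaf 425 7))))))))))))))))))))))
theorem a6p775 : a6e775.Valid :=
  pos_of_chk [] forall_nil a6c775 a6e775 (by decide +kernel)

def a6e776 : Pos := ⟨117936326132642645584340285834942244393386235436024398994208328171187854952402897164369574872174937800066523578530778345474835387615493145752810298611121222502026575872, 23359695969840033786458444105589108380692132914176865209753949188057423034287265069233390127942605864991797663109115654702362842302278182604732613038254570907994756992361138727456507926228326416384, 13⟩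
def a6c776 : Cert := (move 491 (branch (move 587 (branch (move 620 (branch (move 588 (leaf 491 4)) (move 619 (branch (move 652 (leaf 523 4)) (move 618 (branch (move 586 (leaf 490 5)) (move 650 (leaf 522 5)))))))) (move 490 (branch (move 458 (leaf 458 7)) (move 492 (branch (move 493 (leaf 490 0)) (move 460 (leaf 459 6)))))))) (branch (move 459 (branch (move 426 (branch (move 458 (leaf 426 7)) (move 427 (branch (move 394 (leaf 394 7)) (move 428 (branch (move 396 (leaf 395 6)) (move 460 (leaf 427 6)))))))) (branch (move 460 (branch (move 428 (leaf 427 6)) (move 587 (branch (move 492 (leaf 459 6)) (move 620 (branch (move 588 (leaf 491 4)) (move 619 (branch (move 652 (leaf 523 4)) (move 618 (branch (move 586 (leaf 490 5)) (move 650 (leaf 522 5)))))))))))) (move 554 (branch (move 586 (leaf 458 5)) (move 427 (branch (move 522 (leaf 426 5)) (move 426 (branch (move 394 (leaf 394 7)) (move 458 (leaf 426 7))))))))))) (branch (move 587 (branch (move 490 (branch (move 458 (leaf 458 7)) (move 619 (branch (move 522 (leaf 490 7)) (move 620 (branch (move 588 (leaf 491 4)) (move 652 (leaf 523 4)))))))) (branch (move 586 (branch (move 618 (leaf 490 5)) (move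 459 (branch (move 554 (leaf 458 5)) (move 458 (branch (move 426 (leaf 426 7)) (move 490 (leaf 458 7)))))))) (move 620 (branch (move 588 (leaf 491 4)) (move 619 (branch (move 652 (leaf 523 4)) (move 618 (branch (move 586 (leaf 490 5)) (move 650 (leaf 522 5))))))))))) (branch (move 587 (branch (move 586 (branch (move 618 (leaf 490 5)) (move 459 (branch (move 554 (leaf 458 5)) (move 460 (branch (move 428 (leaf 427 6)) (move 492 (leaf 459 6)))))))) (branch (move 620 (branch (move 588 (leaf 491 4)) (move 619 (branch (move 652 (leaf 523 4)) (move 618 (branch (move 586 (leaf 490 5)) (move 650 (leaf 522 5)))))))) (move 492 (branch (move 460 (leaf 459 6)) (move 490 (branch (move 493 (leaf 490 0)) (move 619 (branch (move 522 (leaf 490 7)) (move 620 (branch (move 588 (leaf 491 4)) (move 652 (leaf 523 4))))))))))))) (branch (move 459 (branch (move 426 (branch (move 458 (leaf 426 7)) (move 427 (branch (move 394 (leaf 394 7)) (move 428 (branch (move 396 (leaf 395 6)) (move 460 (leaf 427 6)))))))) (branch (move 426 (branch (move 458 (leaf 426 7)) (move 427 (branch (move 394 (leaf 394 7)) (move 396 (branch (move 428 (leaf 395 6)) (move 395 (branch (move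 364 (leaf 363 6)) (move 522 (branch (move 490 (leaf 394 5)) (move 554 (leaf 426 5)))))))))))) (branch (move 460 (branch (move 428 (leaf 427 6)) (move 492 (branch (move 587 (leaf 459 6)) (move 490 (branch (move 493 (leaf 490 0)) (move 489 (branch (move 488 (leaf 456 2)) (move 461 (leaf 457 2)))))))))) (move 426 (branch (move 458 (leaf 426 7)) (move 427 (branch (move 394 (leaf 394 7)) (move 522 (branch (move 554 (leaf 426 5)) (move 490 (branch (move 395 (leaf 394 5)) (move 492 (branch (move 493 (leaf 490 0)) (move 587 (branch (move 460 (leaf 459 6)) (move 619 (leaf 490 7)))))))))))))))))) (ref 0)))))))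
theorem a6p776 : a6e776.Valid :=
  pos_of_chk [a6e775] (forall_cons a6p775 forall_nil) a6c776 a6e776 (by decide +kernel)

def a6e777 : Pos := ⟨589681629235335314614534608458475855758001387988079452541234115701890875251421503675135415519382283742750070457376258957946158466356092224822989580040208227958200991744, 23359695969840033790289097366324457917467279564394826490654555961982426578911950805458049725494979954262123695283091157428327130928832536428527600049454608045992840686224052533241190357690923089920, 10⟩
def a6c777 : Cert := (move 491 (branch (move 587 (branch (move 458 (branch (move 490 (leaf 458 7)) (move 459 (branch (move 426 (leaf 426 7)) (move 460 (branch (move 428 (leaf 427 6)) (move 492 (leaf 459 6)))))))) (move 620 (branch (move 588 (leaf 491 4)) (move 619 (branch (move 652 (leaf 523 4)) (move 618 (branch (move 586 (leaf 490 5)) (move 650 (leaf 522 5)))))))))) (branch (move 524 (branch (move 490 (leaf 490 3)) (move 558 (branch (move 522 (leaf 522 0)) (move 559 (leaf 523 0)))))) (move 587 (branch (move 620 (branch (move 588 (leaf 491 4)) (move 619 (branch (move 652 (leaf 523 4)) (move 618 (branch (move 586 (leaf 490 5)) (move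 650 (leaf 522 5)))))))) (move 558 (branch (move 460 (branch (move 492 (leaf 459 6)) (move 459 (branch (move 428 (leaf 427 6)) (move 426 (branch (move 458 (leaf 426 7)) (move 427 (branch (move 394 (leaf 394 7)) (move 461 (branch (move 462 (leaf 426 3)) (move 493 (branch (move 429 (leaf 429 4)) (move 590 (leaf 461 4)))))))))))))) (move 524 (branch (move 522 (leaf 522 0)) (move 559 (leaf 523 0)))))))))))
theorem a6p777 : a6e777.Valid :=
  pos_of_chk [] forall_nil a6c777 a6e777 (by decide +kernel)

def a6e778 : Pos := ⟨589681629207876123974012169598548252561675815119001711340660894064313021414679330941544791310892045180104252237467073712380235034207604272824123004789912114793740763136, 100329130234965947463422265818993403955244428426915086673570899238058953068330396360832423264543098953178276866183515308894003720616852076851524486975226162251610636571279005744511957812531721308127933497344, 14⟩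
def a6c778 : Cert := (move 523 (branch (move 524 (branch (move 554 (leaf 522 1)) (move 558 (branch (move 522 (leaf 522 0)) (move 559 (leaf 523 0)))))) (branch (ref 0) (branch (move 524 (branch (move 554 (leaf 522 1)) (move 587 (branch (move 619 (branch (move 492 (leaf 491 6)) (move 558 (branch (move 559 (leaf 523 0)) (move 652 (branch (move 620 (leaf 523 4)) (move 651 (branch (move 684 (leaf 555 4)) (move 650 (branch (move 618 (leaf 522 5)) (move 682 (leaf 554 5)))))))))))) (branch (move 491 (branch (move 490 (leaf 490 3)) (move 492 (branch (move 460 (leaf 459 6)) (move 619 (leaf 491 6)))))) (branch (move 491 (branch (move 490 (leaf 490 3)) (move 558 (branch (move 559 (leaf 523 0)) (move 620 (branch (move 588 (leaf 491 4)) (move 619 (branch (move 652 (leaf 523 4)) (move 618 (branch (move 586 (leaf 490 5)) (move 650 (leaf 522 5)))))))))))) (move 491 (branch (move 490 (leaf 490 3)) (move 460 (branch (move 492 (leaf 459 6)) (move 558 (branch (move 559 (leaf 523 0)) (move 459 (branch (move 428 (leaf 427 6)) (move 426 (branch (move 458 (leaf 426 7)) (move 427 (branch (move 394 (leaf 394 7)) (move 461 (branch (move 462 (leaf 426 3)) (move 493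 (branch (move 429 (leaf 429 4)) (move 590 (leaf 461 4)))))))))))))))))))))))) (ref 1)))))
theorem a6p778 : a6e778.Valid :=
  pos_of_chk [a6e776, a6e777] (forall_cons a6p776 (forall_cons a6p777 forall_nil)) a6c778 a6e778 (by decide +kernel)

def a6e779 : Pos := ⟨589681629207876123974012169598548252561675815119001711340660894064313021414679330941544791310892045180104252237467073712380235034207604272824123004789912114793740763136, 40131652108936584405761952178407627430536703307199484300458820443421525171124053135167631505646684608786407353691002271087332145658590260575634023472111226628990502702841261977873997650380293236473401966592, 9⟩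
def a6c779 : Cert := (move 554 (branch (move 556 (leaf 522 2)) (move 523 (branch (move 524 (leaf 522 1)) (move 491 (branch (move 587 (branch (move 460 (branch (move 492 (leaf 459 6)) (move 459 (branch (move 428 (leaf 427 6)) (move 427 (branch (move 522 (leaf 426 5)) (move 426 (branch (move 394 (leaf 394 7)) (move 458 (leaf 426 7)))))))))) (branch (move 492 (branch (move 460 (leaf 459 6)) (move 490 (branch (move 493 (leaf 490 0)) (move 619 (branch (move 522 (leaf 490 7)) (move 620 (branch (move 588 (leaf 491 4)) (move 652 (leaf 523 4)))))))))) (branch (move 490 (branch (move 458 (leaf 458 7)) (move 619 (branch (move 522 (leaf 490 7)) (move 620 (branch (move 588 (leaf 491 4)) (move 652 (leaf 523 4)))))))) (move 460 (branch (move 492 (leaf 459 6)) (move 459 (branch (move 428 (leaf 427 6)) (move 458 (branch (move 426 (leaf 426 7)) (move 490 (leaf 458 7)))))))))))) (branch (move 459 (branch (move 586 (leaf 458 5)) (move 427 (branch (move 522 (leaf 426 5)) (move 428 (branch (move 396 (leaf 395 6)) (move 460 (leaf 427 6)))))))) (branch (move 459 (branch (move 586 (leaf 458 5)) (move 460 (branch (move 428 (leaf 427 6)) (move 458 (branch (move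 426 (leaf 426 7)) (move 587 (branch (move 492 (leaf 459 6)) (move 490 (leaf 458 7)))))))))) (branch (move 586 (branch (move 459 (leaf 458 5)) (move 618 (branch (move 587 (leaf 490 5)) (move 522 (leaf 490 6)))))) (move 587 (branch (move 586 (branch (move 618 (leaf 490 5)) (move 620 (branch (move 588 (leaf 491 4)) (move 619 (branch (move 652 (leaf 523 4)) (move 651 (branch (move 522 (leaf 522 7)) (move 683 (leaf 554 7)))))))))) (move 490 (branch (move 458 (leaf 458 7)) (move 492 (branch (move 493 (leaf 490 0)) (move 460 (leaf 459 6)))))))))))))))))
theorem a6p779 : a6e779.Valid :=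
  pos_of_chk [] forall_nil a6c779 a6e779 (by decide +kernel)

def a6e780 : Pos := ⟨1769044886964607796549497976157382280973213696499139345208225362891070572162225847218459392928910410036813119434580775243558542731059101970499571208362629628434176802816, 9343878387065797028127461802465963227662032718320100435830807885064226787448457912442770962251438319522815045364435488442630316877948435192750603628543012765981690611343803132376721177672807350272, 5⟩
def a6c780 : Cert := (move 524 (branch (move 587 (branch (move 586 (leaf 554 1)) (move 492 (branch (move 460 (leaf 459 5)) (move 619 (branch (move 588 (leaf 491 5)) (move 651 (leaf 523 6)))))))) (branch (move 523 (branch (move 522 (leaf 522 0)) (move 491 (branch (move 490 (leaf 490 3)) (move 459 (branch (move 427 (leaf 427 4)) (move 588 (leaf 459 4)))))))) (move 523 (branch (move 522 (leaf 522 0)) (move 587 (branch (move 586 (leaf 554 1)) (move 492 (branch (move 460 (leaf 459 5)) (move 619 (leaf 491 6)))))))))))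
theorem a6p780 : a6e780.Valid :=
  pos_of_chk [] forall_nil a6c780 a6e780 (by decide +kernel)

def a6e781 : Pos := ⟨825554280759222458489109330910315058243983391395029238114173787829664531564188634196927711634495718151446025676889814018615896573577903812359212645504455617521827971072, 28031635179689491453054767787484102004444566062001352854463559567805545290446645788273507204101571594044228286462701156664218526333336172805765523126125891619226450059566093608318696441351596146688, 8⟩
def a6c781 : Cert := (move 588 (branch (move 493 (branch (move 461 (leaf 460 5)) (move 589 (branch (move 620 (leaf 492 5)) (move 590 (branch (move 591 (leaf 555 3)) (move 622 (leaf 493 4)))))))) (branch (move 491 (branch (move 493 (branch (move 461 (leaf 460 5)) (move 492 (branch (move 490 (leaf 490 0)) (move 524 (branch (move 459 (leaf 459 7)) (move 587 (branch (move 460 (leaf 459 5)) (move 619 (leaf 491 5)))))))))) (branch (move 493 (branch (move 461 (leaf 460 5)) (move 490 (branch (move 492 (leaf 490 0)) (move 523 (branch (move 524 (leaf 490 3)) (move 587 (branch (move 458 (leaf 458 7)) (move 586 (branch (move 585 (leaf 553 2)) (move 618 (leaf 490 5))))))))))))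 (branch (move 523 (branch (move 459 (leaf 459 4)) (move 490 (branch (move 524 (leaf 490 3)) (move 587 (branch (move 458 (leaf 458 7)) (move 586 (branch (move 585 (leaf 553 2)) (move 618 (leaf 490 5)))))))))) (branch (move 523 (branch (move 459 (leaf 459 4)) (move 493 (branch (move 461 (leaf 460 5)) (move 490 (branch (move 492 (leaf 490 0)) (move 587 (branch (move 458 (leaf 458 7)) (move 586 (branch (move 585 (leaf 553 2)) (move 618 (leaf 490 5)))))))))))) (move 459 (branch (move 523 (leaf 459 4)) (move 492 (branch (move 524 (leaf 459 7)) (move 493 (branch (move 461 (leaf 460 5)) (move 589 (branch (move 460 (leaf 460 7)) (move 590 (branch (move 591 (leaf 555 3)) (move 622 (leaf 493 4))))))))))))))))) (branch (move 620 (branch (move 652 (leaf 524 6)) (move 493 (branch (move 461 (leaf 460 5)) (move 524 (leaf 492 6)))))) (move 620 (branch (move 652 (leaf 524 6)) (move 524 (branch (move 619 (branch (move 651 (leaf 523 5)) (move 492 (branch (move 587 (leaf 491 5)) (move 460 (branch (move 428 (leaf 428 4)) (move 589 (leaf 460 4)))))))) (branch (move 491 (branch (move 523 (leaf 491 7)) (move 492 (branch (move 459 (leaf 459 7)) (move 460 (branch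 (move 428 (leaf 428 4)) (move 589 (leaf 460 4)))))))) (move 523 (branch (move 491 (leaf 491 7)) (move 522 (branch (move 521 (leaf 521 0)) (move 619 (branch (move 651 (leaf 523 5)) (move 490 (branch (move 489 (leaf 489 3)) (move 587 (leaf 490 7)))))))))))))))))))
theorem a6p781 : a6e781.Valid :=
  pos_of_chk [] forall_nil a6c781 a6e781 (by decide +kernel)

def a6e782 : Pos := ⟨589681629207876123974012169598548252561675815119001711340660894064313021414679330941544791310892045180104252237467073712380235034207604272824123004789912114793740763136, 28031635179689491453054767801872333749076692467422279694481334714426654026996090023315241025561031598627225339675481273475938887532761180274028385009381242321577739418468735593276025554243537600512, 9⟩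
def a6c782 : Cert := (move 556 (branch (move 558 (branch (move 587 (branch (move 586 (leaf 554 1)) (move 559 (branch (move 588 (leaf 555 1)) (move 560 (branch (move 524 (leaf 524 3)) (move 561 (leaf 525 3)))))))) (move 590 (branch (move 591 (leaf 555 0)) (move 493 (branch (move 461 (leaf 461 4)) (move 622 (leaf 493 7)))))))) (branch (move 558 (branch (move 590 (branch (move 591 (leaf 555 0)) (move 493 (branch (move 461 (leaf 461 4)) (move 622 (leaf 493 7)))))) (move 523 (branch (move 522 (leaf 522 3)) (move 524 (branch (move 559 (leaf 523 0)) (move 587 (branch (move 586 (leaf 554 1)) (move 492 (branch (move 460 (leaf 459 5)) (move 619 (leaf 491 6)))))))))))) (branch (move 558 (branch (move 587 (branch (move 586 (leaf 554 1)) (move 588 (branch (move 559 (leaf 555 1)) (move 620 (branch (move 652 (leaf 524 6)) (move 523 (branch (move 522 (leaf 522 3)) (move 491 (leaf 491 4)))))))))) (move 590 (branch (move 591 (leaf 555 0)) (move 493 (branch (move 461 (leaf 461 4)) (move 622 (leaf 493 7)))))))) (branch (move 558 (branch (move 590 (branch (move 591 (leaf 555 0)) (move 493 (branch (move 461 (leaf 461 4)) (move 622 (leaf 493 7)))))) (move 523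 (branch (move 522 (leaf 522 3)) (move 524 (branch (move 559 (leaf 523 0)) (move 491 (branch (move 490 (leaf 490 3)) (move 588 (branch (move 459 (leaf 459 4)) (move 620 (leaf 491 7)))))))))))) (branch (move 558 (branch (move 587 (branch (move 586 (leaf 554 1)) (move 588 (branch (move 559 (leaf 555 1)) (move 620 (branch (move 652 (leaf 524 6)) (move 523 (branch (move 522 (leaf 522 3)) (move 491 (leaf 491 4)))))))))) (branch (move 587 (branch (move 586 (leaf 554 1)) (move 559 (branch (move 588 (leaf 555 1)) (move 560 (branch (move 524 (leaf 524 3)) (move 561 (leaf 525 3)))))))) (branch (ref 0) (branch (move 523 (branch (move 522 (leaf 522 3)) (move 524 (branch (move 559 (leaf 523 0)) (move 587 (branch (move 586 (leaf 554 1)) (move 492 (branch (move 460 (leaf 459 5)) (move 619 (leaf 491 6)))))))))) (move 523 (branch (move 522 (leaf 522 3)) (move 524 (branch (move 559 (leaf 523 0)) (move 491 (branch (move 490 (leaf 490 3)) (move 588 (branch (move 459 (leaf 459 4)) (move 620 (leaf 491 7))))))))))))))) (ref 1)))))))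
theorem a6p782 : a6e782.Valid :=
  pos_of_chk [a6e780, a6e781] (forall_cons a6p780 (forall_cons a6p781 forall_nil)) a6c782 a6e782 (by decide +kernel)

def a6e783 : Pos := ⟨471745303432202956716463588942664849720522026980987947953904447181637266339924679313853331149090208694433365517755703559262404264522454503056578184432640363429697159168, 140460782315870896724303386082235158332306414253563624645336803345301036603751842622607930448783939431314572434009489662246845482787285045389503732577393121678953795574914066367487656034824220310407525433344, 15⟩
def a6c783 : Cert := (move 555 (branch (ref 0) (branch (move 556 (branch (move 554 (leaf 522 2)) (move 558 (branch (move 587 (branch (move 586 (leaf 554 1)) (move 559 (branch (move 588 (leaf 555 1)) (move 560 (branch (move 524 (leaf 524 3)) (move 561 (leaf 525 3)))))))) (move 590 (branch (move 591 (leaf 555 0)) (move 493 (branch (move 461 (leaf 461 4)) (move 622 (leaf 493 7)))))))))) (branch (ref 1) (branch (move 556 (branch (move 554 (leaf 522 2)) (move 558 (branch (move 587 (branch (move 586 (leaf 554 1)) (move 588 (branch (move 559 (leaf 555 1)) (move 620 (branch (move 652 (leaf 524 6)) (move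 523 (branch (move 522 (leaf 522 3)) (move 491 (leaf 491 4)))))))))) (move 590 (branch (move 591 (leaf 555 0)) (move 493 (branch (move 461 (leaf 461 4)) (move 622 (leaf 493 7)))))))))) (branch (move 556 (branch (move 554 (leaf 522 2)) (move 558 (branch (move 587 (branch (move 586 (leaf 554 1)) (move 588 (branch (move 559 (leaf 555 1)) (move 620 (branch (move 652 (leaf 524 6)) (move 523 (branch (move 522 (leaf 522 3)) (move 491 (leaf 491 4)))))))))) (branch (move 591 (branch (move 590 (leaf 555 0)) (move 559 (branch (move 592 (leaf 556 0)) (move 560 (branch (move 524 (leaf 524 3)) (move 561 (leaf 525 3)))))))) (ref 2)))))) (branch (move 556 (branch (move 554 (leaf 522 2)) (move 558 (branch (move 590 (branch (move 591 (leaf 555 0)) (move 493 (branch (move 461 (leaf 461 4)) (move 622 (leaf 493 7)))))) (move 523 (branch (move 522 (leaf 522 3)) (move 524 (branch (move 559 (leaf 523 0)) (move 491 (branch (move 490 (leaf 490 3)) (move 588 (branch (move 459 (leaf 459 4)) (move 620 (leaf 491 7)))))))))))))) (branch (move 556 (branch (move 554 (leaf 522 2)) (move 558 (branch (move 590 (branch (move 591 (leaf 555 0)) (move 493 (branch (move 461 (leaf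 461 4)) (move 622 (leaf 493 7)))))) (move 523 (branch (move 522 (leaf 522 3)) (move 524 (branch (move 559 (leaf 523 0)) (move 587 (branch (move 586 (leaf 554 1)) (move 492 (branch (move 460 (leaf 459 5)) (move 619 (leaf 491 6)))))))))))))) (ref 3)))))))))
theorem a6p783 : a6e783.Valid :=
  pos_of_chk [a6e778, a6e779, a6e780, a6e782] (forall_cons a6p778 (forall_cons a6p779 (forall_cons a6p780 (forall_cons a6p782 forall_nil)))) a6c783 a6e783 (by decide +kernel)

def a6e784 : Pos := ⟨2026130649339417646455839608934986733834649469917127464063458121843611031239057765866994850620807400988285852976383126582018212148044612396323155660410796832770212674100969603072, 156509963074996774054281096719641919884793241331124501921635241893555449312539160235929009678747409404754120558194462102683678048600446800840969162990148797520575946623848037145231135839998739218432, 10⟩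
def a6c784 : Cert := (move 555 (branch (move 554 (branch (move 556 (leaf 522 2)) (move 588 (branch (move 620 (leaf 492 5)) (move 590 (branch (move 587 (leaf 554 3)) (move 622 (leaf 493 4)))))))) (branch (move 590 (branch (move 622 (leaf 493 4)) (move 588 (branch (move 620 (leaf 492 5)) (move 587 (branch (move 554 (leaf 554 3)) (move 558 (branch (move 586 (leaf 554 2)) (move 559 (leaf 555 2)))))))))) (branch (move 590 (branch (move 622 (leaf 493 4)) (move 588 (branch (move 620 (leaf 492 5)) (move 591 (branch (move 556 (leaf 555 3)) (move 559 (branch (move 560 (leaf 556 2)) (move 558 (branch (move 587 (leaf 555 2)) (move 623 (branch (move 624 (leaf 588 0)) (move 655 (leaf 526 7)))))))))))))) (branch (move 590 (branch (move 622 (leaf 493 4)) (move 556 (branch (move 554 (leaf 554 0)) (move 591 (branch (move 558 (leaf 555 0)) (move 592 (leaf 556 3)))))))) (move 586 (branch (move 588 (branch (move 620 (leaf 492 5)) (move 587 (branch (move 558 (leaf 554 2)) (move 585 (branch (move 556 (leaf 553 2)) (move 617 (branch (move 616 (leaf 584 1)) (move 618 (leaf 585 1)))))))))) (branch (move 588 (branch (move 620 (leaf 492 5)) (move 587 (branch (move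 558 (leaf 554 2)) (move 554 (branch (move 553 (leaf 553 3)) (move 618 (branch (move 617 (leaf 585 1)) (move 523 (branch (move 524 (leaf 522 1)) (move 491 (leaf 490 5)))))))))))) (branch (move 554 (branch (move 556 (leaf 522 2)) (move 523 (branch (move 524 (leaf 522 1)) (move 618 (branch (move 650 (leaf 522 6)) (move 522 (branch (move 491 (leaf 490 6)) (move 617 (branch (move 649 (leaf 521 5)) (move 490 (branch (move 585 (leaf 489 5)) (move 489 (branch (move 457 (leaf 457 7)) (move 521 (leaf 489 7)))))))))))))))) (move 554 (branch (move 556 (leaf 522 2)) (move 588 (branch (move 620 (leaf 492 5)) (move 587 (branch (move 558 (leaf 554 2)) (move 553 (leaf 553 3)))))))))))))))))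
theorem a6p784 : a6e784.Valid :=
  pos_of_chk [] forall_nil a6c784 a6e784 (by decide +kernel)

def a6e785 : Pos := ⟨2026130649339417646455839608909413369710460861557649419556992503466918515254346322199156636807556355703874333016357578985722085920303310176576592605651287016005483040871840481280, 156509963074996774054281096719641919884793241331150075285780270421822783169776974445616631444497626324737850261524739747025804329843094862032452636246155346776084701132672888507212345563065696124928, 11⟩
def a6c785 : Cert := (move 493 (branch (ref 0) (branch (move 588 (branch (move 620 (leaf 492 5)) (move 461 (branch (move 556 (leaf 460 5)) (move 430 (branch (move 462 (leaf 429 6)) (move 429 (branch (move 398 (leaf 397 6)) (move 428 (branch (move 396 (leaf 396 7)) (move 460 (leaf 428 7)))))))))))) (move 590 (branch (move 622 (leaf 493 4)) (move 461 (branch (move 558 (leaf 461 4)) (move 430 (branch (move 462 (leaf 429 6)) (move 429 (branch (move 398 (leaf 397 6)) (move 428 (branch (move 396 (leaf 396 7)) (move 460 (leaf 428 7)))))))))))))))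
theorem a6p785 : a6e785.Valid :=
  pos_of_chk [a6e784] (forall_cons a6p784 forall_nil) a6c785 a6e785 (by decide +kernel)

def a6e786 : Pos := ⟨2026130649339417646455839608909413369710460861557649419556992503466918515254346322199156636807556355703874333016357578985722085920303310176576592605651287016005483040871840481280, 1723641332781214160116211151635615768441962673677433782627471885073940436180871945397255652636362065199695210918975244945292309464714471267784397746064407096119003889265997730329278852089739263878607271119613832724480, 11⟩
def a6c786 : Cert := (move 621 (branch (move 652 (branch (move 620 (leaf 524 5)) (move 653 (branch (move 684 (leaf 556 5)) (move 556 (branch (move 524 (leaf 524 7)) (move 555 (branch (move 554 (leaf 522 2)) (move 685 (branch (move 588 (leaf 556 7)) (move 686 (branch (move 654 (leaf 557 4)) (move 718 (leaf 589 4)))))))))))))) (branch (move 653 (branch (move 558 (leaf 525 6)) (move 686 (branch (move 654 (leaf 557 4)) (move 685 (branch (move 718 (leaf 589 4)) (move 684 (branch (move 652 (leaf 556 5)) (move 716 (leaf 588 5)))))))))) (branch (move 653 (branch (move 558 (leaf 525 6)) (move 556 (branch (move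 524 (leaf 524 7)) (move 588 (branch (move 685 (leaf 556 7)) (move 493 (branch (move 461 (leaf 460 5)) (move 620 (leaf 492 5)))))))))) (move 620 (branch (move 652 (leaf 524 5)) (move 588 (branch (move 493 (leaf 492 5)) (move 590 (branch (move 591 (branch (move 592 (leaf 588 1)) (move 555 (branch (move 556 (leaf 555 3)) (move 587 (branch (move 554 (leaf 554 3)) (move 559 (branch (move 558 (leaf 555 2)) (move 560 (leaf 556 2)))))))))) (branch (move 619 (branch (move 591 (leaf 587 1)) (move 618 (leaf 586 2)))) (move 587 (branch (move 619 (branch (move 618 (leaf 586 1)) (move 555 (branch (move 554 (leaf 554 3)) (move 558 (branch (move 559 (leaf 555 2)) (move 523 (branch (move 491 (leaf 491 4)) (move 522 (branch (move 524 (leaf 522 0)) (move 556 (leaf 522 3)))))))))))) (branch (move 619 (branch (move 618 (leaf 586 1)) (move 554 (branch (move 555 (leaf 554 3)) (move 586 (branch (move 585 (leaf 585 0)) (move 553 (leaf 553 3)))))))) (move 586 (branch (move 585 (leaf 585 0)) (move 558 (leaf 554 2))))))))))))))))))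
theorem a6p786 : a6e786.Valid :=
  pos_of_chk [] forall_nil a6c786 a6e786 (by decide +kernel)

def a6e787 : Pos := ⟨471745303432202956742036953066853458080000071487453566330596963166348710007762893127104376433501728654458913114051829787003706484269017557816088001197369996658826280960, 1519597987063531397578690742526391793061655518850422997162015938915770072001600427035719709164547739370562457664947781475807853424321312224149719488448782501267814581968041934848, 10⟩
def a6c787 : Cert := (move 461 (branch (move 428 (branch (move 460 (leaf 428 7)) (move 429 (branch (move 396 (leaf 396 7)) (move 430 (branch (move 398 (leaf 397 6)) (move 462 (leaf 429 6)))))))) (branch (move 556 (branch (move 588 (leaf 460 5)) (move 429 (branch (move 524 (leaf 428 5)) (move 430 (branch (move 398 (leaf 397 6)) (move 462 (leaf 429 6)))))))) (branch (move 556 (branch (move 588 (leaf 460 5)) (move 429 (branch (move 524 (leaf 428 5)) (move 428 (branch (move 396 (leaf 396 7)) (move 460 (leaf 428 7)))))))) (move 491 (branch (move 556 (branch (move 588 (leaf 460 5)) (move 460 (branch (move 428 (leaf 428 7)) (move 462 (branch (move 430 (leaf 429 6)) (move 463 (branch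 (move 492 (leaf 459 1)) (move 496 (branch (move 495 (leaf 460 0)) (move 464 (branch (move 497 (leaf 461 0)) (move 432 (branch (move 431 (leaf 428 2)) (move 433 (leaf 429 2)))))))))))))))) (branch (move 556 (branch (move 588 (leaf 460 5)) (move 555 (branch (move 554 (leaf 522 2)) (move 460 (branch (move 428 (leaf 428 7)) (move 462 (branch (move 430 (leaf 429 6)) (move 459 (branch (move 490 (leaf 458 1)) (move 426 (branch (move 427 (leaf 426 3)) (move 458 (branch (move 425 (leaf 425 3)) (move 523 (leaf 426 7)))))))))))))))) (branch (move 490 (branch (move 492 (leaf 490 0)) (move 523 (branch (move 524 (leaf 490 3)) (move 556 (branch (move 588 (leaf 460 5)) (move 555 (branch (move 554 (leaf 522 2)) (move 458 (branch (move 587 (leaf 458 7)) (move 426 (branch (move 394 (leaf 394 4)) (move 522 (leaf 426 4)))))))))))))) (move 490 (branch (move 492 (leaf 490 0)) (move 460 (branch (move 428 (leaf 428 7)) (move 462 (branch (move 459 (leaf 458 1)) (move 430 (leaf 429 6))))))))))))))))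
theorem a6p787 : a6e787.Valid :=
  pos_of_chk [] forall_nil a6c787 a6e787 (by decide +kernel)

def a6e788 : Pos := ⟨2026130649339417646455839608934986733834649469917127464063458121843611031239057765866994850620807400988285852976383126582018212148044612396323155660410796832770212674100969603072, 1723641332781214160116211151645405703924674892675910238081801808290094566739913376228937476807438503360795406786414735969709543854339874403778318555987295864799369223700298760687795750122154786352630294363956970520576, 6⟩
def a6c788 : Cert := (move 621 (branch (move 653 (branch (move 558 (leaf 525 6)) (move 686 (branch (move 654 (leaf 557 4)) (move 685 (branch (move 718 (leaf 589 4)) (move 684 (branch (move 652 (leaf 556 5)) (move 716 (leaf 588 5)))))))))) (branch (move 622 (branch (move 590 (leaf 493 4)) (move 654 (leaf 525 4)))) (move 556 (branch (move 590 (branch (move 622 (leaf 493 4)) (move 555 (branch (move 554 (leaf 554 0)) (move 591 (branch (move 588 (leaf 555 3)) (move 592 (leaf 556 3)))))))) (branch (move 653 (branch (move 558 (leaf 525 6)) (move 685 (branch (move 588 (leaf 556 7)) (move 684 (branch (move 652 (leaf 556 5)) (move 716 (leaf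 588 5)))))))) (move 590 (branch (move 622 (leaf 493 4)) (move 555 (branch (move 554 (leaf 554 0)) (move 558 (branch (move 591 (leaf 555 0)) (move 653 (leaf 525 6))))))))))))))
theorem a6p788 : a6e788.Valid :=
  pos_of_chk [] forall_nil a6c788 a6e788 (by decide +kernel)

def a6e789 : Pos := ⟨471745303432202956742036953066853458080000071487453566330596963166348710007762893127104376433501728654458913114051829787003706484269017557816088001197369996658826280960, 1723641332781214160116211151649756786363855979397243017012903267937371543341106972018453880191799593939322740960152089274152284629582944783196121813675164211989274740854029605394979538388871893484518193748248641929216, 7⟩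
def a6c789 : Cert := (move 589 (branch (move 588 (branch (move 620 (leaf 492 5)) (move 556 (branch (move 461 (leaf 460 5)) (move 555 (branch (move 554 (leaf 522 2)) (move 590 (branch (move 591 (leaf 555 3)) (move 622 (leaf 493 4)))))))))) (branch (move 622 (branch (move 590 (leaf 493 4)) (move 621 (branch (move 654 (leaf 525 4)) (move 653 (branch (move 558 (leaf 525 6)) (move 652 (branch (move 620 (leaf 524 5)) (move 684 (leaf 556 5)))))))))) (branch (ref 0) (ref 1)))))
theorem a6p789 : a6e789.Valid :=
  pos_of_chk [a6e759, a6e788] (forall_cons a6p759 (forall_cons a6p788 forall_nil)) a6c789 a6e789 (by decide +kernel)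

def a6e790 : Pos := ⟨471745303432202956742036953066853458080000071487453566330596963166348710007762893127104376433501728654458913114051829787003706484269017557816088001197369996658826280960, 93438784126827948815626928073881710301429819984509890768636411614635000703312532262985825108209849102555289463562573666939611997845361022282534190192061765753902113296557804980899130027886526857216, 12⟩
def a6c790 : Cert := (move 589 (branch (move 620 (branch (move 588 (leaf 492 5)) (move 621 (branch (move 652 (leaf 524 5)) (move 622 (branch (move 590 (leaf 493 4)) (move 654 (leaf 525 4)))))))) (branch (move 492 (branch (move 460 (leaf 460 7)) (move 621 (branch (move 524 (leaf 492 7)) (move 622 (branch (move 590 (leaf 493 4)) (move 654 (leaf 525 4)))))))) (branch (move 492 (branch (move 460 (leaf 460 7)) (move 621 (branch (move 524 (leaf 492 7)) (move 620 (branch (move 588 (leaf 492 5)) (move 652 (leaf 524 5)))))))) (move 555 (branch (move 492 (branch (move 460 (leaf 460 7)) (move 491 (branch (move 490 (leaf 490 0)) (move 588 (branch (move 620 (leaf 492 5)) (move 590 (branch (move 622 (leaf 493 4)) (move 587 (branch (move 554 (leaf 554 3)) (move 618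 (branch (move 619 (leaf 586 1)) (move 586 (branch (move 617 (leaf 585 1)) (move 523 (leaf 490 5)))))))))))))))) (branch (move 554 (branch (move 556 (leaf 522 2)) (move 523 (branch (move 524 (leaf 522 1)) (move 492 (branch (move 460 (leaf 460 7)) (move 491 (branch (move 490 (leaf 490 0)) (move 586 (branch (move 459 (leaf 458 5)) (move 618 (branch (move 587 (leaf 490 5)) (move 522 (leaf 490 6)))))))))))))) (branch (move 590 (branch (move 622 (leaf 493 4)) (move 556 (branch (move 554 (leaf 554 0)) (move 591 (branch (move 558 (leaf 555 0)) (move 592 (leaf 556 3)))))))) (move 590 (branch (move 622 (leaf 493 4)) (move 588 (branch (move 620 (leaf 492 5)) (move 591 (branch (move 556 (leaf 555 3)) (move 492 (branch (move 460 (leaf 460 7)) (move 491 (branch (move 490 (leaf 490 0)) (move 624 (branch (move 623 (leaf 588 0)) (move 592 (branch (move 625 (leaf 589 0)) (move 593 (branch (move 558 (leaf 557 3)) (move 561 (branch (move 560 (leaf 557 2)) (move 562 (leaf 558 2))))))))))))))))))))))))))))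
theorem a6p790 : a6e790.Valid :=
  pos_of_chk [] forall_nil a6c790 a6e790 (by decide +kernel)

def a6e791 : Pos := ⟨2026130649339417646455839608934986733834649469917127464063458121843611031239057765866994850620807400988285852976383126582018212148044612396323155660410796832770212674100969603072, 60197478135373241450708849015654066755509245728087183649964018298129314096480595801588995237138928302603414576038035549605238692775982631628998534129077947201335277046477413543584632506991767666969043533824, 12⟩
def a6c791 : Cert := (move 588 (branch (move 620 (leaf 492 5)) (move 492 (branch (move 460 (leaf 460 7)) (move 491 (branch (move 490 (leaf 490 0)) (move 556 (branch (move 524 (branch (move 459 (leaf 459 7)) (move 587 (branch (move 619 (leaf 491 5)) (move 558 (branch (move 559 (leaf 555 1)) (move 586 (leaf 554 2)))))))) (branch (move 555 (branch (move 554 (leaf 522 2)) (move 523 (branch (move 459 (leaf 459 4)) (move 558 (branch (move 522 (leaf 522 3)) (move 587 (branch (move 586 (leaf 554 1)) (move 559 (leaf 555 1)))))))))) (branch (move 555 (branch (move 554 (leaf 522 2)) (move 459 (branch (move 523 (leaf 459 4)) (move 524 (leaf 459 7))))))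 (move 587 (branch (move 555 (branch (move 554 (leaf 522 2)) (move 619 (branch (move 524 (leaf 491 5)) (move 651 (branch (move 683 (leaf 555 6)) (move 558 (branch (move 559 (leaf 555 1)) (move 650 (branch (move 682 (leaf 554 5)) (move 523 (branch (move 522 (leaf 522 3)) (move 618 (leaf 522 5)))))))))))))) (branch (move 555 (branch (move 554 (leaf 522 2)) (move 619 (branch (move 524 (leaf 491 5)) (move 586 (branch (move 585 (leaf 553 2)) (move 618 (branch (move 617 (leaf 585 1)) (move 523 (leaf 490 5)))))))))) (move 586 (branch (move 585 (leaf 553 2)) (move 558 (leaf 554 2)))))))))))))))))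
theorem a6p791 : a6e791.Valid :=
  pos_of_chk [] forall_nil a6c791 a6e791 (by decide +kernel)

def a6e792 : Pos := ⟨471745303432202956742036953066853458080000071487453566330596963166348710007762893127104376433501728654458913114051829787003706484269017557816088001197369996658826280960, 61796984805029142695612661215434046560446988011594465653138577782274901489819508139295778721376528818079184849162107848591519095883686087681321836963888156553666426871881849110528, 9⟩
def a6c792 : Cert := (move 461 (branch (move 556 (branch (move 588 (leaf 460 5)) (move 429 (branch (move 524 (leaf 428 5)) (move 430 (branch (move 398 (leaf 397 6)) (move 462 (leaf 429 6)))))))) (branch (move 558 (branch (move 429 (leaf 429 4)) (move 590 (leaf 461 4)))) (move 558 (branch (move 590 (leaf 461 4)) (move 556 (branch (move 588 (leaf 460 5)) (move 555 (branch (move 554 (leaf 522 2)) (move 523 (branch (move 522 (leaf 522 3)) (move 559 (branch (move 524 (leaf 523 0)) (move 560 (branch (move 561 (leaf 525 3)) (move 592 (branch (move 591 (leaf 556 0)) (move 593 (leaf 557 0)))))))))))))))))))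
theorem a6p792 : a6e792.Valid :=
  pos_of_chk [] forall_nil a6c792 a6e792 (by decide +kernel)

def a6e793 : Pos := ⟨8702164876336042794387567148387158766335015591206035294098495967970418191613878107175460514387427904834330590168338842137466821573535411483906716278373509549666563377729837292851717734400, 138990190983400834715352204471376784034016778096598602639926342742794615972860948321525105545908966183707533297618035236855942816322074961805222115869714614603521886507065893064073380899773113958400, 12⟩
def a6c793 : Cert := (move 524 (branch (move 492 (leaf 492 7)) (move 523 (branch (move 554 (leaf 522 1)) (move 490 (branch (move 491 (leaf 490 3)) (move 522 (branch (move 489 (leaf 489 3)) (move 620 (branch (move 652 (leaf 524 5)) (move 619 (branch (move 587 (leaf 490 7)) (move 618 (branch (move 590 (leaf 586 2)) (move 653 (branch (move 654 (leaf 618 0)) (move 585 (branch (move 586 (leaf 585 3)) (move 617 (branch (move 584 (leaf 584 3)) (move 649 (branch (move 648 (leaf 616 1)) (move 650 (leaf 617 1))))))))))))))))))))))))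
theorem a6p793 : a6e793.Valid :=
  pos_of_chk [] forall_nil a6c793 a6e793 (by decide +kernel)

def a6e794 : Pos := ⟨2026130649339417646455839608909413369710460861557649419556992503466918515254346322199156636807556355703874333016357578985722085920303310176576592605651287016005483040871840481280, 401316520939863789855864604498729988309679183318841878235989572329324813640042153411647247624024865581342873330206194063288107703738177466513201758006543406197402716685745050193533133087960187438332930686976, 6⟩
def a6c794 : Cert := (move 621 (branch (move 653 (branch (move 558 (leaf 525 6)) (move 652 (branch (move 620 (leaf 524 5)) (move 684 (leaf 556 5)))))) (branch (move 653 (branch (move 558 (leaf 525 6)) (move 654 (branch (move 622 (leaf 525 4)) (move 686 (leaf 557 4)))))) (move 622 (branch (move 654 (leaf 525 4)) (move 620 (branch (move 652 (leaf 524 5)) (move 590 (branch (move 493 (leaf 493 4)) (move 591 (branch (move 592 (leaf 588 1)) (move 619 (leaf 587 2)))))))))))))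
theorem a6p794 : a6e794.Valid :=
  pos_of_chk [] forall_nil a6c794 a6e794 (by decide +kernel)

def a6e795 : Pos := ⟨2026130649457353972258971966813877730257319019684998291690700412648421312770777792027613014622151201395269288054680670824416672875922389933346871091107575865804233313707626594304, 17404329753653492621695105741154745012345919518868991967798507603193837648817861194429668388531034675909197250094273685955826419979887956735852384460446817943086454105969897818614413656064, 14⟩
def a6c795 : Cert := (move 459 (branch (move 554 (branch (move 586 (leaf 458 5)) (move 427 (branch (move 522 (leaf 426 5)) (move 396 (branch (move 428 (leaf 395 6)) (move 395 (branch (move 364 (leaf 363 6)) (move 394 (branch (move 362 (leaf 362 7)) (move 426 (leaf 394 7)))))))))))) (branch (move 458 (branch (move 426 (leaf 426 7)) (move 490 (branch (move 587 (leaf 458 7)) (move 493 (branch (move 492 (leaf 490 0)) (move 590 (branch (move 622 (leaf 493 4)) (move 461 (branch (move 558 (leaf 461 4)) (move 430 (branch (move 462 (leaf 429 6)) (move 429 (branch (move 398 (leaf 397 6)) (move 428 (branch (move 427 (leaf 426 1)) (move 396 (leaf 396 7))))))))))))))))))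 (branch (move 554 (branch (move 586 (leaf 458 5)) (move 427 (branch (move 522 (leaf 426 5)) (move 396 (branch (move 428 (leaf 395 6)) (move 395 (branch (move 364 (leaf 363 6)) (move 362 (branch (move 394 (leaf 362 7)) (move 363 (branch (move 330 (leaf 330 7)) (move 490 (branch (move 458 (leaf 362 5)) (move 493 (branch (move 492 (leaf 490 0)) (move 590 (branch (move 622 (leaf 493 4)) (move 461 (branch (move 558 (leaf 461 4)) (move 398 (branch (move 397 (leaf 362 3)) (move 430 (branch (move 429 (leaf 397 6)) (move 462 (leaf 429 6)))))))))))))))))))))))))) (move 458 (branch (move 426 (leaf 426 7)) (move 490 (branch (move 587 (leaf 458 7)) (move 492 (branch (move 493 (leaf 490 0)) (move 457 (branch (move 456 (leaf 456 0)) (move 554 (branch (move 586 (leaf 458 5)) (move 522 (branch (move 425 (leaf 425 7)) (move 521 (branch (move 520 (leaf 488 2)) (move 553 (branch (move 585 (leaf 457 5)) (move 552 (branch (move 551 (leaf 519 2)) (move 584 (branch (move 583 (leaf 551 1)) (move 489 (leaf 456 5))))))))))))))))))))))))))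
theorem a6p795 : a6e795.Valid :=
  pos_of_chk [] forall_nil a6c795 a6e795 (by decide +kernel)

def a6e796 : Pos := ⟨2026130649457353972231512776173355291397391416488672718821622671447848091133199938190870841888560577186779049492034852604507487630356466501198383139108709290553937200543166365696, 17404329753431884581923606936126839736985866321593049314937261602113441136729008359673480239970182111336592359523125314016103597945178485443545781861694581509817498762516788297005128482816, 12⟩
def a6c796 : Cert := (move 493 (branch (move 590 (branch (move 622 (leaf 493 4)) (move 461 (branch (move 558 (leaf 461 4)) (move 428 (branch (move 460 (leaf 428 7)) (move 429 (branch (move 396 (leaf 396 7)) (move 430 (branch (move 398 (leaf 397 6)) (move 462 (leaf 429 6)))))))))))) (branch (move 492 (branch (move 490 (leaf 490 0)) (move 460 (leaf 460 7)))) (move 490 (branch (move 492 (leaf 490 0)) (move 458 (branch (move 590 (branch (move 622 (leaf 493 4)) (move 461 (branch (move 558 (leaf 461 4)) (move 430 (branch (move 462 (leaf 429 6)) (move 429 (branch (move 398 (leaf 397 6)) (move 428 (branch (move 396 (leaf 396 7)) (move 427 (branch (move 459 (leaf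 426 1)) (move 426 (branch (move 457 (leaf 425 1)) (move 394 (branch (move 393 (leaf 393 3)) (move 395 (leaf 394 3)))))))))))))))))) (branch (move 523 (branch (move 587 (leaf 458 7)) (move 426 (branch (move 394 (leaf 394 4)) (move 522 (leaf 426 4)))))) (move 554 (branch (move 590 (branch (move 622 (leaf 493 4)) (move 461 (branch (move 558 (leaf 461 4)) (move 523 (branch (move 587 (leaf 458 7)) (move 430 (branch (move 462 (leaf 429 6)) (move 429 (branch (move 398 (leaf 397 6)) (move 428 (branch (move 396 (leaf 396 7)) (move 459 (branch (move 427 (leaf 426 1)) (move 586 (leaf 458 5)))))))))))))))) (branch (move 590 (branch (move 622 (leaf 493 4)) (move 461 (branch (move 558 (leaf 461 4)) (move 430 (branch (move 462 (leaf 429 6)) (move 429 (branch (move 398 (leaf 397 6)) (move 428 (branch (move 396 (leaf 396 7)) (move 459 (branch (move 427 (leaf 426 1)) (move 586 (branch (move 523 (leaf 458 5)) (move 522 (leaf 458 6)))))))))))))))) (branch (move 522 (branch (move 587 (leaf 458 4)) (move 459 (branch (move 427 (leaf 426 6)) (move 586 (leaf 458 6)))))) (move 587 (branch (move 522 (leaf 458 4)) (move 523 (leaf 458 7))))))))))))))))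
theorem a6p796 : a6e796.Valid :=
  pos_of_chk [] forall_nil a6c796 a6e796 (by decide +kernel)

def a6e797 : Pos := ⟨2026130649457353972231512776166961950366344264398803207695006266853674962137022077273911288435247815865676169502028465705433456073421140946261742375418831836362754792235884085248, 4671939210937228266830791365935461917358015000588988708623868917403082304106556880297490712050776444663340948146436546351142969950179957830346242394964514702812339810662528186581813596517528764416, 16⟩
def a6c797 : Cert := (move 491 (branch (move 493 (branch (move 590 (branch (move 622 (leaf 493 4)) (move 461 (branch (move 558 (leaf 461 4)) (move 428 (branch (move 460 (leaf 428 7)) (move 429 (branch (move 396 (leaf 396 7)) (move 430 (branch (move 398 (leaf 397 6)) (move 462 (leaf 429 6)))))))))))) (branch (move 492 (branch (move 490 (leaf 490 0)) (move 460 (leaf 460 7)))) (move 590 (branch (move 622 (leaf 493 4)) (move 461 (branch (move 558 (leaf 461 4)) (move 492 (branch (move 490 (leaf 490 0)) (move 430 (branch (move 462 (leaf 429 6)) (move 429 (branch (move 398 (leaf 397 6)) (move 397 (branch (move 524 (leaf 396 5)) (move 396 (branch (move 364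 (leaf 364 7)) (move 428 (leaf 396 7))))))))))))))))))) (branch (move 523 (branch (move 524 (branch (move 554 (leaf 522 1)) (move 558 (branch (move 522 (leaf 522 0)) (move 559 (leaf 523 0)))))) (branch (move 459 (branch (move 554 (branch (move 586 (leaf 458 5)) (move 427 (branch (move 522 (leaf 426 5)) (move 426 (branch (move 394 (leaf 394 7)) (move 458 (leaf 426 7)))))))) (move 460 (branch (move 428 (leaf 427 6)) (move 492 (branch (move 587 (leaf 459 6)) (move 493 (leaf 460 7)))))))) (branch (move 554 (branch (move 524 (leaf 522 1)) (move 459 (branch (move 586 (leaf 458 5)) (move 460 (branch (move 428 (leaf 427 6)) (move 492 (branch (move 587 (leaf 459 6)) (move 493 (leaf 460 7)))))))))) (move 460 (branch (move 492 (branch (move 587 (leaf 459 6)) (move 493 (leaf 460 7)))) (branch (move 428 (branch (move 459 (leaf 427 6)) (move 492 (branch (move 524 (leaf 428 4)) (move 396 (leaf 395 5)))))) (move 558 (branch (move 459 (branch (move 428 (leaf 427 6)) (move 426 (branch (move 458 (leaf 426 7)) (move 427 (branch (move 394 (leaf 394 7)) (move 461 (branch (move 462 (leaf 426 3)) (move 493 (branch (move 429 (leaf 429 4)) (move 590 (leaf 461 4))))))))))))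 (move 524 (branch (move 522 (leaf 522 0)) (move 559 (leaf 523 0))))))))))))) (branch (move 523 (branch (move 524 (branch (move 554 (leaf 522 1)) (move 558 (branch (move 522 (leaf 522 0)) (move 559 (leaf 523 0)))))) (branch (move 524 (branch (move 490 (leaf 490 3)) (move 558 (branch (move 522 (leaf 522 0)) (move 559 (leaf 523 0)))))) (branch (move 524 (branch (move 554 (leaf 522 1)) (move 490 (leaf 490 3)))) (move 459 (branch (move 554 (branch (move 586 (leaf 458 5)) (move 427 (branch (move 522 (leaf 426 5)) (move 428 (branch (move 396 (leaf 395 6)) (move 460 (leaf 427 6)))))))) (branch (move 554 (branch (move 586 (leaf 458 5)) (move 427 (branch (move 522 (leaf 426 5)) (move 426 (branch (move 394 (leaf 394 7)) (move 458 (leaf 426 7)))))))) (move 458 (branch (move 426 (leaf 426 7)) (move 490 (branch (move 587 (leaf 458 7)) (move 460 (branch (move 428 (leaf 427 6)) (move 489 (branch (move 461 (leaf 457 1)) (move 488 (leaf 456 2))))))))))))))))) (branch (move 523 (branch (move 524 (branch (move 554 (leaf 522 1)) (move 558 (branch (move 522 (leaf 522 0)) (move 559 (leaf 523 0)))))) (branch (move 524 (branch (move 490 (leaf 490 3)) (move 558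 (branch (move 522 (leaf 522 0)) (move 559 (leaf 523 0)))))) (branch (move 524 (branch (move 554 (leaf 522 1)) (move 490 (leaf 490 3)))) (ref 0))))) (branch (move 523 (branch (move 524 (branch (move 554 (leaf 522 1)) (move 490 (leaf 490 3)))) (branch (move 459 (branch (move 554 (branch (move 586 (leaf 458 5)) (move 427 (branch (move 522 (leaf 426 5)) (move 426 (branch (move 394 (leaf 394 7)) (move 458 (leaf 426 7)))))))) (move 460 (branch (move 428 (leaf 427 6)) (move 492 (branch (move 587 (leaf 459 6)) (move 493 (leaf 460 7)))))))) (move 490 (branch (move 524 (leaf 490 3)) (move 458 (branch (move 587 (leaf 458 7)) (move 426 (branch (move 394 (leaf 394 4)) (move 522 (leaf 426 4))))))))))) (branch (move 523 (branch (move 524 (branch (move 554 (leaf 522 1)) (move 558 (branch (move 522 (leaf 522 0)) (move 559 (leaf 523 0)))))) (branch (move 524 (branch (move 490 (leaf 490 3)) (move 558 (branch (move 522 (leaf 522 0)) (move 559 (leaf 523 0)))))) (branch (move 524 (branch (move 554 (leaf 522 1)) (move 490 (leaf 490 3)))) (move 586 (branch (move 587 (branch (move 618 (leaf 490 5)) (move 490 (branch (move 458 (leaf 458 7)) (move 492 (branch (move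 493 (leaf 490 0)) (move 460 (leaf 459 6)))))))) (branch (move 554 (branch (move 459 (leaf 458 5)) (move 618 (branch (move 522 (leaf 490 6)) (move 650 (leaf 522 6)))))) (move 459 (branch (move 554 (leaf 458 5)) (move 458 (branch (move 426 (leaf 426 7)) (move 490 (branch (move 587 (leaf 458 7)) (move 493 (branch (move 492 (leaf 490 0)) (move 590 (branch (move 622 (leaf 493 4)) (move 461 (branch (move 558 (leaf 461 4)) (move 460 (branch (move 489 (leaf 457 1)) (move 462 (leaf 458 1))))))))))))))))))))))) (ref 1))))))))
theorem a6p797 : a6e797.Valid :=
  pos_of_chk [a6e795, a6e796] (forall_cons a6p795 (forall_cons a6p796 forall_nil)) a6c797 a6e797 (by decide +kernel)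

def a6e798 : Pos := ⟨8702164874309912148232430298204004961065683165523557547607905702568730193996262317404293825247552934777531149334996956985973002658930542644575918069077816151725385414374244896782577303552, 59223865234633340326969875647470461297714836337687304833725473226012000596771169512142183240458258136006235615844996082673912193173593387666121705335407845617812129902281772492023624408720961333130471250582970527654853004492800, 11⟩
def a6c798 : Cert := (move 622 (branch (move 590 (branch (move 653 (leaf 525 5)) (move 493 (leaf 493 7)))) (branch (move 590 (branch (move 493 (leaf 493 7)) (move 654 (leaf 525 7)))) (move 623 (branch (move 523 (branch (move 524 (leaf 523 0)) (move 624 (branch (move 653 (branch (move 652 (leaf 620 1)) (move 625 (branch (move 654 (leaf 621 1)) (move 593 (branch (move 592 (leaf 589 2)) (move 594 (leaf 590 2)))))))) (branch (move 653 (branch (move 652 (leaf 620 1)) (move 625 (branch (move 654 (leaf 621 1)) (move 657 (branch (move 656 (leaf 621 0)) (move 658 (leaf 622 0)))))))) (move 592 (branch (move 593 (leaf 589 2)) (move 656 (branch (move 657 (leaf 621 0)) (move 688 (branch (move 591 (leaf 559 7)) (move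 719 (branch (move 687 (leaf 591 5)) (move 720 (branch (move 751 (leaf 623 5)) (move 721 (branch (move 689 (leaf 592 4)) (move 753 (leaf 624 4))))))))))))))))))) (branch (move 655 (branch (move 591 (leaf 526 7)) (move 620 (branch (move 656 (leaf 620 0)) (move 619 (branch (move 654 (leaf 619 0)) (move 651 (branch (move 650 (leaf 618 1)) (move 652 (leaf 619 1)))))))))) (branch (move 591 (branch (move 655 (leaf 526 7)) (move 592 (branch (move 620 (leaf 588 2)) (move 593 (branch (move 594 (leaf 590 1)) (move 624 (leaf 589 2)))))))) (move 624 (branch (move 523 (branch (move 524 (leaf 523 0)) (move 657 (branch (move 656 (leaf 621 0)) (move 625 (branch (move 658 (leaf 622 0)) (move 593 (branch (move 592 (leaf 589 2)) (move 594 (leaf 590 2)))))))))) (branch (move 523 (branch (move 524 (leaf 523 0)) (move 653 (branch (move 652 (leaf 620 1)) (move 625 (branch (move 654 (leaf 621 1)) (move 593 (branch (move 592 (leaf 589 2)) (move 594 (leaf 590 2)))))))))) (move 656 (branch (move 657 (leaf 621 0)) (move 620 (branch (move 655 (leaf 620 0)) (move 652 (branch (move 651 (leaf 619 1)) (move 653 (leaf 620 1))))))))))))))))))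
theorem a6p798 : a6e798.Valid :=
  pos_of_chk [] forall_nil a6c798 a6e798 (by decide +kernel)

def a6e799 : Pos := ⟨1415235909637588294776852234189732072449752332085098055047956022243043306937961892335385012443504900579800459275446664784205050422003652661196936747290814374342045990912, 59223865234633340326969875647470461297723538502563640876532479980020691356448604541617076223870402066275681562079179508703104323951276506693040769887448717361220211061487613886217213647699838823133038778853659485076262116917248, 13⟩
def a6c799 : Cert := (move 559 (branch (move 524 (branch (move 523 (leaf 523 0)) (move 560 (leaf 524 3)))) (branch (move 493 (branch (move 560 (branch (move 561 (leaf 525 3)) (move 528 (branch (move 529 (leaf 525 2)) (move 496 (branch (move 464 (branch (move 591 (leaf 463 5)) (move 431 (branch (move 463 (leaf 431 7)) (move 432 (branch (move 399 (leaf 399 7)) (move 433 (branch (move 401 (leaf 400 6)) (move 465 (leaf 432 6)))))))))) (branch (move 592 (branch (move 593 (leaf 557 0)) (move 622 (branch (move 590 (leaf 493 7)) (move 465 (branch (move 497 (leaf 464 6)) (move 464 (branch (move 433 (leaf 432 6)) (move 463 (branch (move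 431 (leaf 431 7)) (move 495 (leaf 463 7)))))))))))) (move 592 (branch (move 593 (leaf 557 0)) (move 623 (branch (move 591 (leaf 495 5)) (move 622 (branch (move 590 (leaf 493 7)) (move 624 (branch (move 655 (leaf 527 5)) (move 657 (branch (move 625 (leaf 528 4)) (move 656 (branch (move 621 (leaf 621 0)) (move 689 (leaf 560 4))))))))))))))))))))) (branch (move 461 (branch (move 429 (leaf 429 4)) (move 460 (branch (move 428 (leaf 428 7)) (move 492 (branch (move 589 (leaf 460 7)) (move 462 (branch (move 430 (leaf 429 6)) (move 491 (branch (move 490 (leaf 490 0)) (move 463 (leaf 459 1)))))))))))) (move 590 (branch (move 461 (leaf 461 4)) (move 622 (leaf 493 7))))))) (move 621 (branch (move 524 (branch (move 523 (leaf 523 0)) (move 589 (branch (move 492 (leaf 492 7)) (move 622 (branch (move 654 (leaf 525 4)) (move 590 (branch (move 493 (leaf 493 4)) (move 620 (branch (move 652 (leaf 524 5)) (move 591 (branch (move 592 (leaf 588 1)) (move 619 (leaf 587 2)))))))))))))) (branch (move 589 (branch (move 653 (leaf 525 6)) (move 524 (branch (move 523 (leaf 523 0)) (move 492 (leaf 492 7)))))) (branch (move 589 (branch (move 653 (leaf 525 6)) (move 622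 (branch (move 654 (leaf 525 4)) (move 590 (branch (move 493 (leaf 493 4)) (move 620 (branch (move 652 (leaf 524 5)) (move 591 (branch (move 592 (leaf 588 1)) (move 619 (leaf 587 2)))))))))))) (ref 0))))))))
theorem a6p799 : a6e799.Valid :=
  pos_of_chk [a6e798] (forall_cons a6p798 forall_nil) a6c799 a6e799 (by decide +kernel)

def a6e800 : Pos := ⟨1533172235440720652674923253705543078487231693092189559635285690763296915849458716696667096813796975628117164215067220182888804623837290382963348142898382238870549823488, 100329130234965947463422265813706469290650181434265606741870739601014851888113992569631742463089333268553435797317181112411231791318146273454077396493850430380459547016843608579992054522877001707206117163008, 7⟩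
def a6c800 : Cert := (move 587 (branch (move 586 (branch (move 556 (leaf 554 1)) (move 618 (branch (move 491 (leaf 490 5)) (move 650 (branch (move 619 (leaf 522 5)) (move 682 (leaf 554 6)))))))) (branch (move 556 (branch (move 586 (leaf 554 1)) (move 522 (leaf 522 3)))) (move 490 (branch (move 619 (branch (move 522 (leaf 490 7)) (move 652 (branch (move 620 (leaf 523 4)) (move 651 (branch (move 684 (leaf 555 4)) (move 650 (branch (move 618 (leaf 522 5)) (move 682 (leaf 554 5)))))))))) (move 491 (branch (move 458 (leaf 458 7)) (move 492 (branch (move 493 (leaf 490 0)) (move 460 (leaf 459 6)))))))))))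
theorem a6p800 : a6e800.Valid :=
  pos_of_chk [] forall_nil a6c800 a6e800 (by decide +kernel)

def a6e801 : Pos := ⟨589681629207876123974012169598548252561675815119001711340660894064313021414679330941544791310892045180104252237467073712380235034207604272824123004789912114793740763136, 59223865234633340327070204777672723671111787525372312182283483125599191623781281718499451004918969947371198924726871451063603402283485239300246586651652354712525124653408866992839782721474704367224425076273672320938026305847296, 14⟩
def a6c801 : Cert := (move 558 (branch (move 559 (branch (move 560 (branch (move 561 (leaf 525 3)) (move 592 (branch (move 593 (leaf 557 0)) (move 591 (branch (move 556 (leaf 556 0)) (move 528 (branch (move 529 (leaf 525 2)) (move 623 (branch (move 496 (leaf 495 5)) (move 655 (leaf 527 6)))))))))))) (branch (move 524 (branch (move 523 (leaf 523 0)) (move 560 (leaf 524 3)))) (move 523 (branch (move 524 (leaf 523 0)) (move 556 (branch (move 522 (leaf 522 3)) (move 591 (branch (move 590 (leaf 555 0)) (move 592 (leaf 556 0))))))))))) (branch (move 493 (branch (move 590 (branch (move 461 (leaf 461 4)) (move 622 (leaf 493 7)))) (branch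 (move 461 (branch (move 429 (leaf 429 4)) (move 460 (branch (move 428 (leaf 428 7)) (move 492 (branch (move 589 (leaf 460 7)) (move 491 (branch (move 490 (leaf 490 0)) (move 462 (branch (move 463 (leaf 459 1)) (move 430 (leaf 429 6)))))))))))) (move 589 (branch (move 621 (branch (move 653 (leaf 525 6)) (move 492 (branch (move 460 (leaf 460 7)) (move 524 (leaf 492 7)))))) (branch (move 622 (branch (move 590 (leaf 493 4)) (move 621 (branch (move 654 (leaf 525 4)) (move 653 (leaf 525 6)))))) (move 590 (branch (move 622 (leaf 493 4)) (move 556 (branch (move 591 (leaf 555 0)) (move 492 (branch (move 460 (leaf 460 7)) (move 523 (branch (move 522 (leaf 522 3)) (move 491 (branch (move 490 (leaf 490 0)) (move 587 (branch (move 586 (leaf 554 1)) (move 619 (branch (move 524 (leaf 491 6)) (move 652 (branch (move 620 (leaf 523 4)) (move 651 (branch (move 684 (leaf 555 4)) (move 650 (branch (move 618 (leaf 522 5)) (move 682 (leaf 554 5)))))))))))))))))))))))))))) (branch (ref 0) (branch (move 523 (branch (ref 1) (branch (move 524 (branch (move 522 (leaf 522 0)) (move 559 (leaf 523 0)))) (move 587 (branch (move 586 (branch (move 556 (leaf 554 1)) (move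 618 (branch (move 491 (leaf 490 5)) (move 650 (branch (move 619 (leaf 522 5)) (move 682 (leaf 554 6)))))))) (branch (move 524 (branch (move 559 (leaf 523 0)) (move 492 (branch (move 619 (leaf 491 6)) (move 460 (branch (move 428 (leaf 428 4)) (move 491 (leaf 459 6)))))))) (branch (move 524 (branch (move 559 (leaf 523 0)) (move 492 (branch (move 619 (leaf 491 6)) (move 460 (branch (move 428 (leaf 428 4)) (move 556 (leaf 459 5)))))))) (move 524 (branch (move 559 (leaf 523 0)) (move 491 (branch (move 490 (leaf 490 3)) (move 492 (branch (move 460 (leaf 459 6)) (move 586 (branch (move 556 (leaf 554 1)) (move 618 (leaf 490 5))))))))))))))))) (move 590 (branch (move 622 (branch (move 493 (leaf 493 7)) (move 654 (leaf 525 7)))) (branch (move 622 (branch (move 654 (leaf 525 7)) (move 591 (branch (move 556 (leaf 555 0)) (move 621 (branch (move 653 (leaf 525 5)) (move 592 (branch (move 593 (leaf 589 1)) (move 620 (branch (move 589 (leaf 588 1)) (move 619 (leaf 587 2)))))))))))) (move 591 (branch (move 556 (leaf 555 0)) (move 592 (branch (move 593 (leaf 557 3)) (move 560 (branch (move 589 (branch (move 561 (leaf 557 2)) (move 621 (branch (move 620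 (leaf 588 1)) (move 653 (leaf 525 6)))))) (branch (move 559 (branch (move 561 (leaf 525 3)) (move 623 (branch (move 655 (leaf 526 7)) (move 528 (branch (move 529 (leaf 525 2)) (move 496 (leaf 495 5)))))))) (move 623 (branch (move 528 (branch (move 496 (leaf 495 5)) (move 493 (branch (move 461 (leaf 461 4)) (move 529 (branch (move 559 (leaf 525 2)) (move 624 (branch (move 497 (leaf 496 6)) (move 625 (branch (move 589 (leaf 589 0)) (move 626 (leaf 590 3)))))))))))) (branch (move 655 (branch (move 687 (leaf 559 6)) (move 559 (leaf 526 7)))) (move 655 (branch (move 687 (leaf 559 6)) (move 528 (branch (move 496 (leaf 495 5)) (move 624 (leaf 527 5))))))))))))))))))))))))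
theorem a6p801 : a6e801.Valid :=
  pos_of_chk [a6e799, a6e800] (forall_cons a6p799 (forall_cons a6p800 forall_nil)) a6c801 a6e801 (by decide +kernel)

def a6e802 : Pos := ⟨176904489020479229213114576162883945813963129505031280687586551612525732489780222978215304953075856042901966938386463422033750772458068030636582708789757098184048377856, 100329130234965947463422265813706469290414308782714260407355642439704573648140255439258939546247166104013570012479925613066464290939166417648250654085794428651635727780742752793349217437446881066598979862528, 9⟩
def a6c802 : Cert := (move 491 (branch (move 459 (branch (move 586 (leaf 458 5)) (move 427 (branch (move 522 (leaf 426 5)) (move 428 (branch (move 396 (leaf 395 6)) (move 460 (leaf 427 6)))))))) (branch (move 459 (branch (move 586 (leaf 458 5)) (move 460 (branch (move 428 (leaf 427 6)) (move 458 (branch (move 426 (leaf 426 7)) (move 587 (branch (move 492 (leaf 459 6)) (move 490 (leaf 458 7)))))))))) (branch (move 586 (branch (move 459 (leaf 458 5)) (move 618 (branch (move 587 (leaf 490 5)) (move 522 (leaf 490 6)))))) (branch (move 587 (branch (move 460 (branch (move 492 (leaf 459 6)) (move 459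 (branch (move 428 (leaf 427 6)) (move 427 (branch (move 522 (leaf 426 5)) (move 426 (branch (move 394 (leaf 394 7)) (move 458 (leaf 426 7)))))))))) (branch (move 490 (branch (move 458 (leaf 458 7)) (move 492 (branch (move 493 (leaf 490 0)) (move 460 (leaf 459 6)))))) (branch (move 492 (branch (move 460 (leaf 459 6)) (move 490 (branch (move 493 (leaf 490 0)) (move 619 (branch (move 522 (leaf 490 7)) (move 652 (branch (move 620 (leaf 523 4)) (move 651 (branch (move 684 (leaf 555 4)) (move 650 (branch (move 618 (leaf 522 5)) (move 682 (leaf 554 5)))))))))))))) (move 490 (branch (move 458 (leaf 458 7)) (move 619 (branch (move 522 (leaf 490 7)) (move 652 (branch (move 620 (leaf 523 4)) (move 651 (branch (move 684 (leaf 555 4)) (move 650 (branch (move 618 (leaf 522 5)) (move 682 (leaf 554 5)))))))))))))))) (move 587 (branch (move 490 (branch (move 458 (leaf 458 7)) (move 492 (branch (move 493 (leaf 490 0)) (move 460 (leaf 459 6)))))) (move 618 (branch (move 586 (leaf 490 5)) (move 619 (branch (move 650 (leaf 522 5)) (move 652 (branch (move 620 (leaf 523 4)) (move 651 (branch (move 684 (leaf 555 4)) (move 522 (leaf 522 7)))))))))))))))))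
theorem a6p802 : a6e802.Valid :=
  pos_of_chk [] forall_nil a6c802 a6e802 (by decide +kernel)

def a6e803 : Pos := ⟨2026130649339417646236166083785233858831040035987044836604370573862332742153723491505219254938831362035952424515191033226448603955775922719388688989660354414003114135556158652416, 401316520939863789855864604498729988308971565364242757613738112405171462733567620850810553335293819601314330229265069605895765713826552684704480847926241618883698230041804409006305352224699513973092154081280, 6⟩
def a6c803 : Cert := (move 621 (branch (move 524 (branch (move 492 (leaf 492 7)) (move 653 (branch (move 556 (leaf 524 7)) (move 654 (branch (move 622 (leaf 525 4)) (move 686 (leaf 557 4)))))))) (branch (move 524 (branch (move 492 (leaf 492 7)) (move 653 (branch (move 556 (leaf 524 7)) (move 652 (branch (move 620 (leaf 524 5)) (move 684 (leaf 556 5)))))))) (move 622 (branch (move 654 (leaf 525 4)) (move 620 (branch (move 652 (leaf 524 5)) (move 590 (branch (move 493 (leaf 493 4)) (move 591 (branch (move 592 (leaf 588 1)) (move 619 (leaf 587 2)))))))))))))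
theorem a6p803 : a6e803.Valid :=
  pos_of_chk [] forall_nil a6c803 a6e803 (by decide +kernel)

def a6e804 : Pos := ⟨13053247313490998866852673736464981761419042411625880808948342348108124153993979679694679732944186213033871977319670178455185999507586389189149503944429393136790429148413378543159634558976, 40131652173175748315479593472161445790091261966270777097284337382709678528461828130764908428031772994638210992382137481352478742257335027019546145859474492290014867626349427819558525374688615882767976103936, 12⟩
def a6c804 : Cert := (move 619 (branch (move 556 (branch (move 554 (leaf 522 2)) (move 524 (branch (move 492 (leaf 492 7)) (move 587 (branch (move 651 (leaf 523 6)) (move 586 (branch (move 558 (leaf 554 1)) (move 585 (branch (move 584 (leaf 584 0)) (move 618 (leaf 585 3)))))))))))) (branch (move 622 (branch (move 654 (leaf 525 4)) (move 650 (branch (move 651 (leaf 618 1)) (move 618 (branch (move 649 (leaf 617 1)) (move 586 (branch (move 585 (leaf 585 3)) (move 587 (leaf 586 3)))))))))) (branch (move 622 (branch (move 654 (leaf 525 4)) (move 524 (branch (move 492 (leaf 492 7)) (move 556 (branch (move 554 (leaf 522 2)) (move 651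 (branch (move 650 (leaf 618 1)) (move 587 (leaf 523 6)))))))))) (branch (move 622 (branch (move 654 (leaf 525 4)) (move 586 (branch (move 587 (leaf 586 3)) (move 554 (branch (move 556 (leaf 522 2)) (move 618 (branch (move 585 (leaf 585 3)) (move 649 (branch (move 650 (leaf 617 1)) (move 617 (branch (move 648 (leaf 616 1)) (move 522 (leaf 521 5)))))))))))))) (move 554 (branch (move 556 (leaf 522 2)) (move 618 (branch (move 622 (branch (move 654 (leaf 525 4)) (move 650 (branch (move 649 (leaf 617 1)) (move 651 (leaf 618 1)))))) (branch (move 586 (branch (move 585 (leaf 585 3)) (move 522 (branch (move 651 (leaf 522 4)) (move 622 (branch (move 654 (leaf 525 4)) (move 617 (branch (move 649 (leaf 521 5)) (move 492 (branch (move 524 (leaf 492 7)) (move 493 (branch (move 460 (leaf 460 7)) (move 490 (branch (move 491 (leaf 490 0)) (move 489 (branch (move 457 (leaf 457 7)) (move 521 (leaf 489 7)))))))))))))))))) (branch (move 586 (branch (move 585 (leaf 585 3)) (move 651 (branch (move 522 (leaf 522 4)) (move 650 (branch (move 622 (leaf 618 1)) (move 683 (leaf 554 4)))))))) (move 586 (branch (move 585 (leaf 585 3)) (move 649 (branch (move 650 (leaf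 617 1)) (move 617 (branch (move 648 (leaf 616 1)) (move 522 (leaf 521 5)))))))))))))))))))
theorem a6p804 : a6e804.Valid :=
  pos_of_chk [] forall_nil a6c804 a6e804 (by decide +kernel)

def a6e805 : Pos := ⟨589681629207876123974012169598548252561675815119001711340660894064313021414679330941544791310892045180104252237467073712380235034207604272824123004789912114793740763136, 441448173038288511072642280543503306839469017945762359335104702760432503444034890372743095563816324977821752106645489412976957828768462842025688681151001436017674735930796842295838740047450018441040408608768, 15⟩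
def a6c805 : Cert := (move 589 (branch (ref 0) (branch (ref 1) (branch (move 556 (branch (move 554 (leaf 522 2)) (move 493 (branch (move 590 (branch (move 622 (leaf 493 4)) (move 591 (branch (move 558 (leaf 555 0)) (move 592 (leaf 556 3)))))) (move 460 (branch (move 492 (leaf 460 7)) (move 461 (branch (move 428 (leaf 428 7)) (move 429 (branch (move 524 (leaf 428 5)) (move 430 (branch (move 398 (leaf 397 6)) (move 462 (leaf 429 6)))))))))))))) (branch (move 621 (branch (move 524 (branch (move 492 (leaf 492 7)) (move 653 (branch (move 556 (leaf 524 7)) (move 654 (branch (move 622 (leaf 525 4)) (move 686 (leaf 557 4)))))))) (branch (move 652 (branch (move 620 (leaf 524 5)) (move 653 (branch (move 684 (leaf 556 5)) (move 654 (branch (move 622 (leaf 525 4)) (move 686 (leaf 557 4)))))))) (branch (move 524 (branch (move 492 (leaf 492 7)) (move 653 (branch (move 556 (leaf 524 7)) (move 652 (branch (move 620 (leaf 524 5)) (move 684 (leaf 556 5)))))))) (move 590 (branch (move 620 (branch (move 652 (leaf 524 5)) (move 622 (branch (move 654 (leaf 525 4)) (move 619 (branch (move 618 (leaf 586 2)) (move 591 (leaf 587 2)))))))) (branch (move 556 (branch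 (move 554 (leaf 554 0)) (move 591 (branch (move 558 (leaf 555 0)) (move 592 (leaf 556 3)))))) (move 556 (branch (move 554 (leaf 554 0)) (move 622 (branch (move 654 (leaf 525 4)) (move 620 (branch (move 652 (leaf 524 5)) (move 619 (branch (move 618 (leaf 586 2)) (move 587 (branch (move 586 (leaf 586 3)) (move 524 (branch (move 651 (leaf 523 6)) (move 492 (leaf 492 7))))))))))))))))))))) (branch (move 621 (branch (move 524 (branch (move 492 (leaf 492 7)) (move 653 (branch (move 556 (leaf 524 7)) (move 652 (branch (move 620 (leaf 524 5)) (move 684 (leaf 556 5)))))))) (branch (move 653 (branch (move 558 (leaf 525 6)) (move 652 (branch (move 620 (leaf 524 5)) (move 684 (leaf 556 5)))))) (branch (move 653 (branch (move 558 (leaf 525 6)) (move 524 (branch (move 492 (leaf 492 7)) (move 556 (leaf 524 7)))))) (move 556 (branch (move 554 (leaf 522 2)) (move 619 (branch (move 620 (branch (move 652 (leaf 524 5)) (move 590 (branch (move 618 (leaf 586 2)) (move 591 (branch (move 558 (leaf 555 0)) (move 592 (leaf 588 1)))))))) (branch (move 524 (branch (move 492 (leaf 492 7)) (move 587 (branch (move 651 (leaf 523 6)) (move 558 (branch (move 586 (leaf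 554 1)) (move 559 (branch (move 560 (leaf 524 3)) (move 591 (branch (move 590 (leaf 555 0)) (move 592 (leaf 556 0)))))))))))) (branch (move 524 (branch (move 492 (leaf 492 7)) (move 587 (branch (move 651 (leaf 523 6)) (move 586 (branch (move 558 (leaf 554 1)) (move 585 (branch (move 584 (leaf 552 2)) (move 620 (branch (move 618 (leaf 585 3)) (move 652 (leaf 524 5)))))))))))) (move 492 (branch (move 524 (leaf 492 7)) (move 620 (branch (move 652 (leaf 524 5)) (move 618 (branch (move 590 (leaf 586 2)) (move 493 (branch (move 460 (leaf 460 7)) (move 585 (branch (move 586 (leaf 585 3)) (move 617 (branch (move 584 (leaf 584 3)) (move 649 (branch (move 648 (leaf 616 1)) (move 650 (leaf 617 1)))))))))))))))))))))))))) (move 621 (branch (move 524 (branch (move 492 (leaf 492 7)) (move 653 (branch (move 556 (leaf 524 7)) (move 654 (branch (move 622 (leaf 525 4)) (move 686 (leaf 557 4)))))))) (branch (move 652 (branch (move 620 (leaf 524 5)) (move 653 (branch (move 684 (leaf 556 5)) (move 654 (branch (move 622 (leaf 525 4)) (move 686 (leaf 557 4)))))))) (branch (move 524 (branch (move 492 (leaf 492 7)) (move 653 (branch (move 556 (leaf 524 7)) (move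 652 (branch (move 620 (leaf 524 5)) (move 684 (leaf 556 5)))))))) (move 620 (branch (move 652 (leaf 524 5)) (ref 2)))))))))))))
theorem a6p805 : a6e805.Valid :=
  pos_of_chk [a6e803, a6e794, a6e804] (forall_cons a6p803 (forall_cons a6p794 (forall_cons a6p804 forall_nil))) a6c805 a6e805 (by decide +kernel)

def a6e806 : Pos := ⟨589681629235335314614534608458475855758001387988079452541234115701890875251421503675135415519382283742750070457376258957946158466356092224822989580040208227958200991744, 80263304194513472841683870569565353473357591871317518160095306955028760499610837226042195098828725687602079805966834917800685682499265199471072894666541290042626327220503754955082555929136327342285735854080, 8⟩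
def a6c806 : Cert := (move 524 (branch (move 558 (branch (move 522 (leaf 522 0)) (move 559 (leaf 523 0)))) (move 587 (branch (move 491 (branch (move 490 (leaf 490 3)) (move 492 (branch (move 460 (leaf 459 6)) (move 619 (leaf 491 6)))))) (branch (move 619 (branch (move 492 (leaf 491 6)) (move 651 (branch (move 556 (leaf 523 6)) (move 652 (branch (move 620 (leaf 523 4)) (move 684 (leaf 555 4)))))))) (branch (move 491 (branch (move 490 (leaf 490 3)) (move 618 (branch (move 586 (leaf 490 5)) (move 619 (branch (move 650 (leaf 522 5)) (move 652 (branch (move 620 (leaf 523 4)) (move 651 (branch (move 684 (leaf 555 4)) (move 556 (leaf 523 6)))))))))))) (move 491 (branch (move 490 (leaf 490 3)) (move 460 (branch (move 492 (leaf 459 6)) (move 459 (branch (move 428 (leaf 427 6)) (move 427 (branch (move 556 (leaf 427 4)) (move 426 (branch (move 394 (leaf 394 7)) (move 458 (leaf 426 7))))))))))))))))))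
theorem a6p806 : a6e806.Valid :=
  pos_of_chk [] forall_nil a6c806 a6e806 (by decide +kernel)

def a6e807 : Pos := ⟨589681629235335314614534608458475855758001387988079452541234115701890875251421503675135415519382283742750070457376258957946158466356092224822989580040208227958200991744, 100329130234965947463422265813706469291652640203358828663536726675371666240134882071816320472365642778192548948828527734163924160735852054760303483236280194362960480335473827604232015251529784145949507977216, 10⟩
def a6c807 : Cert := (move 491 (branch (move 554 (branch (move 556 (leaf 522 2)) (move 459 (branch (move 586 (leaf 458 5)) (move 427 (branch (move 522 (leaf 426 5)) (move 428 (branch (move 396 (leaf 395 6)) (move 460 (leaf 427 6)))))))))) (branch (move 460 (branch (move 587 (branch (move 492 (leaf 459 6)) (move 490 (branch (move 458 (leaf 458 7)) (move 619 (branch (move 522 (leaf 490 7)) (move 618 (branch (move 586 (leaf 490 5)) (move 650 (leaf 522 5)))))))))) (branch (move 459 (branch (move 428 (leaf 427 6)) (move 458 (branch (move 426 (leaf 426 7)) (move 490 (branch (move 587 (leaf 458 7)) (move 489 (branch (move 461 (leaf 457 1)) (move 488 (leaf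 456 2)))))))))) (branch (move 492 (branch (move 587 (leaf 459 6)) (move 428 (branch (move 396 (leaf 395 5)) (move 459 (leaf 427 6)))))) (move 459 (branch (move 428 (leaf 427 6)) (move 490 (branch (move 489 (branch (move 488 (leaf 456 2)) (move 461 (branch (move 462 (leaf 458 1)) (move 492 (leaf 457 2)))))) (branch (move 426 (branch (move 458 (leaf 426 7)) (move 427 (branch (move 394 (leaf 394 7)) (move 395 (branch (move 522 (leaf 394 5)) (move 363 (branch (move 492 (leaf 363 4)) (move 364 (branch (move 332 (leaf 331 6)) (move 396 (leaf 363 6)))))))))))) (move 458 (branch (move 426 (leaf 426 7)) (move 489 (branch (move 461 (leaf 457 1)) (move 488 (leaf 456 2))))))))))))))) (branch (move 554 (branch (move 556 (leaf 522 2)) (move 459 (branch (move 586 (leaf 458 5)) (move 460 (branch (move 428 (leaf 427 6)) (move 458 (branch (move 426 (leaf 426 7)) (move 587 (branch (move 492 (leaf 459 6)) (move 490 (leaf 458 7)))))))))))) (branch (move 554 (branch (move 556 (leaf 522 2)) (move 460 (branch (move 587 (branch (move 492 (leaf 459 6)) (move 490 (branch (move 458 (leaf 458 7)) (move 619 (branch (move 522 (leaf 490 7)) (move 652 (branch (move 620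 (leaf 523 4)) (move 651 (branch (move 684 (leaf 555 4)) (move 650 (branch (move 618 (leaf 522 5)) (move 682 (leaf 554 5)))))))))))))) (branch (move 459 (branch (move 428 (leaf 427 6)) (move 458 (branch (move 426 (leaf 426 7)) (move 490 (branch (move 587 (leaf 458 7)) (move 489 (branch (move 461 (leaf 457 1)) (move 488 (leaf 456 2)))))))))) (branch (move 459 (branch (move 428 (leaf 427 6)) (move 427 (branch (move 522 (leaf 426 5)) (move 426 (branch (move 394 (leaf 394 7)) (move 458 (leaf 426 7)))))))) (move 459 (branch (move 428 (leaf 427 6)) (move 427 (branch (move 522 (leaf 426 5)) (move 492 (branch (move 587 (leaf 459 6)) (move 395 (branch (move 363 (leaf 363 4)) (move 394 (branch (move 362 (leaf 362 7)) (move 426 (leaf 394 7)))))))))))))))))) (move 587 (branch (move 490 (branch (move 458 (leaf 458 7)) (move 619 (branch (move 522 (leaf 490 7)) (move 652 (branch (move 620 (leaf 523 4)) (move 651 (branch (move 684 (leaf 555 4)) (move 650 (branch (move 618 (leaf 522 5)) (move 682 (leaf 554 5)))))))))))) (branch (move 556 (branch (move 554 (leaf 522 2)) (move 558 (branch (move 586 (leaf 554 1)) (move 522 (leaf 522 3)))))) (move 586 (branch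 (move 618 (leaf 490 5)) (move 556 (branch (move 558 (leaf 554 1)) (move 554 (leaf 522 2))))))))))))))
theorem a6p807 : a6e807.Valid :=
  pos_of_chk [] forall_nil a6c807 a6e807 (by decide +kernel)

def a6e808 : Pos := ⟨589681629235335314614534608458475855758001387988079452541234115701890875251421503675135415519382283742750070457376258957946158466356092224822989580040208227958200991744, 224253081289579128693294259113380400296131799778820580320738838709791284838573546322321248909133605055427600660523193722430287209248093270570225053899417433081190191033847811118485095136439184654336, 8⟩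
def a6c808 : Cert := (move 558 (branch (move 559 (branch (move 524 (leaf 523 0)) (move 560 (branch (move 561 (leaf 525 3)) (move 592 (branch (move 593 (leaf 557 0)) (move 591 (branch (move 556 (leaf 556 0)) (move 528 (branch (move 529 (leaf 525 2)) (move 623 (branch (move 496 (leaf 495 5)) (move 655 (leaf 527 6)))))))))))))) (branch (move 524 (branch (move 522 (leaf 522 0)) (move 559 (leaf 523 0)))) (move 556 (branch (move 522 (leaf 522 3)) (move 590 (branch (move 591 (leaf 555 0)) (move 622 (branch (move 493 (leaf 493 7)) (move 654 (leaf 525 7)))))))))))
theorem a6p808 : a6e808.Valid :=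
  pos_of_chk [] forall_nil a6c808 a6e808 (by decide +kernel)

def a6e809 : Pos := ⟨117936326132642645593930297381512972528190502125949005885468021665454646327842227344338716853829257785076103927141825680877823720020454291287626479897894834962949996544, 13729595361018768525962164636333707991776474927274800962487568894807082315794465820450990298893879135801722039158226578892103458967468116486208724622360182784, 9⟩
def a6c809 : Cert := (move 459 (branch (move 460 (branch (move 428 (leaf 427 6)) (move 461 (branch (move 462 (leaf 458 1)) (move 489 (branch (move 488 (leaf 456 2)) (move 492 (leaf 457 2)))))))) (branch (move 426 (branch (move 458 (leaf 426 7)) (move 427 (branch (move 394 (leaf 394 7)) (move 395 (branch (move 522 (leaf 394 5)) (move 396 (branch (move 364 (leaf 363 6)) (move 428 (leaf 395 6)))))))))) (move 426 (branch (move 458 (leaf 426 7)) (move 427 (branch (move 394 (leaf 394 7)) (move 395 (branch (move 522 (leaf 394 5)) (move 396 (branch (move 364 (leaf 363 6)) (move 492 (branch (move 493 (leaf 490 0)) (move 460 (branch (move 363 (leaf 363 4)) (move 461 (branch (move 462 (leaf 458 1)) (move 489 (leaf 457 2)))))))))))))))))))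
theorem a6p809 : a6e809.Valid :=
  pos_of_chk [] forall_nil a6c809 a6e809 (by decide +kernel)

def a6e810 : Pos := ⟨589681629235335314614534608458475855758001387988079452541234115701890875251421503675135415519382283742750070457376258957946158466356092224822989580040208227958200991744, 140460782315870896733005550931218437352828045677639020676553330634536903349164394286357409009122994644442624021922611809818824222679207520861079581853925848911318137501360725392310141897193545035160068554752, 13⟩
def a6c810 : Cert := (move 491 (branch (move 587 (branch (move 586 (branch (move 618 (leaf 490 5)) (move 459 (branch (move 554 (leaf 458 5)) (move 460 (branch (move 428 (leaf 427 6)) (move 492 (leaf 459 6)))))))) (branch (move 586 (branch (move 618 (leaf 490 5)) (move 459 (branch (move 554 (leaf 458 5)) (move 458 (branch (move 426 (leaf 426 7)) (move 490 (leaf 458 7)))))))) (move 490 (branch (move 458 (leaf 458 7)) (move 492 (branch (move 493 (leaf 490 0)) (move 460 (leaf 459 6))))))))) (branch (ref 0) (branch (move 459 (branch (move 554 (branch (move 586 (leaf 458 5)) (move 427 (branch (move 522 (leaf 426 5)) (move 426 (branch (move 394 (leaf 394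 7)) (move 458 (leaf 426 7)))))))) (branch (move 428 (branch (move 460 (leaf 427 6)) (move 427 (branch (move 396 (leaf 395 6)) (move 554 (branch (move 522 (leaf 426 5)) (move 586 (leaf 458 5)))))))) (move 460 (branch (move 428 (leaf 427 6)) (move 492 (branch (move 587 (leaf 459 6)) (move 458 (branch (move 426 (leaf 426 7)) (move 457 (branch (move 456 (leaf 456 0)) (move 493 (leaf 457 0))))))))))))) (branch (move 459 (branch (move 554 (branch (move 586 (leaf 458 5)) (move 427 (branch (move 522 (leaf 426 5)) (move 426 (branch (move 394 (leaf 394 7)) (move 458 (leaf 426 7)))))))) (branch (move 428 (branch (move 460 (leaf 427 6)) (move 427 (branch (move 396 (leaf 395 6)) (move 554 (branch (move 522 (leaf 426 5)) (move 586 (leaf 458 5)))))))) (move 458 (branch (move 426 (leaf 426 7)) (move 490 (branch (move 587 (leaf 458 7)) (move 460 (branch (move 428 (leaf 427 6)) (move 489 (branch (move 461 (leaf 457 1)) (move 488 (leaf 456 2))))))))))))) (branch (move 459 (branch (move 554 (branch (move 586 (leaf 458 5)) (move 427 (branch (move 522 (leaf 426 5)) (move 396 (branch (move 428 (leaf 395 6)) (move 395 (branch (move 364 (leaf 363 6)) (move 394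 (branch (move 362 (leaf 362 7)) (move 426 (leaf 394 7)))))))))))) (branch (move 586 (branch (move 554 (leaf 458 5)) (move 587 (branch (move 618 (leaf 490 5)) (move 490 (branch (move 458 (leaf 458 7)) (move 619 (branch (move 522 (leaf 490 7)) (move 620 (branch (move 652 (leaf 523 4)) (move 622 (branch (move 621 (leaf 586 3)) (move 493 (branch (move 492 (leaf 490 0)) (move 590 (branch (move 589 (leaf 493 4)) (move 558 (leaf 493 7)))))))))))))))))) (branch (move 458 (branch (move 426 (leaf 426 7)) (move 587 (branch (move 490 (leaf 458 7)) (move 586 (branch (move 554 (leaf 458 5)) (move 618 (leaf 490 5)))))))) (move 427 (branch (move 396 (branch (move 428 (leaf 395 6)) (move 395 (branch (move 364 (leaf 363 6)) (move 490 (branch (move 522 (leaf 394 5)) (move 458 (branch (move 363 (leaf 362 5)) (move 587 (leaf 458 7)))))))))) (branch (move 396 (branch (move 428 (leaf 395 6)) (move 395 (branch (move 364 (leaf 363 6)) (move 394 (branch (move 362 (leaf 362 7)) (move 426 (leaf 394 7)))))))) (move 426 (branch (move 394 (leaf 394 7)) (move 458 (leaf 426 7))))))))))) (branch (move 587 (branch (move 586 (branch (move 618 (leaf 490 5)) (move 459 (branch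 (move 554 (leaf 458 5)) (move 460 (branch (move 428 (leaf 427 6)) (move 492 (leaf 459 6)))))))) (branch (move 460 (branch (move 492 (leaf 459 6)) (move 459 (branch (move 428 (leaf 427 6)) (move 554 (branch (move 586 (leaf 458 5)) (move 522 (branch (move 427 (leaf 426 5)) (move 619 (branch (move 490 (leaf 490 7)) (move 651 (leaf 522 7)))))))))))) (branch (move 618 (branch (move 586 (leaf 490 5)) (move 619 (branch (move 650 (leaf 522 5)) (move 652 (branch (move 620 (leaf 523 4)) (move 651 (branch (move 684 (leaf 555 4)) (move 522 (branch (move 490 (leaf 490 7)) (move 554 (leaf 522 7)))))))))))) (move 492 (branch (move 460 (leaf 459 6)) (move 490 (branch (move 493 (leaf 490 0)) (move 619 (branch (move 522 (leaf 490 7)) (move 652 (branch (move 620 (leaf 523 4)) (move 651 (branch (move 684 (leaf 555 4)) (move 650 (branch (move 618 (leaf 522 5)) (move 682 (leaf 554 5)))))))))))))))))) (branch (move 490 (branch (move 492 (branch (move 493 (leaf 490 0)) (move 460 (branch (move 587 (leaf 459 6)) (move 428 (branch (move 396 (leaf 395 5)) (move 459 (leaf 427 6)))))))) (branch (move 458 (branch (move 587 (leaf 458 7)) (move 426 (branch (move 394 (leaf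 394 4)) (move 522 (leaf 426 4)))))) (ref 1)))) (branch (move 492 (branch (move 587 (branch (move 460 (leaf 459 6)) (move 490 (branch (move 458 (leaf 458 7)) (move 619 (branch (move 522 (leaf 490 7)) (move 618 (branch (move 586 (leaf 490 5)) (move 650 (leaf 522 5)))))))))) (branch (move 460 (branch (move 587 (leaf 459 6)) (move 493 (branch (move 589 (leaf 460 7)) (move 428 (branch (move 396 (leaf 396 4)) (move 461 (leaf 428 7)))))))) (branch (move 490 (branch (move 493 (leaf 490 0)) (move 458 (branch (move 587 (leaf 458 7)) (move 426 (branch (move 394 (leaf 394 4)) (move 522 (leaf 426 4)))))))) (move 493 (branch (move 490 (leaf 490 0)) (move 460 (branch (move 589 (leaf 460 7)) (move 428 (branch (move 396 (leaf 396 4)) (move 461 (leaf 428 7)))))))))))) (move 587 (branch (move 490 (branch (move 458 (leaf 458 7)) (move 492 (branch (move 493 (leaf 490 0)) (move 460 (leaf 459 6)))))) (move 619 (branch (move 652 (branch (move 620 (leaf 523 4)) (move 651 (branch (move 684 (leaf 555 4)) (move 554 (branch (move 522 (leaf 522 7)) (move 586 (branch (move 459 (leaf 458 5)) (move 683 (leaf 554 7)))))))))) (branch (move 652 (branch (move 620 (leaf 523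 4)) (move 651 (branch (move 684 (leaf 555 4)) (move 650 (branch (move 618 (leaf 522 5)) (move 682 (leaf 554 5)))))))) (move 618 (branch (move 586 (leaf 490 5)) (move 650 (leaf 522 5))))))))))))))))))
theorem a6p810 : a6e810.Valid :=
  pos_of_chk [a6e775, a6e809] (forall_cons a6p775 (forall_cons a6p809 forall_nil)) a6c810 a6e810 (by decide +kernel)

def a6e811 : Pos := ⟨4052261299268516921487993957060822815241135102161486478244198670661313826908715027567922631684073145923365224271965591150999984904970616447945566588152765806044067593754836467712, 37375513552614270602090933835224722513383558743421443714211339322247192042033837710461856878487927864800583501859914184894769685272431710400646685299836413720481580941030717222673212726541264355328, 14⟩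
def a6c811 : Cert := (move 491 (branch (move 493 (branch (move 461 (leaf 461 4)) (move 492 (branch (move 490 (leaf 490 0)) (move 460 (branch (move 587 (leaf 459 6)) (move 428 (branch (move 396 (leaf 396 4)) (move 459 (leaf 427 6)))))))))) (branch (move 556 (branch (move 591 (leaf 555 0)) (move 587 (branch (move 586 (leaf 554 1)) (move 460 (branch (move 492 (leaf 459 6)) (move 459 (branch (move 428 (leaf 427 6)) (move 458 (branch (move 426 (leaf 426 7)) (move 490 (leaf 458 7)))))))))))) (branch (move 493 (branch (move 461 (leaf 461 4)) (move 591 (branch (move 556 (leaf 555 0)) (move 592 (branch (move 593 (leaf 557 3)) (move 492 (branch (move 490 (leaf 490 0)) (move 589 (branch (move 460 (leaf 460 7)) (move 621 (branch (move 620 (leaf 588 1)) (move 653 (leaf 525 6)))))))))))))) (branch (move 591 (branch (move 556 (leaf 555 0)) (move 493 (branch (move 461 (leaf 461 4)) (move 592 (branch (move 593 (leaf 557 3)) (move 490 (branch (move 492 (leaf 490 0)) (move 458 (branch (move 587 (leaf 458 7)) (move 426 (branch (move 394 (leaf 394 4)) (move 459 (leaf 426 7)))))))))))))) (branch (move 461 (branch (move 493 (leaf 461 4)) (move 556 (branch (move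 591 (leaf 555 0)) (move 587 (branch (move 586 (leaf 554 1)) (move 460 (branch (move 492 (leaf 459 6)) (move 459 (branch (move 428 (leaf 427 6)) (move 426 (branch (move 458 (leaf 426 7)) (move 427 (branch (move 462 (leaf 426 3)) (move 394 (leaf 394 7)))))))))))))))) (move 459 (branch (move 426 (branch (move 458 (leaf 426 7)) (move 427 (branch (move 394 (leaf 394 7)) (move 428 (branch (move 396 (leaf 395 6)) (move 460 (leaf 427 6)))))))) (branch (move 591 (branch (move 556 (leaf 555 0)) (move 592 (branch (move 593 (leaf 557 3)) (move 461 (branch (move 493 (leaf 461 4)) (move 460 (branch (move 428 (leaf 427 6)) (move 462 (branch (move 490 (leaf 458 1)) (move 431 (branch (move 430 (leaf 427 2)) (move 463 (branch (move 432 (leaf 428 2)) (move 496 (branch (move 495 (leaf 460 0)) (move 464 (branch (move 497 (leaf 461 0)) (move 560 (branch (move 528 (leaf 431 7)) (move 561 (branch (move 589 (leaf 557 2)) (move 559 (leaf 525 3)))))))))))))))))))))))) (move 458 (branch (move 426 (leaf 426 7)) (move 587 (branch (move 490 (leaf 458 7)) (move 556 (branch (move 591 (leaf 555 0)) (move 586 (leaf 554 1)))))))))))))))))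
theorem a6p811 : a6e811.Valid :=
  pos_of_chk [] forall_nil a6c811 a6e811 (by decide +kernel)

def a6e812 : Pos := ⟨506532663750090321196629815723160698897492081446513541236190698513539207781474179814266706070092852952493006708598217582058815773149031101850824908612025350791592908231085654016, 294332169157763946847366353061723935453158496818417449981363092051435042363551476948523625128169678837471766280429549533854132138492567165711281744503957429429956844259470394414022481726620481617920, 8⟩
def a6c812 : Cert := (move 621 (branch (move 491 (branch (move 458 (branch (move 490 (leaf 458 7)) (move 459 (branch (move 426 (leaf 426 7)) (move 460 (branch (move 428 (leaf 427 6)) (move 492 (leaf 459 6)))))))) (move 618 (branch (move 586 (leaf 490 5)) (move 619 (branch (move 650 (leaf 522 5)) (move 620 (branch (move 652 (leaf 523 4)) (move 654 (branch (move 653 (leaf 618 0)) (move 622 (branch (move 655 (leaf 619 0)) (move 590 (leaf 525 7)))))))))))))) (branch (move 491 (branch (move 458 (branch (move 490 (leaf 458 7)) (move 459 (branch (move 426 (leaf 426 7)) (move 460 (branch (move 428 (leaf 427 6)) (move 492 (leaf 459 6)))))))) (move 618 (branch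 (move 586 (leaf 490 5)) (move 619 (branch (move 650 (leaf 522 5)) (move 620 (branch (move 652 (leaf 523 4)) (move 590 (branch (move 589 (leaf 586 2)) (move 622 (branch (move 591 (leaf 587 2)) (move 654 (leaf 525 7)))))))))))))) (branch (move 491 (branch (move 458 (branch (move 490 (leaf 458 7)) (move 459 (branch (move 426 (leaf 426 7)) (move 460 (branch (move 428 (leaf 427 6)) (move 492 (leaf 459 6)))))))) (move 589 (branch (move 653 (leaf 525 6)) (move 620 (branch (move 652 (leaf 524 5)) (move 618 (branch (move 586 (leaf 490 5)) (move 619 (branch (move 590 (leaf 586 2)) (move 650 (leaf 522 5)))))))))))) (branch (move 589 (branch (move 653 (leaf 525 6)) (move 620 (branch (move 652 (leaf 524 5)) (move 622 (branch (move 654 (leaf 525 4)) (move 619 (branch (move 586 (leaf 586 3)) (move 650 (branch (move 651 (leaf 618 1)) (move 618 (leaf 522 5)))))))))))) (move 622 (branch (move 589 (branch (move 654 (leaf 525 4)) (move 653 (leaf 525 6)))) (branch (move 654 (branch (move 589 (leaf 525 4)) (move 590 (leaf 525 7)))) (branch (move 653 (branch (move 590 (leaf 525 5)) (move 589 (leaf 525 6)))) (move 590 (branch (move 653 (leaf 525 5)) (move 654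 (leaf 525 7)))))))))))))
theorem a6p812 : a6e812.Valid :=
  pos_of_chk [] forall_nil a6c812 a6e812 (by decide +kernel)

def a6e813 : Pos := ⟨2175541218577478037647789203676499792344439008523843438234153566660416654614699324487364359884179260248406751303582088698685595838768279864567746474778157509518379449397314632725133524992, 596840231901762982223856130199782193431730849930326760009156803212932711484161859708153338001380605543806792136897631081738723168511399969146449229425865610780018456038285798090516264575563257085952, 9⟩
def a6c813 : Cert := (move 621 (branch (move 589 (branch (move 653 (leaf 525 6)) (move 620 (branch (move 652 (leaf 524 5)) (move 618 (branch (move 590 (leaf 586 2)) (move 649 (branch (move 650 (leaf 617 1)) (move 617 (branch (move 648 (leaf 616 1)) (move 585 (branch (move 584 (leaf 584 3)) (move 586 (leaf 585 3)))))))))))))) (branch (move 622 (branch (move 590 (leaf 493 7)) (move 620 (branch (move 651 (branch (move 650 (leaf 618 1)) (move 623 (branch (move 652 (leaf 619 1)) (move 655 (branch (move 656 (leaf 620 0)) (move 591 (branch (move 592 (leaf 588 2)) (move 559 (leaf 526 7)))))))))) (branch (move 650 (branch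 (move 651 (leaf 618 1)) (move 618 (branch (move 649 (leaf 617 1)) (move 585 (branch (move 586 (leaf 585 3)) (move 617 (branch (move 584 (leaf 584 3)) (move 653 (branch (move 652 (leaf 617 0)) (move 654 (leaf 618 0)))))))))))) (move 655 (branch (move 654 (leaf 619 0)) (move 623 (branch (move 656 (leaf 620 0)) (move 591 (branch (move 592 (leaf 588 2)) (move 559 (leaf 526 7))))))))))))) (branch (move 622 (branch (move 590 (leaf 493 7)) (move 620 (branch (move 651 (branch (move 650 (leaf 618 1)) (move 623 (branch (move 652 (leaf 619 1)) (move 655 (branch (move 656 (leaf 620 0)) (move 591 (branch (move 592 (leaf 588 2)) (move 559 (leaf 526 7)))))))))) (branch (move 655 (branch (move 654 (leaf 619 0)) (move 623 (branch (move 656 (leaf 620 0)) (move 591 (branch (move 592 (leaf 588 2)) (move 559 (leaf 526 7)))))))) (move 589 (branch (move 654 (leaf 525 4)) (move 652 (leaf 524 5))))))))) (branch (move 622 (branch (move 590 (leaf 493 7)) (move 589 (branch (move 654 (leaf 525 4)) (move 653 (leaf 525 6)))))) (move 620 (branch (move 622 (branch (move 651 (branch (move 650 (leaf 618 1)) (move 623 (branch (move 652 (leaf 619 1)) (move 655 (branch (move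 656 (leaf 620 0)) (move 591 (branch (move 592 (leaf 588 2)) (move 559 (leaf 526 7)))))))))) (branch (move 650 (branch (move 651 (leaf 618 1)) (move 618 (branch (move 649 (leaf 617 1)) (move 585 (branch (move 586 (leaf 585 3)) (move 617 (branch (move 584 (leaf 584 3)) (move 653 (branch (move 652 (leaf 617 0)) (move 654 (leaf 618 0)))))))))))) (move 655 (branch (move 654 (leaf 619 0)) (move 623 (branch (move 656 (leaf 620 0)) (move 591 (branch (move 592 (leaf 588 2)) (move 559 (leaf 526 7))))))))))) (branch (move 622 (branch (move 651 (branch (move 650 (leaf 618 1)) (move 623 (branch (move 652 (leaf 619 1)) (move 655 (branch (move 656 (leaf 620 0)) (move 591 (branch (move 592 (leaf 588 2)) (move 559 (leaf 526 7)))))))))) (branch (move 655 (branch (move 654 (leaf 619 0)) (move 623 (branch (move 656 (leaf 620 0)) (move 591 (branch (move 592 (leaf 588 2)) (move 559 (leaf 526 7)))))))) (move 589 (branch (move 654 (leaf 525 4)) (move 652 (leaf 524 5))))))) (branch (move 653 (branch (move 589 (leaf 525 6)) (move 618 (branch (move 654 (leaf 618 0)) (move 649 (branch (move 650 (leaf 617 1)) (move 617 (branch (move 648 (leaf 616 1)) (move 585 (branch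 (move 584 (leaf 584 3)) (move 586 (leaf 585 3)))))))))))) (move 589 (branch (move 652 (leaf 524 5)) (move 653 (leaf 525 6)))))))))))))
theorem a6p813 : a6e813.Valid :=
  pos_of_chk [] forall_nil a6c813 a6e813 (by decide +kernel)

end Crest.Agent.SN
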