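import Crest.Agent.Lib_SN_A6x6

set_option autoImplicit false
set_option linter.all false
set_option maxRecDepth 1000000

namespace Crest.Agent.SN
open Cert

def a6e814 : Pos := ⟨1533172235440720652674923253705543078487231693092189559635285690763296915849458716696667096813796975628117164215067220182888804623837290382963348142898382238870549823488, 1224015389064441183829980633335548205925738409090308341796221497956522509539076981431690935844705589692691625345777156364312478932631704064366372134164368816655263787016758021312109116115797539467138659516416, 11⟩
def a6c814 : Cert := (move 493 (branch (move 461 (branch (move 429 (leaf 429 4)) (move 460 (branch (move 428 (leaf 428 7)) (move 492 (branch (move 589 (leaf 460 7)) (move 491 (branch (move 490 (leaf 490 0)) (move 587 (leaf 459 6)))))))))) (branch (move 590 (branch (move 461 (leaf 461 4)) (move 622 (leaf 493 7)))) (move 619 (branch (move 587 (branch (move 490 (branch (move 522 (leaf 490 7)) (move 491 (branch (move 492 (leaf 490 0)) (move 458 (leaf 458 7)))))) (move 652 (branch (move 620 (leaf 523 4)) (move 651 (branch (move 684 (leaf 555 4)) (move 650 (branch (move 618 (leaf 522 5))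 (move 682 (leaf 554 5)))))))))) (branch (move 587 (branch (move 490 (branch (move 522 (leaf 490 7)) (move 491 (branch (move 492 (leaf 490 0)) (move 458 (leaf 458 7)))))) (move 622 (branch (move 590 (leaf 493 7)) (move 620 (branch (move 652 (leaf 523 4)) (move 621 (branch (move 586 (leaf 586 3)) (move 654 (branch (move 655 (leaf 619 0)) (move 589 (leaf 525 4)))))))))))) (branch (move 622 (branch (move 590 (leaf 493 7)) (move 587 (branch (move 650 (branch (move 618 (leaf 522 5)) (move 651 (branch (move 682 (leaf 554 5)) (move 652 (branch (move 684 (leaf 555 4)) (move 653 (branch (move 621 (leaf 618 2)) (move 654 (branch (move 623 (leaf 619 2)) (move 686 (branch (move 685 (leaf 650 0)) (move 687 (leaf 651 0)))))))))))))) (move 490 (branch (move 522 (leaf 490 7)) (move 491 (branch (move 492 (leaf 490 0)) (move 458 (leaf 458 7)))))))))) (branch (move 587 (branch (move 490 (branch (move 522 (leaf 490 7)) (move 491 (branch (move 492 (leaf 490 0)) (move 458 (leaf 458 7)))))) (move 622 (branch (move 590 (leaf 493 7)) (move 650 (branch (move 618 (leaf 522 5)) (move 651 (branch (move 682 (leaf 554 5)) (move 621 (branch (move 620 (leaf 618 1)) (move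 589 (branch (move 654 (leaf 525 4)) (move 653 (leaf 525 6)))))))))))))) (ref 0)))))))))
theorem a6p814 : a6e814.Valid :=
  pos_of_chk [a6e813] (forall_cons a6p813 forall_nil) a6c814 a6e814 (by decide +kernel)

def a6e815 : Pos := ⟨589681629207876123974012169598548252561675815119001711340660894064313021414679330941544791310892045180104252237467073712380235034207604272824123004789912114793740763136, 1264147041145346133073457423856280186251867662560837098320373338919068584303603179491242900691168989059751114512308027201029163481488718953597094258087692427861249048558147415725418369615528250884741327224832, 17⟩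
def a6c815 : Cert := (move 523 (branch (ref 0) (branch (move 556 (branch (move 554 (leaf 522 2)) (move 558 (branch (move 522 (leaf 522 3)) (move 590 (branch (move 591 (leaf 555 0)) (move 622 (branch (move 493 (leaf 493 7)) (move 654 (leaf 525 7)))))))))) (branch (ref 1) (branch (move 554 (branch (move 556 (leaf 522 2)) (ref 2))) (branch (move 491 (branch (move 554 (branch (move 556 (leaf 522 2)) (move 459 (branch (move 586 (leaf 458 5)) (move 428 (branch (move 460 (leaf 427 6)) (move 427 (branch (move 396 (leaf 395 6)) (move 426 (branch (move 394 (leaf 394 7)) (move 458 (leaf 426 7)))))))))))) (branch (move 587 (branch (move 490 (branch (move 458 (leaf 458 7)) (move 492 (branch (move 493 (leaf 490 0)) (move 460 (leaf 459 6)))))) (move 586 (branch (move 618 (leaf 490 5)) (move 556 (branch (move 558 (leaf 554 1)) (move 554 (leaf 522 2)))))))) (branch (move 554 (branch (move 556 (leaf 522 2)) (move 586 (branch (move 459 (leaf 458 5)) (move 618 (branch (move 587 (leaf 490 5)) (move 650 (leaf 522 6)))))))) (move 460 (branch (move 459 (branch (move 428 (leaf 427 6)) (move 458 (branch (move 426 (leaf 426 7)) (move 490 (branch (move 587 (leaf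 458 7)) (move 489 (branch (move 461 (leaf 457 1)) (move 488 (leaf 456 2)))))))))) (branch (move 492 (branch (move 587 (leaf 459 6)) (move 428 (branch (move 396 (leaf 395 5)) (move 459 (leaf 427 6)))))) (branch (move 428 (branch (move 459 (leaf 427 6)) (move 492 (branch (move 396 (leaf 395 5)) (move 493 (branch (move 490 (leaf 490 0)) (move 461 (leaf 428 7)))))))) (move 492 (branch (move 587 (leaf 459 6)) (move 493 (branch (move 490 (leaf 490 0)) (move 589 (leaf 460 7)))))))))))))) (move 558 (branch (ref 3) (branch (move 556 (branch (move 522 (leaf 522 3)) (move 590 (branch (move 591 (leaf 555 0)) (move 622 (branch (move 493 (leaf 493 7)) (move 654 (leaf 525 7)))))))) (branch (move 590 (branch (move 622 (branch (move 654 (leaf 525 7)) (move 591 (branch (move 556 (leaf 555 0)) (move 621 (branch (move 653 (leaf 525 5)) (move 592 (branch (move 593 (leaf 589 1)) (move 620 (branch (move 589 (leaf 588 1)) (move 619 (leaf 587 2)))))))))))) (branch (move 493 (branch (move 461 (leaf 461 4)) (move 622 (leaf 493 7)))) (ref 4)))) (branch (move 587 (branch (move 522 (branch (move 556 (leaf 522 3)) (move 619 (branch (move 490 (leaf 490 7)) (move 652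 (branch (move 620 (leaf 523 4)) (move 651 (branch (move 684 (leaf 555 4)) (move 650 (branch (move 618 (leaf 522 5)) (move 682 (leaf 554 5)))))))))))) (branch (move 556 (branch (move 586 (leaf 554 1)) (move 522 (leaf 522 3)))) (ref 5)))) (ref 6))))))))))))
theorem a6p815 : a6e815.Valid :=
  pos_of_chk [a6e807, a6e810, a6e802, a6e800, a6e811, a6e812, a6e814] (forall_cons a6p807 (forall_cons a6p810 (forall_cons a6p802 (forall_cons a6p800 (forall_cons a6p811 (forall_cons a6p812 (forall_cons a6p814 forall_nil))))))) a6c815 a6e815 (by decide +kernel)

def a6e816 : Pos := ⟨471745303432202956716463588942664849720522026980987947953904447181637266339924679313853331149090208694433365517755703559262404264522454503056578184432640363429697159168, 59223865234633340327591916254727991965671863532952763590948867086876036462773635636031877373286200167157128207078347993983866205203292370724180257469586075083098459343099752461509158550623771257772100886746857306708360780840960, 18⟩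
def a6c816 : Cert := (move 555 (branch (move 589 (branch (move 621 (branch (move 652 (branch (move 620 (leaf 524 5)) (move 653 (branch (move 684 (leaf 556 5)) (move 654 (branch (move 622 (leaf 525 4)) (move 686 (leaf 557 4)))))))) (move 524 (branch (move 492 (leaf 492 7)) (move 523 (branch (move 554 (leaf 522 1)) (move 558 (branch (move 522 (leaf 522 0)) (move 559 (leaf 523 0)))))))))) (branch (move 621 (branch (move 652 (branch (move 620 (leaf 524 5)) (move 653 (branch (move 684 (leaf 556 5)) (move 654 (branch (move 622 (leaf 525 4)) (move 686 (leaf 557 4)))))))) (branch (ref 0) (branch (move 524 (branch (move 492 (leaf 492 7)) (move 523 (branch (move 554 (leaf 522 1)) (move 490 (branch (move 491 (leaf 490 3)) (move 522 (branch (move 489 (leaf 489 3)) (move 620 (branch (move 652 (leaf 524 5)) (move 619 (branch (move 587 (leaf 490 7)) (move 590 (branch (move 618 (leaf 586 2)) (move 622 (branch (move 591 (leaf 587 2)) (move 493 (leaf 493 4)))))))))))))))))) (move 622 (branch (move 654 (leaf 525 4)) (move 493 (branch (move 590 (leaf 493 4)) (move 492 (branch (move 460 (leaf 460 7)) (move 524 (leaf 492 7)))))))))))) (branch (move 621 (branch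 (move 524 (branch (move 492 (leaf 492 7)) (move 523 (branch (move 554 (leaf 522 1)) (move 558 (branch (move 522 (leaf 522 0)) (move 559 (leaf 523 0)))))))) (branch (move 653 (branch (move 558 (leaf 525 6)) (move 652 (branch (move 620 (leaf 524 5)) (move 684 (leaf 556 5)))))) (ref 0)))) (branch (ref 1) (ref 2)))))) (branch (ref 3) (branch (move 554 (branch (move 556 (leaf 522 2)) (move 523 (branch (move 524 (leaf 522 1)) (ref 4))))) (branch (ref 5) (branch (move 523 (branch (move 524 (branch (move 554 (leaf 522 1)) (move 558 (branch (move 522 (leaf 522 0)) (move 559 (leaf 523 0)))))) (branch (ref 6) (branch (move 554 (branch (move 524 (leaf 522 1)) (move 556 (leaf 522 2)))) (ref 7))))) (branch (move 523 (branch (move 524 (branch (move 554 (leaf 522 1)) (move 558 (branch (move 522 (leaf 522 0)) (move 559 (leaf 523 0)))))) (branch (move 554 (branch (move 524 (leaf 522 1)) (move 556 (leaf 522 2)))) (branch (move 556 (branch (move 554 (leaf 522 2)) (move 558 (branch (move 522 (leaf 522 3)) (move 590 (branch (move 591 (leaf 555 0)) (move 622 (branch (move 493 (leaf 493 7)) (move 654 (leaf 525 7)))))))))) (ref 8))))) (branch (move 589 (branch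 (ref 9) (branch (ref 1) (branch (move 556 (branch (move 554 (leaf 522 2)) (move 493 (branch (move 590 (branch (move 622 (leaf 493 4)) (move 591 (branch (move 558 (leaf 555 0)) (move 592 (leaf 556 3)))))) (move 460 (branch (move 492 (leaf 460 7)) (move 461 (branch (move 428 (leaf 428 7)) (move 429 (branch (move 524 (leaf 428 5)) (move 430 (branch (move 398 (leaf 397 6)) (move 462 (leaf 429 6)))))))))))))) (move 554 (branch (move 556 (leaf 522 2)) (move 524 (branch (move 523 (leaf 522 1)) (move 621 (branch (move 492 (leaf 492 7)) (move 653 (branch (move 558 (leaf 525 6)) (move 652 (branch (move 620 (leaf 524 5)) (move 684 (leaf 556 5)))))))))))))))) (ref 10)))))))))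
theorem a6p816 : a6e816.Valid :=
  pos_of_chk [a6e793, a6e794, a6e797, a6e801, a6e802, a6e805, a6e806, a6e807, a6e808, a6e803, a6e815] (forall_cons a6p793 (forall_cons a6p794 (forall_cons a6p797 (forall_cons a6p801 (forall_cons a6p802 (forall_cons a6p805 (forall_cons a6p806 (forall_cons a6p807 (forall_cons a6p808 (forall_cons a6p803 (forall_cons a6p815 forall_nil))))))))))) a6c816 a6e816 (by decide +kernel)

def a6e817 : Pos := ⟨2026130649339417646455839608909413369710460861557649419556992503466918515254346322199156636807556355703874333016357578985722085920303310176576592605651287016005483040871840481280, 401316522000393986645334617203290684852038971958072983286869266004136961795523463269700301579594324449747421577354038299075105509518567553290100695659045394082485170515159432112494215165547874822797144358912, 12⟩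
def a6c817 : Cert := (move 621 (branch (move 652 (branch (move 620 (leaf 524 5)) (move 653 (branch (move 684 (leaf 556 5)) (move 654 (branch (move 622 (leaf 525 4)) (move 686 (leaf 557 4)))))))) (branch (move 524 (branch (move 492 (leaf 492 7)) (move 653 (branch (move 556 (leaf 524 7)) (move 654 (branch (move 622 (leaf 525 4)) (move 686 (leaf 557 4)))))))) (branch (move 524 (branch (move 492 (leaf 492 7)) (move 653 (branch (move 556 (leaf 524 7)) (move 652 (branch (move 620 (leaf 524 5)) (move 684 (leaf 556 5)))))))) (ref 0)))))
theorem a6p817 : a6e817.Valid :=
  pos_of_chk [a6e726] (forall_cons a6p726 forall_nil) a6c817 a6e817 (by decide +kernel)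

def a6e818 : Pos := ⟨2026130649339417646455839608909413369710460861557649419556992503466918515254346322199156636807556355703874333016357578985722085920303310176576592605651287016005483040871840481280, 156509963074996774054281096719641919884793241331162861967839387594587807386206840005722666876172300902786540721830292128428707855158881523474155518424599042815151638775808813563682596847154559451136, 11⟩
def a6c818 : Cert := (move 493 (branch (move 588 (branch (move 620 (leaf 492 5)) (move 556 (branch (move 461 (leaf 460 5)) (move 555 (branch (move 554 (leaf 522 2)) (move 590 (branch (move 591 (leaf 555 3)) (move 622 (leaf 493 4)))))))))) (branch (ref 0) (branch (move 590 (branch (move 622 (leaf 493 4)) (move 558 (branch (move 461 (leaf 461 4)) (move 588 (branch (move 620 (leaf 492 5)) (move 559 (branch (move 560 (leaf 556 1)) (move 587 (leaf 555 2)))))))))) (branch (move 588 (branch (move 620 (leaf 492 5)) (move 461 (branch (move 556 (leaf 460 5)) (move 429 (branch (move 558 (leaf 429 4)) (move 430 (branch (move 398 (leaf 397 6)) (move 462 (leaf 429 6)))))))))) (move 590 (branch (move 622 (leaf 493 4)) (move 461 (branch (move 558 (leaf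 461 4)) (move 430 (branch (move 462 (leaf 429 6)) (move 429 (branch (move 398 (leaf 397 6)) (move 396 (branch (move 428 (leaf 396 7)) (move 397 (branch (move 364 (leaf 364 7)) (move 524 (branch (move 492 (leaf 396 5)) (move 556 (leaf 428 5)))))))))))))))))))))
theorem a6p818 : a6e818.Valid :=
  pos_of_chk [a6e784] (forall_cons a6p784 forall_nil) a6c818 a6e818 (by decide +kernel)

def a6e819 : Pos := ⟨2026130649457353972231512776192535314490532872758281252201471885230367478121733520941749502248498861150087689462054013301729582301162443166008305430178341653127484425465013207040, 4671939193532898513937097738568192073944085249840033697498743014567156695021298399088065668305887512813920490835865359862635637644273385215200739214036662665062993111916104642704545518880588562432, 10⟩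
def a6c819 : Cert := (move 523 (branch (move 524 (branch (move 554 (leaf 522 1)) (move 558 (branch (move 522 (leaf 522 0)) (move 559 (leaf 523 0)))))) (branch (move 491 (branch (move 524 (branch (move 490 (leaf 490 3)) (move 558 (branch (move 522 (leaf 522 0)) (move 559 (leaf 523 0)))))) (branch (move 459 (branch (move 426 (branch (move 458 (leaf 426 7)) (move 427 (branch (move 394 (leaf 394 7)) (move 396 (branch (move 428 (leaf 395 6)) (move 395 (branch (move 364 (leaf 363 6)) (move 524 (branch (move 492 (leaf 395 4)) (move 558 (branch (move 522 (leaf 522 0)) (move 559 (leaf 523 0)))))))))))))) (branch (move 428 (branch (move 460 (leaf 427 6)) (move 427 (branch (move 396 (leaf 395 6)) (move 426 (branch (move 394 (leaf 394 7)) (move 458 (leaf 426 7)))))))) (branch (move 492 (branch (move 460 (leaf 460 7)) (move 426 (branch (move 458 (leaf 426 7)) (move 427 (branch (move 394 (leaf 394 7)) (move 524 (branch (move 395 (leaf 395 4)) (move 558 (branch (move 522 (leaf 522 0)) (move 559 (leaf 523 0)))))))))))) (move 460 (branch (move 428 (leaf 427 6)) (move 492 (leaf 460 7)))))))) (move 492 (branch (move 490 (leaf 490 0)) (move 460 (leaf 460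 7))))))) (branch (move 492 (branch (move 460 (leaf 460 7)) (move 491 (branch (move 490 (leaf 490 0)) (move 554 (branch (move 524 (leaf 522 1)) (move 586 (branch (move 459 (leaf 458 5)) (move 618 (branch (move 587 (leaf 490 5)) (move 650 (leaf 522 6)))))))))))) (move 491 (branch (move 490 (branch (move 492 (leaf 490 0)) (move 458 (branch (move 587 (leaf 458 7)) (move 426 (branch (move 394 (leaf 394 4)) (move 522 (leaf 426 4)))))))) (branch (move 492 (branch (move 490 (leaf 490 0)) (move 460 (leaf 460 7)))) (branch (move 460 (branch (move 492 (leaf 460 7)) (move 459 (branch (move 428 (leaf 427 6)) (move 554 (branch (move 586 (leaf 458 5)) (move 427 (branch (move 522 (leaf 426 5)) (move 426 (branch (move 394 (leaf 394 7)) (move 458 (leaf 426 7)))))))))))) (move 459 (branch (move 428 (branch (move 460 (leaf 427 6)) (move 427 (branch (move 396 (leaf 395 6)) (move 426 (branch (move 394 (leaf 394 7)) (move 458 (leaf 426 7)))))))) (branch (move 554 (branch (move 586 (leaf 458 5)) (move 427 (branch (move 522 (leaf 426 5)) (move 428 (branch (move 396 (leaf 395 6)) (move 460 (leaf 427 6)))))))) (move 458 (branch (move 426 (leaf 426 7)) (move 587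 (branch (move 490 (leaf 458 7)) (move 586 (branch (move 554 (leaf 458 5)) (move 618 (leaf 490 5)))))))))))))))))))
theorem a6p819 : a6e819.Valid :=
  pos_of_chk [] forall_nil a6c819 a6e819 (by decide +kernel)

def a6e820 : Pos := ⟨6078391947192698658278786080578434876026124896432536037353480996256395614267151632660213417235904910259655938105902440237662347023244254990116581635367759316273169780349299851264, 1926319300331943726683748114727188304476600864829865277484400226830567016941013416061428015025047065785824006297388067300198247905303287841346698227745023682886764017214977443237092633921429421103473754112000, 12⟩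
def a6c820 : Cert := (move 591 (branch (move 592 (branch (move 593 (branch (move 558 (leaf 557 3)) (move 625 (branch (move 624 (leaf 589 0)) (move 626 (leaf 590 0)))))) (branch (move 492 (branch (move 460 (leaf 460 7)) (move 625 (branch (move 624 (leaf 589 0)) (move 593 (branch (move 626 (leaf 590 0)) (move 561 (branch (move 560 (leaf 557 2)) (move 562 (leaf 558 2)))))))))) (branch (move 560 (branch (move 561 (leaf 557 2)) (move 558 (branch (move 593 (leaf 557 3)) (move 559 (branch (move 524 (leaf 524 3)) (move 623 (branch (move 655 (leaf 526 7)) (move 528 (branch (move 529 (leaf 525 2)) (move 496 (leaf 495 5)))))))))))) (move 560 (branch (move 561 (leaf 557 2)) (move 528 (branch (move 496 (branch (move 623 (leaf 495 5)) (move 464 (branch (move 559 (leaf 463 5)) (move 465 (branch (move 433 (leaf 432 6)) (move 497 (leaf 464 6)))))))) (branch (move 624 (branch (move 625 (leaf 589 0)) (move 492 (branch (move 460 (leaf 460 7)) (move 491 (branch (move 490 (leaf 490 0)) (move 497 (branch (move 529 (leaf 496 6)) (move 496 (branch (move 465 (leaf 464 6)) (move 464 (branch (move 559 (leaf 463 5)) (move 463 (branch (move 431 (leaf 431 7)) (move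 495 (leaf 463 7)))))))))))))))) (branch (move 624 (branch (move 625 (leaf 589 0)) (move 655 (branch (move 623 (leaf 527 5)) (move 656 (branch (move 687 (leaf 559 5)) (move 559 (branch (move 688 (leaf 559 7)) (move 529 (branch (move 558 (leaf 525 2)) (move 497 (leaf 496 6)))))))))))) (move 624 (branch (move 625 (leaf 589 0)) (move 623 (branch (move 496 (leaf 495 5)) (move 655 (leaf 527 5)))))))))))))))) (branch (move 592 (branch (move 556 (leaf 556 3)) (move 492 (branch (move 460 (leaf 460 7)) (move 625 (branch (move 624 (leaf 589 0)) (move 593 (branch (move 626 (leaf 590 0)) (move 561 (branch (move 560 (leaf 557 2)) (move 562 (leaf 558 2)))))))))))) (move 556 (branch (move 558 (leaf 555 0)) (move 588 (leaf 555 3)))))))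
theorem a6p820 : a6e820.Valid :=
  pos_of_chk [] forall_nil a6c820 a6e820 (by decide +kernel)

def a6e821 : Pos := ⟨2026130649339417646510757990190458247430316067950300565295147985868064958529502029872640982274737604120854810141649215425540456411435157040873568509649020166506075267200760938496, 126142358329814238361435659996956404573373483972004808731939527553817154030702437601829946863173585733339177067324081148494943594445554753508997932515654756944694841464352050310759150025925000691712, 12⟩
def a6c821 : Cert := (move 523 (branch (move 490 (branch (move 491 (leaf 490 3)) (move 522 (branch (move 489 (leaf 489 3)) (move 521 (branch (move 556 (leaf 521 0)) (move 553 (branch (move 552 (leaf 520 1)) (move 554 (leaf 521 1)))))))))) (branch (move 558 (branch (move 522 (leaf 522 0)) (move 559 (leaf 523 0)))) (move 587 (branch (move 555 (branch (move 554 (leaf 522 1)) (move 491 (branch (move 490 (leaf 490 3)) (move 618 (branch (move 586 (leaf 490 5)) (move 619 (branch (move 650 (leaf 522 5)) (move 556 (branch (move 651 (leaf 523 6)) (move 459 (branch (move 427 (leaf 427 4)) (move 588 (leaf 459 4)))))))))))))) (branch (move 558 (branch (move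 559 (leaf 523 0)) (move 621 (branch (move 653 (leaf 525 6)) (move 622 (branch (move 654 (leaf 525 4)) (move 588 (branch (move 586 (leaf 586 0)) (move 623 (branch (move 590 (leaf 587 0)) (move 624 (leaf 588 3)))))))))))) (branch (move 558 (branch (move 559 (leaf 523 0)) (move 555 (branch (move 554 (leaf 522 1)) (move 491 (branch (move 490 (leaf 490 3)) (move 586 (branch (move 556 (leaf 554 1)) (move 618 (leaf 490 5)))))))))) (move 588 (branch (move 555 (branch (move 554 (leaf 522 1)) (move 491 (branch (move 490 (leaf 490 3)) (move 556 (branch (move 459 (leaf 459 4)) (move 590 (branch (move 591 (leaf 555 3)) (move 619 (branch (move 618 (leaf 586 1)) (move 651 (leaf 523 6)))))))))))) (branch (move 558 (branch (move 559 (leaf 523 0)) (move 621 (branch (move 653 (leaf 525 6)) (move 622 (branch (move 654 (leaf 525 4)) (move 623 (branch (move 590 (leaf 587 0)) (move 624 (leaf 588 3)))))))))) (move 558 (branch (move 559 (leaf 523 0)) (move 555 (branch (move 554 (leaf 522 1)) (move 491 (branch (move 490 (leaf 490 3)) (move 459 (branch (move 556 (leaf 459 4)) (move 621 (branch (move 653 (leaf 525 6)) (move 428 (branch (move 460 (leaf 427 6)) (move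 427 (branch (move 396 (leaf 395 6)) (move 426 (branch (move 394 (leaf 394 7)) (move 458 (leaf 426 7))))))))))))))))))))))))))))
theorem a6p821 : a6e821.Valid :=
  pos_of_chk [] forall_nil a6c821 a6e821 (by decide +kernel)

def a6e822 : Pos := ⟨471745303432202956716463588942664849720522026980987947953904447181637266339924679313853331149090208694433365517755703559262404264522454503056578184432640363429697159168, 381250695046577399902477315288978370962189823223454806960988063775148930583650474104863318088180608483453937268101493245185236856808461720800027009289010872333763503066167481382753592505158439482882070151168, 14⟩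
def a6c822 : Cert := (move 589 (branch (ref 0) (branch (move 524 (branch (move 621 (branch (move 492 (leaf 492 7)) (move 653 (branch (move 558 (leaf 525 6)) (move 654 (branch (move 622 (leaf 525 4)) (move 686 (leaf 557 4)))))))) (branch (move 492 (branch (move 621 (leaf 492 7)) (move 460 (branch (move 428 (leaf 428 4)) (move 556 (leaf 460 4)))))) (branch (move 523 (branch (move 490 (branch (move 491 (leaf 490 3)) (move 522 (branch (move 489 (leaf 489 3)) (move 521 (branch (move 556 (leaf 521 0)) (move 553 (branch (move 552 (leaf 520 1)) (move 554 (leaf 521 1)))))))))) (branch (move 558 (branch (move 522 (leaf 522 0)) (move 559 (leaf 523 0)))) (move 492 (branch (move 460 (branch (move 428 (leaf 428 4)) (move 556 (leaf 460 4)))) (branch (move 555 (branch (move 554 (leaf 522 1)) (move 558 (branch (move 559 (leaf 523 0)) (move 587 (branch (move 619 (leaf 491 6)) (move 586 (branch (move 556 (leaf 554 1)) (move 588 (leaf 554 2)))))))))) (move 555 (branch (move 554 (leaf 522 1)) (move 460 (branch (move 428 (leaf 428 4)) (move 491 (branch (move 490 (leaf 490 3)) (move 587 (leaf 459 6)))))))))))))) (ref 1))))) (branch (ref 2) (branch (ref 3)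 (branch (move 493 (branch (ref 4) (branch (move 588 (branch (move 620 (leaf 492 5)) (move 461 (branch (move 556 (leaf 460 5)) (move 430 (branch (move 462 (leaf 429 6)) (move 429 (branch (move 398 (leaf 397 6)) (move 428 (branch (move 396 (leaf 396 7)) (move 460 (leaf 428 7)))))))))))) (branch (move 460 (branch (move 492 (leaf 460 7)) (move 461 (branch (move 428 (leaf 428 7)) (move 429 (branch (move 558 (leaf 429 4)) (move 430 (branch (move 398 (leaf 397 6)) (move 462 (leaf 429 6)))))))))) (move 588 (branch (move 620 (leaf 492 5)) (move 461 (branch (move 556 (leaf 460 5)) (move 429 (branch (move 558 (leaf 429 4)) (move 430 (branch (move 398 (leaf 397 6)) (move 462 (leaf 429 6)))))))))))))) (branch (ref 5) (ref 6))))))))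
theorem a6p822 : a6e822.Valid :=
  pos_of_chk [a6e763, a6e821, a6e768, a6e758, a6e791, a6e785, a6e818] (forall_cons a6p763 (forall_cons a6p821 (forall_cons a6p768 (forall_cons a6p758 (forall_cons a6p791 (forall_cons a6p785 (forall_cons a6p818 forall_nil))))))) a6c822 a6e822 (by decide +kernel)

def a6e823 : Pos := ⟨117936325803132357904464360546858158127348872133707909181502797516431469828456377814594845691394955038323091838694586955619079756770278485456288849798750272835786113024, 23359695969840033786236836065994514064341466984987433559570943149220668187303751300648804355466186060759460580992058713276674640063994794019122644069100420636710494836776028447854899236607029673984, 7⟩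
def a6c823 : Cert := (move 459 (branch (move 426 (branch (move 458 (leaf 426 7)) (move 427 (branch (move 394 (leaf 394 7)) (move 428 (branch (move 396 (leaf 395 6)) (move 460 (leaf 427 6)))))))) (branch (move 460 (branch (move 428 (leaf 427 6)) (move 587 (branch (move 492 (leaf 459 6)) (move 620 (branch (move 588 (leaf 491 4)) (move 619 (branch (move 652 (leaf 523 4)) (move 618 (branch (move 586 (leaf 490 5)) (move 650 (leaf 522 5)))))))))))) (branch (move 426 (branch (move 458 (leaf 426 7)) (move 427 (branch (move 394 (leaf 394 7)) (move 396 (branch (move 428 (leaf 395 6)) (move 395 (branch (move 364 (leaf 363 6)) (move 524 (branch (move 492 (leaf 395 4)) (move 556 (leaf 427 4)))))))))))) (move 426 (branch (move 458 (leaf 426 7)) (move 427 (branch (move 394 (leaf 394 7)) (move 524 (branch (move 556 (leaf 427 4)) (move 492 (branch (move 395 (leaf 395 4)) (move 587 (branch (move 460 (leaf 459 6)) (move 619 (leaf 491 6))))))))))))))))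
theorem a6p823 : a6e823.Valid :=
  pos_of_chk [] forall_nil a6c823 a6e823 (by decide +kernel)

def a6e824 : Pos := ⟨589681629235335314614534608458475855758001387988079452541234115701890875251421503675135415519382283742750070457376258957946158466356092224822989580040208227958200991744, 23359695969840033786363469232492234191997843009752671011681223477942579891792208111458885237752582025341070603656548881656584966369195986864889058203144935034519768750179380983134083434394752647168, 11⟩
def a6c824 : Cert := (move 491 (branch (move 587 (branch (move 620 (branch (move 588 (leaf 491 4)) (move 619 (branch (move 652 (leaf 523 4)) (move 618 (branch (move 586 (leaf 490 5)) (move 650 (leaf 522 5)))))))) (move 490 (branch (move 458 (leaf 458 7)) (move 492 (branch (move 493 (leaf 490 0)) (move 460 (leaf 459 6)))))))) (branch (move 490 (branch (move 524 (leaf 490 3)) (move 492 (branch (move 493 (leaf 490 0)) (move 460 (branch (move 587 (leaf 459 6)) (move 428 (branch (move 396 (leaf 395 5)) (move 459 (leaf 427 6)))))))))) (branch (ref 0) (branch (move 490 (branch (move 524 (leaf 490 3)) (move 587 (branch (move 458 (leaf 458 7)) (move 588 (branch (move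 620 (leaf 491 4)) (move 556 (branch (move 459 (leaf 459 4)) (move 586 (branch (move 558 (leaf 554 1)) (move 585 (leaf 553 2)))))))))))) (move 490 (branch (move 524 (leaf 490 3)) (move 460 (branch (move 492 (branch (move 493 (leaf 490 0)) (move 489 (branch (move 461 (leaf 457 2)) (move 456 (branch (move 457 (leaf 456 3)) (move 488 (branch (move 455 (leaf 455 3)) (move 520 (branch (move 519 (leaf 487 1)) (move 521 (leaf 488 1)))))))))))) (branch (move 459 (branch (move 428 (leaf 427 6)) (move 458 (branch (move 426 (leaf 426 7)) (move 489 (branch (move 461 (leaf 457 1)) (move 488 (leaf 456 2)))))))) (branch (move 459 (branch (move 428 (leaf 427 6)) (move 426 (branch (move 458 (leaf 426 7)) (move 492 (branch (move 493 (leaf 490 0)) (move 489 (branch (move 488 (leaf 456 2)) (move 394 (branch (move 427 (leaf 394 7)) (move 457 (branch (move 456 (leaf 456 3)) (move 521 (branch (move 520 (leaf 488 1)) (move 425 (leaf 393 6)))))))))))))))) (move 493 (branch (move 492 (leaf 490 0)) (move 428 (branch (move 459 (leaf 427 6)) (move 461 (leaf 428 7)))))))))))))))))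
theorem a6p824 : a6e824.Valid :=
  pos_of_chk [a6e823] (forall_cons a6p823 forall_nil) a6c824 a6e824 (by decide +kernel)

def a6e825 : Pos := ⟨589681629235335314614534608458475855758001387988079452541234115701890875251421503675135415519382283742750070457376258957946158466356092224822989580040208227958200991744, 98110723066366410009357033005239248881859179260261647945791153814053837633713298336854470347215008154778573557146243415786973011550038436966143521809798622671978765808614607814111132766644775944192, 11⟩
def a6c825 : Cert := (move 491 (branch (move 587 (branch (move 490 (branch (move 458 (leaf 458 7)) (move 619 (branch (move 522 (leaf 490 7)) (move 620 (branch (move 588 (leaf 491 4)) (move 652 (leaf 523 4)))))))) (branch (move 490 (branch (move 458 (leaf 458 7)) (move 619 (branch (move 522 (leaf 490 7)) (move 618 (branch (move 586 (leaf 490 5)) (move 650 (leaf 522 5)))))))) (move 586 (branch (move 618 (leaf 490 5)) (move 556 (branch (move 558 (leaf 554 1)) (move 588 (branch (move 585 (leaf 553 2)) (move 620 (leaf 491 4))))))))))) (branch (move 587 (branch (move 458 (branch (move 490 (leaf 458 7)) (move 459 (branch (move 426 (leaf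 426 7)) (move 460 (branch (move 428 (leaf 427 6)) (move 492 (leaf 459 6)))))))) (move 620 (branch (move 588 (leaf 491 4)) (move 619 (branch (move 652 (leaf 523 4)) (move 618 (branch (move 586 (leaf 490 5)) (move 650 (leaf 522 5)))))))))) (branch (move 490 (branch (move 492 (branch (move 493 (leaf 490 0)) (move 460 (branch (move 587 (leaf 459 6)) (move 428 (branch (move 396 (leaf 395 5)) (move 459 (leaf 427 6)))))))) (branch (move 458 (branch (move 587 (leaf 458 7)) (move 426 (branch (move 394 (leaf 394 4)) (move 522 (leaf 426 4)))))) (ref 0)))) (branch (move 459 (branch (move 426 (branch (move 458 (leaf 426 7)) (move 427 (branch (move 394 (leaf 394 7)) (move 428 (branch (move 396 (leaf 395 6)) (move 460 (leaf 427 6)))))))) (move 556 (branch (move 588 (leaf 459 4)) (move 558 (branch (move 522 (leaf 522 3)) (move 590 (branch (move 591 (leaf 555 0)) (move 622 (branch (move 493 (leaf 493 7)) (move 654 (leaf 525 7)))))))))))) (move 587 (branch (move 588 (branch (move 620 (leaf 491 4)) (move 556 (branch (move 459 (leaf 459 4)) (move 558 (branch (move 586 (leaf 554 1)) (move 559 (leaf 555 1)))))))) (branch (move 492 (branch (move 460 (leaf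 459 6)) (move 490 (branch (move 493 (leaf 490 0)) (move 619 (branch (move 522 (leaf 490 7)) (move 620 (branch (move 588 (leaf 491 4)) (move 652 (leaf 523 4)))))))))) (move 492 (branch (move 460 (leaf 459 6)) (move 490 (branch (move 493 (leaf 490 0)) (move 619 (branch (move 522 (leaf 490 7)) (move 618 (branch (move 586 (leaf 490 5)) (move 650 (leaf 522 5))))))))))))))))))
theorem a6p825 : a6e825.Valid :=
  pos_of_chk [a6e809] (forall_cons a6p809 forall_nil) a6c825 a6e825 (by decide +kernel)

def a6e826 : Pos := ⟨471745303432202956716463588942664849720522026980987947953904447181637266339924679313853331149090208694433365517755703559262404264522454503056578184432640363429697159168, 140460782540123977996478184996517633408423071307330524478294256023980608824172257108460053156599623218788974652566604061693082302199768644118803961572958016179866514232464571634835468082220600787134790500352, 15⟩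
def a6c826 : Cert := (move 555 (branch (ref 0) (branch (move 556 (branch (move 554 (leaf 522 2)) (move 558 (branch (move 587 (branch (move 586 (leaf 554 1)) (move 559 (branch (move 588 (leaf 555 1)) (move 560 (branch (move 524 (leaf 524 3)) (move 561 (leaf 525 3)))))))) (move 590 (branch (move 591 (leaf 555 0)) (move 493 (branch (move 461 (leaf 461 4)) (move 622 (leaf 493 7)))))))))) (branch (ref 1) (branch (move 556 (branch (move 554 (leaf 522 2)) (move 558 (branch (move 587 (branch (move 586 (leaf 554 1)) (move 588 (branch (move 559 (leaf 555 1)) (move 620 (branch (move 652 (leaf 524 6)) (move 523 (branch (move 522 (leaf 522 3)) (move 491 (leaf 491 4)))))))))) (move 590 (branch (move 591 (leaf 555 0)) (move 493 (branch (move 461 (leaf 461 4)) (move 622 (leaf 493 7)))))))))) (branch (move 556 (branch (move 554 (leaf 522 2)) (move 558 (branch (move 587 (branch (move 586 (leaf 554 1)) (move 588 (branch (move 559 (leaf 555 1)) (move 620 (branch (move 652 (leaf 524 6)) (move 523 (branch (move 522 (leaf 522 3)) (move 491 (leaf 491 4)))))))))) (branch (move 591 (branch (move 590 (leaf 555 0)) (move 559 (branch (move 592 (leaf 556 0)) (move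 560 (branch (move 524 (leaf 524 3)) (move 561 (leaf 525 3)))))))) (ref 2)))))) (branch (move 556 (branch (move 554 (leaf 522 2)) (move 558 (branch (move 590 (branch (move 591 (leaf 555 0)) (move 493 (branch (move 461 (leaf 461 4)) (move 622 (leaf 493 7)))))) (move 523 (branch (move 522 (leaf 522 3)) (move 524 (branch (move 559 (leaf 523 0)) (move 491 (branch (move 490 (leaf 490 3)) (move 588 (branch (move 459 (leaf 459 4)) (move 620 (leaf 491 7)))))))))))))) (branch (move 556 (branch (move 554 (leaf 522 2)) (move 558 (branch (move 590 (branch (move 591 (leaf 555 0)) (move 493 (branch (move 461 (leaf 461 4)) (move 622 (leaf 493 7)))))) (move 523 (branch (move 522 (leaf 522 3)) (move 524 (branch (move 559 (leaf 523 0)) (move 587 (branch (move 586 (leaf 554 1)) (move 492 (branch (move 460 (leaf 459 5)) (move 619 (leaf 491 6)))))))))))))) (move 523 (branch (ref 3) (branch (ref 4) (branch (ref 5) (branch (move 491 (branch (move 587 (branch (move 620 (branch (move 588 (leaf 491 4)) (move 619 (branch (move 652 (leaf 523 4)) (move 618 (branch (move 586 (leaf 490 5)) (move 650 (leaf 522 5)))))))) (move 490 (branch (move 458 (leaf 458 7)) (move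 492 (branch (move 493 (leaf 490 0)) (move 460 (leaf 459 6)))))))) (branch (move 490 (branch (move 524 (leaf 490 3)) (move 458 (branch (move 587 (leaf 458 7)) (move 426 (branch (move 394 (leaf 394 4)) (move 522 (leaf 426 4)))))))) (branch (move 490 (branch (move 524 (leaf 490 3)) (ref 6))) (branch (move 490 (branch (move 524 (leaf 490 3)) (move 492 (branch (move 493 (leaf 490 0)) (move 460 (branch (move 587 (leaf 459 6)) (move 428 (branch (move 396 (leaf 395 5)) (move 459 (leaf 427 6)))))))))) (ref 7)))))) (branch (ref 8) (ref 9)))))))))))))))
theorem a6p826 : a6e826.Valid :=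
  pos_of_chk [a6e778, a6e779, a6e780, a6e777, a6e806, a6e808, a6e809, a6e823, a6e824, a6e825] (forall_cons a6p778 (forall_cons a6p779 (forall_cons a6p780 (forall_cons a6p777 (forall_cons a6p806 (forall_cons a6p808 (forall_cons a6p809 (forall_cons a6p823 (forall_cons a6p824 (forall_cons a6p825 forall_nil)))))))))) a6c826 a6e826 (by decide +kernel)

def a6e827 : Pos := ⟨329510287686269266319131238355906874428932894406878659650934246040906072803087490501882862751749818638910222946791081185781855423986398903003553357973522743296, 254364564336566038008181920313233871438856824336585999723204784773546609655230890449743086616780075934199139680376514428878714933459781140687715283820734185383302341066407056190448194301249516987903758706078556504984998734549777020616704, 19⟩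
def a6c827 : Cert := (move 557 (branch (ref 0) (branch (move 493 (branch (ref 1) (branch (ref 2) (branch (ref 3) (branch (ref 4) (branch (ref 5) (move 589 (branch (move 620 (branch (move 588 (leaf 492 5)) (move 621 (branch (move 652 (leaf 524 5)) (move 622 (branch (move 590 (leaf 493 4)) (move 654 (leaf 525 4)))))))) (branch (move 492 (branch (move 460 (leaf 460 7)) (move 621 (branch (move 524 (leaf 492 7)) (move 622 (branch (move 590 (leaf 493 4)) (move 654 (leaf 525 4)))))))) (branch (move 492 (branch (move 460 (leaf 460 7)) (move 621 (branch (move 524 (leaf 492 7)) (move 620 (branch (move 588 (leaf 492 5)) (move 652 (leaf 524 5)))))))) (ref 6))))))))))) (branch (move 589 (branch (ref 7) (branch (ref 8) (branch (ref 9) (branch (move 493 (branch (ref 10) (branch (move 588 (branch (move 620 (leaf 492 5)) (move 461 (branch (move 556 (leaf 460 5)) (move 430 (branch (move 462 (leaf 429 6)) (move 429 (branch (move 398 (leaf 397 6)) (move 428 (branch (move 396 (leaf 396 7)) (move 460 (leaf 428 7)))))))))))) (move 460 (branch (move 492 (leaf 460 7)) (move 461 (branch (move 428 (leaf 428 7)) (move 429 (branch (move 558 (leaf 429 4)) (move 430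 (branch (move 398 (leaf 397 6)) (move 462 (leaf 429 6))))))))))))) (branch (ref 11) (move 590 (branch (move 622 (branch (move 493 (leaf 493 4)) (move 654 (branch (move 621 (leaf 525 4)) (move 686 (leaf 557 7)))))) (branch (ref 12) (branch (move 493 (branch (move 622 (leaf 493 4)) (move 461 (branch (move 558 (leaf 461 4)) (move 460 (branch (move 428 (leaf 428 7)) (move 492 (leaf 460 7)))))))) (ref 13))))))))))) (branch (ref 14) (branch (move 589 (branch (ref 15) (branch (ref 8) (branch (ref 16) (ref 17))))) (branch (move 493 (branch (ref 2) (branch (ref 3) (branch (ref 4) (branch (ref 5) (branch (ref 18) (move 589 (branch (move 620 (branch (move 588 (leaf 492 5)) (move 621 (branch (move 652 (leaf 524 5)) (move 622 (branch (move 590 (leaf 493 4)) (move 654 (leaf 525 4)))))))) (branch (move 492 (branch (move 460 (leaf 460 7)) (move 621 (branch (move 524 (leaf 492 7)) (move 622 (branch (move 590 (leaf 493 4)) (move 654 (leaf 525 4)))))))) (branch (move 492 (branch (move 460 (leaf 460 7)) (move 621 (branch (move 524 (leaf 492 7)) (move 620 (branch (move 588 (leaf 492 5)) (move 652 (leaf 524 5)))))))) (move 588 (branch (move 620 (leaf 492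 5)) (move 587 (branch (move 590 (branch (move 622 (leaf 493 4)) (move 558 (branch (move 586 (leaf 554 2)) (move 559 (leaf 555 2)))))) (branch (move 586 (branch (move 558 (leaf 554 2)) (move 585 (branch (move 556 (leaf 553 2)) (move 617 (branch (move 616 (leaf 584 1)) (move 618 (leaf 585 1)))))))) (move 590 (branch (move 622 (leaf 493 4)) (move 492 (branch (move 460 (leaf 460 7)) (move 619 (branch (move 618 (leaf 586 1)) (move 556 (branch (move 524 (leaf 491 5)) (move 591 (branch (move 555 (leaf 555 3)) (move 592 (leaf 556 3))))))))))))))))))))))))))) (branch (ref 19) (branch (ref 20) (branch (move 589 (branch (ref 7) (branch (ref 8) (branch (ref 11) (branch (move 621 (branch (move 620 (branch (move 652 (leaf 524 5)) (move 622 (branch (move 654 (leaf 525 4)) (move 588 (branch (move 493 (leaf 492 5)) (move 587 (branch (move 586 (leaf 586 0)) (move 623 (leaf 587 3)))))))))) (branch (move 653 (branch (move 558 (leaf 525 6)) (move 652 (branch (move 620 (leaf 524 5)) (move 684 (leaf 556 5)))))) (move 653 (branch (move 558 (leaf 525 6)) (move 654 (branch (move 622 (leaf 525 4)) (move 686 (leaf 557 4))))))))) (branch (ref 21) (branch (move 590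 (branch (move 622 (branch (move 493 (leaf 493 4)) (move 654 (branch (move 621 (leaf 525 4)) (move 686 (leaf 557 7)))))) (branch (ref 12) (branch (ref 13) (move 493 (branch (move 622 (leaf 493 4)) (move 461 (branch (move 558 (leaf 461 4)) (move 556 (branch (move 588 (leaf 460 5)) (move 555 (branch (move 554 (leaf 554 0)) (move 429 (branch (move 524 (leaf 428 5)) (move 428 (branch (move 396 (leaf 396 7)) (move 460 (leaf 428 7)))))))))))))))))) (ref 22)))))))) (branch (move 493 (branch (ref 23) (branch (move 461 (branch (move 460 (branch (move 428 (leaf 428 7)) (move 492 (branch (move 589 (leaf 460 7)) (move 491 (branch (move 490 (leaf 490 0)) (move 462 (branch (move 463 (leaf 459 1)) (move 430 (leaf 429 6)))))))))) (move 558 (branch (move 429 (leaf 429 4)) (move 590 (leaf 461 4)))))) (branch (ref 24) (ref 25))))) (branch (move 493 (branch (ref 23) (branch (move 589 (branch (move 492 (branch (move 460 (leaf 460 7)) (move 621 (branch (move 524 (leaf 492 7)) (move 620 (branch (move 588 (leaf 492 5)) (move 652 (leaf 524 5)))))))) (branch (ref 26) (branch (move 492 (branch (move 460 (leaf 460 7)) (move 621 (branch (move 524 (leaf 492 7)) (move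 653 (branch (move 558 (leaf 525 6)) (move 686 (branch (move 654 (leaf 557 4)) (move 685 (branch (move 718 (leaf 589 4)) (move 684 (branch (move 652 (leaf 556 5)) (move 716 (leaf 588 5)))))))))))))) (ref 10))))) (branch (ref 2) (branch (move 589 (branch (ref 10) (branch (move 588 (branch (move 620 (leaf 492 5)) (move 461 (branch (move 556 (leaf 460 5)) (move 430 (branch (move 462 (leaf 429 6)) (move 429 (branch (move 398 (leaf 397 6)) (move 428 (branch (move 396 (leaf 396 7)) (move 460 (leaf 428 7)))))))))))) (move 460 (branch (move 492 (leaf 460 7)) (move 461 (branch (move 428 (leaf 428 7)) (move 429 (branch (move 558 (leaf 429 4)) (move 430 (branch (move 398 (leaf 397 6)) (move 462 (leaf 429 6))))))))))))) (ref 27)))))) (branch (ref 28) (branch (move 589 (branch (ref 29) (branch (move 621 (branch (move 652 (branch (move 620 (leaf 524 5)) (move 653 (branch (move 684 (leaf 556 5)) (move 654 (branch (move 622 (leaf 525 4)) (move 686 (leaf 557 4)))))))) (branch (move 524 (branch (move 492 (leaf 492 7)) (move 653 (branch (move 556 (leaf 524 7)) (move 654 (branch (move 622 (leaf 525 4)) (move 686 (leaf 557 4)))))))) (branch (move 524 (branch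 (move 492 (leaf 492 7)) (move 653 (branch (move 556 (leaf 524 7)) (move 652 (branch (move 620 (leaf 524 5)) (move 684 (leaf 556 5)))))))) (ref 30))))) (branch (ref 11) (branch (ref 22) (branch (ref 31) (move 590 (branch (move 622 (branch (move 493 (leaf 493 4)) (move 654 (branch (move 621 (leaf 525 4)) (move 686 (leaf 557 7)))))) (branch (ref 12) (branch (ref 13) (move 493 (branch (move 622 (leaf 493 4)) (move 558 (branch (move 461 (leaf 461 4)) (move 621 (branch (move 653 (leaf 525 6)) (move 524 (branch (move 492 (leaf 492 7)) (move 559 (branch (move 523 (leaf 523 0)) (move 560 (leaf 524 3)))))))))))))))))))))) (branch (move 493 (branch (ref 23) (branch (move 461 (branch (move 460 (branch (move 428 (leaf 428 7)) (move 492 (branch (move 589 (leaf 460 7)) (move 491 (branch (move 490 (leaf 490 0)) (move 462 (branch (move 463 (leaf 459 1)) (move 430 (leaf 429 6)))))))))) (move 558 (branch (move 429 (leaf 429 4)) (move 590 (leaf 461 4)))))) (branch (ref 27) (move 589 (branch (move 492 (branch (move 460 (leaf 460 7)) (move 621 (branch (move 524 (leaf 492 7)) (move 622 (branch (move 590 (leaf 493 4)) (move 654 (leaf 525 4)))))))) (branch (move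 492 (branch (move 460 (leaf 460 7)) (move 621 (branch (move 524 (leaf 492 7)) (move 653 (branch (move 558 (leaf 525 6)) (move 686 (branch (move 654 (leaf 557 4)) (move 685 (branch (move 718 (leaf 589 4)) (move 684 (branch (move 652 (leaf 556 5)) (move 716 (leaf 588 5)))))))))))))) (branch (ref 32) (move 590 (branch (move 622 (leaf 493 4)) (move 555 (branch (ref 33) (branch (move 556 (branch (move 554 (leaf 554 0)) (move 591 (branch (move 558 (leaf 555 0)) (move 592 (leaf 556 3)))))) (branch (move 554 (branch (move 556 (leaf 554 0)) (move 523 (branch (move 524 (leaf 522 1)) (move 492 (branch (move 460 (leaf 460 7)) (move 491 (branch (move 490 (leaf 490 0)) (move 586 (branch (move 459 (leaf 458 5)) (move 618 (branch (move 587 (leaf 490 5)) (move 522 (leaf 490 6)))))))))))))) (ref 34))))))))))))))) (branch (move 589 (branch (ref 7) (branch (ref 29) (branch (move 621 (branch (move 620 (branch (move 652 (leaf 524 5)) (move 493 (branch (move 588 (leaf 492 5)) (move 492 (branch (move 460 (leaf 460 7)) (move 524 (leaf 492 7)))))))) (branch (move 653 (branch (move 558 (leaf 525 6)) (move 652 (branch (move 620 (leaf 524 5)) (move 684 (leaf 556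 5)))))) (move 558 (branch (move 653 (leaf 525 6)) (move 524 (branch (move 492 (leaf 492 7)) (move 559 (branch (move 523 (leaf 523 0)) (move 560 (leaf 524 3))))))))))) (branch (ref 16) (move 493 (branch (ref 35) (branch (ref 26) (branch (move 590 (branch (move 622 (leaf 493 4)) (move 558 (branch (move 461 (leaf 461 4)) (move 588 (branch (move 620 (leaf 492 5)) (move 559 (branch (move 560 (leaf 556 1)) (move 587 (leaf 555 2)))))))))) (move 590 (branch (move 622 (leaf 493 4)) (move 461 (branch (move 558 (leaf 461 4)) (move 492 (branch (move 460 (leaf 460 7)) (move 491 (branch (move 490 (leaf 490 0)) (move 430 (branch (move 462 (leaf 429 6)) (move 429 (branch (move 398 (leaf 397 6)) (move 524 (branch (move 397 (leaf 396 5)) (move 556 (leaf 428 5))))))))))))))))))))))))) (branch (ref 36) (branch (move 493 (branch (ref 2) (branch (ref 3) (branch (ref 24) (branch (ref 18) (move 589 (branch (move 620 (branch (move 588 (leaf 492 5)) (move 621 (branch (move 652 (leaf 524 5)) (move 622 (branch (move 590 (leaf 493 4)) (move 654 (leaf 525 4)))))))) (branch (move 492 (branch (move 460 (leaf 460 7)) (move 621 (branch (move 524 (leaf 492 7)) (move 622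 (branch (move 590 (leaf 493 4)) (move 654 (leaf 525 4)))))))) (branch (move 492 (branch (move 460 (leaf 460 7)) (move 621 (branch (move 524 (leaf 492 7)) (move 620 (branch (move 588 (leaf 492 5)) (move 652 (leaf 524 5)))))))) (move 556 (branch (move 590 (branch (move 622 (leaf 493 4)) (move 555 (branch (move 554 (leaf 554 0)) (move 591 (branch (move 558 (leaf 555 0)) (move 592 (leaf 556 3)))))))) (branch (move 588 (branch (move 620 (leaf 492 5)) (move 492 (branch (move 460 (leaf 460 7)) (move 555 (branch (move 554 (leaf 522 2)) (move 491 (branch (move 490 (leaf 490 0)) (move 459 (branch (move 523 (leaf 459 4)) (move 524 (leaf 459 7)))))))))))) (move 590 (branch (move 622 (leaf 493 4)) (move 588 (branch (move 620 (leaf 492 5)) (move 591 (branch (move 592 (leaf 556 3)) (move 492 (branch (move 460 (leaf 460 7)) (move 559 (branch (move 560 (leaf 556 2)) (move 491 (branch (move 490 (leaf 490 0)) (move 524 (branch (move 459 (leaf 459 7)) (move 558 (branch (move 523 (leaf 523 0)) (move 623 (branch (move 624 (leaf 588 0)) (move 655 (leaf 526 7)))))))))))))))))))))))))))))))) (ref 37)))))))))))))))))))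
theorem a6p827 : a6e827.Valid :=
  pos_of_chk [a6e748, a6e749, a6e750, a6e751, a6e752, a6e753, a6e755, a6e756, a6e757, a6e758, a6e759, a6e760, a6e761, a6e762, a6e767, a6e764, a6e768, a6e769, a6e770, a6e774, a6e783, a6e785, a6e786, a6e787, a6e789, a6e790, a6e791, a6e792, a6e816, a6e817, a6e728, a6e818, a6e788, a6e819, a6e820, a6e765, a6e822, a6e826] (forall_cons a6p748 (forall_cons a6p749 (forall_cons a6p750 (forall_cons a6p751 (forall_cons a6p752 (forall_cons a6p753 (forall_cons a6p755 (forall_cons a6p756 (forall_cons a6p757 (forall_cons a6p758 (forall_cons a6p759 (forall_cons a6p760 (forall_cons a6p761 (forall_cons a6p762 (forall_cons a6p767 (forall_cons a6p764 (forall_cons a6p768 (forall_cons a6p769 (forall_cons a6p770 (forall_cons a6p774 (forall_cons a6p783 (forall_cons a6p785 (forall_cons a6p786 (forall_cons a6p787 (forall_cons a6p789 (forall_cons a6p790 (forall_cons a6p791 (forall_cons a6p792 (forall_cons a6p816 (forall_cons a6p817 (forall_cons a6p728 (forall_cons a6p818 (forall_cons a6p788 (forall_cons a6p819 (forall_cons a6p820 (forall_cons a6p765 (forall_cons a6p822 (forall_cons a6p826 forall_nil))))))))))))))))))))))))))))))))))))))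 a6c827 a6e827 (by decide +kernel)

def a6e828 : Pos := ⟨109836762587663119569853283975596282477217051242993142772519430893275632835127418117645511049141086917723837108972134280466351228802204252878131328343068377088, 235872651606264715808928721135210085356903048437505188501816104865697535204564092552086505638034849001644330191942327733467707469767130764731476561661770225655385948160, 8⟩
def a6c828 : Cert := (move 524 (branch (move 556 (leaf 428 5)) (move 428 (branch (move 396 (leaf 396 7)) (move 427 (branch (move 426 (branch (move 462 (leaf 426 0)) (move 425 (branch (move 460 (leaf 425 0)) (move 457 (branch (move 456 (leaf 424 1)) (move 458 (leaf 425 1)))))))) (branch (move 430 (branch (move 398 (leaf 397 6)) (move 459 (branch (move 458 (leaf 426 1)) (move 460 (branch (move 431 (leaf 427 1)) (move 395 (branch (move 394 (leaf 394 3)) (move 492 (leaf 395 7)))))))))) (move 430 (branch (move 398 (leaf 397 6)) (move 462 (branch (move 426 (leaf 426 0)) (move 463 (leaf 427 0)))))))))))))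
theorem a6p828 : a6e828.Valid :=
  pos_of_chk [] forall_nil a6c828 a6e828 (by decide +kernel)

def a6e829 : Pos := ⟨329510287711842630449274109546200865429838980847578915873142261587213014703852411785567419550307632676997319073499521737654254844793136854880500233658750205952, 412777140310963252665625262085932892665949527790183813160952403327916441789311132985694633130950053803490077909917141130844325731242801533713429891443924909135283355648, 11⟩
def a6c829 : Cert := (move 428 (branch (move 396 (leaf 396 7)) (move 430 (branch (move 398 (leaf 397 6)) (move 431 (branch (move 460 (branch (move 459 (leaf 427 1)) (move 432 (leaf 428 1)))) (branch (move 524 (branch (move 556 (leaf 428 5)) (move 464 (branch (move 463 (leaf 428 0)) (move 432 (branch (move 465 (leaf 429 0)) (move 400 (branch (move 399 (leaf 396 2)) (move 401 (leaf 397 2)))))))))) (move 459 (branch (move 460 (leaf 427 1)) (move 427 (branch (move 458 (leaf 426 1)) (move 524 (branch (move 556 (leaf 428 5)) (move 395 (branch (move 394 (leaf 394 3)) (move 491 (branch (move 492 (leaf 395 4)) (move 523 (branch (move 490 (leaf 490 3)) (move 554 (branch (move 555 (leaf 522 1)) (move 522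 (leaf 426 5)))))))))))))))))))))))
theorem a6p829 : a6e829.Valid :=
  pos_of_chk [] forall_nil a6c829 a6e829 (by decide +kernel)

def a6e830 : Pos := ⟨329510287711842630449274109546200865429838980847578915873142261587213014703852411785567419550307632676997319073499521737654254844793136854880500233658750205952, 235872651647453501932742575761460839663786028829094207768618919159806403603576214442539473405555677184750065181500520606866799386621485680714603841014725979555535781888, 13⟩
def a6c830 : Cert := (move 524 (branch (move 556 (leaf 428 5)) (move 428 (branch (move 396 (leaf 396 7)) (move 427 (branch (move 430 (branch (move 398 (leaf 397 6)) (move 462 (branch (move 426 (leaf 426 0)) (move 463 (leaf 427 0)))))) (branch (move 426 (branch (move 462 (leaf 426 0)) (move 457 (branch (move 458 (leaf 425 1)) (move 425 (branch (move 456 (leaf 424 1)) (move 393 (branch (move 392 (leaf 392 3)) (move 394 (leaf 393 3)))))))))) (branch (move 430 (branch (move 398 (leaf 397 6)) (move 458 (branch (move 459 (leaf 426 1)) (move 426 (branch (move 457 (leaf 425 1)) (move 394 (branch (move 393 (leaf 393 3)) (move 395 (leaf 394 3)))))))))) (move 430 (branch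 (move 398 (leaf 397 6)) (move 463 (branch (move 462 (leaf 427 0)) (move 431 (branch (move 464 (leaf 428 0)) (move 399 (branch (move 400 (leaf 396 2)) (move 494 (branch (move 495 (leaf 398 5)) (move 523 (branch (move 522 (leaf 490 2)) (move 491 (branch (move 490 (leaf 490 3)) (move 459 (branch (move 458 (leaf 426 1)) (move 395 (branch (move 394 (leaf 394 3)) (move 492 (leaf 395 4))))))))))))))))))))))))))))
theorem a6p830 : a6e830.Valid :=
  pos_of_chk [] forall_nil a6c830 a6e830 (by decide +kernel)

def a6e831 : Pos := ⟨329510287711842630449274109546200865429838980847578915873142261587213014703852411785567419550307632676997319073499521737654254844793136854880500233658750205952, 442261221754881544635050927095753499429021028728435321612169638702843495820601058194101468195786078710227389452945264439191098480536461247541092866547656330532553228288, 11⟩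
def a6c831 : Cert := (move 524 (branch (move 556 (leaf 428 5)) (move 523 (branch (move 490 (branch (move 491 (leaf 490 3)) (move 522 (branch (move 489 (leaf 489 3)) (move 554 (branch (move 553 (leaf 521 1)) (move 555 (leaf 522 1)))))))) (branch (move 494 (branch (move 522 (leaf 490 2)) (move 495 (leaf 491 2)))) (move 494 (branch (move 495 (leaf 491 2)) (move 430 (branch (move 398 (leaf 397 6)) (move 428 (branch (move 396 (leaf 396 7)) (move 491 (branch (move 490 (leaf 490 3)) (move 555 (branch (move 554 (leaf 522 1)) (move 460 (branch (move 492 (leaf 427 5)) (move 431 (branch (move 432 (leaf 428 1)) (move 399 (branch (move 400 (leaf 396 2)) (move 462 (leaf 398 6)))))))))))))))))))))))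
theorem a6p831 : a6e831.Valid :=
  pos_of_chk [] forall_nil a6c831 a6e831 (by decide +kernel)

def a6e832 : Pos := ⟨384428668992887508169129315938852011167994463248725359148297969260697360171033660202547896675599269116815689564631368601951230748790870005381092459987670663168, 23359695969840033786236836065965029982883819098017413726562198240221130180098683872651193095668221222536332206539697581076154486333176420972552417902315396628242261345954047514576153105770148265984, 12⟩
def a6c832 : Cert := (move 523 (branch (move 490 (branch (move 491 (leaf 490 3)) (move 522 (branch (move 489 (leaf 489 3)) (move 554 (branch (move 553 (leaf 521 1)) (move 555 (leaf 522 1)))))))) (branch (move 494 (branch (move 522 (leaf 490 2)) (move 495 (leaf 491 2)))) (move 430 (branch (move 398 (leaf 397 6)) (move 460 (branch (move 491 (branch (move 490 (leaf 490 3)) (move 459 (branch (move 458 (leaf 426 2)) (move 431 (branch (move 462 (leaf 427 2)) (move 432 (leaf 428 1)))))))) (branch (move 494 (branch (move 495 (leaf 491 2)) (move 491 (branch (move 490 (leaf 490 3)) (move 431 (branch (move 432 (leaf 428 1)) (move 462 (branch (move 399 (leaf 398 6)) (move 492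 (branch (move 463 (leaf 459 1)) (move 555 (branch (move 554 (leaf 522 1)) (move 587 (leaf 459 6)))))))))))))) (branch (move 494 (branch (move 495 (leaf 491 2)) (move 459 (branch (move 458 (leaf 458 0)) (move 431 (branch (move 462 (leaf 427 2)) (move 432 (leaf 428 1)))))))) (move 494 (branch (move 495 (leaf 491 2)) (move 459 (branch (move 458 (leaf 458 0)) (move 491 (branch (move 490 (leaf 490 3)) (move 555 (branch (move 554 (leaf 522 1)) (move 587 (branch (move 492 (leaf 459 6)) (move 620 (branch (move 588 (leaf 491 4)) (move 619 (branch (move 652 (leaf 523 4)) (move 618 (branch (move 650 (leaf 522 5)) (move 586 (leaf 490 5)))))))))))))))))))))))))))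
theorem a6p832 : a6e832.Valid :=
  pos_of_chk [] forall_nil a6c832 a6e832 (by decide +kernel)

def a6e833 : Pos := ⟨329510287711842630443319846716771253782458920213360382727717231560462505154026444073879622502082676889109161986052370608580488267794604325248984777117138944000, 2175541220097076023340310813790344475093687768168278044474384124584648526066167134655664547628936529588929769740168391432671427491214757396767654115316873091317343457555595954942864523264, 9⟩
def a6c833 : Cert := (move 524 (branch (move 523 (branch (move 490 (branch (move 491 (leaf 490 3)) (move 522 (branch (move 489 (leaf 489 3)) (move 521 (branch (move 492 (leaf 489 2)) (move 553 (branch (move 552 (leaf 520 1)) (move 554 (leaf 521 1)))))))))) (branch (move 494 (branch (move 522 (leaf 490 2)) (move 495 (leaf 491 2)))) (move 494 (branch (move 495 (leaf 491 2)) (move 461 (branch (move 397 (leaf 397 4)) (move 491 (branch (move 490 (leaf 490 3)) (move 428 (branch (move 396 (leaf 396 7)) (move 555 (branch (move 554 (leaf 522 1)) (move 460 (branch (move 459 (leaf 427 6)) (move 492 (leaf 427 5))))))))))))))))) (branch (move 461 (branch (move 556 (leaf 428 5)) (move 397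 (branch (move 492 (leaf 396 5)) (move 396 (branch (move 428 (leaf 396 7)) (move 364 (leaf 364 7)))))))) (branch (move 461 (branch (move 556 (leaf 428 5)) (move 494 (branch (move 397 (leaf 397 4)) (move 495 (branch (move 523 (leaf 491 2)) (move 496 (leaf 492 1)))))))) (move 523 (branch (move 490 (branch (move 491 (leaf 490 3)) (move 522 (branch (move 489 (leaf 489 3)) (move 521 (branch (move 492 (leaf 489 2)) (move 553 (branch (move 552 (leaf 520 1)) (move 554 (leaf 521 1)))))))))) (branch (move 494 (branch (move 522 (leaf 490 2)) (move 495 (leaf 491 2)))) (move 555 (branch (move 554 (leaf 522 1)) (move 492 (branch (move 460 (branch (move 428 (leaf 427 5)) (move 587 (branch (move 619 (leaf 491 6)) (move 556 (leaf 459 5)))))) (branch (move 491 (branch (move 490 (leaf 490 0)) (move 460 (branch (move 587 (leaf 459 6)) (move 428 (leaf 427 5)))))) (move 491 (branch (move 490 (leaf 490 0)) (move 494 (branch (move 495 (leaf 491 1)) (move 459 (branch (move 458 (leaf 458 3)) (move 556 (branch (move 588 (leaf 459 4)) (move 427 (leaf 427 4))))))))))))))))))))))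
theorem a6p833 : a6e833.Valid :=
  pos_of_chk [] forall_nil a6c833 a6e833 (by decide +kernel)

def a6e834 : Pos := ⟨329510287762989358703605589097359235784271093094760895172133262653076388955556286641248736099198304965283354239469251712325287109408080229002878528487593869312, 12786682234395784813116791680306532357899209357119557374108901267130881495161217427595743919552752242246043697134726312364766129152111035572495056896, 6⟩
def a6c834 : Cert := (move 428 (branch (move 427 (branch (move 463 (leaf 427 0)) (move 458 (branch (move 459 (leaf 426 1)) (move 426 (branch (move 457 (leaf 425 1)) (move 394 (branch (move 393 (leaf 393 3)) (move 395 (leaf 394 3)))))))))) (branch (move 431 (branch (move 399 (leaf 398 6)) (move 396 (branch (move 395 (leaf 395 3)) (move 460 (branch (move 459 (leaf 427 1)) (move 492 (leaf 396 4)))))))) (move 463 (branch (move 427 (leaf 427 0)) (move 464 (branch (move 465 (leaf 461 1)) (move 431 (leaf 428 0)))))))))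
theorem a6p834 : a6e834.Valid :=
  pos_of_chk [] forall_nil a6c834 a6e834 (by decide +kernel)

def a6e835 : Pos := ⟨4852171964711426004262224822250396481013764881907679006548339266075587288659844840319955210682244261670434619182456250700704776192, 166719359241011728013420340631039241361687531383511944918586393968481442215497975944894498258613426486305812276280981168948456361446497845248, 5⟩
def a6c835 : Cert := (move 431 (branch (move 400 (branch (move 399 (leaf 396 2)) (move 432 (branch (move 401 (leaf 397 2)) (move 464 (branch (move 463 (leaf 428 0)) (move 465 (leaf 429 0)))))))) (branch (move 396 (branch (move 395 (leaf 395 3)) (move 432 (branch (move 397 (leaf 396 3)) (move 464 (branch (move 463 (leaf 428 0)) (move 465 (leaf 429 0)))))))) (move 399 (branch (move 400 (leaf 396 2)) (move 427 (branch (move 398 (leaf 395 2)) (move 395 (branch (move 394 (leaf 394 3)) (move 396 (leaf 395 3)))))))))))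
theorem a6p835 : a6e835.Valid :=
  pos_of_chk [] forall_nil a6c835 a6e835 (by decide +kernel)

def a6e836 : Pos := ⟨329510287762989358691697063439193179913041175541218432427318973525434479124748305361665761897902048716458446470334943055703788849935362972480198508361614884864, 147420407322563423997869900416591707294506600737373826328254776854870985318487445489874311162248840118549002411555555148062407309652613050228991094111895441579477827584, 13⟩
def a6c836 : Cert := (move 427 (branch (move 459 (branch (move 458 (leaf 426 1)) (move 395 (branch (move 394 (leaf 394 3)) (move 460 (branch (move 431 (leaf 427 1)) (move 492 (branch (move 524 (leaf 395 7)) (move 363 (leaf 363 4)))))))))) (branch (move 395 (branch (move 394 (leaf 394 3)) (move 396 (branch (move 431 (leaf 395 3)) (move 459 (branch (move 458 (leaf 426 1)) (move 491 (branch (move 523 (leaf 395 6)) (move 364 (leaf 363 6)))))))))) (branch (move 459 (branch (move 458 (leaf 426 1)) (move 460 (branch (move 431 (leaf 427 1)) (move 396 (branch (move 492 (leaf 396 4)) (move 364 (branch (move 491 (leaf 363 5)) (move 332 (leaf 331 5)))))))))) (branch (move 394 (branch (move 395 (leaf 394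 3)) (move 426 (branch (move 393 (leaf 393 3)) (move 397 (branch (move 398 (leaf 394 2)) (move 396 (branch (move 425 (leaf 393 2)) (move 492 (branch (move 460 (leaf 396 4)) (move 458 (branch (move 457 (leaf 425 1)) (move 490 (branch (move 491 (leaf 490 0)) (move 431 (branch (move 432 (leaf 396 3)) (move 521 (branch (move 489 (leaf 393 5)) (move 522 (branch (move 553 (leaf 425 5)) (move 523 (branch (move 524 (leaf 490 2)) (move 555 (leaf 426 4)))))))))))))))))))))))) (branch (move 395 (branch (move 394 (leaf 394 3)) (move 396 (branch (move 431 (leaf 395 3)) (move 492 (branch (move 460 (leaf 396 4)) (move 491 (branch (move 490 (leaf 490 0)) (move 459 (branch (move 523 (leaf 395 6)) (move 364 (leaf 363 6)))))))))))) (move 395 (branch (move 394 (leaf 394 3)) (move 458 (branch (move 459 (leaf 426 1)) (move 426 (branch (move 457 (leaf 425 1)) (move 397 (branch (move 398 (leaf 394 2)) (move 396 (branch (move 425 (leaf 393 2)) (move 492 (branch (move 460 (leaf 396 4)) (move 490 (branch (move 491 (leaf 490 0)) (move 522 (leaf 394 6))))))))))))))))))))))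
theorem a6p836 : a6e836.Valid :=
  pos_of_chk [] forall_nil a6c836 a6e836 (by decide +kernel)

def a6e837 : Pos := ⟨329510287762989358691697063438500012489510971826323828881283202599575369855904351217873142002748393389507040064574949454177753955411015169739847615404371345408, 147420407322563423997869900583311066519228894296583602374572488536603314095371363713999331508202059658908727547267626679401576706447870837192732136560340219606452928512, 14⟩
def a6c837 : Cert := (move 428 (branch (move 431 (branch (move 400 (branch (move 399 (leaf 396 2)) (move 432 (branch (move 401 (leaf 397 2)) (move 464 (branch (move 463 (leaf 428 0)) (move 465 (leaf 429 0)))))))) (move 396 (branch (move 395 (leaf 395 3)) (move 460 (branch (move 459 (leaf 427 1)) (move 492 (leaf 396 4)))))))) (branch (move 427 (branch (move 398 (branch (move 399 (leaf 395 2)) (move 426 (branch (move 397 (leaf 394 2)) (move 394 (branch (move 393 (leaf 393 3)) (move 395 (leaf 394 3)))))))) (branch (move 459 (branch (move 458 (leaf 426 1)) (move 395 (branch (move 394 (leaf 394 3)) (move 460 (branch (move 431 (leaf 427 1)) (move 492 (branch (move 524 (leaf 395 7)) (move 363 (leaf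 363 4)))))))))) (move 459 (branch (move 458 (leaf 426 1)) (move 431 (branch (move 460 (leaf 427 1)) (move 399 (branch (move 398 (leaf 395 2)) (move 400 (leaf 396 2))))))))))) (branch (ref 0) (branch (move 431 (branch (move 400 (branch (move 399 (leaf 396 2)) (move 432 (branch (move 401 (leaf 397 2)) (move 464 (branch (move 463 (leaf 428 0)) (move 465 (leaf 429 0)))))))) (move 460 (branch (move 459 (leaf 427 1)) (move 492 (branch (move 396 (leaf 396 4)) (move 524 (branch (move 397 (leaf 396 6)) (move 523 (branch (move 522 (leaf 490 2)) (move 555 (leaf 427 5)))))))))))) (branch (ref 1) (move 427 (branch (move 398 (branch (move 399 (leaf 395 2)) (move 426 (branch (move 397 (leaf 394 2)) (move 394 (branch (move 393 (leaf 393 3)) (move 395 (leaf 394 3)))))))) (branch (move 398 (branch (move 399 (leaf 395 2)) (move 426 (branch (move 397 (leaf 394 2)) (move 458 (branch (move 457 (leaf 425 1)) (move 459 (leaf 426 1)))))))) (branch (move 458 (branch (move 459 (leaf 426 1)) (move 426 (branch (move 457 (leaf 425 1)) (move 394 (branch (move 393 (leaf 393 3)) (move 395 (leaf 394 3)))))))) (move 492 (branch (move 491 (branch (move 490 (leaf 490 0))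 (move 459 (branch (move 458 (leaf 426 1)) (move 523 (branch (move 522 (leaf 490 1)) (move 396 (leaf 395 6)))))))) (branch (move 460 (branch (move 396 (leaf 396 4)) (move 524 (branch (move 397 (leaf 396 6)) (move 395 (leaf 395 7)))))) (move 491 (branch (move 490 (leaf 490 0)) (move 459 (branch (move 458 (leaf 426 1)) (move 395 (branch (move 394 (leaf 394 3)) (move 524 (leaf 395 4)))))))))))))))))))))
theorem a6p837 : a6e837.Valid :=
  pos_of_chk [a6e835, a6e836] (forall_cons a6p835 (forall_cons a6p836 forall_nil)) a6c837 a6e837 (by decide +kernel)

def a6e838 : Pos := ⟨329510287762989358703605589097359235784271093094760895172133262653076388955556286641248736099198304965283354239469251712325287109408080229002878528487593869312, 933612482493817116887121023407104529504279765997982264951639727334151982098433589356996447015446193484060562684970832668870993096342409000280408862722116026368, 9⟩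
def a6c838 : Cert := (move 428 (branch (move 427 (branch (move 463 (leaf 427 0)) (move 458 (branch (move 459 (leaf 426 1)) (move 426 (branch (move 457 (leaf 425 1)) (move 394 (branch (move 393 (leaf 393 3)) (move 395 (leaf 394 3)))))))))) (branch (move 431 (branch (move 399 (leaf 398 6)) (move 459 (branch (move 460 (leaf 427 1)) (move 427 (branch (move 458 (leaf 426 1)) (move 395 (branch (move 394 (leaf 394 3)) (move 396 (leaf 395 3)))))))))) (move 431 (branch (move 399 (leaf 398 6)) (move 464 (branch (move 463 (leaf 428 0)) (move 432 (branch (move 465 (leaf 429 0)) (move 401 (branch (move 400 (leaf 397 2)) (move 433 (branch (move 402 (leaf 398 2)) (move 496 (branch (move 528 (leaf 400 6)) (move 495 (branch (move 524 (leaf 492 1)) (move 497 (leaf 493 1)))))))))))))))))))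
theorem a6p838 : a6e838.Valid :=
  pos_of_chk [] forall_nil a6c838 a6e838 (by decide +kernel)

def a6e839 : Pos := ⟨329510287762989358691697063439193179913041175541218432427318973525434479124748305361665761897902048716458446470334943055703788849935362972480198508361614884864, 933612482493817116887121023406411362080426781048326797831896966511792496345298421989100174181188705737541575326458733918016252532658043968610570073268279050240, 10⟩
def a6c839 : Cert := (move 427 (branch (move 458 (branch (move 459 (leaf 426 1)) (move 426 (branch (move 457 (leaf 425 1)) (move 394 (branch (move 393 (leaf 393 3)) (move 395 (leaf 394 3)))))))) (branch (move 459 (branch (move 458 (leaf 426 1)) (move 431 (branch (move 460 (leaf 427 1)) (move 464 (branch (move 463 (leaf 428 0)) (move 432 (branch (move 465 (leaf 429 0)) (move 397 (branch (move 396 (leaf 396 3)) (move 398 (branch (move 426 (leaf 394 2)) (move 433 (leaf 397 3)))))))))))))) (move 395 (branch (move 394 (leaf 394 3)) (move 431 (branch (move 396 (leaf 395 3)) (move 464 (branch (move 463 (leaf 428 0)) (move 432 (branch (move 465 (leaf 429 0)) (move 401 (branch (move 400 (leaf 397 2)) (move 433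 (branch (move 402 (leaf 398 2)) (move 496 (branch (move 528 (leaf 400 6)) (move 495 (branch (move 524 (leaf 492 1)) (move 497 (leaf 493 1)))))))))))))))))))))
theorem a6p839 : a6e839.Valid :=
  pos_of_chk [] forall_nil a6c839 a6e839 (by decide +kernel)

def a6e840 : Pos := ⟨329510287762989358691697063438500012489510971826323828881283202599575369855904351217873142002748393389507040064574949454177753955411015169739847615404371345408, 253266331285363532516265600874632380303568832791275083069742532186413242047223880737075651807084031807965414229481086731652901386262106949910126714339230721011178512547942760448, 11⟩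
def a6c840 : Cert := (move 428 (branch (move 431 (branch (move 396 (branch (move 395 (leaf 395 3)) (move 432 (branch (move 397 (leaf 396 3)) (move 464 (branch (move 463 (leaf 428 0)) (move 465 (leaf 429 0)))))))) (branch (move 396 (branch (move 395 (leaf 395 3)) (move 432 (branch (move 397 (leaf 396 3)) (move 400 (branch (move 399 (leaf 396 2)) (move 401 (leaf 397 2)))))))) (move 399 (branch (move 400 (leaf 396 2)) (move 463 (branch (move 464 (leaf 428 0)) (move 495 (leaf 398 5))))))))) (branch (ref 0) (branch (move 427 (branch (move 459 (branch (move 458 (leaf 426 1)) (move 431 (branch (move 460 (leaf 427 1)) (move 464 (branch (move 463 (leaf 428 0)) (move 432 (branch (move 465 (leaf 429 0)) (move 397 (branch (move 396 (leaf 396 3)) (move 398 (branch (move 426 (leaf 394 2)) (move 433 (leaf 397 3)))))))))))))) (branch (move 398 (branch (move 399 (leaf 395 2)) (move 426 (branch (move 397 (leaf 394 2)) (move 393 (branch (move 394 (leaf 393 3)) (move 425 (branch (move 392 (leaf 392 3)) (move 457 (branch (move 456 (leaf 424 1)) (move 458 (leaf 425 1)))))))))))) (branch (move 459 (branch (move 458 (leaf 426 1)) (move 431 (branch (move 460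 (leaf 427 1)) (move 399 (branch (move 400 (leaf 396 2)) (move 463 (branch (move 464 (leaf 428 0)) (move 495 (leaf 398 5)))))))))) (move 399 (branch (move 398 (leaf 395 2)) (move 431 (branch (move 400 (leaf 396 2)) (move 463 (branch (move 464 (leaf 428 0)) (move 495 (leaf 398 5)))))))))))) (branch (move 427 (branch (move 398 (branch (move 399 (leaf 395 2)) (move 426 (branch (move 397 (leaf 394 2)) (move 394 (branch (move 393 (leaf 393 3)) (move 395 (leaf 394 3)))))))) (branch (move 459 (branch (move 458 (leaf 426 1)) (move 431 (branch (move 460 (leaf 427 1)) (move 399 (branch (move 398 (leaf 395 2)) (move 400 (leaf 396 2)))))))) (move 458 (branch (move 459 (leaf 426 1)) (move 426 (branch (move 457 (leaf 425 1)) (move 394 (branch (move 393 (leaf 393 3)) (move 395 (leaf 394 3))))))))))) (branch (move 427 (branch (move 459 (branch (move 458 (leaf 426 1)) (move 431 (branch (move 460 (leaf 427 1)) (move 399 (branch (move 398 (leaf 395 2)) (move 400 (leaf 396 2)))))))) (branch (move 458 (branch (move 459 (leaf 426 1)) (move 426 (branch (move 457 (leaf 425 1)) (move 394 (branch (move 393 (leaf 393 3)) (move 395 (leaf 394 3)))))))) (move 395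 (branch (move 394 (leaf 394 3)) (move 431 (branch (move 396 (leaf 395 3)) (move 464 (branch (move 463 (leaf 428 0)) (move 432 (branch (move 465 (leaf 429 0)) (move 401 (branch (move 400 (leaf 397 2)) (move 433 (branch (move 402 (leaf 398 2)) (move 496 (branch (move 528 (leaf 400 6)) (move 495 (branch (move 524 (leaf 492 1)) (move 497 (leaf 493 1))))))))))))))))))))) (move 523 (branch (move 524 (branch (move 495 (leaf 491 2)) (move 491 (branch (move 490 (leaf 490 3)) (move 555 (branch (move 554 (leaf 522 1)) (move 459 (branch (move 460 (leaf 427 6)) (move 427 (branch (move 458 (leaf 426 1)) (move 396 (leaf 395 6)))))))))))) (branch (move 524 (branch (move 522 (leaf 490 2)) (move 495 (leaf 491 2)))) (move 427 (branch (move 398 (branch (move 399 (leaf 395 2)) (move 426 (branch (move 397 (leaf 394 2)) (move 394 (branch (move 393 (leaf 393 3)) (move 395 (leaf 394 3)))))))) (move 459 (branch (move 458 (leaf 426 1)) (move 491 (branch (move 396 (leaf 395 6)) (move 555 (branch (move 460 (leaf 427 6)) (move 554 (branch (move 586 (leaf 458 5)) (move 522 (leaf 426 5)))))))))))))))))))))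
theorem a6p840 : a6e840.Valid :=
  pos_of_chk [a6e839] (forall_cons a6p839 forall_nil) a6c840 a6e840 (by decide +kernel)

def a6e841 : Pos := ⟨329510287775776040753791367615466365048622966155091672689495840730058039687154057284908422402146545879849477555405626157946895904693378867160808860189961748480, 759798993738154268944826997225194747645042733681695463758064307052408441917708108493961218111468347591317774178198653726842898343658899407396827977880539695917783325130304258048, 7⟩
def a6c841 : Cert := (move 460 (branch (move 428 (branch (move 396 (leaf 396 4)) (move 524 (branch (move 397 (leaf 396 6)) (move 523 (branch (move 522 (leaf 490 2)) (move 555 (leaf 427 5)))))))) (branch (move 491 (branch (move 490 (leaf 490 0)) (move 523 (branch (move 522 (leaf 490 1)) (move 459 (branch (move 458 (leaf 458 3)) (move 555 (branch (move 587 (leaf 459 6)) (move 554 (branch (move 524 (leaf 522 1)) (move 586 (leaf 458 5)))))))))))) (branch (move 491 (branch (move 490 (leaf 490 0)) (move 428 (branch (move 396 (leaf 396 4)) (move 459 (branch (move 458 (leaf 458 3)) (move 523 (branch (move 522 (leaf 490 1)) (move 555 (leaf 427 6)))))))))) (move 491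 (branch (move 490 (leaf 490 0)) (move 459 (branch (move 458 (leaf 458 3)) (move 428 (branch (move 396 (leaf 396 4)) (move 524 (branch (move 397 (leaf 396 6)) (move 427 (branch (move 556 (leaf 427 7)) (move 395 (leaf 395 4))))))))))))))))
theorem a6p841 : a6e841.Valid :=
  pos_of_chk [] forall_nil a6c841 a6e841 (by decide +kernel)

def a6e842 : Pos := ⟨329510287762989358691697063438500012489510971826323828881283202599575369855904351217873142002748393389507040064574949454177753955411015169739847615404371345408, 117936326750474435724936037894990135222485699200111294078368305559140695436186979105288115883282724444902049968745206623911428080390019506570277850049604004358272319488, 12⟩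
def a6c842 : Cert := (move 428 (branch (move 431 (branch (move 400 (branch (move 399 (leaf 396 2)) (move 432 (branch (move 401 (leaf 397 2)) (move 464 (branch (move 463 (leaf 428 0)) (move 465 (leaf 429 0)))))))) (move 396 (branch (move 395 (leaf 395 3)) (move 460 (branch (move 459 (leaf 427 1)) (move 492 (leaf 396 4)))))))) (branch (ref 0) (branch (move 431 (branch (move 400 (branch (move 399 (leaf 396 2)) (move 432 (branch (move 401 (leaf 397 2)) (move 464 (branch (move 463 (leaf 428 0)) (move 465 (leaf 429 0)))))))) (move 460 (branch (move 459 (leaf 427 1)) (move 492 (branch (move 396 (leaf 396 4)) (move 524 (branch (move 397 (leaf 396 6)) (move 523 (branch (move 522 (leaf 490 2)) (move 555 (leaf 427 5)))))))))))) (branch (ref 1) (branch (move 427 (branch (move 398 (branch (move 399 (leaf 395 2)) (move 426 (branch (move 397 (leaf 394 2)) (move 394 (branch (move 393 (leaf 393 3)) (move 395 (leaf 394 3)))))))) (branch (move 459 (branch (move 458 (leaf 426 1)) (move 395 (branch (move 394 (leaf 394 3)) (move 460 (branch (move 431 (leaf 427 1)) (move 492 (branch (move 524 (leaf 395 7)) (move 363 (leaf 363 4)))))))))) (move 398 (branch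 (move 399 (leaf 395 2)) (move 426 (branch (move 397 (leaf 394 2)) (move 458 (branch (move 457 (leaf 425 1)) (move 459 (leaf 426 1))))))))))) (move 524 (branch (move 495 (branch (move 523 (leaf 491 2)) (move 496 (leaf 492 1)))) (move 427 (branch (move 398 (branch (move 399 (leaf 395 2)) (move 426 (branch (move 397 (leaf 394 2)) (move 458 (branch (move 457 (leaf 425 1)) (move 459 (leaf 426 1)))))))) (branch (move 394 (branch (move 395 (leaf 394 3)) (move 426 (branch (move 393 (leaf 393 3)) (move 458 (branch (move 457 (leaf 425 1)) (move 459 (leaf 426 1)))))))) (branch (move 398 (branch (move 399 (leaf 395 2)) (move 426 (branch (move 397 (leaf 394 2)) (move 394 (branch (move 393 (leaf 393 3)) (move 395 (leaf 394 3)))))))) (move 395 (branch (move 394 (leaf 394 3)) (move 460 (branch (move 492 (leaf 395 7)) (move 459 (branch (move 458 (leaf 426 1)) (move 363 (branch (move 331 (leaf 331 4)) (move 364 (branch (move 332 (leaf 331 6)) (move 362 (branch (move 330 (leaf 330 7)) (move 398 (branch (move 399 (leaf 395 2)) (move 397 (branch (move 396 (leaf 362 3)) (move 365 (leaf 362 0))))))))))))))))))))))))))))))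
theorem a6p842 : a6e842.Valid :=
  pos_of_chk [a6e835, a6e839] (forall_cons a6p835 (forall_cons a6p839 forall_nil)) a6c842 a6e842 (by decide +kernel)

def a6e843 : Pos := ⟨329510287762989358691697063435727342795390156966745414697140118896138932780528534642702662422133772081701414441534975048073614377313623958778444043575397187584, 353808977423126669752905167247180750958526424412704010556482203297095580938087482057501321104764743059481436468838911628631740405479942755218016918171239886655886196736, 11⟩
def a6c843 : Cert := (move 492 (branch (move 491 (branch (move 490 (leaf 490 0)) (move 459 (branch (move 458 (leaf 458 3)) (move 495 (branch (move 460 (leaf 459 3)) (move 496 (branch (move 497 (leaf 493 1)) (move 464 (branch (move 463 (leaf 460 2)) (move 465 (leaf 461 2)))))))))))) (branch (move 491 (branch (move 490 (leaf 490 0)) (move 459 (branch (move 458 (leaf 458 3)) (move 460 (branch (move 495 (leaf 459 3)) (move 428 (branch (move 396 (leaf 396 4)) (move 523 (branch (move 522 (leaf 490 1)) (move 555 (leaf 427 6)))))))))))) (branch (move 491 (branch (move 490 (leaf 490 0)) (move 523 (branch (move 522 (leaf 490 1)) (move 495 (branch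 (move 524 (leaf 491 1)) (move 463 (branch (move 462 (leaf 459 2)) (move 464 (leaf 460 2)))))))))) (branch (move 491 (branch (move 490 (leaf 490 0)) (move 523 (branch (move 522 (leaf 490 1)) (move 459 (branch (move 458 (leaf 458 3)) (move 462 (branch (move 463 (leaf 459 2)) (move 430 (branch (move 398 (leaf 397 5)) (move 431 (branch (move 399 (leaf 398 6)) (move 428 (branch (move 460 (leaf 427 1)) (move 427 (branch (move 396 (leaf 395 6)) (move 524 (branch (move 556 (leaf 427 4)) (move 395 (leaf 395 4)))))))))))))))))))) (move 495 (branch (move 496 (branch (move 497 (leaf 493 1)) (move 464 (branch (move 463 (leaf 460 2)) (move 465 (leaf 461 2)))))) (branch (move 496 (branch (move 524 (leaf 492 1)) (move 497 (leaf 493 1)))) (move 524 (branch (move 523 (leaf 491 1)) (move 460 (branch (move 459 (leaf 459 3)) (move 463 (branch (move 464 (leaf 460 2)) (move 428 (branch (move 396 (leaf 396 4)) (move 427 (branch (move 395 (leaf 395 7)) (move 430 (branch (move 462 (leaf 427 0)) (move 399 (branch (move 398 (leaf 395 2)) (move 431 (leaf 398 5))))))))))))))))))))))))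
theorem a6p843 : a6e843.Valid :=
  pos_of_chk [] forall_nil a6c843 a6e843 (by decide +kernel)

def a6e844 : Pos := ⟨329510287775776040753791367615466365048622966155091672689495840730058039687154057284908422402146545879849477555405626157946895904693378867160808860189961748480, 716054195661491040371485587377025826865642035459026625671847126935268990580846190657963477547744056275499185671449203723495496722476591583064167022592, 7⟩
def a6c844 : Cert := (move 430 (branch (move 462 (branch (move 397 (leaf 397 7)) (move 398 (leaf 397 5)))) (branch (move 460 (branch (move 495 (branch (move 459 (leaf 459 3)) (move 496 (branch (move 497 (leaf 493 1)) (move 464 (branch (move 463 (leaf 460 2)) (move 465 (leaf 461 2)))))))) (branch (move 428 (branch (move 396 (leaf 396 4)) (move 459 (branch (move 431 (leaf 427 1)) (move 458 (branch (move 457 (leaf 457 0)) (move 427 (leaf 426 1)))))))) (move 428 (branch (move 396 (leaf 396 4)) (move 462 (branch (move 397 (leaf 397 7)) (move 463 (branch (move 427 (leaf 427 0)) (move 464 (branch (move 495 (leaf 460 2)) (move 465 (leaf 461 1))))))))))))) (branch (move 460 (branch (move 495 (branch (move 459 (leaf 459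 3)) (move 496 (branch (move 497 (leaf 493 1)) (move 464 (branch (move 463 (leaf 460 2)) (move 465 (leaf 461 2)))))))) (branch (move 428 (branch (move 396 (leaf 396 4)) (move 459 (branch (move 431 (leaf 427 1)) (move 458 (branch (move 457 (leaf 457 0)) (move 427 (leaf 426 1)))))))) (move 462 (branch (move 398 (leaf 397 5)) (move 428 (branch (move 396 (leaf 396 4)) (move 463 (branch (move 427 (leaf 427 0)) (move 464 (branch (move 495 (leaf 460 2)) (move 465 (leaf 461 1))))))))))))) (move 428 (branch (move 431 (branch (move 464 (branch (move 463 (leaf 428 0)) (move 432 (branch (move 465 (leaf 429 0)) (move 396 (branch (move 395 (leaf 395 3)) (move 397 (leaf 396 3)))))))) (branch (move 399 (branch (move 400 (leaf 396 2)) (move 427 (branch (move 398 (leaf 395 2)) (move 395 (branch (move 394 (leaf 394 3)) (move 396 (leaf 395 3)))))))) (move 399 (branch (move 400 (leaf 396 2)) (move 463 (branch (move 464 (leaf 428 0)) (move 495 (leaf 398 5))))))))) (branch (move 460 (branch (move 396 (leaf 396 4)) (move 459 (branch (move 495 (leaf 459 3)) (move 458 (branch (move 457 (leaf 457 0)) (move 427 (leaf 426 1)))))))) (branch (move 460 (branch (move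 396 (leaf 396 4)) (move 459 (branch (move 495 (leaf 459 3)) (move 431 (leaf 427 1)))))) (branch (move 396 (branch (move 460 (leaf 396 4)) (move 395 (branch (move 431 (leaf 395 3)) (move 394 (branch (move 427 (leaf 394 3)) (move 393 (leaf 393 0)))))))) (move 427 (branch (move 398 (branch (move 399 (leaf 395 2)) (move 426 (branch (move 397 (leaf 394 2)) (move 394 (branch (move 393 (leaf 393 3)) (move 395 (leaf 394 3)))))))) (move 459 (branch (move 458 (leaf 426 1)) (move 460 (branch (move 495 (leaf 459 3)) (move 431 (leaf 427 1)))))))))))))))))
theorem a6p844 : a6e844.Valid :=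
  pos_of_chk [] forall_nil a6c844 a6e844 (by decide +kernel)

def a6e845 : Pos := ⟨329510287865282815188451496873639520821252630473515478635985893567491788033532715780348742262235962466885919352500183927059866596351663225837362576491913674752, 82377571943944010938684958498297003082131047672795582955577160366253850667392613789080931402798054642138262008096071197210955479271962778166219417984390135808, 12⟩
def a6c845 : Cert := (move 431 (branch (move 463 (branch (move 399 (leaf 398 5)) (move 492 (branch (move 464 (leaf 460 2)) (move 491 (branch (move 462 (leaf 459 2)) (move 490 (leaf 490 0)))))))) (branch (move 399 (branch (move 463 (leaf 398 5)) (move 430 (branch (move 462 (leaf 398 6)) (move 400 (branch (move 428 (leaf 396 2)) (move 401 (branch (move 432 (leaf 397 2)) (move 398 (leaf 397 1)))))))))) (branch (move 524 (branch (move 523 (leaf 491 2)) (move 463 (branch (move 399 (leaf 398 5)) (move 464 (branch (move 492 (leaf 460 2)) (move 430 (branch (move 428 (leaf 428 0)) (move 465 (branch (move 466 (leaf 462 1)) (move 432 (leaf 429 0)))))))))))) (branch (move 430 (branch (move 462 (branch (move 397 (leaf 397 7)) (move 398 (leaf 397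 5)))) (branch (move 432 (branch (move 524 (branch (move 523 (leaf 491 2)) (move 397 (branch (move 396 (leaf 396 3)) (move 433 (branch (move 398 (leaf 397 3)) (move 401 (branch (move 400 (leaf 397 2)) (move 402 (leaf 398 2)))))))))) (move 464 (branch (move 465 (leaf 429 0)) (move 463 (branch (move 492 (leaf 460 2)) (move 428 (leaf 428 0)))))))) (branch (move 524 (branch (move 523 (leaf 491 2)) (move 397 (branch (move 462 (leaf 397 7)) (move 432 (branch (move 396 (leaf 396 3)) (move 464 (branch (move 465 (leaf 429 0)) (move 463 (branch (move 492 (leaf 460 2)) (move 428 (leaf 428 0)))))))))))) (move 432 (branch (move 464 (branch (move 465 (leaf 429 0)) (move 463 (branch (move 492 (leaf 460 2)) (move 428 (leaf 428 0)))))) (branch (move 524 (branch (move 523 (leaf 491 2)) (move 401 (branch (move 400 (leaf 397 2)) (move 433 (branch (move 402 (leaf 398 2)) (move 466 (branch (move 465 (leaf 430 0)) (move 434 (branch (move 467 (leaf 431 0)) (move 462 (branch (move 463 (leaf 430 1)) (move 398 (leaf 397 5)))))))))))))) (branch (move 524 (branch (move 523 (leaf 491 2)) (move 401 (branch (move 400 (leaf 397 2)) (move 433 (branch (move 402 (leaf 398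 2)) (move 462 (branch (move 398 (leaf 397 5)) (move 463 (branch (move 434 (leaf 430 1)) (move 492 (branch (move 491 (leaf 459 2)) (move 464 (leaf 460 2)))))))))))))) (move 524 (branch (move 523 (leaf 491 2)) (move 465 (branch (move 464 (leaf 429 0)) (move 433 (branch (move 466 (leaf 430 0)) (move 401 (branch (move 400 (leaf 397 2)) (move 402 (leaf 398 2)))))))))))))))))) (move 430 (branch (move 462 (branch (move 399 (leaf 398 6)) (move 397 (leaf 397 7)))) (branch (move 462 (branch (move 397 (leaf 397 7)) (move 398 (leaf 397 5)))) (branch (move 462 (branch (move 399 (leaf 398 6)) (move 398 (leaf 397 5)))) (move 432 (branch (move 400 (branch (move 401 (leaf 397 2)) (move 397 (branch (move 396 (leaf 396 3)) (move 399 (branch (move 428 (leaf 396 2)) (move 398 (branch (move 433 (leaf 397 0)) (move 368 (branch (move 369 (leaf 365 2)) (move 336 (branch (move 304 (leaf 303 5)) (move 335 (branch (move 303 (leaf 303 7)) (move 464 (branch (move 465 (leaf 429 0)) (move 367 (leaf 335 4)))))))))))))))))) (branch (move 524 (branch (move 523 (leaf 491 2)) (move 465 (branch (move 464 (leaf 429 0)) (move 433 (branch (move 466 (leaf 430 0)) (move 401 (branch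 (move 400 (leaf 397 2)) (move 402 (leaf 398 2)))))))))) (branch (move 524 (branch (move 523 (leaf 491 2)) (move 397 (branch (move 396 (leaf 396 3)) (move 433 (branch (move 398 (leaf 397 3)) (move 465 (branch (move 464 (leaf 429 0)) (move 466 (leaf 430 0)))))))))) (move 524 (branch (move 523 (leaf 491 2)) (move 400 (branch (move 401 (leaf 397 2)) (move 428 (branch (move 399 (leaf 396 2)) (move 396 (branch (move 395 (leaf 395 3)) (move 397 (leaf 396 3)))))))))))))))))))))))
theorem a6p845 : a6e845.Valid :=
  pos_of_chk [] forall_nil a6c845 a6e845 (by decide +kernel)

def a6e846 : Pos := ⟨16636018167307139036158620595704522698961341359362675522860275729038917090275467848968933141683822583391192040790825390922767794176, 1291124943176889241621029435406113629611528438350252882765576105019499508429866655775803129275690064971517565253143494656, 8⟩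
def a6c846 : Cert := (move 336 (branch (move 304 (branch (move 399 (leaf 303 5)) (move 305 (branch (move 337 (leaf 304 6)) (move 273 (leaf 272 6)))))) (branch (move 304 (branch (move 399 (leaf 303 5)) (move 303 (branch (move 335 (leaf 303 7)) (move 271 (leaf 271 7)))))) (branch (move 303 (branch (move 335 (leaf 303 7)) (move 304 (branch (move 271 (leaf 271 7)) (move 305 (branch (move 337 (leaf 304 6)) (move 273 (leaf 272 6)))))))) (move 335 (branch (move 303 (leaf 303 7)) (move 334 (branch (move 333 (branch (move 369 (leaf 333 0)) (move 332 (branch (move 367 (leaf 332 0)) (move 300 (branch (move 299 (leaf 299 3)) (move 301 (leaf 300 3)))))))) (branch (move 337 (branch (move 305 (leaf 304 6)) (move 366 (branch (move 365 (leaf 333 1)) (move 302 (branch (move 301 (leaf 301 3)) (move 367 (branch (move 338 (leaf 334 1)) (move 399 (leaf 302 7)))))))))) (move 337 (branch (move 305 (leaf 304 6)) (move 369 (branch (move 333 (leaf 333 0)) (move 370 (leaf 334 0)))))))))))))))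
theorem a6p846 : a6e846.Valid :=
  pos_of_chk [] forall_nil a6c846 a6e846 (by decide +kernel)

def a6e847 : Pos := ⟨329510287762989358691697063444045351877752601545480657249569370006448244006655984368214101163977636005118291310654898266386033111605797591662654759062319661056, 82377572228447686760740598282908385510627174752257434258602861876767154413324019076287340359898668309743322265702464838985970550426112890166031828179365134336, 12⟩
def a6c847 : Cert := (move 432 (branch (move 397 (branch (move 396 (leaf 396 3)) (move 433 (branch (move 398 (leaf 397 3)) (move 466 (branch (move 465 (leaf 430 0)) (move 434 (branch (move 467 (leaf 431 0)) (move 403 (branch (move 402 (leaf 399 2)) (move 435 (branch (move 404 (leaf 400 2)) (move 399 (branch (move 400 (leaf 399 3)) (move 495 (branch (move 463 (leaf 398 5)) (move 524 (branch (move 523 (leaf 491 2)) (move 496 (leaf 492 1)))))))))))))))))))) (branch (move 397 (branch (move 396 (leaf 396 3)) (move 433 (branch (move 398 (leaf 397 3)) (move 466 (branch (move 465 (leaf 430 0)) (move 434 (branch (move 467 (leaf 431 0)) (move 402 (branch (move 401 (leaf 398 2)) (move 403 (leaf 399 2))))))))))))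 (branch (move 433 (branch (move 466 (branch (move 465 (leaf 430 0)) (move 434 (branch (move 467 (leaf 431 0)) (move 403 (branch (move 402 (leaf 399 2)) (move 435 (branch (move 404 (leaf 400 2)) (move 399 (branch (move 400 (leaf 399 3)) (move 495 (branch (move 463 (leaf 398 5)) (move 524 (branch (move 523 (leaf 491 2)) (move 496 (leaf 492 1)))))))))))))))) (branch (move 466 (branch (move 465 (leaf 430 0)) (move 434 (branch (move 467 (leaf 431 0)) (move 402 (branch (move 401 (leaf 398 2)) (move 403 (leaf 399 2)))))))) (branch (move 466 (branch (move 465 (leaf 430 0)) (move 434 (branch (move 467 (leaf 431 0)) (move 400 (branch (move 401 (leaf 397 2)) (move 399 (branch (move 435 (leaf 399 3)) (move 495 (branch (move 463 (leaf 398 5)) (move 524 (branch (move 523 (leaf 491 2)) (move 496 (leaf 492 1)))))))))))))) (move 401 (branch (move 400 (leaf 397 2)) (move 402 (leaf 398 2)))))))) (move 400 (branch (move 401 (leaf 397 2)) (move 368 (branch (move 399 (branch (move 397 (branch (move 396 (leaf 396 3)) (move 398 (branch (move 369 (leaf 365 2)) (move 365 (branch (move 364 (leaf 364 3)) (move 333 (branch (move 301 (leaf 301 4)) (move 334 (branch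 (move 302 (leaf 301 6)) (move 332 (branch (move 300 (leaf 300 7)) (move 367 (branch (move 366 (leaf 332 3)) (move 335 (leaf 332 0)))))))))))))))) (move 495 (branch (move 463 (leaf 398 5)) (move 524 (branch (move 523 (leaf 491 2)) (move 496 (leaf 492 1)))))))) (branch (move 336 (branch (move 463 (leaf 335 5)) (move 303 (branch (move 335 (leaf 303 7)) (move 304 (branch (move 271 (leaf 271 7)) (move 305 (branch (move 337 (leaf 304 6)) (move 273 (leaf 272 6)))))))))) (branch (move 336 (branch (move 463 (leaf 335 5)) (move 304 (branch (move 399 (leaf 303 5)) (move 305 (branch (move 337 (leaf 304 6)) (move 273 (leaf 272 6)))))))) (ref 0)))))))))))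
theorem a6p847 : a6e847.Valid :=
  pos_of_chk [a6e846] (forall_cons a6p846 forall_nil) a6c847 a6e847 (by decide +kernel)

def a6e848 : Pos := ⟨329510287762989358691697063438500012489510971826323828881283202599575369855904351217873142002748393389507040064574949454177753955411015169739847615404371345408, 3773962427540001226391706917950586244730009745163877736338025528987639913385218093428219154035023567205022433372404726230109588996126815651002225145934474116823244603392, 13⟩
def a6c848 : Cert := (move 431 (branch (move 432 (branch (move 401 (branch (move 400 (leaf 397 2)) (move 433 (branch (move 402 (leaf 398 2)) (move 465 (branch (move 464 (leaf 429 0)) (move 466 (leaf 430 0)))))))) (branch (move 397 (branch (move 396 (leaf 396 3)) (move 433 (branch (move 398 (leaf 397 3)) (move 465 (branch (move 464 (leaf 429 0)) (move 466 (leaf 430 0)))))))) (branch (move 397 (branch (move 396 (leaf 396 3)) (move 433 (branch (move 398 (leaf 397 3)) (move 401 (branch (move 400 (leaf 397 2)) (move 402 (leaf 398 2)))))))) (move 400 (branch (move 401 (leaf 397 2)) (move 368 (branch (move 336 (branch (move 463 (leaf 335 5)) (move 304 (branch (move 399 (leaf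 303 5)) (move 303 (branch (move 335 (leaf 303 7)) (move 271 (leaf 271 7)))))))) (branch (move 464 (branch (move 465 (leaf 429 0)) (move 367 (branch (move 335 (leaf 335 7)) (move 399 (branch (move 496 (leaf 367 7)) (move 397 (branch (move 396 (leaf 396 3)) (move 369 (branch (move 398 (leaf 365 2)) (move 337 (leaf 336 6)))))))))))) (move 464 (branch (move 465 (leaf 429 0)) (move 336 (branch (move 463 (leaf 335 5)) (move 337 (branch (move 369 (leaf 336 6)) (move 305 (leaf 304 6))))))))))))))))) (branch (move 496 (branch (move 495 (branch (move 524 (leaf 492 1)) (move 497 (leaf 493 1)))) (move 432 (branch (move 397 (branch (move 396 (leaf 396 3)) (move 433 (branch (move 398 (leaf 397 3)) (move 401 (branch (move 400 (leaf 397 2)) (move 402 (leaf 398 2)))))))) (branch (move 464 (branch (move 465 (leaf 429 0)) (move 399 (branch (move 528 (leaf 399 7)) (move 367 (branch (move 400 (leaf 367 7)) (move 335 (leaf 335 4)))))))) (move 464 (branch (move 465 (leaf 429 0)) (move 528 (branch (move 399 (leaf 399 7)) (move 433 (branch (move 401 (leaf 400 6)) (move 397 (branch (move 396 (leaf 396 3)) (move 398 (leaf 397 3))))))))))))))) (branch (move 495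 (branch (move 432 (branch (move 397 (branch (move 396 (leaf 396 3)) (move 433 (branch (move 398 (leaf 397 3)) (move 401 (branch (move 400 (leaf 397 2)) (move 402 (leaf 398 2)))))))) (move 524 (branch (move 523 (leaf 491 2)) (move 464 (branch (move 465 (leaf 429 0)) (move 492 (branch (move 463 (leaf 460 2)) (move 491 (branch (move 490 (leaf 490 0)) (move 459 (branch (move 458 (leaf 458 3)) (move 460 (leaf 459 3)))))))))))))) (branch (move 524 (branch (move 523 (leaf 491 2)) (move 496 (leaf 492 1)))) (move 496 (branch (move 497 (leaf 493 1)) (move 464 (branch (move 465 (leaf 461 2)) (move 528 (branch (move 529 (leaf 493 0)) (move 463 (branch (move 492 (leaf 460 2)) (move 560 (leaf 431 7))))))))))))) (branch (ref 0) (branch (move 495 (branch (move 524 (branch (move 523 (leaf 491 2)) (move 496 (leaf 492 1)))) (move 463 (branch (move 399 (leaf 398 5)) (move 492 (branch (move 464 (leaf 460 2)) (move 491 (branch (move 490 (leaf 490 0)) (move 459 (branch (move 458 (leaf 458 3)) (move 460 (leaf 459 3)))))))))))) (move 432 (branch (move 401 (branch (move 400 (leaf 397 2)) (move 433 (branch (move 402 (leaf 398 2)) (move 465 (branch (move 464 (leaf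 429 0)) (move 466 (leaf 430 0)))))))) (branch (move 397 (branch (move 396 (leaf 396 3)) (move 433 (branch (move 398 (leaf 397 3)) (move 465 (branch (move 464 (leaf 429 0)) (move 466 (leaf 430 0)))))))) (branch (move 397 (branch (move 396 (leaf 396 3)) (move 433 (branch (move 398 (leaf 397 3)) (move 401 (branch (move 400 (leaf 397 2)) (move 402 (leaf 398 2)))))))) (move 400 (branch (move 401 (leaf 397 2)) (move 368 (branch (move 464 (branch (move 465 (leaf 429 0)) (move 336 (branch (move 463 (leaf 335 5)) (move 335 (branch (move 367 (leaf 335 7)) (move 303 (leaf 303 7)))))))) (branch (move 464 (branch (move 465 (leaf 429 0)) (move 336 (branch (move 463 (leaf 335 5)) (move 337 (branch (move 369 (leaf 336 6)) (move 305 (leaf 304 6)))))))) (branch (ref 1) (move 464 (branch (move 465 (leaf 429 0)) (move 495 (branch (move 463 (leaf 367 5)) (move 524 (branch (move 523 (leaf 491 2)) (move 367 (branch (move 335 (leaf 335 7)) (move 369 (branch (move 337 (leaf 336 6)) (move 397 (branch (move 396 (leaf 396 3)) (move 398 (branch (move 399 (leaf 365 2)) (move 366 (leaf 365 1))))))))))))))))))))))))))))))))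
theorem a6p848 : a6e848.Valid :=
  pos_of_chk [a6e847, a6e846] (forall_cons a6p847 (forall_cons a6p846 forall_nil)) a6c848 a6e848 (by decide +kernel)

def a6e849 : Pos := ⟨329510287762989358691697063435727342795390156966745414697140118896138932780528534642702662422133772081701414441534975048073614377313623958778444043575397187584, 3773962427540001226391706917962494770391641638152758672466041009462633057142155549603246906033569640882086966255986666028043865660378488383096681416158908601735441285120, 14⟩
def a6c849 : Cert := (move 430 (branch (move 462 (branch (move 397 (leaf 397 7)) (move 398 (leaf 397 5)))) (branch (move 495 (branch (move 496 (branch (move 497 (leaf 493 1)) (move 464 (branch (move 465 (leaf 461 2)) (move 492 (branch (move 463 (leaf 460 2)) (move 491 (branch (move 490 (leaf 490 0)) (move 459 (branch (move 458 (leaf 458 3)) (move 460 (leaf 459 3)))))))))))) (branch (move 524 (branch (move 523 (leaf 491 2)) (move 496 (leaf 492 1)))) (move 492 (branch (move 491 (branch (move 490 (leaf 490 0)) (move 459 (branch (move 458 (leaf 458 3)) (move 460 (leaf 459 3)))))) (branch (move 523 (branch (move 524 (leaf 491 1)) (move 463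 (branch (move 464 (leaf 460 2)) (move 462 (branch (move 491 (leaf 459 2)) (move 398 (leaf 397 5)))))))) (move 459 (branch (move 460 (leaf 459 3)) (move 431 (branch (move 463 (branch (move 464 (leaf 460 2)) (move 399 (leaf 398 5)))) (branch (move 524 (branch (move 523 (leaf 491 1)) (move 462 (branch (move 399 (leaf 398 6)) (move 398 (leaf 397 5)))))) (move 524 (branch (move 523 (leaf 491 1)) (move 432 (branch (move 401 (branch (move 400 (leaf 397 2)) (move 433 (branch (move 402 (leaf 398 2)) (move 465 (branch (move 464 (leaf 429 0)) (move 466 (leaf 430 0)))))))) (branch (move 401 (branch (move 400 (leaf 397 2)) (move 433 (branch (move 402 (leaf 398 2)) (move 466 (branch (move 465 (leaf 430 0)) (move 434 (branch (move 467 (leaf 431 0)) (move 462 (branch (move 463 (leaf 430 1)) (move 398 (leaf 397 5)))))))))))) (branch (move 401 (branch (move 400 (leaf 397 2)) (move 433 (branch (move 402 (leaf 398 2)) (move 463 (branch (move 464 (leaf 460 2)) (move 462 (branch (move 434 (leaf 430 1)) (move 398 (leaf 397 5)))))))))) (move 464 (branch (move 463 (leaf 460 2)) (move 465 (leaf 429 0))))))))))))))))))))) (branch (move 495 (branch (move 496 (branch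 (move 497 (leaf 493 1)) (move 464 (branch (move 465 (leaf 461 2)) (move 492 (branch (move 463 (leaf 460 2)) (move 491 (branch (move 490 (leaf 490 0)) (move 459 (branch (move 458 (leaf 458 3)) (move 460 (leaf 459 3)))))))))))) (branch (move 524 (branch (move 523 (leaf 491 2)) (move 496 (leaf 492 1)))) (move 431 (branch (move 463 (branch (move 399 (leaf 398 5)) (move 464 (branch (move 492 (leaf 460 2)) (move 465 (branch (move 466 (leaf 462 1)) (move 432 (leaf 429 0)))))))) (branch (move 462 (branch (move 399 (leaf 398 6)) (move 397 (leaf 397 7)))) (move 524 (branch (move 523 (leaf 491 2)) (move 397 (branch (move 462 (leaf 397 7)) (move 432 (branch (move 396 (leaf 396 3)) (move 464 (branch (move 465 (leaf 429 0)) (move 492 (branch (move 463 (leaf 460 2)) (move 491 (branch (move 490 (leaf 490 0)) (move 459 (branch (move 458 (leaf 458 3)) (move 460 (leaf 459 3)))))))))))))))))))))) (ref 0)))))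
theorem a6p849 : a6e849.Valid :=
  pos_of_chk [a6e848] (forall_cons a6p848 forall_nil) a6c849 a6e849 (by decide +kernel)

def a6e850 : Pos := ⟨329510287711842630443319846716771253782458920213360382727717231560462505154026444073879622502082676889109161986052370608580488267794604325248984777117138944000, 174043297544702765398309432139193651512677035177008303113409406422309387351905303489143996684116872934004084957954975269547461640000236836953639107406727432049510732535204974769136916758528, 16⟩
def a6c850 : Cert := (move 494 (branch (move 430 (branch (move 462 (branch (move 397 (leaf 397 7)) (ref 0))) (branch (move 462 (branch (move 398 (leaf 397 5)) (ref 0))) (branch (move 462 (branch (move 397 (leaf 397 7)) (move 398 (leaf 397 5)))) (ref 1))))) (branch (move 492 (branch (move 491 (branch (move 490 (leaf 490 0)) (move 462 (branch (move 463 (leaf 459 2)) (move 430 (branch (move 397 (leaf 397 7)) (move 398 (leaf 397 5)))))))) (branch (move 491 (branch (move 490 (leaf 490 0)) (move 459 (branch (move 458 (leaf 458 3)) (move 495 (branch (move 460 (leaf 459 3)) (move 496 (branch (move 524 (leaf 492 1)) (move 497 (leaf 493 1)))))))))) (move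 495 (branch (move 496 (branch (move 497 (leaf 493 1)) (move 464 (branch (move 463 (leaf 460 2)) (move 465 (leaf 461 2)))))) (branch (move 460 (branch (move 459 (leaf 459 3)) (move 428 (branch (move 396 (leaf 396 4)) (move 397 (branch (move 524 (leaf 396 6)) (move 430 (branch (move 462 (leaf 397 7)) (move 463 (branch (move 464 (leaf 460 2)) (move 399 (branch (move 431 (leaf 398 5)) (move 398 (branch (move 427 (leaf 395 2)) (move 400 (leaf 396 1)))))))))))))))) (move 496 (branch (move 524 (leaf 492 1)) (move 497 (leaf 493 1)))))))))) (branch (move 430 (branch (move 462 (branch (move 397 (leaf 397 7)) (move 398 (leaf 397 5)))) (branch (move 462 (branch (move 397 (leaf 397 7)) (ref 2))) (branch (move 462 (branch (move 398 (leaf 397 5)) (ref 2))) (ref 3))))) (branch (move 492 (branch (move 495 (branch (move 496 (branch (move 497 (leaf 493 1)) (move 464 (branch (move 463 (leaf 460 2)) (move 465 (leaf 461 2)))))) (move 524 (branch (move 523 (leaf 491 1)) (move 460 (branch (move 459 (leaf 459 3)) (move 428 (branch (move 397 (leaf 396 6)) (move 396 (leaf 396 4)))))))))) (branch (move 491 (branch (move 490 (leaf 490 0)) (move 459 (branch (move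 458 (leaf 458 3)) (move 495 (branch (move 460 (leaf 459 3)) (move 496 (branch (move 497 (leaf 493 1)) (move 464 (branch (move 463 (leaf 460 2)) (move 465 (leaf 461 2)))))))))))) (branch (ref 4) (move 491 (branch (move 490 (leaf 490 0)) (move 523 (branch (move 522 (leaf 490 1)) (move 495 (branch (move 524 (leaf 491 1)) (move 496 (branch (move 497 (leaf 493 1)) (move 464 (branch (move 463 (leaf 460 2)) (move 465 (leaf 461 2)))))))))))))))) (branch (move 430 (branch (move 462 (branch (move 397 (leaf 397 7)) (ref 0))) (branch (move 462 (branch (move 398 (leaf 397 5)) (ref 0))) (branch (move 462 (branch (move 397 (leaf 397 7)) (move 398 (leaf 397 5)))) (ref 5))))) (branch (ref 6) (branch (move 492 (branch (move 491 (branch (move 490 (leaf 490 0)) (move 459 (branch (move 458 (leaf 458 3)) (move 460 (branch (move 495 (leaf 459 3)) (move 428 (branch (move 396 (leaf 396 4)) (move 523 (branch (move 522 (leaf 490 1)) (move 555 (leaf 427 6)))))))))))) (branch (ref 4) (branch (move 491 (branch (move 490 (leaf 490 0)) (move 459 (branch (move 458 (leaf 458 3)) (move 495 (branch (move 460 (leaf 459 3)) (move 496 (branch (move 524 (leaf 492 1)) (move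 497 (leaf 493 1)))))))))) (branch (move 491 (branch (move 490 (leaf 490 0)) (move 523 (branch (move 522 (leaf 490 1)) (move 524 (branch (move 495 (leaf 491 1)) (move 459 (branch (move 458 (leaf 458 3)) (move 556 (branch (move 588 (leaf 459 7)) (move 427 (leaf 427 4)))))))))))) (branch (move 491 (branch (move 490 (leaf 490 0)) (move 523 (branch (move 522 (leaf 490 1)) (move 524 (branch (move 495 (leaf 491 1)) (move 555 (branch (move 554 (leaf 522 1)) (move 460 (branch (move 587 (leaf 459 6)) (move 428 (leaf 427 5)))))))))))) (move 460 (branch (move 428 (branch (move 396 (leaf 396 4)) (move 524 (branch (move 397 (leaf 396 6)) (move 523 (branch (move 522 (leaf 490 2)) (move 555 (leaf 427 5)))))))) (branch (move 495 (branch (move 459 (leaf 459 3)) (move 524 (branch (move 523 (leaf 491 1)) (move 496 (leaf 492 1)))))) (move 428 (branch (move 396 (leaf 396 4)) (move 459 (branch (move 495 (leaf 459 3)) (move 458 (branch (move 457 (leaf 457 0)) (move 430 (branch (move 427 (leaf 426 1)) (move 431 (leaf 427 1))))))))))))))))))) (branch (move 492 (branch (move 491 (branch (move 490 (leaf 490 0)) (move 462 (branch (move 463 (leaf 459 2)) (move 430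 (branch (move 397 (leaf 397 7)) (move 398 (leaf 397 5)))))))) (branch (move 491 (branch (move 490 (leaf 490 0)) (move 459 (branch (move 458 (leaf 458 3)) (move 460 (branch (move 495 (leaf 459 3)) (move 428 (branch (move 396 (leaf 396 4)) (move 523 (branch (move 522 (leaf 490 1)) (move 555 (leaf 427 6)))))))))))) (ref 7)))) (branch (move 495 (branch (move 431 (branch (move 399 (branch (move 463 (leaf 398 5)) (move 430 (branch (move 462 (leaf 398 6)) (move 400 (branch (move 428 (leaf 396 2)) (move 401 (branch (move 432 (leaf 397 2)) (move 398 (leaf 397 1)))))))))) (branch (move 496 (branch (move 497 (leaf 493 1)) (move 464 (branch (move 465 (leaf 461 2)) (move 528 (branch (move 529 (leaf 493 0)) (move 560 (branch (move 463 (leaf 431 7)) (move 591 (branch (move 559 (leaf 463 5)) (move 592 (branch (move 623 (leaf 495 5)) (move 593 (branch (move 625 (leaf 496 4)) (move 561 (leaf 464 4)))))))))))))))) (move 496 (branch (move 497 (leaf 493 1)) (move 464 (branch (move 465 (leaf 461 2)) (move 528 (branch (move 529 (leaf 493 0)) (move 432 (branch (move 399 (leaf 399 7)) (move 401 (branch (move 433 (leaf 400 6)) (move 400 (branch (move 430 (leaf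 397 2)) (move 369 (leaf 368 6))))))))))))))))) (branch (move 524 (branch (move 523 (leaf 491 2)) (move 496 (leaf 492 1)))) (ref 8)))) (branch (move 492 (branch (move 491 (branch (move 490 (leaf 490 0)) (move 462 (branch (move 463 (leaf 459 2)) (move 430 (branch (move 397 (leaf 397 7)) (move 398 (leaf 397 5)))))))) (branch (move 491 (branch (move 490 (leaf 490 0)) (move 459 (branch (move 458 (leaf 458 3)) (move 495 (branch (move 460 (leaf 459 3)) (move 496 (branch (move 524 (leaf 492 1)) (move 497 (leaf 493 1)))))))))) (move 495 (branch (move 496 (branch (move 497 (leaf 493 1)) (move 464 (branch (move 463 (leaf 460 2)) (move 465 (leaf 461 2)))))) (branch (move 524 (branch (move 523 (leaf 491 1)) (move 496 (leaf 492 1)))) (move 524 (branch (move 523 (leaf 491 1)) (move 460 (branch (move 459 (leaf 459 3)) (move 463 (branch (move 464 (leaf 460 2)) (move 428 (branch (move 397 (leaf 396 6)) (move 427 (branch (move 395 (leaf 395 7)) (move 430 (branch (move 462 (leaf 427 0)) (move 399 (branch (move 398 (leaf 395 2)) (move 431 (leaf 398 5)))))))))))))))))))))) (ref 9))))))))))))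
theorem a6p850 : a6e850.Valid :=
  pos_of_chk [a6e834, a6e837, a6e838, a6e840, a6e841, a6e842, a6e843, a6e844, a6e845, a6e849] (forall_cons a6p834 (forall_cons a6p837 (forall_cons a6p838 (forall_cons a6p840 (forall_cons a6p841 (forall_cons a6p842 (forall_cons a6p843 (forall_cons a6p844 (forall_cons a6p845 (forall_cons a6p849 forall_nil)))))))))) a6c850 a6e850 (by decide +kernel)

def a6e851 : Pos := ⟨329510287711842630443319846715384918935398512783571175635645689708744286616338535786294382711775366235206349174532383405528418478745908719768282991202651865088, 23359696143883331329166737146323602292505130857093902529896438144226886613670493193468107131095402924720661657911061059420029542676153571217634565062898589644511921146970225415982364032854986326016, 17⟩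
def a6c851 : Cert := (move 429 (branch (move 461 (branch (move 396 (branch (move 428 (leaf 396 7)) (move 397 (branch (move 364 (leaf 364 7)) (move 398 (branch (move 430 (leaf 397 6)) (move 366 (leaf 365 6)))))))) (branch (move 524 (branch (move 556 (leaf 428 5)) (move 397 (branch (move 492 (leaf 396 5)) (move 398 (branch (move 430 (leaf 397 6)) (move 366 (leaf 365 6)))))))) (branch (move 524 (branch (move 556 (leaf 428 5)) (move 397 (branch (move 492 (leaf 396 5)) (move 396 (branch (move 428 (leaf 396 7)) (move 364 (leaf 364 7)))))))) (ref 0))))) (branch (move 461 (branch (move 396 (branch (move 428 (leaf 396 7)) (move 397 (branch (move 364 (leaf 364 7)) (move 398 (branch (move 430 (leaf 397 6)) (move 366 (leaf 365 6)))))))) (branch (move 397 (branch (move 494 (leaf 397 4)) (move 396 (branch (move 428 (leaf 396 7)) (move 364 (leaf 364 7)))))) (branch (move 397 (branch (move 494 (leaf 397 4)) (move 398 (branch (move 430 (leaf 397 6)) (move 366 (leaf 365 6)))))) (move 430 (branch (move 398 (leaf 397 6)) (move 428 (branch (move 396 (leaf 396 7)) (move 431 (branch (move 463 (branch (move 464 (leaf 428 0)) (move 462 (branch (move 427 (leaf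 427 0)) (move 399 (branch (move 400 (leaf 396 2)) (move 494 (leaf 398 6)))))))) (move 460 (branch (move 459 (leaf 427 1)) (move 432 (leaf 428 1)))))))))))))) (branch (move 461 (branch (move 430 (branch (move 398 (leaf 397 6)) (move 428 (branch (move 396 (leaf 396 7)) (move 431 (branch (move 463 (branch (move 464 (leaf 428 0)) (move 462 (branch (move 427 (leaf 427 0)) (move 399 (branch (move 400 (leaf 396 2)) (move 494 (leaf 398 6)))))))) (move 460 (branch (move 459 (leaf 427 1)) (move 432 (leaf 428 1)))))))))) (branch (ref 1) (branch (ref 2) (branch (ref 3) (branch (move 524 (branch (move 556 (leaf 428 5)) (move 523 (branch (move 490 (branch (move 491 (leaf 490 3)) (move 522 (branch (move 489 (leaf 489 3)) (move 554 (branch (move 553 (leaf 521 1)) (move 555 (leaf 522 1)))))))) (branch (move 494 (branch (move 522 (leaf 490 2)) (move 495 (leaf 491 2)))) (move 494 (branch (move 495 (leaf 491 2)) (move 491 (branch (move 490 (leaf 490 3)) (move 428 (branch (move 396 (leaf 396 7)) (move 555 (branch (move 554 (leaf 522 1)) (move 460 (branch (move 459 (leaf 427 6)) (move 492 (leaf 427 5))))))))))))))))) (move 524 (branch (move 556 (leaf 428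 5)) (ref 4))))))))) (branch (ref 5) (branch (move 524 (branch (move 461 (branch (move 556 (leaf 428 5)) (move 397 (branch (move 494 (leaf 397 4)) (move 398 (branch (move 430 (leaf 397 6)) (move 366 (leaf 365 6)))))))) (branch (move 461 (branch (move 556 (leaf 428 5)) (move 397 (branch (move 494 (leaf 397 4)) (move 492 (leaf 396 5)))))) (branch (move 461 (branch (move 556 (leaf 428 5)) (move 397 (branch (move 492 (leaf 396 5)) (move 398 (branch (move 430 (leaf 397 6)) (move 366 (leaf 365 6)))))))) (branch (move 461 (branch (move 556 (leaf 428 5)) (ref 4))) (move 523 (branch (move 490 (branch (move 491 (leaf 490 3)) (move 522 (branch (move 489 (leaf 489 3)) (move 521 (branch (move 492 (leaf 489 2)) (move 553 (branch (move 552 (leaf 520 1)) (move 554 (leaf 521 1)))))))))) (branch (move 494 (branch (move 522 (leaf 490 2)) (move 495 (leaf 491 2)))) (move 494 (branch (move 495 (leaf 491 2)) (move 462 (branch (move 430 (branch (move 397 (leaf 397 7)) (move 398 (leaf 397 5)))) (move 491 (branch (move 490 (leaf 490 3)) (move 555 (branch (move 554 (leaf 522 1)) (move 492 (branch (move 463 (leaf 459 2)) (move 587 (branch (move 619 (leaf 491 6))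 (move 460 (leaf 459 6)))))))))))))))))))))) (branch (move 461 (branch (move 396 (branch (move 428 (leaf 396 7)) (move 397 (branch (move 364 (leaf 364 7)) (move 398 (branch (move 430 (leaf 397 6)) (move 366 (leaf 365 6)))))))) (branch (move 524 (branch (move 556 (leaf 428 5)) (move 397 (branch (move 492 (leaf 396 5)) (move 398 (branch (move 430 (leaf 397 6)) (move 366 (leaf 365 6)))))))) (branch (move 524 (branch (move 556 (leaf 428 5)) (move 397 (branch (move 492 (leaf 396 5)) (move 396 (branch (move 428 (leaf 396 7)) (move 364 (leaf 364 7)))))))) (ref 2))))) (branch (move 461 (branch (move 396 (branch (move 428 (leaf 396 7)) (move 397 (branch (move 364 (leaf 364 7)) (move 398 (branch (move 430 (leaf 397 6)) (move 366 (leaf 365 6)))))))) (branch (move 524 (branch (move 556 (leaf 428 5)) (move 397 (branch (move 492 (leaf 396 5)) (move 398 (branch (move 430 (leaf 397 6)) (move 366 (leaf 365 6)))))))) (branch (move 524 (branch (move 556 (leaf 428 5)) (move 397 (branch (move 492 (leaf 396 5)) (move 396 (branch (move 428 (leaf 396 7)) (move 364 (leaf 364 7)))))))) (ref 3))))) (ref 6)))))))))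
theorem a6p851 : a6e851.Valid :=
  pos_of_chk [a6e828, a6e829, a6e830, a6e831, a6e832, a6e833, a6e850] (forall_cons a6p828 (forall_cons a6p829 (forall_cons a6p830 (forall_cons a6p831 (forall_cons a6p832 (forall_cons a6p833 (forall_cons a6p850 forall_nil))))))) a6c851 a6e851 (by decide +kernel)

def a6e852 : Pos := ⟨471745303432202956742036953066853458080000071487453566330596963166348710007762893127104376433501728654458913114051829787003706484269017557816088001197369996658826280960, 543885306100650913388781082545104605169638907304891691481153347521532502543737285125284384172384150362594165352470070592667901947832787500177965504799445187069629071203940684921110003712, 13⟩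
def a6c852 : Cert := (move 461 (branch (move 428 (branch (move 460 (leaf 428 7)) (move 429 (branch (move 396 (leaf 396 7)) (move 430 (branch (move 462 (leaf 429 6)) (move 398 (leaf 397 6)))))))) (branch (move 556 (branch (move 588 (leaf 460 5)) (move 429 (branch (move 524 (leaf 428 5)) (move 430 (branch (move 462 (leaf 429 6)) (move 398 (leaf 397 6)))))))) (branch (move 556 (branch (move 588 (leaf 460 5)) (move 429 (branch (move 524 (leaf 428 5)) (move 428 (branch (move 460 (leaf 428 7)) (move 396 (leaf 396 7)))))))) (move 460 (branch (move 428 (leaf 428 7)) (move 459 (branch (move 556 (branch (move 588 (leaf 460 5)) (move 458 (branch (move 425 (branch (move 426 (leaf 425 3)) (move 457 (branch (move 424 (leaf 424 3)) (move 554 (branch (move 555 (leaf 522 2)) (move 489 (branch (move 488 (leaf 456 1)) (move 521 (branch (move 522 (leaf 425 4)) (move 553 (branch (move 586 (leaf 457 4)) (move 552 (branch (move 584 (leaf 456 5)) (move 520 (leaf 424 5)))))))))))))))) (branch (move 489 (branch (move 490 (leaf 457 1)) (move 457 (branch (move 488 (leaf 456 1)) (move 425 (branch (move 424 (leaf 424 3)) (move 426 (leaf 425 3)))))))) (branch (move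 554 (branch (move 555 (leaf 522 2)) (move 490 (branch (move 489 (leaf 457 1)) (move 522 (branch (move 427 (leaf 426 6)) (move 586 (branch (move 491 (leaf 458 6)) (move 585 (branch (move 617 (leaf 489 5)) (move 553 (leaf 457 5)))))))))))) (move 555 (branch (move 554 (leaf 522 2)) (move 426 (branch (move 425 (leaf 425 3)) (move 523 (branch (move 491 (leaf 426 7)) (move 522 (branch (move 490 (leaf 426 4)) (move 521 (branch (move 520 (leaf 520 0)) (move 524 (leaf 521 0)))))))))))))))))) (branch (move 462 (branch (move 430 (leaf 429 6)) (move 556 (branch (move 588 (leaf 460 5)) (move 554 (branch (move 555 (leaf 522 2)) (move 491 (branch (move 490 (leaf 458 1)) (move 427 (branch (move 426 (leaf 426 3)) (move 523 (branch (move 524 (leaf 427 4)) (move 522 (leaf 426 5)))))))))))))) (move 462 (branch (move 430 (leaf 429 6)) (move 494 (branch (move 458 (leaf 458 0)) (move 495 (leaf 459 0)))))))))))))))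
theorem a6p852 : a6e852.Valid :=
  pos_of_chk [] forall_nil a6c852 a6e852 (by decide +kernel)

def a6e853 : Pos := ⟨471745303432202956742036953066853458080000071487453566330596963166348710007762893127104376433501728654458913114051829787003706484269017557816088001197369996658826280960, 93438784405297224793544116697496172846208405700229713211473682725465587359311202582928011039403959749269198188186679114749482923039579842109585177110779725464409802919152332799285962801953380499456, 12⟩
def a6c853 : Cert := (move 589 (branch (move 620 (branch (move 588 (leaf 492 5)) (move 621 (branch (move 652 (leaf 524 5)) (move 622 (branch (move 654 (leaf 525 4)) (move 590 (leaf 493 4)))))))) (branch (move 494 (branch (move 621 (leaf 493 6)) (move 462 (leaf 461 6)))) (move 590 (branch (move 622 (leaf 493 4)) (move 591 (branch (move 588 (branch (move 620 (leaf 492 5)) (move 560 (branch (move 559 (leaf 556 2)) (move 592 (branch (move 561 (leaf 557 2)) (move 624 (branch (move 623 (leaf 588 0)) (move 625 (leaf 589 0)))))))))) (branch (move 592 (branch (move 556 (leaf 556 3)) (move 494 (branch (move 462 (leaf 461 6)) (move 560 (branch (move 561 (leaf 557 2))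 (move 625 (branch (move 624 (leaf 589 0)) (move 593 (branch (move 626 (leaf 590 0)) (move 496 (branch (move 528 (leaf 496 4)) (move 495 (branch (move 524 (leaf 492 1)) (move 497 (leaf 493 1)))))))))))))))) (move 588 (branch (move 620 (leaf 492 5)) (move 555 (branch (move 556 (leaf 555 3)) (move 494 (branch (move 462 (leaf 461 6)) (move 587 (branch (move 554 (leaf 554 3)) (move 618 (branch (move 619 (leaf 586 1)) (move 586 (branch (move 617 (leaf 585 1)) (move 523 (branch (move 491 (leaf 490 5)) (move 524 (branch (move 522 (leaf 490 2)) (move 495 (leaf 491 2))))))))))))))))))))))))))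
theorem a6p853 : a6e853.Valid :=
  pos_of_chk [] forall_nil a6c853 a6e853 (by decide +kernel)

def a6e854 : Pos := ⟨471745303432202956742036953066853458080000071487453566330596963166348710007762893127104376433501728654458913114051829787003706484269017557816088001197369996658826280960, 74751027109579623529393105366322045035784409826871206645524625481683506274990953478674583469296419276022041458687447719116989581330875240822148028943822665762612449676328935122971706154731784110080, 6⟩
def a6c854 : Cert := (move 461 (branch (move 556 (branch (move 588 (leaf 460 5)) (move 429 (branch (move 524 (leaf 428 5)) (move 428 (branch (move 460 (leaf 428 7)) (move 396 (leaf 396 7)))))))) (branch (move 428 (branch (move 460 (leaf 428 7)) (move 429 (branch (move 396 (leaf 396 7)) (move 397 (branch (move 494 (leaf 397 4)) (move 398 (branch (move 430 (leaf 397 6)) (move 366 (leaf 365 6)))))))))) (move 588 (branch (move 556 (leaf 460 5)) (move 589 (branch (move 620 (leaf 492 5)) (move 621 (branch (move 494 (leaf 493 6)) (move 622 (branch (move 654 (leaf 525 4)) (move 590 (leaf 493 4)))))))))))))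
theorem a6p854 : a6e854.Valid :=
  pos_of_chk [] forall_nil a6c854 a6e854 (by decide +kernel)

def a6e855 : Pos := ⟨471745303432202956742036953066853458080000071487453566330596963166348710007762893127104376433501728654458913114051829787003706484269017557816088001197369996658826280960, 93438783879360135144947344263034565650940809076765166082157284548582837861158273165896580073702715371745867729077978178144361959869445536559526133086931648932172877572972822626559054030200088035328, 7⟩
def a6c855 : Cert := (move 461 (branch (move 428 (branch (move 460 (leaf 428 7)) (move 429 (branch (move 396 (leaf 396 7)) (move 430 (branch (move 462 (leaf 429 6)) (move 398 (leaf 397 6)))))))) (branch (move 428 (branch (move 460 (leaf 428 7)) (move 429 (branch (move 396 (leaf 396 7)) (move 397 (branch (move 494 (leaf 397 4)) (move 398 (branch (move 430 (leaf 397 6)) (move 366 (leaf 365 6)))))))))) (branch (move 428 (branch (move 460 (leaf 428 7)) (move 429 (branch (move 396 (leaf 396 7)) (move 494 (branch (move 397 (leaf 397 4)) (move 589 (branch (move 621 (leaf 493 6)) (move 462 (leaf 461 6)))))))))) (move 462 (branch (move 430 (leaf 429 6)) (move 589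 (branch (move 494 (leaf 461 6)) (move 622 (branch (move 590 (leaf 493 4)) (move 621 (branch (move 654 (leaf 525 4)) (move 620 (branch (move 652 (leaf 524 5)) (move 588 (leaf 492 5))))))))))))))))
theorem a6p855 : a6e855.Valid :=
  pos_of_chk [] forall_nil a6c855 a6e855 (by decide +kernel)

def a6e856 : Pos := ⟨471745303432202956742036953066853458080000071487453566330596963166348710007762893127104376433501728654458913114051829787003706484269017557816088001197369996658826280960, 8702164876336042794033758170813006549155694997260005659456010286468712275626540048926059025027883808881424047567774872223912181216816634877895345501400225146863935816562043932951120445440, 7⟩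
def a6c856 : Cert := (move 461 (branch (move 428 (branch (move 460 (leaf 428 7)) (move 429 (branch (move 396 (leaf 396 7)) (move 430 (branch (move 462 (leaf 429 6)) (move 398 (leaf 397 6)))))))) (branch (move 428 (branch (move 460 (leaf 428 7)) (move 429 (branch (move 396 (leaf 396 7)) (move 397 (branch (move 494 (leaf 397 4)) (move 398 (branch (move 430 (leaf 397 6)) (move 366 (leaf 365 6)))))))))) (branch (move 428 (branch (move 460 (leaf 428 7)) (move 429 (branch (move 396 (leaf 396 7)) (move 494 (branch (move 397 (leaf 397 4)) (move 589 (branch (move 621 (leaf 493 6)) (move 462 (leaf 461 6)))))))))) (branch (move 462 (branch (move 430 (leaf 429 6)) (move 494 (branch (move 589 (leaf 461 6)) (move 429 (branch (move 397 (leaf 397 4)) (move 524 (branch (move 556 (leaf 428 5)) (move 495 (branch (move 523 (leaf 491 2)) (move 496 (leaf 492 1)))))))))))) (move 462 (branch (move 430 (leaf 429 6)) (move 494 (branch (move 589 (leaf 461 6)) (move 460 (branch (move 428 (leaf 428 7)) (move 495 (branch (move 496 (leaf 460 3)) (move 459 (leaf 459 0)))))))))))))))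
theorem a6p856 : a6e856.Valid :=
  pos_of_chk [] forall_nil a6c856 a6e856 (by decide +kernel)

def a6e857 : Pos := ⟨707617954983549291260330784903075234051386820797859386352524221147926695655877737433882628985188537193141313684843821502877757494718287344693915163454777888352971522048, 11679847984920016893181734615884937098383860905266604012203592251944342316028021410354713841020718683196151007996474267086253436537764469254997800211983955299763711524653741148082308461870610120704, 11⟩
def a6c857 : Cert := (move 458 (branch (move 459 (branch (move 489 (leaf 457 1)) (move 426 (branch (move 425 (leaf 425 3)) (move 462 (branch (move 427 (leaf 426 3)) (move 430 (leaf 429 6)))))))) (branch (move 426 (branch (move 555 (branch (move 554 (leaf 522 2)) (move 522 (branch (move 523 (leaf 426 4)) (move 462 (branch (move 430 (leaf 429 6)) (move 427 (branch (move 459 (leaf 426 3)) (move 395 (leaf 394 6)))))))))) (branch (move 425 (branch (move 459 (leaf 425 3)) (move 393 (branch (move 522 (leaf 393 7)) (move 361 (branch (move 394 (leaf 361 7)) (move 457 (leaf 361 4)))))))) (branch (move 555 (branch (move 554 (leaf 522 2)) (move 522 (branch (move 523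 (leaf 426 4)) (move 393 (branch (move 425 (leaf 393 7)) (move 394 (branch (move 361 (leaf 361 7)) (move 395 (branch (move 427 (leaf 394 6)) (move 363 (leaf 362 6)))))))))))) (move 459 (branch (move 425 (leaf 425 3)) (move 462 (branch (move 427 (leaf 426 3)) (move 430 (leaf 429 6)))))))))) (branch (move 554 (branch (move 555 (leaf 522 2)) (move 522 (branch (move 457 (branch (move 425 (leaf 425 7)) (move 586 (branch (move 489 (leaf 457 7)) (move 619 (branch (move 587 (leaf 490 4)) (move 618 (branch (move 651 (leaf 522 4)) (move 617 (branch (move 649 (leaf 521 5)) (move 585 (leaf 489 5)))))))))))) (branch (move 553 (branch (move 585 (leaf 457 5)) (move 523 (branch (move 524 (leaf 521 1)) (move 426 (branch (move 521 (leaf 425 5)) (move 395 (branch (move 427 (leaf 394 6)) (move 394 (branch (move 363 (leaf 362 6)) (move 393 (branch (move 425 (leaf 393 7)) (move 361 (leaf 361 7)))))))))))))) (branch (move 425 (branch (move 457 (leaf 425 7)) (move 426 (branch (move 393 (leaf 393 7)) (move 521 (branch (move 553 (leaf 425 5)) (move 394 (branch (move 489 (leaf 393 5)) (move 395 (branch (move 427 (leaf 394 6)) (move 363 (leaf 362 6)))))))))))) (move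 585 (branch (move 553 (leaf 457 5)) (move 586 (branch (move 617 (leaf 489 5)) (move 489 (branch (move 457 (leaf 457 7)) (move 523 (branch (move 524 (leaf 489 3)) (move 618 (branch (move 521 (leaf 489 7)) (move 619 (branch (move 651 (leaf 522 4)) (move 587 (leaf 490 4)))))))))))))))))))) (branch (move 554 (branch (move 555 (leaf 522 2)) (move 459 (branch (move 489 (leaf 457 1)) (move 462 (branch (move 430 (leaf 429 6)) (move 427 (branch (move 426 (leaf 426 3)) (move 522 (leaf 426 6)))))))))) (move 489 (branch (move 459 (leaf 457 1)) (move 554 (branch (move 555 (leaf 522 2)) (move 522 (branch (move 523 (branch (move 524 (leaf 489 3)) (move 585 (branch (move 553 (leaf 457 5)) (move 586 (branch (move 617 (leaf 489 5)) (move 618 (branch (move 521 (leaf 489 7)) (move 619 (branch (move 651 (leaf 522 4)) (move 587 (leaf 490 4)))))))))))) (branch (move 523 (branch (move 524 (leaf 489 3)) (move 457 (branch (move 425 (leaf 425 7)) (move 553 (branch (move 585 (leaf 457 5)) (move 488 (branch (move 487 (leaf 487 0)) (move 552 (branch (move 551 (leaf 519 2)) (move 584 (branch (move 520 (leaf 456 6)) (move 521 (leaf 456 5)))))))))))))) (move 457 (branch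 (move 586 (leaf 457 7)) (move 425 (leaf 425 7))))))))))))))))
theorem a6p857 : a6e857.Valid :=
  pos_of_chk [] forall_nil a6c857 a6e857 (by decide +kernel)

def a6e858 : Pos := ⟨471745303432202956742036953072807720909429683134833626964815496311773740034513402676930344145189525702683868901939986874450857613342784134814620530828885453200437542912, 80263304308975983083239884149690579677781505777568662148156319240468605455822967256796558204212063512627365013947946363187957759559487902671455902798226151062269701794269600179022396528073455952965224366080, 14⟩
def a6c858 : Cert := (move 460 (branch (move 428 (leaf 428 7)) (move 490 (branch (move 462 (branch (move 430 (leaf 429 6)) (move 459 (branch (move 491 (leaf 458 1)) (move 458 (branch (move 489 (leaf 457 1)) (move 426 (branch (move 425 (leaf 425 3)) (move 427 (leaf 426 3)))))))))) (branch (move 589 (branch (move 622 (branch (move 590 (leaf 493 4)) (move 621 (branch (move 654 (leaf 525 4)) (move 652 (branch (move 620 (leaf 524 5)) (move 653 (branch (move 684 (leaf 556 5)) (move 524 (branch (move 556 (leaf 524 7)) (move 523 (branch (move 491 (leaf 490 3)) (move 522 (branch (move 489 (leaf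 489 3)) (move 554 (branch (move 553 (leaf 521 1)) (move 555 (leaf 522 1)))))))))))))))))) (branch (move 622 (branch (move 590 (leaf 493 4)) (move 621 (branch (move 654 (leaf 525 4)) (move 620 (branch (move 652 (leaf 524 5)) (move 588 (leaf 492 5)))))))) (branch (move 556 (branch (move 588 (leaf 460 5)) (move 554 (branch (move 555 (leaf 522 2)) (move 622 (branch (move 590 (leaf 493 4)) (move 621 (branch (move 654 (leaf 525 4)) (move 524 (branch (move 653 (leaf 524 7)) (move 523 (branch (move 491 (leaf 490 3)) (move 522 (branch (move 489 (leaf 489 3)) (move 521 (leaf 521 0)))))))))))))))) (move 588 (branch (move 620 (leaf 492 5)) (move 556 (leaf 460 5)))))))) (branch (move 462 (branch (move 430 (leaf 429 6)) (move 556 (branch (move 588 (leaf 460 5)) (move 555 (branch (move 554 (leaf 522 2)) (move 491 (branch (move 459 (leaf 458 1)) (move 523 (branch (move 524 (leaf 490 3)) (move 587 (branch (move 458 (leaf 458 7)) (move 619 (branch (move 522 (leaf 490 7)) (move 618 (branch (move 650 (leaf 522 5)) (move 586 (leaf 490 5)))))))))))))))))) (move 556 (branch (move 588 (leaf 460 5)) (ref 0)))))))))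
theorem a6p858 : a6e858.Valid :=
  pos_of_chk [a6e857] (forall_cons a6p857 forall_nil) a6c858 a6e858 (by decide +kernel)

def a6e859 : Pos := ⟨109836762587663119569853283974209947630156643813203935680447889041557414297439509830060271258833776263821024297452147077414281439753508647397429542428581298176, 471745303102692669052571016320024020435253278991959285016348807839869834698455878401560253106327300991824802166237597144073078118639439512238286912363720507396949278720, 8⟩
def a6c859 : Cert := (move 428 (branch (move 429 (branch (move 396 (leaf 396 7)) (move 430 (branch (move 398 (leaf 397 6)) (move 462 (branch (move 557 (leaf 429 6)) (move 463 (branch (move 464 (leaf 428 3)) (move 427 (leaf 427 0)))))))))) (branch (move 460 (branch (move 557 (leaf 428 7)) (move 396 (branch (move 492 (leaf 396 4)) (move 364 (leaf 364 4)))))) (branch (move 396 (branch (move 429 (leaf 396 7)) (move 460 (branch (move 492 (leaf 396 4)) (move 364 (leaf 364 4)))))) (move 462 (branch (move 430 (branch (move 557 (leaf 429 6)) (move 398 (branch (move 429 (leaf 397 6)) (move 366 (leaf 365 5)))))) (branch (move 460 (branch (move 557 (leaf 428 7)) (move 463 (branch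 (move 427 (leaf 427 3)) (move 464 (branch (move 429 (leaf 428 3)) (move 492 (leaf 460 1)))))))) (branch (move 557 (branch (move 430 (leaf 429 6)) (move 460 (leaf 428 7)))) (move 463 (branch (move 460 (branch (move 427 (leaf 427 3)) (move 491 (branch (move 492 (leaf 459 1)) (move 459 (branch (move 490 (leaf 458 1)) (move 431 (branch (move 430 (leaf 427 2)) (move 432 (leaf 428 2)))))))))) (branch (move 464 (branch (move 429 (leaf 428 3)) (move 492 (leaf 460 1)))) (move 429 (branch (move 464 (leaf 428 3)) (move 427 (branch (move 460 (leaf 427 3)) (move 426 (leaf 426 0)))))))))))))))))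
theorem a6p859 : a6e859.Valid :=
  pos_of_chk [] forall_nil a6c859 a6e859 (by decide +kernel)

def a6e860 : Pos := ⟨329510287711842630449274109544814530582778573417789708781070719735494796166164503497982179760000322023094506261979534534602185055744441249399798447744263127040, 51146728336202593474877634657991657266269676363649114448795379409276621781482248238731403955865959322148088578005388845221693200193209270539948916736, 8⟩
def a6c860 : Cert := (move 429 (branch (move 396 (branch (move 428 (leaf 396 7)) (move 397 (branch (move 364 (leaf 364 7)) (move 398 (branch (move 430 (leaf 397 6)) (move 366 (leaf 365 6)))))))) (branch (move 397 (branch (move 494 (leaf 397 4)) (move 396 (branch (move 428 (leaf 396 7)) (move 364 (leaf 364 7)))))) (branch (move 397 (branch (move 494 (leaf 397 4)) (move 398 (branch (move 430 (leaf 397 6)) (move 366 (leaf 365 6)))))) (move 430 (branch (move 398 (leaf 397 6)) (move 428 (branch (move 396 (leaf 396 7)) (move 431 (branch (move 463 (branch (move 464 (leaf 428 0)) (move 462 (branch (move 427 (leaf 427 0)) (move 399 (branch (move 400 (leaf 396 2)) (move 494 (leaf 398 6)))))))) (move 460 (branch (move 459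 (leaf 427 1)) (move 432 (leaf 428 1))))))))))))))
theorem a6p860 : a6e860.Valid :=
  pos_of_chk [] forall_nil a6c860 a6e860 (by decide +kernel)

def a6e861 : Pos := ⟨329510287711842630449274109544814530582778573417789708781070719735494796166164503497982179760000322023094506261979534534602185055744441249399798447744263127040, 74751027109579623529393105366793790338832184114949613153606870484642620843927132069747963240749529132469346453204079917733576475633407061157481330072854904838284485722519426267423452589241736888320, 10⟩
def a6c861 : Cert := (move 557 (branch (move 460 (branch (move 428 (leaf 428 7)) (move 492 (branch (move 589 (leaf 460 7)) (move 491 (branch (move 490 (leaf 490 0)) (move 462 (branch (move 463 (leaf 459 1)) (move 430 (leaf 429 6)))))))))) (branch (move 556 (branch (move 588 (leaf 460 5)) (move 462 (branch (move 430 (leaf 429 6)) (move 491 (branch (move 460 (branch (move 428 (leaf 428 7)) (move 459 (branch (move 490 (leaf 458 1)) (move 494 (branch (move 458 (leaf 458 0)) (move 495 (leaf 459 0)))))))) (branch (move 460 (branch (move 428 (leaf 428 7)) (move 463 (branch (move 492 (leaf 459 1)) (move 495 (branch (move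 496 (leaf 460 0)) (move 494 (branch (move 459 (leaf 459 0)) (move 431 (branch (move 432 (leaf 428 2)) (move 399 (leaf 398 5)))))))))))) (branch (move 492 (branch (move 490 (leaf 490 0)) (move 463 (branch (move 494 (leaf 459 2)) (move 464 (leaf 460 1)))))) (move 492 (branch (move 490 (leaf 490 0)) (move 460 (branch (move 463 (leaf 459 1)) (move 428 (leaf 428 7)))))))))))))) (move 588 (branch (move 556 (leaf 460 5)) (move 589 (branch (move 620 (leaf 492 5)) (move 621 (branch (move 494 (leaf 493 6)) (move 622 (branch (move 654 (leaf 525 4)) (move 590 (leaf 493 4)))))))))))))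
theorem a6p861 : a6e861.Valid :=
  pos_of_chk [] forall_nil a6c861 a6e861 (by decide +kernel)

def a6e862 : Pos := ⟨471745303432202956742036953072807720909429683134833626964815496311773740034513402676930344145189525702683868901939986874450857613342784134814620530828885453200437542912, 63933410313448652315489419361574421725450426449887315934318716874919561574221772269285521548162227502529302764072900656683066322485406486233473875968, 6⟩
def a6c862 : Cert := (move 429 (branch (move 428 (branch (move 460 (leaf 428 7)) (move 396 (leaf 396 7)))) (branch (move 397 (branch (move 494 (leaf 397 4)) (move 366 (branch (move 398 (leaf 365 6)) (move 365 (branch (move 334 (leaf 333 6)) (move 364 (branch (move 396 (leaf 364 7)) (move 332 (leaf 332 7)))))))))) (move 397 (branch (move 494 (leaf 397 4)) (move 460 (branch (move 428 (leaf 428 7)) (move 365 (branch (move 492 (leaf 364 5)) (move 366 (branch (move 398 (leaf 365 6)) (move 334 (leaf 333 6)))))))))))))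
theorem a6p862 : a6e862.Valid :=
  pos_of_chk [] forall_nil a6c862 a6e862 (by decide +kernel)

def a6e863 : Pos := ⟨329510287711842630449274109544814530582778573417789708781070719735494796166164503497982179760000322023094506261979534534602185055744441249399798447744263127040, 471745303102692669081341050955270507700784560305913401363030716045940981249127963493923528504657033642312517112150596947768940081371357493038419071476383494656948699136, 6⟩
def a6c863 : Cert := (move 429 (branch (move 397 (branch (move 494 (leaf 397 4)) (move 396 (branch (move 428 (leaf 396 7)) (move 364 (leaf 364 7)))))) (branch (move 397 (branch (move 494 (leaf 397 4)) (move 398 (branch (move 430 (leaf 397 6)) (move 366 (leaf 365 6)))))) (move 430 (branch (move 398 (leaf 397 6)) (move 462 (branch (move 557 (leaf 429 6)) (move 428 (branch (move 396 (leaf 396 7)) (move 463 (branch (move 464 (leaf 428 3)) (move 427 (leaf 427 0)))))))))))))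
theorem a6p863 : a6e863.Valid :=
  pos_of_chk [] forall_nil a6c863 a6e863 (by decide +kernel)

def a6e864 : Pos := ⟨329510287711842630461182635203673753877538694686226775071920779788995815265816438921357773856450233598870820436873836792749718209741506308662829360827485650944, 3244620573618895435524982696526216796092060501498182907446988581191947007448331310456249511990011448783231395079637541558382050464059088642214174130176, 9⟩
def a6c864 : Cert := (move 463 (branch (move 464 (branch (move 492 (leaf 460 1)) (move 433 (branch (move 432 (leaf 429 2)) (move 465 (branch (move 434 (leaf 430 2)) (move 497 (branch (move 496 (leaf 461 0)) (move 498 (leaf 462 0)))))))))) (branch (move 492 (branch (move 464 (leaf 460 1)) (move 491 (branch (move 490 (leaf 490 0)) (move 460 (leaf 459 1)))))) (branch (move 464 (branch (move 465 (branch (move 494 (leaf 461 1)) (move 434 (branch (move 433 (leaf 430 2)) (move 466 (branch (move 435 (leaf 431 2)) (move 498 (branch (move 497 (leaf 462 0)) (move 499 (leaf 463 0)))))))))) (branch (move 494 (branch (move 465 (leaf 461 1)) (move 430 (branch (move 398 (leaf 397 5)) (move 431 (branch (move 399 (leaf 398 6))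 (move 460 (branch (move 459 (leaf 427 2)) (move 432 (leaf 428 2)))))))))) (move 496 (branch (move 497 (leaf 461 0)) (move 432 (branch (move 433 (leaf 429 2)) (move 460 (branch (move 431 (leaf 428 2)) (move 495 (leaf 460 0))))))))))) (move 460 (branch (move 491 (branch (move 492 (leaf 459 1)) (move 459 (branch (move 490 (leaf 458 1)) (move 431 (branch (move 430 (leaf 427 2)) (move 432 (leaf 428 2)))))))) (branch (move 495 (branch (move 496 (leaf 460 0)) (move 431 (branch (move 432 (leaf 428 2)) (move 399 (branch (move 494 (leaf 398 5)) (move 366 (branch (move 398 (leaf 366 7)) (move 367 (branch (move 334 (leaf 334 7)) (move 368 (branch (move 400 (leaf 367 6)) (move 336 (leaf 335 6)))))))))))))) (move 491 (branch (move 492 (leaf 459 1)) (move 459 (branch (move 490 (leaf 458 1)) (move 494 (branch (move 458 (leaf 458 0)) (move 495 (leaf 459 0)))))))))))))))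
theorem a6p864 : a6e864.Valid :=
  pos_of_chk [] forall_nil a6c864 a6e864 (by decide +kernel)

def a6e865 : Pos := ⟨329510287711842630461182635203673753877538694686226775071920779788995815265816438921357773856450233598870820436873836792749718209741506308662829360827485650944, 2026130653113380073583952976565175587299951334312207875362262915776920542600775058294230626579437578239284450851233965180888441553627713021038373948878901525466102376684767412224, 9⟩
def a6c865 : Cert := (move 463 (branch (move 464 (branch (move 492 (leaf 460 1)) (move 433 (branch (move 432 (leaf 429 2)) (move 465 (branch (move 434 (leaf 430 2)) (move 497 (branch (move 496 (leaf 461 0)) (move 498 (leaf 462 0)))))))))) (branch (move 492 (branch (move 464 (leaf 460 1)) (move 491 (branch (move 490 (leaf 490 0)) (move 460 (leaf 459 1)))))) (branch (move 464 (branch (move 465 (branch (move 494 (leaf 461 1)) (move 433 (branch (move 432 (leaf 429 2)) (move 434 (leaf 430 2)))))) (branch (move 496 (branch (move 497 (leaf 461 0)) (move 432 (branch (move 433 (leaf 429 2)) (move 460 (branch (move 431 (leaf 428 2)) (move 495 (leaf 460 0)))))))) (move 494 (branch (move 465 (leaf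 461 1)) (move 496 (branch (move 497 (leaf 461 0)) (move 495 (branch (move 460 (leaf 460 0)) (move 431 (branch (move 399 (leaf 398 5)) (move 528 (branch (move 529 (leaf 493 0)) (move 560 (leaf 431 7))))))))))))))) (move 460 (branch (move 495 (branch (move 496 (leaf 460 0)) (move 431 (branch (move 432 (leaf 428 2)) (move 399 (branch (move 494 (leaf 398 5)) (move 366 (branch (move 398 (leaf 366 7)) (move 367 (branch (move 334 (leaf 334 7)) (move 368 (branch (move 400 (leaf 367 6)) (move 336 (leaf 335 6)))))))))))))) (move 459 (branch (move 426 (branch (move 427 (leaf 426 3)) (move 458 (branch (move 425 (leaf 425 3)) (move 457 (branch (move 492 (leaf 457 0)) (move 489 (branch (move 488 (leaf 456 1)) (move 490 (leaf 457 1)))))))))) (branch (move 426 (branch (move 427 (leaf 426 3)) (move 458 (branch (move 425 (leaf 425 3)) (move 490 (branch (move 489 (leaf 457 1)) (move 491 (leaf 458 1)))))))) (branch (move 492 (branch (move 491 (leaf 459 1)) (move 557 (branch (move 589 (leaf 460 7)) (move 458 (branch (move 457 (leaf 457 0)) (move 426 (branch (move 425 (leaf 425 3)) (move 427 (leaf 426 3)))))))))) (move 491 (branch (move 490 (leaf 458 1))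 (move 492 (leaf 459 1))))))))))))))
theorem a6p865 : a6e865.Valid :=
  pos_of_chk [] forall_nil a6c865 a6e865 (by decide +kernel)

def a6e866 : Pos := ⟨329510287711842630449274109544814530582778573417789708781070719735494796166164503497982179760000322023094506261979534534602185055744441249399798447744263127040, 74751027111755164748477116065449650288837404782786104408326703980444706369453841532094448179594132840414929761165910828467725868573445903609434892035208150350006046689913141372062913597657455788032, 9⟩
def a6c866 : Cert := (move 430 (branch (move 557 (branch (move 462 (leaf 429 6)) (move 588 (branch (move 556 (leaf 460 5)) (move 589 (branch (move 620 (leaf 492 5)) (move 492 (branch (move 460 (leaf 460 7)) (move 621 (branch (move 524 (leaf 492 7)) (move 622 (branch (move 654 (leaf 525 4)) (move 590 (leaf 493 4)))))))))))))) (branch (move 462 (branch (move 557 (leaf 429 6)) (move 398 (branch (move 429 (leaf 397 6)) (move 366 (leaf 365 5)))))) (move 429 (branch (move 398 (leaf 397 6)) (move 524 (branch (move 556 (leaf 428 5)) (move 523 (branch (move 490 (branch (move 491 (leaf 490 3)) (move 522 (branch (move 489 (leaf 489 3)) (move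 554 (branch (move 553 (leaf 521 1)) (move 555 (leaf 522 1)))))))) (branch (move 492 (branch (move 397 (leaf 396 5)) (move 522 (branch (move 521 (leaf 489 2)) (move 554 (branch (move 553 (leaf 521 1)) (move 555 (leaf 522 1)))))))) (branch (move 492 (branch (move 397 (leaf 396 5)) (move 490 (branch (move 491 (leaf 490 0)) (move 522 (branch (move 521 (leaf 489 2)) (move 489 (leaf 489 3)))))))) (move 492 (branch (move 397 (leaf 396 5)) (move 491 (branch (move 490 (leaf 490 0)) (move 555 (branch (move 554 (leaf 522 1)) (move 587 (branch (move 619 (leaf 491 6)) (move 460 (leaf 459 6)))))))))))))))))))))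
theorem a6p866 : a6e866.Valid :=
  pos_of_chk [] forall_nil a6c866 a6e866 (by decide +kernel)

def a6e867 : Pos := ⟨109836762587663119569853283974209947630156643813203935680447889041557414297439509830060271258833776263821024297452147077414281439753508647397429542428581298176, 130814297418921158376055822057638970139175094392933345348913039577622995334101391392077795703796959653781133049856234969958942835680387007140455127928803721589932896033096569635497693065561226870784, 7⟩
def a6c867 : Cert := (move 557 (branch (move 556 (branch (move 588 (leaf 460 5)) (move 429 (branch (move 524 (leaf 428 5)) (move 428 (branch (move 460 (leaf 428 7)) (move 396 (leaf 396 7)))))))) (branch (move 460 (branch (move 428 (leaf 428 7)) (move 589 (branch (move 492 (leaf 460 7)) (move 622 (branch (move 590 (leaf 493 4)) (move 621 (branch (move 654 (leaf 525 4)) (move 620 (branch (move 652 (leaf 524 5)) (move 588 (leaf 492 5)))))))))))) (branch (move 429 (branch (move 428 (branch (move 460 (leaf 428 7)) (move 396 (leaf 396 7)))) (branch (move 524 (branch (move 556 (leaf 428 5)) (move 492 (branch (move 397 (leaf 396 5)) (move 589 (branch (move 621 (leaf 492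 7)) (move 460 (leaf 460 7)))))))) (move 524 (branch (move 556 (leaf 428 5)) (move 397 (branch (move 492 (leaf 396 5)) (move 396 (branch (move 428 (leaf 396 7)) (move 364 (leaf 364 7))))))))))) (move 589 (branch (move 622 (branch (move 590 (leaf 493 4)) (move 621 (branch (move 654 (leaf 525 4)) (move 524 (branch (move 492 (leaf 492 7)) (move 556 (branch (move 653 (leaf 524 7)) (move 429 (leaf 428 5)))))))))) (branch (move 622 (branch (move 590 (leaf 493 4)) (move 621 (branch (move 654 (leaf 525 4)) (move 620 (branch (move 652 (leaf 524 5)) (move 588 (leaf 492 5)))))))) (move 588 (branch (move 620 (leaf 492 5)) (move 556 (leaf 460 5)))))))))))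
theorem a6p867 : a6e867.Valid :=
  pos_of_chk [] forall_nil a6c867 a6e867 (by decide +kernel)

def a6e868 : Pos := ⟨471745303432202956742036953072807720909429683134833626964815496311773740034513402676930344145189525702683868901939986874450857613342784134814620530828885453200437542912, 1519597987063531397578690742526391793055701256019607050666728170110515064883123006678937492805769428658017331861267954932651983524379897875036030740856509140215691611208385822720, 9⟩
def a6c868 : Cert := (move 491 (branch (move 556 (branch (move 588 (leaf 460 5)) (move 460 (branch (move 428 (leaf 428 7)) (move 462 (branch (move 430 (leaf 429 6)) (move 463 (branch (move 492 (leaf 459 1)) (move 496 (branch (move 495 (leaf 460 0)) (move 464 (branch (move 497 (leaf 461 0)) (move 432 (branch (move 431 (leaf 428 2)) (move 433 (leaf 429 2)))))))))))))))) (branch (move 556 (branch (move 588 (leaf 460 5)) (move 555 (branch (move 554 (leaf 522 2)) (move 460 (branch (move 428 (leaf 428 7)) (move 462 (branch (move 430 (leaf 429 6)) (move 459 (branch (move 490 (leaf 458 1)) (move 426 (branch (move 427 (leaf 426 3)) (move 458 (branch (move 425 (leaf 425 3)) (move 523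 (leaf 426 7)))))))))))))))) (branch (move 490 (branch (move 492 (leaf 490 0)) (move 523 (branch (move 524 (leaf 490 3)) (move 556 (branch (move 588 (leaf 460 5)) (move 555 (branch (move 554 (leaf 522 2)) (move 458 (branch (move 587 (leaf 458 7)) (move 426 (branch (move 459 (leaf 426 7)) (move 522 (leaf 426 4)))))))))))))) (move 490 (branch (move 492 (leaf 490 0)) (move 460 (branch (move 428 (leaf 428 7)) (move 462 (branch (move 459 (leaf 458 1)) (move 430 (leaf 429 6))))))))))))
theorem a6p868 : a6e868.Valid :=
  pos_of_chk [] forall_nil a6c868 a6e868 (by decide +kernel)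

def a6e869 : Pos := ⟨471745303432202956742036953072807720909429683134833626964815496311773740034513402676930344145189525702683868901939986874450857613342784134814620530828885453200437542912, 80263304292624195905874739352620285337836374851212563383637754278580055346495307672796996181949674241271161145940264821954768452706233459605602544664626522006617162460217621597388575381906701239446866493440, 8⟩
def a6c869 : Cert := (move 462 (branch (move 430 (leaf 429 6)) (move 589 (branch (move 622 (branch (move 590 (leaf 493 4)) (move 621 (branch (move 654 (leaf 525 4)) (move 652 (branch (move 620 (leaf 524 5)) (move 653 (branch (move 684 (leaf 556 5)) (move 524 (branch (move 556 (leaf 524 7)) (move 492 (leaf 492 7)))))))))))) (branch (move 622 (branch (move 590 (leaf 493 4)) (move 621 (branch (move 654 (leaf 525 4)) (move 620 (branch (move 652 (leaf 524 5)) (move 588 (leaf 492 5)))))))) (branch (move 556 (branch (move 588 (leaf 460 5)) (move 555 (branch (move 554 (leaf 522 2)) (move 622 (branch (move 590 (leaf 493 4)) (move 621 (branch (move 654 (leaf 525 4)) (move 524 (branch (move 653 (leaf 524 7)) (move 492 (leaf 492 7)))))))))))) (move 588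 (branch (move 620 (leaf 492 5)) (move 556 (leaf 460 5))))))))))
theorem a6p869 : a6e869.Valid :=
  pos_of_chk [] forall_nil a6c869 a6e869 (by decide +kernel)

def a6e870 : Pos := ⟨329510287711842630443319846715384918935398512783571175635645689708744286616338535786294382711775366235206349174532383405528418478745908719768282991202651865088, 80263304308975983083239884149690579678253251080671354817915354440709105892968915015128686346420224177358335186312257454683259766141879966569237099303753464357598399919699429425200061394122364224010207625216, 16⟩
def a6c870 : Cert := (move 461 (branch (move 429 (branch (move 396 (branch (move 428 (leaf 396 7)) (move 397 (branch (move 364 (leaf 364 7)) (move 398 (branch (move 430 (leaf 397 6)) (move 366 (leaf 365 6)))))))) (branch (move 524 (branch (move 556 (leaf 428 5)) (move 397 (branch (move 492 (leaf 396 5)) (move 398 (branch (move 430 (leaf 397 6)) (move 366 (leaf 365 6)))))))) (branch (move 524 (branch (move 556 (leaf 428 5)) (move 397 (branch (move 492 (leaf 396 5)) (move 396 (branch (move 428 (leaf 396 7)) (move 364 (leaf 364 7)))))))) (ref 0))))) (branch (move 429 (branch (move 396 (branch (move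 428 (leaf 396 7)) (move 397 (branch (move 364 (leaf 364 7)) (move 398 (branch (move 430 (leaf 397 6)) (move 366 (leaf 365 6)))))))) (branch (move 430 (branch (move 398 (leaf 397 6)) (move 557 (branch (move 462 (leaf 429 6)) (move 556 (branch (move 588 (leaf 460 5)) (move 524 (leaf 428 5)))))))) (move 428 (branch (move 396 (leaf 396 7)) (move 557 (branch (move 460 (leaf 428 7)) (move 556 (branch (move 588 (leaf 460 5)) (move 524 (leaf 428 5))))))))))) (branch (ref 1) (branch (move 429 (branch (move 396 (branch (move 428 (leaf 396 7)) (move 397 (branch (move 364 (leaf 364 7)) (move 398 (branch (move 430 (leaf 397 6)) (move 366 (leaf 365 6)))))))) (branch (move 524 (branch (move 556 (leaf 428 5)) (move 397 (branch (move 492 (leaf 396 5)) (move 396 (branch (move 428 (leaf 396 7)) (move 364 (leaf 364 7)))))))) (move 430 (branch (move 398 (leaf 397 6)) (move 557 (branch (move 462 (leaf 429 6)) (move 556 (branch (move 588 (leaf 460 5)) (move 524 (leaf 428 5))))))))))) (branch (ref 2) (branch (ref 3) (move 557 (branch (move 460 (branch (move 428 (leaf 428 7)) (move 492 (branch (move 589 (leaf 460 7)) (move 491 (branch (move 490 (leaf 490 0))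 (move 462 (branch (move 463 (leaf 459 1)) (move 430 (leaf 429 6)))))))))) (branch (move 556 (branch (move 588 (leaf 460 5)) (move 460 (branch (move 428 (leaf 428 7)) (move 589 (branch (move 492 (leaf 460 7)) (move 555 (branch (move 554 (leaf 522 2)) (move 622 (branch (move 590 (leaf 493 4)) (move 621 (branch (move 654 (leaf 525 4)) (move 652 (branch (move 620 (leaf 524 5)) (move 653 (branch (move 524 (leaf 524 7)) (move 684 (leaf 556 5)))))))))))))))))) (branch (ref 4) (branch (ref 5) (ref 6)))))))))))))
theorem a6p870 : a6e870.Valid :=
  pos_of_chk [a6e828, a6e866, a6e859, a6e867, a6e868, a6e869, a6e858] (forall_cons a6p828 (forall_cons a6p866 (forall_cons a6p859 (forall_cons a6p867 (forall_cons a6p868 (forall_cons a6p869 (forall_cons a6p858 forall_nil))))))) a6c870 a6e870 (by decide +kernel)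

def a6e871 : Pos := ⟨329510287711842630449274109544814530582778573417789708781070719735494796166164503497982179760000322023094506261979534534602185055744441249399798447744263127040, 1013065325141454126248234901921360788649530275250173994650746426214698189044586011862847131023070597383629392171096021328037497114192079639932508761537240796777380208917029584896, 5⟩
def a6c871 : Cert := (move 429 (branch (move 430 (branch (move 398 (leaf 397 6)) (move 557 (branch (move 462 (leaf 429 6)) (move 556 (branch (move 588 (leaf 460 5)) (move 524 (leaf 428 5)))))))) (branch (move 397 (branch (move 494 (leaf 397 4)) (move 398 (branch (move 430 (leaf 397 6)) (move 366 (leaf 365 6)))))) (move 494 (branch (move 397 (leaf 397 4)) (move 524 (branch (move 556 (leaf 428 5)) (move 495 (branch (move 523 (leaf 491 2)) (move 496 (leaf 492 1)))))))))))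
theorem a6p871 : a6e871.Valid :=
  pos_of_chk [] forall_nil a6c871 a6e871 (by decide +kernel)

def a6e872 : Pos := ⟨329510287711842630449274109544814530582778573417789708781070719735494796166164503497982179760000322023094506261979534534602185055744441249399798447744263127040, 80263304292624195905874739352936868252237920080102603509468756127414790064078925960866318855596648790627108630117592280547884835296902561316516949256039736513554284587306483102935711109747341471227867824128, 14⟩
def a6c872 : Cert := (move 557 (branch (ref 0) (branch (move 588 (branch (move 556 (leaf 460 5)) (move 589 (branch (move 620 (leaf 492 5)) (move 621 (branch (move 494 (leaf 493 6)) (move 622 (branch (move 654 (leaf 525 4)) (move 590 (leaf 493 4)))))))))) (branch (move 462 (branch (move 430 (leaf 429 6)) (move 494 (branch (move 589 (leaf 461 6)) (move 460 (branch (move 428 (leaf 428 7)) (move 495 (branch (move 496 (leaf 460 3)) (move 459 (leaf 459 0)))))))))) (move 460 (branch (move 428 (leaf 428 7)) (move 459 (branch (move 462 (branch (move 430 (leaf 429 6)) (move 458 (branch (move 426 (branch (move 425 (leaf 425 3)) (move 427 (leaf 426 3)))) (branch (move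 556 (branch (move 588 (leaf 460 5)) (move 554 (branch (move 555 (leaf 522 2)) (move 489 (branch (move 490 (leaf 457 1)) (move 457 (branch (move 488 (leaf 456 1)) (move 425 (branch (move 424 (leaf 424 3)) (move 521 (branch (move 522 (leaf 425 4)) (move 553 (branch (move 586 (leaf 457 4)) (move 552 (branch (move 584 (leaf 456 5)) (move 520 (leaf 424 5)))))))))))))))))) (move 556 (branch (move 588 (leaf 460 5)) (move 554 (branch (move 555 (leaf 522 2)) (move 490 (branch (move 489 (leaf 457 1)) (move 427 (branch (move 426 (leaf 426 3)) (move 522 (leaf 426 6))))))))))))))) (branch (move 458 (branch (move 494 (leaf 458 0)) (move 457 (branch (move 492 (leaf 457 0)) (move 425 (branch (move 424 (leaf 424 3)) (move 426 (leaf 425 3)))))))) (move 462 (branch (move 430 (leaf 429 6)) (move 495 (branch (move 494 (leaf 459 0)) (move 463 (branch (move 496 (leaf 460 0)) (move 556 (branch (move 588 (leaf 460 5)) (move 464 (branch (move 492 (leaf 460 1)) (move 432 (branch (move 431 (leaf 428 2)) (move 433 (leaf 429 2)))))))))))))))))))))))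
theorem a6p872 : a6e872.Valid :=
  pos_of_chk [a6e869] (forall_cons a6p869 forall_nil) a6c872 a6e872 (by decide +kernel)

def a6e873 : Pos := ⟨471745303212529431617857442187432632509395488534831636726011190065725879313825511258379382765579820153292367354778347822476319027081113941825155399195001091343144452096, 93438783879360135144947344263270438302547073792522948075002623648118579516412434966271289466467150908844018753838180048164473133403806660153030206967757037479284267824824686727800982215922764742656, 8⟩
def a6c873 : Cert := (move 589 (branch (move 620 (branch (move 588 (leaf 492 5)) (move 621 (branch (move 652 (leaf 524 5)) (move 622 (branch (move 654 (leaf 525 4)) (move 590 (leaf 493 4)))))))) (branch (move 492 (branch (move 460 (leaf 460 7)) (move 621 (branch (move 524 (leaf 492 7)) (move 622 (branch (move 654 (leaf 525 4)) (move 590 (leaf 493 4)))))))) (branch (move 492 (branch (move 460 (leaf 460 7)) (move 621 (branch (move 524 (leaf 492 7)) (move 620 (branch (move 652 (leaf 524 5)) (move 588 (leaf 492 5)))))))) (move 588 (branch (move 620 (leaf 492 5)) (move 461 (branch (move 556 (leaf 460 5)) (move 590 (branch (move 622 (leaf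 493 4)) (move 430 (branch (move 462 (leaf 429 6)) (move 429 (branch (move 398 (leaf 397 6)) (move 428 (branch (move 460 (leaf 428 7)) (move 396 (leaf 396 7))))))))))))))))))
theorem a6p873 : a6e873.Valid :=
  pos_of_chk [] forall_nil a6c873 a6e873 (by decide +kernel)

def a6e874 : Pos := ⟨384428668992887508163175053108036064673553995184717618910801397382228632083519784203274859837067002675024719665664230269825394382743641870268875217531572322304, 1519597987586873843163619236727657547709616057680278690878899270629524989569682589629062388989185455335012102786407081322034619801692699168833498009821850946733994504230883295232, 8⟩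
def a6c874 : Cert := (move 523 (branch (move 490 (branch (move 491 (leaf 490 3)) (move 522 (branch (move 489 (leaf 489 3)) (move 521 (branch (move 492 (leaf 489 2)) (move 553 (branch (move 552 (leaf 520 1)) (move 554 (leaf 521 1)))))))))) (branch (move 522 (branch (move 521 (branch (move 492 (leaf 489 2)) (move 488 (branch (move 489 (leaf 488 3)) (move 520 (branch (move 487 (leaf 487 3)) (move 552 (branch (move 551 (leaf 519 1)) (move 553 (leaf 520 1)))))))))) (branch (move 554 (branch (move 553 (leaf 521 1)) (move 555 (leaf 522 1)))) (move 521 (branch (move 492 (leaf 489 2)) (move 555 (branch (move 554 (leaf 522 1)) (move 520 (branch (move 556 (leaf 520 0)) (move 488 (branch (move 487 (leaf 487 3)) (move 489 (leaf 488 3))))))))))))) (branch (move 554 (branch (move 555 (leaf 522 1)) (move 522 (branch (move 553 (leaf 521 1)) (move 490 (branch (move 489 (leaf 489 3)) (move 491 (leaf 490 3)))))))) (branch (move 490 (branch (move 491 (leaf 490 3)) (move 522 (branch (move 489 (leaf 489 3)) (move 521 (branch (move 492 (leaf 489 2)) (move 556 (branch (move 557 (leaf 521 0)) (move 520 (branch (move 555 (leaf 520 0)) (move 552 (branch (move 551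 (leaf 519 1)) (move 553 (leaf 520 1)))))))))))))) (move 491 (branch (move 490 (leaf 490 3)) (move 459 (branch (move 555 (branch (move 554 (leaf 522 1)) (move 556 (branch (move 588 (leaf 459 4)) (move 427 (leaf 427 4)))))) (branch (move 555 (branch (move 554 (leaf 522 1)) (move 460 (branch (move 428 (leaf 427 6)) (move 492 (branch (move 587 (leaf 459 6)) (move 458 (branch (move 457 (leaf 457 0)) (move 426 (leaf 426 7)))))))))) (move 427 (branch (move 556 (leaf 427 4)) (move 395 (branch (move 492 (leaf 395 4)) (move 396 (branch (move 428 (leaf 395 6)) (move 364 (leaf 363 6))))))))))))))))))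
theorem a6p874 : a6e874.Valid :=
  pos_of_chk [] forall_nil a6c874 a6e874 (by decide +kernel)

def a6e875 : Pos := ⟨384428668992887508163175053108036064673553995184717618910801397382228632083519784203274859837067002675024719665664230269825394382743641870268875217531572322304, 93438783879360135145453876926136006180014266994257804564321149841365420297491585726199528449116218345389905701868834573203940621714208124100944093594814544610893686961250009325232063639944328904704, 9⟩
def a6c875 : Cert := (move 461 (branch (move 429 (branch (move 397 (branch (move 494 (leaf 397 4)) (move 396 (branch (move 428 (leaf 396 7)) (move 364 (leaf 364 7)))))) (branch (move 397 (branch (move 492 (leaf 396 5)) (move 398 (branch (move 430 (leaf 397 6)) (move 366 (leaf 365 6)))))) (move 428 (branch (move 396 (leaf 396 7)) (move 460 (branch (move 557 (leaf 428 7)) (move 430 (branch (move 398 (leaf 397 6)) (move 459 (branch (move 458 (leaf 426 2)) (move 431 (leaf 427 1))))))))))))) (branch (move 429 (branch (move 556 (leaf 428 5)) (move 397 (branch (move 494 (leaf 397 4)) (move 396 (branch (move 428 (leaf 396 7)) (move 364 (leaf 364 7)))))))) (branch (move 556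 (branch (move 429 (leaf 428 5)) (move 588 (branch (move 620 (leaf 492 6)) (move 492 (leaf 460 6)))))) (move 557 (branch (move 460 (branch (move 428 (leaf 428 7)) (move 589 (branch (move 492 (leaf 460 7)) (move 621 (branch (move 494 (leaf 493 6)) (move 622 (branch (move 654 (leaf 525 4)) (move 590 (leaf 493 4)))))))))) (branch (move 460 (branch (move 428 (leaf 428 7)) (move 589 (branch (move 492 (leaf 460 7)) (move 622 (branch (move 590 (leaf 493 4)) (move 621 (branch (move 654 (leaf 525 4)) (move 620 (branch (move 652 (leaf 524 5)) (move 588 (leaf 492 5)))))))))))) (branch (move 588 (branch (move 556 (leaf 460 5)) (move 589 (branch (move 620 (leaf 492 5)) (move 621 (branch (move 494 (leaf 493 6)) (move 622 (branch (move 654 (leaf 525 4)) (move 590 (leaf 493 4)))))))))) (move 556 (branch (move 588 (leaf 460 5)) (move 460 (branch (move 428 (leaf 428 7)) (move 555 (branch (move 554 (leaf 522 2)) (move 492 (branch (move 587 (leaf 459 5)) (move 459 (branch (move 427 (leaf 427 7)) (move 458 (branch (move 457 (leaf 457 0)) (move 494 (leaf 458 0))))))))))))))))))))))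
theorem a6p875 : a6e875.Valid :=
  pos_of_chk [] forall_nil a6c875 a6e875 (by decide +kernel)

def a6e876 : Pos := ⟨384428668992887508163175053108036064673553995184717618910801397382228632083519784203274859837067002675024719665664230269825394382743641870268875217531572322304, 100329130234965947472940258648212081421449104684180291866396197381848121875131507786875374341074390296552681221660515906277134174890246430771631789520060066282909155684063626315673990041133701669039535816704, 12⟩
def a6c876 : Cert := (move 523 (branch (move 490 (branch (move 491 (leaf 490 3)) (move 522 (branch (move 489 (leaf 489 3)) (move 555 (branch (move 554 (leaf 522 1)) (move 492 (branch (move 521 (leaf 489 2)) (move 587 (branch (move 619 (leaf 491 6)) (move 460 (branch (move 556 (leaf 459 5)) (move 428 (leaf 427 5)))))))))))))) (branch (move 494 (branch (move 522 (leaf 490 2)) (move 495 (leaf 491 2)))) (move 555 (branch (move 554 (leaf 522 1)) (move 587 (branch (move 619 (branch (move 620 (branch (move 652 (leaf 523 4)) (move 618 (branch (move 650 (leaf 522 5)) (move 588 (branch (move 556 (leaf 492 6)) (move 617 (branch (move 616 (leaf 584 2)) (move 589 (leaf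 585 2)))))))))) (branch (move 651 (branch (move 556 (leaf 523 6)) (move 650 (branch (move 682 (leaf 554 5)) (move 618 (leaf 522 5)))))) (branch (move 494 (branch (move 495 (leaf 491 2)) (move 652 (branch (move 620 (leaf 523 4)) (move 651 (branch (move 684 (leaf 555 4)) (move 650 (branch (move 682 (leaf 554 5)) (move 618 (leaf 522 5)))))))))) (move 651 (branch (move 556 (leaf 523 6)) (move 652 (branch (move 684 (leaf 555 4)) (move 620 (leaf 523 4)))))))))) (branch (move 494 (branch (move 495 (leaf 491 2)) (move 619 (branch (move 492 (leaf 491 6)) (move 652 (branch (move 620 (leaf 523 4)) (move 651 (branch (move 684 (leaf 555 4)) (move 650 (branch (move 682 (leaf 554 5)) (move 618 (leaf 522 5)))))))))))) (branch (move 492 (branch (move 619 (leaf 491 6)) (move 460 (branch (move 556 (leaf 459 5)) (move 428 (leaf 427 5)))))) (move 491 (branch (move 490 (leaf 490 3)) (move 492 (branch (move 460 (leaf 459 6)) (move 494 (branch (move 495 (leaf 491 1)) (move 588 (branch (move 620 (leaf 491 4)) (move 556 (branch (move 461 (leaf 460 6)) (move 589 (branch (move 621 (leaf 492 4)) (move 586 (branch (move 618 (leaf 490 5)) (move 585 (branch (move 584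 (leaf 552 2)) (move 557 (leaf 553 2)))))))))))))))))))))))))))
theorem a6p876 : a6e876.Valid :=
  pos_of_chk [] forall_nil a6c876 a6e876 (by decide +kernel)

def a6e877 : Pos := ⟨329510287711842630443319846715384918935398512783571175635645689708744286616338535786294382711775366235206349174532383405528418478745908719768282991202651865088, 100329130309716974569466634863101122596890045932174720804666096565732807648017149233604551371331636099221696519431306315413131956445467496613193472654826959439354033282842808371180516846259260769942470918144, 13⟩
def a6c877 : Cert := (move 524 (branch (move 523 (branch (move 554 (branch (move 555 (leaf 522 1)) (move 522 (branch (move 553 (leaf 521 1)) (move 490 (branch (move 489 (leaf 489 3)) (move 491 (leaf 490 3)))))))) (branch (move 494 (branch (move 522 (leaf 490 2)) (move 495 (leaf 491 2)))) (move 491 (branch (move 490 (leaf 490 3)) (move 459 (branch (move 427 (branch (move 556 (leaf 427 4)) (move 494 (branch (move 495 (leaf 491 2)) (move 396 (branch (move 428 (leaf 395 6)) (move 395 (branch (move 364 (leaf 363 6)) (move 394 (branch (move 426 (leaf 394 7)) (move 362 (leaf 362 7)))))))))))) (branch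 (move 555 (branch (move 554 (leaf 522 1)) (move 494 (branch (move 495 (leaf 491 2)) (move 460 (branch (move 428 (leaf 427 6)) (move 458 (branch (move 461 (leaf 458 0)) (move 426 (leaf 426 7)))))))))) (move 555 (branch (move 554 (leaf 522 1)) (move 556 (branch (move 588 (leaf 459 4)) (move 427 (leaf 427 4)))))))))))))) (branch (ref 0) (branch (ref 1) (branch (move 523 (branch (move 490 (branch (move 491 (leaf 490 3)) (move 522 (branch (move 489 (leaf 489 3)) (move 555 (branch (move 554 (leaf 522 1)) (move 492 (branch (move 521 (leaf 489 2)) (move 587 (branch (move 619 (leaf 491 6)) (move 460 (branch (move 556 (leaf 459 5)) (move 428 (leaf 427 5)))))))))))))) (branch (move 494 (branch (move 522 (leaf 490 2)) (move 495 (leaf 491 2)))) (move 491 (branch (move 490 (leaf 490 3)) (move 459 (branch (move 555 (branch (move 554 (leaf 522 1)) (move 494 (branch (move 495 (leaf 491 2)) (move 460 (branch (move 428 (leaf 427 6)) (move 458 (branch (move 461 (leaf 458 0)) (move 426 (leaf 426 7)))))))))) (branch (move 494 (branch (move 495 (leaf 491 2)) (move 555 (branch (move 554 (leaf 522 1)) (move 458 (branch (move 492 (leaf 458 3)) (move 426 (leaf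 426 7)))))))) (move 427 (branch (move 556 (leaf 427 4)) (move 395 (branch (move 492 (leaf 395 4)) (move 396 (branch (move 428 (leaf 395 6)) (move 364 (leaf 363 6)))))))))))))))) (branch (move 556 (branch (move 523 (branch (move 494 (branch (move 522 (leaf 490 2)) (move 495 (leaf 491 2)))) (move 491 (branch (move 490 (leaf 490 3)) (move 588 (branch (move 620 (leaf 492 6)) (move 459 (branch (move 492 (leaf 459 7)) (move 427 (leaf 427 4)))))))))) (branch (move 588 (branch (move 620 (leaf 492 6)) (move 461 (branch (move 557 (leaf 460 5)) (move 429 (leaf 428 5)))))) (move 523 (branch (move 494 (branch (move 522 (leaf 490 2)) (move 495 (leaf 491 2)))) (branch (move 490 (branch (move 491 (leaf 490 3)) (move 522 (branch (move 489 (leaf 489 3)) (move 521 (branch (move 492 (leaf 489 2)) (move 520 (branch (move 555 (leaf 520 0)) (move 552 (branch (move 551 (leaf 519 1)) (move 553 (leaf 520 1)))))))))))) (move 494 (branch (move 495 (leaf 491 2)) (move 491 (branch (move 490 (leaf 490 3)) (move 459 (branch (move 427 (leaf 427 4)) (move 461 (branch (move 429 (leaf 428 5)) (move 458 (branch (move 492 (leaf 458 3)) (move 460 (leaf 458 0))))))))))))))))))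 (branch (move 523 (branch (move 490 (branch (move 491 (leaf 490 3)) (move 522 (branch (move 489 (leaf 489 3)) (move 521 (branch (move 492 (leaf 489 2)) (move 553 (branch (move 552 (leaf 520 1)) (move 554 (leaf 521 1)))))))))) (branch (move 494 (branch (move 522 (leaf 490 2)) (move 495 (leaf 491 2)))) (move 556 (branch (move 491 (branch (move 490 (leaf 490 3)) (move 588 (branch (move 620 (leaf 492 6)) (move 459 (branch (move 492 (leaf 459 7)) (move 427 (leaf 427 4)))))))) (branch (move 494 (branch (move 495 (leaf 491 2)) (move 491 (branch (move 490 (leaf 490 3)) (move 459 (branch (move 427 (leaf 427 4)) (move 461 (branch (move 429 (leaf 428 5)) (move 458 (branch (move 492 (leaf 458 3)) (move 460 (leaf 458 0)))))))))))) (move 588 (branch (move 620 (leaf 492 6)) (move 461 (branch (move 557 (leaf 460 5)) (move 429 (leaf 428 5)))))))))))) (branch (move 523 (branch (move 556 (branch (move 588 (branch (move 620 (leaf 492 6)) (move 461 (branch (move 492 (leaf 460 6)) (move 429 (leaf 428 5)))))) (branch (move 490 (branch (move 491 (leaf 490 3)) (move 522 (branch (move 489 (leaf 489 3)) (move 521 (branch (move 492 (leaf 489 2)) (move 520 (branch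 (move 555 (leaf 520 0)) (move 552 (branch (move 551 (leaf 519 1)) (move 553 (leaf 520 1)))))))))))) (move 491 (branch (move 490 (leaf 490 3)) (move 588 (branch (move 620 (leaf 492 6)) (move 459 (branch (move 555 (leaf 459 4)) (move 427 (leaf 427 4))))))))))) (branch (move 494 (branch (move 522 (leaf 490 2)) (move 495 (leaf 491 2)))) (move 556 (branch (move 588 (branch (move 620 (leaf 492 6)) (move 461 (branch (move 492 (leaf 460 6)) (move 429 (leaf 428 5)))))) (branch (move 491 (branch (move 490 (leaf 490 3)) (move 555 (branch (move 554 (leaf 522 1)) (move 459 (branch (move 588 (leaf 459 4)) (move 427 (leaf 427 4)))))))) (move 555 (branch (move 554 (leaf 522 1)) (move 491 (branch (move 490 (leaf 490 3)) (move 494 (branch (move 495 (leaf 491 2)) (move 459 (branch (move 427 (leaf 427 4)) (move 458 (branch (move 492 (leaf 458 3)) (move 426 (leaf 426 7)))))))))))))))))) (branch (ref 2) (move 523 (branch (move 554 (branch (move 555 (leaf 522 1)) (move 522 (branch (move 553 (leaf 521 1)) (move 490 (branch (move 489 (leaf 489 3)) (move 491 (leaf 490 3)))))))) (branch (move 494 (branch (move 522 (leaf 490 2)) (move 495 (leaf 491 2)))) (move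 491 (branch (move 490 (leaf 490 3)) (move 459 (branch (move 555 (branch (move 554 (leaf 522 1)) (move 494 (branch (move 495 (leaf 491 2)) (move 460 (branch (move 428 (leaf 427 6)) (move 458 (branch (move 461 (leaf 458 0)) (move 426 (leaf 426 7)))))))))) (branch (move 555 (branch (move 554 (leaf 522 1)) (move 460 (branch (move 428 (leaf 427 6)) (move 492 (branch (move 587 (leaf 459 6)) (move 458 (branch (move 457 (leaf 457 0)) (move 426 (leaf 426 7)))))))))) (branch (move 494 (branch (move 495 (leaf 491 2)) (move 555 (branch (move 554 (leaf 522 1)) (move 458 (branch (move 492 (leaf 458 3)) (move 426 (leaf 426 7)))))))) (branch (move 494 (branch (move 495 (leaf 491 2)) (move 492 (branch (move 458 (leaf 458 3)) (move 427 (branch (move 395 (leaf 395 4)) (move 428 (branch (move 396 (leaf 395 6)) (move 460 (branch (move 557 (leaf 428 4)) (move 429 (branch (move 397 (leaf 396 6)) (move 426 (branch (move 394 (leaf 394 7)) (move 425 (branch (move 424 (leaf 424 0)) (move 461 (leaf 425 0)))))))))))))))))) (move 555 (branch (move 554 (leaf 522 1)) (move 460 (branch (move 428 (leaf 427 6)) (move 494 (branch (move 495 (leaf 491 2)) (move 587 (branch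 (move 492 (leaf 459 6)) (move 620 (branch (move 588 (leaf 491 4)) (move 619 (branch (move 652 (leaf 523 4)) (move 618 (branch (move 650 (leaf 522 5)) (move 586 (leaf 490 5)))))))))))))))))))))))))))))))))))
theorem a6p877 : a6e877.Valid :=
  pos_of_chk [a6e874, a6e875, a6e876] (forall_cons a6p874 (forall_cons a6p875 (forall_cons a6p876 forall_nil))) a6c877 a6e877 (by decide +kernel)

def a6e878 : Pos := ⟨117936326132642645590733626865989396483255746562640803588381457167365715869362450617682336193277817790072910477604809902410160942552133909442687752802303630809308856320, 23359695970655861749471732025091022448960949790190795634780744081409082958531596828566629391755645042529951541577040441454007487696771020870373373550819296383643444160043967218665268745434426245120, 12⟩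
def a6c878 : Cert := (move 587 (branch (move 618 (branch (move 586 (leaf 490 5)) (move 619 (branch (move 650 (leaf 522 5)) (move 620 (branch (move 652 (leaf 523 4)) (move 588 (leaf 491 4)))))))) (branch (move 490 (branch (move 458 (leaf 458 7)) (move 619 (branch (move 522 (leaf 490 7)) (move 618 (branch (move 650 (leaf 522 5)) (move 586 (leaf 490 5)))))))) (branch (move 620 (branch (move 588 (leaf 491 4)) (move 619 (branch (move 652 (leaf 523 4)) (move 490 (branch (move 522 (leaf 490 7)) (move 458 (leaf 458 7)))))))) (move 554 (branch (move 588 (branch (move 620 (leaf 491 4)) (move 589 (branch (move 590 (leaf 554 3)) (move 553 (branch (move 552 (leaf 552 0)) (move 556 (leaf 553 0)))))))) (branch (move 586 (branch (move 618 (leaf 490 5)) (move 556 (branch (move 557 (leaf 522 2)) (move 585 (branch (move 584 (leaf 552 2)) (move 490 (branch (move 458 (leaf 458 7)) (move 522 (branch (move 617 (leaf 489 5)) (move 521 (branch (move 520 (leaf 520 0)) (move 489 (branch (move 457 (leaf 457 7)) (move 488 (branch (move 487 (leaf 487 0)) (move 456 (branch (move 455 (leaf 455 3)) (move 553 (leaf 456 7)))))))))))))))))))) (branch (move 586 (branch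 (move 618 (leaf 490 5)) (move 588 (branch (move 620 (leaf 491 4)) (move 553 (branch (move 589 (leaf 553 3)) (move 552 (leaf 552 0)))))))) (move 586 (branch (move 618 (leaf 490 5)) (move 556 (branch (move 557 (leaf 522 2)) (move 588 (branch (move 620 (leaf 491 4)) (move 585 (branch (move 584 (leaf 552 2)) (move 490 (branch (move 458 (leaf 458 7)) (move 617 (branch (move 616 (leaf 584 1)) (move 522 (leaf 489 5))))))))))))))))))))))
theorem a6p878 : a6e878.Valid :=
  pos_of_chk [] forall_nil a6c878 a6e878 (by decide +kernel)

def a6e879 : Pos := ⟨356969478333185046210105993642101958424627040201625010284689960794607798989990876031475981304402023757893439749292330172866984139675142932445031879445265252352, 80263304194513472842499698533813314754175400934594606849141675334565072339761596764986419595290676395473098094733425025887146328257631897142786260597765876716213610246430813531817019704375399051430759235584, 13⟩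
def a6c879 : Cert := (move 555 (branch (move 459 (branch (move 428 (branch (move 460 (leaf 427 6)) (move 427 (branch (move 396 (leaf 395 6)) (move 426 (branch (move 458 (leaf 426 7)) (move 394 (leaf 394 7)))))))) (move 554 (branch (move 586 (leaf 458 5)) (move 556 (branch (move 557 (leaf 522 2)) (move 588 (leaf 459 4)))))))) (branch (move 587 (branch (move 618 (branch (move 586 (leaf 490 5)) (move 619 (branch (move 650 (leaf 522 5)) (move 620 (branch (move 652 (leaf 523 4)) (move 588 (leaf 491 4)))))))) (branch (move 588 (branch (move 620 (leaf 491 4)) (move 459 (branch (move 556 (leaf 459 4)) (move 428 (branch (move 460 (leaf 427 6)) (move 427 (branch (move 396 (leaf 395 6)) (move 426 (branch (move 458 (leaf 426 7)) (move 394 (leaf 394 7)))))))))))) (move 490 (branch (move 458 (leaf 458 7)) (move 619 (branch (move 522 (leaf 490 7)) (move 618 (branch (move 650 (leaf 522 5)) (move 586 (leaf 490 5))))))))))) (branch (move 459 (branch (move 554 (branch (move 586 (leaf 458 5)) (move 427 (branch (move 522 (leaf 426 5)) (move 428 (branch (move 460 (leaf 427 6)) (move 396 (leaf 395 6)))))))) (branch (move 458 (branch (move 426 (leaf 426 7))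 (move 587 (branch (move 490 (leaf 458 7)) (move 586 (branch (move 618 (leaf 490 5)) (move 554 (leaf 458 5)))))))) (move 428 (branch (move 460 (leaf 427 6)) (move 427 (branch (move 396 (leaf 395 6)) (move 426 (branch (move 458 (leaf 426 7)) (move 394 (leaf 394 7))))))))))) (branch (move 459 (branch (move 458 (branch (move 426 (leaf 426 7)) (move 587 (branch (move 490 (leaf 458 7)) (move 588 (branch (move 620 (leaf 491 4)) (move 556 (leaf 459 4)))))))) (branch (move 428 (branch (move 460 (leaf 427 6)) (move 427 (branch (move 396 (leaf 395 6)) (move 426 (branch (move 458 (leaf 426 7)) (move 394 (leaf 394 7)))))))) (move 556 (branch (move 588 (leaf 459 4)) (move 554 (branch (move 557 (leaf 522 2)) (move 427 (branch (move 522 (leaf 426 5)) (move 428 (branch (move 460 (leaf 427 6)) (move 396 (leaf 395 6))))))))))))) (branch (move 587 (branch (move 618 (branch (move 586 (leaf 490 5)) (move 619 (branch (move 650 (leaf 522 5)) (move 620 (branch (move 652 (leaf 523 4)) (move 588 (leaf 491 4)))))))) (branch (move 618 (branch (move 586 (leaf 490 5)) (move 619 (branch (move 650 (leaf 522 5)) (move 652 (branch (move 620 (leaf 523 4)) (move 651 (branch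 (move 684 (leaf 555 4)) (move 522 (branch (move 554 (leaf 522 7)) (move 490 (leaf 490 7)))))))))))) (branch (move 588 (branch (move 620 (leaf 491 4)) (move 556 (branch (move 459 (leaf 459 4)) (move 554 (branch (move 557 (leaf 522 2)) (move 553 (branch (move 552 (leaf 552 0)) (move 589 (leaf 553 0)))))))))) (move 618 (branch (move 586 (leaf 490 5)) (move 619 (branch (move 650 (leaf 522 5)) (move 522 (branch (move 490 (leaf 490 7)) (move 554 (branch (move 651 (leaf 522 7)) (move 556 (branch (move 557 (leaf 522 2)) (move 459 (branch (move 588 (leaf 459 4)) (move 427 (leaf 426 5)))))))))))))))))) (ref 0)))))))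
theorem a6p879 : a6e879.Valid :=
  pos_of_chk [a6e878] (forall_cons a6p878 forall_nil) a6c879 a6e879 (by decide +kernel)

def a6e880 : Pos := ⟨356969478358758410334294602001580002931092658578317526269401404462446012803241921315887501264427571354189565977033632392613547194434652749209761512674394374144, 4671939208761687051070901261228000794585290981421666982793918049976809129694289213078796009872315863207715709439817463682439000799996714451229770795796478174266693645138116608253715389662447534080, 10⟩
def a6c880 : Cert := (move 555 (branch (move 459 (branch (move 586 (branch (move 554 (leaf 458 5)) (move 587 (branch (move 618 (leaf 490 5)) (move 588 (branch (move 620 (leaf 491 4)) (move 556 (leaf 459 4)))))))) (move 428 (branch (move 460 (leaf 427 6)) (move 427 (branch (move 396 (leaf 395 6)) (move 426 (branch (move 458 (leaf 426 7)) (move 394 (leaf 394 7)))))))))) (branch (move 524 (branch (move 554 (leaf 522 1)) (move 494 (branch (move 522 (leaf 490 2)) (move 495 (leaf 491 2)))))) (move 459 (branch (move 428 (branch (move 460 (leaf 427 6)) (move 427 (branch (move 396 (leaf 395 6)) (move 426 (branch (move 458 (leaf 426 7)) (move 394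 (leaf 394 7)))))))) (move 494 (branch (move 588 (branch (move 556 (leaf 459 4)) (move 587 (branch (move 620 (leaf 491 4)) (move 618 (branch (move 586 (leaf 490 5)) (move 619 (branch (move 650 (leaf 522 5)) (move 589 (branch (move 590 (leaf 586 1)) (move 557 (branch (move 621 (leaf 493 6)) (move 462 (leaf 461 6)))))))))))))) (move 524 (branch (move 522 (leaf 490 2)) (move 495 (leaf 491 2)))))))))))
theorem a6p880 : a6e880.Valid :=
  pos_of_chk [] forall_nil a6c880 a6e880 (by decide +kernel)

def a6e881 : Pos := ⟨329510287718235971474366998805254430062014917377744304631823550625703840069651297107397262701781753134280380731467708960465059242435786173959465399509934145536, 80263304194513472851201863408123226899105614110832630411384736476741586354865993734202699270489928554368471039556381346199167772362183426208519392781454500462357741919449424630774753218544845952182757883904, 14⟩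
def a6c881 : Cert := (move 523 (branch (move 524 (branch (move 490 (leaf 490 3)) (move 494 (branch (move 522 (leaf 490 2)) (move 495 (leaf 491 2)))))) (branch (ref 0) (branch (move 524 (branch (move 490 (leaf 490 3)) (move 459 (branch (move 427 (branch (move 556 (leaf 427 4)) (move 494 (branch (move 495 (leaf 491 2)) (move 396 (branch (move 428 (leaf 395 6)) (move 395 (branch (move 364 (leaf 363 6)) (move 394 (branch (move 426 (leaf 394 7)) (move 362 (leaf 362 7)))))))))))) (branch (move 555 (branch (move 554 (leaf 522 1)) (move 556 (branch (move 588 (leaf 459 4)) (move 427 (leaf 427 4)))))) (branch (move 555 (branch (move 554 (leaf 522 1)) (move 494 (branch (move 495 (leaf 491 2)) (move 428 (branch (move 460 (leaf 427 6)) (move 427 (branch (move 396 (leaf 395 6)) (move 426 (branch (move 458 (leaf 426 7)) (move 394 (leaf 394 7)))))))))))) (move 555 (branch (move 554 (leaf 522 1)) (move 588 (branch (move 556 (leaf 459 4)) (move 494 (branch (move 495 (leaf 491 2)) (move 587 (branch (move 620 (leaf 491 4)) (move 618 (branch (move 586 (leaf 490 5)) (move 619 (branch (move 650 (leaf 522 5)) (move 589 (branch (move 590 (leaf 586 1)) (move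 557 (branch (move 621 (leaf 493 6)) (move 462 (leaf 461 6)))))))))))))))))))))))) (ref 1)))))
theorem a6p881 : a6e881.Valid :=
  pos_of_chk [a6e879, a6e880] (forall_cons a6p879 (forall_cons a6p880 forall_nil)) a6c881 a6e881 (by decide +kernel)

def a6e882 : Pos := ⟨329510287718235971474366998805254430062014917377744304631823550625703840069651297107397262701781753134280380731467708960465059242435786173959465399509934145536, 23359695969840033786236836066643163856148858190867931081983716845686437136929711465719547313987982860481318537866093344790639576496377346145524367611198766979802865804148051804187665106323271319552, 9⟩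
def a6c882 : Cert := (move 490 (branch (move 492 (leaf 490 0)) (move 523 (branch (move 524 (leaf 490 3)) (move 555 (branch (move 459 (branch (move 588 (branch (move 556 (leaf 459 4)) (move 587 (branch (move 620 (leaf 491 4)) (move 619 (branch (move 522 (leaf 490 7)) (move 618 (branch (move 650 (leaf 522 5)) (move 586 (leaf 490 5)))))))))) (branch (move 556 (branch (move 588 (leaf 459 4)) (move 554 (branch (move 557 (leaf 522 2)) (move 427 (branch (move 522 (leaf 426 5)) (move 428 (branch (move 460 (leaf 427 6)) (move 396 (leaf 395 6)))))))))) (branch (move 554 (branch (move 586 (leaf 458 5)) (move 427 (branch (move 522 (leaf 426 5)) (move 428 (branch (move 460 (leaf 427 6)) (move 396 (leaf 395 6)))))))) (move 588 (branch (move 556 (leaf 459 4)) (move 587 (branch (move 620 (leaf 491 4)) (move 586 (branch (move 618 (leaf 490 5)) (move 554 (leaf 458 5)))))))))))) (branch (move 587 (branch (move 458 (leaf 458 7)) (move 619 (branch (move 522 (leaf 490 7)) (move 620 (branch (move 652 (leaf 523 4)) (move 588 (leaf 491 4)))))))) (branch (move 587 (branch (move 458 (leaf 458 7)) (move 588 (branch (move 620 (leaf 491 4)) (move 586 (branch (move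 618 (leaf 490 5)) (move 459 (branch (move 556 (leaf 459 4)) (move 554 (leaf 458 5)))))))))) (branch (move 458 (branch (move 587 (leaf 458 7)) (move 426 (branch (move 459 (leaf 426 7)) (move 522 (leaf 426 4)))))) (move 459 (branch (move 458 (branch (move 426 (leaf 426 7)) (move 428 (branch (move 460 (leaf 427 6)) (move 427 (branch (move 396 (leaf 395 6)) (move 395 (branch (move 522 (leaf 394 5)) (move 363 (leaf 362 5)))))))))) (move 554 (branch (move 586 (leaf 458 5)) (move 556 (branch (move 557 (leaf 522 2)) (move 588 (leaf 459 4)))))))))))))))))
theorem a6p882 : a6e882.Valid :=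
  pos_of_chk [] forall_nil a6c882 a6e882 (by decide +kernel)

def a6e883 : Pos := ⟨329510287782169381784838519703949541328178963319475594593602159795299374602778910318426062601845622125020696300820964509831466879334560715871289482582756950016, 2175541220097076023296084691617602239329974314096318267410043991928980014101543911303720566573503352096127759413425069668960838439441955411379493299521017016116298565678013604162009300992, 5⟩
def a6c883 : Cert := (move 524 (branch (move 459 (branch (move 458 (leaf 458 3)) (move 556 (branch (move 588 (leaf 459 7)) (move 427 (branch (move 460 (leaf 427 7)) (move 395 (leaf 395 4)))))))) (branch (move 523 (branch (move 522 (leaf 490 1)) (move 555 (branch (move 554 (leaf 522 1)) (move 587 (branch (move 619 (leaf 491 6)) (move 460 (leaf 459 6)))))))) (move 523 (branch (move 522 (leaf 490 1)) (move 459 (branch (move 458 (leaf 458 3)) (move 556 (branch (move 588 (leaf 459 7)) (move 427 (leaf 427 4)))))))))))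
theorem a6p883 : a6e883.Valid :=
  pos_of_chk [] forall_nil a6c883 a6e883 (by decide +kernel)

def a6e884 : Pos := ⟨329510287731022653536461302984993452315247726566090562624179272459622946976276819749603022681794526932428443845338360070338340769815541082341830216124498706432, 4351082440953951040005998756111580729093768305214549882262206252682982688287339219548999853093347256576622980183761389966945247599919027419025691744568385165494031586244375261125634162688, 8⟩
def a6c884 : Cert := (move 460 (branch (move 557 (branch (move 589 (leaf 460 7)) (move 461 (branch (move 428 (leaf 428 7)) (move 462 (branch (move 463 (leaf 459 1)) (move 430 (leaf 429 6)))))))) (branch (move 555 (branch (move 557 (branch (move 589 (leaf 460 7)) (move 556 (branch (move 554 (leaf 522 2)) (move 524 (branch (move 587 (leaf 459 5)) (move 459 (branch (move 588 (leaf 459 7)) (move 427 (leaf 427 7)))))))))) (branch (move 557 (branch (move 589 (leaf 460 7)) (move 554 (branch (move 556 (leaf 522 2)) (move 523 (branch (move 524 (leaf 522 1)) (move 459 (branch (move 586 (leaf 458 5)) (move 458 (branch (move 457 (leaf 457 0)) (move 426 (leaf 426 7)))))))))))) (branch (move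 523 (branch (move 587 (leaf 459 6)) (move 554 (branch (move 524 (leaf 522 1)) (move 459 (branch (move 586 (leaf 458 5)) (move 458 (branch (move 457 (leaf 457 0)) (move 426 (leaf 426 7)))))))))) (branch (move 523 (branch (move 587 (leaf 459 6)) (move 557 (branch (move 589 (leaf 460 7)) (move 554 (branch (move 556 (leaf 522 2)) (move 459 (branch (move 586 (leaf 458 5)) (move 458 (branch (move 457 (leaf 457 0)) (move 426 (leaf 426 7)))))))))))) (move 587 (branch (move 523 (leaf 459 6)) (move 556 (branch (move 524 (leaf 459 5)) (move 557 (branch (move 589 (leaf 460 7)) (move 461 (branch (move 588 (leaf 460 5)) (move 462 (branch (move 463 (leaf 459 1)) (move 430 (leaf 429 6))))))))))))))))) (branch (move 428 (branch (move 396 (leaf 396 4)) (move 557 (branch (move 589 (leaf 460 7)) (move 524 (leaf 428 4)))))) (move 428 (branch (move 396 (leaf 396 4)) (move 524 (branch (move 427 (branch (move 395 (leaf 395 7)) (move 556 (branch (move 459 (leaf 427 7)) (move 588 (branch (move 620 (leaf 492 6)) (move 461 (leaf 460 6)))))))) (branch (move 555 (branch (move 523 (leaf 427 5)) (move 556 (branch (move 587 (leaf 459 5)) (move 588 (branch (move 620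 (leaf 492 6)) (move 461 (leaf 460 6)))))))) (move 523 (branch (move 555 (leaf 427 5)) (move 522 (branch (move 521 (leaf 489 2)) (move 427 (branch (move 395 (leaf 395 7)) (move 554 (branch (move 553 (leaf 521 1)) (move 459 (leaf 426 5)))))))))))))))))))
theorem a6p884 : a6e884.Valid :=
  pos_of_chk [] forall_nil a6c884 a6e884 (by decide +kernel)

def a6e885 : Pos := ⟨329510287718235971474366998805254430062014917377744304631823550625703840069651297107397262701781753134280380731467708960465059242435786173959465399509934145536, 6526623659531429076238552050150492227415769321212225194651209800199037029966511743342308494240791931980550554933978416906584038253976366217756803279866500129221013882910399699768030789632, 9⟩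
def a6c885 : Cert := (move 492 (branch (move 494 (branch (move 459 (branch (move 458 (leaf 458 3)) (move 495 (branch (move 460 (leaf 459 3)) (move 496 (branch (move 524 (leaf 492 1)) (move 497 (leaf 493 1)))))))) (move 462 (branch (move 463 (leaf 459 2)) (move 557 (branch (move 589 (leaf 461 6)) (move 430 (leaf 429 5)))))))) (branch (move 494 (branch (move 462 (branch (move 463 (leaf 459 2)) (move 557 (branch (move 589 (leaf 461 6)) (move 430 (leaf 429 5)))))) (move 523 (branch (move 522 (leaf 490 1)) (move 524 (branch (move 495 (leaf 491 1)) (move 459 (branch (move 458 (leaf 458 3)) (move 556 (branch (move 588 (leaf 459 7)) (move 427 (leaf 427 4)))))))))))) (branch (move 494 (branch (move 459 (branch (move 458 (leaf 458 3)) (move 460 (branch (move 495 (leaf 459 3)) (move 428 (branch (move 396 (leaf 396 4)) (move 523 (branch (move 522 (leaf 490 1)) (move 555 (leaf 427 6)))))))))) (move 462 (branch (move 463 (leaf 459 2)) (move 557 (branch (move 589 (leaf 461 6)) (move 430 (leaf 429 5)))))))) (branch (move 494 (branch (move 462 (branch (move 463 (leaf 459 2)) (move 557 (branch (move 589 (leaf 461 6)) (move 430 (leaf 429 5)))))) (move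 523 (branch (move 522 (leaf 490 1)) (move 524 (branch (move 495 (leaf 491 1)) (move 555 (branch (move 554 (leaf 522 1)) (move 460 (branch (move 587 (leaf 459 6)) (move 428 (leaf 427 5)))))))))))) (branch (move 494 (branch (move 459 (branch (move 458 (leaf 458 3)) (move 460 (branch (move 495 (leaf 459 3)) (move 428 (branch (move 396 (leaf 396 4)) (move 523 (branch (move 522 (leaf 490 1)) (move 555 (leaf 427 6)))))))))) (branch (move 459 (branch (move 458 (leaf 458 3)) (move 495 (branch (move 460 (leaf 459 3)) (move 496 (branch (move 524 (leaf 492 1)) (move 497 (leaf 493 1)))))))) (branch (ref 0) (branch (move 523 (branch (move 522 (leaf 490 1)) (move 524 (branch (move 495 (leaf 491 1)) (move 459 (branch (move 458 (leaf 458 3)) (move 556 (branch (move 588 (leaf 459 7)) (move 427 (leaf 427 4)))))))))) (move 523 (branch (move 522 (leaf 490 1)) (move 524 (branch (move 495 (leaf 491 1)) (move 555 (branch (move 554 (leaf 522 1)) (move 460 (branch (move 587 (leaf 459 6)) (move 428 (leaf 427 5))))))))))))))) (ref 1)))))))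
theorem a6p885 : a6e885.Valid :=
  pos_of_chk [a6e883, a6e884] (forall_cons a6p883 (forall_cons a6p884 forall_nil)) a6c885 a6e885 (by decide +kernel)

def a6e886 : Pos := ⟨329510287711842630443319846715384918935398512783571175635645689708744286616338535786294382711775366235206349174532383405528418478745908719768282991202651865088, 80263304194513472851201863408123226899105614110832630412017677238892659828548432956847784928417506458405409935052393315145018854674699391887082008899100950686580168614440882182698644871630087031097879691264, 15⟩
def a6c886 : Cert := (move 491 (branch (ref 0) (branch (move 492 (branch (move 490 (leaf 490 0)) (move 494 (branch (move 459 (branch (move 458 (leaf 458 3)) (move 495 (branch (move 460 (leaf 459 3)) (move 496 (branch (move 524 (leaf 492 1)) (move 497 (leaf 493 1)))))))) (move 462 (branch (move 463 (leaf 459 2)) (move 557 (branch (move 589 (leaf 461 6)) (move 430 (leaf 429 5)))))))))) (branch (ref 1) (branch (move 492 (branch (move 490 (leaf 490 0)) (move 494 (branch (move 459 (branch (move 458 (leaf 458 3)) (move 460 (branch (move 495 (leaf 459 3)) (move 428 (branch (move 396 (leaf 396 4)) (move 523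 (branch (move 522 (leaf 490 1)) (move 555 (leaf 427 6)))))))))) (move 462 (branch (move 463 (leaf 459 2)) (move 557 (branch (move 589 (leaf 461 6)) (move 430 (leaf 429 5)))))))))) (branch (move 492 (branch (move 490 (leaf 490 0)) (move 494 (branch (move 459 (branch (move 458 (leaf 458 3)) (move 460 (branch (move 495 (leaf 459 3)) (move 428 (branch (move 396 (leaf 396 4)) (move 523 (branch (move 522 (leaf 490 1)) (move 555 (leaf 427 6)))))))))) (branch (move 463 (branch (move 462 (leaf 459 2)) (move 495 (branch (move 464 (leaf 460 2)) (move 496 (branch (move 524 (leaf 492 1)) (move 497 (leaf 493 1)))))))) (ref 2)))))) (branch (move 492 (branch (move 490 (leaf 490 0)) (move 494 (branch (move 462 (branch (move 463 (leaf 459 2)) (move 557 (branch (move 589 (leaf 461 6)) (move 430 (leaf 429 5)))))) (move 523 (branch (move 522 (leaf 490 1)) (move 524 (branch (move 495 (leaf 491 1)) (move 555 (branch (move 554 (leaf 522 1)) (move 460 (branch (move 587 (leaf 459 6)) (move 428 (leaf 427 5)))))))))))))) (branch (move 492 (branch (move 490 (leaf 490 0)) (move 494 (branch (move 462 (branch (move 463 (leaf 459 2)) (move 557 (branch (move 589 (leaf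 461 6)) (move 430 (leaf 429 5)))))) (move 523 (branch (move 522 (leaf 490 1)) (move 524 (branch (move 495 (leaf 491 1)) (move 459 (branch (move 458 (leaf 458 3)) (move 556 (branch (move 588 (leaf 459 7)) (move 427 (leaf 427 4)))))))))))))) (ref 3)))))))))
theorem a6p886 : a6e886.Valid :=
  pos_of_chk [a6e881, a6e882, a6e883, a6e885] (forall_cons a6p881 (forall_cons a6p882 (forall_cons a6p883 (forall_cons a6p885 forall_nil)))) a6c886 a6e886 (by decide +kernel)

def a6e887 : Pos := ⟨471745303432202956742036953072807720909429683134833626964815496311773740034513402676930344145189525702683868901939986874450857613342784134814620530828885453200437542912, 126633165760618091649377298746730649864520856102773719366157748651791546922883441894297696308307572212728458886791054671226244666230247192749506620054940533392359663052712312832, 10⟩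
def a6c887 : Cert := (move 491 (branch (move 490 (branch (move 492 (leaf 490 0)) (move 460 (branch (move 428 (leaf 428 7)) (move 462 (branch (move 459 (leaf 458 1)) (move 430 (leaf 429 6)))))))) (branch (move 462 (branch (move 430 (leaf 429 6)) (move 460 (branch (move 428 (leaf 428 7)) (move 459 (branch (move 490 (leaf 458 1)) (move 494 (branch (move 458 (leaf 458 0)) (move 495 (leaf 459 0)))))))))) (branch (move 462 (branch (move 430 (leaf 429 6)) (move 460 (branch (move 428 (leaf 428 7)) (move 463 (branch (move 492 (leaf 459 1)) (move 495 (branch (move 496 (leaf 460 0)) (move 494 (branch (move 459 (leaf 459 0)) (move 431 (branch (move 432 (leaf 428 2)) (move 399 (leaf 398 5)))))))))))))) (branch (move 462 (branch (move 430 (leaf 429 6)) (move 492 (branch (move 490 (leaf 490 0)) (move 463 (branch (move 494 (leaf 459 2)) (move 464 (leaf 460 1)))))))) (move 458 (branch (move 460 (branch (move 428 (leaf 428 7)) (move 459 (branch (move 494 (leaf 458 0)) (move 457 (branch (move 492 (leaf 457 0)) (move 425 (branch (move 424 (leaf 424 3)) (move 426 (leaf 425 3)))))))))) (branch (move 460 (branch (move 428 (leaf 428 7)) (move 459 (branch (move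 494 (leaf 458 0)) (move 490 (branch (move 489 (leaf 457 1)) (move 426 (branch (move 425 (leaf 425 3)) (move 523 (branch (move 524 (leaf 490 3)) (move 555 (leaf 426 7)))))))))))) (branch (move 490 (branch (move 492 (leaf 490 0)) (move 523 (branch (move 524 (leaf 490 3)) (move 426 (branch (move 394 (leaf 394 4)) (move 522 (branch (move 555 (leaf 426 4)) (move 425 (branch (move 393 (leaf 393 7)) (move 554 (branch (move 457 (leaf 425 7)) (move 553 (branch (move 585 (leaf 457 5)) (move 521 (leaf 425 5)))))))))))))))) (move 490 (branch (move 492 (leaf 490 0)) (move 460 (branch (move 428 (leaf 428 7)) (move 459 (branch (move 494 (leaf 458 0)) (move 489 (leaf 457 1)))))))))))))))))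
theorem a6p887 : a6e887.Valid :=
  pos_of_chk [] forall_nil a6c887 a6e887 (by decide +kernel)

def a6e888 : Pos := ⟨329510287711842630449274109544814530582778573417789708781070719735494796166164503497982179760000322023094506261979534534602185055744441249399798447744263127040, 93438783879360135145073977429266929045692879044490944326376121879423414831331883358796171956122368955064530811511037170583904266874012564430525411306955201201471625098971887297808448248922251460608, 11⟩
def a6c888 : Cert := (move 557 (branch (ref 0) (branch (move 460 (branch (move 428 (leaf 428 7)) (move 589 (branch (move 492 (leaf 460 7)) (move 622 (branch (move 590 (leaf 493 4)) (move 621 (branch (move 654 (leaf 525 4)) (move 620 (branch (move 652 (leaf 524 5)) (move 588 (leaf 492 5)))))))))))) (move 462 (branch (move 430 (leaf 429 6)) (move 589 (branch (move 494 (leaf 461 6)) (move 622 (branch (move 590 (leaf 493 4)) (move 621 (branch (move 654 (leaf 525 4)) (move 620 (branch (move 652 (leaf 524 5)) (move 588 (leaf 492 5)))))))))))))))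
theorem a6p888 : a6e888.Valid :=
  pos_of_chk [a6e887] (forall_cons a6p887 forall_nil) a6c888 a6e888 (by decide +kernel)

def a6e889 : Pos := ⟨329510287711842630449274109544814530582778573417789708781070719735494796166164503497982179760000322023094506261979534534602185055744441249399798447744263127040, 2026130649457353971998109656104523346750968775616943329945283295127067197173946915420264134954202321837936228296755321296149501700510780522317404559992509863842236703396184719360, 11⟩
def a6c889 : Cert := (move 429 (branch (move 396 (branch (move 428 (leaf 396 7)) (move 397 (branch (move 364 (leaf 364 7)) (move 492 (branch (move 524 (leaf 396 5)) (move 491 (branch (move 490 (leaf 490 0)) (move 365 (branch (move 460 (leaf 364 5)) (move 366 (branch (move 398 (leaf 365 6)) (move 334 (leaf 333 6)))))))))))))) (branch (move 397 (branch (move 494 (leaf 397 4)) (move 366 (branch (move 398 (leaf 365 6)) (move 365 (branch (move 334 (leaf 333 6)) (move 364 (branch (move 396 (leaf 364 7)) (move 332 (leaf 332 7)))))))))) (branch (move 397 (branch (move 494 (leaf 397 4)) (move 492 (branch (move 524 (leaf 396 5)) (move 460 (branch (move 365 (leaf 364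 5)) (move 557 (branch (move 589 (leaf 460 7)) (move 428 (leaf 428 7)))))))))) (move 428 (branch (move 396 (leaf 396 7)) (move 460 (branch (move 557 (leaf 428 7)) (move 462 (branch (move 463 (branch (move 464 (leaf 428 3)) (move 491 (branch (move 492 (leaf 459 1)) (move 459 (branch (move 490 (leaf 458 1)) (move 495 (branch (move 494 (leaf 459 0)) (move 496 (leaf 460 0)))))))))) (branch (move 427 (branch (move 463 (leaf 427 3)) (move 426 (leaf 426 0)))) (move 459 (branch (move 427 (branch (move 426 (leaf 426 0)) (move 491 (branch (move 490 (leaf 458 1)) (move 494 (branch (move 495 (leaf 459 0)) (move 523 (branch (move 555 (leaf 427 6)) (move 522 (branch (move 524 (leaf 490 2)) (move 492 (leaf 490 1)))))))))))) (branch (move 427 (branch (move 426 (leaf 426 0)) (move 490 (branch (move 491 (leaf 458 1)) (move 458 (branch (move 457 (leaf 425 2)) (move 489 (leaf 457 1)))))))) (move 458 (branch (move 457 (leaf 425 2)) (move 494 (leaf 458 0))))))))))))))))))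
theorem a6p889 : a6e889.Valid :=
  pos_of_chk [] forall_nil a6c889 a6e889 (by decide +kernel)

def a6e890 : Pos := ⟨471745303432202956742036953066853458080000071487453566330596963166348710007762893127104376433501728654458913114051829787003706484269017557816088001197369996658826280960, 98110723319273076687097397402083692036661519469939389966558760222631365616756493412148881111914401913210349673343710727732990864048755648939918379232663126127587973829481996541745900197987523493888, 10⟩
def a6c890 : Cert := (move 589 (branch (move 620 (branch (move 588 (leaf 492 5)) (move 621 (branch (move 652 (leaf 524 5)) (move 622 (branch (move 654 (leaf 525 4)) (move 590 (leaf 493 4)))))))) (branch (move 492 (branch (move 460 (leaf 460 7)) (move 621 (branch (move 524 (leaf 492 7)) (move 622 (branch (move 654 (leaf 525 4)) (move 590 (leaf 493 4)))))))) (branch (move 492 (branch (move 460 (leaf 460 7)) (move 621 (branch (move 524 (leaf 492 7)) (move 620 (branch (move 652 (leaf 524 5)) (move 588 (leaf 492 5)))))))) (move 555 (branch (move 492 (branch (move 460 (leaf 460 7)) (move 588 (branch (move 620 (leaf 492 5)) (move 590 (branch (move 622 (leaf 493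 4)) (move 591 (branch (move 556 (leaf 555 3)) (move 560 (branch (move 559 (leaf 556 2)) (move 592 (branch (move 561 (leaf 557 2)) (move 624 (branch (move 623 (leaf 588 0)) (move 625 (leaf 589 0)))))))))))))))) (branch (move 492 (branch (move 460 (leaf 460 7)) (move 491 (branch (move 490 (leaf 490 0)) (move 588 (branch (move 620 (leaf 492 5)) (move 590 (branch (move 622 (leaf 493 4)) (move 587 (branch (move 554 (leaf 554 3)) (move 618 (branch (move 619 (leaf 586 1)) (move 586 (branch (move 617 (leaf 585 1)) (move 523 (leaf 490 5)))))))))))))))) (branch (move 554 (branch (move 556 (leaf 522 2)) (move 523 (branch (move 524 (leaf 522 1)) (move 492 (branch (move 460 (leaf 460 7)) (move 491 (branch (move 490 (leaf 490 0)) (move 586 (branch (move 459 (leaf 458 5)) (move 618 (branch (move 650 (leaf 522 6)) (move 522 (leaf 490 6)))))))))))))) (move 554 (branch (move 556 (leaf 522 2)) (move 588 (branch (move 620 (leaf 492 5)) (move 590 (branch (move 587 (leaf 554 3)) (move 622 (leaf 493 4))))))))))))))))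
theorem a6p890 : a6e890.Valid :=
  pos_of_chk [] forall_nil a6c890 a6e890 (by decide +kernel)

def a6e891 : Pos := ⟨471745303432202956742036953072807720909429683134833626964815496311773740034513402676930344145189525702683868901939986874450857613342784134814620530828885453200437542912, 73523421943379060064387751385410488640453394618211840461842508558984113950883110614905448908061693279472387708088698563770381326834449169148685582336, 6⟩
def a6c891 : Cert := (move 429 (branch (move 397 (branch (move 494 (leaf 397 4)) (move 366 (branch (move 398 (leaf 365 6)) (move 365 (branch (move 334 (leaf 333 6)) (move 364 (branch (move 396 (leaf 364 7)) (move 332 (leaf 332 7)))))))))) (branch (move 430 (branch (move 462 (leaf 429 6)) (move 398 (leaf 397 6)))) (move 492 (branch (move 462 (branch (move 430 (leaf 429 6)) (move 491 (branch (move 490 (leaf 490 0)) (move 463 (branch (move 460 (leaf 459 1)) (move 464 (leaf 460 1)))))))) (branch (move 397 (branch (move 494 (leaf 397 4)) (move 365 (branch (move 460 (leaf 364 5)) (move 364 (branch (move 396 (leaf 364 7)) (move 332 (leaf 332 7)))))))) (move 462 (branch (move 430 (leaf 429 6)) (move 491 (branch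 (move 490 (leaf 490 0)) (move 494 (branch (move 463 (leaf 459 2)) (move 397 (leaf 397 4))))))))))))))
theorem a6p891 : a6e891.Valid :=
  pos_of_chk [] forall_nil a6c891 a6e891 (by decide +kernel)

def a6e892 : Pos := ⟨471745303432202956742036953066853458080000071487453566330596963166348710007762893127104376433501728654458913114051829787003706484269017557816088001197369996658826280960, 2026130648867672343023636652266473202717129334731637923032325308502580599382381697273684084871357060361147651880208273490867639133720438350742638137887970490779158196089683705856, 7⟩
def a6c892 : Cert := (move 461 (branch (move 460 (branch (move 428 (leaf 428 7)) (move 492 (branch (move 589 (leaf 460 7)) (move 491 (branch (move 490 (leaf 490 0)) (move 462 (branch (move 463 (leaf 459 1)) (move 430 (leaf 429 6)))))))))) (branch (move 430 (branch (move 462 (leaf 429 6)) (move 429 (branch (move 398 (leaf 397 6)) (move 397 (branch (move 494 (leaf 397 4)) (move 396 (branch (move 428 (leaf 396 7)) (move 364 (leaf 364 7)))))))))) (branch (ref 0) (ref 1)))))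
theorem a6p892 : a6e892.Valid :=
  pos_of_chk [a6e862, a6e891] (forall_cons a6p862 (forall_cons a6p891 forall_nil)) a6c892 a6e892 (by decide +kernel)

def a6e893 : Pos := ⟨471745303432202956742036953066853458080000071487453566330596963166348710007762893127104376433501728654458913114051829787003706484269017557816088001197369996658826280960, 1519597987063531397578690743293592716882581974905638118714025112709696973923030843761811729298758179636899852619925522918456206036620783738060788154565595324697764896445621600256, 12⟩
def a6c893 : Cert := (move 461 (branch (move 428 (branch (move 460 (leaf 428 7)) (move 429 (branch (move 396 (leaf 396 7)) (move 430 (branch (move 462 (leaf 429 6)) (move 398 (leaf 397 6)))))))) (branch (move 556 (branch (move 588 (leaf 460 5)) (move 429 (branch (move 524 (leaf 428 5)) (move 430 (branch (move 462 (leaf 429 6)) (move 398 (leaf 397 6)))))))) (branch (move 556 (branch (move 588 (leaf 460 5)) (move 429 (branch (move 524 (leaf 428 5)) (move 428 (branch (move 460 (leaf 428 7)) (move 396 (leaf 396 7)))))))) (move 491 (branch (move 556 (branch (move 588 (leaf 460 5)) (move 555 (branch (move 554 (leaf 522 2))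 (move 460 (branch (move 428 (leaf 428 7)) (move 462 (branch (move 430 (leaf 429 6)) (move 459 (branch (move 490 (leaf 458 1)) (move 426 (branch (move 427 (leaf 426 3)) (move 458 (branch (move 425 (leaf 425 3)) (move 523 (leaf 426 7)))))))))))))))) (branch (move 490 (branch (move 492 (leaf 490 0)) (move 523 (branch (move 524 (leaf 490 3)) (move 556 (branch (move 588 (leaf 460 5)) (move 555 (branch (move 554 (leaf 522 2)) (move 458 (branch (move 587 (leaf 458 7)) (move 426 (branch (move 459 (leaf 426 7)) (move 522 (leaf 426 4)))))))))))))) (branch (move 462 (branch (move 430 (leaf 429 6)) (move 492 (branch (move 490 (leaf 490 0)) (move 463 (branch (move 494 (leaf 459 2)) (move 464 (leaf 460 1)))))))) (move 462 (branch (move 430 (leaf 429 6)) (move 460 (branch (move 428 (leaf 428 7)) (move 463 (branch (move 492 (leaf 459 1)) (move 556 (branch (move 588 (leaf 460 5)) (move 555 (branch (move 554 (leaf 522 2)) (move 432 (branch (move 431 (leaf 428 2)) (move 464 (branch (move 433 (leaf 429 2)) (move 465 (branch (move 494 (leaf 461 1)) (move 497 (branch (move 496 (leaf 461 0)) (move 498 (leaf 462 0))))))))))))))))))))))))))))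
theorem a6p893 : a6e893.Valid :=
  pos_of_chk [] forall_nil a6c893 a6e893 (by decide +kernel)

def a6e894 : Pos := ⟨471745303432202956742036953072807720909429683134833626964815496311773740034513402676930344145189525702683868901939986874450857613342784134814620530828885453200437542912, 1519597987063531397578690741963777782240564333884324813777433790803246201094097041647037320881680435795125405714602103899147963111117390026883568125025948724060514612806831570944, 12⟩
def a6c894 : Cert := (move 460 (branch (move 428 (leaf 428 7)) (move 556 (branch (move 588 (leaf 460 5)) (move 555 (branch (move 554 (leaf 522 2)) (move 492 (branch (move 524 (branch (move 587 (leaf 459 5)) (move 459 (branch (move 427 (leaf 427 7)) (move 494 (branch (move 495 (leaf 459 3)) (move 458 (leaf 458 0)))))))) (branch (move 491 (branch (move 490 (leaf 490 0)) (move 523 (branch (move 587 (leaf 459 6)) (move 494 (branch (move 522 (leaf 490 1)) (move 459 (branch (move 458 (leaf 458 0)) (move 495 (leaf 459 3)))))))))) (branch (move 491 (branch (move 490 (leaf 490 0)) (move 587 (branch (move 523 (leaf 459 6)) (move 524 (leaf 459 5)))))) (move 459 (branch (move 491 (branch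 (move 490 (leaf 490 0)) (move 427 (branch (move 524 (leaf 427 7)) (move 395 (branch (move 363 (leaf 363 4)) (move 494 (branch (move 495 (leaf 459 3)) (move 394 (branch (move 362 (leaf 362 7)) (move 523 (branch (move 522 (leaf 490 1)) (move 426 (leaf 394 7)))))))))))))) (branch (move 491 (branch (move 490 (leaf 490 0)) (move 427 (branch (move 524 (leaf 427 7)) (move 458 (branch (move 457 (leaf 457 0)) (move 426 (branch (move 425 (leaf 425 3)) (move 523 (leaf 426 7)))))))))) (move 458 (branch (move 457 (leaf 457 0)) (move 494 (leaf 458 0)))))))))))))))))
theorem a6p894 : a6e894.Valid :=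
  pos_of_chk [] forall_nil a6c894 a6e894 (by decide +kernel)

def a6e895 : Pos := ⟨471745303432202956742036953066853458080000071487453566330596963166348710007762893127104376433501728654458913114051829787003706484269017557816088001197369996658826280960, 74751027105228541091225083969187229624684610957874822320957626248455812082525209652258580107652207220380514319053513389043063452733013181507490453185039748476763119321397042820725871546486403104768, 9⟩
def a6c895 : Cert := (move 589 (branch (move 492 (branch (move 460 (leaf 460 7)) (move 621 (branch (move 524 (leaf 492 7)) (move 622 (branch (move 654 (leaf 525 4)) (move 590 (leaf 493 4)))))))) (branch (move 494 (branch (move 621 (leaf 493 6)) (move 462 (leaf 461 6)))) (move 494 (branch (move 462 (leaf 461 6)) (move 492 (branch (move 460 (leaf 460 7)) (move 491 (branch (move 490 (leaf 490 0)) (move 523 (branch (move 522 (leaf 490 1)) (move 495 (branch (move 524 (leaf 491 1)) (move 496 (branch (move 497 (leaf 493 1)) (move 464 (branch (move 463 (leaf 460 2)) (move 465 (leaf 461 2)))))))))))))))))))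
theorem a6p895 : a6e895.Valid :=
  pos_of_chk [] forall_nil a6c895 a6e895 (by decide +kernel)

def a6e896 : Pos := ⟨329510287718235971480321261636070376556455385441752044869320122504172568157165173106670299540314019576071350630434847292590895608483014309071682641966032486400, 442261221754881544460832383999532534247855008797420908572350862805953482459544250279239761982000032419040222567786518700622293553135640721856358199558891490573056737280, 12⟩
def a6c896 : Cert := (move 524 (branch (move 556 (leaf 428 5)) (move 523 (branch (move 490 (leaf 490 3)) (move 554 (branch (move 555 (leaf 522 1)) (move 522 (branch (move 553 (leaf 521 1)) (move 428 (branch (move 396 (leaf 396 7)) (move 427 (branch (move 459 (leaf 426 5)) (move 426 (branch (move 462 (leaf 426 0)) (move 397 (branch (move 398 (leaf 394 2)) (move 457 (branch (move 458 (leaf 425 1)) (move 425 (branch (move 456 (leaf 424 1)) (move 393 (branch (move 392 (leaf 392 3)) (move 394 (leaf 393 3))))))))))))))))))))))))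
theorem a6p896 : a6e896.Valid :=
  pos_of_chk [] forall_nil a6c896 a6e896 (by decide +kernel)

def a6e897 : Pos := ⟨329510287711842630449274109544814530582778573417789708781070719735494796166164503497982179760000322023094506261979534534602185055744441249399798447744263127040, 471745303102692669081341050955270507700784560305913401363030716045940981249127963493923528504657033642312517112150596947768940081371357493038419071476383494656948699136, 6⟩
def a6c897 : Cert := (move 429 (branch (move 397 (branch (move 494 (leaf 397 4)) (move 396 (branch (move 428 (leaf 396 7)) (move 364 (leaf 364 7)))))) (branch (move 397 (branch (move 494 (leaf 397 4)) (move 398 (branch (move 430 (leaf 397 6)) (move 366 (leaf 365 6)))))) (move 430 (branch (move 398 (leaf 397 6)) (move 428 (branch (move 396 (leaf 396 7)) (move 462 (branch (move 557 (leaf 429 6)) (move 463 (branch (move 464 (leaf 428 3)) (move 427 (leaf 427 0)))))))))))))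
theorem a6p897 : a6e897.Valid :=
  pos_of_chk [] forall_nil a6c897 a6e897 (by decide +kernel)

def a6e898 : Pos := ⟨117936326132642645616306990996132267672163402716486482599292506297502189563951173980759349189377134798323413861789093217598614291372463541200730099198548720580049240064, 86182066751429333970633815593340533985533349281384881022750537284897941021334399031733026530099880475463168400728466763311481492557667944266835942427334523772555926994981950572991768959448460078803963690223690317824, 14⟩
def a6c898 : Cert := (move 587 (branch (move 490 (branch (move 458 (leaf 458 7)) (move 619 (branch (move 522 (leaf 490 7)) (move 652 (branch (move 620 (leaf 523 4)) (move 651 (branch (move 684 (leaf 555 4)) (move 650 (branch (move 682 (leaf 554 5)) (move 618 (leaf 522 5)))))))))))) (branch (move 586 (branch (move 618 (leaf 490 5)) (move 554 (branch (move 459 (leaf 458 5)) (move 557 (branch (move 556 (leaf 522 2)) (move 462 (branch (move 430 (leaf 429 6)) (move 589 (branch (move 494 (leaf 461 6)) (move 622 (branch (move 590 (leaf 493 4)) (move 621 (branch (move 654 (leaf 525 4)) (move 620 (branch (move 619 (leaf 586 3)) (move 652 (leaf 524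 5)))))))))))))))))) (branch (move 490 (branch (move 458 (leaf 458 7)) (move 619 (branch (move 522 (leaf 490 7)) (move 652 (branch (move 620 (leaf 523 4)) (move 651 (branch (move 684 (leaf 555 4)) (move 682 (branch (move 650 (leaf 554 5)) (move 683 (branch (move 714 (leaf 586 5)) (move 554 (branch (move 586 (leaf 554 7)) (move 557 (branch (move 556 (leaf 522 2)) (move 462 (branch (move 430 (leaf 429 6)) (move 589 (branch (move 494 (leaf 461 6)) (move 654 (branch (move 653 (leaf 650 1)) (move 622 (branch (move 621 (leaf 525 4)) (move 590 (leaf 493 4)))))))))))))))))))))))))) (move 586 (branch (move 618 (leaf 490 5)) (move 554 (branch (move 459 (leaf 458 5)) (move 556 (branch (move 557 (leaf 522 2)) (move 585 (branch (move 584 (leaf 552 2)) (move 490 (branch (move 458 (leaf 458 7)) (move 522 (branch (move 617 (leaf 489 5)) (move 521 (branch (move 520 (leaf 520 0)) (move 489 (branch (move 457 (leaf 457 7)) (move 488 (branch (move 487 (leaf 487 0)) (move 456 (branch (move 455 (leaf 455 3)) (move 553 (leaf 456 7))))))))))))))))))))))))))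
theorem a6p898 : a6e898.Valid :=
  pos_of_chk [] forall_nil a6c898 a6e898 (by decide +kernel)

def a6e899 : Pos := ⟨117936326105183454975784552136204664475837829847408741398719284659924335727209001247168724980886896235677595641879907972032690859223975589201863523948252607415589011456, 109790571056181394637309952511859432468072412701529486620815863977671703002178445746387661735667264752085994855046628615615944108881111430463121700563317544372534253544302247030568811099877242044416, 12⟩
def a6c899 : Cert := (move 557 (branch (move 462 (branch (move 430 (leaf 429 6)) (move 589 (branch (move 494 (leaf 461 6)) (move 620 (branch (move 588 (leaf 492 5)) (move 621 (branch (move 652 (leaf 524 5)) (move 622 (branch (move 654 (leaf 525 4)) (move 590 (leaf 493 4)))))))))))) (branch (move 556 (branch (move 554 (leaf 522 2)) (move 588 (leaf 460 5)))) (move 554 (branch (move 556 (leaf 522 2)) (move 586 (branch (move 462 (branch (move 430 (leaf 429 6)) (move 589 (branch (move 494 (leaf 461 6)) (move 622 (branch (move 590 (leaf 493 4)) (move 621 (branch (move 654 (leaf 525 4)) (move 620 (branch (move 652 (leaf 524 5)) (move 619 (branch (move 587 (leaf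 586 3)) (move 618 (branch (move 585 (leaf 585 3)) (move 650 (branch (move 649 (leaf 617 1)) (move 651 (leaf 618 1)))))))))))))))))) (branch (move 523 (branch (move 459 (leaf 458 5)) (move 618 (branch (move 650 (leaf 522 6)) (move 522 (leaf 490 6)))))) (move 490 (branch (move 462 (branch (move 430 (leaf 429 6)) (move 589 (branch (move 494 (leaf 461 6)) (move 523 (branch (move 459 (leaf 458 5)) (move 622 (branch (move 590 (leaf 493 4)) (move 621 (branch (move 654 (leaf 525 4)) (move 620 (branch (move 652 (leaf 524 5)) (move 587 (branch (move 619 (leaf 586 3)) (move 458 (leaf 458 7)))))))))))))))) (branch (move 462 (branch (move 430 (leaf 429 6)) (move 589 (branch (move 494 (leaf 461 6)) (move 622 (branch (move 590 (leaf 493 4)) (move 621 (branch (move 654 (leaf 525 4)) (move 620 (branch (move 652 (leaf 524 5)) (move 587 (branch (move 619 (leaf 586 3)) (move 458 (branch (move 523 (leaf 458 7)) (move 522 (leaf 458 4)))))))))))))))) (branch (move 522 (branch (move 459 (leaf 458 6)) (move 587 (branch (move 619 (leaf 490 4)) (move 458 (leaf 458 4)))))) (move 459 (branch (move 522 (leaf 458 6)) (move 523 (leaf 458 5))))))))))))))))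
theorem a6p899 : a6e899.Valid :=
  pos_of_chk [] forall_nil a6c899 a6e899 (by decide +kernel)

def a6e900 : Pos := ⟨329510287718235971480321261634684041709394978011962837777248580652454349619477264819085059750006708922168537818914860089538825819434318703590980856051545407488, 86182066751429333972969785189563097938490694468069944719187698491894281522489249678039379312143009654612362284587127325036968014718876129721405594571236640250415632061654727528778965782317486169045827918370854404096, 16⟩
def a6c900 : Cert := (move 555 (branch (move 557 (branch (move 462 (branch (move 430 (leaf 429 6)) (move 589 (branch (move 494 (leaf 461 6)) (move 620 (branch (move 588 (leaf 492 5)) (move 621 (branch (move 652 (leaf 524 5)) (move 622 (branch (move 654 (leaf 525 4)) (move 590 (leaf 493 4)))))))))))) (branch (move 556 (branch (move 554 (leaf 522 2)) (move 588 (leaf 460 5)))) (move 462 (branch (move 430 (leaf 429 6)) (move 589 (branch (move 494 (leaf 461 6)) (move 556 (branch (move 554 (leaf 522 2)) (move 622 (branch (move 590 (leaf 493 4)) (move 621 (branch (move 654 (leaf 525 4)) (move 653 (branch (move 524 (leaf 524 7)) (move 652 (branch (move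 684 (leaf 556 5)) (move 620 (leaf 524 5))))))))))))))))))) (branch (move 523 (branch (move 524 (branch (move 490 (leaf 490 3)) (move 494 (branch (move 522 (leaf 490 2)) (move 495 (leaf 491 2)))))) (branch (move 587 (branch (move 490 (branch (move 458 (leaf 458 7)) (move 619 (branch (move 522 (leaf 490 7)) (move 618 (branch (move 650 (leaf 522 5)) (move 586 (leaf 490 5)))))))) (move 588 (branch (move 620 (leaf 491 4)) (move 556 (branch (move 459 (leaf 459 4)) (move 557 (leaf 460 5)))))))) (branch (move 490 (branch (move 524 (leaf 490 3)) (move 587 (branch (move 458 (leaf 458 7)) (move 588 (branch (move 620 (leaf 491 4)) (move 556 (branch (move 459 (leaf 459 4)) (move 557 (leaf 460 5)))))))))) (move 588 (branch (move 556 (branch (move 459 (leaf 459 4)) (move 557 (leaf 460 5)))) (branch (move 620 (branch (move 587 (leaf 491 4)) (move 556 (branch (move 524 (leaf 492 6)) (move 652 (leaf 523 7)))))) (move 494 (branch (move 587 (branch (move 620 (leaf 491 4)) (move 618 (branch (move 586 (leaf 490 5)) (move 619 (branch (move 650 (leaf 522 5)) (move 589 (branch (move 590 (leaf 586 1)) (move 557 (branch (move 621 (leaf 493 6)) (move 462 (leaf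 461 6)))))))))))) (move 524 (branch (move 522 (leaf 490 2)) (move 495 (leaf 491 2))))))))))))) (branch (move 523 (branch (move 524 (branch (move 490 (leaf 490 3)) (move 494 (branch (move 522 (leaf 490 2)) (move 495 (leaf 491 2)))))) (branch (move 524 (branch (move 554 (leaf 522 1)) (move 494 (branch (move 522 (leaf 490 2)) (move 495 (leaf 491 2)))))) (branch (move 524 (branch (move 490 (leaf 490 3)) (move 554 (leaf 522 1)))) (move 587 (branch (move 490 (branch (move 458 (leaf 458 7)) (move 619 (branch (move 522 (leaf 490 7)) (move 620 (branch (move 652 (leaf 523 4)) (move 588 (leaf 491 4)))))))) (branch (move 490 (branch (move 458 (leaf 458 7)) (move 619 (branch (move 522 (leaf 490 7)) (move 618 (branch (move 650 (leaf 522 5)) (move 586 (leaf 490 5)))))))) (move 586 (branch (move 618 (leaf 490 5)) (move 554 (branch (move 459 (leaf 458 5)) (move 588 (branch (move 620 (leaf 491 4)) (move 553 (branch (move 589 (leaf 553 3)) (move 552 (leaf 552 0))))))))))))))))) (branch (move 523 (branch (move 524 (branch (move 490 (leaf 490 3)) (move 494 (branch (move 522 (leaf 490 2)) (move 495 (leaf 491 2)))))) (branch (move 524 (branch (move 554 (leaf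 522 1)) (move 494 (branch (move 522 (leaf 490 2)) (move 495 (leaf 491 2)))))) (branch (move 524 (branch (move 490 (leaf 490 3)) (move 554 (leaf 522 1)))) (ref 0))))) (branch (move 523 (branch (move 524 (branch (move 490 (leaf 490 3)) (move 554 (leaf 522 1)))) (branch (move 587 (branch (move 490 (branch (move 458 (leaf 458 7)) (move 619 (branch (move 522 (leaf 490 7)) (move 618 (branch (move 650 (leaf 522 5)) (move 586 (leaf 490 5)))))))) (move 588 (branch (move 620 (leaf 491 4)) (move 556 (branch (move 459 (leaf 459 4)) (move 557 (leaf 460 5)))))))) (move 554 (branch (move 524 (leaf 522 1)) (move 586 (branch (move 459 (leaf 458 5)) (move 618 (branch (move 650 (leaf 522 6)) (move 522 (leaf 490 6))))))))))) (branch (move 523 (branch (move 524 (branch (move 490 (leaf 490 3)) (move 494 (branch (move 522 (leaf 490 2)) (move 495 (leaf 491 2)))))) (branch (move 524 (branch (move 554 (leaf 522 1)) (move 494 (branch (move 522 (leaf 490 2)) (move 495 (leaf 491 2)))))) (branch (move 524 (branch (move 490 (leaf 490 3)) (move 554 (leaf 522 1)))) (move 458 (branch (move 459 (branch (move 426 (leaf 426 7)) (move 554 (branch (move 586 (leaf 458 5))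 (move 556 (branch (move 557 (leaf 522 2)) (move 588 (leaf 459 4)))))))) (branch (move 490 (branch (move 587 (leaf 458 7)) (move 426 (branch (move 522 (leaf 426 4)) (move 394 (leaf 394 4)))))) (move 587 (branch (move 490 (leaf 458 7)) (move 586 (branch (move 618 (leaf 490 5)) (move 554 (branch (move 459 (leaf 458 5)) (move 557 (branch (move 556 (leaf 522 2)) (move 462 (branch (move 430 (leaf 429 6)) (move 589 (branch (move 494 (leaf 461 6)) (move 588 (branch (move 553 (leaf 553 3)) (move 590 (leaf 554 3))))))))))))))))))))))) (ref 1))))))))
theorem a6p900 : a6e900.Valid :=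
  pos_of_chk [a6e898, a6e899] (forall_cons a6p898 (forall_cons a6p899 forall_nil)) a6c900 a6e900 (by decide +kernel)

def a6e901 : Pos := ⟨329510287865282815188451496873639520821252630473515478635985893567491788033532715780348742262235962466885919352500183927059866596351663225837362576491913674752, 471745303185070240951761639572480716420857589864577216308767080466177633781695335493588201849042130234972698478145374114171655637345775594957595972081906133936950476800, 11⟩
def a6c901 : Cert := (move 430 (branch (move 462 (branch (move 397 (leaf 397 7)) (move 557 (leaf 429 5)))) (branch (move 462 (branch (move 557 (leaf 429 5)) (move 398 (leaf 397 5)))) (move 431 (branch (move 523 (branch (move 524 (leaf 491 2)) (move 432 (branch (move 397 (branch (move 396 (leaf 396 3)) (move 433 (branch (move 398 (leaf 397 3)) (move 465 (branch (move 464 (leaf 429 0)) (move 466 (leaf 430 0)))))))) (branch (move 397 (branch (move 396 (leaf 396 3)) (move 433 (branch (move 398 (leaf 397 3)) (move 401 (branch (move 400 (leaf 397 2)) (move 402 (leaf 398 2)))))))) (move 464 (branch (move 465 (leaf 429 0)) (move 400 (branch (move 401 (leaf 397 2)) (move 368 (branch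 (move 463 (leaf 367 5)) (move 335 (branch (move 367 (leaf 335 7)) (move 336 (branch (move 303 (leaf 303 7)) (move 337 (branch (move 369 (leaf 336 6)) (move 305 (leaf 304 6))))))))))))))))))) (branch (move 399 (branch (move 463 (leaf 398 5)) (move 428 (branch (move 400 (leaf 396 2)) (move 427 (branch (move 398 (leaf 395 2)) (move 395 (branch (move 394 (leaf 394 3)) (move 396 (leaf 395 3)))))))))) (branch (move 463 (branch (move 399 (leaf 398 5)) (move 464 (branch (move 428 (leaf 428 0)) (move 465 (branch (move 466 (leaf 462 1)) (move 432 (leaf 429 0)))))))) (move 432 (branch (move 523 (branch (move 524 (leaf 491 2)) (move 401 (branch (move 400 (leaf 397 2)) (move 433 (branch (move 402 (leaf 398 2)) (move 465 (branch (move 464 (leaf 429 0)) (move 466 (leaf 430 0)))))))))) (branch (move 523 (branch (move 524 (leaf 491 2)) (move 397 (branch (move 396 (leaf 396 3)) (move 433 (branch (move 398 (leaf 397 3)) (move 465 (branch (move 464 (leaf 429 0)) (move 466 (leaf 430 0)))))))))) (move 400 (branch (move 401 (leaf 397 2)) (move 428 (branch (move 399 (leaf 396 2)) (move 396 (branch (move 395 (leaf 395 3)) (move 397 (leaf 396 3))))))))))))))))))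
theorem a6p901 : a6e901.Valid :=
  pos_of_chk [] forall_nil a6c901 a6e901 (by decide +kernel)

def a6e902 : Pos := ⟨329510287762989358691697063434341007948329749536956207605068577044420714242840626355117422631826461427798601630014987845021544588264928353297742257660910108672, 747510271065338658226754903896662515457565365223380497838094042889344654518201429959080661379671394476195380973935655276307824227770278958574041585075705091301697842962036398121085618019653719687168, 13⟩
def a6c902 : Cert := (move 495 (branch (move 524 (branch (move 523 (leaf 491 2)) (move 496 (leaf 492 1)))) (branch (move 557 (branch (move 496 (branch (move 497 (leaf 493 1)) (move 528 (branch (move 529 (leaf 493 0)) (move 560 (branch (move 592 (branch (move 463 (leaf 463 7)) (move 623 (branch (move 591 (leaf 495 5)) (move 624 (branch (move 655 (leaf 527 5)) (move 625 (branch (move 657 (leaf 528 4)) (move 593 (leaf 496 4)))))))))) (branch (move 464 (branch (move 465 (leaf 461 2)) (move 430 (branch (move 462 (leaf 429 5)) (move 593 (branch (move 561 (leaf 464 4)) (move 592 (branch (move 625 (leaf 496 4)) (move 591 (branch (move 623 (leaf 495 5)) (move 559 (leaf 463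 5)))))))))))) (move 464 (branch (move 465 (leaf 461 2)) (move 431 (branch (move 463 (leaf 431 7)) (move 430 (branch (move 462 (leaf 429 5)) (move 432 (branch (move 399 (leaf 399 7)) (move 401 (branch (move 433 (leaf 400 6)) (move 400 (branch (move 429 (leaf 397 2)) (move 369 (leaf 368 6))))))))))))))))))))) (branch (move 589 (branch (move 621 (leaf 493 6)) (move 588 (branch (move 620 (leaf 492 5)) (move 556 (branch (move 461 (leaf 460 5)) (move 590 (branch (move 622 (leaf 493 4)) (move 555 (branch (move 554 (leaf 554 0)) (move 591 (leaf 555 3)))))))))))) (move 462 (branch (move 589 (leaf 461 6)) (move 430 (leaf 429 5))))))) (move 429 (branch (move 524 (branch (move 523 (leaf 491 2)) (move 461 (branch (move 556 (leaf 428 5)) (move 430 (branch (move 398 (leaf 397 6)) (move 462 (branch (move 557 (leaf 429 5)) (move 428 (branch (move 396 (leaf 396 7)) (move 463 (branch (move 464 (leaf 428 3)) (move 427 (leaf 427 0)))))))))))))) (branch (move 461 (branch (move 397 (leaf 397 4)) (move 524 (branch (move 523 (leaf 491 2)) (move 556 (leaf 428 5)))))) (branch (move 461 (branch (move 397 (leaf 397 4)) (move 430 (branch (move 398 (leaf 397 6)) (move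 462 (branch (move 557 (leaf 429 5)) (move 428 (branch (move 396 (leaf 396 7)) (move 463 (branch (move 464 (leaf 428 3)) (move 427 (leaf 427 0)))))))))))) (ref 0))))))))
theorem a6p902 : a6e902.Valid :=
  pos_of_chk [a6e901] (forall_cons a6p901 forall_nil) a6c902 a6e902 (by decide +kernel)

def a6e903 : Pos := ⟨356969478409905138582671818720536091944023895331702558238824291798122440429744011884710541184478666546781818432516236832106673303953672382739220779132652617728, 1266331656426817657721051257385255869393288983047008987442105565204300245590402049929250555252023432261862949287367241730575720131649316455858118251933814777108507324201899655168, 7⟩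
def a6c903 : Cert := (move 459 (branch (move 458 (branch (move 492 (leaf 458 3)) (move 426 (branch (move 555 (leaf 426 7)) (move 394 (branch (move 427 (leaf 394 7)) (move 362 (leaf 362 4)))))))) (branch (move 492 (branch (move 458 (leaf 458 3)) (move 522 (leaf 490 1)))) (move 554 (branch (move 427 (branch (move 522 (leaf 426 5)) (move 396 (branch (move 428 (leaf 395 6)) (move 395 (branch (move 364 (leaf 363 6)) (move 394 (branch (move 426 (leaf 394 7)) (move 362 (leaf 362 7)))))))))) (move 555 (branch (move 586 (leaf 458 5)) (move 556 (branch (move 557 (leaf 522 2)) (move 588 (leaf 459 4)))))))))))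
theorem a6p903 : a6e903.Valid :=
  pos_of_chk [] forall_nil a6c903 a6e903 (by decide +kernel)

def a6e904 : Pos := ⟨329510287718235971474366998805254430062014917377744304631823550625703840069651297107397262701781753134280380731467708960465059242435786173959465399509934145536, 747510271065338658227008170227770974500457049400288811190432685561926725451303716556481663237575038789176788590738635658063552428299591142932732357360274336558097958446192014559216254036755680854016, 14⟩
def a6c904 : Cert := (move 494 (branch (move 495 (branch (move 496 (branch (move 497 (leaf 493 1)) (move 464 (branch (move 465 (leaf 461 2)) (move 463 (branch (move 492 (leaf 460 2)) (move 528 (branch (move 529 (leaf 493 0)) (move 431 (branch (move 560 (leaf 431 7)) (move 399 (leaf 399 4)))))))))))) (branch (move 524 (branch (move 523 (leaf 491 2)) (move 496 (leaf 492 1)))) (move 523 (branch (move 524 (leaf 491 2)) (move 492 (branch (move 522 (leaf 490 1)) (move 463 (branch (move 462 (leaf 459 2)) (move 464 (leaf 460 2))))))))))) (branch (move 557 (branch (move 462 (branch (move 589 (leaf 461 6)) (move 430 (leaf 429 5)))) (branch (move 589 (branch (move 621 (leaf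 493 6)) (move 588 (branch (move 620 (leaf 492 5)) (move 556 (branch (move 461 (leaf 460 5)) (move 555 (branch (move 554 (leaf 522 2)) (move 590 (branch (move 591 (leaf 555 3)) (move 622 (leaf 493 4)))))))))))) (move 461 (branch (move 429 (branch (move 397 (leaf 397 4)) (move 556 (branch (move 588 (leaf 460 5)) (move 524 (leaf 428 5)))))) (branch (move 430 (branch (move 462 (leaf 429 5)) (move 429 (branch (move 398 (leaf 397 6)) (move 397 (leaf 397 4)))))) (move 462 (branch (move 430 (leaf 429 5)) (move 492 (branch (move 463 (leaf 459 2)) (move 556 (branch (move 588 (leaf 460 5)) (move 523 (branch (move 522 (leaf 490 1)) (move 555 (branch (move 554 (leaf 522 2)) (move 459 (branch (move 458 (leaf 458 3)) (move 427 (branch (move 524 (leaf 427 4)) (move 396 (branch (move 428 (leaf 395 6)) (move 395 (branch (move 364 (leaf 363 6)) (move 394 (branch (move 426 (leaf 394 7)) (move 362 (leaf 362 7)))))))))))))))))))))))))))) (branch (ref 0) (branch (move 523 (branch (ref 1) (branch (move 524 (branch (move 522 (leaf 490 2)) (move 495 (leaf 491 2)))) (move 459 (branch (move 458 (branch (move 492 (leaf 458 3)) (move 426 (branch (move 555 (leaf 426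 7)) (move 394 (branch (move 427 (leaf 394 7)) (move 362 (leaf 362 4)))))))) (branch (move 524 (branch (move 495 (leaf 491 2)) (move 556 (branch (move 427 (leaf 427 4)) (move 588 (branch (move 620 (leaf 492 6)) (move 555 (leaf 459 4)))))))) (branch (move 524 (branch (move 495 (leaf 491 2)) (move 556 (branch (move 427 (leaf 427 4)) (move 588 (branch (move 620 (leaf 492 6)) (move 492 (leaf 459 7)))))))) (move 524 (branch (move 495 (leaf 491 2)) (move 555 (branch (move 554 (leaf 522 1)) (move 556 (branch (move 588 (leaf 459 4)) (move 458 (branch (move 492 (leaf 458 3)) (move 426 (leaf 426 7))))))))))))))))) (move 462 (branch (move 430 (branch (move 557 (leaf 429 5)) (move 398 (leaf 397 5)))) (branch (move 430 (branch (move 398 (leaf 397 5)) (move 463 (branch (move 492 (leaf 459 2)) (move 429 (branch (move 397 (leaf 397 7)) (move 464 (branch (move 465 (leaf 461 1)) (move 428 (branch (move 461 (leaf 428 3)) (move 427 (leaf 427 0)))))))))))) (move 463 (branch (move 492 (leaf 459 2)) (move 464 (branch (move 465 (leaf 461 1)) (move 496 (branch (move 461 (branch (move 497 (leaf 461 0)) (move 429 (branch (move 428 (leaf 428 3)) (move 397 (leaf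 397 4)))))) (branch (move 495 (branch (move 497 (leaf 493 1)) (move 431 (branch (move 399 (leaf 398 5)) (move 528 (branch (move 529 (leaf 493 0)) (move 560 (leaf 431 7)))))))) (move 431 (branch (move 528 (branch (move 560 (leaf 431 7)) (move 557 (branch (move 589 (leaf 461 6)) (move 529 (branch (move 495 (leaf 493 0)) (move 432 (branch (move 561 (leaf 432 4)) (move 433 (branch (move 461 (leaf 429 2)) (move 434 (leaf 430 1)))))))))))) (branch (move 399 (branch (move 367 (leaf 367 4)) (move 495 (leaf 398 5)))) (move 399 (branch (move 367 (leaf 367 4)) (move 528 (branch (move 560 (leaf 431 7)) (move 432 (leaf 399 7))))))))))))))))))))))))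
theorem a6p904 : a6e904.Valid :=
  pos_of_chk [a6e902, a6e903] (forall_cons a6p902 (forall_cons a6p903 forall_nil)) a6c904 a6e904 (by decide +kernel)

def a6e905 : Pos := ⟨356969478336381716725629569687036713987935242498711574782778891253087575716647256692027421299405217207430455527759992950335304521520081659540623083598906392576, 23359695969840033786236836066643163856066480618930380412823339024458071834682287547969658850469798791401115102084824458703909227117286325235062089549191506883446380260394058719739866229289336700928, 9⟩
def a6c905 : Cert := (move 555 (branch (move 587 (branch (move 458 (leaf 458 7)) (move 619 (branch (move 522 (leaf 490 7)) (move 620 (branch (move 652 (leaf 523 4)) (move 588 (leaf 491 4)))))))) (branch (move 587 (branch (move 458 (leaf 458 7)) (move 588 (branch (move 620 (leaf 491 4)) (move 586 (branch (move 618 (leaf 490 5)) (move 459 (branch (move 556 (leaf 459 4)) (move 554 (leaf 458 5)))))))))) (branch (move 458 (branch (move 587 (leaf 458 7)) (move 426 (branch (move 459 (leaf 426 7)) (move 522 (leaf 426 4)))))) (branch (move 459 (branch (move 588 (branch (move 556 (leaf 459 4)) (move 587 (branch (move 620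 (leaf 491 4)) (move 619 (branch (move 522 (leaf 490 7)) (move 618 (branch (move 650 (leaf 522 5)) (move 586 (leaf 490 5)))))))))) (branch (move 554 (branch (move 586 (leaf 458 5)) (move 556 (branch (move 557 (leaf 522 2)) (move 588 (leaf 459 4)))))) (branch (move 556 (branch (move 588 (leaf 459 4)) (move 554 (branch (move 557 (leaf 522 2)) (move 427 (branch (move 522 (leaf 426 5)) (move 396 (branch (move 428 (leaf 395 6)) (move 395 (branch (move 364 (leaf 363 6)) (move 394 (branch (move 426 (leaf 394 7)) (move 362 (leaf 362 7)))))))))))))) (move 554 (branch (move 586 (leaf 458 5)) (move 427 (branch (move 522 (leaf 426 5)) (move 396 (branch (move 428 (leaf 395 6)) (move 395 (branch (move 364 (leaf 363 6)) (move 394 (branch (move 426 (leaf 394 7)) (move 362 (leaf 362 7)))))))))))))))) (move 459 (branch (move 554 (branch (move 586 (leaf 458 5)) (move 556 (branch (move 557 (leaf 522 2)) (move 588 (leaf 459 4)))))) (move 426 (branch (move 458 (leaf 426 7)) (move 427 (branch (move 394 (leaf 394 7)) (move 396 (branch (move 428 (leaf 395 6)) (move 395 (branch (move 364 (leaf 363 6)) (move 522 (leaf 394 5)))))))))))))))))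
theorem a6p905 : a6e905.Valid :=
  pos_of_chk [] forall_nil a6c905 a6e905 (by decide +kernel)

def a6e906 : Pos := ⟨109836762587663119569853283974209947630156643813203935680447889041557414297439509830060271258833776263821024297452147077414281439753508647397429542428581298176, 707617954708957384839123043800609607236526215560397982972651279109381033570364291496611129318623903798907605596947518403524495155418788354431977137544424773870262681600, 6⟩
def a6c906 : Cert := (move 429 (branch (move 524 (branch (move 556 (leaf 428 5)) (move 397 (branch (move 492 (leaf 396 5)) (move 398 (branch (move 430 (leaf 397 6)) (move 366 (leaf 365 6)))))))) (branch (move 524 (branch (move 556 (leaf 428 5)) (move 397 (branch (move 492 (leaf 396 5)) (move 396 (branch (move 428 (leaf 396 7)) (move 364 (leaf 364 7)))))))) (move 430 (branch (move 398 (leaf 397 6)) (move 428 (branch (move 396 (leaf 396 7)) (move 462 (branch (move 557 (leaf 429 6)) (move 463 (branch (move 464 (leaf 428 3)) (move 427 (leaf 427 0)))))))))))))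
theorem a6p906 : a6e906.Valid :=
  pos_of_chk [] forall_nil a6c906 a6e906 (by decide +kernel)

def a6e907 : Pos := ⟨329510287718235971480321261636763543979985589156646648415355893430031677426009127250462919435467674903022757036194840894116930503007362111812033534923276025856, 1139698490902072217787775437433102539458568695115525530263261277969562890581936271490693691809438424170026274146408175287755603205575743964632340467209352214005044545081936183296, 12⟩
def a6c907 : Cert := (move 427 (branch (move 492 (branch (move 490 (leaf 490 0)) (move 524 (branch (move 556 (leaf 428 5)) (move 459 (branch (move 395 (leaf 395 4)) (move 458 (branch (move 494 (leaf 458 3)) (move 457 (branch (move 456 (leaf 456 0)) (move 426 (leaf 425 1)))))))))))) (branch (move 430 (branch (move 398 (leaf 397 6)) (move 394 (branch (move 395 (leaf 394 3)) (move 426 (branch (move 393 (leaf 393 3)) (move 458 (branch (move 457 (leaf 425 1)) (move 459 (leaf 426 1)))))))))) (branch (move 430 (branch (move 398 (leaf 397 6)) (move 524 (branch (move 556 (leaf 428 5)) (move 492 (branch (move 490 (leaf 490 0)) (move 395 (branch (move 394 (leaf 394 3)) (move 459 (leaf 395 4))))))))))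 (branch (move 430 (branch (move 398 (leaf 397 6)) (move 458 (branch (move 459 (leaf 426 1)) (move 490 (branch (move 492 (leaf 490 0)) (move 426 (branch (move 457 (leaf 425 1)) (move 393 (branch (move 394 (leaf 393 3)) (move 425 (branch (move 392 (leaf 392 3)) (move 522 (leaf 393 7)))))))))))))) (move 490 (branch (move 492 (leaf 490 0)) (move 426 (branch (move 430 (branch (move 398 (leaf 397 6)) (move 394 (branch (move 393 (leaf 393 3)) (move 395 (leaf 394 3)))))) (branch (move 458 (branch (move 457 (leaf 425 1)) (move 522 (branch (move 395 (leaf 394 6)) (move 430 (branch (move 398 (leaf 397 6)) (move 425 (branch (move 393 (leaf 393 7)) (move 556 (branch (move 524 (leaf 428 5)) (move 557 (branch (move 588 (leaf 460 5)) (move 554 (branch (move 555 (leaf 522 2)) (move 553 (branch (move 585 (leaf 457 5)) (move 521 (leaf 425 5)))))))))))))))))) (branch (move 458 (branch (move 457 (leaf 425 1)) (move 395 (branch (move 522 (leaf 394 6)) (move 394 (branch (move 430 (leaf 394 3)) (move 363 (leaf 362 6)))))))) (move 458 (branch (move 457 (leaf 425 1)) (move 393 (branch (move 394 (leaf 393 3)) (move 425 (branch (move 392 (leaf 392 3)) (move 522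 (leaf 393 7)))))))))))))))))))
theorem a6p907 : a6e907.Valid :=
  pos_of_chk [] forall_nil a6c907 a6e907 (by decide +kernel)

def a6e908 : Pos := ⟨329510287718235971474366998805254430062014917377744304631823550625703840069651297107397262701781753134280380731467708960465059242435786173959465399509934145536, 74751027109579623529519738532554408430454102222667425896889942790594816919561550094712792781461613461634848581728221865590000328432940525567121242256460341447152207804461390962801725562065034149888, 15⟩
def a6c908 : Cert := (move 461 (branch (ref 0) (branch (ref 1) (branch (move 492 (branch (move 490 (leaf 490 0)) (move 557 (branch (move 462 (branch (move 430 (leaf 429 6)) (move 463 (branch (move 494 (leaf 459 2)) (move 464 (leaf 460 1)))))) (move 588 (branch (move 556 (leaf 460 5)) (move 589 (branch (move 620 (leaf 492 5)) (move 621 (branch (move 524 (leaf 492 7)) (move 622 (branch (move 654 (leaf 525 4)) (move 590 (leaf 493 4)))))))))))))) (branch (move 429 (branch (move 524 (branch (move 556 (leaf 428 5)) (move 397 (branch (move 492 (leaf 396 5)) (move 398 (branch (move 430 (leaf 397 6)) (move 366 (leaf 365 6)))))))) (branch (move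 396 (branch (move 428 (leaf 396 7)) (move 397 (branch (move 364 (leaf 364 7)) (move 398 (branch (move 430 (leaf 397 6)) (move 366 (leaf 365 6)))))))) (branch (move 524 (branch (move 556 (leaf 428 5)) (move 397 (branch (move 492 (leaf 396 5)) (move 396 (branch (move 428 (leaf 396 7)) (move 364 (leaf 364 7)))))))) (move 462 (branch (move 428 (branch (move 396 (leaf 396 7)) (move 430 (branch (move 398 (leaf 397 6)) (move 427 (branch (move 426 (leaf 426 0)) (move 463 (leaf 427 0)))))))) (branch (move 492 (branch (move 490 (leaf 490 0)) (move 463 (branch (move 494 (leaf 459 2)) (move 464 (leaf 460 1)))))) (move 492 (branch (move 490 (leaf 490 0)) (move 430 (branch (move 398 (leaf 397 6)) (move 428 (branch (move 396 (leaf 396 7)) (move 427 (branch (move 426 (leaf 426 0)) (move 459 (branch (move 458 (leaf 426 1)) (move 524 (branch (move 395 (leaf 395 4)) (move 556 (leaf 428 5))))))))))))))))))))) (branch (move 429 (branch (move 524 (branch (move 556 (leaf 428 5)) (move 397 (branch (move 492 (leaf 396 5)) (move 396 (branch (move 428 (leaf 396 7)) (move 364 (leaf 364 7)))))))) (branch (move 397 (branch (move 494 (leaf 397 4)) (move 396 (branch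 (move 428 (leaf 396 7)) (move 364 (leaf 364 7)))))) (branch (move 397 (branch (move 494 (leaf 397 4)) (move 524 (branch (move 556 (leaf 428 5)) (move 492 (leaf 396 5)))))) (move 492 (branch (move 490 (leaf 490 0)) (move 427 (branch (move 428 (branch (move 396 (leaf 396 7)) (move 462 (branch (move 426 (leaf 426 0)) (move 463 (branch (move 494 (leaf 459 2)) (move 464 (leaf 460 1)))))))) (branch (move 524 (branch (move 556 (leaf 428 5)) (move 459 (branch (move 395 (leaf 395 4)) (move 494 (branch (move 458 (leaf 458 3)) (move 495 (branch (move 496 (leaf 492 1)) (move 463 (branch (move 462 (leaf 459 2)) (move 464 (leaf 460 2)))))))))))) (branch (move 524 (branch (move 556 (leaf 428 5)) (move 459 (branch (move 395 (leaf 395 4)) (move 458 (branch (move 494 (leaf 458 3)) (move 457 (branch (move 456 (leaf 456 0)) (move 428 (branch (move 426 (leaf 425 1)) (move 396 (leaf 396 7)))))))))))) (move 556 (branch (move 524 (leaf 428 5)) (move 428 (branch (move 396 (leaf 396 7)) (move 426 (branch (move 462 (leaf 426 0)) (move 557 (branch (move 588 (leaf 460 5)) (move 457 (branch (move 458 (leaf 425 1)) (move 425 (branch (move 456 (leaf 424 1)) (move 393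 (branch (move 392 (leaf 392 3)) (move 394 (leaf 393 3)))))))))))))))))))))))))) (move 429 (branch (move 524 (branch (move 556 (leaf 428 5)) (move 397 (branch (move 492 (leaf 396 5)) (move 398 (branch (move 430 (leaf 397 6)) (move 366 (leaf 365 6)))))))) (branch (move 396 (branch (move 428 (leaf 396 7)) (move 397 (branch (move 364 (leaf 364 7)) (move 398 (branch (move 430 (leaf 397 6)) (move 366 (leaf 365 6)))))))) (branch (move 524 (branch (move 556 (leaf 428 5)) (move 397 (branch (move 492 (leaf 396 5)) (move 396 (branch (move 428 (leaf 396 7)) (move 364 (leaf 364 7)))))))) (move 428 (branch (move 396 (leaf 396 7)) (ref 2)))))))))))))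
theorem a6p908 : a6e908.Valid :=
  pos_of_chk [a6e906, a6e897, a6e907] (forall_cons a6p906 (forall_cons a6p897 (forall_cons a6p907 forall_nil))) a6c908 a6e908 (by decide +kernel)

def a6e909 : Pos := ⟨356969478358758410334294602001580002931092658578317526269401404462446012803241921315887501264427571354189565977033632392613547194434652749209761512674394374144, 4671939200059522170682597169223025286256042365657356359074514020507284032273671921144052590788591513790298772891541811129666800771111046851634069978702176946174788321304926366249122299897205227520, 8⟩
def a6c909 : Cert := (move 524 (branch (move 494 (branch (move 522 (leaf 490 2)) (move 495 (leaf 491 2)))) (move 459 (branch (move 555 (branch (move 554 (leaf 522 1)) (move 556 (branch (move 588 (leaf 459 4)) (move 427 (leaf 427 4)))))) (branch (move 427 (branch (move 556 (leaf 427 4)) (move 395 (branch (move 492 (leaf 395 4)) (move 396 (branch (move 428 (leaf 395 6)) (move 364 (leaf 363 6)))))))) (branch (move 555 (branch (move 554 (leaf 522 1)) (move 426 (branch (move 458 (leaf 426 7)) (move 427 (branch (move 394 (leaf 394 7)) (move 396 (branch (move 428 (leaf 395 6)) (move 395 (branch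 (move 364 (leaf 363 6)) (move 492 (leaf 395 4)))))))))))) (move 555 (branch (move 554 (leaf 522 1)) (move 588 (branch (move 556 (leaf 459 4)) (move 587 (branch (move 620 (leaf 491 4)) (move 619 (branch (move 492 (leaf 491 6)) (move 618 (branch (move 650 (leaf 522 5)) (move 586 (leaf 490 5))))))))))))))))))
theorem a6p909 : a6e909.Valid :=
  pos_of_chk [] forall_nil a6c909 a6e909 (by decide +kernel)

def a6e910 : Pos := ⟨356969478358758410334294602001580002931092658578317526269401404462446012803241921315887501264427571354189565977033632392613547194434652749209761512674394374144, 344728266584334988486416409671331168534587227519973810064995385431109718100185957399340995703427296979814462789787120441846754702612891283470407801298732531481782354708560294744536478869478635624627065674033891639296, 10⟩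
def a6c910 : Cert := (move 555 (branch (move 490 (branch (move 492 (leaf 490 0)) (move 587 (branch (move 458 (leaf 458 7)) (move 619 (branch (move 522 (leaf 490 7)) (move 620 (branch (move 652 (leaf 523 4)) (move 588 (leaf 491 4)))))))))) (branch (move 588 (branch (move 459 (branch (move 556 (leaf 459 4)) (move 554 (branch (move 586 (leaf 458 5)) (move 427 (branch (move 522 (leaf 426 5)) (move 426 (branch (move 458 (leaf 426 7)) (move 394 (leaf 394 7)))))))))) (branch (move 587 (branch (move 620 (leaf 491 4)) (move 586 (branch (move 618 (leaf 490 5)) (move 554 (branch (move 459 (leaf 458 5)) (move 553 (branch (move 589 (leaf 553 3)) (move 552 (leaf 552 0)))))))))) (branch (move 556 (branch (move 459 (leaf 459 4)) (move 620 (branch (move 652 (leaf 523 7)) (move 587 (leaf 491 4)))))) (move 587 (branch (move 620 (leaf 491 4)) (move 554 (branch (move 553 (branch (move 552 (leaf 552 0)) (move 589 (branch (move 590 (leaf 554 3)) (move 556 (leaf 553 0)))))) (branch (move 618 (branch (move 586 (leaf 490 5)) (move 619 (branch (move 650 (leaf 522 5)) (move 651 (branch (move 522 (leaf 522 7)) (move 683 (branch (move 556 (leaf 555 6)) (move 684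 (branch (move 716 (leaf 587 4)) (move 652 (leaf 555 4)))))))))))) (move 586 (branch (move 618 (leaf 490 5)) (move 553 (branch (move 589 (leaf 553 3)) (move 552 (leaf 552 0))))))))))))))) (branch (move 490 (branch (move 492 (leaf 490 0)) (move 587 (branch (move 458 (leaf 458 7)) (move 588 (branch (move 620 (leaf 491 4)) (move 586 (branch (move 618 (leaf 490 5)) (move 459 (branch (move 556 (leaf 459 4)) (move 554 (leaf 458 5)))))))))))) (branch (move 490 (branch (move 492 (leaf 490 0)) (move 588 (branch (move 459 (branch (move 556 (leaf 459 4)) (move 554 (branch (move 586 (leaf 458 5)) (move 427 (branch (move 522 (leaf 426 5)) (move 396 (branch (move 428 (leaf 395 6)) (move 395 (branch (move 364 (leaf 363 6)) (move 394 (branch (move 426 (leaf 394 7)) (move 362 (leaf 362 7)))))))))))))) (branch (move 587 (branch (move 620 (leaf 491 4)) (move 586 (branch (move 618 (leaf 490 5)) (move 554 (branch (move 459 (leaf 458 5)) (move 553 (branch (move 589 (leaf 553 3)) (move 552 (leaf 552 0)))))))))) (branch (move 587 (branch (move 620 (leaf 491 4)) (move 619 (branch (move 522 (leaf 490 7)) (move 618 (branch (move 650 (leaf 522 5)) (move 586 (leaf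 490 5)))))))) (move 587 (branch (move 620 (leaf 491 4)) (move 619 (branch (move 522 (leaf 490 7)) (move 556 (branch (move 459 (leaf 459 4)) (move 651 (branch (move 683 (leaf 555 6)) (move 650 (branch (move 682 (leaf 554 5)) (move 618 (leaf 522 5)))))))))))))))))) (move 459 (branch (move 554 (branch (move 586 (leaf 458 5)) (move 427 (branch (move 522 (leaf 426 5)) (move 396 (branch (move 428 (leaf 395 6)) (move 395 (branch (move 364 (leaf 363 6)) (move 394 (branch (move 426 (leaf 394 7)) (move 362 (leaf 362 7)))))))))))) (branch (move 492 (branch (move 490 (leaf 490 0)) (move 494 (branch (move 458 (leaf 458 3)) (move 522 (leaf 490 1)))))) (move 458 (branch (move 426 (leaf 426 7)) (move 492 (branch (move 494 (leaf 458 3)) (move 490 (leaf 490 0))))))))))))))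
theorem a6p910 : a6e910.Valid :=
  pos_of_chk [] forall_nil a6c910 a6e910 (by decide +kernel)

def a6e911 : Pos := ⟨356969478358758410334294602001580002931092658578317526269401404462446012803241921315887501264427571354189565977033632392613547194434652749209761512674394374144, 4245707730628964300143196737281051856974892016525555301682672574968866908771163850786379691956473238508759750335162997355642171464059278212893273501746805800008161427456, 8⟩
def a6c911 : Cert := (move 494 (branch (move 495 (branch (move 524 (leaf 491 2)) (move 496 (branch (move 497 (leaf 493 1)) (move 464 (branch (move 465 (leaf 461 2)) (move 463 (branch (move 492 (leaf 460 2)) (move 528 (branch (move 529 (leaf 493 0)) (move 431 (branch (move 560 (leaf 431 7)) (move 399 (leaf 399 4)))))))))))))) (branch (move 524 (branch (move 522 (leaf 490 2)) (move 495 (leaf 491 2)))) (move 492 (branch (move 522 (leaf 490 1)) (move 462 (branch (move 463 (leaf 459 2)) (move 430 (branch (move 557 (leaf 429 5)) (move 398 (leaf 397 5)))))))))))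
theorem a6p911 : a6e911.Valid :=
  pos_of_chk [] forall_nil a6c911 a6e911 (by decide +kernel)

def a6e912 : Pos := ⟨176904489020479229219507917193931097903832640631647685281759680608703593406739776431528066274178736032908353837460494978969076327394708794326460162980939506491330658304, 120394956275418422085160661064939042382326067441736068108461958911659500982464161232058963818730438442097049928146736426139396744906963367625768760685471894584411308850648664210389421841862187672458057744384, 9⟩
def a6c912 : Cert := (move 587 (branch (move 588 (branch (move 620 (leaf 491 4)) (move 589 (branch (move 590 (leaf 554 3)) (move 553 (branch (move 552 (leaf 552 0)) (move 556 (leaf 553 0)))))))) (branch (move 618 (branch (move 586 (leaf 490 5)) (move 619 (branch (move 650 (leaf 522 5)) (move 651 (branch (move 522 (leaf 522 7)) (move 652 (branch (move 684 (leaf 555 4)) (move 620 (leaf 523 4)))))))))) (move 618 (branch (move 586 (leaf 490 5)) (move 619 (branch (move 650 (leaf 522 5)) (move 651 (branch (move 522 (leaf 522 7)) (move 652 (branch (move 684 (leaf 555 4)) (move 556 (branch (move 557 (leaf 522 2)) (move 588 (branch (move 683 (leaf 555 6))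 (move 589 (branch (move 590 (leaf 586 1)) (move 553 (leaf 553 0)))))))))))))))))))
theorem a6p912 : a6e912.Valid :=
  pos_of_chk [] forall_nil a6c912 a6e912 (by decide +kernel)

def a6e913 : Pos := ⟨356969478358758410334294602001580002931092658578317526269401404462446012803241921315887501264427571354189565977033632392613547194434652749209761512674394374144, 140460782315870896707714884266236662214544585079452095780829032348801679874856055305768955207871275949261994420037961125571683475213020873901472028579520308841527460183616806505328570028225111528685166395392, 13⟩
def a6c913 : Cert := (move 555 (branch (move 459 (branch (move 458 (branch (move 426 (leaf 426 7)) (move 587 (branch (move 490 (leaf 458 7)) (move 588 (branch (move 620 (leaf 491 4)) (move 556 (leaf 459 4)))))))) (branch (move 458 (branch (move 426 (leaf 426 7)) (move 587 (branch (move 490 (leaf 458 7)) (move 586 (branch (move 618 (leaf 490 5)) (move 554 (leaf 458 5)))))))) (move 554 (branch (move 586 (leaf 458 5)) (move 556 (branch (move 557 (leaf 522 2)) (move 588 (leaf 459 4))))))))) (branch (ref 0) (branch (move 587 (branch (move 490 (branch (move 458 (leaf 458 7)) (move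 619 (branch (move 522 (leaf 490 7)) (move 618 (branch (move 650 (leaf 522 5)) (move 586 (leaf 490 5)))))))) (branch (move 620 (branch (move 588 (leaf 491 4)) (move 619 (branch (move 652 (leaf 523 4)) (move 490 (branch (move 522 (leaf 490 7)) (move 458 (leaf 458 7)))))))) (move 588 (branch (move 620 (leaf 491 4)) (move 556 (branch (move 459 (leaf 459 4)) (move 586 (branch (move 618 (leaf 490 5)) (move 585 (branch (move 584 (leaf 552 2)) (move 557 (leaf 553 2))))))))))))) (branch (move 587 (branch (move 490 (branch (move 458 (leaf 458 7)) (move 619 (branch (move 522 (leaf 490 7)) (move 618 (branch (move 650 (leaf 522 5)) (move 586 (leaf 490 5)))))))) (branch (move 620 (branch (move 588 (leaf 491 4)) (move 619 (branch (move 652 (leaf 523 4)) (move 490 (branch (move 522 (leaf 490 7)) (move 458 (leaf 458 7)))))))) (move 586 (branch (move 618 (leaf 490 5)) (move 554 (branch (move 459 (leaf 458 5)) (move 588 (branch (move 620 (leaf 491 4)) (move 553 (branch (move 589 (leaf 553 3)) (move 552 (leaf 552 0))))))))))))) (branch (move 587 (branch (move 490 (branch (move 458 (leaf 458 7)) (move 619 (branch (move 522 (leaf 490 7)) (move 652 (branch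 (move 620 (leaf 523 4)) (move 651 (branch (move 684 (leaf 555 4)) (move 650 (branch (move 682 (leaf 554 5)) (move 618 (leaf 522 5)))))))))))) (branch (move 458 (branch (move 490 (leaf 458 7)) (move 459 (branch (move 426 (leaf 426 7)) (move 554 (branch (move 586 (leaf 458 5)) (move 427 (branch (move 522 (leaf 426 5)) (move 428 (branch (move 396 (leaf 395 6)) (move 430 (branch (move 429 (leaf 426 1)) (move 557 (branch (move 556 (leaf 522 2)) (move 462 (branch (move 461 (leaf 429 6)) (move 494 (leaf 429 5)))))))))))))))))) (branch (move 586 (branch (move 618 (leaf 490 5)) (move 459 (branch (move 554 (leaf 458 5)) (move 458 (branch (move 490 (leaf 458 7)) (move 426 (leaf 426 7)))))))) (move 619 (branch (move 652 (branch (move 620 (leaf 523 4)) (move 651 (branch (move 684 (leaf 555 4)) (move 554 (branch (move 522 (leaf 522 7)) (move 586 (branch (move 683 (leaf 554 7)) (move 459 (leaf 458 5)))))))))) (branch (move 652 (branch (move 620 (leaf 523 4)) (move 651 (branch (move 684 (leaf 555 4)) (move 650 (branch (move 682 (leaf 554 5)) (move 618 (leaf 522 5)))))))) (move 618 (branch (move 650 (leaf 522 5)) (move 586 (leaf 490 5))))))))))) (branch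 (move 459 (branch (move 458 (branch (move 426 (leaf 426 7)) (move 587 (branch (move 490 (leaf 458 7)) (move 588 (branch (move 620 (leaf 491 4)) (move 556 (leaf 459 4)))))))) (branch (move 588 (branch (move 556 (leaf 459 4)) (move 587 (branch (move 620 (leaf 491 4)) (move 490 (branch (move 458 (leaf 458 7)) (move 522 (branch (move 619 (leaf 490 7)) (move 427 (branch (move 554 (leaf 426 5)) (move 395 (leaf 394 5)))))))))))) (branch (move 426 (branch (move 458 (leaf 426 7)) (move 427 (branch (move 394 (leaf 394 7)) (move 396 (branch (move 428 (leaf 395 6)) (move 395 (branch (move 364 (leaf 363 6)) (move 522 (branch (move 554 (leaf 426 5)) (move 490 (leaf 394 5)))))))))))) (move 556 (branch (move 588 (leaf 459 4)) (move 554 (branch (move 557 (leaf 522 2)) (move 427 (branch (move 522 (leaf 426 5)) (move 396 (branch (move 428 (leaf 395 6)) (move 395 (branch (move 364 (leaf 363 6)) (move 394 (branch (move 426 (leaf 394 7)) (move 362 (leaf 362 7)))))))))))))))))) (branch (move 554 (branch (move 556 (branch (move 557 (leaf 522 2)) (move 588 (branch (move 459 (leaf 459 4)) (move 620 (branch (move 652 (leaf 523 7)) (move 587 (leaf 491 4))))))))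 (branch (move 586 (branch (move 459 (leaf 458 5)) (move 618 (branch (move 650 (leaf 522 6)) (move 522 (leaf 490 6)))))) (ref 1)))) (branch (move 556 (branch (move 459 (branch (move 588 (leaf 459 4)) (move 554 (branch (move 586 (leaf 458 5)) (move 427 (branch (move 522 (leaf 426 5)) (move 426 (branch (move 458 (leaf 426 7)) (move 394 (leaf 394 7)))))))))) (branch (move 588 (branch (move 459 (leaf 459 4)) (move 557 (branch (move 461 (leaf 460 5)) (move 620 (branch (move 652 (leaf 524 6)) (move 589 (leaf 492 5)))))))) (branch (move 554 (branch (move 557 (leaf 522 2)) (move 586 (branch (move 459 (leaf 458 5)) (move 618 (branch (move 650 (leaf 522 6)) (move 522 (leaf 490 6)))))))) (move 557 (branch (move 554 (leaf 522 2)) (move 588 (branch (move 461 (leaf 460 5)) (move 620 (branch (move 652 (leaf 524 6)) (move 589 (leaf 492 5)))))))))))) (move 459 (branch (move 554 (branch (move 586 (leaf 458 5)) (move 556 (branch (move 557 (leaf 522 2)) (move 588 (leaf 459 4)))))) (move 427 (branch (move 396 (branch (move 428 (leaf 395 6)) (move 395 (branch (move 364 (leaf 363 6)) (move 490 (branch (move 522 (leaf 394 5)) (move 458 (branch (move 587 (leaf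 458 7)) (move 363 (leaf 362 5)))))))))) (branch (move 396 (branch (move 428 (leaf 395 6)) (move 395 (branch (move 364 (leaf 363 6)) (move 394 (branch (move 426 (leaf 394 7)) (move 362 (leaf 362 7)))))))) (move 426 (branch (move 458 (leaf 426 7)) (move 394 (leaf 394 7))))))))))))))))))
theorem a6p913 : a6e913.Valid :=
  pos_of_chk [a6e878, a6e912] (forall_cons a6p878 (forall_cons a6p912 forall_nil)) a6c913 a6e913 (by decide +kernel)

def a6e914 : Pos := ⟨356969478409905138594580344379395315238784016600139624529674351851623459529395947308086135280928578122558132607410539090254206457950737442002251692215875141632, 23359696091670342056967565841890101955340433502928116831354663197003610649499358158868482992851164339147709032144340279789077361055372802099715205929584641502224954392246885837053097132931434938368, 14⟩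
def a6c914 : Cert := (move 555 (branch (move 557 (branch (move 589 (leaf 461 6)) (move 556 (branch (move 554 (leaf 522 2)) (move 588 (branch (move 459 (leaf 459 4)) (move 620 (branch (move 652 (leaf 524 6)) (move 587 (leaf 491 4)))))))))) (branch (move 492 (branch (move 463 (leaf 459 2)) (move 459 (branch (move 458 (leaf 458 3)) (move 588 (branch (move 556 (leaf 459 4)) (move 587 (branch (move 620 (leaf 491 4)) (move 586 (branch (move 618 (leaf 490 5)) (move 554 (leaf 458 5)))))))))))) (branch (move 557 (branch (move 589 (leaf 461 6)) (move 463 (branch (move 492 (leaf 459 2)) (move 464 (branch (move 465 (leaf 461 1)) (move 556 (branch (move 554 (leaf 522 2)) (move 461 (branch (move 588 (leaf 460 5)) (move 429 (branch (move 428 (leaf 428 3)) (move 397 (leaf 397 4)))))))))))))) (branch (move 463 (branch (move 492 (leaf 459 2)) (move 557 (branch (move 589 (leaf 461 6)) (move 464 (branch (move 465 (leaf 461 1)) (move 554 (branch (move 556 (leaf 522 2)) (move 586 (branch (move 459 (leaf 458 5)) (move 618 (branch (move 650 (leaf 522 6)) (move 587 (leaf 490 5)))))))))))))) (branch (move 589 (branch (move 557 (leaf 461 6)) (move 492 (branch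 (move 463 (leaf 459 2)) (move 459 (branch (move 458 (leaf 458 3)) (move 588 (branch (move 556 (leaf 459 4)) (move 587 (branch (move 620 (leaf 491 4)) (move 618 (branch (move 586 (leaf 490 5)) (move 619 (branch (move 590 (leaf 586 1)) (move 650 (leaf 522 5)))))))))))))))) (move 587 (branch (move 618 (branch (move 586 (leaf 490 5)) (move 619 (branch (move 650 (leaf 522 5)) (move 620 (branch (move 652 (leaf 523 4)) (move 588 (leaf 491 4)))))))) (branch (move 463 (branch (move 492 (leaf 459 2)) (move 464 (branch (move 465 (leaf 461 1)) (move 589 (branch (move 557 (leaf 461 6)) (move 588 (branch (move 620 (leaf 491 4)) (move 590 (branch (move 554 (leaf 554 3)) (move 623 (branch (move 622 (leaf 587 0)) (move 591 (branch (move 624 (leaf 588 0)) (move 560 (branch (move 559 (leaf 556 2)) (move 592 (branch (move 561 (leaf 557 2)) (move 496 (branch (move 528 (leaf 495 5)) (move 497 (branch (move 461 (leaf 461 0)) (move 495 (leaf 493 1)))))))))))))))))))))))) (move 586 (branch (move 618 (leaf 490 5)) (move 459 (branch (move 554 (leaf 458 5)) (move 492 (branch (move 463 (leaf 459 2)) (move 458 (leaf 458 3)))))))))))))))))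
theorem a6p914 : a6e914.Valid :=
  pos_of_chk [] forall_nil a6c914 a6e914 (by decide +kernel)

def a6e915 : Pos := ⟨356969478409905138584160384427893494855868910490257191525180549304810067817200503812632490446534905493753857704378024614375114948203305515147099643268055433216, 5438853048216559408753373675457816899925284616034644436528890732681668523935643866087882698885363070943180959690891331930167081797695321129000415206956163956174984734913099268609215037440, 8⟩
def a6c915 : Cert := (move 429 (branch (move 555 (branch (move 586 (branch (move 554 (leaf 458 5)) (move 587 (branch (move 618 (leaf 490 5)) (move 588 (branch (move 620 (leaf 491 4)) (move 556 (leaf 459 4)))))))) (move 426 (branch (move 458 (leaf 426 7)) (move 427 (branch (move 394 (leaf 394 7)) (move 428 (branch (move 396 (leaf 395 6)) (move 398 (branch (move 397 (leaf 394 2)) (move 430 (branch (move 399 (leaf 395 2)) (move 462 (leaf 397 5)))))))))))))) (branch (move 555 (branch (move 586 (branch (move 554 (leaf 458 5)) (move 587 (branch (move 618 (leaf 490 5)) (move 588 (branch (move 620 (leaf 491 4)) (move 556 (leaf 459 4)))))))) (move 426 (branch (move 458 (leaf 426 7))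 (move 427 (branch (move 394 (leaf 394 7)) (move 428 (branch (move 396 (leaf 395 6)) (move 462 (branch (move 461 (leaf 426 0)) (move 430 (branch (move 463 (leaf 427 0)) (move 398 (leaf 397 5)))))))))))))) (branch (move 555 (branch (move 586 (branch (move 554 (leaf 458 5)) (move 587 (branch (move 618 (leaf 490 5)) (move 588 (branch (move 620 (leaf 491 4)) (move 556 (leaf 459 4)))))))) (move 461 (branch (move 397 (leaf 397 4)) (move 428 (branch (move 396 (leaf 396 7)) (move 426 (branch (move 458 (leaf 426 7)) (move 427 (branch (move 462 (leaf 426 0)) (move 394 (leaf 394 7)))))))))))) (branch (move 461 (branch (move 397 (leaf 397 4)) (move 428 (branch (move 396 (leaf 396 7)) (move 430 (branch (move 398 (leaf 397 6)) (move 427 (branch (move 458 (leaf 426 1)) (move 394 (branch (move 395 (leaf 394 3)) (move 426 (leaf 394 7)))))))))))) (move 430 (branch (move 461 (branch (move 398 (leaf 397 6)) (move 397 (leaf 397 4)))) (branch (move 398 (branch (move 461 (leaf 397 6)) (move 462 (leaf 397 5)))) (branch (move 397 (branch (move 462 (leaf 397 7)) (move 461 (leaf 397 4)))) (move 462 (branch (move 397 (leaf 397 7)) (move 398 (leaf 397 5)))))))))))))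
theorem a6p915 : a6e915.Valid :=
  pos_of_chk [] forall_nil a6c915 a6e915 (by decide +kernel)

def a6e916 : Pos := ⟨471745303432202956793183681315230674799302744212149904941429296908789482806368875388028444074221078522086835970119785445366307724525161114597281536097004709595706294272, 102293456587370870883951529426359066242875434958716423285786364456419233383111479927077510883955077413371620851383192470445328793989199213556758740992, 9⟩
def a6c916 : Cert := (move 429 (branch (move 461 (branch (move 397 (leaf 397 4)) (move 428 (branch (move 396 (leaf 396 7)) (move 426 (branch (move 462 (leaf 426 0)) (move 393 (branch (move 394 (leaf 393 3)) (move 425 (branch (move 392 (leaf 392 3)) (move 457 (branch (move 456 (leaf 424 1)) (move 458 (leaf 425 1)))))))))))))) (branch (move 430 (branch (move 462 (leaf 429 5)) (move 428 (branch (move 395 (branch (move 394 (leaf 394 3)) (move 431 (branch (move 396 (leaf 395 3)) (move 399 (branch (move 400 (leaf 396 2)) (move 463 (branch (move 464 (leaf 428 0)) (move 495 (leaf 398 5)))))))))) (branch (move 394 (branch (move 395 (leaf 394 3)) (move 426 (branch (move 393 (leaf 393 3)) (move 457 (branch (move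 458 (leaf 425 1)) (move 425 (branch (move 456 (leaf 424 1)) (move 397 (branch (move 396 (leaf 393 2)) (move 398 (leaf 394 2)))))))))))) (move 399 (branch (move 398 (leaf 395 2)) (move 431 (branch (move 400 (leaf 396 2)) (move 463 (branch (move 464 (leaf 428 0)) (move 495 (leaf 398 5))))))))))))) (branch (move 430 (branch (move 462 (leaf 429 5)) (move 428 (branch (move 395 (branch (move 394 (leaf 394 3)) (move 431 (branch (move 396 (leaf 395 3)) (move 399 (branch (move 400 (leaf 396 2)) (move 463 (branch (move 464 (leaf 428 0)) (move 495 (leaf 398 5)))))))))) (branch (move 399 (branch (move 398 (leaf 395 2)) (move 431 (branch (move 400 (leaf 396 2)) (move 463 (branch (move 464 (leaf 428 0)) (move 495 (leaf 398 5)))))))) (move 461 (branch (move 398 (leaf 397 6)) (move 396 (leaf 396 7))))))))) (branch (move 430 (branch (move 462 (leaf 429 5)) (move 461 (branch (move 398 (leaf 397 6)) (move 397 (leaf 397 4)))))) (move 428 (branch (move 430 (branch (move 395 (branch (move 394 (leaf 394 3)) (move 431 (branch (move 396 (leaf 395 3)) (move 399 (branch (move 400 (leaf 396 2)) (move 463 (branch (move 464 (leaf 428 0)) (move 495 (leaf 398 5))))))))))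 (branch (move 394 (branch (move 395 (leaf 394 3)) (move 426 (branch (move 393 (leaf 393 3)) (move 457 (branch (move 458 (leaf 425 1)) (move 425 (branch (move 456 (leaf 424 1)) (move 397 (branch (move 396 (leaf 393 2)) (move 398 (leaf 394 2)))))))))))) (move 399 (branch (move 398 (leaf 395 2)) (move 431 (branch (move 400 (leaf 396 2)) (move 463 (branch (move 464 (leaf 428 0)) (move 495 (leaf 398 5))))))))))) (branch (move 430 (branch (move 395 (branch (move 394 (leaf 394 3)) (move 431 (branch (move 396 (leaf 395 3)) (move 399 (branch (move 400 (leaf 396 2)) (move 463 (branch (move 464 (leaf 428 0)) (move 495 (leaf 398 5)))))))))) (branch (move 399 (branch (move 398 (leaf 395 2)) (move 431 (branch (move 400 (leaf 396 2)) (move 463 (branch (move 464 (leaf 428 0)) (move 495 (leaf 398 5)))))))) (move 461 (branch (move 398 (leaf 397 6)) (move 396 (leaf 396 7))))))) (branch (move 397 (branch (move 461 (leaf 397 4)) (move 426 (branch (move 398 (leaf 394 2)) (move 393 (branch (move 394 (leaf 393 3)) (move 425 (branch (move 392 (leaf 392 3)) (move 457 (branch (move 456 (leaf 424 1)) (move 458 (leaf 425 1)))))))))))) (move 461 (branch (move 396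 (leaf 396 7)) (move 397 (leaf 397 4)))))))))))))
theorem a6p916 : a6e916.Valid :=
  pos_of_chk [] forall_nil a6c916 a6e916 (by decide +kernel)

def a6e917 : Pos := ⟨356969478409905138582671818720536091944023895331702558238824291798122440429744011884710541184478666546781818432516236832106673303953672382739220779132652617728, 13053247314757330522689809764978156894919792885945153823283342866868736569109362955022954342983566408844287140290886509578783147738243572108753792030511108449506296987034316381290365976576, 11⟩
def a6c917 : Cert := (move 557 (branch (move 589 (branch (move 621 (leaf 493 6)) (move 588 (branch (move 620 (leaf 492 5)) (move 556 (branch (move 461 (leaf 460 5)) (move 555 (branch (move 554 (leaf 522 2)) (move 459 (leaf 459 4)))))))))) (branch (move 462 (branch (move 589 (leaf 461 6)) (move 430 (leaf 429 5)))) (move 427 (branch (move 459 (branch (move 554 (branch (move 522 (leaf 426 5)) (move 555 (branch (move 556 (leaf 522 2)) (move 586 (leaf 458 5)))))) (move 396 (branch (move 428 (leaf 395 6)) (move 395 (branch (move 364 (leaf 363 6)) (move 394 (branch (move 426 (leaf 394 7)) (move 362 (leaf 362 7)))))))))) (branch (move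 459 (branch (move 554 (branch (move 522 (leaf 426 5)) (move 555 (branch (move 556 (leaf 522 2)) (move 586 (leaf 458 5)))))) (move 430 (branch (move 462 (leaf 429 5)) (move 428 (branch (move 396 (leaf 395 6)) (move 429 (branch (move 458 (leaf 426 1)) (move 398 (branch (move 399 (leaf 395 2)) (move 461 (leaf 397 6)))))))))))) (branch (move 430 (branch (move 462 (leaf 429 5)) (move 459 (branch (move 394 (branch (move 426 (leaf 394 7)) (move 395 (branch (move 362 (leaf 362 7)) (move 396 (branch (move 364 (leaf 363 6)) (move 397 (branch (move 429 (leaf 394 0)) (move 398 (branch (move 431 (leaf 395 0)) (move 366 (branch (move 365 (leaf 362 2)) (move 367 (leaf 363 2)))))))))))))) (move 554 (branch (move 522 (leaf 426 5)) (move 555 (branch (move 556 (leaf 522 2)) (move 586 (leaf 458 5)))))))))) (branch (move 459 (branch (move 554 (branch (move 522 (leaf 426 5)) (move 555 (branch (move 556 (leaf 522 2)) (move 586 (leaf 458 5)))))) (move 430 (branch (move 462 (leaf 429 5)) (move 394 (branch (move 426 (leaf 394 7)) (move 395 (branch (move 362 (leaf 362 7)) (move 429 (branch (move 428 (leaf 394 3)) (move 461 (branch (move 398 (leaf 397 6)) (move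 397 (leaf 397 4)))))))))))))) (ref 0)))))))))
theorem a6p917 : a6e917.Valid :=
  pos_of_chk [a6e916] (forall_cons a6p916 forall_nil) a6c917 a6e917 (by decide +kernel)

def a6e918 : Pos := ⟨329510287718235971474366998805254430062014917377744304631823550625703840069651297107397262701781753134280380731467708960465059242435786173959465399509934145536, 344728266584334988486416409802679469630705981505938241381931310747889187188166732941600979098319299149917758299121227909525306481035931616433046820367735157784663118264420820571216092236650784719506368062882140127232, 17⟩
def a6c918 : Cert := (move 523 (branch (ref 0) (branch (move 492 (branch (move 490 (leaf 490 0)) (move 494 (branch (move 522 (leaf 490 1)) (move 462 (branch (move 463 (leaf 459 2)) (move 430 (branch (move 557 (leaf 429 5)) (move 398 (leaf 397 5)))))))))) (branch (ref 1) (branch (move 490 (branch (move 492 (leaf 490 0)) (ref 2))) (branch (move 555 (branch (move 490 (branch (move 492 (leaf 490 0)) (move 587 (branch (move 458 (leaf 458 7)) (move 620 (branch (move 588 (leaf 491 4)) (move 619 (branch (move 652 (leaf 523 4)) (move 618 (branch (move 650 (leaf 522 5)) (move 586 (leaf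 490 5)))))))))))) (branch (move 459 (branch (move 554 (branch (move 586 (leaf 458 5)) (move 556 (branch (move 557 (leaf 522 2)) (move 588 (leaf 459 4)))))) (move 458 (branch (move 426 (leaf 426 7)) (move 492 (branch (move 494 (leaf 458 3)) (move 490 (leaf 490 0)))))))) (branch (move 490 (branch (move 492 (leaf 490 0)) (move 458 (branch (move 587 (leaf 458 7)) (move 426 (branch (move 459 (leaf 426 7)) (move 394 (leaf 394 4)))))))) (move 588 (branch (move 587 (branch (move 620 (leaf 491 4)) (move 586 (branch (move 618 (leaf 490 5)) (move 554 (branch (move 459 (leaf 458 5)) (move 553 (branch (move 589 (leaf 553 3)) (move 552 (leaf 552 0)))))))))) (branch (move 556 (branch (move 459 (leaf 459 4)) (move 620 (branch (move 652 (leaf 523 7)) (move 587 (leaf 491 4)))))) (branch (move 620 (branch (move 587 (leaf 491 4)) (move 556 (branch (move 652 (leaf 523 7)) (move 557 (branch (move 554 (leaf 522 2)) (move 589 (leaf 492 5)))))))) (move 556 (branch (move 459 (leaf 459 4)) (move 557 (branch (move 554 (leaf 522 2)) (move 461 (leaf 460 5)))))))))))))) (move 494 (branch (ref 3) (branch (move 492 (branch (move 522 (leaf 490 1)) (move 462 (branch (move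 463 (leaf 459 2)) (move 430 (branch (move 557 (leaf 429 5)) (move 398 (leaf 397 5)))))))) (branch (move 462 (branch (move 430 (branch (move 398 (leaf 397 5)) (move 463 (branch (move 492 (leaf 459 2)) (move 429 (branch (move 397 (leaf 397 7)) (move 464 (branch (move 465 (leaf 461 1)) (move 428 (branch (move 461 (leaf 428 3)) (move 427 (leaf 427 0)))))))))))) (branch (move 557 (branch (move 589 (leaf 461 6)) (move 430 (leaf 429 5)))) (ref 4)))) (branch (move 459 (branch (move 522 (branch (move 492 (leaf 490 1)) (move 427 (branch (move 554 (leaf 426 5)) (move 396 (branch (move 428 (leaf 395 6)) (move 395 (branch (move 364 (leaf 363 6)) (move 394 (branch (move 426 (leaf 394 7)) (move 362 (leaf 362 7)))))))))))) (branch (move 492 (branch (move 458 (leaf 458 3)) (move 522 (leaf 490 1)))) (ref 5)))) (ref 6))))))))))))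
theorem a6p918 : a6e918.Valid :=
  pos_of_chk [a6e910, a6e913, a6e905, a6e903, a6e914, a6e915, a6e917] (forall_cons a6p910 (forall_cons a6p913 (forall_cons a6p905 (forall_cons a6p903 (forall_cons a6p914 (forall_cons a6p915 (forall_cons a6p917 forall_nil))))))) a6c918 a6e918 (by decide +kernel)

def a6e919 : Pos := ⟨329510287711842630443319846715384918935398512783571175635645689708744286616338535786294382711775366235206349174532383405528418478745908719768282991202651865088, 430910333195303540891025569189148233975898702657903929634059849341280154420332387191041412509367758876446737834335474815286377870457233080536043803700874835264269730576549624275656096253193560129581337254385177067520, 18⟩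
def a6c919 : Cert := (move 491 (branch (move 461 (branch (move 429 (branch (move 396 (branch (move 428 (leaf 396 7)) (move 397 (branch (move 364 (leaf 364 7)) (move 398 (branch (move 430 (leaf 397 6)) (move 366 (leaf 365 6)))))))) (move 524 (branch (move 556 (leaf 428 5)) (move 523 (branch (move 490 (leaf 490 3)) (move 494 (branch (move 522 (leaf 490 2)) (move 495 (leaf 491 2)))))))))) (branch (move 429 (branch (move 396 (branch (move 428 (leaf 396 7)) (move 397 (branch (move 364 (leaf 364 7)) (move 398 (branch (move 430 (leaf 397 6)) (move 366 (leaf 365 6)))))))) (branch (ref 0) (branch (move 524 (branch (move 556 (leaf 428 5)) (move 523 (branch (move 490 (leaf 490 3)) (move 554 (branch (move 555 (leaf 522 1)) (move 522 (branch (move 553 (leaf 521 1)) (move 428 (branch (move 396 (leaf 396 7)) (move 427 (branch (move 459 (leaf 426 5)) (move 462 (branch (move 426 (leaf 426 0)) (move 430 (branch (move 463 (leaf 427 0)) (move 557 (leaf 429 6)))))))))))))))))) (move 430 (branch (move 398 (leaf 397 6)) (move 557 (branch (move 462 (leaf 429 6)) (move 556 (branch (move 588 (leaf 460 5)) (move 524 (leaf 428 5)))))))))))) (branch (move 429 (branch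 (move 524 (branch (move 556 (leaf 428 5)) (move 523 (branch (move 490 (leaf 490 3)) (move 494 (branch (move 522 (leaf 490 2)) (move 495 (leaf 491 2)))))))) (branch (move 397 (branch (move 494 (leaf 397 4)) (move 396 (branch (move 428 (leaf 396 7)) (move 364 (leaf 364 7)))))) (ref 0)))) (branch (ref 1) (ref 2)))))) (branch (ref 3) (branch (move 490 (branch (move 492 (leaf 490 0)) (move 523 (branch (move 524 (leaf 490 3)) (ref 4))))) (branch (ref 5) (branch (move 523 (branch (move 524 (branch (move 490 (leaf 490 3)) (move 494 (branch (move 522 (leaf 490 2)) (move 495 (leaf 491 2)))))) (branch (ref 6) (branch (move 490 (branch (move 524 (leaf 490 3)) (move 492 (leaf 490 0)))) (ref 7))))) (branch (move 523 (branch (move 524 (branch (move 490 (leaf 490 3)) (move 494 (branch (move 522 (leaf 490 2)) (move 495 (leaf 491 2)))))) (branch (move 490 (branch (move 524 (leaf 490 3)) (move 492 (leaf 490 0)))) (branch (move 492 (branch (move 490 (leaf 490 0)) (move 494 (branch (move 522 (leaf 490 1)) (move 462 (branch (move 463 (leaf 459 2)) (move 430 (branch (move 557 (leaf 429 5)) (move 398 (leaf 397 5)))))))))) (ref 8))))) (branch (move 461 (branch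 (ref 9) (branch (ref 1) (branch (move 492 (branch (move 490 (leaf 490 0)) (move 557 (branch (move 462 (branch (move 430 (leaf 429 6)) (move 463 (branch (move 494 (leaf 459 2)) (move 464 (leaf 460 1)))))) (move 588 (branch (move 556 (leaf 460 5)) (move 589 (branch (move 620 (leaf 492 5)) (move 621 (branch (move 524 (leaf 492 7)) (move 622 (branch (move 654 (leaf 525 4)) (move 590 (leaf 493 4)))))))))))))) (move 490 (branch (move 492 (leaf 490 0)) (move 524 (branch (move 523 (leaf 490 3)) (move 429 (branch (move 556 (leaf 428 5)) (move 397 (branch (move 494 (leaf 397 4)) (move 396 (branch (move 428 (leaf 396 7)) (move 364 (leaf 364 7)))))))))))))))) (ref 10)))))))))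
theorem a6p919 : a6e919.Valid :=
  pos_of_chk [a6e896, a6e897, a6e900, a6e904, a6e905, a6e908, a6e909, a6e910, a6e911, a6e906, a6e918] (forall_cons a6p896 (forall_cons a6p897 (forall_cons a6p900 (forall_cons a6p904 (forall_cons a6p905 (forall_cons a6p908 (forall_cons a6p909 (forall_cons a6p910 (forall_cons a6p911 (forall_cons a6p906 (forall_cons a6p918 forall_nil))))))))))) a6c919 a6e919 (by decide +kernel)

def a6e920 : Pos := ⟨329510287711842630449274109544814530582778573417789708781070719735494796166164503497982179760000322023094506261979534534602185055744441249399798447744263127040, 412777140310963252665625262085932892667335862637567001825690357400316880195760886455416901604829001136813886573044118172838994805632745667399238645724896087788918669312, 12⟩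
def a6c920 : Cert := (move 429 (branch (move 396 (branch (move 428 (leaf 396 7)) (move 397 (branch (move 364 (leaf 364 7)) (move 398 (branch (move 430 (leaf 397 6)) (move 366 (leaf 365 6)))))))) (branch (move 524 (branch (move 556 (leaf 428 5)) (move 397 (branch (move 492 (leaf 396 5)) (move 398 (branch (move 430 (leaf 397 6)) (move 366 (leaf 365 6)))))))) (branch (move 524 (branch (move 556 (leaf 428 5)) (move 397 (branch (move 492 (leaf 396 5)) (move 396 (branch (move 428 (leaf 396 7)) (move 364 (leaf 364 7)))))))) (ref 0)))))
theorem a6p920 : a6e920.Valid :=
  pos_of_chk [a6e829] (forall_cons a6p829 forall_nil) a6c920 a6e920 (by decide +kernel)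

def a6e921 : Pos := ⟨329510287711842630449274109544814530582778573417789708781070719735494796166164503497982179760000322023094506261979534534602185055744441249399798447744263127040, 80263304292624195905874739351733853179457997585734386893138049929906528667548380105239916833594341689621874874327492260036618639988342136763239766279599627472184758982731003427093079221298427414332934455296, 11⟩
def a6c921 : Cert := (move 557 (branch (move 460 (branch (move 428 (leaf 428 7)) (move 492 (branch (move 589 (leaf 460 7)) (move 491 (branch (move 490 (leaf 490 0)) (move 462 (branch (move 463 (leaf 459 1)) (move 430 (leaf 429 6)))))))))) (branch (ref 0) (branch (move 462 (branch (move 430 (leaf 429 6)) (move 494 (branch (move 589 (leaf 461 6)) (move 460 (branch (move 428 (leaf 428 7)) (move 495 (branch (move 496 (leaf 460 3)) (move 459 (leaf 459 0)))))))))) (branch (move 460 (branch (move 428 (leaf 428 7)) (move 589 (branch (move 492 (leaf 460 7)) (move 621 (branch (move 494 (leaf 493 6)) (move 622 (branch (move 654 (leaf 525 4)) (move 590 (leaf 493 4)))))))))) (move 462 (branch (move 430 (leaf 429 6)) (move 589 (branch (move 494 (leaf 461 6)) (move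 622 (branch (move 590 (leaf 493 4)) (move 621 (branch (move 654 (leaf 525 4)) (move 652 (branch (move 620 (leaf 524 5)) (move 653 (branch (move 684 (leaf 556 5)) (move 524 (branch (move 556 (leaf 524 7)) (move 492 (leaf 492 7)))))))))))))))))))))
theorem a6p921 : a6e921.Valid :=
  pos_of_chk [a6e887] (forall_cons a6p887 forall_nil) a6c921 a6e921 (by decide +kernel)

def a6e922 : Pos := ⟨471745303432202956748430294103854872999299194261450031558988625307951600951472956130243105466292405692690255801014018431386183168279424898504497985020067861507719823360, 80263304194513472841683870570578418795137860712904149413671721381164222607271271438793924602171970425443776606405200111499459038016233830690377032423111312566839781977606962545810657031222976895226543603712, 10⟩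
def a6c922 : Cert := (move 523 (branch (move 524 (branch (move 490 (leaf 490 3)) (move 494 (branch (move 522 (leaf 490 2)) (move 495 (leaf 491 2)))))) (branch (move 555 (branch (move 524 (branch (move 554 (leaf 522 1)) (move 494 (branch (move 522 (leaf 490 2)) (move 495 (leaf 491 2)))))) (branch (move 587 (branch (move 618 (branch (move 586 (leaf 490 5)) (move 619 (branch (move 650 (leaf 522 5)) (move 652 (branch (move 620 (leaf 523 4)) (move 651 (branch (move 684 (leaf 555 4)) (move 524 (branch (move 556 (leaf 523 6)) (move 494 (branch (move 522 (leaf 490 2)) (move 495 (leaf 491 2)))))))))))))) (branch (move 620 (branch (move 588 (leaf 491 4)) (move 619 (branch (move 652 (leaf 523 4)) (move 618 (branch (move 650 (leaf 522 5)) (move 586 (leaf 490 5)))))))) (branch (move 556 (branch (move 588 (leaf 460 5)) (move 618 (branch (move 586 (leaf 490 5)) (move 619 (branch (move 650 (leaf 522 5)) (move 524 (branch (move 651 (leaf 523 6)) (move 494 (branch (move 522 (leaf 490 2)) (move 495 (leaf 491 2)))))))))))) (move 588 (branch (move 620 (leaf 491 4)) (move 556 (leaf 460 5)))))))) (move 556 (branch (move 554 (leaf 522 2)) (move 588 (leaf 460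 5))))))) (branch (move 556 (branch (move 588 (leaf 460 5)) (move 555 (branch (move 554 (leaf 522 2)) (move 490 (branch (move 524 (leaf 490 3)) (move 458 (branch (move 587 (leaf 458 7)) (move 426 (branch (move 459 (leaf 426 7)) (move 394 (leaf 394 4)))))))))))) (move 555 (branch (move 554 (branch (move 556 (leaf 522 2)) (move 586 (branch (move 459 (leaf 458 5)) (move 618 (branch (move 650 (leaf 522 6)) (move 522 (leaf 490 6)))))))) (branch (move 556 (branch (move 554 (leaf 522 2)) (move 588 (leaf 460 5)))) (branch (move 588 (branch (move 556 (leaf 460 5)) (move 587 (branch (move 620 (leaf 491 4)) (move 490 (branch (move 458 (leaf 458 7)) (move 619 (branch (move 522 (leaf 490 7)) (move 618 (branch (move 650 (leaf 522 5)) (move 586 (leaf 490 5)))))))))))) (move 587 (branch (move 620 (branch (move 588 (leaf 491 4)) (move 619 (branch (move 652 (leaf 523 4)) (move 618 (branch (move 650 (leaf 522 5)) (move 586 (leaf 490 5)))))))) (branch (move 490 (branch (move 458 (leaf 458 7)) (move 619 (branch (move 522 (leaf 490 7)) (move 620 (branch (move 652 (leaf 523 4)) (move 588 (leaf 491 4)))))))) (move 586 (branch (move 618 (leaf 490 5)) (move 459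 (branch (move 554 (leaf 458 5)) (move 458 (branch (move 490 (leaf 458 7)) (move 426 (leaf 426 7)))))))))))))))))))
theorem a6p922 : a6e922.Valid :=
  pos_of_chk [] forall_nil a6c922 a6e922 (by decide +kernel)

def a6e923 : Pos := ⟨471745303432202956748430294115763398658158417556210152827425691598801661004973975229895040889667999789140167376790332606280485426426958052501563044283098774590942347264, 174043297543942966404954570929067815893476536900634929585934456369466507333375404248722296348216223383562603078406449187280358190699496118333315333538440100495003727786631078375130996408320, 12⟩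
def a6c923 : Cert := (move 463 (branch (move 464 (branch (move 465 (branch (move 494 (leaf 461 1)) (move 433 (branch (move 432 (leaf 429 2)) (move 434 (leaf 430 2)))))) (branch (move 556 (branch (move 588 (leaf 460 5)) (move 433 (branch (move 432 (leaf 429 2)) (move 465 (branch (move 434 (leaf 430 2)) (move 497 (branch (move 496 (leaf 461 0)) (move 498 (leaf 462 0)))))))))) (branch (move 496 (branch (move 497 (leaf 461 0)) (move 494 (branch (move 465 (leaf 461 1)) (move 495 (branch (move 524 (leaf 492 1)) (move 431 (branch (move 399 (leaf 398 5)) (move 528 (branch (move 529 (leaf 493 0)) (move 560 (leaf 431 7)))))))))))) (move 496 (branch (move 497 (leaf 461 0)) (move 528 (branch (move 560 (branch (move 431 (leaf 431 7)) (move 592 (branch (move 495 (leaf 463 7)) (move 593 (branch (move 625 (leaf 496 4)) (move 561 (leaf 464 4)))))))) (branch (move 432 (branch (move 433 (leaf 429 2)) (move 556 (branch (move 588 (leaf 460 5)) (move 555 (branch (move 554 (leaf 522 2)) (move 561 (branch (move 529 (leaf 432 4)) (move 560 (branch (move 593 (leaf 464 4)) (move 592 (branch (move 495 (leaf 463 7)) (move 591 (branch (move 623 (leaf 495 5)) (move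 559 (leaf 463 5)))))))))))))))) (branch (move 432 (branch (move 433 (leaf 429 2)) (move 399 (branch (move 431 (leaf 399 7)) (move 400 (branch (move 367 (leaf 367 7)) (move 495 (branch (move 368 (leaf 367 5)) (move 529 (branch (move 494 (leaf 493 0)) (move 561 (leaf 432 4)))))))))))) (move 432 (branch (move 433 (leaf 429 2)) (move 431 (branch (move 560 (leaf 431 7)) (move 399 (leaf 399 7)))))))))))))))) (branch (move 464 (branch (move 492 (leaf 460 1)) (move 556 (branch (move 588 (leaf 460 5)) (move 433 (branch (move 432 (leaf 429 2)) (move 465 (branch (move 434 (leaf 430 2)) (move 497 (branch (move 496 (leaf 461 0)) (move 498 (leaf 462 0)))))))))))) (move 492 (branch (move 494 (leaf 459 2)) (move 460 (leaf 459 1)))))))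
theorem a6p923 : a6e923.Valid :=
  pos_of_chk [] forall_nil a6c923 a6e923 (by decide +kernel)

def a6e924 : Pos := ⟨384428668992887508169129315937465676320934055818936152056226427408979141633345751914962656885291958462912876753111381398899160959742174399900390674073183584256, 23359695969840033786236836065965029982890683895678343503906061035033351472620641118000320935072755440177936756122815771475572521719113665937665435773189499567855207007811910071758684162428535570432, 12⟩
def a6c924 : Cert := (move 523 (branch (move 554 (branch (move 555 (leaf 522 1)) (move 522 (branch (move 553 (leaf 521 1)) (move 521 (branch (move 492 (leaf 489 2)) (move 489 (branch (move 488 (leaf 488 3)) (move 490 (leaf 489 3)))))))))) (branch (move 494 (branch (move 522 (leaf 490 2)) (move 495 (leaf 491 2)))) (move 459 (branch (move 491 (branch (move 490 (leaf 490 3)) (move 555 (branch (move 554 (leaf 522 1)) (move 426 (branch (move 458 (leaf 426 7)) (move 427 (branch (move 394 (leaf 394 7)) (move 492 (branch (move 395 (leaf 395 4)) (move 587 (branch (move 619 (leaf 491 6)) (move 460 (leaf 459 6)))))))))))))) (branch (move 494 (branch (move 495 (leaf 491 2))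 (move 429 (branch (move 397 (leaf 397 4)) (move 430 (branch (move 398 (leaf 397 6)) (move 460 (branch (move 458 (leaf 458 0)) (move 431 (branch (move 462 (leaf 427 2)) (move 432 (leaf 428 1)))))))))))) (branch (move 494 (branch (move 495 (leaf 491 2)) (move 491 (branch (move 490 (leaf 490 3)) (move 555 (branch (move 554 (leaf 522 1)) (move 458 (branch (move 492 (leaf 458 3)) (move 426 (leaf 426 7)))))))))) (move 460 (branch (move 491 (branch (move 490 (leaf 490 3)) (move 555 (branch (move 554 (leaf 522 1)) (move 492 (branch (move 587 (leaf 459 6)) (move 462 (branch (move 463 (leaf 459 1)) (move 427 (branch (move 426 (leaf 426 3)) (move 395 (leaf 395 4)))))))))))) (branch (move 494 (branch (move 495 (leaf 491 2)) (move 429 (branch (move 397 (leaf 397 4)) (move 430 (branch (move 398 (leaf 397 6)) (move 431 (branch (move 462 (leaf 427 2)) (move 432 (leaf 428 1)))))))))) (move 494 (branch (move 495 (leaf 491 2)) (move 491 (branch (move 490 (leaf 490 3)) (move 555 (branch (move 554 (leaf 522 1)) (move 587 (branch (move 492 (leaf 459 6)) (move 429 (branch (move 397 (leaf 397 4)) (move 620 (branch (move 588 (leaf 491 4)) (move 619 (branch (move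 652 (leaf 523 4)) (move 618 (branch (move 650 (leaf 522 5)) (move 586 (leaf 490 5))))))))))))))))))))))))))))
theorem a6p924 : a6e924.Valid :=
  pos_of_chk [] forall_nil a6c924 a6e924 (by decide +kernel)

def a6e925 : Pos := ⟨329510287711842630443319846715384918935398512783571175635645689708744286616338535786294382711775366235206349174532383405528418478745908719768282991202651865088, 80263304297296135101583179085261494275803139143629102201543225639941162609214505349166967594744237876349773243940182729999527880752146612128565665166238489765168030182573267078995193921976552442703755870208, 14⟩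
def a6c925 : Cert := (move 461 (branch (ref 0) (branch (move 524 (branch (move 429 (branch (move 556 (leaf 428 5)) (move 397 (branch (move 494 (leaf 397 4)) (move 398 (branch (move 430 (leaf 397 6)) (move 366 (leaf 365 6)))))))) (branch (move 556 (branch (move 429 (leaf 428 5)) (move 588 (branch (move 620 (leaf 492 6)) (move 492 (leaf 460 6)))))) (branch (move 523 (branch (move 554 (branch (move 555 (leaf 522 1)) (move 522 (branch (move 553 (leaf 521 1)) (move 521 (branch (move 492 (leaf 489 2)) (move 489 (branch (move 488 (leaf 488 3)) (move 490 (leaf 489 3)))))))))) (branch (move 494 (branch (move 522 (leaf 490 2)) (move 495 (leaf 491 2)))) (move 556 (branch (move 588 (branch (move 620 (leaf 492 6)) (move 492 (leaf 460 6)))) (branch (move 491 (branch (move 490 (leaf 490 3)) (move 494 (branch (move 495 (leaf 491 2)) (move 459 (branch (move 427 (leaf 427 4)) (move 458 (branch (move 492 (leaf 458 3)) (move 460 (leaf 458 0)))))))))) (move 491 (branch (move 490 (leaf 490 3)) (move 588 (branch (move 620 (leaf 492 6)) (move 555 (branch (move 554 (leaf 522 1)) (move 459 (leaf 459 4)))))))))))))) (ref 1))))) (branch (ref 2) (branch (ref 3)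 (branch (move 557 (branch (ref 4) (branch (move 460 (branch (move 428 (leaf 428 7)) (move 589 (branch (move 492 (leaf 460 7)) (move 622 (branch (move 590 (leaf 493 4)) (move 621 (branch (move 654 (leaf 525 4)) (move 620 (branch (move 652 (leaf 524 5)) (move 588 (leaf 492 5)))))))))))) (branch (move 588 (branch (move 556 (leaf 460 5)) (move 589 (branch (move 620 (leaf 492 5)) (move 621 (branch (move 494 (leaf 493 6)) (move 622 (branch (move 654 (leaf 525 4)) (move 590 (leaf 493 4)))))))))) (move 460 (branch (move 428 (leaf 428 7)) (move 589 (branch (move 492 (leaf 460 7)) (move 621 (branch (move 494 (leaf 493 6)) (move 622 (branch (move 654 (leaf 525 4)) (move 590 (leaf 493 4)))))))))))))) (branch (ref 5) (ref 6))))))))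
theorem a6p925 : a6e925.Valid :=
  pos_of_chk [a6e866, a6e924, a6e871, a6e861, a6e894, a6e888, a6e921] (forall_cons a6p866 (forall_cons a6p924 (forall_cons a6p871 (forall_cons a6p861 (forall_cons a6p894 (forall_cons a6p888 (forall_cons a6p921 forall_nil))))))) a6c925 a6e925 (by decide +kernel)

def a6e926 : Pos := ⟨117936325803132357904464360546858158127348872133707909181502797516431469828456377814594845691394955038323091838694586955619079756770278485456288849798750272835786113024, 80263304194513472841683870570578418794960956224199450876680764678694922307608742953893564968428912123928013988756779029178323303419565573179153146878669748066508944230272377245004593801901048927474904203264, 7⟩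
def a6c926 : Cert := (move 587 (branch (move 618 (branch (move 586 (leaf 490 5)) (move 619 (branch (move 650 (leaf 522 5)) (move 620 (branch (move 652 (leaf 523 4)) (move 588 (leaf 491 4)))))))) (branch (move 588 (branch (move 620 (leaf 491 4)) (move 459 (branch (move 556 (leaf 459 4)) (move 428 (branch (move 460 (leaf 427 6)) (move 427 (branch (move 396 (leaf 395 6)) (move 426 (branch (move 458 (leaf 426 7)) (move 394 (leaf 394 7)))))))))))) (branch (move 618 (branch (move 586 (leaf 490 5)) (move 619 (branch (move 650 (leaf 522 5)) (move 652 (branch (move 620 (leaf 523 4)) (move 651 (branch (move 684 (leaf 555 4)) (move 524 (branch (move 556 (leaf 523 6)) (move 492 (leaf 491 6)))))))))))) (move 618 (branch (move 586 (leaf 490 5)) (move 619 (branch (move 650 (leaf 522 5)) (move 524 (branch (move 492 (leaf 491 6)) (move 556 (branch (move 651 (leaf 523 6)) (move 459 (branch (move 588 (leaf 459 4)) (move 427 (leaf 427 4))))))))))))))))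
theorem a6p926 : a6e926.Valid :=
  pos_of_chk [] forall_nil a6c926 a6e926 (by decide +kernel)

def a6e927 : Pos := ⟨356969478358758410334294602001580002931092658578317526269401404462446012803241921315887501264427571354189565977033632392613547194434652749209761512674394374144, 80263304194513472842227755877470526993299544467195118915687294900889959373832753335731728129714143402454250323750315883904842209771549424098541878315301156179394446343239877047926339996165019000316088025088, 11⟩
def a6c927 : Cert := (move 555 (branch (move 459 (branch (move 428 (branch (move 460 (leaf 427 6)) (move 427 (branch (move 396 (leaf 395 6)) (move 426 (branch (move 458 (leaf 426 7)) (move 394 (leaf 394 7)))))))) (move 554 (branch (move 586 (leaf 458 5)) (move 556 (branch (move 557 (leaf 522 2)) (move 588 (leaf 459 4)))))))) (branch (move 554 (branch (move 524 (leaf 522 1)) (move 556 (branch (move 557 (leaf 522 2)) (move 588 (branch (move 459 (leaf 459 4)) (move 620 (branch (move 652 (leaf 523 7)) (move 587 (leaf 491 4)))))))))) (branch (ref 0) (branch (move 554 (branch (move 524 (leaf 522 1)) (move 459 (branch (move 586 (leaf 458 5)) (move 460 (branch (move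 428 (leaf 427 6)) (move 492 (branch (move 587 (leaf 459 6)) (move 458 (branch (move 494 (leaf 458 3)) (move 457 (leaf 457 0)))))))))))) (move 554 (branch (move 524 (leaf 522 1)) (move 588 (branch (move 556 (branch (move 557 (leaf 522 2)) (move 553 (branch (move 589 (leaf 553 0)) (move 584 (branch (move 585 (leaf 552 1)) (move 552 (branch (move 583 (leaf 551 1)) (move 520 (branch (move 519 (leaf 519 3)) (move 521 (leaf 520 3)))))))))))) (branch (move 587 (branch (move 620 (leaf 491 4)) (move 586 (branch (move 618 (leaf 490 5)) (move 553 (branch (move 589 (leaf 553 3)) (move 552 (leaf 552 0)))))))) (branch (move 587 (branch (move 620 (leaf 491 4)) (move 618 (branch (move 586 (leaf 490 5)) (move 556 (branch (move 557 (leaf 522 2)) (move 553 (branch (move 552 (leaf 552 0)) (move 650 (branch (move 619 (leaf 522 5)) (move 585 (branch (move 584 (leaf 552 1)) (move 521 (branch (move 520 (leaf 520 3)) (move 617 (leaf 521 4)))))))))))))))) (move 557 (branch (move 556 (leaf 522 2)) (move 620 (branch (move 587 (leaf 491 4)) (move 589 (leaf 492 5)))))))))))))))))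
theorem a6p927 : a6e927.Valid :=
  pos_of_chk [a6e926] (forall_cons a6p926 forall_nil) a6c927 a6e927 (by decide +kernel)

def a6e928 : Pos := ⟨356969478358758410334294602001580002931092658578317526269401404462446012803241921315887501264427571354189565977033632392613547194434652749209761512674394374144, 120394956275418422085160661064939042382502971930399577859514508649491859739445652847047856126010856777288760621712401819936100551538254747478782859150773346922665369617240857373964917397384399758058598694912, 11⟩
def a6c928 : Cert := (move 555 (branch (move 459 (branch (move 554 (branch (move 586 (leaf 458 5)) (move 427 (branch (move 522 (leaf 426 5)) (move 428 (branch (move 460 (leaf 427 6)) (move 396 (leaf 395 6)))))))) (branch (move 554 (branch (move 586 (leaf 458 5)) (move 427 (branch (move 522 (leaf 426 5)) (move 426 (branch (move 458 (leaf 426 7)) (move 394 (leaf 394 7)))))))) (move 458 (branch (move 426 (leaf 426 7)) (move 492 (branch (move 494 (leaf 458 3)) (move 460 (branch (move 457 (leaf 457 0)) (move 428 (leaf 427 6))))))))))) (branch (move 459 (branch (move 586 (branch (move 554 (leaf 458 5)) (move 587 (branch (move 618 (leaf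 490 5)) (move 588 (branch (move 620 (leaf 491 4)) (move 556 (leaf 459 4)))))))) (move 428 (branch (move 460 (leaf 427 6)) (move 427 (branch (move 396 (leaf 395 6)) (move 426 (branch (move 458 (leaf 426 7)) (move 394 (leaf 394 7)))))))))) (branch (move 554 (branch (move 556 (branch (move 557 (leaf 522 2)) (move 588 (branch (move 459 (leaf 459 4)) (move 620 (branch (move 652 (leaf 523 7)) (move 587 (leaf 491 4)))))))) (branch (move 586 (branch (move 459 (leaf 458 5)) (move 618 (branch (move 650 (leaf 522 6)) (move 522 (leaf 490 6)))))) (ref 0)))) (branch (move 587 (branch (move 618 (branch (move 586 (leaf 490 5)) (move 619 (branch (move 650 (leaf 522 5)) (move 620 (branch (move 652 (leaf 523 4)) (move 588 (leaf 491 4)))))))) (move 492 (branch (move 460 (leaf 459 6)) (move 494 (branch (move 522 (leaf 490 1)) (move 462 (branch (move 463 (leaf 459 2)) (move 430 (branch (move 557 (leaf 429 5)) (move 398 (leaf 397 5)))))))))))) (move 459 (branch (move 460 (branch (move 428 (leaf 427 6)) (move 492 (branch (move 587 (leaf 459 6)) (move 494 (branch (move 458 (leaf 458 3)) (move 495 (leaf 459 3)))))))) (branch (move 556 (branch (move 588 (leaf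 459 4)) (move 554 (branch (move 557 (leaf 522 2)) (move 427 (branch (move 522 (leaf 426 5)) (move 428 (branch (move 460 (leaf 427 6)) (move 396 (leaf 395 6)))))))))) (move 556 (branch (move 588 (leaf 459 4)) (move 554 (branch (move 557 (leaf 522 2)) (move 427 (branch (move 522 (leaf 426 5)) (move 426 (branch (move 458 (leaf 426 7)) (move 394 (leaf 394 7))))))))))))))))))
theorem a6p928 : a6e928.Valid :=
  pos_of_chk [a6e912] (forall_cons a6p912 forall_nil) a6c928 a6e928 (by decide +kernel)

def a6e929 : Pos := ⟨329510287711842630443319846715384918935398512783571175635645689708744286616338535786294382711775366235206349174532383405528418478745908719768282991202651865088, 120394956275418422094678653896437116834514256681890040542279073633925431297509503762683146706457031775745697532849735573086504794143932230815140909997641403991393369028170560171899198687251621292464691740672, 15⟩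
def a6c929 : Cert := (move 491 (branch (ref 0) (branch (move 492 (branch (move 490 (leaf 490 0)) (move 494 (branch (move 459 (branch (move 458 (leaf 458 3)) (move 495 (branch (move 460 (leaf 459 3)) (move 496 (branch (move 524 (leaf 492 1)) (move 497 (leaf 493 1)))))))) (move 462 (branch (move 463 (leaf 459 2)) (move 557 (branch (move 589 (leaf 461 6)) (move 430 (leaf 429 5)))))))))) (branch (ref 1) (branch (move 492 (branch (move 490 (leaf 490 0)) (move 494 (branch (move 459 (branch (move 458 (leaf 458 3)) (move 460 (branch (move 495 (leaf 459 3)) (move 428 (branch (move 396 (leaf 396 4)) (move 523 (branch (move 522 (leaf 490 1)) (move 555 (leaf 427 6)))))))))) (move 462 (branch (move 463 (leaf 459 2)) (move 557 (branch (move 589 (leaf 461 6)) (move 430 (leaf 429 5)))))))))) (branch (move 492 (branch (move 490 (leaf 490 0)) (move 494 (branch (move 459 (branch (move 458 (leaf 458 3)) (move 460 (branch (move 495 (leaf 459 3)) (move 428 (branch (move 396 (leaf 396 4)) (move 523 (branch (move 522 (leaf 490 1)) (move 555 (leaf 427 6)))))))))) (branch (move 463 (branch (move 462 (leaf 459 2)) (move 495 (branch (move 464 (leaf 460 2)) (move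 496 (branch (move 524 (leaf 492 1)) (move 497 (leaf 493 1)))))))) (ref 2)))))) (branch (move 492 (branch (move 490 (leaf 490 0)) (move 494 (branch (move 462 (branch (move 463 (leaf 459 2)) (move 557 (branch (move 589 (leaf 461 6)) (move 430 (leaf 429 5)))))) (move 523 (branch (move 522 (leaf 490 1)) (move 524 (branch (move 495 (leaf 491 1)) (move 555 (branch (move 554 (leaf 522 1)) (move 460 (branch (move 587 (leaf 459 6)) (move 428 (leaf 427 5)))))))))))))) (branch (move 492 (branch (move 490 (leaf 490 0)) (move 494 (branch (move 462 (branch (move 463 (leaf 459 2)) (move 557 (branch (move 589 (leaf 461 6)) (move 430 (leaf 429 5)))))) (move 523 (branch (move 522 (leaf 490 1)) (move 524 (branch (move 495 (leaf 491 1)) (move 459 (branch (move 458 (leaf 458 3)) (move 556 (branch (move 588 (leaf 459 7)) (move 427 (leaf 427 4)))))))))))))) (move 523 (branch (ref 3) (branch (ref 4) (branch (ref 5) (branch (move 555 (branch (move 459 (branch (move 428 (branch (move 460 (leaf 427 6)) (move 427 (branch (move 396 (leaf 395 6)) (move 426 (branch (move 458 (leaf 426 7)) (move 394 (leaf 394 7)))))))) (move 554 (branch (move 586 (leaf 458 5)) (move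 556 (branch (move 557 (leaf 522 2)) (move 588 (leaf 459 4)))))))) (branch (move 554 (branch (move 524 (leaf 522 1)) (move 586 (branch (move 459 (leaf 458 5)) (move 618 (branch (move 650 (leaf 522 6)) (move 522 (leaf 490 6)))))))) (branch (move 554 (branch (move 524 (leaf 522 1)) (ref 6))) (branch (move 554 (branch (move 524 (leaf 522 1)) (move 556 (branch (move 557 (leaf 522 2)) (move 588 (branch (move 459 (leaf 459 4)) (move 620 (branch (move 652 (leaf 523 7)) (move 587 (leaf 491 4)))))))))) (ref 7)))))) (branch (ref 8) (ref 9)))))))))))))))
theorem a6p929 : a6e929.Valid :=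
  pos_of_chk [a6e881, a6e882, a6e883, a6e880, a6e909, a6e911, a6e912, a6e926, a6e927, a6e928] (forall_cons a6p881 (forall_cons a6p882 (forall_cons a6p883 (forall_cons a6p880 (forall_cons a6p909 (forall_cons a6p911 (forall_cons a6p912 (forall_cons a6p926 (forall_cons a6p927 (forall_cons a6p928 forall_nil)))))))))) a6c929 a6e929 (by decide +kernel)

end Crest.Agent.SN
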