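import Crest.Agent.Lib_SN_A6x7

set_option autoImplicit false
set_option linter.all false
set_option maxRecDepth 1000000

namespace Crest.Agent.SN
open Cert

def a6e930 : Pos := ⟨329510287686269266319131238355906874428932894406878659650934246040906072803087490501882862751749818638910222946791081185781855423986398903003553357973522743296, 430910333195303540891025569467617509953847549587066679671762961124197631526677080105450227435373873362751292440515082873150172919520732824540383338018162772032876530586308037982921799405745840074772375530174209327104, 19⟩
def a6c930 : Cert := (move 493 (branch (ref 0) (branch (move 557 (branch (ref 1) (branch (ref 2) (branch (ref 3) (branch (ref 4) (branch (ref 5) (move 461 (branch (move 428 (branch (move 460 (leaf 428 7)) (move 429 (branch (move 396 (leaf 396 7)) (move 430 (branch (move 462 (leaf 429 6)) (move 398 (leaf 397 6)))))))) (branch (move 556 (branch (move 588 (leaf 460 5)) (move 429 (branch (move 524 (leaf 428 5)) (move 430 (branch (move 462 (leaf 429 6)) (move 398 (leaf 397 6)))))))) (branch (move 556 (branch (move 588 (leaf 460 5)) (move 429 (branch (move 524 (leaf 428 5)) (move 428 (branch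 (move 460 (leaf 428 7)) (move 396 (leaf 396 7)))))))) (ref 6))))))))))) (branch (move 461 (branch (ref 7) (branch (ref 8) (branch (ref 9) (branch (move 557 (branch (ref 10) (branch (move 460 (branch (move 428 (leaf 428 7)) (move 589 (branch (move 492 (leaf 460 7)) (move 622 (branch (move 590 (leaf 493 4)) (move 621 (branch (move 654 (leaf 525 4)) (move 620 (branch (move 652 (leaf 524 5)) (move 588 (leaf 492 5)))))))))))) (move 588 (branch (move 556 (leaf 460 5)) (move 589 (branch (move 620 (leaf 492 5)) (move 621 (branch (move 494 (leaf 493 6)) (move 622 (branch (move 654 (leaf 525 4)) (move 590 (leaf 493 4))))))))))))) (branch (ref 11) (move 462 (branch (move 430 (branch (move 557 (leaf 429 6)) (move 398 (branch (move 429 (leaf 397 6)) (move 366 (leaf 365 5)))))) (branch (ref 12) (branch (move 557 (branch (move 430 (leaf 429 6)) (move 589 (branch (move 494 (leaf 461 6)) (move 588 (branch (move 620 (leaf 492 5)) (move 556 (leaf 460 5)))))))) (ref 13))))))))))) (branch (ref 14) (branch (move 461 (branch (ref 15) (branch (ref 8) (branch (ref 16) (ref 17))))) (branch (move 557 (branch (ref 2) (branch (ref 3) (branch (ref 4) (branch (ref 5)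 (branch (ref 18) (move 461 (branch (move 428 (branch (move 460 (leaf 428 7)) (move 429 (branch (move 396 (leaf 396 7)) (move 430 (branch (move 462 (leaf 429 6)) (move 398 (leaf 397 6)))))))) (branch (move 556 (branch (move 588 (leaf 460 5)) (move 429 (branch (move 524 (leaf 428 5)) (move 430 (branch (move 462 (leaf 429 6)) (move 398 (leaf 397 6)))))))) (branch (move 556 (branch (move 588 (leaf 460 5)) (move 429 (branch (move 524 (leaf 428 5)) (move 428 (branch (move 460 (leaf 428 7)) (move 396 (leaf 396 7)))))))) (move 460 (branch (move 428 (leaf 428 7)) (move 459 (branch (move 462 (branch (move 430 (leaf 429 6)) (move 494 (branch (move 458 (leaf 458 0)) (move 495 (leaf 459 0)))))) (branch (move 458 (branch (move 494 (leaf 458 0)) (move 457 (branch (move 492 (leaf 457 0)) (move 425 (branch (move 424 (leaf 424 3)) (move 426 (leaf 425 3)))))))) (move 462 (branch (move 430 (leaf 429 6)) (move 556 (branch (move 588 (leaf 460 5)) (move 427 (branch (move 426 (leaf 426 3)) (move 492 (branch (move 524 (leaf 427 7)) (move 463 (branch (move 491 (leaf 459 1)) (move 464 (leaf 460 1))))))))))))))))))))))))))) (branch (ref 19) (branch (ref 20) (branch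 (move 461 (branch (ref 7) (branch (ref 8) (branch (ref 11) (branch (move 429 (branch (move 428 (branch (move 396 (leaf 396 7)) (move 430 (branch (move 398 (leaf 397 6)) (move 460 (branch (move 557 (leaf 428 7)) (move 459 (branch (move 458 (leaf 426 2)) (move 431 (leaf 427 1)))))))))) (branch (move 397 (branch (move 494 (leaf 397 4)) (move 396 (branch (move 428 (leaf 396 7)) (move 364 (leaf 364 7)))))) (move 397 (branch (move 494 (leaf 397 4)) (move 398 (branch (move 430 (leaf 397 6)) (move 366 (leaf 365 6))))))))) (branch (ref 21) (branch (move 462 (branch (move 430 (branch (move 557 (leaf 429 6)) (move 398 (branch (move 429 (leaf 397 6)) (move 366 (leaf 365 5)))))) (branch (ref 12) (branch (ref 13) (move 557 (branch (move 430 (leaf 429 6)) (move 589 (branch (move 494 (leaf 461 6)) (move 492 (branch (move 460 (leaf 460 7)) (move 491 (branch (move 490 (leaf 490 0)) (move 621 (branch (move 524 (leaf 492 7)) (move 620 (branch (move 652 (leaf 524 5)) (move 588 (leaf 492 5)))))))))))))))))) (ref 22)))))))) (branch (move 557 (branch (ref 23) (branch (move 589 (branch (move 588 (branch (move 620 (leaf 492 5)) (move 556 (branch (move 461 (leaf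 460 5)) (move 555 (branch (move 554 (leaf 522 2)) (move 590 (branch (move 591 (leaf 555 3)) (move 622 (leaf 493 4)))))))))) (move 494 (branch (move 621 (leaf 493 6)) (move 462 (leaf 461 6)))))) (branch (ref 24) (ref 25))))) (branch (move 557 (branch (ref 23) (branch (move 461 (branch (move 556 (branch (move 588 (leaf 460 5)) (move 429 (branch (move 524 (leaf 428 5)) (move 428 (branch (move 460 (leaf 428 7)) (move 396 (leaf 396 7)))))))) (branch (ref 26) (branch (move 556 (branch (move 588 (leaf 460 5)) (move 429 (branch (move 524 (leaf 428 5)) (move 397 (branch (move 494 (leaf 397 4)) (move 366 (branch (move 398 (leaf 365 6)) (move 365 (branch (move 334 (leaf 333 6)) (move 364 (branch (move 396 (leaf 364 7)) (move 332 (leaf 332 7)))))))))))))) (ref 10))))) (branch (ref 2) (branch (move 461 (branch (ref 10) (branch (move 460 (branch (move 428 (leaf 428 7)) (move 589 (branch (move 492 (leaf 460 7)) (move 622 (branch (move 590 (leaf 493 4)) (move 621 (branch (move 654 (leaf 525 4)) (move 620 (branch (move 652 (leaf 524 5)) (move 588 (leaf 492 5)))))))))))) (move 588 (branch (move 556 (leaf 460 5)) (move 589 (branch (move 620 (leaf 492 5))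 (move 621 (branch (move 494 (leaf 493 6)) (move 622 (branch (move 654 (leaf 525 4)) (move 590 (leaf 493 4))))))))))))) (ref 27)))))) (branch (ref 28) (branch (move 461 (branch (ref 29) (branch (move 429 (branch (move 396 (branch (move 428 (leaf 396 7)) (move 397 (branch (move 364 (leaf 364 7)) (move 398 (branch (move 430 (leaf 397 6)) (move 366 (leaf 365 6)))))))) (branch (move 524 (branch (move 556 (leaf 428 5)) (move 397 (branch (move 492 (leaf 396 5)) (move 398 (branch (move 430 (leaf 397 6)) (move 366 (leaf 365 6)))))))) (branch (move 524 (branch (move 556 (leaf 428 5)) (move 397 (branch (move 492 (leaf 396 5)) (move 396 (branch (move 428 (leaf 396 7)) (move 364 (leaf 364 7)))))))) (ref 30))))) (branch (ref 11) (branch (ref 22) (branch (ref 31) (move 462 (branch (move 430 (branch (move 557 (leaf 429 6)) (move 398 (branch (move 429 (leaf 397 6)) (move 366 (leaf 365 5)))))) (branch (ref 12) (branch (ref 13) (move 557 (branch (move 430 (leaf 429 6)) (move 494 (branch (move 589 (leaf 461 6)) (move 429 (branch (move 397 (leaf 397 4)) (move 524 (branch (move 556 (leaf 428 5)) (move 495 (branch (move 523 (leaf 491 2)) (move 496 (leaf 492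 1)))))))))))))))))))))) (branch (move 557 (branch (ref 23) (branch (move 589 (branch (move 588 (branch (move 620 (leaf 492 5)) (move 556 (branch (move 461 (leaf 460 5)) (move 555 (branch (move 554 (leaf 522 2)) (move 590 (branch (move 591 (leaf 555 3)) (move 622 (leaf 493 4)))))))))) (move 494 (branch (move 621 (leaf 493 6)) (move 462 (leaf 461 6)))))) (branch (ref 27) (move 461 (branch (move 556 (branch (move 588 (leaf 460 5)) (move 429 (branch (move 524 (leaf 428 5)) (move 430 (branch (move 462 (leaf 429 6)) (move 398 (leaf 397 6)))))))) (branch (move 556 (branch (move 588 (leaf 460 5)) (move 429 (branch (move 524 (leaf 428 5)) (move 397 (branch (move 494 (leaf 397 4)) (move 366 (branch (move 398 (leaf 365 6)) (move 365 (branch (move 334 (leaf 333 6)) (move 364 (branch (move 396 (leaf 364 7)) (move 332 (leaf 332 7)))))))))))))) (branch (ref 32) (move 462 (branch (move 430 (leaf 429 6)) (move 491 (branch (ref 33) (branch (move 492 (branch (move 490 (leaf 490 0)) (move 463 (branch (move 494 (leaf 459 2)) (move 464 (leaf 460 1)))))) (branch (move 490 (branch (move 492 (leaf 490 0)) (move 523 (branch (move 524 (leaf 490 3)) (move 556 (branch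 (move 588 (leaf 460 5)) (move 555 (branch (move 554 (leaf 522 2)) (move 458 (branch (move 587 (leaf 458 7)) (move 426 (branch (move 459 (leaf 426 7)) (move 522 (leaf 426 4)))))))))))))) (ref 34))))))))))))))) (branch (move 461 (branch (ref 7) (branch (ref 29) (branch (move 429 (branch (move 428 (branch (move 396 (leaf 396 7)) (move 557 (branch (move 460 (leaf 428 7)) (move 556 (branch (move 588 (leaf 460 5)) (move 524 (leaf 428 5)))))))) (branch (move 397 (branch (move 494 (leaf 397 4)) (move 396 (branch (move 428 (leaf 396 7)) (move 364 (leaf 364 7)))))) (move 494 (branch (move 397 (leaf 397 4)) (move 524 (branch (move 556 (leaf 428 5)) (move 495 (branch (move 523 (leaf 491 2)) (move 496 (leaf 492 1))))))))))) (branch (ref 16) (move 557 (branch (ref 35) (branch (ref 26) (branch (move 462 (branch (move 430 (leaf 429 6)) (move 494 (branch (move 589 (leaf 461 6)) (move 460 (branch (move 428 (leaf 428 7)) (move 495 (branch (move 496 (leaf 460 3)) (move 459 (leaf 459 0)))))))))) (move 462 (branch (move 430 (leaf 429 6)) (move 589 (branch (move 494 (leaf 461 6)) (move 556 (branch (move 588 (leaf 460 5)) (move 555 (branch (move 554 (leaf 522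 2)) (move 622 (branch (move 590 (leaf 493 4)) (move 621 (branch (move 654 (leaf 525 4)) (move 524 (branch (move 653 (leaf 524 7)) (move 492 (leaf 492 7))))))))))))))))))))))))) (branch (ref 36) (branch (move 557 (branch (ref 2) (branch (ref 3) (branch (ref 24) (branch (ref 18) (move 461 (branch (move 428 (branch (move 460 (leaf 428 7)) (move 429 (branch (move 396 (leaf 396 7)) (move 430 (branch (move 462 (leaf 429 6)) (move 398 (leaf 397 6)))))))) (branch (move 556 (branch (move 588 (leaf 460 5)) (move 429 (branch (move 524 (leaf 428 5)) (move 430 (branch (move 462 (leaf 429 6)) (move 398 (leaf 397 6)))))))) (branch (move 556 (branch (move 588 (leaf 460 5)) (move 429 (branch (move 524 (leaf 428 5)) (move 428 (branch (move 460 (leaf 428 7)) (move 396 (leaf 396 7)))))))) (move 492 (branch (move 462 (branch (move 430 (leaf 429 6)) (move 491 (branch (move 490 (leaf 490 0)) (move 463 (branch (move 494 (leaf 459 2)) (move 464 (leaf 460 1)))))))) (branch (move 460 (branch (move 428 (leaf 428 7)) (move 556 (branch (move 588 (leaf 460 5)) (move 491 (branch (move 490 (leaf 490 0)) (move 555 (branch (move 554 (leaf 522 2)) (move 587 (branch (move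 523 (leaf 459 6)) (move 524 (leaf 459 5)))))))))))) (move 462 (branch (move 430 (leaf 429 6)) (move 460 (branch (move 428 (leaf 428 7)) (move 463 (branch (move 464 (leaf 460 1)) (move 556 (branch (move 588 (leaf 460 5)) (move 495 (branch (move 496 (leaf 460 0)) (move 555 (branch (move 554 (leaf 522 2)) (move 524 (branch (move 587 (leaf 459 5)) (move 494 (branch (move 523 (leaf 491 1)) (move 431 (branch (move 432 (leaf 428 2)) (move 399 (leaf 398 5)))))))))))))))))))))))))))))))) (ref 37)))))))))))))))))))
theorem a6p930 : a6e930.Valid :=
  pos_of_chk [a6e851, a6e852, a6e853, a6e854, a6e855, a6e856, a6e858, a6e859, a6e860, a6e861, a6e862, a6e863, a6e864, a6e865, a6e870, a6e867, a6e871, a6e872, a6e873, a6e877, a6e886, a6e888, a6e889, a6e890, a6e892, a6e893, a6e894, a6e895, a6e919, a6e920, a6e831, a6e921, a6e891, a6e922, a6e923, a6e868, a6e925, a6e929] (forall_cons a6p851 (forall_cons a6p852 (forall_cons a6p853 (forall_cons a6p854 (forall_cons a6p855 (forall_cons a6p856 (forall_cons a6p858 (forall_cons a6p859 (forall_cons a6p860 (forall_cons a6p861 (forall_cons a6p862 (forall_cons a6p863 (forall_cons a6p864 (forall_cons a6p865 (forall_cons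 a6p870 (forall_cons a6p867 (forall_cons a6p871 (forall_cons a6p872 (forall_cons a6p873 (forall_cons a6p877 (forall_cons a6p886 (forall_cons a6p888 (forall_cons a6p889 (forall_cons a6p890 (forall_cons a6p892 (forall_cons a6p893 (forall_cons a6p894 (forall_cons a6p895 (forall_cons a6p919 (forall_cons a6p920 (forall_cons a6p831 (forall_cons a6p921 (forall_cons a6p891 (forall_cons a6p922 (forall_cons a6p923 (forall_cons a6p868 (forall_cons a6p925 (forall_cons a6p929 forall_nil)))))))))))))))))))))))))))))))))))))) a6c930 a6e930 (by decide +kernel)

def a6e931 : Pos := ⟨943490606534895625797804639814575677804093268545974238254315266681763173974619713451121262365120594557168007589193436627216331782756179691645777099391186635344129818624, 160526608585248391811749478705240570675318940724988270502915199695646424251814821484682109800925921277940296832759366850962846676927026310754699570117396880804537777406060316466661310734959764348765894344704, 7⟩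
def a6c931 : Cert := (move 590 (branch (move 621 (branch (move 589 (leaf 493 5)) (move 622 (branch (move 653 (leaf 525 5)) (move 623 (branch (move 591 (leaf 494 4)) (move 655 (leaf 526 4)))))))) (branch (move 589 (branch (move 621 (leaf 493 5)) (move 462 (branch (move 557 (leaf 461 5)) (move 431 (branch (move 463 (leaf 430 6)) (move 430 (branch (move 399 (leaf 398 6)) (move 429 (branch (move 397 (leaf 397 7)) (move 461 (leaf 429 7)))))))))))) (branch (move 623 (branch (move 591 (leaf 494 4)) (move 622 (branch (move 655 (leaf 526 4)) (move 557 (branch (move 654 (leaf 525 7)) (move 462 (branch (move 430 (leaf 429 5)) (move 589 (leaf 461 5)))))))))) (move 623 (branch (move 591 (leaf 494 4)) (move 622 (branch (move 655 (leaf 526 4)) (move 654 (branch (move 557 (leaf 525 7)) (move 653 (branch (move 621 (leaf 525 5)) (move 685 (leaf 557 5))))))))))))))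
theorem a6p931 : a6e931.Valid :=
  pos_of_chk [] forall_nil a6c931 a6e931 (by decide +kernel)

def a6e932 : Pos := ⟨26106494626981997733469474820939270138074628640181153161073167954034976922005274919422762294350988359074911046979892866936697134057203074143008571435112679502063903452107475772959818252288, 2277570356568274864016485146318024102029903512057498315186790387148839408415092551974131159926106496840458606612898005003743105746137721356066096604077376250559466046432270781687968339306839151738880, 9⟩
def a6c932 : Cert := (move 620 (branch (move 619 (branch (move 591 (leaf 587 2)) (move 618 (branch (move 589 (leaf 586 2)) (move 650 (branch (move 649 (leaf 617 1)) (move 651 (leaf 618 1)))))))) (branch (move 623 (branch (move 655 (leaf 526 4)) (move 591 (branch (move 619 (leaf 587 2)) (move 592 (leaf 588 2)))))) (move 623 (branch (move 655 (leaf 526 4)) (move 588 (branch (move 587 (leaf 587 3)) (move 624 (branch (move 589 (leaf 588 3)) (move 652 (branch (move 651 (leaf 619 1)) (move 593 (branch (move 592 (leaf 589 2)) (move 625 (branch (move 594 (leaf 590 2)) (move 657 (branch (move 656 (leaf 621 0)) (move 658 (leaf 622 0)))))))))))))))))))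
theorem a6p932 : a6e932.Valid :=
  pos_of_chk [] forall_nil a6c932 a6e932 (by decide +kernel)

def a6e933 : Pos := ⟨4052261298678835292472332167570467717662080071974089673208741147724665484307446983010438509877662724071904849030382066452897207911551845438777377979320708828006228271112317304832, 160526610638565667107849543823652287109583000357259852453353457298484782780627519200504854967690385631722840609669134550474745138394150658105690356312084876443793257541565956525445352864131021132716897730560, 11⟩
def a6c933 : Cert := (move 621 (branch (move 494 (branch (move 589 (leaf 493 5)) (move 591 (branch (move 623 (leaf 494 4)) (move 462 (branch (move 559 (leaf 462 4)) (move 463 (branch (move 431 (leaf 430 6)) (move 495 (leaf 462 6)))))))))) (branch (move 622 (branch (move 653 (leaf 525 5)) (move 623 (branch (move 655 (leaf 526 4)) (move 591 (branch (move 494 (leaf 494 4)) (move 592 (branch (move 593 (leaf 589 1)) (move 620 (leaf 588 2)))))))))) (branch (move 589 (branch (move 494 (leaf 493 5)) (move 653 (branch (move 622 (leaf 525 5)) (move 685 (leaf 557 6)))))) (move 622 (branch (move 653 (leaf 525 5)) (ref 0)))))))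
theorem a6p933 : a6e933.Valid :=
  pos_of_chk [a6e932] (forall_cons a6p932 forall_nil) a6c933 a6e933 (by decide +kernel)

def a6e934 : Pos := ⟨943490606562354816387180350426126064281462752402120742701503456349918140475685458558209796004787793199762730616510369417299650775411541534125624041112023482050331803648, 3447282665602559974441395555196681750730345076326096127673838891382471920946652299190816452988511739717485482321773074845866060319432696159854158489763445181489921691517492687736041206415631797282310602297300872069120, 14⟩
def a6c934 : Cert := (move 590 (branch (move 622 (branch (move 654 (branch (move 557 (leaf 525 7)) (move 655 (branch (move 623 (leaf 526 4)) (move 687 (leaf 558 4)))))) (branch (move 654 (branch (move 557 (leaf 525 7)) (move 653 (branch (move 621 (leaf 525 5)) (move 685 (leaf 557 5)))))) (branch (move 655 (branch (move 623 (leaf 526 4)) (move 654 (branch (move 687 (leaf 558 4)) (move 653 (branch (move 621 (leaf 525 5)) (move 685 (leaf 557 5)))))))) (move 621 (branch (move 653 (leaf 525 5)) (move 620 (branch (move 619 (branch (move 591 (leaf 587 2)) (move 618 (branch (move 589 (leaf 586 2)) (move 650 (branch (move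 649 (leaf 617 1)) (move 651 (leaf 618 1)))))))) (branch (move 623 (branch (move 655 (leaf 526 4)) (move 588 (branch (move 587 (leaf 587 3)) (move 589 (branch (move 624 (leaf 588 3)) (move 652 (branch (move 651 (leaf 619 1)) (move 557 (leaf 524 5)))))))))) (move 623 (branch (move 655 (leaf 526 4)) (move 591 (branch (move 619 (leaf 587 2)) (move 592 (leaf 588 2))))))))))))))) (branch (move 622 (branch (move 654 (branch (move 557 (leaf 525 7)) (move 655 (branch (move 623 (leaf 526 4)) (move 687 (leaf 558 4)))))) (branch (move 654 (branch (move 557 (leaf 525 7)) (move 653 (branch (move 621 (leaf 525 5)) (move 685 (leaf 557 5)))))) (move 623 (branch (move 655 (leaf 526 4)) (move 621 (branch (move 653 (leaf 525 5)) (move 591 (branch (move 494 (leaf 494 4)) (move 592 (branch (move 593 (leaf 589 1)) (move 620 (leaf 588 2))))))))))))) (branch (move 494 (branch (move 591 (branch (move 623 (leaf 494 4)) (move 462 (branch (move 559 (leaf 462 4)) (move 463 (branch (move 431 (leaf 430 6)) (move 495 (leaf 462 6)))))))) (branch (move 463 (branch (move 495 (leaf 462 6)) (move 462 (branch (move 431 (leaf 430 6)) (move 557 (branch (move 430 (leaf 429 5))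 (move 589 (leaf 461 5)))))))) (move 622 (branch (move 654 (branch (move 557 (leaf 525 7)) (move 687 (branch (move 655 (leaf 558 4)) (move 686 (branch (move 719 (leaf 590 4)) (move 685 (branch (move 653 (leaf 557 5)) (move 717 (leaf 589 5)))))))))) (branch (move 623 (branch (move 591 (leaf 494 4)) (move 655 (leaf 526 4)))) (move 654 (branch (move 557 (leaf 525 7)) (move 591 (branch (move 623 (leaf 494 4)) (move 686 (branch (move 559 (leaf 558 6)) (move 685 (branch (move 653 (leaf 557 5)) (move 717 (leaf 589 5)))))))))))))))) (branch (ref 0) (branch (move 494 (branch (move 589 (branch (move 621 (leaf 493 5)) (move 462 (branch (move 557 (leaf 461 5)) (move 431 (branch (move 463 (leaf 430 6)) (move 430 (branch (move 399 (leaf 398 6)) (move 429 (branch (move 397 (leaf 397 7)) (move 461 (leaf 429 7)))))))))))) (branch (move 591 (branch (move 623 (leaf 494 4)) (move 462 (branch (move 559 (leaf 462 4)) (move 463 (branch (move 431 (leaf 430 6)) (move 495 (leaf 462 6)))))))) (branch (move 589 (branch (move 621 (leaf 493 5)) (move 591 (branch (move 623 (leaf 494 4)) (move 462 (branch (move 559 (leaf 462 4)) (move 557 (leaf 461 5)))))))) (move 559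 (branch (move 589 (branch (move 621 (leaf 493 5)) (move 560 (branch (move 561 (leaf 557 1)) (move 588 (branch (move 587 (leaf 555 2)) (move 591 (leaf 556 2)))))))) (branch (move 591 (branch (move 623 (leaf 494 4)) (move 560 (branch (move 561 (leaf 525 3)) (move 495 (branch (move 463 (leaf 462 6)) (move 496 (branch (move 497 (leaf 493 1)) (move 528 (branch (move 464 (leaf 463 5)) (move 557 (branch (move 529 (leaf 525 2)) (move 592 (branch (move 556 (leaf 556 0)) (move 593 (leaf 557 0)))))))))))))))) (branch (move 589 (branch (move 621 (leaf 493 5)) (move 591 (branch (move 623 (leaf 494 4)) (move 588 (branch (move 587 (leaf 555 2)) (move 556 (branch (move 555 (leaf 555 3)) (move 592 (branch (move 557 (leaf 556 0)) (move 593 (branch (move 594 (leaf 558 3)) (move 625 (branch (move 624 (leaf 589 0)) (move 626 (leaf 590 0)))))))))))))))) (move 589 (branch (move 621 (leaf 493 5)) (move 560 (branch (move 561 (leaf 557 1)) (move 588 (branch (move 557 (leaf 556 1)) (move 587 (leaf 555 2)))))))))))))))) (branch (move 622 (branch (move 654 (branch (move 557 (leaf 525 7)) (move 655 (branch (move 623 (leaf 526 4)) (move 687 (leaf 558 4)))))) (branch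 (move 654 (branch (move 557 (leaf 525 7)) (move 653 (branch (move 621 (leaf 525 5)) (move 685 (leaf 557 5)))))) (move 621 (branch (move 653 (leaf 525 5)) (move 589 (branch (move 494 (leaf 493 5)) (move 623 (branch (move 655 (leaf 526 4)) (move 588 (branch (move 587 (leaf 587 0)) (move 624 (leaf 588 3))))))))))))) (move 621 (branch (move 589 (branch (move 494 (leaf 493 5)) (move 653 (branch (move 622 (leaf 525 5)) (move 685 (leaf 557 6)))))) (branch (move 653 (branch (move 622 (leaf 525 5)) (move 589 (branch (move 557 (leaf 525 6)) (move 685 (leaf 557 6)))))) (branch (move 494 (branch (move 589 (leaf 493 5)) (move 463 (branch (move 495 (leaf 462 6)) (move 462 (branch (move 431 (leaf 430 6)) (move 430 (branch (move 557 (leaf 429 5)) (move 429 (branch (move 397 (leaf 397 7)) (move 461 (leaf 429 7)))))))))))) (move 622 (branch (move 653 (leaf 525 5)) (move 557 (branch (move 654 (leaf 525 7)) (move 556 (branch (move 555 (branch (move 554 (leaf 522 2)) (move 522 (leaf 522 3)))) (move 588 (branch (move 620 (branch (move 652 (leaf 524 6)) (move 619 (branch (move 591 (leaf 587 2)) (move 587 (branch (move 586 (leaf 586 3)) (move 651 (branch (move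 650 (leaf 618 1)) (move 683 (leaf 555 6)))))))))) (branch (move 620 (branch (move 652 (leaf 524 6)) (move 591 (branch (move 619 (leaf 587 2)) (move 592 (branch (move 559 (leaf 556 0)) (move 593 (leaf 589 1)))))))) (branch (move 559 (branch (move 587 (leaf 555 1)) (move 591 (branch (move 592 (leaf 556 0)) (move 560 (branch (move 561 (leaf 525 3)) (move 494 (branch (move 462 (leaf 462 4)) (move 528 (branch (move 529 (leaf 525 2)) (move 496 (branch (move 464 (leaf 463 5)) (move 495 (branch (move 497 (leaf 493 1)) (move 463 (leaf 462 6)))))))))))))))) (move 587 (branch (move 559 (leaf 555 1)) (move 620 (branch (move 652 (leaf 524 6)) (move 586 (branch (move 585 (leaf 585 0)) (move 619 (leaf 586 3)))))))))))))))))))))))))))))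
theorem a6p934 : a6e934.Valid :=
  pos_of_chk [a6e933] (forall_cons a6p933 forall_nil) a6c934 a6e934 (by decide +kernel)

def a6e935 : Pos := ⟨4052261298678835292609628120773079911961718087955717537554129853727531592495336252194149373545615845114356041843611157552443134139381462599519817739315041704257708836934618447872, 2961193262834797469948103555163678318745470095808309335281513113640328112567913083632933582006071528470596027669968788606488739329817016253784149830867065528442062342063094603045176473578651282301427635708670721406542540701696, 11⟩
def a6c935 : Cert := (move 622 (branch (move 655 (branch (move 623 (leaf 526 4)) (move 654 (branch (move 687 (leaf 558 4)) (move 653 (branch (move 621 (leaf 525 5)) (move 685 (leaf 557 5)))))))) (branch (move 559 (branch (move 524 (leaf 523 0)) (move 655 (branch (move 623 (leaf 526 4)) (move 654 (branch (move 687 (leaf 558 4)) (move 560 (branch (move 561 (leaf 525 3)) (move 686 (branch (move 591 (leaf 558 6)) (move 685 (branch (move 653 (leaf 557 5)) (move 717 (leaf 589 5)))))))))))))) (branch (move 589 (branch (move 623 (branch (move 655 (leaf 526 4)) (move 588 (branch (move 587 (leaf 587 0))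 (move 624 (branch (move 591 (leaf 588 0)) (move 625 (leaf 589 3)))))))) (branch (move 559 (branch (move 524 (leaf 523 0)) (move 560 (branch (move 561 (leaf 557 1)) (move 588 (branch (move 587 (leaf 555 2)) (move 591 (leaf 556 2)))))))) (branch (move 559 (branch (move 524 (leaf 523 0)) (move 560 (branch (move 561 (leaf 557 1)) (move 655 (branch (move 623 (leaf 526 4)) (move 654 (branch (move 687 (leaf 558 4)) (move 686 (branch (move 591 (leaf 558 6)) (move 718 (branch (move 621 (leaf 589 7)) (move 717 (branch (move 685 (leaf 589 5)) (move 749 (leaf 621 5)))))))))))))))) (move 559 (branch (move 524 (leaf 523 0)) (move 560 (branch (move 561 (leaf 557 1)) (move 623 (branch (move 655 (leaf 526 4)) (move 588 (branch (move 587 (leaf 587 0)) (move 624 (branch (move 621 (leaf 588 3)) (move 625 (leaf 589 3)))))))))))))))) (branch (move 621 (branch (move 653 (leaf 525 5)) (ref 0))) (move 524 (branch (move 559 (leaf 523 0)) (move 619 (branch (move 555 (branch (move 554 (leaf 522 1)) (move 587 (branch (move 492 (leaf 491 6)) (move 651 (branch (move 556 (leaf 523 6)) (move 652 (branch (move 620 (leaf 523 4)) (move 684 (leaf 555 4)))))))))) (branch (move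 621 (branch (move 653 (leaf 525 5)) (move 620 (branch (move 591 (leaf 587 2)) (move 618 (branch (move 589 (leaf 586 2)) (move 586 (branch (move 585 (leaf 585 3)) (move 587 (leaf 586 3)))))))))) (branch (move 621 (branch (move 653 (leaf 525 5)) (move 620 (branch (move 591 (leaf 587 2)) (move 651 (branch (move 650 (leaf 618 1)) (move 588 (branch (move 556 (leaf 523 5)) (move 618 (branch (move 589 (leaf 586 2)) (move 554 (branch (move 555 (leaf 522 1)) (move 586 (branch (move 585 (leaf 585 3)) (move 522 (leaf 522 4)))))))))))))))) (move 555 (branch (move 554 (leaf 522 1)) (move 587 (branch (move 492 (leaf 491 6)) (move 618 (branch (move 650 (leaf 522 5)) (move 588 (branch (move 589 (leaf 586 1)) (move 651 (branch (move 556 (leaf 523 6)) (move 653 (branch (move 621 (leaf 525 5)) (move 652 (branch (move 654 (leaf 618 3)) (move 684 (leaf 555 4)))))))))))))))))))))))))))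
theorem a6p935 : a6e935.Valid :=
  pos_of_chk [a6e932] (forall_cons a6p932 forall_nil) a6c935 a6e935 (by decide +kernel)

def a6e936 : Pos := ⟨943490606562354816387180350426126064281462752402120742701503456349918140475685458558209796004787793199762730616510369417299650775411541534125624041112023482050331803648, 2961193262834797469968169381204130793367208491056502712399371519707994548849664493474574479477317364338095983253660621396647913058623992964098310760270836735796978018685231535281556446949828767320241131428987422348339090292736, 13⟩
def a6c936 : Cert := (move 590 (branch (ref 0) (branch (move 622 (branch (move 655 (branch (move 623 (leaf 526 4)) (move 654 (branch (move 687 (leaf 558 4)) (move 653 (branch (move 621 (leaf 525 5)) (move 685 (leaf 557 5)))))))) (branch (move 623 (branch (move 655 (leaf 526 4)) (move 494 (branch (move 591 (leaf 494 4)) (move 495 (branch (move 524 (leaf 491 2)) (move 463 (leaf 462 6)))))))) (move 621 (branch (move 653 (leaf 525 5)) (move 494 (branch (move 589 (leaf 493 5)) (move 495 (branch (move 524 (leaf 491 2)) (move 463 (leaf 462 6))))))))))) (branch (move 494 (branch (move 591 (branch (move 623 (leaf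 494 4)) (move 462 (branch (move 559 (leaf 462 4)) (move 463 (branch (move 431 (leaf 430 6)) (move 495 (leaf 462 6)))))))) (branch (move 559 (branch (move 524 (leaf 523 0)) (move 591 (branch (move 462 (leaf 462 4)) (move 623 (leaf 494 4)))))) (move 495 (branch (move 524 (leaf 491 2)) (move 463 (leaf 462 6))))))) (branch (ref 1) (branch (move 524 (branch (move 559 (leaf 523 0)) (move 494 (branch (move 495 (leaf 491 2)) (move 555 (branch (move 554 (leaf 522 1)) (move 621 (branch (move 589 (leaf 493 5)) (move 622 (branch (move 653 (leaf 525 5)) (move 655 (branch (move 623 (leaf 526 4)) (move 654 (branch (move 687 (leaf 558 4)) (move 619 (branch (move 620 (leaf 619 0)) (move 587 (branch (move 492 (leaf 491 6)) (move 651 (branch (move 556 (leaf 523 6)) (move 650 (branch (move 618 (leaf 522 5)) (move 682 (leaf 554 5)))))))))))))))))))))))) (move 589 (branch (move 559 (branch (move 524 (leaf 523 0)) (move 560 (branch (move 561 (leaf 557 1)) (move 588 (branch (move 587 (leaf 555 2)) (move 591 (leaf 556 2)))))))) (move 621 (branch (move 494 (leaf 493 5)) (move 653 (branch (move 622 (leaf 525 5)) (move 685 (leaf 557 6))))))))))))))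
theorem a6p936 : a6e936.Valid :=
  pos_of_chk [a6e933, a6e935] (forall_cons a6p933 (forall_cons a6p935 forall_nil)) a6c936 a6e936 (by decide +kernel)

def a6e937 : Pos := ⟨356969478326791705179058841552232447298010635607451881288512099877648245536678114710373101314395636858819408192357004617930343375985265478253849471137982971904, 80263304344015527060843117629364629530612422602938099532989313760848254626811353612210968708828397375461562570147318457320482273826099106070012023147410777221891036262605475104363618458450842021019051360256, 16⟩
def a6c937 : Cert := (move 524 (branch (move 494 (branch (move 495 (leaf 491 2)) (move 462 (branch (move 430 (branch (move 557 (leaf 429 5)) (move 397 (branch (move 429 (leaf 397 7)) (move 398 (branch (move 365 (leaf 365 7)) (move 399 (branch (move 367 (leaf 366 6)) (move 431 (leaf 398 6)))))))))) (branch (move 558 (branch (move 559 (leaf 523 0)) (move 589 (branch (move 557 (leaf 461 5)) (move 590 (branch (move 621 (leaf 493 5)) (move 623 (branch (move 591 (leaf 494 4)) (move 622 (branch (move 655 (leaf 526 4)) (move 555 (branch (move 554 (leaf 522 1)) (move 587 (branch (move 588 (leaf 587 0)) (move 619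 (branch (move 492 (leaf 491 6)) (move 651 (branch (move 556 (leaf 523 6)) (move 652 (branch (move 620 (leaf 523 4)) (move 684 (leaf 555 4)))))))))))))))))))))) (move 558 (branch (move 559 (leaf 523 0)) (move 429 (branch (move 461 (leaf 429 7)) (move 430 (branch (move 397 (leaf 397 7)) (move 431 (branch (move 399 (leaf 398 6)) (move 463 (leaf 430 6))))))))))))))) (branch (move 494 (branch (move 495 (leaf 491 2)) (move 462 (branch (move 430 (branch (move 557 (leaf 429 5)) (move 397 (branch (move 429 (leaf 397 7)) (move 398 (branch (move 365 (leaf 365 7)) (move 399 (branch (move 367 (leaf 366 6)) (move 431 (leaf 398 6)))))))))) (branch (move 558 (branch (move 559 (leaf 523 0)) (move 429 (branch (move 461 (leaf 429 7)) (move 430 (branch (move 397 (leaf 397 7)) (move 431 (branch (move 399 (leaf 398 6)) (move 463 (leaf 430 6)))))))))) (move 558 (branch (move 559 (leaf 523 0)) (move 589 (branch (move 557 (leaf 461 5)) (move 590 (branch (move 621 (leaf 493 5)) (move 623 (branch (move 591 (leaf 494 4)) (move 622 (branch (move 655 (leaf 526 4)) (move 491 (branch (move 490 (leaf 490 3)) (move 588 (branch (move 587 (leaf 587 0)) (move 556 (branch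 (move 620 (leaf 491 7)) (move 459 (branch (move 427 (leaf 427 4)) (move 492 (leaf 459 7))))))))))))))))))))))))) (branch (move 491 (branch (move 490 (leaf 490 3)) (move 459 (branch (move 427 (branch (move 556 (leaf 427 4)) (move 395 (branch (move 492 (leaf 395 4)) (move 396 (branch (move 364 (leaf 363 6)) (move 428 (leaf 395 6)))))))) (branch (move 555 (branch (move 554 (leaf 522 1)) (move 460 (branch (move 428 (leaf 427 6)) (move 587 (branch (move 492 (leaf 459 6)) (move 426 (branch (move 458 (leaf 426 7)) (move 427 (branch (move 394 (leaf 394 7)) (move 620 (branch (move 588 (leaf 491 4)) (move 619 (branch (move 652 (leaf 523 4)) (move 618 (branch (move 586 (leaf 490 5)) (move 650 (leaf 522 5)))))))))))))))))) (branch (move 555 (branch (move 554 (leaf 522 1)) (move 556 (branch (move 427 (leaf 427 4)) (move 588 (leaf 459 4)))))) (move 555 (branch (move 554 (leaf 522 1)) (move 460 (branch (move 428 (leaf 427 6)) (move 587 (branch (move 492 (leaf 459 6)) (move 588 (branch (move 556 (leaf 459 4)) (move 620 (leaf 491 4)))))))))))))))) (branch (move 494 (branch (move 495 (leaf 491 2)) (move 462 (branch (move 430 (branch (move 557 (leaf 429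 5)) (move 397 (branch (move 429 (leaf 397 7)) (move 398 (branch (move 365 (leaf 365 7)) (move 399 (branch (move 367 (leaf 366 6)) (move 431 (leaf 398 6)))))))))) (branch (move 558 (branch (move 559 (leaf 523 0)) (move 429 (branch (move 461 (leaf 429 7)) (move 430 (branch (move 397 (leaf 397 7)) (move 431 (branch (move 399 (leaf 398 6)) (move 463 (leaf 430 6)))))))))) (move 558 (branch (move 559 (leaf 523 0)) (move 589 (branch (move 557 (leaf 461 5)) (move 590 (branch (move 621 (leaf 493 5)) (move 623 (branch (move 591 (leaf 494 4)) (move 622 (branch (move 655 (leaf 526 4)) (move 555 (branch (move 554 (leaf 522 1)) (move 491 (branch (move 490 (leaf 490 3)) (move 588 (branch (move 587 (leaf 587 0)) (move 556 (branch (move 459 (leaf 459 4)) (move 620 (leaf 491 7))))))))))))))))))))))))) (move 494 (branch (move 495 (leaf 491 2)) (move 462 (branch (move 430 (branch (move 557 (leaf 429 5)) (move 397 (branch (move 429 (leaf 397 7)) (move 398 (branch (move 365 (leaf 365 7)) (move 399 (branch (move 367 (leaf 366 6)) (move 431 (leaf 398 6)))))))))) (branch (move 558 (branch (move 559 (leaf 523 0)) (move 429 (branch (move 461 (leaf 429 7)) (move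 430 (branch (move 397 (leaf 397 7)) (move 431 (branch (move 399 (leaf 398 6)) (move 463 (leaf 430 6)))))))))) (branch (move 558 (branch (move 559 (leaf 523 0)) (move 589 (branch (move 557 (leaf 461 5)) (move 590 (branch (move 621 (leaf 493 5)) (move 623 (branch (move 591 (leaf 494 4)) (move 622 (branch (move 655 (leaf 526 4)) (move 491 (branch (move 490 (leaf 490 3)) (move 555 (branch (move 554 (leaf 522 1)) (move 463 (branch (move 431 (leaf 430 6)) (move 461 (branch (move 429 (leaf 429 7)) (move 460 (branch (move 492 (leaf 459 1)) (move 459 (branch (move 428 (leaf 427 6)) (move 426 (branch (move 427 (leaf 426 3)) (move 458 (leaf 426 7)))))))))))))))))))))))))) (move 558 (branch (move 559 (leaf 523 0)) (move 557 (branch (move 430 (leaf 429 5)) (move 589 (leaf 461 5)))))))))))))))))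
theorem a6p937 : a6e937.Valid :=
  pos_of_chk [] forall_nil a6c937 a6e937 (by decide +kernel)

def a6e938 : Pos := ⟨117936325803132357904464360546858158127348872133707909181502797516431469828456377814594845691394955038323091838694586955619079756770278485456288849798750272835786113024, 23359695969840033786236836065994514064341466984987433559570198866366469610279898706702902753855163106320638374233394060741340493269103046565370119639646924194367296648147516770308238426138365394944, 5⟩
def a6c938 : Cert := (move 587 (branch (move 618 (branch (move 586 (leaf 490 5)) (move 619 (branch (move 650 (leaf 522 5)) (move 620 (branch (move 588 (leaf 491 4)) (move 652 (leaf 523 4)))))))) (branch (move 588 (branch (move 620 (leaf 491 4)) (move 459 (branch (move 556 (leaf 459 4)) (move 460 (branch (move 428 (leaf 427 6)) (move 492 (leaf 459 6)))))))) (move 492 (branch (move 460 (leaf 459 6)) (move 619 (branch (move 524 (leaf 491 6)) (move 618 (branch (move 586 (leaf 490 5)) (move 650 (leaf 522 5)))))))))))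
theorem a6p938 : a6e938.Valid :=
  pos_of_chk [] forall_nil a6c938 a6e938 (by decide +kernel)

def a6e939 : Pos := ⟨117936326132642645590733626865989396483255746562640803588381457167365715869362450617682336193277817790072910477604809902410160942552133909442687752802303630809308856320, 23359695969840033788262966714729508040867471324015641187098637484299248420865262559532366582352469909288224611989643746542382982387437618199737764900808489106731164720979756743830920626203313307648, 6⟩
def a6c939 : Cert := (move 587 (branch (move 618 (branch (move 586 (leaf 490 5)) (move 619 (branch (move 650 (leaf 522 5)) (move 620 (branch (move 588 (leaf 491 4)) (move 652 (leaf 523 4)))))))) (branch (move 524 (branch (move 554 (leaf 522 1)) (move 492 (branch (move 460 (leaf 459 6)) (move 619 (leaf 491 6)))))) (move 554 (branch (move 524 (leaf 522 1)) (move 586 (branch (move 618 (leaf 490 5)) (move 588 (branch (move 620 (leaf 491 4)) (move 553 (branch (move 552 (leaf 552 0)) (move 589 (leaf 553 3)))))))))))))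
theorem a6p939 : a6e939.Valid :=
  pos_of_chk [] forall_nil a6c939 a6e939 (by decide +kernel)

def a6e940 : Pos := ⟨356969478333185046211594559349459361336472055360179643571046218301295426377447367959397930566458262704865479021154117955135425783924776064852910743580668067840, 5438853048216559409225118978560509568968265620680825360823594850211692707670037754943816617906589206214485292279956331220643216618913130909202228304192048307335157569598675478719712198656, 5⟩
def a6c940 : Cert := (move 555 (branch (move 554 (branch (move 586 (leaf 458 5)) (move 556 (branch (move 557 (leaf 522 2)) (move 588 (leaf 459 4)))))) (branch (move 460 (branch (move 428 (leaf 427 6)) (move 587 (branch (move 492 (leaf 459 6)) (move 588 (branch (move 556 (leaf 459 4)) (move 620 (leaf 491 4)))))))) (move 460 (branch (move 428 (leaf 427 6)) (move 587 (branch (move 492 (leaf 459 6)) (move 586 (branch (move 554 (leaf 458 5)) (move 618 (leaf 490 5)))))))))))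
theorem a6p940 : a6e940.Valid :=
  pos_of_chk [] forall_nil a6c940 a6e940 (by decide +kernel)

def a6e941 : Pos := ⟨356969478333185046211594559349805945048237157217626945344064103764224981011869345031294240514035090368341182224034114755898443231186949966223086190059289837568, 471745303102692669081341050917870294303386489181877105426321866544704242789566519667569676372453921703177723574333011683252958873438303533526521115802559593264644620288, 7⟩
def a6c941 : Cert := (move 428 (branch (move 396 (leaf 395 6)) (move 429 (branch (move 430 (branch (move 458 (leaf 426 1)) (move 462 (branch (move 463 (leaf 427 0)) (move 494 (branch (move 557 (leaf 429 5)) (move 397 (leaf 397 7)))))))) (branch (move 426 (branch (move 394 (leaf 394 7)) (move 462 (branch (move 461 (leaf 426 0)) (move 430 (branch (move 463 (leaf 427 0)) (move 397 (branch (move 398 (leaf 394 2)) (move 494 (leaf 397 7)))))))))) (move 426 (branch (move 394 (leaf 394 7)) (move 457 (branch (move 458 (leaf 425 1)) (move 425 (branch (move 456 (leaf 424 1)) (move 460 (branch (move 424 (leaf 424 0)) (move 461 (leaf 425 0)))))))))))))))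
theorem a6p941 : a6e941.Valid :=
  pos_of_chk [] forall_nil a6c941 a6e941 (by decide +kernel)

def a6e942 : Pos := ⟨117936326132642645590733626865989396483255746562640803588381457167365715869362450617682336193277817790072910477604809902410160942552133909442687752802303630809308856320, 23359695970655861745419470727355677762913676485804896073245152057734828173379587717540601255610226930811487626589634392344439239052922593934440608828737484559535167954854549555519583390550139600896, 12⟩
def a6c942 : Cert := (move 587 (branch (move 490 (branch (move 458 (leaf 458 7)) (move 619 (branch (move 522 (leaf 490 7)) (move 618 (branch (move 586 (leaf 490 5)) (move 650 (leaf 522 5)))))))) (branch (move 618 (branch (move 586 (leaf 490 5)) (move 619 (branch (move 650 (leaf 522 5)) (move 620 (branch (move 588 (leaf 491 4)) (move 652 (leaf 523 4)))))))) (branch (move 490 (branch (move 458 (leaf 458 7)) (move 619 (branch (move 522 (leaf 490 7)) (move 620 (branch (move 588 (leaf 491 4)) (move 652 (leaf 523 4)))))))) (move 554 (branch (move 588 (branch (move 620 (leaf 491 4)) (move 553 (branch (move 552 (leaf 552 0)) (move 556 (branch (move 589 (leaf 553 0))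 (move 557 (leaf 522 2)))))))) (branch (move 586 (branch (move 618 (leaf 490 5)) (move 556 (branch (move 557 (leaf 522 2)) (move 585 (branch (move 584 (leaf 552 2)) (move 490 (branch (move 458 (leaf 458 7)) (move 522 (branch (move 617 (leaf 489 5)) (move 521 (branch (move 520 (leaf 520 0)) (move 489 (branch (move 457 (leaf 457 7)) (move 488 (branch (move 487 (leaf 487 0)) (move 456 (branch (move 455 (leaf 455 3)) (move 553 (leaf 456 7)))))))))))))))))))) (branch (move 586 (branch (move 618 (leaf 490 5)) (move 588 (branch (move 620 (leaf 491 4)) (move 553 (branch (move 552 (leaf 552 0)) (move 589 (leaf 553 3)))))))) (move 586 (branch (move 618 (leaf 490 5)) (move 556 (branch (move 557 (leaf 522 2)) (move 588 (branch (move 620 (leaf 491 4)) (move 585 (branch (move 584 (leaf 552 2)) (move 490 (branch (move 458 (leaf 458 7)) (move 617 (branch (move 616 (leaf 584 1)) (move 522 (leaf 489 5))))))))))))))))))))))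
theorem a6p942 : a6e942.Valid :=
  pos_of_chk [] forall_nil a6c942 a6e942 (by decide +kernel)

def a6e943 : Pos := ⟨117936326132642645590733626865989396483255746562640803588381457167365715869362450617682336193277817790072910477604809902410160942552133909442687752802303630809308856320, 1013065324669708823118083041898211102828850518878551805368191849413018704535318773160672618670146964650057719617731689336599073434719834108278219603573687895354477154048019529728, 6⟩
def a6c943 : Cert := (move 459 (branch (move 426 (branch (move 458 (leaf 426 7)) (move 427 (branch (move 394 (leaf 394 7)) (move 428 (branch (move 396 (leaf 395 6)) (move 460 (leaf 427 6)))))))) (branch (move 524 (branch (move 490 (leaf 490 3)) (move 556 (branch (move 427 (leaf 427 4)) (move 588 (leaf 459 4)))))) (move 490 (branch (move 524 (leaf 490 3)) (move 458 (branch (move 426 (leaf 426 7)) (move 460 (branch (move 428 (leaf 427 6)) (move 489 (branch (move 461 (leaf 457 1)) (move 488 (leaf 456 2)))))))))))))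
theorem a6p943 : a6e943.Valid :=
  pos_of_chk [] forall_nil a6c943 a6e943 (by decide +kernel)

def a6e944 : Pos := ⟨506532662334854411943470189920015949777793605835188740444797424867781417460698687507654785458289340748954325995845600284414775983802234284862644339089098111196106526498765144064, 471745303102692669196421189453832334176179573900579832760760882995818903904933691132826725789524838992331518501053741541171299989274519253354099131746642834644180926464, 11⟩
def a6c944 : Cert := (move 460 (branch (move 492 (leaf 459 6)) (move 459 (branch (move 428 (leaf 427 6)) (move 426 (branch (move 458 (leaf 426 7)) (move 427 (branch (move 394 (leaf 394 7)) (move 494 (branch (move 495 (leaf 491 2)) (move 462 (branch (move 461 (leaf 426 3)) (move 430 (branch (move 557 (leaf 429 5)) (move 397 (branch (move 429 (leaf 397 7)) (move 398 (branch (move 365 (leaf 365 7)) (move 399 (branch (move 367 (leaf 366 6)) (move 431 (leaf 398 6))))))))))))))))))))))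
theorem a6p944 : a6e944.Valid :=
  pos_of_chk [] forall_nil a6c944 a6e944 (by decide +kernel)

def a6e945 : Pos := ⟨27459190650112450410964028453202048294537393567496814990913417732244385075929241973910406333824115409436350396554275111358774030282582153760706318031592095744, 271942652638767668525208270793601849350441755296273508536051307134746629650739824813691475921534363788654838754153484076604758645838057353430314737808243915951381313190736426574582644736, 9⟩
def a6c945 : Cert := (move 457 (branch (move 458 (branch (move 456 (branch (move 455 (leaf 455 0)) (move 492 (leaf 456 0)))) (move 425 (branch (move 424 (leaf 424 3)) (move 522 (branch (move 554 (leaf 425 7)) (move 426 (branch (move 394 (leaf 394 4)) (move 393 (leaf 393 7)))))))))) (branch (move 458 (branch (move 425 (branch (move 424 (leaf 424 3)) (move 522 (branch (move 554 (leaf 425 7)) (move 393 (branch (move 361 (leaf 361 4)) (move 489 (leaf 393 4)))))))) (branch (move 425 (branch (move 424 (leaf 424 3)) (move 522 (branch (move 554 (leaf 425 7)) (move 426 (branch (move 394 (leaf 394 4)) (move 393 (leaf 393 7)))))))) (branch (move 489 (branch (move 488 (leaf 456 1)) (move 426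 (branch (move 394 (leaf 394 4)) (move 521 (branch (move 553 (leaf 425 6)) (move 520 (branch (move 492 (leaf 488 1)) (move 519 (branch (move 518 (leaf 486 2)) (move 522 (leaf 487 2)))))))))))) (move 489 (branch (move 488 (leaf 456 1)) (move 426 (branch (move 394 (leaf 394 4)) (move 425 (branch (move 424 (leaf 424 3)) (move 521 (branch (move 553 (leaf 425 6)) (move 520 (branch (move 492 (leaf 488 1)) (move 552 (leaf 424 5)))))))))))))))) (branch (move 458 (branch (move 425 (branch (move 424 (leaf 424 3)) (move 522 (branch (move 554 (leaf 425 7)) (move 426 (branch (move 394 (leaf 394 4)) (move 393 (leaf 393 7)))))))) (move 488 (branch (move 489 (leaf 456 1)) (move 456 (branch (move 455 (leaf 455 0)) (move 487 (leaf 455 1)))))))) (branch (move 489 (branch (move 488 (leaf 456 2)) (move 456 (branch (move 492 (leaf 456 3)) (move 455 (branch (move 454 (leaf 454 0)) (move 458 (leaf 455 0)))))))) (move 489 (branch (move 488 (leaf 456 2)) (move 521 (branch (move 492 (branch (move 520 (leaf 488 1)) (move 456 (leaf 456 3)))) (branch (move 456 (branch (move 492 (leaf 456 3)) (move 553 (branch (move 424 (leaf 424 7)) (move 554 (branch (move 586 (leaf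 457 4)) (move 522 (branch (move 425 (leaf 425 4)) (move 552 (branch (move 551 (leaf 519 2)) (move 584 (leaf 456 5)))))))))))) (move 522 (branch (move 520 (branch (move 519 (leaf 487 2)) (move 425 (branch (move 393 (leaf 393 4)) (move 552 (leaf 424 5)))))) (branch (move 554 (branch (move 586 (leaf 458 6)) (move 520 (branch (move 519 (leaf 487 2)) (move 552 (branch (move 551 (leaf 519 1)) (move 584 (branch (move 553 (leaf 456 5)) (move 616 (leaf 488 6)))))))))) (move 554 (branch (move 425 (leaf 425 4)) (move 586 (leaf 458 6)))))))))))))))))
theorem a6p945 : a6e945.Valid :=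
  pos_of_chk [] forall_nil a6c945 a6e945 (by decide +kernel)

def a6e946 : Pos := ⟨356969478326791705179058841552232447298010635607451881288512099877648245536678114710373101314395636858819408192357004617930343375985265478253849471137982971904, 80263304194513472842499698529761053456447427268965805798285586623563445911877894073402661473305613204708681638446318700493229465324340731355608913972738498168773383955177950305242124146034266543450990051328, 15⟩
def a6c946 : Cert := (move 491 (branch (move 555 (branch (ref 0) (branch (move 459 (branch (move 426 (branch (move 458 (leaf 426 7)) (move 427 (branch (move 394 (leaf 394 7)) (move 428 (branch (move 396 (leaf 395 6)) (move 460 (leaf 427 6)))))))) (move 554 (branch (move 586 (leaf 458 5)) (move 556 (branch (move 557 (leaf 522 2)) (move 588 (leaf 459 4)))))))) (branch (move 554 (branch (move 524 (leaf 522 1)) (move 586 (branch (move 459 (leaf 458 5)) (move 618 (branch (move 587 (leaf 490 5)) (move 522 (leaf 490 6)))))))) (branch (move 554 (branch (move 524 (leaf 522 1)) (move 556 (branch (move 557 (leaf 522 2)) (move 588 (branch (move 459 (leaf 459 4)) (move 620 (branch (move 587 (leaf 491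 4)) (move 652 (leaf 523 7)))))))))) (ref 1)))))) (branch (move 459 (branch (move 555 (branch (move 426 (branch (move 458 (leaf 426 7)) (move 427 (branch (move 394 (leaf 394 7)) (move 428 (branch (move 396 (leaf 395 6)) (move 460 (leaf 427 6)))))))) (branch (move 460 (branch (move 428 (leaf 427 6)) (move 587 (branch (move 492 (leaf 459 6)) (move 588 (branch (move 556 (leaf 459 4)) (move 620 (leaf 491 4)))))))) (move 458 (branch (move 426 (leaf 426 7)) (move 587 (branch (move 490 (leaf 458 7)) (move 588 (branch (move 556 (leaf 459 4)) (move 620 (leaf 491 4))))))))))) (branch (ref 2) (branch (move 555 (branch (move 554 (branch (move 586 (leaf 458 5)) (move 556 (branch (move 557 (leaf 522 2)) (move 588 (leaf 459 4)))))) (branch (move 458 (branch (move 426 (leaf 426 7)) (move 587 (branch (move 490 (leaf 458 7)) (move 588 (branch (move 556 (leaf 459 4)) (move 620 (leaf 491 4)))))))) (move 458 (branch (move 426 (leaf 426 7)) (move 587 (branch (move 490 (leaf 458 7)) (move 586 (branch (move 554 (leaf 458 5)) (move 618 (leaf 490 5))))))))))) (move 427 (branch (move 522 (branch (move 554 (leaf 426 5)) (move 395 (branch (move 490 (leaf 394 5)) (move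 396 (branch (move 364 (leaf 363 6)) (move 428 (leaf 395 6)))))))) (branch (move 522 (branch (move 554 (leaf 426 5)) (move 395 (branch (move 490 (leaf 394 5)) (move 394 (branch (move 362 (leaf 362 7)) (move 426 (leaf 394 7)))))))) (ref 3)))))))) (branch (move 555 (branch (move 490 (branch (move 524 (leaf 490 3)) (move 458 (branch (move 587 (leaf 458 7)) (move 426 (branch (move 394 (leaf 394 4)) (move 522 (leaf 426 4)))))))) (branch (ref 1) (branch (move 524 (branch (move 554 (leaf 522 1)) (move 490 (leaf 490 3)))) (ref 4))))) (branch (move 555 (branch (move 587 (branch (move 490 (branch (move 458 (leaf 458 7)) (move 619 (branch (move 522 (leaf 490 7)) (move 618 (branch (move 586 (leaf 490 5)) (move 650 (leaf 522 5)))))))) (move 588 (branch (move 620 (leaf 491 4)) (move 459 (branch (move 556 (leaf 459 4)) (move 460 (branch (move 428 (leaf 427 6)) (move 492 (leaf 459 6)))))))))) (branch (ref 0) (branch (move 490 (branch (move 524 (leaf 490 3)) (move 458 (branch (move 587 (leaf 458 7)) (move 426 (branch (move 394 (leaf 394 4)) (move 522 (leaf 426 4)))))))) (ref 5))))) (branch (move 555 (branch (ref 5) (branch (move 459 (branch (move 426 (branch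 (move 458 (leaf 426 7)) (move 427 (branch (move 394 (leaf 394 7)) (move 428 (branch (move 396 (leaf 395 6)) (move 460 (leaf 427 6)))))))) (move 554 (branch (move 586 (leaf 458 5)) (move 556 (branch (move 557 (leaf 522 2)) (move 588 (leaf 459 4)))))))) (move 524 (branch (move 554 (leaf 522 1)) (move 490 (leaf 490 3))))))) (branch (move 524 (branch (move 490 (leaf 490 3)) (move 555 (branch (move 554 (leaf 522 1)) (move 587 (branch (move 620 (branch (move 588 (leaf 491 4)) (move 619 (branch (move 652 (leaf 523 4)) (move 618 (branch (move 586 (leaf 490 5)) (move 650 (leaf 522 5)))))))) (ref 6))))))) (branch (move 555 (branch (move 490 (branch (move 524 (leaf 490 3)) (move 458 (branch (move 587 (leaf 458 7)) (move 426 (branch (move 394 (leaf 394 4)) (move 522 (leaf 426 4)))))))) (branch (move 554 (branch (move 524 (leaf 522 1)) (move 556 (branch (move 557 (leaf 522 2)) (move 588 (branch (move 459 (leaf 459 4)) (move 620 (branch (move 587 (leaf 491 4)) (move 652 (leaf 523 7)))))))))) (branch (move 524 (branch (move 554 (leaf 522 1)) (move 490 (leaf 490 3)))) (ref 4))))) (branch (move 459 (branch (move 427 (branch (move 396 (branch (move 428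 (leaf 395 6)) (move 395 (branch (move 364 (leaf 363 6)) (move 394 (branch (move 362 (leaf 362 7)) (move 426 (leaf 394 7)))))))) (branch (move 522 (branch (move 554 (leaf 426 5)) (move 395 (branch (move 490 (leaf 394 5)) (move 394 (branch (move 362 (leaf 362 7)) (move 426 (leaf 394 7)))))))) (move 428 (branch (move 396 (leaf 395 6)) (move 555 (branch (move 460 (leaf 427 6)) (move 554 (branch (move 522 (leaf 426 5)) (move 586 (leaf 458 5))))))))))) (branch (ref 2) (branch (move 524 (branch (move 490 (leaf 490 3)) (move 427 (branch (move 556 (leaf 427 4)) (move 395 (branch (move 492 (leaf 395 4)) (move 396 (branch (move 364 (leaf 363 6)) (move 428 (leaf 395 6)))))))))) (move 524 (branch (move 490 (leaf 490 3)) (move 556 (branch (move 427 (leaf 427 4)) (move 588 (branch (move 555 (leaf 459 4)) (move 492 (leaf 459 7)))))))))))) (branch (move 524 (branch (move 490 (leaf 490 3)) (move 555 (branch (move 554 (leaf 522 1)) (move 587 (branch (move 618 (branch (move 586 (leaf 490 5)) (move 619 (branch (move 650 (leaf 522 5)) (move 652 (branch (move 620 (leaf 523 4)) (move 651 (branch (move 684 (leaf 555 4)) (move 556 (leaf 523 6)))))))))) (ref 6)))))))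 (branch (move 555 (branch (move 587 (branch (move 490 (branch (move 458 (leaf 458 7)) (move 619 (branch (move 522 (leaf 490 7)) (move 618 (branch (move 586 (leaf 490 5)) (move 650 (leaf 522 5)))))))) (move 588 (branch (move 620 (leaf 491 4)) (move 459 (branch (move 556 (leaf 459 4)) (move 460 (branch (move 428 (leaf 427 6)) (move 492 (leaf 459 6)))))))))) (branch (move 554 (branch (move 524 (leaf 522 1)) (move 586 (branch (move 459 (leaf 458 5)) (move 618 (branch (move 587 (leaf 490 5)) (move 522 (leaf 490 6)))))))) (move 524 (branch (move 554 (leaf 522 1)) (move 490 (leaf 490 3))))))) (branch (move 555 (branch (move 490 (branch (move 524 (leaf 490 3)) (move 458 (branch (move 587 (leaf 458 7)) (move 426 (branch (move 394 (leaf 394 4)) (move 522 (leaf 426 4)))))))) (branch (ref 5) (branch (move 554 (branch (move 524 (leaf 522 1)) (move 556 (branch (move 557 (leaf 522 2)) (move 588 (branch (move 459 (leaf 459 4)) (move 620 (branch (move 587 (leaf 491 4)) (move 652 (leaf 523 7)))))))))) (move 459 (branch (move 426 (branch (move 458 (leaf 426 7)) (move 427 (branch (move 394 (leaf 394 7)) (move 428 (branch (move 396 (leaf 395 6)) (move 460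 (leaf 427 6)))))))) (branch (move 460 (branch (move 428 (leaf 427 6)) (move 587 (branch (move 492 (leaf 459 6)) (move 588 (branch (move 556 (leaf 459 4)) (move 620 (leaf 491 4)))))))) (move 458 (branch (move 426 (leaf 426 7)) (move 587 (branch (move 490 (leaf 458 7)) (move 588 (branch (move 556 (leaf 459 4)) (move 620 (leaf 491 4))))))))))))))) (move 459 (branch (move 427 (branch (move 522 (branch (move 554 (leaf 426 5)) (move 395 (branch (move 490 (leaf 394 5)) (move 396 (branch (move 364 (leaf 363 6)) (move 428 (leaf 395 6)))))))) (branch (move 522 (branch (move 554 (leaf 426 5)) (move 395 (branch (move 490 (leaf 394 5)) (move 394 (branch (move 362 (leaf 362 7)) (move 426 (leaf 394 7)))))))) (ref 3)))) (branch (move 427 (branch (ref 3) (branch (move 524 (branch (move 556 (leaf 427 4)) (move 395 (branch (move 492 (leaf 395 4)) (move 394 (branch (move 362 (leaf 362 7)) (move 426 (leaf 394 7)))))))) (move 524 (branch (move 556 (leaf 427 4)) (move 395 (branch (move 492 (leaf 395 4)) (move 396 (branch (move 364 (leaf 363 6)) (move 428 (leaf 395 6))))))))))) (branch (move 524 (branch (move 490 (leaf 490 3)) (move 556 (branch (move 427 (leaf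 427 4)) (move 588 (branch (move 492 (leaf 459 7)) (move 620 (leaf 491 7)))))))) (move 490 (branch (move 524 (leaf 490 3)) (move 460 (branch (move 461 (branch (move 462 (leaf 458 1)) (move 458 (branch (move 429 (branch (move 430 (leaf 426 2)) (move 457 (branch (move 428 (leaf 425 2)) (move 456 (branch (move 455 (leaf 455 0)) (move 492 (leaf 456 0)))))))) (move 426 (branch (move 425 (leaf 425 3)) (move 394 (leaf 394 4)))))))) (branch (move 489 (branch (move 488 (leaf 456 2)) (move 461 (branch (move 462 (leaf 458 1)) (move 492 (leaf 457 2)))))) (branch (move 489 (branch (move 488 (leaf 456 2)) (move 461 (branch (move 458 (leaf 457 1)) (move 462 (leaf 458 1)))))) (ref 7)))))))))))))))))))))))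
theorem a6p946 : a6e946.Valid :=
  pos_of_chk [a6e938, a6e939, a6e940, a6e941, a6e942, a6e943, a6e944, a6e945] (forall_cons a6p938 (forall_cons a6p939 (forall_cons a6p940 (forall_cons a6p941 (forall_cons a6p942 (forall_cons a6p943 (forall_cons a6p944 (forall_cons a6p945 forall_nil)))))))) a6c946 a6e946 (by decide +kernel)

def a6e947 : Pos := ⟨117936325803132357904464360546858158127348872133707909181502797516431469828456377814594845691394955038323091838694586955619079756770278485456288849798750272835786113024, 4351082438674554059351733496951815200037667877094618819959353622019962345205600031047990319187067904328264996714638029956464150111211775144327938372577591998498810480264793826520553488384, 5⟩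
def a6c947 : Cert := (move 459 (branch (move 426 (branch (move 458 (leaf 426 7)) (move 427 (branch (move 394 (leaf 394 7)) (move 428 (branch (move 396 (leaf 395 6)) (move 460 (leaf 427 6)))))))) (branch (move 460 (branch (move 428 (leaf 427 6)) (move 587 (branch (move 492 (leaf 459 6)) (move 588 (branch (move 556 (leaf 459 4)) (move 620 (leaf 491 4)))))))) (move 556 (branch (move 588 (leaf 459 4)) (move 427 (branch (move 524 (leaf 427 4)) (move 426 (branch (move 394 (leaf 394 7)) (move 458 (leaf 426 7)))))))))))
theorem a6p947 : a6e947.Valid :=
  pos_of_chk [] forall_nil a6c947 a6e947 (by decide +kernel)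

def a6e948 : Pos := ⟨117936325803132357904464360546858158127348872133707909181502797516431469828456377814594845691394955038323091838694586955619079756770278485456288849798750272835786113024, 1087770610048538011500621938554885672305185064718094670326827023190043908222149073350929595955041952576547195587657368524978129200755315381979876603264920937033278247000970087956056375296, 5⟩
def a6c948 : Cert := (move 459 (branch (move 426 (branch (move 458 (leaf 426 7)) (move 427 (branch (move 394 (leaf 394 7)) (move 428 (branch (move 396 (leaf 395 6)) (move 460 (leaf 427 6)))))))) (branch (move 554 (branch (move 586 (leaf 458 5)) (move 427 (branch (move 522 (leaf 426 5)) (move 426 (branch (move 394 (leaf 394 7)) (move 458 (leaf 426 7)))))))) (move 460 (branch (move 428 (leaf 427 6)) (move 587 (branch (move 492 (leaf 459 6)) (move 586 (branch (move 554 (leaf 458 5)) (move 618 (leaf 490 5)))))))))))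
theorem a6p948 : a6e948.Valid :=
  pos_of_chk [] forall_nil a6c948 a6e948 (by decide +kernel)

def a6e949 : Pos := ⟨117936326132642645590733626865989396483255746562640803588381457167365715869362450617682336193277817790072910477604809902410160942552133909442687752802303630809308856320, 23359695969840033788262966714729508040867471324015641187098637484299248420865262559532366582352469909288224611989643746542382982387437618199737764900808489106731164720979756743830920626203313307648, 6⟩
def a6c949 : Cert := (move 587 (branch (move 618 (branch (move 586 (leaf 490 5)) (move 619 (branch (move 650 (leaf 522 5)) (move 620 (branch (move 588 (leaf 491 4)) (move 652 (leaf 523 4)))))))) (branch (move 524 (branch (move 554 (leaf 522 1)) (move 492 (branch (move 460 (leaf 459 6)) (move 619 (leaf 491 6)))))) (move 554 (branch (move 524 (leaf 522 1)) (move 586 (branch (move 618 (leaf 490 5)) (move 588 (branch (move 620 (leaf 491 4)) (move 553 (branch (move 552 (leaf 552 0)) (move 589 (leaf 553 3)))))))))))))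
theorem a6p949 : a6e949.Valid :=
  pos_of_chk [] forall_nil a6c949 a6e949 (by decide +kernel)

def a6e950 : Pos := ⟨27459190646915779892463320993552486907539160953300983920111972260389353574359877457515067814708444065955256074363036769353570359938377161849357385607145324544, 58968162901566178952232180283802521339572345821222094291638514734524493402753461505452193527978449083742034713767326193865594136039268724604321328985685351077255315456, 9⟩
def a6c950 : Cert := (move 427 (branch (move 396 (branch (move 428 (leaf 395 6)) (move 395 (branch (move 364 (leaf 363 6)) (move 394 (branch (move 362 (leaf 362 7)) (move 426 (leaf 394 7)))))))) (branch (move 522 (branch (move 554 (leaf 426 5)) (move 395 (branch (move 490 (leaf 394 5)) (move 394 (branch (move 362 (leaf 362 7)) (move 426 (leaf 394 7)))))))) (branch (move 522 (branch (move 554 (leaf 426 5)) (move 395 (branch (move 490 (leaf 394 5)) (move 396 (branch (move 364 (leaf 363 6)) (move 428 (leaf 395 6)))))))) (move 426 (branch (move 394 (leaf 394 7)) (move 425 (branch (move 428 (branch (move 396 (leaf 395 6)) (move 457 (branch (move 456 (leaf 424 1)) (move 458 (branch (move 429 (leaf 425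 1)) (move 522 (branch (move 554 (leaf 426 5)) (move 393 (branch (move 392 (leaf 392 3)) (move 490 (leaf 393 7)))))))))))) (branch (move 424 (branch (move 460 (leaf 424 0)) (move 423 (branch (move 458 (leaf 423 0)) (move 455 (branch (move 454 (leaf 422 1)) (move 456 (leaf 423 1)))))))) (move 428 (branch (move 396 (leaf 395 6)) (move 460 (branch (move 424 (leaf 424 0)) (move 461 (leaf 425 0)))))))))))))))
theorem a6p950 : a6e950.Valid :=
  pos_of_chk [] forall_nil a6c950 a6e950 (by decide +kernel)

def a6e951 : Pos := ⟨27459190646915779890974755286195083995694145794746350633755714753701726186903385529593118552652205118983216802501248987085128715688744029441478521471742509056, 9343878392504650074571156893460123602891789975651590214656076390294689644929303356255520688269130294791159990455002787837143886195157085411425648078968963003744030312385037055041664658198583312384, 10⟩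
def a6c951 : Cert := (move 459 (branch (ref 0) (branch (move 555 (branch (move 426 (branch (move 458 (leaf 426 7)) (move 427 (branch (move 394 (leaf 394 7)) (move 428 (branch (move 396 (leaf 395 6)) (move 460 (leaf 427 6)))))))) (branch (move 458 (branch (move 426 (leaf 426 7)) (move 587 (branch (move 490 (leaf 458 7)) (move 588 (branch (move 556 (leaf 459 4)) (move 620 (leaf 491 4)))))))) (move 460 (branch (move 428 (leaf 427 6)) (move 587 (branch (move 492 (leaf 459 6)) (move 588 (branch (move 556 (leaf 459 4)) (move 620 (leaf 491 4))))))))))) (branch (move 427 (branch (move 428 (branch (move 396 (leaf 395 6)) (move 555 (branch (move 460 (leaf 427 6)) (move 588 (branch (move 556 (leaf 459 4)) (move 587 (branch (move 620 (leaf 491 4)) (move 586 (branch (move 554 (leaf 458 5)) (move 618 (leaf 490 5)))))))))))) (branch (move 428 (branch (move 396 (leaf 395 6)) (move 555 (branch (move 460 (leaf 427 6)) (move 588 (branch (move 556 (leaf 459 4)) (move 587 (branch (move 620 (leaf 491 4)) (move 490 (branch (move 458 (leaf 458 7)) (move 522 (branch (move 395 (leaf 394 5)) (move 619 (leaf 490 7)))))))))))))) (branch (move 522 (branch (move 554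 (leaf 426 5)) (move 395 (branch (move 490 (leaf 394 5)) (move 362 (branch (move 394 (leaf 362 7)) (move 363 (branch (move 330 (leaf 330 7)) (move 460 (branch (move 492 (leaf 363 4)) (move 428 (branch (move 331 (leaf 331 4)) (move 555 (leaf 427 6)))))))))))))) (move 522 (branch (move 554 (leaf 426 5)) (move 395 (branch (move 490 (leaf 394 5)) (move 364 (branch (move 396 (leaf 363 6)) (move 363 (branch (move 332 (leaf 331 6)) (move 362 (branch (move 330 (leaf 330 7)) (move 394 (leaf 362 7)))))))))))))))) (branch (move 555 (branch (move 554 (branch (move 586 (leaf 458 5)) (move 427 (branch (move 522 (leaf 426 5)) (move 426 (branch (move 394 (leaf 394 7)) (move 458 (leaf 426 7)))))))) (branch (move 458 (branch (move 426 (leaf 426 7)) (move 587 (branch (move 490 (leaf 458 7)) (move 588 (branch (move 556 (leaf 459 4)) (move 620 (leaf 491 4)))))))) (move 554 (branch (move 586 (leaf 458 5)) (move 588 (branch (move 556 (leaf 459 4)) (move 587 (branch (move 620 (leaf 491 4)) (move 522 (branch (move 427 (leaf 426 5)) (move 619 (branch (move 490 (leaf 490 7)) (move 651 (leaf 522 7))))))))))))))) (branch (move 427 (branch (move 396 (branch (move 428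 (leaf 395 6)) (move 395 (branch (move 364 (leaf 363 6)) (move 394 (branch (move 362 (leaf 362 7)) (move 426 (leaf 394 7)))))))) (branch (move 522 (branch (move 554 (leaf 426 5)) (move 395 (branch (move 490 (leaf 394 5)) (move 394 (branch (move 362 (leaf 362 7)) (move 426 (leaf 394 7)))))))) (move 428 (branch (move 396 (leaf 395 6)) (move 555 (branch (move 460 (leaf 427 6)) (move 588 (branch (move 556 (leaf 459 4)) (move 587 (branch (move 620 (leaf 491 4)) (move 586 (branch (move 554 (leaf 458 5)) (move 618 (leaf 490 5))))))))))))))) (branch (move 555 (branch (move 426 (branch (move 458 (leaf 426 7)) (move 427 (branch (move 394 (leaf 394 7)) (move 428 (branch (move 396 (leaf 395 6)) (move 460 (leaf 427 6)))))))) (branch (move 554 (branch (move 586 (leaf 458 5)) (move 427 (branch (move 522 (leaf 426 5)) (move 426 (branch (move 394 (leaf 394 7)) (move 458 (leaf 426 7)))))))) (move 460 (branch (move 428 (leaf 427 6)) (move 587 (branch (move 492 (leaf 459 6)) (move 586 (branch (move 554 (leaf 458 5)) (move 618 (leaf 490 5))))))))))) (move 555 (branch (move 458 (branch (move 426 (leaf 426 7)) (move 587 (branch (move 490 (leaf 458 7)) (move 588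 (branch (move 556 (leaf 459 4)) (move 620 (leaf 491 4)))))))) (branch (move 460 (branch (move 428 (leaf 427 6)) (move 587 (branch (move 492 (leaf 459 6)) (move 586 (branch (move 554 (leaf 458 5)) (move 618 (leaf 490 5)))))))) (move 458 (branch (move 426 (leaf 426 7)) (move 457 (branch (move 456 (branch (move 492 (leaf 456 0)) (move 455 (branch (move 490 (leaf 455 0)) (move 487 (branch (move 486 (leaf 454 1)) (move 488 (leaf 455 1)))))))) (branch (move 460 (branch (move 428 (leaf 427 6)) (move 489 (branch (move 488 (leaf 456 1)) (move 490 (branch (move 461 (leaf 457 1)) (move 554 (branch (move 586 (leaf 458 5)) (move 425 (branch (move 424 (leaf 424 3)) (move 522 (leaf 425 7)))))))))))) (move 460 (branch (move 428 (leaf 427 6)) (move 456 (branch (move 492 (leaf 456 0)) (move 424 (branch (move 423 (leaf 423 3)) (move 425 (leaf 424 3)))))))))))))))))))))))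
theorem a6p951 : a6e951.Valid :=
  pos_of_chk [a6e950] (forall_cons a6p950 forall_nil) a6c951 a6e951 (by decide +kernel)

def a6e952 : Pos := ⟨117936325858050739185509238266713364520000017871863391582649240791587177501940723281776094108375432163614728278512957446750926621067254389454022000299342499164706570240, 6526623657252032095584286790935808316298636409583942088137946964894818031723926667453023934845655551310586156563497662323975574549307598271960746573606971917002052752127943842214166134784, 7⟩
def a6c952 : Cert := (move 588 (branch (move 587 (branch (move 620 (leaf 491 4)) (move 492 (branch (move 460 (leaf 459 6)) (move 619 (leaf 491 6)))))) (branch (move 556 (branch (move 459 (leaf 459 4)) (move 620 (leaf 491 7)))) (move 459 (branch (move 556 (leaf 459 4)) (move 428 (branch (move 460 (leaf 427 6)) (move 427 (branch (move 396 (leaf 395 6)) (move 395 (branch (move 492 (leaf 395 4)) (move 394 (branch (move 362 (leaf 362 7)) (move 426 (leaf 394 7)))))))))))))))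
theorem a6p952 : a6e952.Valid :=
  pos_of_chk [] forall_nil a6c952 a6e952 (by decide +kernel)

def a6e953 : Pos := ⟨117936325803132357904464360546858158127348872133707909181502797516431469828456377814594845691394955038323091838694586955619079756770278485456288849798750272835786113024, 23359696101324306198386029177912132984592325720979308401417143466597129750805081905365412897550722315137645242916352718600626473772088465859087474712996628779645632038675616282018918350312546762752, 9⟩
def a6c953 : Cert := (move 587 (branch (move 490 (branch (move 458 (leaf 458 7)) (move 619 (branch (move 522 (leaf 490 7)) (move 620 (branch (move 588 (leaf 491 4)) (move 652 (leaf 523 4)))))))) (branch (move 490 (branch (move 458 (leaf 458 7)) (move 619 (branch (move 522 (leaf 490 7)) (move 618 (branch (move 586 (leaf 490 5)) (move 650 (leaf 522 5)))))))) (move 588 (branch (move 620 (leaf 491 4)) (move 589 (branch (move 586 (branch (move 618 (leaf 490 5)) (move 553 (branch (move 554 (leaf 553 3)) (move 585 (branch (move 552 (leaf 552 3)) (move 584 (branch (move 556 (leaf 552 2)) (move 616 (branch (move 615 (leaf 583 1)) (move 617 (leaf 584 1)))))))))))) (branch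 (move 586 (branch (move 618 (leaf 490 5)) (move 622 (branch (move 621 (leaf 586 0)) (move 590 (branch (move 623 (leaf 587 0)) (move 591 (branch (move 556 (leaf 555 3)) (move 559 (branch (move 558 (leaf 555 2)) (move 560 (leaf 556 2)))))))))))) (branch (move 590 (branch (move 554 (leaf 554 3)) (move 591 (branch (move 556 (leaf 555 3)) (move 623 (branch (move 622 (leaf 587 0)) (move 624 (leaf 588 0)))))))) (move 586 (branch (move 618 (leaf 490 5)) (move 554 (branch (move 553 (leaf 553 3)) (move 590 (leaf 554 3)))))))))))))))
theorem a6p953 : a6e953.Valid :=
  pos_of_chk [] forall_nil a6c953 a6e953 (by decide +kernel)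

def a6e954 : Pos := ⟨27459190650112450410964028453202048294537393567496814990913417732244385075929241973910406333824115409436350396554275111358774030282582153760706318031592095744, 271942652638767668525208270793601849350441755296273508536051307134746629650735127728525928255078584827461260080098732711506942006096642771487250319758014699064453915193966889168518774784, 9⟩
def a6c954 : Cert := (move 457 (branch (move 458 (branch (move 456 (branch (move 455 (leaf 455 0)) (move 492 (leaf 456 0)))) (move 425 (branch (move 424 (leaf 424 3)) (move 522 (branch (move 554 (leaf 425 7)) (move 426 (branch (move 394 (leaf 394 4)) (move 393 (leaf 393 7)))))))))) (branch (move 458 (branch (move 489 (branch (move 488 (leaf 456 1)) (move 425 (branch (move 424 (leaf 424 3)) (move 522 (branch (move 393 (leaf 393 4)) (move 554 (leaf 425 7)))))))) (branch (move 425 (branch (move 424 (leaf 424 3)) (move 522 (branch (move 554 (leaf 425 7)) (move 426 (branch (move 394 (leaf 394 4)) (move 393 (leaf 393 7)))))))) (branch (move 489 (branch (move 488 (leaf 456 1)) (move 426 (branch (move 394 (leaf 394 4)) (move 425 (branch (move 424 (leaf 424 3)) (move 521 (branch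 (move 553 (leaf 425 6)) (move 520 (branch (move 492 (leaf 488 1)) (move 552 (leaf 424 5)))))))))))) (move 489 (branch (move 488 (leaf 456 1)) (move 426 (branch (move 394 (leaf 394 4)) (move 521 (branch (move 553 (leaf 425 6)) (move 520 (branch (move 492 (leaf 488 1)) (move 519 (branch (move 518 (leaf 486 2)) (move 522 (leaf 487 2)))))))))))))))) (branch (move 458 (branch (move 425 (branch (move 424 (leaf 424 3)) (move 522 (branch (move 554 (leaf 425 7)) (move 426 (branch (move 394 (leaf 394 4)) (move 393 (leaf 393 7)))))))) (move 488 (branch (move 489 (leaf 456 1)) (move 456 (branch (move 455 (leaf 455 0)) (move 487 (leaf 455 1)))))))) (branch (move 489 (branch (move 488 (leaf 456 2)) (move 456 (branch (move 492 (leaf 456 3)) (move 455 (branch (move 454 (leaf 454 0)) (move 458 (leaf 455 0)))))))) (move 489 (branch (move 488 (leaf 456 2)) (move 521 (branch (move 456 (branch (move 492 (leaf 456 3)) (move 553 (branch (move 424 (leaf 424 7)) (move 554 (branch (move 586 (leaf 457 4)) (move 522 (branch (move 425 (leaf 425 4)) (move 552 (branch (move 551 (leaf 519 2)) (move 584 (leaf 456 5)))))))))))) (branch (move 492 (branch (move 520 (leaf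 488 1)) (move 456 (leaf 456 3)))) (move 522 (branch (move 520 (branch (move 519 (leaf 487 2)) (move 425 (branch (move 393 (leaf 393 4)) (move 552 (leaf 424 5)))))) (branch (move 554 (branch (move 586 (leaf 458 6)) (move 520 (branch (move 519 (leaf 487 2)) (move 552 (branch (move 551 (leaf 519 1)) (move 584 (branch (move 553 (leaf 456 5)) (move 616 (leaf 488 6)))))))))) (move 554 (branch (move 425 (leaf 425 4)) (move 586 (leaf 458 6)))))))))))))))))
theorem a6p954 : a6e954.Valid :=
  pos_of_chk [] forall_nil a6c954 a6e954 (by decide +kernel)

def a6e955 : Pos := ⟨356969478333185046210105993642101958424627040201625010284689960794607798989990876031475981304402023757893439749292330172866984139675142932445031879445265252352, 4623025090806789065660023681989507886330282175669491103039936321974340371661706152086074819646948651838758464752730240884870913745349368695547408639869742624975589704751988077604800299008, 15⟩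
def a6c955 : Cert := (move 459 (branch (ref 0) (branch (move 427 (branch (move 396 (branch (move 428 (leaf 395 6)) (move 395 (branch (move 364 (leaf 363 6)) (move 394 (branch (move 362 (leaf 362 7)) (move 426 (leaf 394 7)))))))) (branch (move 524 (branch (move 556 (leaf 427 4)) (move 395 (branch (move 492 (leaf 395 4)) (move 394 (branch (move 362 (leaf 362 7)) (move 426 (leaf 394 7)))))))) (branch (move 524 (branch (move 556 (leaf 427 4)) (move 395 (branch (move 492 (leaf 395 4)) (move 396 (branch (move 364 (leaf 363 6)) (move 428 (leaf 395 6)))))))) (move 426 (branch (move 394 (leaf 394 7)) (move 425 (branch (move 424 (branch (move 460 (leaf 424 0)) (move 423 (branch (move 458 (leaf 423 0)) (move 455 (branch (move 454 (leaf 422 1)) (move 456 (leaf 423 1)))))))) (branch (move 428 (branch (move 396 (leaf 395 6)) (move 460 (branch (move 424 (leaf 424 0)) (move 461 (leaf 425 0)))))) (branch (move 428 (branch (move 396 (leaf 395 6)) (move 457 (branch (move 456 (leaf 424 1)) (move 429 (branch (move 458 (leaf 425 1)) (move 524 (branch (move 556 (leaf 427 4)) (move 522 (branch (move 554 (leaf 426 5)) (move 392 (branch (move 393 (leaf 392 3))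 (move 424 (branch (move 391 (leaf 391 3)) (move 521 (branch (move 489 (leaf 392 7)) (move 520 (branch (move 492 (leaf 488 2)) (move 552 (branch (move 551 (leaf 519 1)) (move 553 (leaf 520 1)))))))))))))))))))))) (move 428 (branch (move 396 (leaf 395 6)) (move 457 (branch (move 456 (leaf 424 1)) (move 429 (branch (move 458 (leaf 425 1)) (move 461 (branch (move 460 (leaf 425 0)) (move 462 (leaf 426 0)))))))))))))))))))) (branch (move 524 (branch (move 490 (leaf 490 3)) (move 556 (branch (move 427 (leaf 427 4)) (move 588 (branch (move 492 (leaf 459 7)) (move 620 (leaf 491 7)))))))) (move 490 (branch (move 524 (leaf 490 3)) (move 460 (branch (move 489 (branch (move 488 (leaf 456 2)) (move 461 (branch (move 458 (leaf 457 1)) (move 462 (leaf 458 1)))))) (branch (move 461 (branch (move 462 (leaf 458 1)) (move 458 (branch (move 429 (branch (move 430 (leaf 426 2)) (move 457 (branch (move 428 (leaf 425 2)) (move 456 (branch (move 455 (leaf 455 0)) (move 492 (leaf 456 0)))))))) (move 426 (branch (move 425 (leaf 425 3)) (move 394 (leaf 394 4)))))))) (branch (move 489 (branch (move 488 (leaf 456 2)) (move 461 (branch (move 462 (leaf 458 1)) (move 492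 (leaf 457 2)))))) (ref 1)))))))))))
theorem a6p955 : a6e955.Valid :=
  pos_of_chk [a6e950, a6e954] (forall_cons a6p950 (forall_cons a6p954 forall_nil)) a6c955 a6e955 (by decide +kernel)

def a6e956 : Pos := ⟨356969478326791705179058841552232447298010635607451881288512099877648245536678114710373101314395636858819408192357004617930343375985265478253849471137982971904, 32703574486214562006163148626511636964178100320951471178850123188767443322085255770417896081993300917503228158032449476605340751984152575583791750338720917144223311643408099781459428561933970702336, 16⟩
def a6c956 : Cert := (move 491 (branch (move 555 (branch (ref 0) (branch (ref 1) (branch (move 554 (branch (move 524 (leaf 522 1)) (move 459 (branch (move 586 (leaf 458 5)) (move 427 (branch (move 522 (leaf 426 5)) (move 428 (branch (move 396 (leaf 395 6)) (move 460 (leaf 427 6)))))))))) (branch (move 554 (branch (move 524 (leaf 522 1)) (move 586 (branch (move 459 (leaf 458 5)) (move 618 (branch (move 587 (leaf 490 5)) (move 522 (leaf 490 6)))))))) (ref 2)))))) (branch (ref 3) (branch (move 555 (branch (move 459 (branch (move 426 (branch (move 458 (leaf 426 7)) (move 427 (branch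 (move 394 (leaf 394 7)) (move 428 (branch (move 396 (leaf 395 6)) (move 460 (leaf 427 6)))))))) (branch (move 458 (branch (move 426 (leaf 426 7)) (move 587 (branch (move 490 (leaf 458 7)) (move 588 (branch (move 556 (leaf 459 4)) (move 620 (leaf 491 4)))))))) (move 460 (branch (move 428 (leaf 427 6)) (move 587 (branch (move 492 (leaf 459 6)) (move 588 (branch (move 556 (leaf 459 4)) (move 620 (leaf 491 4))))))))))) (branch (ref 0) (branch (move 490 (branch (move 524 (leaf 490 3)) (move 587 (branch (move 458 (leaf 458 7)) (move 619 (branch (move 522 (leaf 490 7)) (move 620 (branch (move 588 (leaf 491 4)) (move 652 (leaf 523 4)))))))))) (branch (move 490 (branch (move 524 (leaf 490 3)) (move 458 (branch (move 587 (leaf 458 7)) (move 426 (branch (move 394 (leaf 394 4)) (move 522 (leaf 426 4)))))))) (branch (move 524 (branch (move 490 (leaf 490 3)) (ref 4))) (move 459 (branch (move 426 (branch (move 458 (leaf 426 7)) (move 427 (branch (move 394 (leaf 394 7)) (move 428 (branch (move 396 (leaf 395 6)) (move 460 (leaf 427 6)))))))) (branch (move 524 (branch (move 490 (leaf 490 3)) (move 556 (branch (move 427 (leaf 427 4)) (move 588 (leaf 459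 4)))))) (move 490 (branch (move 524 (leaf 490 3)) (move 458 (branch (move 426 (leaf 426 7)) (move 460 (branch (move 428 (leaf 427 6)) (move 489 (branch (move 461 (leaf 457 1)) (move 488 (leaf 456 2))))))))))))))))))) (branch (move 555 (branch (move 490 (branch (move 524 (leaf 490 3)) (move 458 (branch (move 587 (leaf 458 7)) (move 426 (branch (move 394 (leaf 394 4)) (move 522 (leaf 426 4)))))))) (branch (ref 2) (branch (move 524 (branch (move 554 (leaf 522 1)) (move 490 (leaf 490 3)))) (ref 5))))) (branch (move 555 (branch (move 490 (branch (move 524 (leaf 490 3)) (move 458 (branch (move 587 (leaf 458 7)) (move 426 (branch (move 394 (leaf 394 4)) (move 522 (leaf 426 4)))))))) (branch (move 554 (branch (move 524 (leaf 522 1)) (move 586 (branch (move 459 (leaf 458 5)) (move 618 (branch (move 587 (leaf 490 5)) (move 522 (leaf 490 6)))))))) (branch (move 524 (branch (move 554 (leaf 522 1)) (move 490 (leaf 490 3)))) (ref 5))))) (branch (move 555 (branch (move 490 (branch (move 524 (leaf 490 3)) (move 458 (branch (move 587 (leaf 458 7)) (move 426 (branch (move 394 (leaf 394 4)) (move 522 (leaf 426 4)))))))) (branch (ref 1) (move 524 (branch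 (move 554 (leaf 522 1)) (move 490 (leaf 490 3))))))) (branch (move 555 (branch (move 490 (branch (move 524 (leaf 490 3)) (move 587 (branch (move 458 (leaf 458 7)) (move 619 (branch (move 522 (leaf 490 7)) (move 620 (branch (move 588 (leaf 491 4)) (move 652 (leaf 523 4)))))))))) (branch (move 554 (branch (move 524 (leaf 522 1)) (move 459 (branch (move 586 (leaf 458 5)) (move 427 (branch (move 522 (leaf 426 5)) (move 428 (branch (move 396 (leaf 395 6)) (move 460 (leaf 427 6)))))))))) (branch (ref 2) (ref 5))))) (branch (move 524 (branch (move 490 (leaf 490 3)) (move 555 (branch (move 554 (leaf 522 1)) (ref 4))))) (ref 6))))))))))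
theorem a6p956 : a6e956.Valid :=
  pos_of_chk [a6e947, a6e948, a6e949, a6e951, a6e952, a6e953, a6e955] (forall_cons a6p947 (forall_cons a6p948 (forall_cons a6p949 (forall_cons a6p951 (forall_cons a6p952 (forall_cons a6p953 (forall_cons a6p955 forall_nil))))))) a6c956 a6e956 (by decide +kernel)

def a6e957 : Pos := ⟨943490606562354816387180350426126064281462752402120742701503456349918140475685458558209796004787793199762730616510369417299650775411541534125624041112023482050331803648, 3447282665562428320265125878141565095347917175199898212190510054400654319146855201257298165627406168652119592826191804929784882664335984920371499471835635014749563102637282332897138439363540981505838103331088361324544, 11⟩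
def a6c957 : Cert := (move 590 (branch (move 622 (branch (move 654 (branch (move 557 (leaf 525 7)) (move 653 (branch (move 621 (leaf 525 5)) (move 685 (leaf 557 5)))))) (branch (move 654 (branch (move 557 (leaf 525 7)) (move 655 (branch (move 623 (leaf 526 4)) (move 687 (leaf 558 4)))))) (branch (move 655 (branch (move 623 (leaf 526 4)) (move 654 (branch (move 687 (leaf 558 4)) (move 653 (branch (move 621 (leaf 525 5)) (move 685 (leaf 557 5)))))))) (move 621 (branch (move 653 (leaf 525 5)) (move 620 (branch (move 623 (branch (move 655 (leaf 526 4)) (move 588 (branch (move 587 (leaf 587 3)) (move 652 (branch (move 651 (leaf 619 1)) (move 589 (branch (move 624 (leaf 588 3)) (move 557 (leaf 524 5)))))))))) (branch (move 619 (branch (move 591 (leaf 587 2)) (move 587 (branch (move 586 (leaf 586 3)) (move 555 (branch (move 652 (leaf 523 4)) (move 618 (branch (move 589 (leaf 586 2)) (move 650 (leaf 522 5)))))))))) (move 623 (branch (move 655 (leaf 526 4)) (move 591 (branch (move 619 (leaf 587 2)) (move 592 (leaf 588 2))))))))))))))) (branch (move 622 (branch (move 654 (branch (move 557 (leaf 525 7)) (move 653 (branch (move 621 (leaf 525 5)) (move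 685 (leaf 557 5)))))) (branch (move 654 (branch (move 557 (leaf 525 7)) (move 655 (branch (move 623 (leaf 526 4)) (move 687 (leaf 558 4)))))) (move 621 (branch (move 653 (leaf 525 5)) (move 589 (branch (move 494 (leaf 493 5)) (move 623 (branch (move 655 (leaf 526 4)) (move 588 (branch (move 587 (leaf 587 0)) (move 624 (leaf 588 3))))))))))))) (branch (move 621 (branch (move 494 (branch (move 589 (leaf 493 5)) (move 591 (branch (move 623 (leaf 494 4)) (move 462 (branch (move 559 (leaf 462 4)) (move 463 (branch (move 431 (leaf 430 6)) (move 495 (leaf 462 6)))))))))) (branch (move 622 (branch (move 653 (leaf 525 5)) (move 623 (branch (move 655 (leaf 526 4)) (move 591 (branch (move 494 (leaf 494 4)) (move 592 (branch (move 593 (leaf 589 1)) (move 620 (leaf 588 2)))))))))) (branch (move 589 (branch (move 494 (leaf 493 5)) (move 653 (branch (move 622 (leaf 525 5)) (move 685 (leaf 557 6)))))) (move 622 (branch (move 653 (leaf 525 5)) (move 620 (branch (move 619 (branch (move 591 (leaf 587 2)) (move 587 (branch (move 586 (leaf 586 3)) (move 555 (branch (move 652 (leaf 523 4)) (move 618 (branch (move 589 (leaf 586 2)) (move 650 (leaf 522 5))))))))))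 (branch (move 623 (branch (move 655 (leaf 526 4)) (move 591 (branch (move 619 (leaf 587 2)) (move 592 (leaf 588 2)))))) (branch (move 623 (branch (move 655 (leaf 526 4)) (move 588 (branch (move 587 (leaf 587 3)) (move 624 (branch (move 589 (leaf 588 3)) (move 592 (branch (move 591 (leaf 588 2)) (move 593 (leaf 589 2)))))))))) (move 623 (branch (move 655 (leaf 526 4)) (move 587 (branch (move 588 (leaf 587 3)) (move 619 (branch (move 586 (leaf 586 3)) (move 652 (branch (move 651 (leaf 619 1)) (move 555 (leaf 523 4)))))))))))))))))))) (branch (move 494 (branch (move 463 (branch (move 495 (leaf 462 6)) (move 462 (branch (move 431 (leaf 430 6)) (move 430 (branch (move 557 (leaf 429 5)) (move 429 (branch (move 397 (leaf 397 7)) (move 461 (leaf 429 7)))))))))) (branch (move 591 (branch (move 623 (leaf 494 4)) (move 462 (branch (move 559 (leaf 462 4)) (move 463 (branch (move 431 (leaf 430 6)) (move 495 (leaf 462 6)))))))) (move 622 (branch (move 654 (branch (move 557 (leaf 525 7)) (move 687 (branch (move 655 (leaf 558 4)) (move 686 (branch (move 719 (leaf 590 4)) (move 685 (branch (move 653 (leaf 557 5)) (move 717 (leaf 589 5)))))))))) (branch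 (move 654 (branch (move 557 (leaf 525 7)) (move 591 (branch (move 623 (leaf 494 4)) (move 686 (branch (move 559 (leaf 558 6)) (move 685 (branch (move 653 (leaf 557 5)) (move 717 (leaf 589 5)))))))))) (move 623 (branch (move 591 (leaf 494 4)) (move 655 (leaf 526 4)))))))))) (branch (move 494 (branch (move 463 (branch (move 495 (leaf 462 6)) (move 462 (branch (move 431 (leaf 430 6)) (move 430 (branch (move 557 (leaf 429 5)) (move 429 (branch (move 397 (leaf 397 7)) (move 461 (leaf 429 7)))))))))) (branch (move 591 (branch (move 623 (leaf 494 4)) (move 462 (branch (move 559 (leaf 462 4)) (move 430 (branch (move 557 (leaf 429 5)) (move 429 (branch (move 397 (leaf 397 7)) (move 461 (leaf 429 7)))))))))) (branch (move 591 (branch (move 623 (leaf 494 4)) (move 462 (branch (move 559 (leaf 462 4)) (move 463 (branch (move 431 (leaf 430 6)) (move 495 (leaf 462 6)))))))) (move 559 (branch (move 589 (branch (move 621 (leaf 493 5)) (move 560 (branch (move 561 (leaf 557 1)) (move 588 (branch (move 557 (leaf 556 1)) (move 587 (leaf 555 2)))))))) (branch (move 589 (branch (move 621 (leaf 493 5)) (move 591 (branch (move 623 (leaf 494 4)) (move 588 (branch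 (move 587 (leaf 555 2)) (move 556 (branch (move 555 (leaf 555 3)) (move 592 (branch (move 557 (leaf 556 0)) (move 593 (branch (move 594 (leaf 558 3)) (move 625 (branch (move 624 (leaf 589 0)) (move 626 (leaf 590 0)))))))))))))))) (branch (move 591 (branch (move 623 (leaf 494 4)) (move 560 (branch (move 561 (leaf 525 3)) (move 495 (branch (move 463 (leaf 462 6)) (move 496 (branch (move 497 (leaf 493 1)) (move 528 (branch (move 464 (leaf 463 5)) (move 557 (branch (move 529 (leaf 525 2)) (move 592 (branch (move 556 (leaf 556 0)) (move 593 (leaf 557 0)))))))))))))))) (move 589 (branch (move 621 (leaf 493 5)) (move 560 (branch (move 561 (leaf 557 1)) (move 591 (branch (move 588 (leaf 556 2)) (move 623 (leaf 494 4)))))))))))))))) (move 621 (branch (move 589 (branch (move 494 (leaf 493 5)) (move 653 (branch (move 622 (leaf 525 5)) (move 685 (leaf 557 6)))))) (branch (move 494 (branch (move 589 (leaf 493 5)) (move 463 (branch (move 495 (leaf 462 6)) (move 462 (branch (move 431 (leaf 430 6)) (move 430 (branch (move 557 (leaf 429 5)) (move 429 (branch (move 397 (leaf 397 7)) (move 461 (leaf 429 7)))))))))))) (move 622 (branch (move 653 (leaf 525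 5)) (move 620 (branch (move 654 (branch (move 557 (leaf 525 7)) (move 655 (branch (move 619 (leaf 619 0)) (move 687 (leaf 558 4)))))) (branch (move 619 (branch (move 591 (leaf 587 2)) (move 587 (branch (move 586 (leaf 586 3)) (move 555 (branch (move 652 (leaf 523 4)) (move 650 (branch (move 651 (leaf 618 1)) (move 618 (leaf 522 5)))))))))) (move 557 (branch (move 654 (leaf 525 7)) (move 556 (branch (move 588 (branch (move 652 (leaf 524 6)) (move 559 (branch (move 587 (leaf 555 1)) (move 592 (branch (move 591 (leaf 556 0)) (move 560 (branch (move 593 (leaf 557 0)) (move 561 (leaf 525 3)))))))))) (branch (move 588 (branch (move 652 (leaf 524 6)) (move 587 (branch (move 559 (leaf 555 1)) (move 555 (branch (move 586 (leaf 554 1)) (move 522 (leaf 522 3)))))))) (move 555 (branch (move 591 (leaf 555 0)) (move 522 (leaf 522 3)))))))))))))))))))))))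
theorem a6p957 : a6e957.Valid :=
  pos_of_chk [] forall_nil a6c957 a6e957 (by decide +kernel)

def a6e958 : Pos := ⟨943490606617273197719371956394358487393069987153207461856034931594496735484846231651893134990591310245105462248920992363914102079201643547642376825142074974837510504448, 1013065324787645148852567423213356880695200797596713443235635971590267712552572979380777446678937856624903516804108718806457054888613929042745384630449604631135145875535080456192, 11⟩
def a6c958 : Cert := (move 462 (branch (move 429 (branch (move 461 (leaf 429 7)) (move 430 (branch (move 397 (leaf 397 7)) (move 431 (branch (move 399 (leaf 398 6)) (move 463 (leaf 430 6)))))))) (branch (move 491 (branch (move 490 (leaf 490 3)) (move 429 (branch (move 461 (leaf 429 7)) (move 430 (branch (move 397 (leaf 397 7)) (move 399 (branch (move 431 (leaf 398 6)) (move 398 (branch (move 367 (leaf 366 6)) (move 427 (branch (move 428 (leaf 395 2)) (move 459 (branch (move 556 (leaf 427 4)) (move 395 (branch (move 492 (leaf 395 4)) (move 394 (branch (move 362 (leaf 362 7)) (move 426 (leaf 394 7)))))))))))))))))))) (branch (move 429 (branch (move 461 (leaf 429 7)) (move 427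 (branch (move 430 (branch (move 397 (leaf 397 7)) (move 428 (branch (move 463 (leaf 427 0)) (move 398 (branch (move 399 (leaf 395 2)) (move 458 (branch (move 459 (leaf 426 1)) (move 426 (branch (move 457 (leaf 425 1)) (move 394 (branch (move 393 (leaf 393 3)) (move 395 (leaf 394 3)))))))))))))) (branch (move 491 (branch (move 490 (leaf 490 3)) (move 459 (branch (move 556 (leaf 427 4)) (move 428 (branch (move 396 (leaf 395 6)) (move 430 (branch (move 463 (leaf 427 0)) (move 458 (leaf 426 1)))))))))) (branch (move 491 (branch (move 490 (leaf 490 3)) (move 459 (branch (move 556 (leaf 427 4)) (move 395 (branch (move 492 (leaf 395 4)) (move 394 (branch (move 362 (leaf 362 7)) (move 426 (leaf 394 7)))))))))) (move 430 (branch (move 397 (leaf 397 7)) (move 428 (branch (move 463 (leaf 427 0)) (move 490 (branch (move 491 (leaf 490 3)) (move 522 (branch (move 489 (leaf 489 3)) (move 394 (branch (move 395 (leaf 394 3)) (move 426 (branch (move 393 (leaf 393 3)) (move 458 (branch (move 457 (leaf 425 1)) (move 555 (leaf 426 4)))))))))))))))))))))) (branch (move 431 (branch (move 463 (leaf 430 6)) (move 491 (branch (move 490 (leaf 490 3)) (move 459 (branch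 (move 430 (branch (move 399 (leaf 398 6)) (move 460 (branch (move 461 (leaf 427 2)) (move 428 (branch (move 555 (leaf 427 6)) (move 396 (branch (move 364 (leaf 363 5)) (move 492 (leaf 395 5)))))))))) (branch (move 427 (branch (move 556 (leaf 427 4)) (move 395 (branch (move 492 (leaf 395 4)) (move 396 (branch (move 364 (leaf 363 6)) (move 428 (leaf 395 6)))))))) (branch (move 427 (branch (move 556 (leaf 427 4)) (move 426 (branch (move 394 (leaf 394 7)) (move 460 (branch (move 461 (leaf 426 3)) (move 428 (branch (move 396 (leaf 395 6)) (move 555 (leaf 427 6)))))))))) (move 556 (branch (move 427 (leaf 427 4)) (move 588 (branch (move 555 (leaf 459 4)) (move 492 (leaf 459 7)))))))))))))) (branch (move 491 (branch (move 490 (leaf 490 3)) (move 463 (branch (move 431 (leaf 430 6)) (move 461 (branch (move 429 (leaf 429 7)) (move 460 (branch (move 492 (leaf 459 1)) (move 427 (branch (move 428 (leaf 427 3)) (move 459 (branch (move 426 (leaf 426 3)) (move 556 (leaf 427 4)))))))))))))) (move 430 (branch (move 431 (branch (move 399 (leaf 398 6)) (move 463 (leaf 430 6)))) (branch (move 491 (branch (move 490 (leaf 490 3)) (move 397 (branch (move 429 (leaf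 397 7)) (move 398 (branch (move 365 (leaf 365 7)) (move 399 (branch (move 367 (leaf 366 6)) (move 431 (leaf 398 6)))))))))) (branch (move 491 (branch (move 490 (leaf 490 3)) (move 429 (branch (move 397 (leaf 397 7)) (move 463 (branch (move 431 (leaf 430 6)) (move 427 (branch (move 428 (leaf 427 0)) (move 459 (branch (move 556 (leaf 427 4)) (move 395 (branch (move 492 (leaf 395 4)) (move 394 (branch (move 362 (leaf 362 7)) (move 426 (leaf 394 7)))))))))))))))) (move 491 (branch (move 490 (leaf 490 3)) (move 427 (branch (move 397 (branch (move 429 (leaf 397 7)) (move 398 (branch (move 365 (leaf 365 7)) (move 399 (branch (move 367 (leaf 366 6)) (move 396 (branch (move 428 (leaf 395 1)) (move 395 (branch (move 426 (leaf 394 1)) (move 363 (branch (move 362 (leaf 362 3)) (move 364 (leaf 363 3)))))))))))))) (branch (move 459 (branch (move 556 (leaf 427 4)) (move 428 (branch (move 396 (leaf 395 6)) (move 429 (branch (move 463 (leaf 427 0)) (move 458 (leaf 426 1)))))))) (move 459 (branch (move 556 (leaf 427 4)) (move 395 (branch (move 492 (leaf 395 4)) (move 394 (branch (move 362 (leaf 362 7)) (move 426 (leaf 394 7)))))))))))))))))))))))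
theorem a6p958 : a6e958.Valid :=
  pos_of_chk [] forall_nil a6c958 a6e958 (by decide +kernel)

def a6e959 : Pos := ⟨356969478326791705179058841552232447298010635607451881288512099877648245536678114710373101314395636858819408192357004617930343375985265478253849471137982971904, 3447282665562428320265125878141565095347917175200841702796770358120019727698789400833431734835244162687152677056668386424747157329207241640008745308713874382844563738132946192571475940720015161985237869505445776850944, 14⟩
def a6c959 : Cert := (move 558 (branch (move 494 (branch (move 462 (branch (move 557 (branch (move 430 (leaf 429 5)) (move 589 (leaf 461 5)))) (branch (move 431 (branch (move 463 (leaf 430 6)) (move 430 (branch (move 399 (leaf 398 6)) (move 429 (branch (move 397 (leaf 397 7)) (move 461 (leaf 429 7)))))))) (move 557 (branch (move 589 (leaf 461 5)) (move 524 (branch (move 522 (leaf 522 0)) (move 491 (branch (move 490 (leaf 490 3)) (move 463 (branch (move 431 (leaf 430 6)) (move 461 (branch (move 429 (leaf 429 7)) (move 460 (branch (move 492 (leaf 459 1)) (move 427 (branch (move 428 (leaf 427 3)) (move 459 (branch (move 426 (leaf 426 3)) (move 556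 (leaf 427 4))))))))))))))))))))) (branch (move 495 (branch (move 524 (leaf 491 2)) (move 463 (branch (move 590 (leaf 462 6)) (move 431 (branch (move 399 (leaf 398 5)) (move 462 (leaf 430 6)))))))) (branch (move 524 (branch (move 495 (leaf 491 2)) (move 522 (branch (move 557 (leaf 522 0)) (move 490 (branch (move 489 (leaf 489 3)) (move 491 (leaf 490 3)))))))) (move 463 (branch (move 590 (branch (move 495 (leaf 462 6)) (move 623 (branch (move 591 (leaf 494 4)) (move 622 (branch (move 655 (leaf 526 4)) (move 621 (branch (move 589 (leaf 493 5)) (move 653 (leaf 525 5)))))))))) (branch (move 462 (branch (move 431 (leaf 430 6)) (move 557 (branch (move 430 (leaf 429 5)) (move 589 (leaf 461 5)))))) (move 462 (branch (move 431 (leaf 430 6)) (move 495 (branch (move 590 (leaf 462 6)) (move 461 (branch (move 429 (leaf 429 7)) (move 496 (branch (move 460 (leaf 460 0)) (move 497 (leaf 493 1))))))))))))))))) (branch (move 524 (branch (move 559 (leaf 523 0)) (move 522 (branch (move 557 (leaf 522 0)) (move 490 (branch (move 489 (leaf 489 3)) (move 491 (leaf 490 3)))))))) (branch (ref 0) (branch (move 494 (branch (move 559 (branch (move 524 (leaf 523 0))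 (move 591 (branch (move 462 (leaf 462 4)) (move 623 (branch (move 590 (leaf 494 4)) (move 655 (leaf 526 7)))))))) (branch (move 462 (branch (move 559 (branch (move 591 (leaf 462 4)) (move 431 (branch (move 463 (leaf 430 6)) (move 430 (branch (move 399 (leaf 398 6)) (move 429 (branch (move 397 (leaf 397 7)) (move 461 (leaf 429 7)))))))))) (branch (move 557 (branch (move 430 (leaf 429 5)) (move 589 (leaf 461 5)))) (move 557 (branch (move 589 (leaf 461 5)) (move 559 (branch (move 591 (leaf 462 4)) (move 560 (branch (move 561 (leaf 525 3)) (move 463 (branch (move 431 (leaf 430 6)) (move 461 (branch (move 429 (leaf 429 7)) (move 592 (branch (move 593 (leaf 557 0)) (move 528 (branch (move 529 (leaf 525 2)) (move 496 (branch (move 495 (leaf 463 7)) (move 497 (branch (move 464 (leaf 461 0)) (move 465 (leaf 464 6))))))))))))))))))))))) (branch (move 495 (branch (move 524 (leaf 491 2)) (move 463 (branch (move 590 (leaf 462 6)) (move 431 (branch (move 399 (leaf 398 5)) (move 462 (leaf 430 6)))))))) (move 524 (branch (move 559 (leaf 523 0)) (move 495 (leaf 491 2)))))))) (move 524 (branch (move 559 (leaf 523 0)) (move 494 (branch (move 495 (leaf 491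 2)) (ref 1))))))))))
theorem a6p959 : a6e959.Valid :=
  pos_of_chk [a6e957, a6e958] (forall_cons a6p957 (forall_cons a6p958 forall_nil)) a6c959 a6e959 (by decide +kernel)

def a6e960 : Pos := ⟨219673525175326239139706567948419895260313287626407871360895778083114828594879019660120542517667552527642048594904294154828562879507017294794859084857162596352, 34808659509396432475757358581380559888113372640376169913511341322736867211524877712448495062137452420890039735516458398011735136765641899101377668952976238732438611375229708167929986547712, 9⟩
def a6c960 : Cert := (move 429 (branch (move 430 (branch (move 397 (leaf 397 7)) (move 431 (branch (move 399 (leaf 398 6)) (move 463 (branch (move 558 (leaf 430 6)) (move 464 (branch (move 428 (leaf 428 0)) (move 465 (leaf 429 3)))))))))) (branch (move 558 (branch (move 461 (leaf 429 7)) (move 463 (branch (move 431 (leaf 430 6)) (move 590 (branch (move 495 (leaf 462 6)) (move 591 (branch (move 559 (leaf 462 4)) (move 623 (leaf 494 4)))))))))) (branch (move 461 (branch (move 558 (leaf 429 7)) (move 397 (branch (move 365 (leaf 365 4)) (move 430 (leaf 397 7)))))) (move 430 (branch (move 397 (leaf 397 7))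 (move 463 (branch (move 399 (branch (move 431 (leaf 398 6)) (move 398 (branch (move 367 (leaf 366 6)) (move 366 (branch (move 495 (leaf 366 4)) (move 334 (branch (move 461 (leaf 333 5)) (move 333 (branch (move 301 (leaf 301 7)) (move 365 (leaf 333 7)))))))))))) (branch (move 428 (branch (move 427 (leaf 427 0)) (move 464 (branch (move 461 (leaf 428 3)) (move 465 (leaf 429 3)))))) (move 431 (branch (move 399 (leaf 398 6)) (move 464 (branch (move 428 (leaf 428 0)) (move 465 (leaf 429 3)))))))))))))))
theorem a6p960 : a6e960.Valid :=
  pos_of_chk [] forall_nil a6c960 a6e960 (by decide +kernel)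

def a6e961 : Pos := ⟨356969478377938433439344583930047759605701993629273979548785047266825692262832140702571735330896643627187974822733911315571002639501350171046339650679463739392, 235872651606264716534572928152549372621975648819348158903707993394751143290975170042033450527537886466953833770720629724134458971422063677549492881569811353396775485440, 10⟩
def a6c961 : Cert := (move 430 (branch (move 495 (branch (move 524 (leaf 491 2)) (move 399 (branch (move 431 (leaf 398 6)) (move 398 (branch (move 367 (leaf 366 6)) (move 496 (branch (move 497 (leaf 493 1)) (move 366 (branch (move 463 (leaf 366 4)) (move 365 (branch (move 333 (leaf 333 7)) (move 397 (leaf 365 7)))))))))))))) (branch (move 399 (branch (move 431 (leaf 398 6)) (move 398 (branch (move 367 (leaf 366 6)) (move 397 (branch (move 365 (leaf 365 7)) (move 429 (leaf 397 7)))))))) (branch (move 427 (branch (move 524 (branch (move 495 (leaf 491 2)) (move 491 (branch (move 490 (leaf 490 3)) (move 459 (branch (move 556 (leaf 427 4)) (move 395 (branch (move 492 (leaf 395 4)) (move 396 (branch (move 364 (leaf 363 6)) (move 428 (leaf 395 6)))))))))))) (branch (move 429 (branch (move 397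 (leaf 397 7)) (move 428 (branch (move 463 (leaf 427 0)) (move 459 (branch (move 458 (leaf 426 1)) (move 491 (branch (move 396 (leaf 395 6)) (move 426 (branch (move 461 (leaf 426 0)) (move 394 (leaf 394 7)))))))))))) (branch (move 524 (branch (move 495 (leaf 491 2)) (move 491 (branch (move 490 (leaf 490 3)) (move 459 (branch (move 556 (leaf 427 4)) (move 395 (branch (move 492 (leaf 395 4)) (move 394 (branch (move 362 (leaf 362 7)) (move 426 (leaf 394 7)))))))))))) (move 429 (branch (move 397 (leaf 397 7)) (move 428 (branch (move 463 (leaf 427 0)) (move 426 (branch (move 461 (leaf 426 0)) (move 394 (branch (move 393 (leaf 393 3)) (move 395 (leaf 394 3)))))))))))))) (move 461 (branch (move 431 (branch (move 399 (leaf 398 6)) (move 460 (branch (move 459 (leaf 427 2)) (move 432 (branch (move 429 (leaf 428 1)) (move 433 (leaf 429 1)))))))) (branch (move 495 (branch (move 524 (leaf 491 2)) (move 496 (branch (move 497 (leaf 493 1)) (move 460 (branch (move 459 (leaf 459 0)) (move 463 (leaf 460 0)))))))) (move 495 (branch (move 524 (leaf 491 2)) (move 496 (branch (move 497 (leaf 493 1)) (move 399 (branch (move 431 (leaf 398 6)) (move 398 (branch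 (move 367 (leaf 366 6)) (move 366 (branch (move 463 (leaf 366 4)) (move 334 (branch (move 429 (leaf 333 5)) (move 333 (branch (move 301 (leaf 301 7)) (move 365 (leaf 333 7)))))))))))))))))))))))
theorem a6p961 : a6e961.Valid :=
  pos_of_chk [] forall_nil a6c961 a6e961 (by decide +kernel)

def a6e962 : Pos := ⟨411887859658983311159199790325471575037978290889998837008083838643746474805389205694722692036802901374811970936905732585972118121596474532508335448837358354432, 339066936629087147701083083708455627990773064239053721022783567420861603032638387808267238228366757168199593252410189532012316092509092129105517278685787026118710132736, 12⟩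
def a6c962 : Cert := (move 522 (branch (move 399 (branch (move 431 (leaf 398 6)) (move 398 (branch (move 367 (leaf 366 6)) (move 365 (branch (move 397 (leaf 365 7)) (move 366 (branch (move 333 (leaf 333 7)) (move 553 (branch (move 554 (leaf 521 1)) (move 521 (branch (move 552 (leaf 520 1)) (move 489 (branch (move 488 (leaf 488 3)) (move 490 (leaf 489 3)))))))))))))))) (branch (move 490 (branch (move 489 (leaf 489 3)) (move 491 (leaf 490 3)))) (branch (move 491 (branch (move 490 (leaf 490 3)) (move 554 (branch (move 553 (leaf 521 1)) (move 427 (branch (move 459 (leaf 426 5)) (move 399 (branch (move 431 (leaf 398 6)) (move 398 (branch (move 367 (leaf 366 6)) (move 397 (branch (move 365 (leaf 365 7)) (move 396 (branch (move 428 (leaf 395 1)) (move 395 (branch (move 426 (leaf 394 1)) (move 363 (branch (move 362 (leaf 362 3)) (move 364 (leaf 363 3)))))))))))))))))))) (move 427 (branch (move 399 (branch (move 431 (leaf 398 6)) (move 398 (branch (move 367 (leaf 366 6)) (move 397 (branch (move 365 (leaf 365 7)) (move 396 (branch (move 428 (leaf 395 1)) (move 395 (branch (move 426 (leaf 394 1)) (move 363 (branch (move 362 (leaf 362 3)) (move 364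 (leaf 363 3)))))))))))))) (branch (move 553 (branch (move 554 (leaf 521 1)) (move 521 (branch (move 552 (leaf 520 1)) (move 488 (branch (move 489 (leaf 488 3)) (move 520 (branch (move 487 (leaf 487 3)) (move 491 (branch (move 492 (leaf 488 2)) (move 459 (branch (move 556 (leaf 427 4)) (move 426 (branch (move 394 (leaf 394 7)) (move 424 (branch (move 456 (leaf 424 4)) (move 460 (branch (move 425 (leaf 424 0)) (move 461 (leaf 426 3)))))))))))))))))))) (move 554 (branch (move 553 (leaf 521 1)) (move 459 (branch (move 491 (leaf 426 5)) (move 431 (branch (move 399 (leaf 398 6)) (move 460 (branch (move 461 (leaf 427 2)) (move 492 (branch (move 556 (leaf 427 7)) (move 395 (branch (move 363 (leaf 363 4)) (move 428 (leaf 395 7)))))))))))))))))))))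
theorem a6p962 : a6e962.Valid :=
  pos_of_chk [] forall_nil a6c962 a6e962 (by decide +kernel)

def a6e963 : Pos := ⟨235872651976963789494341691889021871947082714453784566995361275301374215658125845327915502699195890193017672348412989691030053583269128483133932401584996095064453152768, 200658260469931894928748130196074262008637402193182084399202981277469525633665317798684876381223655020957112220415566110398549628405298382623492722586136646393166847233648803655010518897145327976624328540160, 9⟩
def a6c963 : Cert := (move 588 (branch (move 620 (branch (move 491 (leaf 491 7)) (move 619 (branch (move 651 (leaf 523 5)) (move 621 (branch (move 653 (leaf 524 4)) (move 492 (branch (move 589 (leaf 492 4)) (move 587 (leaf 491 5)))))))))) (branch (move 553 (branch (move 554 (leaf 521 1)) (move 492 (branch (move 621 (branch (move 589 (leaf 492 4)) (move 620 (branch (move 653 (leaf 524 4)) (move 619 (branch (move 587 (leaf 491 5)) (move 651 (leaf 523 5)))))))) (branch (move 619 (branch (move 587 (leaf 491 5)) (move 620 (branch (move 651 (leaf 523 5)) (move 652 (branch (move 557 (leaf 524 6)) (move 653 (branch (move 621 (leaf 524 4)) (move 685 (leaf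 556 4)))))))))) (branch (move 619 (branch (move 587 (leaf 491 5)) (move 620 (branch (move 651 (leaf 523 5)) (move 557 (branch (move 652 (leaf 524 6)) (move 460 (branch (move 428 (leaf 428 4)) (move 589 (leaf 460 4)))))))))) (move 589 (branch (move 621 (leaf 492 4)) (move 460 (branch (move 557 (leaf 460 4)) (move 429 (branch (move 461 (leaf 428 6)) (move 428 (branch (move 397 (leaf 396 6)) (move 427 (branch (move 395 (leaf 395 7)) (move 459 (leaf 427 7)))))))))))))))))) (branch (move 620 (branch (move 491 (leaf 491 7)) (move 621 (branch (move 653 (leaf 524 4)) (move 557 (branch (move 589 (leaf 493 6)) (move 652 (leaf 524 6)))))))) (branch (move 620 (branch (move 491 (leaf 491 7)) (move 652 (branch (move 557 (leaf 524 6)) (move 651 (branch (move 619 (leaf 523 5)) (move 683 (leaf 555 5)))))))) (move 492 (branch (move 589 (branch (move 621 (leaf 492 4)) (move 460 (branch (move 557 (leaf 460 4)) (move 429 (branch (move 461 (leaf 428 6)) (move 428 (branch (move 397 (leaf 396 6)) (move 427 (branch (move 395 (leaf 395 7)) (move 459 (leaf 427 7)))))))))))) (branch (move 459 (branch (move 491 (leaf 459 7)) (move 460 (branch (move 427 (leaf 427 7))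 (move 429 (branch (move 461 (leaf 428 6)) (move 428 (branch (move 431 (leaf 427 1)) (move 397 (leaf 396 6)))))))))) (branch (move 589 (branch (move 621 (leaf 492 4)) (move 460 (branch (move 557 (leaf 460 4)) (move 429 (branch (move 461 (leaf 428 6)) (move 428 (branch (move 397 (leaf 396 6)) (move 395 (branch (move 427 (leaf 395 7)) (move 396 (branch (move 431 (leaf 395 3)) (move 491 (leaf 395 5)))))))))))))) (move 586 (branch (move 589 (branch (move 621 (leaf 492 4)) (move 587 (branch (move 619 (leaf 491 5)) (move 553 (branch (move 554 (leaf 521 1)) (move 585 (branch (move 557 (leaf 553 2)) (move 552 (leaf 552 3)))))))))) (branch (move 589 (branch (move 621 (leaf 492 4)) (move 587 (branch (move 619 (leaf 491 5)) (move 585 (branch (move 557 (leaf 553 2)) (move 617 (branch (move 616 (leaf 584 1)) (move 618 (leaf 585 1)))))))))) (move 491 (branch (move 459 (leaf 459 7)) (move 554 (branch (move 553 (leaf 521 1)) (move 618 (leaf 490 6))))))))))))))))))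
theorem a6p963 : a6e963.Valid :=
  pos_of_chk [] forall_nil a6c963 a6e963 (by decide +kernel)

def a6e964 : Pos := ⟨265356733091371793571312842485484267582508198046423876681786695401686021050232007805248786668940446642634480196838356827035825650415434392070400070141301408473683066880, 25082282605460878822939963778762324790062717382394824804638329949699228043456326823606388783497129866515420115835118285014242452932316734177593107779792186287436918814621662301608281108948626133012180893696, 10⟩
def a6c964 : Cert := (move 588 (branch (move 620 (branch (move 491 (leaf 491 7)) (move 621 (branch (move 653 (leaf 524 4)) (move 619 (branch (move 651 (leaf 523 5)) (move 587 (branch (move 492 (leaf 491 5)) (move 586 (branch (move 585 (leaf 585 0)) (move 622 (leaf 586 3)))))))))))) (branch (move 521 (branch (move 552 (leaf 520 1)) (move 619 (branch (move 620 (branch (move 651 (leaf 523 5)) (move 621 (branch (move 653 (leaf 524 4)) (move 492 (branch (move 589 (leaf 492 4)) (move 587 (leaf 491 5)))))))) (branch (move 488 (branch (move 489 (leaf 488 3)) (move 520 (branch (move 487 (leaf 487 3)) (move 587 (branch (move 492 (leaf 491 5)) (move 617 (branch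 (move 585 (leaf 488 7)) (move 618 (branch (move 616 (leaf 584 2)) (move 589 (branch (move 586 (leaf 585 1)) (move 590 (leaf 586 1)))))))))))))) (branch (move 620 (branch (move 651 (leaf 523 5)) (move 621 (branch (move 653 (leaf 524 4)) (move 488 (branch (move 489 (leaf 488 3)) (move 520 (branch (move 487 (leaf 487 3)) (move 585 (branch (move 617 (leaf 488 7)) (move 586 (branch (move 587 (leaf 585 0)) (move 618 (leaf 585 3)))))))))))))) (move 620 (branch (move 651 (leaf 523 5)) (move 621 (branch (move 653 (leaf 524 4)) (move 589 (branch (move 492 (leaf 492 4)) (move 618 (branch (move 617 (leaf 585 2)) (move 590 (leaf 586 2)))))))))))))))) (branch (move 620 (branch (move 491 (leaf 491 7)) (move 521 (branch (move 552 (leaf 520 1)) (move 488 (branch (move 489 (leaf 488 3)) (move 520 (branch (move 487 (leaf 487 3)) (move 621 (branch (move 653 (leaf 524 4)) (move 619 (branch (move 651 (leaf 523 5)) (move 585 (branch (move 617 (leaf 488 7)) (move 586 (branch (move 587 (leaf 585 0)) (move 618 (leaf 585 3)))))))))))))))))) (branch (move 521 (branch (move 552 (leaf 520 1)) (move 491 (branch (move 620 (leaf 491 7)) (move 492 (branch (move 520 (leaf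 488 2)) (move 459 (leaf 459 7)))))))) (move 492 (branch (move 459 (branch (move 491 (leaf 459 7)) (move 460 (branch (move 427 (leaf 427 7)) (move 429 (branch (move 461 (leaf 428 6)) (move 428 (branch (move 431 (leaf 427 1)) (move 397 (leaf 396 6)))))))))) (move 587 (branch (move 619 (leaf 491 5)) (move 585 (branch (move 586 (branch (move 552 (leaf 552 3)) (move 589 (branch (move 621 (leaf 492 4)) (move 617 (branch (move 616 (leaf 584 1)) (move 618 (leaf 585 1)))))))) (branch (move 521 (branch (move 552 (leaf 520 1)) (move 488 (branch (move 489 (leaf 488 3)) (move 520 (branch (move 487 (leaf 487 3)) (move 617 (leaf 488 7)))))))) (branch (move 552 (branch (move 521 (leaf 520 1)) (move 586 (leaf 552 3)))) (move 617 (branch (move 586 (branch (move 616 (leaf 584 1)) (move 589 (branch (move 618 (leaf 585 1)) (move 621 (leaf 492 4)))))) (branch (move 589 (branch (move 621 (leaf 492 4)) (move 618 (branch (move 586 (leaf 585 1)) (move 521 (branch (move 650 (leaf 521 4)) (move 488 (branch (move 489 (leaf 488 3)) (move 520 (leaf 488 7)))))))))) (branch (move 616 (branch (move 586 (leaf 584 1)) (move 521 (branch (move 648 (leaf 520 5)) (move 488 (branch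 (move 489 (leaf 488 3)) (move 520 (leaf 488 7)))))))) (move 521 (branch (move 648 (branch (move 616 (leaf 520 5)) (move 649 (branch (move 680 (leaf 552 5)) (move 650 (branch (move 618 (leaf 521 4)) (move 682 (leaf 553 4)))))))) (move 488 (branch (move 489 (leaf 488 3)) (move 520 (leaf 488 7)))))))))))))))))))))))
theorem a6p964 : a6e964.Valid :=
  pos_of_chk [] forall_nil a6c964 a6e964 (by decide +kernel)

def a6e965 : Pos := ⟨411887859658983311147291264666612351743218169621561770717233778590245455705737270271347097940352989799035656762011430327824584967599409473245304535754135830528, 225740543028673381810104427835727721889045165684709621589714639974259775860596113692547746969332886167703266125715505204673415011984707953758983662127708254107823960023110527572854125938297226860028856631296, 13⟩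
def a6c965 : Cert := (move 522 (branch (move 553 (branch (move 554 (leaf 521 1)) (move 521 (branch (move 552 (leaf 520 1)) (move 489 (branch (move 488 (leaf 488 3)) (move 490 (leaf 489 3)))))))) (branch (move 490 (branch (move 489 (leaf 489 3)) (move 491 (leaf 490 3)))) (branch (move 491 (branch (move 490 (leaf 490 3)) (move 553 (branch (move 554 (leaf 521 1)) (move 521 (branch (move 552 (leaf 520 1)) (move 556 (branch (move 557 (leaf 521 0)) (move 492 (branch (move 520 (leaf 488 2)) (move 459 (branch (move 427 (leaf 427 4)) (move 588 (leaf 459 7)))))))))))))) (move 556 (branch (ref 0) (branch (move 521 (branch (move 557 (leaf 521 0)) (move 552 (branch (move 553 (leaf 520 1)) (move 520 (branch (move 551 (leaf 519 1)) (move 488 (branch (move 487 (leaf 487 3)) (move 489 (leaf 488 3)))))))))) (branch (move 588 (branch (move 620 (branch (move 491 (leaf 491 7)) (move 619 (branch (move 651 (leaf 523 5)) (move 621 (branch (move 653 (leaf 524 4)) (move 492 (branch (move 589 (leaf 492 4)) (move 587 (leaf 491 5)))))))))) (branch (move 557 (branch (move 521 (leaf 521 0)) (move 589 (branch (move 621 (leaf 493 6)) (move 492 (branch (move 460 (leaf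 460 4)) (move 587 (branch (move 619 (leaf 491 5)) (move 491 (branch (move 459 (leaf 459 7)) (move 586 (branch (move 585 (leaf 553 2)) (move 618 (branch (move 617 (leaf 585 1)) (move 554 (leaf 490 6)))))))))))))))) (branch (move 557 (branch (move 521 (leaf 521 0)) (move 589 (branch (move 621 (leaf 493 6)) (move 620 (branch (move 652 (leaf 524 6)) (move 619 (branch (move 651 (leaf 523 5)) (move 492 (branch (move 460 (leaf 460 4)) (move 587 (leaf 491 5)))))))))))) (move 620 (branch (move 491 (leaf 491 7)) (move 557 (branch (move 521 (leaf 521 0)) (move 652 (leaf 524 6)))))))))) (move 553 (branch (move 554 (leaf 521 1)) (ref 1)))))))))))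
theorem a6p965 : a6e965.Valid :=
  pos_of_chk [a6e963, a6e964] (forall_cons a6p963 (forall_cons a6p964 forall_nil)) a6c965 a6e965 (by decide +kernel)

def a6e966 : Pos := ⟨411887859658983311147291264663839682049097354761983356533090694886809018630361453696176618359738368491230031138971455921720445389502018262283900963925161672704, 225740543028673381810104427835727721889045165684709621589714639974296803932569705020423804209277452150030100268641682226019228069977703157971329636505924387090417076164461320597689597240583476871047673806848, 14⟩
def a6c966 : Cert := (move 430 (branch (move 462 (branch (move 557 (leaf 429 5)) (move 397 (branch (move 429 (leaf 397 7)) (move 398 (branch (move 365 (leaf 365 7)) (move 399 (branch (move 367 (leaf 366 6)) (move 431 (leaf 398 6)))))))))) (branch (move 462 (branch (move 397 (branch (move 429 (leaf 397 7)) (move 398 (branch (move 365 (leaf 365 7)) (move 399 (branch (move 367 (leaf 366 6)) (move 431 (leaf 398 6)))))))) (branch (move 427 (branch (move 491 (branch (move 490 (leaf 490 3)) (move 459 (branch (move 556 (leaf 427 4)) (move 395 (branch (move 492 (leaf 395 4)) (move 396 (branch (move 364 (leaf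 363 6)) (move 428 (leaf 395 6)))))))))) (branch (move 491 (branch (move 490 (leaf 490 3)) (move 459 (branch (move 556 (leaf 427 4)) (move 395 (branch (move 492 (leaf 395 4)) (move 394 (branch (move 362 (leaf 362 7)) (move 426 (leaf 394 7)))))))))) (branch (move 429 (branch (move 397 (leaf 397 7)) (move 428 (branch (move 463 (leaf 427 0)) (move 426 (branch (move 461 (leaf 426 0)) (move 458 (branch (move 457 (leaf 425 1)) (move 459 (leaf 426 1)))))))))) (move 429 (branch (move 397 (leaf 397 7)) (move 428 (branch (move 463 (leaf 427 0)) (move 426 (branch (move 461 (leaf 426 0)) (move 394 (branch (move 393 (leaf 393 3)) (move 395 (leaf 394 3)))))))))))))) (branch (move 491 (branch (move 490 (leaf 490 3)) (move 459 (branch (move 431 (branch (move 399 (leaf 398 6)) (move 460 (branch (move 461 (leaf 427 2)) (move 428 (branch (move 429 (leaf 427 1)) (move 396 (branch (move 364 (leaf 363 5)) (move 492 (leaf 395 5)))))))))) (branch (move 427 (branch (move 556 (leaf 427 4)) (move 428 (branch (move 396 (leaf 395 6)) (move 429 (branch (move 463 (leaf 427 0)) (move 458 (leaf 426 1)))))))) (move 427 (branch (move 556 (leaf 427 4)) (move 395 (branch (move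 492 (leaf 395 4)) (move 394 (branch (move 362 (leaf 362 7)) (move 426 (leaf 394 7))))))))))))) (ref 0))))) (branch (move 557 (branch (move 462 (leaf 429 5)) (move 589 (branch (move 621 (leaf 493 6)) (move 490 (branch (move 491 (leaf 490 3)) (move 522 (branch (move 489 (leaf 489 3)) (move 521 (branch (move 556 (leaf 521 0)) (move 553 (branch (move 552 (leaf 520 1)) (move 554 (leaf 521 1)))))))))))))) (ref 1)))))
theorem a6p966 : a6e966.Valid :=
  pos_of_chk [a6e962, a6e965] (forall_cons a6p962 (forall_cons a6p965 forall_nil)) a6c966 a6e966 (by decide +kernel)

def a6e967 : Pos := ⟨356969478326791705179058841552232447298010635607451881288512099877648245536678114710373101314395636858819408192357004617930343375985265478253849471137982971904, 225740543252926463082279226776349895414593922290917780154514895717829801035495500841086300393125195729736162939175357915576019566228249203170566449447053755211311734289776886026287084856972669093063394590720, 16⟩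
def a6c967 : Cert := (move 494 (branch (move 558 (branch (move 524 (branch (move 559 (leaf 523 0)) (move 522 (branch (move 557 (leaf 522 0)) (move 490 (branch (move 489 (leaf 489 3)) (move 491 (leaf 490 3)))))))) (branch (move 559 (branch (move 524 (leaf 523 0)) (move 591 (branch (move 462 (leaf 462 4)) (move 623 (branch (move 590 (leaf 494 4)) (move 655 (leaf 526 7)))))))) (move 590 (branch (move 623 (branch (move 591 (leaf 494 4)) (move 622 (branch (move 655 (leaf 526 4)) (move 654 (branch (move 557 (leaf 525 7)) (move 653 (branch (move 621 (leaf 525 5)) (move 685 (leaf 557 5)))))))))) (branch (move 623 (branch (move 591 (leaf 494 4)) (move 622 (branch (move 655 (leaf 526 4)) (move 621 (branch (move 589 (leaf 493 5)) (move 653 (leaf 525 5)))))))) (branch (move 623 (branch (move 591 (leaf 494 4)) (move 622 (branch (move 655 (leaf 526 4)) (move 557 (branch (move 654 (leaf 525 7)) (move 462 (branch (move 430 (leaf 429 5)) (move 589 (leaf 461 5)))))))))) (move 589 (branch (move 621 (leaf 493 5)) (move 462 (branch (move 557 (leaf 461 5)) (move 431 (branch (move 463 (leaf 430 6)) (move 430 (branch (move 399 (leaf 398 6)) (move 429 (branch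 (move 397 (leaf 397 7)) (move 461 (leaf 429 7))))))))))))))))))) (branch (move 462 (branch (move 558 (branch (move 463 (branch (move 431 (leaf 430 6)) (move 590 (branch (move 495 (leaf 462 6)) (move 591 (branch (move 559 (leaf 462 4)) (move 623 (leaf 494 4)))))))) (branch (move 589 (branch (move 557 (leaf 461 5)) (move 590 (branch (move 621 (leaf 493 5)) (move 591 (branch (move 559 (leaf 462 4)) (move 623 (leaf 494 4)))))))) (branch (move 589 (branch (move 557 (leaf 461 5)) (move 590 (branch (move 621 (leaf 493 5)) (move 463 (branch (move 431 (leaf 430 6)) (move 495 (leaf 462 6)))))))) (move 557 (branch (move 589 (leaf 461 5)) (move 559 (branch (move 591 (leaf 462 4)) (move 560 (branch (move 561 (leaf 525 3)) (move 463 (branch (move 431 (leaf 430 6)) (move 461 (branch (move 429 (leaf 429 7)) (move 592 (branch (move 593 (leaf 557 0)) (move 528 (branch (move 529 (leaf 525 2)) (move 496 (branch (move 495 (leaf 463 7)) (move 497 (branch (move 464 (leaf 461 0)) (move 465 (leaf 464 6)))))))))))))))))))))))) (branch (move 430 (branch (move 557 (leaf 429 5)) (move 399 (branch (move 431 (leaf 398 6)) (move 398 (branch (move 367 (leaf 366 6)) (move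 397 (branch (move 365 (leaf 365 7)) (move 429 (leaf 397 7)))))))))) (branch (move 557 (branch (move 430 (leaf 429 5)) (move 589 (branch (move 558 (leaf 461 5)) (move 621 (leaf 493 6)))))) (ref 0))))) (branch (move 462 (branch (ref 0) (branch (move 558 (branch (move 431 (branch (move 463 (leaf 430 6)) (move 430 (branch (move 399 (leaf 398 6)) (move 429 (branch (move 397 (leaf 397 7)) (move 461 (leaf 429 7)))))))) (move 559 (branch (move 524 (leaf 523 0)) (move 591 (leaf 462 4)))))) (branch (move 558 (branch (move 463 (branch (move 431 (leaf 430 6)) (move 590 (branch (move 495 (leaf 462 6)) (move 591 (branch (move 559 (leaf 462 4)) (move 623 (leaf 494 4)))))))) (branch (move 559 (branch (move 524 (leaf 523 0)) (move 591 (leaf 462 4)))) (move 495 (branch (move 524 (leaf 491 2)) (move 463 (branch (move 431 (leaf 430 6)) (move 590 (leaf 462 6))))))))) (branch (move 495 (branch (move 524 (leaf 491 2)) (move 461 (branch (move 429 (branch (move 558 (leaf 429 7)) (move 397 (branch (move 365 (leaf 365 4)) (move 430 (leaf 397 7)))))) (move 496 (branch (move 497 (leaf 493 1)) (move 460 (branch (move 459 (leaf 459 0)) (move 463 (leaf 460 0))))))))))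 (branch (move 524 (branch (move 495 (leaf 491 2)) (move 558 (branch (move 559 (leaf 523 0)) (move 490 (branch (move 491 (leaf 490 3)) (move 522 (branch (move 489 (leaf 489 3)) (move 554 (branch (move 553 (leaf 521 1)) (move 429 (branch (move 461 (leaf 429 7)) (move 430 (branch (move 397 (leaf 397 7)) (move 399 (branch (move 431 (leaf 398 6)) (move 398 (branch (move 367 (leaf 366 6)) (move 427 (branch (move 428 (leaf 395 2)) (move 458 (branch (move 459 (leaf 426 6)) (move 426 (branch (move 395 (leaf 394 6)) (move 425 (branch (move 393 (leaf 393 7)) (move 457 (leaf 425 7)))))))))))))))))))))))))))) (ref 1))))))) (branch (move 524 (branch (move 495 (leaf 491 2)) (move 490 (branch (move 491 (leaf 490 3)) (move 522 (branch (move 489 (leaf 489 3)) (move 557 (branch (move 558 (leaf 522 0)) (move 589 (branch (move 621 (leaf 493 6)) (move 553 (branch (move 554 (leaf 521 1)) (move 521 (branch (move 556 (leaf 521 0)) (move 552 (leaf 520 1)))))))))))))))) (move 524 (branch (move 495 (leaf 491 2)) (ref 2))))))))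
theorem a6p967 : a6e967.Valid :=
  pos_of_chk [a6e960, a6e961, a6e966] (forall_cons a6p960 (forall_cons a6p961 (forall_cons a6p966 forall_nil))) a6c967 a6e967 (by decide +kernel)

def a6e968 : Pos := ⟨506532662334854411559041520946308464707760008996761209151092643465583185538430872876304813734707840508988106128797758306612150988943980679847172247415088603500778533889039663104, 4671939195708439732008043109753355463528553998231076410195732291255783819314539161078087913369032291869139882549117962755465466188537970733905539872789517100360873406539076745170061447281931976704, 5⟩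
def a6c968 : Cert := (move 491 (branch (move 490 (branch (move 458 (leaf 458 7)) (move 619 (branch (move 522 (leaf 490 7)) (move 618 (branch (move 586 (leaf 490 5)) (move 650 (leaf 522 5)))))))) (branch (move 458 (branch (move 490 (leaf 458 7)) (move 459 (branch (move 426 (leaf 426 7)) (move 460 (branch (move 428 (leaf 427 6)) (move 492 (leaf 459 6)))))))) (move 586 (branch (move 618 (leaf 490 5)) (move 459 (branch (move 554 (leaf 458 5)) (move 460 (branch (move 428 (leaf 427 6)) (move 492 (leaf 459 6)))))))))))
theorem a6p968 : a6e968.Valid :=
  pos_of_chk [] forall_nil a6c968 a6e968 (by decide +kernel)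

def a6e969 : Pos := ⟨506532662334854411559041520946308464707760008996761209151092643465583185538430872876304813734707840508988106128797758306612150988943980679847172247415088603500778533889039663104, 23359695969840033785730303403836564141418476024293318868017383510524983021593365371711054145999345873136682918659945547587667783296172187017489870191749091791836001867074756276284253814438213189632, 5⟩
def a6c969 : Cert := (move 491 (branch (move 618 (branch (move 586 (leaf 490 5)) (move 619 (branch (move 650 (leaf 522 5)) (move 620 (branch (move 588 (leaf 491 4)) (move 652 (leaf 523 4)))))))) (branch (move 586 (branch (move 618 (leaf 490 5)) (move 459 (branch (move 554 (leaf 458 5)) (move 460 (branch (move 428 (leaf 427 6)) (move 492 (leaf 459 6)))))))) (move 588 (branch (move 620 (leaf 491 4)) (move 459 (branch (move 556 (leaf 459 4)) (move 460 (branch (move 428 (leaf 427 6)) (move 492 (leaf 459 6)))))))))))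
theorem a6p969 : a6e969.Valid :=
  pos_of_chk [] forall_nil a6c969 a6e969 (by decide +kernel)

def a6e970 : Pos := ⟨506532662334854411559041520946308464707760008996761209151092643465583185538430872876304813734707840508988106128797758306612150988943980679847172247415088603500778533889039663104, 18687756776307135272299738330315761971956292714270351671021644451080395372505897917606843194976691174466041750210531846828146470680120609845130397340975335707760940179641043042213030534681305546752, 5⟩
def a6c970 : Cert := (move 491 (branch (move 490 (branch (move 458 (leaf 458 7)) (move 619 (branch (move 522 (leaf 490 7)) (move 620 (branch (move 588 (leaf 491 4)) (move 652 (leaf 523 4)))))))) (branch (move 458 (branch (move 490 (leaf 458 7)) (move 459 (branch (move 426 (leaf 426 7)) (move 460 (branch (move 428 (leaf 427 6)) (move 492 (leaf 459 6)))))))) (move 588 (branch (move 620 (leaf 491 4)) (move 459 (branch (move 556 (leaf 459 4)) (move 460 (branch (move 428 (leaf 427 6)) (move 492 (leaf 459 6)))))))))))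
theorem a6p970 : a6e970.Valid :=
  pos_of_chk [] forall_nil a6c970 a6e970 (by decide +kernel)

def a6e971 : Pos := ⟨2532663311674272057795207604731542323538800044983806045755463217327915927692154364381524068673539202544940530643988791533060754944719903399235861237075443017503892669445198315520, 79422966325411819531216689668771633840132839018127331873537004665520512170834311979592122024481183998493644088772378344620982035189061194144459108512412805001517288356761553503950039798304955432960, 5⟩
def a6c971 : Cert := (move 588 (branch (move 586 (branch (move 558 (leaf 554 2)) (move 554 (branch (move 553 (leaf 553 3)) (move 618 (branch (move 617 (leaf 585 1)) (move 650 (leaf 522 6)))))))) (branch (move 590 (branch (move 554 (leaf 554 3)) (move 558 (branch (move 559 (leaf 555 2)) (move 622 (branch (move 623 (leaf 587 0)) (move 654 (leaf 525 7)))))))) (branch (move 554 (branch (move 590 (leaf 554 3)) (move 553 (branch (move 552 (leaf 552 0)) (move 586 (leaf 553 3)))))) (move 558 (branch (move 586 (leaf 554 2)) (move 559 (branch (move 560 (leaf 556 1)) (move 590 (leaf 555 2))))))))))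
theorem a6p971 : a6e971.Valid :=
  pos_of_chk [] forall_nil a6c971 a6e971 (by decide +kernel)

def a6e972 : Pos := ⟨506532662806599714991244477662772053650424858717283236132080591419487632720068139216229493048561171658078314823231123824367854548206384944369626750471666787933418897318736822272, 401316520939863789888497722764475575972532887831447254999612982246439186503631276265838586894922979642685778506360156983501958443313708233545786057229041217739437928076149014944151497959287774489874379309056, 7⟩
def a6c972 : Cert := (move 589 (branch (move 494 (branch (move 621 (leaf 493 6)) (move 462 (branch (move 430 (leaf 429 5)) (move 558 (leaf 461 5)))))) (branch (move 621 (branch (move 494 (leaf 493 6)) (move 652 (branch (move 620 (leaf 524 5)) (move 653 (branch (move 684 (leaf 556 5)) (move 654 (branch (move 622 (leaf 525 4)) (move 686 (leaf 557 4)))))))))) (move 558 (branch (move 588 (branch (move 586 (leaf 554 2)) (move 559 (branch (move 560 (leaf 556 1)) (move 590 (leaf 555 2)))))) (branch (move 556 (branch (move 586 (leaf 554 1)) (move 522 (leaf 522 3)))) (move 556 (branch (move 522 (leaf 522 3)) (move 590 (branch (move 591 (leaf 555 0))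 (move 588 (branch (move 559 (leaf 555 1)) (move 622 (branch (move 623 (leaf 587 0)) (move 654 (leaf 525 7))))))))))))))))
theorem a6p972 : a6e972.Valid :=
  pos_of_chk [] forall_nil a6c972 a6e972 (by decide +kernel)

def a6e973 : Pos := ⟨506532662334854411888551808632577731026891247352668083580025537872461845189365118917210886537795331010870968880547576945522373935735061865629027671401487506504331891862562406400, 401316520944535729082574506598506289415460719451012604522116165249849521393576470287392765815212122674304190779555555660714767201308659665742658477966845047955076193078338223784242310584003406839037229531136, 8⟩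
def a6c973 : Cert := (move 557 (branch (move 589 (branch (move 494 (branch (move 621 (leaf 493 6)) (move 462 (branch (move 430 (leaf 429 5)) (move 558 (leaf 461 5)))))) (branch (move 621 (branch (move 494 (leaf 493 6)) (move 652 (branch (move 620 (leaf 524 5)) (move 653 (branch (move 684 (leaf 556 5)) (move 654 (branch (move 622 (leaf 525 4)) (move 686 (leaf 557 4)))))))))) (ref 0)))) (branch (move 589 (branch (move 621 (branch (move 494 (leaf 493 6)) (move 652 (branch (move 620 (leaf 524 5)) (move 653 (branch (move 684 (leaf 556 5)) (move 654 (branch (move 622 (leaf 525 4)) (move 686 (leaf 557 4)))))))))) (move 554 (branch (move 556 (leaf 522 2)) (move 588 (branch (move 590 (leaf 554 3)) (move 553 (branch (move 552 (leaf 552 0)) (move 586 (leaf 553 3)))))))))) (branch (move 556 (branch (move 554 (leaf 522 2)) (move 558 (branch (move 522 (leaf 522 3)) (move 559 (branch (move 588 (leaf 555 1)) (move 591 (branch (move 590 (leaf 555 0)) (move 592 (leaf 556 0)))))))))) (branch (move 556 (branch (move 554 (leaf 522 2)) (move 558 (branch (move 586 (leaf 554 1)) (move 522 (leaf 522 3)))))) (ref 1))))))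
theorem a6p973 : a6e973.Valid :=
  pos_of_chk [a6e971, a6e972] (forall_cons a6p971 (forall_cons a6p972 forall_nil)) a6c973 a6e973 (by decide +kernel)

def a6e974 : Pos := ⟨506532662334854411559041520946308464707760008996761209151092643465583185538430872876304813734707840508988106128797758306612150988943980679847172247415088603500778533889039663104, 5438853047899976494565588037086812272880847867777761739336067715829292443856933955200417161379215969937094336662103001029789509442519530301575897013680886258600813173453062454772156596224, 13⟩
def a6c974 : Cert := (move 491 (branch (move 458 (branch (move 490 (leaf 458 7)) (move 459 (branch (move 426 (leaf 426 7)) (move 460 (branch (move 428 (leaf 427 6)) (move 492 (leaf 459 6)))))))) (branch (move 586 (branch (move 618 (leaf 490 5)) (move 459 (branch (move 554 (leaf 458 5)) (move 460 (branch (move 428 (leaf 427 6)) (move 492 (leaf 459 6)))))))) (branch (move 586 (branch (move 618 (leaf 490 5)) (move 459 (branch (move 554 (leaf 458 5)) (move 458 (branch (move 426 (leaf 426 7)) (move 490 (leaf 458 7)))))))) (move 492 (branch (move 460 (leaf 459 6)) (move 490 (branch (move 458 (leaf 458 7)) (move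 489 (branch (move 520 (branch (move 521 (leaf 488 1)) (move 488 (branch (move 519 (leaf 487 1)) (move 456 (branch (move 455 (leaf 455 3)) (move 457 (leaf 456 3)))))))) (branch (move 586 (branch (move 618 (leaf 490 5)) (move 456 (branch (move 457 (leaf 456 3)) (move 488 (branch (move 455 (leaf 455 3)) (move 487 (branch (move 522 (leaf 487 0)) (move 519 (branch (move 518 (leaf 486 1)) (move 520 (leaf 487 1)))))))))))) (branch (move 586 (branch (move 618 (leaf 490 5)) (move 457 (branch (move 456 (leaf 456 3)) (move 554 (branch (move 522 (leaf 457 7)) (move 553 (branch (move 521 (leaf 457 4)) (move 552 (branch (move 551 (leaf 551 0)) (move 588 (leaf 552 0)))))))))))) (move 520 (branch (move 521 (leaf 488 1)) (move 488 (branch (move 519 (leaf 487 1)) (move 487 (branch (move 522 (leaf 487 0)) (move 455 (branch (move 454 (leaf 454 3)) (move 552 (branch (move 584 (leaf 455 7)) (move 588 (branch (move 620 (leaf 491 4)) (move 586 (branch (move 618 (leaf 490 5)) (move 553 (branch (move 554 (leaf 552 0)) (move 585 (leaf 552 3))))))))))))))))))))))))))))))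
theorem a6p974 : a6e974.Valid :=
  pos_of_chk [] forall_nil a6c974 a6e974 (by decide +kernel)

def a6e975 : Pos := ⟨506532662216918085783368353688759884051876606155607421013078880078826738655755117801550162107016380347186269643126871586900780835826149910162022477647543783143506782524996059136, 86182066751429333862595221742348370558139574507534115222876007040705798549562272521881523967665786935840857672526928246912168535653188139419578769550457815993393513738518707599495544005685586915051810868713022816256, 14⟩
def a6c975 : Cert := (move 555 (branch (ref 0) (branch (move 491 (branch (move 618 (branch (move 586 (leaf 490 5)) (move 619 (branch (move 650 (leaf 522 5)) (move 620 (branch (move 588 (leaf 491 4)) (move 652 (leaf 523 4)))))))) (move 458 (branch (move 490 (leaf 458 7)) (move 459 (branch (move 426 (leaf 426 7)) (move 460 (branch (move 428 (leaf 427 6)) (move 492 (leaf 459 6)))))))))) (branch (move 491 (branch (move 490 (branch (move 458 (leaf 458 7)) (move 619 (branch (move 522 (leaf 490 7)) (move 620 (branch (move 588 (leaf 491 4)) (move 652 (leaf 523 4)))))))) (branch (move 458 (branch (move 490 (leaf 458 7)) (move 459 (branch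 (move 426 (leaf 426 7)) (move 460 (branch (move 428 (leaf 427 6)) (move 492 (leaf 459 6)))))))) (branch (move 460 (branch (move 492 (leaf 459 6)) (move 459 (branch (move 428 (leaf 427 6)) (move 554 (branch (move 586 (leaf 458 5)) (move 522 (branch (move 427 (leaf 426 5)) (move 619 (branch (move 490 (leaf 490 7)) (move 651 (leaf 522 7)))))))))))) (move 460 (branch (move 492 (leaf 459 6)) (move 459 (branch (move 428 (leaf 427 6)) (move 554 (branch (move 586 (leaf 458 5)) (move 427 (branch (move 522 (leaf 426 5)) (move 426 (branch (move 394 (leaf 394 7)) (move 458 (leaf 426 7)))))))))))))))) (branch (move 619 (branch (move 652 (branch (move 620 (leaf 523 4)) (move 651 (branch (move 684 (leaf 555 4)) (move 650 (branch (move 618 (leaf 522 5)) (move 682 (leaf 554 5)))))))) (branch (move 522 (branch (move 490 (leaf 490 7)) (move 651 (branch (move 554 (leaf 522 7)) (move 650 (branch (move 618 (leaf 522 5)) (move 682 (leaf 554 5)))))))) (move 620 (branch (move 652 (leaf 523 4)) (move 491 (branch (move 588 (leaf 491 4)) (move 460 (branch (move 492 (leaf 459 6)) (move 459 (branch (move 428 (leaf 427 6)) (move 458 (branch (move 426 (leaf 426 7)) (move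 490 (leaf 458 7))))))))))))))) (branch (move 619 (branch (move 652 (branch (move 620 (leaf 523 4)) (move 651 (branch (move 684 (leaf 555 4)) (move 650 (branch (move 618 (leaf 522 5)) (move 682 (leaf 554 5)))))))) (branch (move 522 (branch (move 490 (leaf 490 7)) (move 651 (branch (move 554 (leaf 522 7)) (move 652 (branch (move 620 (leaf 523 4)) (move 684 (leaf 555 4)))))))) (branch (move 522 (branch (move 490 (leaf 490 7)) (move 651 (branch (move 554 (leaf 522 7)) (move 650 (branch (move 618 (leaf 522 5)) (move 682 (leaf 554 5)))))))) (move 618 (branch (move 650 (leaf 522 5)) (move 617 (branch (move 616 (branch (move 588 (leaf 584 2)) (move 615 (branch (move 586 (leaf 583 2)) (move 583 (branch (move 582 (leaf 582 3)) (move 584 (leaf 583 3)))))))) (branch (move 620 (branch (move 652 (leaf 523 4)) (move 585 (branch (move 584 (leaf 584 3)) (move 649 (branch (move 648 (leaf 616 1)) (move 522 (branch (move 490 (leaf 490 7)) (move 554 (branch (move 586 (leaf 521 5)) (move 553 (leaf 521 6)))))))))))) (move 620 (branch (move 652 (leaf 523 4)) (move 616 (branch (move 588 (leaf 584 2)) (move 648 (branch (move 647 (leaf 615 1)) (move 649 (leaf 616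 1))))))))))))))))) (branch (ref 1) (move 619 (branch (move 652 (branch (move 620 (leaf 523 4)) (move 651 (branch (move 684 (leaf 555 4)) (move 650 (branch (move 618 (leaf 522 5)) (move 682 (leaf 554 5)))))))) (branch (move 620 (branch (move 652 (leaf 523 4)) (move 491 (branch (move 588 (leaf 491 4)) (move 586 (branch (move 618 (leaf 490 5)) (move 459 (branch (move 554 (leaf 458 5)) (move 460 (branch (move 428 (leaf 427 6)) (move 492 (leaf 459 6)))))))))))) (branch (move 652 (branch (move 620 (leaf 523 4)) (move 651 (branch (move 684 (leaf 555 4)) (move 682 (branch (move 650 (leaf 554 5)) (move 683 (branch (move 714 (leaf 586 5)) (move 554 (branch (move 522 (leaf 522 7)) (move 586 (leaf 554 7)))))))))))) (move 651 (branch (move 650 (branch (move 618 (leaf 522 5)) (move 682 (leaf 554 5)))) (branch (move 554 (branch (move 522 (leaf 522 7)) (move 586 (branch (move 683 (leaf 554 7)) (move 491 (branch (move 459 (leaf 458 5)) (move 618 (leaf 490 5)))))))) (move 554 (branch (move 522 (leaf 522 7)) (move 683 (branch (move 586 (leaf 554 7)) (move 682 (branch (move 650 (leaf 554 5)) (move 714 (leaf 586 5))))))))))))))))))))))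
theorem a6p975 : a6e975.Valid :=
  pos_of_chk [a6e968, a6e974] (forall_cons a6p968 (forall_cons a6p974 forall_nil)) a6c975 a6e975 (by decide +kernel)

def a6e976 : Pos := ⟨2175541219084010698567407705927463306174591141236814004777591273648878519062512631448974728195590040637566024586536637039407165912547862788356455698656969464963420391846102517016520818688, 284988290771242035125846074835821904040714525155678331230331547621340006009865535025762619641918929297845768688493087109511220832256166448187491214212954559320490469569113211756500948626124998443008, 9⟩
def a6c976 : Cert := (move 620 (branch (move 652 (leaf 523 4)) (move 621 (branch (move 618 (branch (move 650 (leaf 522 5)) (move 590 (branch (move 589 (leaf 586 2)) (move 622 (branch (move 591 (leaf 587 2)) (move 653 (branch (move 654 (leaf 618 0)) (move 558 (leaf 525 5)))))))))) (branch (move 618 (branch (move 650 (leaf 522 5)) (move 585 (branch (move 586 (leaf 585 3)) (move 617 (branch (move 584 (leaf 584 3)) (move 589 (branch (move 590 (leaf 586 2)) (move 557 (branch (move 494 (leaf 493 6)) (move 653 (branch (move 654 (leaf 618 0)) (move 558 (leaf 525 6)))))))))))))) (branch (move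 622 (branch (move 586 (leaf 586 3)) (move 590 (branch (move 591 (leaf 587 2)) (move 558 (branch (move 653 (leaf 525 5)) (move 654 (branch (move 655 (leaf 619 0)) (move 557 (leaf 525 7)))))))))) (move 618 (branch (move 650 (leaf 522 5)) (move 586 (branch (move 585 (leaf 585 3)) (move 622 (leaf 586 3))))))))))))
theorem a6p976 : a6e976.Valid :=
  pos_of_chk [] forall_nil a6c976 a6e976 (by decide +kernel)

def a6e977 : Pos := ⟨506532662334854411888551808638971072057938399442537594706641942466634974185542979834170439991108092331973848870553963844596405492670387420565668435091364960695514300169844686848, 561843129263483586932022203711830533362381338716758301409891115482628372800756263882887614155618135327262275191420370267915908368866636870471482518005308344440756359300620771657538247640359242781038865285120, 10⟩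
def a6c977 : Cert := (move 557 (branch (move 556 (branch (move 554 (leaf 522 2)) (move 558 (branch (move 522 (leaf 522 3)) (move 590 (branch (move 591 (leaf 555 0)) (move 622 (branch (move 654 (leaf 525 7)) (move 621 (branch (move 653 (leaf 525 5)) (move 494 (branch (move 589 (leaf 493 5)) (move 462 (branch (move 430 (leaf 429 5)) (move 463 (branch (move 431 (leaf 430 6)) (move 495 (leaf 462 6)))))))))))))))))) (branch (move 589 (branch (move 494 (branch (move 621 (leaf 493 6)) (move 462 (branch (move 430 (leaf 429 5)) (move 558 (leaf 461 5)))))) (branch (move 588 (branch (move 620 (leaf 491 4)) (move 590 (branch (move 554 (leaf 554 3)) (move 558 (branch (move 559 (leaf 555 2)) (move 622 (branch (move 623 (leaf 587 0)) (move 654 (leaf 525 7)))))))))) (move 621 (branch (move 494 (leaf 493 6)) (move 652 (branch (move 620 (leaf 524 5)) (move 653 (branch (move 684 (leaf 556 5)) (move 654 (branch (move 622 (leaf 525 4)) (move 686 (leaf 557 4))))))))))))) (branch (move 588 (branch (move 620 (leaf 491 4)) (move 589 (branch (move 494 (branch (move 621 (leaf 493 6)) (move 462 (branch (move 430 (leaf 429 5)) (move 558 (leaf 461 5)))))) (branch (move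 590 (branch (move 591 (branch (move 556 (leaf 555 3)) (move 559 (branch (move 558 (leaf 555 2)) (move 560 (leaf 556 2)))))) (branch (move 591 (branch (move 556 (leaf 555 3)) (move 623 (branch (move 622 (leaf 587 0)) (move 624 (leaf 588 0)))))) (move 558 (branch (move 559 (leaf 555 2)) (move 622 (branch (move 623 (leaf 587 0)) (move 654 (leaf 525 7))))))))) (move 621 (branch (move 494 (leaf 493 6)) (move 622 (branch (move 654 (leaf 525 4)) (move 623 (branch (move 590 (leaf 587 0)) (move 624 (leaf 588 3))))))))))))) (branch (move 556 (branch (move 554 (leaf 522 2)) (move 588 (branch (move 620 (leaf 491 4)) (move 558 (branch (move 559 (leaf 555 1)) (move 522 (leaf 522 3)))))))) (move 588 (branch (move 620 (leaf 491 4)) (move 589 (branch (move 621 (branch (move 494 (leaf 493 6)) (move 622 (branch (move 654 (leaf 525 4)) (move 623 (branch (move 590 (leaf 587 0)) (move 624 (leaf 588 3)))))))) (branch (move 621 (branch (move 494 (leaf 493 6)) (move 556 (branch (move 554 (leaf 522 2)) (move 654 (branch (move 622 (leaf 525 4)) (move 653 (branch (move 686 (leaf 557 4)) (move 684 (branch (move 652 (leaf 556 5)) (move 685 (leaf 556 7)))))))))))) (move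 554 (branch (move 556 (leaf 522 2)) (move 590 (leaf 554 3))))))))))))))
theorem a6p977 : a6e977.Valid :=
  pos_of_chk [] forall_nil a6c977 a6e977 (by decide +kernel)

def a6e978 : Pos := ⟨759798993443313454739047199516174014762938145635983434782948366111015382060875897062872708490917584871728745858142285409108986485299251672487306982226959535200641113378370093056, 74751027105228541092428099043691970883449967269182968392697396154188085544480737629004437346839309913253185291803993216734013404604006593110098557915681123834701299019346272433747613723663657861120, 5⟩
def a6c978 : Cert := (move 557 (branch (move 556 (branch (move 558 (leaf 554 1)) (move 554 (leaf 522 2)))) (branch (move 556 (branch (move 558 (leaf 554 1)) (move 585 (branch (move 584 (leaf 552 2)) (move 588 (leaf 553 2)))))) (branch (move 556 (branch (move 554 (leaf 522 2)) (move 585 (branch (move 584 (leaf 552 2)) (move 588 (leaf 553 2)))))) (move 589 (branch (move 494 (branch (move 621 (leaf 493 6)) (move 462 (branch (move 430 (leaf 429 5)) (move 558 (leaf 461 5)))))) (branch (move 588 (branch (move 558 (leaf 554 2)) (move 554 (branch (move 553 (leaf 553 3)) (move 590 (leaf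 554 3)))))) (move 621 (branch (move 494 (leaf 493 6)) (move 622 (branch (move 654 (leaf 525 4)) (move 588 (leaf 586 0)))))))))))))
theorem a6p978 : a6e978.Valid :=
  pos_of_chk [] forall_nil a6c978 a6e978 (by decide +kernel)

def a6e979 : Pos := ⟨506532662334854411888551808632577731026891247352668083580025537872461845189365118917210886537795331010870968880547576945522373935735061865629027671401487506504331891862562406400, 32497146955983490220667782372664397342844838805786939441909127421313031905742223205512355457721379271337671684446205863234358133921286124368182302276145738361647698063018245311613527654400, 9⟩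
def a6c979 : Cert := (move 491 (branch (move 458 (branch (move 490 (leaf 458 7)) (move 459 (branch (move 426 (leaf 426 7)) (move 460 (branch (move 428 (leaf 427 6)) (move 492 (leaf 459 6)))))))) (move 586 (branch (move 618 (leaf 490 5)) (move 588 (branch (move 620 (leaf 491 4)) (move 557 (branch (move 589 (branch (move 558 (leaf 554 2)) (move 621 (branch (move 622 (leaf 586 0)) (move 494 (leaf 493 6)))))) (move 585 (branch (move 556 (leaf 553 2)) (move 552 (branch (move 553 (leaf 552 3)) (move 584 (branch (move 551 (leaf 551 3)) (move 616 (branch (move 615 (leaf 583 1)) (move 617 (leaf 584 1))))))))))))))))))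
theorem a6p979 : a6e979.Valid :=
  pos_of_chk [] forall_nil a6c979 a6e979 (by decide +kernel)

def a6e980 : Pos := ⟨506532662334854411559041520952701805738807161086630720277709048059756314534608733793264367188020601830090986118804145205686182545879306234783813011104966057691960942196321943552, 2175541218767427784910335533189160353748421633547816928406582389222941728140883406987697718555813176446826350195907203610147931622751043761689185666031457364739415800355014275648626622464, 9⟩
def a6c980 : Cert := (move 490 (branch (move 458 (leaf 458 7)) (move 522 (branch (move 619 (leaf 490 7)) (move 489 (branch (move 488 (branch (move 487 (leaf 487 0)) (move 520 (branch (move 519 (leaf 487 1)) (move 521 (branch (move 492 (leaf 488 1)) (move 456 (branch (move 455 (leaf 455 3)) (move 553 (branch (move 424 (leaf 424 4)) (move 585 (leaf 456 7)))))))))))) (branch (move 488 (branch (move 487 (leaf 487 0)) (move 520 (branch (move 519 (leaf 487 1)) (move 521 (branch (move 556 (leaf 520 0)) (move 552 (branch (move 551 (leaf 519 1)) (move 457 (branch (move 425 (leaf 424 5)) (move 584 (leaf 456 6)))))))))))) (branch (move 492 (branch (move 460 (leaf 459 6))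 (move 521 (branch (move 520 (leaf 488 1)) (move 457 (branch (move 456 (leaf 456 3)) (move 425 (branch (move 393 (leaf 393 4)) (move 554 (leaf 425 4)))))))))) (move 492 (branch (move 460 (leaf 459 6)) (move 488 (branch (move 487 (leaf 487 0)) (move 456 (branch (move 455 (leaf 455 3)) (move 457 (leaf 456 3))))))))))))))))
theorem a6p980 : a6e980.Valid :=
  pos_of_chk [] forall_nil a6c980 a6e980 (by decide +kernel)

def a6e981 : Pos := ⟨506532662806599714991244477662772053650424858717283236132080591419487632720068139216229493048561171658078314823231123824367854548206384944369626750471666787933418897318736822272, 8702164905968203540327900430902741976992119591067990623417706080022511609705030586948773103557334279737246560452114884632239536926659307935743783263411264913323174595832149150887562969088, 5⟩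
def a6c981 : Cert := (move 558 (branch (move 556 (branch (move 586 (leaf 554 1)) (move 522 (leaf 522 3)))) (branch (move 556 (branch (move 522 (leaf 522 3)) (move 559 (branch (move 588 (leaf 555 1)) (move 591 (branch (move 590 (leaf 555 0)) (move 592 (leaf 556 0)))))))) (move 589 (branch (move 494 (branch (move 621 (leaf 493 6)) (move 462 (leaf 461 5)))) (move 588 (branch (move 586 (leaf 554 2)) (move 559 (branch (move 560 (leaf 556 1)) (move 590 (leaf 555 2)))))))))))
theorem a6p981 : a6e981.Valid :=
  pos_of_chk [] forall_nil a6c981 a6e981 (by decide +kernel)

def a6e982 : Pos := ⟨506532662334854411888551808632577731026891247352668083580025537872461845189365118917210886537795331010870968880547576945522373935735061865629027671401487506504331891862562406400, 20065826129219319416886578134122899951980058258064904750513278318295035643875906750351381634937452290305696455690408231090323963961343973896899137023606731688997075480691496048854301159958079424038835322880, 10⟩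
def a6c982 : Cert := (move 557 (branch (move 556 (branch (move 554 (leaf 522 2)) (move 558 (branch (move 586 (leaf 554 1)) (move 522 (leaf 522 3)))))) (branch (move 556 (branch (move 554 (leaf 522 2)) (move 558 (branch (move 522 (leaf 522 3)) (move 559 (branch (move 588 (leaf 555 1)) (move 591 (branch (move 590 (leaf 555 0)) (move 592 (leaf 556 0)))))))))) (branch (ref 0) (branch (move 589 (branch (move 494 (branch (move 621 (leaf 493 6)) (move 462 (branch (move 430 (leaf 429 5)) (move 558 (leaf 461 5)))))) (branch (ref 1) (move 621 (branch (move 494 (leaf 493 6)) (move 622 (branch (move 654 (leaf 525 4)) (move 588 (branch (move 586 (leaf 586 0)) (move 590 (branch (move 623 (leaf 587 0)) (move 554 (leaf 554 3))))))))))))) (move 589 (branch (move 554 (branch (move 556 (leaf 522 2)) (move 588 (branch (move 590 (leaf 554 3)) (move 553 (branch (move 552 (leaf 552 0)) (move 586 (leaf 553 3)))))))) (branch (move 621 (branch (move 494 (leaf 493 6)) (move 622 (branch (move 654 (leaf 525 4)) (move 588 (branch (move 586 (leaf 586 0)) (move 623 (branch (move 590 (leaf 587 0)) (move 624 (leaf 588 3)))))))))) (branch (move 554 (branch (move 556 (leaf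 522 2)) (move 588 (branch (move 590 (leaf 554 3)) (move 621 (branch (move 494 (leaf 493 6)) (move 622 (branch (move 654 (leaf 525 4)) (move 623 (branch (move 620 (leaf 587 3)) (move 624 (leaf 588 3)))))))))))) (branch (move 554 (branch (move 556 (leaf 522 2)) (move 621 (branch (move 494 (leaf 493 6)) (move 622 (branch (move 654 (leaf 525 4)) (move 586 (branch (move 588 (leaf 586 0)) (move 619 (branch (move 620 (leaf 586 3)) (move 522 (branch (move 490 (leaf 490 4)) (move 651 (leaf 522 7)))))))))))))) (move 554 (branch (move 556 (leaf 522 2)) (move 619 (branch (move 522 (branch (move 490 (leaf 490 7)) (move 651 (leaf 522 7)))) (branch (move 650 (branch (move 618 (leaf 522 5)) (move 651 (branch (move 682 (leaf 554 5)) (move 621 (branch (move 494 (leaf 493 6)) (move 622 (branch (move 620 (leaf 618 1)) (move 654 (leaf 525 4)))))))))) (move 522 (branch (move 490 (leaf 490 7)) (move 618 (branch (move 650 (leaf 522 5)) (move 621 (branch (move 494 (leaf 493 6)) (move 620 (branch (move 590 (leaf 586 2)) (move 586 (branch (move 585 (leaf 585 3)) (move 622 (leaf 586 3)))))))))))))))))))))))))))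
theorem a6p982 : a6e982.Valid :=
  pos_of_chk [a6e981, a6e971] (forall_cons a6p981 (forall_cons a6p971 forall_nil)) a6c982 a6e982 (by decide +kernel)

def a6e983 : Pos := ⟨506532662334854411888551808632577731026891247352668083580025537872461845189365118917210886537795331010870968880547576945522373935735061865629027671401487506504331891862562406400, 401316520939863789890673263999262099200281759457831666405085536574519956096693712824814909821321753781076282729418780277689661962937533729137691313597464726533771319762761807449777759950645168730772479148032, 7⟩
def a6c983 : Cert := (move 557 (branch (move 556 (branch (move 554 (leaf 522 2)) (move 558 (branch (move 586 (leaf 554 1)) (move 522 (leaf 522 3)))))) (branch (ref 0) (branch (move 589 (branch (move 621 (branch (move 494 (leaf 493 6)) (move 652 (branch (move 620 (leaf 524 5)) (move 653 (branch (move 684 (leaf 556 5)) (move 654 (branch (move 622 (leaf 525 4)) (move 686 (leaf 557 4)))))))))) (move 554 (branch (move 556 (leaf 522 2)) (move 588 (branch (move 590 (leaf 554 3)) (move 553 (branch (move 552 (leaf 552 0)) (move 586 (leaf 553 3)))))))))) (move 589 (branch (move 494 (branch (move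 621 (leaf 493 6)) (move 462 (branch (move 430 (leaf 429 5)) (move 558 (leaf 461 5)))))) (branch (move 621 (branch (move 494 (leaf 493 6)) (move 652 (branch (move 620 (leaf 524 5)) (move 653 (branch (move 684 (leaf 556 5)) (move 654 (branch (move 622 (leaf 525 4)) (move 686 (leaf 557 4)))))))))) (move 588 (branch (move 620 (branch (move 491 (leaf 491 4)) (move 652 (branch (move 619 (leaf 523 4)) (move 684 (leaf 556 6)))))) (move 590 (branch (move 554 (leaf 554 3)) (move 558 (branch (move 559 (leaf 555 2)) (move 622 (branch (move 623 (leaf 587 0)) (move 654 (leaf 525 7)))))))))))))))))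
theorem a6p983 : a6e983.Valid :=
  pos_of_chk [a6e981] (forall_cons a6p981 forall_nil) a6c983 a6e983 (by decide +kernel)

def a6e984 : Pos := ⟨506532662334854411572771116276159695684294538729728262275556120957129489851486591170115230281472294594887545395130247765177790947129930728326377368949338072412700202932193198080, 271942652765400834079437792217991445084723570952110550960331702254878657961379787820863759271400157723408811507680074323996332961476196657811392805258646734370283831180255124256483966976, 7⟩
def a6c984 : Cert := (move 489 (branch (move 492 (branch (move 460 (leaf 459 6)) (move 488 (branch (move 487 (leaf 487 0)) (move 456 (branch (move 455 (leaf 455 3)) (move 457 (leaf 456 3)))))))) (branch (move 492 (branch (move 460 (leaf 459 6)) (move 521 (branch (move 520 (leaf 488 1)) (move 457 (branch (move 456 (leaf 456 3)) (move 554 (branch (move 425 (leaf 425 4)) (move 586 (leaf 457 7)))))))))) (branch (move 488 (branch (move 487 (leaf 487 0)) (move 520 (branch (move 519 (leaf 487 1)) (move 521 (branch (move 492 (leaf 488 1)) (move 456 (branch (move 455 (leaf 455 3)) (move 553 (branch (move 424 (leaf 424 4)) (move 585 (leaf 456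 7)))))))))))) (branch (move 488 (branch (move 487 (leaf 487 0)) (move 520 (branch (move 519 (leaf 487 1)) (move 521 (branch (move 492 (leaf 488 1)) (move 552 (branch (move 551 (leaf 519 1)) (move 584 (branch (move 457 (leaf 456 6)) (move 616 (leaf 488 6)))))))))))) (move 520 (branch (move 488 (branch (move 487 (leaf 487 0)) (move 519 (leaf 487 1)))) (branch (move 521 (branch (move 519 (leaf 487 2)) (move 552 (branch (move 551 (leaf 519 1)) (move 457 (branch (move 425 (leaf 424 5)) (move 584 (branch (move 553 (leaf 456 5)) (move 616 (leaf 488 6)))))))))) (move 521 (branch (move 488 (branch (move 487 (leaf 487 0)) (move 552 (branch (move 551 (leaf 519 1)) (move 457 (branch (move 425 (leaf 424 5)) (move 584 (leaf 456 6)))))))) (branch (move 552 (branch (move 551 (leaf 519 1)) (move 457 (branch (move 425 (leaf 424 5)) (move 584 (branch (move 553 (leaf 456 5)) (move 616 (leaf 488 6)))))))) (move 488 (branch (move 487 (leaf 487 0)) (move 456 (branch (move 455 (leaf 455 3)) (move 553 (branch (move 424 (leaf 424 4)) (move 585 (leaf 456 7)))))))))))))))))))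
theorem a6p984 : a6e984.Valid :=
  pos_of_chk [] forall_nil a6c984 a6e984 (by decide +kernel)

def a6e985 : Pos := ⟨506532662334854411559041520946308464707760008996761209151092643465583185538430872876304813734707840508988106128797758306612150988943980679847172247415088603500778533889039663104, 9343878387337739679119998318786187719651964520801638949966986963338186635250552131100328930053316072707596607738863364638068614345556542702557743588376514964045190482993349310227292110114995044352, 10⟩
def a6c985 : Cert := (move 491 (branch (move 458 (branch (move 490 (leaf 458 7)) (move 459 (branch (move 426 (leaf 426 7)) (move 460 (branch (move 428 (leaf 427 6)) (move 492 (leaf 459 6)))))))) (branch (move 460 (branch (move 492 (leaf 459 6)) (move 459 (branch (move 428 (leaf 427 6)) (move 554 (branch (move 586 (leaf 458 5)) (move 522 (branch (move 427 (leaf 426 5)) (move 619 (branch (move 490 (leaf 490 7)) (move 651 (leaf 522 7)))))))))))) (branch (move 459 (branch (move 458 (branch (move 426 (leaf 426 7)) (move 490 (leaf 458 7)))) (branch (move 554 (branch (move 586 (leaf 458 5)) (move 427 (branch (move 522 (leaf 426 5)) (move 426 (branch (move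 394 (leaf 394 7)) (move 458 (leaf 426 7)))))))) (move 554 (branch (move 586 (leaf 458 5)) (move 522 (branch (move 427 (leaf 426 5)) (move 619 (branch (move 490 (leaf 490 7)) (move 651 (leaf 522 7))))))))))) (branch (move 460 (branch (move 492 (leaf 459 6)) (move 459 (branch (move 428 (leaf 427 6)) (move 554 (branch (move 586 (leaf 458 5)) (move 427 (branch (move 522 (leaf 426 5)) (move 426 (branch (move 394 (leaf 394 7)) (move 458 (leaf 426 7)))))))))))) (move 490 (branch (move 458 (leaf 458 7)) (move 522 (branch (move 619 (leaf 490 7)) (ref 0))))))))))
theorem a6p985 : a6e985.Valid :=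
  pos_of_chk [a6e984] (forall_cons a6p984 forall_nil) a6c985 a6e985 (by decide +kernel)

def a6e986 : Pos := ⟨506532662334854411888551808632577731026891247352668083580025537872461845189365118917210886537795331010870968880547576945522373935735061865629027671401487506504331891862562406400, 401316520949207668277467118373484461678790784505655511884419741417711282086163032096059219692209416161015145307812344706822060943879991227706247552527118312230486056175988096677507589068953307170359797088256, 11⟩
def a6c986 : Cert := (move 557 (branch (move 556 (branch (move 554 (leaf 522 2)) (move 558 (branch (move 586 (leaf 554 1)) (move 522 (leaf 522 3)))))) (branch (move 556 (branch (move 554 (leaf 522 2)) (move 558 (branch (move 522 (leaf 522 3)) (move 559 (branch (move 588 (leaf 555 1)) (move 591 (branch (move 590 (leaf 555 0)) (move 592 (leaf 556 0)))))))))) (branch (move 589 (branch (move 621 (branch (move 494 (leaf 493 6)) (move 652 (branch (move 620 (leaf 524 5)) (move 653 (branch (move 684 (leaf 556 5)) (move 654 (branch (move 622 (leaf 525 4)) (move 686 (leaf 557 4)))))))))) (move 554 (branch (move 556 (leaf 522 2)) (move 588 (branch (move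 590 (leaf 554 3)) (move 553 (branch (move 552 (leaf 552 0)) (move 586 (leaf 553 3)))))))))) (branch (ref 0) (move 589 (branch (move 494 (branch (move 621 (leaf 493 6)) (move 462 (branch (move 430 (leaf 429 5)) (move 558 (leaf 461 5)))))) (branch (move 621 (branch (move 494 (leaf 493 6)) (move 652 (branch (move 620 (leaf 524 5)) (move 653 (branch (move 684 (leaf 556 5)) (move 654 (branch (move 622 (leaf 525 4)) (move 686 (leaf 557 4)))))))))) (move 588 (branch (move 554 (branch (move 590 (leaf 554 3)) (move 553 (branch (move 552 (leaf 552 0)) (move 586 (leaf 553 3)))))) (branch (move 558 (branch (move 586 (leaf 554 2)) (move 559 (branch (move 560 (leaf 556 1)) (move 590 (leaf 555 2)))))) (branch (move 590 (branch (move 554 (leaf 554 3)) (move 558 (branch (move 559 (leaf 555 2)) (move 622 (branch (move 623 (leaf 587 0)) (move 654 (leaf 525 7)))))))) (move 586 (branch (move 558 (leaf 554 2)) (move 554 (branch (move 553 (leaf 553 3)) (move 617 (branch (move 618 (leaf 585 1)) (move 585 (branch (move 616 (leaf 584 1)) (move 522 (branch (move 490 (leaf 489 5)) (move 619 (branch (move 651 (leaf 522 7)) (move 620 (branch (move 584 (leaf 584 0))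 (move 652 (leaf 523 4))))))))))))))))))))))))))))
theorem a6p986 : a6e986.Valid :=
  pos_of_chk [a6e972] (forall_cons a6p972 forall_nil) a6c986 a6e986 (by decide +kernel)

def a6e987 : Pos := ⟨506532662334854411888551808632577731026891247352668083580025537872461845189365118917210886537795331010870968880547576945522373935735061865629027671401487506504331891862562406400, 100329130239345890457291372506460545196753776047776702805330631698698627717397350281435379765323322232219214962307989117824653757938656162226379467667041635463921222174870748963141087105532698367367080574976, 14⟩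
def a6c987 : Cert := (move 619 (branch (move 652 (branch (move 620 (leaf 523 4)) (move 651 (branch (move 684 (leaf 555 4)) (move 650 (branch (move 618 (leaf 522 5)) (move 682 (leaf 554 5)))))))) (branch (move 522 (branch (move 490 (leaf 490 7)) (move 651 (branch (move 554 (leaf 522 7)) (move 652 (branch (move 620 (leaf 523 4)) (move 684 (leaf 555 4)))))))) (branch (move 522 (branch (move 490 (leaf 490 7)) (move 651 (branch (move 554 (leaf 522 7)) (move 650 (branch (move 618 (leaf 522 5)) (move 682 (leaf 554 5)))))))) (move 620 (branch (move 652 (leaf 523 4)) (move 618 (branch (move 650 (leaf 522 5)) (move 617 (branch (move 584 (branch (move 585 (leaf 584 3)) (move 616 (branch (move 583 (leaf 583 3)) (move 648 (branch (move 647 (leaf 615 1)) (move 649 (leaf 616 1)))))))) (branch (move 522 (branch (move 490 (leaf 490 7)) (move 649 (branch (move 648 (leaf 616 1)) (move 554 (branch (move 586 (leaf 521 5)) (move 556 (branch (move 557 (leaf 522 2)) (move 520 (branch (move 521 (leaf 520 0)) (move 553 (branch (move 585 (leaf 521 6)) (move 552 (branch (move 551 (leaf 519 2)) (move 519 (leaf 519 3)))))))))))))))) (branch (move 584 (branch (move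 585 (leaf 584 3)) (move 616 (branch (move 583 (leaf 583 3)) (move 615 (branch (move 586 (leaf 583 2)) (move 647 (branch (move 646 (leaf 614 1)) (move 520 (branch (move 552 (leaf 519 5)) (move 522 (branch (move 490 (leaf 490 7)) (move 521 (branch (move 556 (leaf 520 0)) (move 519 (branch (move 554 (leaf 519 0)) (move 487 (branch (move 486 (leaf 486 3)) (move 488 (leaf 487 3)))))))))))))))))))) (move 522 (branch (move 490 (leaf 490 7)) (move 648 (branch (move 649 (leaf 616 1)) (move 616 (branch (move 647 (leaf 615 1)) (move 615 (branch (move 586 (leaf 583 2)) (move 583 (branch (move 582 (leaf 582 3)) (move 584 (leaf 583 3))))))))))))))))))))))))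
theorem a6p987 : a6e987.Valid :=
  pos_of_chk [] forall_nil a6c987 a6e987 (by decide +kernel)

def a6e988 : Pos := ⟨506532662334854411888551808632577731026891247352668083580025537872461845189365118917210886537795331010870968880547576945522373935735061865629027671401487506504331891862562406400, 430910333516356756788418922608381292719714259640078346532105492811721093503451445782082225535089892179610445934544737653581297240093430515925948249643067352148169101883479561038175702748076249150617383946211901308928, 8⟩
def a6c988 : Cert := (move 557 (branch (move 556 (branch (move 554 (leaf 522 2)) (move 558 (branch (move 586 (leaf 554 1)) (move 522 (leaf 522 3)))))) (branch (move 556 (branch (move 554 (leaf 522 2)) (move 558 (branch (move 522 (leaf 522 3)) (move 559 (branch (move 588 (leaf 555 1)) (move 591 (branch (move 590 (leaf 555 0)) (move 592 (leaf 556 0)))))))))) (branch (ref 0) (branch (move 589 (branch (move 621 (branch (move 494 (leaf 493 6)) (move 652 (branch (move 620 (leaf 524 5)) (move 653 (branch (move 684 (leaf 556 5)) (move 654 (branch (move 622 (leaf 525 4)) (move 686 (leaf 557 4)))))))))) (move 554 (branch (move 556 (leaf 522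 2)) (move 588 (branch (move 590 (leaf 554 3)) (move 553 (branch (move 552 (leaf 552 0)) (move 586 (leaf 553 3)))))))))) (move 619 (branch (move 522 (branch (move 490 (leaf 490 7)) (move 651 (branch (move 554 (leaf 522 7)) (move 684 (branch (move 652 (leaf 555 4)) (move 683 (branch (move 716 (leaf 587 4)) (move 682 (branch (move 650 (leaf 554 5)) (move 714 (leaf 586 5)))))))))))) (branch (move 589 (branch (move 494 (branch (move 621 (leaf 493 6)) (move 462 (branch (move 430 (leaf 429 5)) (move 558 (leaf 461 5)))))) (move 522 (branch (move 490 (leaf 490 7)) (move 554 (branch (move 651 (leaf 522 7)) (move 588 (branch (move 590 (leaf 554 3)) (move 553 (branch (move 552 (leaf 552 0)) (move 586 (leaf 553 3)))))))))))) (move 621 (branch (move 589 (branch (move 494 (leaf 493 6)) (move 622 (branch (move 654 (leaf 525 4)) (move 588 (branch (move 586 (leaf 586 0)) (move 623 (branch (move 590 (leaf 587 0)) (move 624 (leaf 588 3)))))))))) (branch (move 620 (branch (move 652 (leaf 523 4)) (move 622 (branch (move 586 (leaf 586 3)) (move 590 (branch (move 591 (leaf 587 2)) (move 558 (branch (move 653 (leaf 525 5)) (move 654 (leaf 525 7)))))))))) (move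 589 (branch (move 494 (leaf 493 6)) (move 652 (branch (move 620 (leaf 523 4)) (move 653 (branch (move 684 (leaf 556 5)) (move 558 (leaf 525 6)))))))))))))))))))
theorem a6p988 : a6e988.Valid :=
  pos_of_chk [a6e981] (forall_cons a6p981 forall_nil) a6c988 a6e988 (by decide +kernel)

def a6e989 : Pos := ⟨506532662334854411888551808632577731026891247352668083580025537872461845189365118917210886537795331010870968880547576945522373935735061865629027671401487506504331891862562406400, 581908955322039825824138630893084296919583953369894764403776653597978898729847137930796713407285114074850519991030454362787516840162243757911244432502026115938269219613747779406022185781960784140422646595584, 10⟩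
def a6c989 : Cert := (move 619 (branch (move 652 (branch (move 620 (leaf 523 4)) (move 651 (branch (move 684 (leaf 555 4)) (move 650 (branch (move 618 (leaf 522 5)) (move 682 (leaf 554 5)))))))) (branch (move 522 (branch (move 490 (leaf 490 7)) (move 651 (branch (move 554 (leaf 522 7)) (move 652 (branch (move 620 (leaf 523 4)) (move 684 (leaf 555 4)))))))) (branch (move 522 (branch (move 490 (leaf 490 7)) (move 651 (branch (move 554 (leaf 522 7)) (move 650 (branch (move 618 (leaf 522 5)) (move 682 (leaf 554 5)))))))) (move 589 (branch (move 620 (branch (move 652 (leaf 523 4)) (move 618 (branch (move 650 (leaf 522 5)) (move 617 (branch (move 588 (leaf 585 2)) (move 584 (branch (move 585 (leaf 584 3)) (move 616 (branch (move 583 (leaf 583 3)) (move 648 (branch (move 647 (leaf 615 1)) (move 649 (leaf 616 1)))))))))))))) (branch (move 620 (branch (move 652 (leaf 523 4)) (move 618 (branch (move 650 (leaf 522 5)) (move 621 (branch (move 590 (leaf 586 2)) (move 557 (branch (move 494 (leaf 493 6)) (move 654 (branch (move 653 (leaf 618 0)) (move 622 (leaf 525 4)))))))))))) (branch (move 557 (branch (move 556 (branch (move 554 (leaf 522 2)) (move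 558 (branch (move 522 (leaf 522 3)) (move 559 (branch (move 588 (leaf 555 1)) (move 591 (branch (move 590 (leaf 555 0)) (move 592 (leaf 556 0)))))))))) (move 621 (branch (move 494 (leaf 493 6)) (move 652 (branch (move 620 (leaf 524 5)) (move 653 (branch (move 684 (leaf 556 5)) (move 654 (branch (move 622 (leaf 525 4)) (move 686 (leaf 557 4)))))))))))) (move 557 (branch (move 494 (branch (move 621 (leaf 493 6)) (move 462 (branch (move 430 (leaf 429 5)) (move 558 (leaf 461 5)))))) (branch (move 556 (branch (move 554 (leaf 522 2)) (move 558 (branch (move 522 (leaf 522 3)) (move 559 (branch (move 588 (leaf 555 1)) (move 591 (branch (move 590 (leaf 555 0)) (move 592 (leaf 556 0)))))))))) (move 556 (branch (move 554 (leaf 522 2)) (move 621 (branch (move 494 (leaf 493 6)) (move 618 (branch (move 650 (leaf 522 5)) (move 588 (branch (move 590 (leaf 586 1)) (move 653 (branch (move 685 (leaf 556 7)) (move 654 (branch (move 622 (leaf 525 4)) (move 686 (leaf 557 4)))))))))))))))))))))))))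
theorem a6p989 : a6e989.Valid :=
  pos_of_chk [] forall_nil a6c989 a6e989 (by decide +kernel)

def a6e990 : Pos := ⟨2175541219084010699039153009030155975204785463860347616142206426200933572609538418979677748494608647148331865233743982982090712791393343400827778777397568544033599673275189522472695234560, 100329130347092488206927012929499629609767348743585880897279292942988814008228282020597781782082006579068618931790482659456603237505395769934620685025615585236282668357831411691804961902945748660258798043136, 7⟩
def a6c990 : Cert := (move 589 (branch (move 618 (branch (move 650 (leaf 522 5)) (move 588 (branch (move 590 (leaf 586 1)) (move 617 (branch (move 586 (leaf 585 1)) (move 616 (leaf 584 2)))))))) (branch (move 621 (branch (move 494 (leaf 493 6)) (move 622 (branch (move 654 (leaf 525 4)) (move 588 (branch (move 586 (leaf 586 0)) (move 623 (branch (move 590 (leaf 587 0)) (move 624 (leaf 588 3)))))))))) (move 621 (branch (move 494 (leaf 493 6)) (move 650 (branch (move 618 (leaf 522 5)) (move 651 (branch (move 682 (leaf 554 5)) (move 652 (branch (move 684 (leaf 555 4)) (move 622 (branch (move 653 (leaf 618 2)) (move 654 (leaf 525 4)))))))))))))))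
theorem a6p990 : a6e990.Valid :=
  pos_of_chk [] forall_nil a6c990 a6e990 (by decide +kernel)

def a6e991 : Pos := ⟨506532662334854411888551808632577731026891247352668083580025537872461845189365118917210886537795331010870968880547576945522373935735061865629027671401487506504331891862562406400, 581908955320287848727046603983848368150453468475711833947341532954649644874927412478269014371154873915141499365855081147626415063767236996542022643521710063541226097627680289290406231953383710492268116836352, 10⟩
def a6c991 : Cert := (move 557 (branch (move 556 (branch (move 554 (leaf 522 2)) (move 558 (branch (move 586 (leaf 554 1)) (move 522 (leaf 522 3)))))) (branch (move 556 (branch (move 554 (leaf 522 2)) (move 558 (branch (move 522 (leaf 522 3)) (move 559 (branch (move 588 (leaf 555 1)) (move 591 (branch (move 590 (leaf 555 0)) (move 592 (leaf 556 0)))))))))) (branch (ref 0) (branch (move 589 (branch (move 494 (branch (move 621 (leaf 493 6)) (move 462 (branch (move 430 (leaf 429 5)) (move 558 (leaf 461 5)))))) (branch (ref 1) (move 621 (branch (move 494 (leaf 493 6)) (move 622 (branch (move 654 (leaf 525 4)) (move 588 (branch (move 586 (leaf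 586 0)) (move 590 (branch (move 623 (leaf 587 0)) (move 554 (leaf 554 3))))))))))))) (move 619 (branch (move 554 (branch (move 556 (leaf 522 2)) (move 522 (branch (move 490 (leaf 490 7)) (move 651 (leaf 522 7)))))) (branch (ref 2) (move 588 (branch (move 618 (branch (move 650 (leaf 522 5)) (move 589 (branch (move 590 (leaf 586 1)) (move 617 (branch (move 586 (leaf 585 1)) (move 616 (leaf 584 2)))))))) (branch (move 554 (branch (move 556 (leaf 522 2)) (move 522 (branch (move 490 (leaf 490 7)) (move 618 (branch (move 650 (leaf 522 5)) (move 553 (branch (move 552 (leaf 552 0)) (move 617 (branch (move 616 (leaf 584 2)) (move 649 (branch (move 586 (leaf 521 5)) (move 585 (leaf 521 6)))))))))))))) (branch (move 554 (branch (move 556 (leaf 522 2)) (move 522 (branch (move 490 (leaf 490 7)) (move 553 (branch (move 552 (leaf 552 0)) (move 589 (branch (move 586 (leaf 553 3)) (move 590 (leaf 554 3)))))))))) (move 618 (branch (move 650 (leaf 522 5)) (move 589 (branch (move 590 (leaf 586 1)) (move 621 (branch (move 494 (leaf 493 6)) (move 556 (branch (move 554 (leaf 522 2)) (move 653 (branch (move 685 (leaf 556 7)) (move 654 (branch (move 622 (leaf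 525 4)) (move 686 (leaf 557 4))))))))))))))))))))))))))
theorem a6p991 : a6e991.Valid :=
  pos_of_chk [a6e981, a6e971, a6e990] (forall_cons a6p981 (forall_cons a6p971 (forall_cons a6p990 forall_nil))) a6c991 a6e991 (by decide +kernel)

def a6e992 : Pos := ⟨506532662806599714991244477662772053650424858717283236132080591419487632720068139216229493048561171658078314823231123824367854548206384944369626750471666787933418897318736822272, 430910333195303540141179328557772646219208257779781449645689428064083333865799835214666441257552361786647763556178804367874849942231540907141528497573353143792199737159349740880302463815457431296541069462789037228032, 10⟩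
def a6c992 : Cert := (move 619 (branch (move 652 (branch (move 620 (leaf 523 4)) (move 651 (branch (move 684 (leaf 555 4)) (move 650 (branch (move 618 (leaf 522 5)) (move 682 (leaf 554 5)))))))) (branch (move 652 (branch (move 620 (leaf 523 4)) (move 651 (branch (move 684 (leaf 555 4)) (move 556 (branch (move 554 (leaf 522 2)) (move 588 (branch (move 683 (leaf 555 6)) (move 558 (branch (move 559 (leaf 555 1)) (move 590 (branch (move 591 (leaf 555 0)) (move 589 (branch (move 618 (leaf 586 1)) (move 621 (branch (move 494 (leaf 493 5)) (move 653 (leaf 525 6)))))))))))))))))) (branch (move 650 (branch (move 618 (leaf 522 5)) (move 651 (branch (move 682 (leaf 554 5)) (move 556 (branch (move 554 (leaf 522 2)) (move 588 (branch (move 683 (leaf 555 6)) (move 558 (branch (move 559 (leaf 555 1)) (move 590 (branch (move 591 (leaf 555 0)) (move 622 (branch (move 654 (leaf 525 7)) (move 621 (branch (move 620 (leaf 618 1)) (move 653 (leaf 525 5)))))))))))))))))) (branch (move 556 (branch (move 554 (leaf 522 2)) (move 650 (branch (move 618 (leaf 522 5)) (move 651 (branch (move 682 (leaf 554 5)) (move 684 (branch (move 652 (leaf 555 4)) (move 683 (branch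 (move 716 (leaf 587 4)) (move 588 (leaf 555 6)))))))))))) (branch (move 652 (branch (move 620 (leaf 523 4)) (move 651 (branch (move 684 (leaf 555 4)) (move 556 (branch (move 554 (leaf 522 2)) (move 683 (branch (move 588 (leaf 555 6)) (move 682 (branch (move 650 (leaf 554 5)) (move 714 (leaf 586 5)))))))))))) (move 589 (branch (move 494 (branch (move 621 (leaf 493 6)) (move 462 (branch (move 430 (leaf 429 5)) (move 558 (leaf 461 5)))))) (move 556 (branch (move 554 (leaf 522 2)) (move 620 (branch (move 652 (leaf 523 4)) (move 618 (branch (move 650 (leaf 522 5)) (move 588 (branch (move 590 (leaf 586 1)) (move 617 (leaf 585 2))))))))))))))))))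
theorem a6p992 : a6e992.Valid :=
  pos_of_chk [] forall_nil a6c992 a6e992 (by decide +kernel)

def a6e993 : Pos := ⟨506532662334854411888551808632577731026891247352668083580025537872461845189365118917210886537795331010870968880547576945522373935735061865629027671401487506504331891862562406400, 430910333516356756788418922540667572275471160319730090793100015574104252473047296845762281218648584395910775586086486796713070309313086132867034013196254486411248326909242153331950018375204251187519034061773038682112, 11⟩
def a6c993 : Cert := (move 557 (branch (move 589 (branch (move 621 (branch (move 494 (leaf 493 6)) (move 652 (branch (move 620 (leaf 524 5)) (move 653 (branch (move 684 (leaf 556 5)) (move 654 (branch (move 622 (leaf 525 4)) (move 686 (leaf 557 4)))))))))) (move 554 (branch (move 556 (leaf 522 2)) (move 588 (branch (move 590 (leaf 554 3)) (move 553 (branch (move 552 (leaf 552 0)) (move 586 (leaf 553 3)))))))))) (branch (move 589 (branch (move 494 (branch (move 621 (leaf 493 6)) (move 462 (branch (move 430 (leaf 429 5)) (move 558 (leaf 461 5)))))) (branch (move 621 (branch (move 494 (leaf 493 6)) (move 652 (branch (move 620 (leaf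 524 5)) (move 653 (branch (move 684 (leaf 556 5)) (move 654 (branch (move 622 (leaf 525 4)) (move 686 (leaf 557 4)))))))))) (ref 0)))) (branch (move 589 (branch (move 494 (branch (move 621 (leaf 493 6)) (move 462 (branch (move 430 (leaf 429 5)) (move 558 (leaf 461 5)))))) (branch (move 621 (branch (move 494 (leaf 493 6)) (move 652 (branch (move 620 (leaf 524 5)) (move 653 (branch (move 684 (leaf 556 5)) (move 654 (branch (move 622 (leaf 525 4)) (move 686 (leaf 557 4)))))))))) (move 619 (branch (move 652 (branch (move 620 (leaf 523 4)) (move 651 (branch (move 684 (leaf 555 4)) (move 650 (branch (move 618 (leaf 522 5)) (move 682 (leaf 554 5)))))))) (branch (move 618 (branch (move 650 (leaf 522 5)) (move 588 (branch (move 590 (leaf 586 1)) (move 617 (branch (move 586 (leaf 585 1)) (move 616 (leaf 584 2)))))))) (branch (move 652 (branch (move 620 (leaf 523 4)) (move 651 (branch (move 684 (leaf 555 4)) (move 682 (branch (move 650 (leaf 554 5)) (move 683 (branch (move 714 (leaf 586 5)) (move 588 (branch (move 556 (leaf 555 6)) (move 558 (branch (move 586 (leaf 554 2)) (move 559 (branch (move 560 (leaf 556 1)) (move 590 (leaf 555 2))))))))))))))))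 (move 588 (branch (move 620 (branch (move 652 (leaf 523 4)) (move 590 (branch (move 618 (leaf 586 1)) (move 591 (leaf 587 1)))))) (branch (move 558 (branch (move 586 (leaf 554 2)) (move 559 (branch (move 560 (leaf 556 1)) (move 590 (leaf 555 2)))))) (move 620 (branch (move 652 (leaf 523 4)) (move 586 (branch (move 558 (leaf 554 2)) (move 585 (branch (move 584 (leaf 584 0)) (move 556 (leaf 553 2)))))))))))))))))) (branch (move 556 (branch (move 554 (leaf 522 2)) (move 558 (branch (move 586 (leaf 554 1)) (move 590 (branch (move 591 (leaf 555 0)) (move 622 (branch (move 654 (leaf 525 7)) (move 621 (branch (move 653 (leaf 525 5)) (move 494 (branch (move 589 (leaf 493 5)) (move 462 (branch (move 430 (leaf 429 5)) (move 463 (branch (move 431 (leaf 430 6)) (move 495 (leaf 462 6)))))))))))))))))) (branch (move 556 (branch (move 554 (leaf 522 2)) (move 586 (branch (move 558 (leaf 554 1)) (move 585 (branch (move 584 (leaf 552 2)) (move 588 (leaf 553 2)))))))) (ref 1)))))))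
theorem a6p993 : a6e993.Valid :=
  pos_of_chk [a6e971, a6e992] (forall_cons a6p971 (forall_cons a6p992 forall_nil)) a6c993 a6e993 (by decide +kernel)

def a6e994 : Pos := ⟨2175541219084010698567407705941192901494852360666777806375754060083417389662799242267763655113961127004361336690781756320730075022502455411139417414731213440962853679471250573598750932992, 344728266584334988748045004573080008575827364346202881267191138819578779983138614667581012725106397494403448973384600094819571988177042949954654570325350293795899565868426083589876661502999202766268761828803806756864, 13⟩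
def a6c994 : Cert := (move 557 (branch (move 556 (branch (move 558 (leaf 522 3)) (move 650 (branch (move 618 (leaf 522 5)) (move 651 (branch (move 682 (leaf 554 5)) (move 683 (branch (move 588 (leaf 555 6)) (move 684 (branch (move 652 (leaf 555 4)) (move 716 (leaf 587 4)))))))))))) (branch (move 558 (branch (move 556 (leaf 522 3)) (branch (move 556 (leaf 522 3)) (move 589 (branch (move 494 (branch (move 621 (leaf 493 6)) (move 462 (leaf 461 5)))) (move 588 (branch (move 586 (leaf 554 2)) (move 559 (branch (move 560 (leaf 556 1)) (move 590 (leaf 555 2))))))))))) (branch (ref 0) (move 621 (branch (move 558 (branch (move 556 (leaf 522 3)) (move 650 (branch (move 618 (leaf 522 5)) (move 651 (branch (move 682 (leaf 554 5)) (move 652 (branch (move 684 (leaf 555 4)) (move 622 (branch (move 653 (leaf 618 2)) (move 590 (branch (move 654 (leaf 525 7)) (move 623 (branch (move 655 (leaf 526 4)) (move 494 (branch (move 591 (leaf 494 4)) (move 462 (branch (move 430 (leaf 429 5)) (move 463 (branch (move 431 (leaf 430 6)) (move 495 (leaf 462 6)))))))))))))))))))))) (branch (move 589 (branch (move 494 (leaf 493 6)) (move 650 (branch (move 618 (leaf 522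 5)) (move 651 (branch (move 682 (leaf 554 5)) (move 652 (branch (move 684 (leaf 555 4)) (move 622 (branch (move 653 (leaf 618 2)) (move 654 (leaf 525 4)))))))))))) (branch (move 558 (branch (move 556 (leaf 522 3)) (move 653 (branch (move 589 (leaf 525 6)) (move 622 (branch (move 590 (leaf 525 5)) (move 650 (branch (move 618 (leaf 522 5)) (move 651 (branch (move 652 (leaf 618 2)) (move 682 (leaf 554 5)))))))))))) (move 558 (branch (move 556 (leaf 522 3)) (move 494 (branch (move 589 (leaf 493 6)) (move 462 (branch (move 430 (leaf 429 5)) (move 463 (branch (move 431 (leaf 430 6)) (move 590 (branch (move 495 (leaf 462 6)) (move 591 (branch (move 559 (leaf 462 4)) (move 623 (leaf 494 4))))))))))))))))))))))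
theorem a6p994 : a6e994.Valid :=
  pos_of_chk [a6e990] (forall_cons a6p990 forall_nil) a6c994 a6e994 (by decide +kernel)

def a6e995 : Pos := ⟨2175541219084010698567407705927463306174591141236814004777591273648878519062512631448974728195590040637566024586536637039407165912547862788356455698656969464963420391846102517016520818688, 341119042813834426902358326689088208977874884496689474163424417487289997417868279551189914384043757350498112700215520585788392693885543345725468771054336134183994795867819698168345377546886039115680639352832, 9⟩
def a6c995 : Cert := (move 589 (branch (move 618 (branch (move 650 (leaf 522 5)) (move 588 (branch (move 590 (leaf 586 1)) (move 617 (branch (move 616 (leaf 584 2)) (move 620 (leaf 585 2)))))))) (branch (move 557 (branch (move 494 (branch (move 621 (leaf 493 6)) (move 462 (branch (move 430 (leaf 429 5)) (move 558 (leaf 461 5)))))) (branch (move 621 (branch (move 494 (leaf 493 6)) (move 622 (branch (move 654 (leaf 525 4)) (move 588 (branch (move 586 (leaf 586 0)) (move 623 (branch (move 590 (leaf 587 0)) (move 624 (leaf 588 3)))))))))) (move 558 (branch (move 588 (branch (move 586 (leaf 554 2)) (move 559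 (branch (move 560 (leaf 556 1)) (move 590 (leaf 555 2)))))) (branch (move 556 (branch (move 586 (leaf 554 1)) (move 522 (leaf 522 3)))) (move 556 (branch (move 522 (leaf 522 3)) (move 590 (branch (move 591 (leaf 555 0)) (move 588 (branch (move 559 (leaf 555 1)) (move 622 (branch (move 623 (leaf 587 0)) (move 654 (leaf 525 7)))))))))))))))) (branch (move 557 (branch (move 494 (branch (move 621 (leaf 493 6)) (move 462 (branch (move 430 (leaf 429 5)) (move 558 (leaf 461 5)))))) (branch (move 650 (branch (move 618 (leaf 522 5)) (move 651 (branch (move 682 (leaf 554 5)) (move 621 (branch (move 494 (leaf 493 6)) (move 622 (branch (move 620 (leaf 618 1)) (move 654 (leaf 525 4)))))))))) (move 618 (branch (move 650 (leaf 522 5)) (move 522 (branch (move 490 (leaf 490 7)) (move 558 (branch (move 556 (leaf 522 3)) (move 588 (branch (move 586 (leaf 554 2)) (move 617 (branch (move 616 (leaf 584 2)) (move 620 (leaf 585 2))))))))))))))) (move 621 (branch (move 618 (branch (move 650 (leaf 522 5)) (move 620 (branch (move 590 (leaf 586 2)) (move 586 (branch (move 585 (leaf 585 3)) (move 622 (leaf 586 3)))))))) (branch (move 557 (branch (move 494 (leaf 493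 6)) (move 653 (branch (move 558 (leaf 525 6)) (move 654 (branch (move 622 (leaf 525 4)) (move 686 (leaf 557 4)))))))) (move 618 (branch (move 650 (leaf 522 5)) (move 620 (branch (move 590 (leaf 586 2)) (move 585 (branch (move 586 (leaf 585 3)) (move 617 (branch (move 584 (leaf 584 3)) (move 653 (branch (move 654 (leaf 618 0)) (move 557 (branch (move 494 (leaf 493 6)) (move 558 (leaf 525 6)))))))))))))))))))))
theorem a6p995 : a6e995.Valid :=
  pos_of_chk [] forall_nil a6c995 a6e995 (by decide +kernel)

def a6e996 : Pos := ⟨2175541219084010698567407705927463306174591141236814004777591273648878519062512631448974728195590040637566024586536637039407165912547862788356455698656969464963420391846102517016520818688, 1480596630900306335147713859396216982660903454491591430047403312704364176324296926876924929984257820788838467570440024342483056355174963863540125783019522507209969940629186387318262593276465095918993333925071461744397770555392, 11⟩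
def a6c996 : Cert := (move 557 (branch (move 586 (branch (move 556 (branch (move 558 (leaf 554 1)) (move 585 (branch (move 584 (leaf 552 2)) (move 588 (leaf 553 2)))))) (branch (move 620 (branch (move 652 (leaf 523 4)) (move 585 (branch (move 584 (leaf 584 0)) (move 621 (branch (move 618 (leaf 585 3)) (move 622 (leaf 586 3)))))))) (move 558 (branch (move 556 (leaf 554 1)) (move 589 (branch (move 588 (leaf 554 2)) (move 621 (branch (move 494 (leaf 493 6)) (move 653 (leaf 525 6))))))))))) (branch (ref 0) (branch (move 620 (branch (move 652 (leaf 523 4)) (move 621 (branch (move 622 (branch (move 586 (leaf 586 3)) (move 623 (branch (move 588 (leaf 587 3)) (move 655 (branch (move 654 (leaf 619 0)) (move 656 (leaf 620 0)))))))) (branch (move 589 (branch (move 494 (leaf 493 6)) (move 590 (branch (move 618 (leaf 586 2)) (move 591 (branch (move 588 (leaf 587 1)) (move 592 (leaf 588 1)))))))) (move 622 (branch (move 586 (leaf 586 3)) (move 654 (branch (move 655 (leaf 619 0)) (move 589 (leaf 525 4))))))))))) (branch (move 621 (branch (move 589 (branch (move 494 (leaf 493 6)) (move 652 (branch (move 620 (leaf 523 4)) (move 653 (branch (move 684 (leaf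 556 5)) (move 558 (leaf 525 6)))))))) (branch (move 620 (branch (move 652 (leaf 523 4)) (move 622 (branch (move 586 (leaf 586 3)) (move 590 (branch (move 591 (leaf 587 2)) (move 558 (branch (move 653 (leaf 525 5)) (move 654 (leaf 525 7)))))))))) (branch (move 589 (branch (move 494 (leaf 493 6)) (move 558 (branch (move 653 (leaf 525 6)) (move 556 (branch (move 586 (leaf 554 1)) (move 522 (leaf 522 3)))))))) (move 620 (branch (move 652 (leaf 523 4)) (move 622 (branch (move 586 (leaf 586 3)) (move 654 (branch (move 655 (leaf 619 0)) (move 589 (leaf 525 4)))))))))))) (branch (move 589 (branch (move 494 (branch (move 621 (leaf 493 6)) (move 462 (branch (move 430 (leaf 429 5)) (move 558 (leaf 461 5)))))) (branch (move 621 (branch (move 494 (leaf 493 6)) (move 652 (branch (move 620 (leaf 524 5)) (move 653 (branch (move 684 (leaf 556 5)) (move 654 (branch (move 622 (leaf 525 4)) (move 686 (leaf 557 4)))))))))) (move 652 (branch (move 620 (leaf 523 4)) (move 651 (branch (move 684 (leaf 555 4)) (move 522 (branch (move 490 (leaf 490 7)) (move 556 (branch (move 558 (leaf 522 3)) (move 588 (branch (move 683 (leaf 555 6)) (move 590 (branch (move 618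 (leaf 586 1)) (move 591 (leaf 555 3))))))))))))))))) (branch (move 586 (branch (move 620 (branch (move 652 (leaf 523 4)) (move 585 (branch (move 584 (leaf 584 0)) (move 621 (branch (move 618 (leaf 585 3)) (move 622 (leaf 586 3)))))))) (branch (move 556 (branch (move 558 (leaf 554 1)) (move 585 (branch (move 584 (leaf 552 2)) (move 588 (leaf 553 2)))))) (move 558 (branch (move 556 (leaf 554 1)) (move 620 (branch (move 652 (leaf 523 4)) (move 622 (branch (move 621 (leaf 586 3)) (move 590 (branch (move 654 (leaf 525 7)) (move 623 (branch (move 655 (leaf 526 4)) (move 494 (branch (move 591 (leaf 494 4)) (move 462 (branch (move 430 (leaf 429 5)) (move 463 (branch (move 431 (leaf 430 6)) (move 495 (leaf 462 6))))))))))))))))))))) (move 588 (branch (move 522 (branch (move 490 (leaf 490 7)) (move 558 (branch (move 556 (leaf 522 3)) (move 589 (branch (move 586 (leaf 554 2)) (move 590 (branch (move 618 (leaf 586 1)) (move 559 (leaf 555 2)))))))))) (branch (move 589 (branch (move 558 (branch (move 586 (leaf 554 2)) (move 559 (branch (move 560 (leaf 556 1)) (move 590 (leaf 555 2)))))) (branch (move 620 (branch (move 652 (leaf 523 4)) (move 590 (branch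 (move 618 (leaf 586 1)) (move 591 (leaf 587 1)))))) (move 620 (branch (move 652 (leaf 523 4)) (move 617 (branch (move 618 (leaf 585 2)) (move 586 (branch (move 558 (leaf 554 2)) (move 585 (branch (move 584 (leaf 584 0)) (move 616 (leaf 584 1))))))))))))) (move 651 (branch (move 652 (branch (move 620 (leaf 523 4)) (move 684 (leaf 555 4)))) (branch (move 683 (branch (move 556 (leaf 555 6)) (move 715 (branch (move 620 (leaf 587 6)) (move 716 (branch (move 684 (leaf 587 4)) (move 748 (leaf 619 4)))))))) (branch (move 683 (branch (move 556 (leaf 555 6)) (move 684 (branch (move 652 (leaf 555 4)) (move 716 (leaf 587 4)))))) (move 620 (branch (move 652 (leaf 523 4)) (move 683 (branch (move 556 (leaf 555 6)) (move 715 (leaf 587 6))))))))))))))))))))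
theorem a6p996 : a6e996.Valid :=
  pos_of_chk [a6e981] (forall_cons a6p981 forall_nil) a6c996 a6e996 (by decide +kernel)

def a6e997 : Pos := ⟨506532662334854411888551808632577731026891247352668083580025537872461845189365118917210886537795331010870968880547576945522373935735061865629027671401487506504331891862562406400, 1480596630986488401778748236983977774787987865909054648116892611619977919027696072494093294527552046168740941547277825500443436301259023632820471955763387004789720227662391845651020066033868388529139815406878362088407834820608, 15⟩
def a6c997 : Cert := (move 619 (branch (ref 0) (branch (move 522 (branch (move 490 (leaf 490 7)) (ref 1))) (branch (ref 2) (branch (move 651 (branch (move 682 (branch (move 650 (leaf 554 5)) (move 683 (branch (move 714 (leaf 586 5)) (move 716 (branch (move 684 (leaf 587 4)) (move 715 (branch (move 748 (leaf 619 4)) (move 588 (branch (move 556 (leaf 555 6)) (move 620 (leaf 587 6)))))))))))) (branch (move 652 (branch (move 620 (leaf 523 4)) (move 684 (leaf 555 4)))) (branch (move 684 (branch (move 652 (leaf 555 4)) (move 683 (branch (move 716 (leaf 587 4)) (move 682 (branch (move 650 (leaf 554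 5)) (move 714 (leaf 586 5)))))))) (move 620 (branch (move 652 (leaf 523 4)) (move 682 (branch (move 650 (leaf 554 5)) (move 683 (branch (move 714 (leaf 586 5)) (move 588 (branch (move 556 (leaf 555 6)) (move 715 (leaf 587 6)))))))))))))) (ref 3))))))
theorem a6p997 : a6e997.Valid :=
  pos_of_chk [a6e976, a6e994, a6e995, a6e996] (forall_cons a6p976 (forall_cons a6p994 (forall_cons a6p995 (forall_cons a6p996 forall_nil)))) a6c997 a6e997 (by decide +kernel)

def a6e998 : Pos := ⟨506532662334854411888551808632577731026891247352668083580025537872461845189365118917210886537795331010870968880547576945522373935735061865629027671401487506504331891862562406400, 401316520953879607429936676369802817290549199377906059841372958727919435280764429990148040182126313661038684336122672926288970286631961436818782776657919207582910861515221045065248090793242094127152690626560, 15⟩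
def a6c998 : Cert := (move 491 (branch (move 490 (branch (move 458 (leaf 458 7)) (move 619 (branch (move 522 (leaf 490 7)) (move 618 (branch (move 586 (leaf 490 5)) (move 650 (leaf 522 5)))))))) (branch (move 458 (branch (move 490 (leaf 458 7)) (move 459 (branch (move 426 (leaf 426 7)) (move 460 (branch (move 428 (leaf 427 6)) (move 492 (leaf 459 6)))))))) (branch (move 557 (branch (move 586 (branch (move 618 (leaf 490 5)) (move 556 (branch (move 558 (leaf 554 1)) (move 585 (branch (move 584 (leaf 552 2)) (move 588 (leaf 553 2)))))))) (branch (move 460 (branch (move 492 (leaf 459 6)) (move 459 (branch (move 428 (leaf 427 6)) (move 426 (branch (move 458 (leaf 426 7)) (move 427 (branch (move 394 (leaf 394 7)) (move 462 (branch (move 461 (leaf 426 3)) (move 494 (branch (move 430 (leaf 429 5)) (move 589 (branch (move 558 (leaf 461 5)) (move 621 (leaf 493 6)))))))))))))))) (move 618 (branch (move 586 (leaf 490 5)) (move 619 (branch (move 650 (leaf 522 5)) (move 460 (branch (move 492 (leaf 459 6)) (move 459 (branch (move 428 (leaf 427 6)) (move 588 (branch (move 556 (leaf 459 4)) (move 426 (branch (move 458 (leaf 426 7)) (move 427 (branch (move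 394 (leaf 394 7)) (move 589 (branch (move 590 (leaf 586 1)) (move 621 (branch (move 494 (leaf 493 6)) (move 654 (branch (move 622 (leaf 525 4)) (move 653 (branch (move 686 (leaf 557 4)) (move 652 (branch (move 651 (leaf 618 3)) (move 684 (leaf 556 5))))))))))))))))))))))))))))) (move 557 (branch (move 586 (branch (move 618 (leaf 490 5)) (move 556 (branch (move 558 (leaf 554 1)) (move 585 (branch (move 584 (leaf 552 2)) (move 588 (leaf 553 2)))))))) (branch (move 618 (branch (move 586 (leaf 490 5)) (move 619 (branch (move 650 (leaf 522 5)) (move 460 (branch (move 492 (leaf 459 6)) (move 459 (branch (move 428 (leaf 427 6)) (move 490 (branch (move 522 (leaf 490 7)) (move 462 (branch (move 461 (leaf 458 1)) (move 494 (branch (move 430 (leaf 429 5)) (move 589 (branch (move 558 (leaf 461 5)) (move 621 (leaf 493 6)))))))))))))))))) (branch (move 618 (branch (move 586 (leaf 490 5)) (move 619 (branch (move 650 (leaf 522 5)) (move 460 (branch (move 492 (leaf 459 6)) (move 459 (branch (move 428 (leaf 427 6)) (move 490 (branch (move 522 (leaf 490 7)) (move 588 (branch (move 556 (leaf 459 4)) (move 462 (branch (move 461 (leaf 458 1)) (move 494 (branch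 (move 430 (leaf 429 5)) (move 589 (branch (move 590 (leaf 586 1)) (move 621 (leaf 493 6)))))))))))))))))))) (move 460 (branch (move 492 (leaf 459 6)) (move 459 (branch (move 428 (leaf 427 6)) (move 556 (branch (move 588 (leaf 459 4)) (move 558 (branch (move 522 (leaf 522 3)) (move 590 (branch (move 591 (leaf 555 0)) (move 622 (branch (move 654 (leaf 525 7)) (move 621 (branch (move 653 (leaf 525 5)) (move 494 (branch (move 589 (leaf 493 5)) (move 462 (branch (move 430 (leaf 429 5)) (move 461 (branch (move 495 (leaf 459 0)) (move 490 (leaf 458 1))))))))))))))))))))))))))))))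
theorem a6p998 : a6e998.Valid :=
  pos_of_chk [] forall_nil a6c998 a6e998 (by decide +kernel)

def a6e999 : Pos := ⟨506532662334854411888551808632577731026891247352668083580025537872461845189365118917210886537795331010870968880547576945522373935735061865629027671401487506504331891862562406400, 112126540646965105550218577469314113144217435017090731259429543468040181596028328483366047463089642745283127256535999103341353807517009346855466337637528720853325507795072417554680617056166171639808, 13⟩
def a6c999 : Cert := (move 491 (branch (move 458 (branch (move 490 (leaf 458 7)) (move 459 (branch (move 426 (leaf 426 7)) (move 460 (branch (move 428 (leaf 427 6)) (move 492 (leaf 459 6)))))))) (branch (move 460 (branch (move 492 (leaf 459 6)) (move 459 (branch (move 428 (leaf 427 6)) (move 426 (branch (move 458 (leaf 426 7)) (move 427 (branch (move 394 (leaf 394 7)) (move 554 (branch (move 522 (leaf 426 5)) (move 462 (branch (move 461 (leaf 426 3)) (move 557 (branch (move 556 (leaf 522 2)) (move 494 (branch (move 430 (leaf 429 5)) (move 589 (branch (move 558 (leaf 461 5)) (move 621 (leaf 493 6)))))))))))))))))))) (branch (ref 0) (branch (move 460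 (branch (move 492 (leaf 459 6)) (move 459 (branch (move 428 (leaf 427 6)) (move 556 (branch (move 588 (leaf 459 4)) (move 557 (branch (move 554 (leaf 522 2)) (move 558 (branch (move 522 (leaf 522 3)) (move 590 (branch (move 591 (leaf 555 0)) (move 622 (branch (move 654 (leaf 525 7)) (move 621 (branch (move 653 (leaf 525 5)) (move 494 (branch (move 589 (leaf 493 5)) (move 462 (branch (move 430 (leaf 429 5)) (move 461 (branch (move 495 (leaf 459 0)) (move 490 (leaf 458 1)))))))))))))))))))))))) (move 458 (branch (move 490 (leaf 458 7)) (move 459 (branch (move 426 (leaf 426 7)) (move 556 (branch (move 588 (leaf 459 4)) (move 557 (branch (move 554 (leaf 522 2)) (move 558 (branch (move 522 (leaf 522 3)) (move 590 (branch (move 591 (leaf 555 0)) (move 622 (branch (move 654 (leaf 525 7)) (move 621 (branch (move 653 (leaf 525 5)) (move 494 (branch (move 589 (leaf 493 5)) (move 462 (branch (move 430 (leaf 429 5)) (move 463 (branch (move 431 (leaf 430 6)) (move 495 (leaf 462 6)))))))))))))))))))))))))))))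
theorem a6p999 : a6e999.Valid :=
  pos_of_chk [a6e980] (forall_cons a6p980 forall_nil) a6c999 a6e999 (by decide +kernel)

def a6e1000 : Pos := ⟨506532662334854411888551808632577731026891247352668083580025537872461845189365118917210886537795331010870968880547576945522373935735061865629027671401487506504331891862562406400, 401316520939863789888497722780874570919928475295580573952967736957906987540576667093489434918309967371685017321401487971088878319029914512891012089467759042062144043737442571357938312393342354301524862042112, 10⟩
def a6c1000 : Cert := (move 557 (branch (move 556 (branch (move 554 (leaf 522 2)) (move 586 (branch (move 558 (leaf 554 1)) (move 585 (branch (move 584 (leaf 552 2)) (move 588 (leaf 553 2)))))))) (branch (move 589 (branch (move 621 (branch (move 494 (leaf 493 6)) (move 652 (branch (move 620 (leaf 524 5)) (move 653 (branch (move 684 (leaf 556 5)) (move 654 (branch (move 622 (leaf 525 4)) (move 686 (leaf 557 4)))))))))) (move 554 (branch (move 556 (leaf 522 2)) (move 588 (branch (move 590 (leaf 554 3)) (move 553 (branch (move 552 (leaf 552 0)) (move 586 (leaf 553 3)))))))))) (branch (move 556 (branch (move 554 (leaf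 522 2)) (move 558 (branch (move 586 (leaf 554 1)) (move 590 (branch (move 591 (leaf 555 0)) (move 622 (branch (move 654 (leaf 525 7)) (move 621 (branch (move 653 (leaf 525 5)) (move 494 (branch (move 589 (leaf 493 5)) (move 462 (branch (move 430 (leaf 429 5)) (move 463 (branch (move 431 (leaf 430 6)) (move 495 (leaf 462 6)))))))))))))))))) (branch (move 589 (branch (move 494 (branch (move 621 (leaf 493 6)) (move 462 (branch (move 430 (leaf 429 5)) (move 558 (leaf 461 5)))))) (branch (move 621 (branch (move 494 (leaf 493 6)) (move 652 (branch (move 620 (leaf 524 5)) (move 653 (branch (move 684 (leaf 556 5)) (move 654 (branch (move 622 (leaf 525 4)) (move 686 (leaf 557 4)))))))))) (move 491 (branch (move 458 (branch (move 490 (leaf 458 7)) (move 459 (branch (move 426 (leaf 426 7)) (move 460 (branch (move 428 (leaf 427 6)) (move 492 (leaf 459 6)))))))) (move 588 (branch (move 620 (leaf 491 4)) (move 590 (branch (move 554 (leaf 554 3)) (move 558 (branch (move 559 (leaf 555 2)) (move 622 (branch (move 623 (leaf 587 0)) (move 654 (leaf 525 7))))))))))))))) (move 558 (branch (move 556 (branch (move 586 (leaf 554 1)) (move 559 (branch (move 588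 (leaf 555 1)) (move 591 (branch (move 590 (leaf 555 0)) (move 592 (leaf 556 0)))))))) (branch (move 589 (branch (move 494 (branch (move 621 (leaf 493 6)) (move 462 (leaf 461 5)))) (move 588 (branch (move 586 (leaf 554 2)) (move 559 (branch (move 560 (leaf 556 1)) (move 590 (leaf 555 2)))))))) (branch (move 556 (branch (move 586 (leaf 554 1)) (move 590 (branch (move 591 (leaf 555 0)) (move 622 (branch (move 654 (leaf 525 7)) (move 621 (branch (move 653 (leaf 525 5)) (move 494 (branch (move 589 (leaf 493 5)) (move 462 (branch (move 430 (leaf 429 5)) (move 463 (branch (move 431 (leaf 430 6)) (move 495 (leaf 462 6)))))))))))))))) (move 491 (branch (move 458 (branch (move 490 (leaf 458 7)) (move 459 (branch (move 426 (leaf 426 7)) (move 460 (branch (move 428 (leaf 427 6)) (move 492 (leaf 459 6)))))))) (move 588 (branch (move 620 (leaf 491 4)) (move 559 (branch (move 556 (leaf 555 1)) (move 560 (branch (move 589 (leaf 556 1)) (move 561 (leaf 525 3)))))))))))))))))))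
theorem a6p1000 : a6e1000.Valid :=
  pos_of_chk [] forall_nil a6c1000 a6e1000 (by decide +kernel)

def a6e1001 : Pos := ⟨506532662334854411559041520946308464707760008996761209151092643465583185538430872876304813734707840508988106128797758306612150988943980679847172247415088603500778533889039663104, 1631655914407982898327100571835479814284629107304214239400363262149231147047904233012548730926625853598981376910146255598080339264984149375124374186102133482933484999085056672493933166592, 12⟩
def a6c1001 : Cert := (move 491 (branch (move 458 (branch (move 490 (leaf 458 7)) (move 459 (branch (move 426 (leaf 426 7)) (move 460 (branch (move 428 (leaf 427 6)) (move 492 (leaf 459 6)))))))) (branch (move 586 (branch (move 618 (leaf 490 5)) (move 459 (branch (move 554 (leaf 458 5)) (move 460 (branch (move 428 (leaf 427 6)) (move 492 (leaf 459 6)))))))) (branch (move 586 (branch (move 618 (leaf 490 5)) (move 459 (branch (move 554 (leaf 458 5)) (move 458 (branch (move 426 (leaf 426 7)) (move 490 (leaf 458 7)))))))) (move 490 (branch (move 458 (leaf 458 7)) (move 492 (branch (move 460 (leaf 459 6)) (move 489 (branch (move 520 (branch (move 521 (leaf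 488 1)) (move 488 (branch (move 519 (leaf 487 1)) (move 456 (branch (move 455 (leaf 455 3)) (move 457 (leaf 456 3)))))))) (branch (move 520 (branch (move 521 (leaf 488 1)) (move 488 (branch (move 519 (leaf 487 1)) (move 487 (branch (move 522 (leaf 487 0)) (move 455 (branch (move 454 (leaf 454 3)) (move 456 (leaf 455 3)))))))))) (branch (move 521 (branch (move 520 (leaf 488 1)) (move 586 (branch (move 618 (leaf 490 5)) (move 457 (branch (move 456 (leaf 456 3)) (move 554 (branch (move 553 (leaf 457 4)) (move 522 (leaf 457 7)))))))))) (branch (move 488 (branch (move 456 (branch (move 455 (leaf 455 3)) (move 457 (leaf 456 3)))) (branch (move 487 (branch (move 522 (leaf 487 0)) (move 518 (branch (move 519 (leaf 486 1)) (move 486 (branch (move 517 (leaf 485 1)) (move 454 (branch (move 453 (leaf 453 3)) (move 455 (leaf 454 3)))))))))) (move 586 (branch (move 618 (leaf 490 5)) (move 457 (branch (move 456 (leaf 456 3)) (move 522 (branch (move 487 (leaf 487 0)) (move 554 (leaf 457 7))))))))))) (move 520 (branch (move 521 (leaf 488 1)) (move 488 (branch (move 519 (leaf 487 1)) (move 586 (branch (move 618 (leaf 490 5)) (move 522 (branch (move 487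 (leaf 487 0)) (move 554 (branch (move 457 (leaf 457 7)) (move 585 (branch (move 617 (leaf 489 5)) (move 584 (branch (move 583 (leaf 551 2)) (move 556 (leaf 552 2)))))))))))))))))))))))))))))
theorem a6p1001 : a6e1001.Valid :=
  pos_of_chk [] forall_nil a6c1001 a6e1001 (by decide +kernel)

def a6e1002 : Pos := ⟨506532662334854411559041520946308464707760008996761209151092643465583185538430872876304813734707840508988106128797758306612150988943980679847172247415088603500778533889039663104, 86182066751429333858507274956709249232358797491218919595418460024508013057573978979932707708364629601035788030195734463658617759464762372140387840310613280040217136671426858445828487333638218941434760407923898187776, 7⟩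
def a6c1002 : Cert := (move 619 (branch (move 652 (branch (move 620 (leaf 523 4)) (move 651 (branch (move 684 (leaf 555 4)) (move 650 (branch (move 618 (leaf 522 5)) (move 682 (leaf 554 5)))))))) (branch (move 652 (branch (move 620 (leaf 523 4)) (move 651 (branch (move 684 (leaf 555 4)) (move 682 (branch (move 650 (leaf 554 5)) (move 683 (branch (move 714 (leaf 586 5)) (move 554 (branch (move 522 (leaf 522 7)) (move 586 (leaf 554 7)))))))))))) (branch (move 652 (branch (move 620 (leaf 523 4)) (move 651 (branch (move 684 (leaf 555 4)) (move 554 (branch (move 522 (leaf 522 7)) (move 586 (branch (move 683 (leaf 554 7)) (move 491 (branch (move 459 (leaf 458 5)) (move 618 (leaf 490 5)))))))))))) (branch (move 651 (branch (move 650 (branch (move 618 (leaf 522 5)) (move 682 (leaf 554 5)))) (branch (move 554 (branch (move 522 (leaf 522 7)) (move 586 (branch (move 683 (leaf 554 7)) (move 491 (branch (move 459 (leaf 458 5)) (move 618 (leaf 490 5)))))))) (move 554 (branch (move 522 (leaf 522 7)) (move 683 (branch (move 586 (leaf 554 7)) (move 682 (branch (move 650 (leaf 554 5)) (move 714 (leaf 586 5))))))))))) (move 618 (branch (move 650 (leaf 522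 5)) (move 586 (branch (move 491 (leaf 490 5)) (move 620 (branch (move 652 (leaf 523 4)) (move 585 (branch (move 584 (leaf 584 0)) (move 621 (leaf 585 3)))))))))))))))
theorem a6p1002 : a6e1002.Valid :=
  pos_of_chk [] forall_nil a6c1002 a6e1002 (by decide +kernel)

def a6e1003 : Pos := ⟨506532662334854411559041520946308464707760008996761209151092643465583185538430872876304813734707840508988106128797758306612150988943980679847172247415088603500778533889039663104, 3974446317724142860349196143918909148003955089123728674608800933699754302645716203637866271589971279387096461143261109738993097930825085237409732725011988392954758663249821811719712729112773131881389113198520337091609821617043030409216, 12⟩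
def a6c1003 : Cert := (move 618 (branch (move 491 (branch (move 586 (leaf 490 5)) (move 588 (branch (move 620 (leaf 491 4)) (move 459 (branch (move 556 (leaf 459 4)) (move 460 (branch (move 428 (leaf 427 6)) (move 492 (leaf 459 6)))))))))) (branch (move 619 (branch (move 650 (leaf 522 5)) (move 620 (branch (move 652 (leaf 523 4)) (move 588 (branch (move 491 (leaf 491 4)) (move 589 (branch (move 590 (leaf 586 1)) (move 617 (leaf 585 2)))))))))) (move 650 (branch (move 619 (leaf 522 5)) (move 682 (branch (move 586 (leaf 554 6)) (move 714 (branch (move 617 (branch (move 585 (leaf 585 7)) (move 746 (branch (move 649 (leaf 617 7)) (move 747 (branch (move 715 (leaf 618 4)) (move 779 (leaf 650 4)))))))) (branch (move 747 (branch (move 715 (leaf 618 4)) (move 746 (branch (move 779 (leaf 650 4)) (move 745 (branch (move 713 (leaf 617 5)) (move 777 (leaf 649 5)))))))) (branch (move 617 (branch (move 585 (leaf 585 7)) (move 746 (branch (move 649 (leaf 617 7)) (move 745 (branch (move 713 (leaf 617 5)) (move 777 (leaf 649 5)))))))) (move 713 (branch (move 745 (leaf 617 5)) (move 712 (branch (move 711 (branch (move 683 (leaf 679 2)) (move 710 (branch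 (move 681 (leaf 678 2)) (move 678 (branch (move 677 (leaf 677 3)) (move 679 (leaf 678 3)))))))) (branch (move 715 (branch (move 747 (leaf 618 4)) (move 680 (branch (move 679 (leaf 679 3)) (move 681 (branch (move 716 (leaf 680 3)) (move 617 (branch (move 585 (leaf 585 7)) (move 744 (branch (move 743 (leaf 711 1)) (move 649 (leaf 616 5)))))))))))) (move 715 (branch (move 747 (leaf 618 4)) (move 683 (branch (move 711 (leaf 679 2)) (move 684 (leaf 680 2))))))))))))))))))))))
theorem a6p1003 : a6e1003.Valid :=
  pos_of_chk [] forall_nil a6c1003 a6e1003 (by decide +kernel)

def a6e1004 : Pos := ⟨506532662334854411888551808632577731026891247352668083580025537872461845189365118917210886537795331010870968880547576945522373935735061865629027671401487506504331891862562406400, 1850745788582291885217808614053677001565932002019442292246390122936260714810818734251678121008076083900719213698804462458639309965973849296636577642949869305280024794252108612437774621935258369848590636020575218146736028516352, 10⟩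
def a6c1004 : Cert := (move 556 (branch (move 557 (branch (move 554 (leaf 522 2)) (move 558 (branch (move 522 (leaf 522 3)) (move 559 (branch (move 588 (leaf 555 1)) (move 591 (branch (move 590 (leaf 555 0)) (move 592 (leaf 556 0)))))))))) (branch (move 557 (branch (move 554 (leaf 522 2)) (move 558 (branch (move 522 (leaf 522 3)) (move 590 (branch (move 591 (leaf 555 0)) (move 622 (branch (move 654 (leaf 525 7)) (move 621 (branch (move 653 (leaf 525 5)) (move 494 (branch (move 589 (leaf 493 5)) (move 462 (branch (move 430 (leaf 429 5)) (move 463 (branch (move 431 (leaf 430 6)) (move 495 (leaf 462 6)))))))))))))))))) (branch (move 554 (branch (move 557 (leaf 522 2)) (move 553 (branch (move 584 (branch (move 585 (leaf 552 1)) (move 552 (branch (move 583 (leaf 551 1)) (move 551 (branch (move 522 (leaf 519 2)) (move 519 (branch (move 518 (leaf 518 3)) (move 520 (leaf 519 3)))))))))) (move 588 (branch (move 589 (leaf 553 0)) (move 491 (branch (move 459 (leaf 459 4)) (move 620 (leaf 491 4)))))))))) (move 619 (branch (move 652 (branch (move 620 (leaf 523 4)) (move 651 (branch (move 684 (leaf 555 4)) (move 650 (branch (move 618 (leaf 522 5)) (move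 682 (leaf 554 5)))))))) (branch (move 620 (branch (move 652 (leaf 523 4)) (move 588 (branch (move 491 (leaf 491 4)) (move 618 (branch (move 650 (leaf 522 5)) (move 589 (branch (move 590 (leaf 586 1)) (move 617 (leaf 585 2)))))))))) (branch (move 650 (branch (move 618 (leaf 522 5)) (move 651 (branch (move 682 (leaf 554 5)) (move 683 (branch (move 588 (leaf 555 6)) (move 684 (branch (move 652 (leaf 555 4)) (move 716 (leaf 587 4)))))))))) (branch (move 650 (branch (move 618 (leaf 522 5)) (move 651 (branch (move 682 (leaf 554 5)) (move 588 (branch (move 683 (leaf 555 6)) (move 491 (branch (move 459 (leaf 459 4)) (move 620 (leaf 491 4)))))))))) (move 651 (branch (move 652 (branch (move 620 (leaf 523 4)) (move 684 (leaf 555 4)))) (branch (move 683 (branch (move 588 (leaf 555 6)) (move 716 (branch (move 684 (leaf 587 4)) (move 715 (branch (move 748 (leaf 619 4)) (move 714 (branch (move 682 (leaf 586 5)) (move 746 (leaf 618 5)))))))))) (move 588 (branch (move 683 (leaf 555 6)) (move 620 (branch (move 491 (leaf 491 4)) (move 652 (leaf 523 4))))))))))))))))))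
theorem a6p1004 : a6e1004.Valid :=
  pos_of_chk [] forall_nil a6c1004 a6e1004 (by decide +kernel)

def a6e1005 : Pos := ⟨2175541219084010699982643615235541313265174109107414838871436731305043679703589994041083789092645860169863546528158674867457806549084304625770424934878766702173958236133363533385044066304, 5257106063891122251649177955170789258524097182107658572402126659094893005267056695415344616300963931566394050229433831936422243063478951497937858821399239902429053996942564637329949535653268335094093864587914534453248, 11⟩
def a6c1005 : Cert := (move 622 (branch (move 590 (branch (move 654 (leaf 525 7)) (move 621 (branch (move 653 (leaf 525 5)) (move 620 (branch (move 591 (leaf 587 2)) (move 586 (leaf 586 3)))))))) (branch (move 620 (branch (move 652 (leaf 523 4)) (move 621 (branch (move 586 (leaf 586 3)) (move 654 (branch (move 655 (leaf 619 0)) (move 589 (leaf 525 4)))))))) (branch (move 620 (branch (move 652 (leaf 523 4)) (move 621 (branch (move 586 (leaf 586 3)) (move 590 (branch (move 591 (leaf 587 2)) (move 653 (leaf 525 5)))))))) (branch (move 652 (branch (move 620 (leaf 523 4)) (move 651 (branch (move 684 (leaf 555 4)) (move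 654 (branch (move 590 (leaf 525 7)) (move 653 (branch (move 623 (leaf 619 2)) (move 682 (branch (move 683 (leaf 650 1)) (move 650 (leaf 554 5)))))))))))) (move 651 (branch (move 684 (branch (move 652 (leaf 555 4)) (move 683 (branch (move 716 (leaf 587 4)) (move 682 (branch (move 650 (leaf 554 5)) (move 714 (leaf 586 5)))))))) (branch (move 654 (branch (move 590 (leaf 525 7)) (move 652 (branch (move 684 (leaf 555 4)) (move 653 (branch (move 623 (leaf 619 2)) (move 621 (branch (move 650 (leaf 618 2)) (move 589 (leaf 525 4)))))))))) (branch (move 654 (branch (move 590 (leaf 525 7)) (move 621 (branch (move 589 (leaf 525 4)) (move 684 (branch (move 652 (leaf 555 4)) (move 683 (branch (move 716 (leaf 587 4)) (move 682 (branch (move 714 (leaf 586 5)) (move 685 (branch (move 653 (leaf 650 2)) (move 686 (branch (move 655 (leaf 651 2)) (move 718 (branch (move 717 (leaf 682 0)) (move 719 (leaf 683 0)))))))))))))))))) (branch (move 654 (branch (move 590 (leaf 525 7)) (move 621 (branch (move 589 (leaf 525 4)) (move 682 (branch (move 650 (leaf 554 5)) (move 683 (branch (move 714 (leaf 586 5)) (move 684 (branch (move 716 (leaf 587 4)) (move 685 (branch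 (move 653 (leaf 650 2)) (move 686 (branch (move 655 (leaf 651 2)) (move 718 (branch (move 717 (leaf 682 0)) (move 719 (leaf 683 0)))))))))))))))))) (move 621 (branch (move 653 (branch (move 589 (leaf 525 6)) (move 590 (leaf 525 5)))) (branch (move 654 (branch (move 589 (leaf 525 4)) (move 590 (leaf 525 7)))) (branch (move 589 (branch (move 654 (leaf 525 4)) (move 653 (leaf 525 6)))) (move 590 (branch (move 653 (leaf 525 5)) (move 654 (leaf 525 7))))))))))))))))))
theorem a6p1005 : a6e1005.Valid :=
  pos_of_chk [] forall_nil a6c1005 a6e1005 (by decide +kernel)

def a6e1006 : Pos := ⟨2175541219084010698567407705927463306174591141236814004777591273648878519062512631448974728195590040637566024586536637039407165912547862788356455698656969464963420391846102517016520818688, 5257106063891122251948182063487277444389174049653312333187802300376700762641144176752183490154545762736880506635823396327063428162007149724776901642563088511332090553450772483196346086946077702510381411725188261740544, 15⟩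
def a6c1006 : Cert := (move 557 (branch (move 490 (branch (move 522 (leaf 490 7)) (move 491 (branch (move 458 (leaf 458 7)) (move 460 (branch (move 492 (leaf 459 6)) (move 459 (branch (move 428 (leaf 427 6)) (move 462 (branch (move 461 (leaf 458 1)) (move 494 (branch (move 430 (leaf 429 5)) (move 589 (branch (move 558 (leaf 461 5)) (move 621 (leaf 493 6)))))))))))))))) (branch (move 621 (branch (move 589 (branch (move 494 (leaf 493 6)) (move 653 (branch (move 558 (leaf 525 6)) (move 654 (branch (move 622 (leaf 525 4)) (move 686 (leaf 557 4)))))))) (branch (move 589 (branch (move 494 (leaf 493 6)) (move 653 (branch (move 558 (leaf 525 6)) (move 652 (branch (move 620 (leaf 524 5)) (move 684 (leaf 556 5)))))))) (branch (move 620 (branch (move 652 (leaf 523 4)) (move 622 (branch (move 586 (leaf 586 3)) (move 654 (branch (move 655 (leaf 619 0)) (move 589 (leaf 525 4)))))))) (move 620 (branch (move 652 (leaf 523 4)) (move 622 (branch (move 586 (leaf 586 3)) (move 590 (branch (move 591 (leaf 587 2)) (move 558 (branch (move 653 (leaf 525 5)) (move 654 (leaf 525 7)))))))))))))) (branch (move 490 (branch (move 522 (leaf 490 7)) (move 491 (branch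 (move 458 (leaf 458 7)) (move 460 (branch (move 492 (leaf 459 6)) (move 459 (branch (move 428 (leaf 427 6)) (move 462 (branch (move 461 (leaf 458 1)) (move 494 (branch (move 430 (leaf 429 5)) (move 620 (branch (move 652 (leaf 523 4)) (move 621 (branch (move 589 (leaf 493 6)) (move 622 (branch (move 586 (leaf 586 3)) (move 655 (branch (move 654 (leaf 619 0)) (move 623 (branch (move 656 (leaf 620 0)) (move 591 (branch (move 590 (leaf 587 2)) (move 592 (leaf 588 2)))))))))))))))))))))))))) (branch (move 652 (branch (move 620 (leaf 523 4)) (move 558 (branch (move 522 (branch (move 556 (leaf 522 3)) (move 490 (leaf 490 7)))) (branch (move 651 (branch (move 684 (leaf 555 4)) (move 682 (branch (move 650 (leaf 554 5)) (move 683 (branch (move 714 (leaf 586 5)) (move 654 (branch (move 653 (leaf 650 1)) (move 590 (branch (move 622 (leaf 525 7)) (move 556 (branch (move 591 (leaf 555 0)) (move 586 (leaf 554 1)))))))))))))) (move 651 (branch (move 684 (leaf 555 4)) (move 682 (branch (move 650 (leaf 554 5)) (move 490 (branch (move 522 (leaf 490 7)) (move 491 (branch (move 458 (leaf 458 7)) (move 460 (branch (move 492 (leaf 459 6)) (move 459 (branch (move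 428 (leaf 427 6)) (move 462 (branch (move 461 (leaf 458 1)) (move 494 (branch (move 430 (leaf 429 5)) (move 463 (branch (move 431 (leaf 430 6)) (move 590 (branch (move 495 (leaf 462 6)) (move 591 (branch (move 559 (leaf 462 4)) (move 623 (leaf 494 4))))))))))))))))))))))))))))) (move 558 (branch (move 522 (branch (move 556 (leaf 522 3)) (move 490 (leaf 490 7)))) (ref 0))))))))
theorem a6p1006 : a6e1006.Valid :=
  pos_of_chk [a6e1005] (forall_cons a6p1005 forall_nil) a6c1006 a6e1006 (by decide +kernel)

def a6e1007 : Pos := ⟨506532662334854411888551808632577731026891247352668083580025537872461845189365118917210886537795331010870968880547576945522373935735061865629027671401487506504331891862562406400, 5257106063891122251948182063490540756217166899873215392650299644913775842117757048139060868693540925044313869845353863999703663667817373192711022307545286571956114537228709628965772891991463858091052458053498644201472, 16⟩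
def a6c1007 : Cert := (move 619 (branch (move 652 (branch (move 620 (leaf 523 4)) (move 651 (branch (move 684 (leaf 555 4)) (move 650 (branch (move 618 (leaf 522 5)) (move 682 (leaf 554 5)))))))) (branch (move 618 (branch (move 650 (leaf 522 5)) (move 491 (branch (move 586 (leaf 490 5)) (move 460 (branch (move 492 (leaf 459 6)) (move 459 (branch (move 428 (leaf 427 6)) (move 458 (branch (move 426 (leaf 426 7)) (move 490 (leaf 458 7)))))))))))) (branch (move 620 (branch (move 652 (leaf 523 4)) (move 621 (branch (move 622 (branch (move 586 (leaf 586 3)) (move 590 (branch (move 591 (leaf 587 2)) (move 558 (branch (move 653 (leaf 525 5)) (move 654 (branch (move 655 (leaf 619 0)) (move 557 (leaf 525 7)))))))))) (branch (move 490 (branch (move 522 (leaf 490 7)) (move 491 (branch (move 458 (leaf 458 7)) (move 618 (branch (move 586 (leaf 490 5)) (move 460 (branch (move 492 (leaf 459 6)) (move 459 (branch (move 428 (leaf 427 6)) (move 589 (branch (move 590 (leaf 586 2)) (move 653 (branch (move 654 (leaf 618 0)) (move 557 (branch (move 494 (leaf 493 6)) (move 558 (leaf 525 6)))))))))))))))))) (branch (move 586 (branch (move 622 (leaf 586 3)) (move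 618 (branch (move 585 (leaf 585 3)) (move 491 (leaf 490 5)))))) (move 589 (branch (move 557 (branch (move 494 (leaf 493 6)) (move 653 (branch (move 558 (leaf 525 6)) (move 654 (branch (move 622 (leaf 525 4)) (move 686 (leaf 557 4)))))))) (branch (move 590 (branch (move 618 (leaf 586 2)) (move 591 (branch (move 592 (leaf 588 1)) (move 622 (leaf 587 2)))))) (move 590 (branch (move 618 (leaf 586 2)) (move 494 (branch (move 558 (leaf 493 5)) (move 557 (leaf 493 6))))))))))))))) (ref 0)))))
theorem a6p1007 : a6e1007.Valid :=
  pos_of_chk [a6e1006] (forall_cons a6p1006 forall_nil) a6c1007 a6e1007 (by decide +kernel)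

def a6e1008 : Pos := ⟨506532662334854411891984207485019729493047230066752069131817671602139449380684863856162095216088823660792328665900658369770132540704441736925831338315916918079757335083607916544, 321053216786813777356887186707964759400022388406361653795992324077354932120451381258167245858464995228080584427170493495817491531068707144160774768907236111993809317761221858952968301262077007621605260525568, 12⟩
def a6c1008 : Cert := (move 488 (branch (move 489 (branch (move 519 (leaf 487 1)) (move 456 (branch (move 455 (leaf 455 3)) (move 457 (leaf 456 3)))))) (branch (move 552 (branch (move 584 (branch (move 615 (branch (move 583 (leaf 487 5)) (move 616 (branch (move 647 (leaf 519 5)) (move 617 (branch (move 585 (leaf 488 4)) (move 649 (leaf 520 4)))))))) (branch (move 487 (branch (move 455 (leaf 455 7)) (move 616 (branch (move 519 (leaf 487 7)) (move 617 (branch (move 585 (leaf 488 4)) (move 649 (leaf 520 4)))))))) (move 583 (branch (move 615 (leaf 487 5)) (move 456 (branch (move 551 (leaf 455 5)) (move 455 (branch (move 423 (leaf 423 7)) (move 487 (leaf 455 7))))))))))) (move 588 (branch (move 620 (leaf 491 4)) (move 554 (branch (move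 553 (leaf 552 0)) (move 589 (branch (move 590 (leaf 554 3)) (move 557 (branch (move 556 (leaf 522 2)) (move 621 (branch (move 494 (leaf 493 6)) (move 653 (branch (move 558 (leaf 525 6)) (move 654 (branch (move 622 (leaf 525 4)) (move 686 (leaf 557 4)))))))))))))))))) (branch (move 552 (branch (move 456 (branch (move 455 (branch (move 423 (leaf 423 7)) (move 584 (branch (move 487 (leaf 455 7)) (move 583 (branch (move 551 (leaf 455 5)) (move 615 (leaf 487 5)))))))) (branch (move 425 (branch (move 457 (leaf 424 6)) (move 424 (branch (move 393 (leaf 392 6)) (move 423 (branch (move 391 (leaf 391 7)) (move 455 (leaf 423 7)))))))) (move 457 (branch (move 425 (leaf 424 6)) (move 584 (branch (move 489 (leaf 456 3)) (move 583 (branch (move 551 (leaf 455 5)) (move 615 (leaf 487 5))))))))))) (move 588 (branch (move 620 (leaf 491 4)) (move 554 (branch (move 553 (leaf 552 0)) (move 589 (branch (move 590 (leaf 554 3)) (move 557 (branch (move 556 (leaf 522 2)) (move 621 (branch (move 494 (leaf 493 6)) (move 653 (branch (move 558 (leaf 525 6)) (move 654 (branch (move 622 (leaf 525 4)) (move 686 (leaf 557 4)))))))))))))))))) (branch (move 489 (branch (move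 519 (leaf 487 1)) (move 457 (branch (move 456 (leaf 456 3)) (move 620 (branch (move 588 (leaf 491 4)) (move 619 (branch (move 652 (leaf 523 4)) (move 618 (branch (move 650 (leaf 522 5)) (move 584 (branch (move 552 (leaf 456 6)) (move 617 (branch (move 585 (leaf 584 3)) (move 616 (branch (move 583 (leaf 583 3)) (move 648 (branch (move 647 (leaf 615 1)) (move 649 (leaf 616 1)))))))))))))))))))) (move 552 (branch (move 588 (branch (move 620 (leaf 491 4)) (move 554 (branch (move 553 (leaf 552 0)) (move 589 (branch (move 590 (leaf 554 3)) (move 557 (branch (move 556 (leaf 522 2)) (move 621 (branch (move 494 (leaf 493 6)) (move 653 (branch (move 558 (leaf 525 6)) (move 654 (branch (move 622 (leaf 525 4)) (move 686 (leaf 557 4)))))))))))))))) (branch (move 584 (branch (move 487 (branch (move 455 (leaf 455 7)) (move 616 (branch (move 519 (leaf 487 7)) (move 615 (branch (move 583 (leaf 487 5)) (move 647 (leaf 519 5)))))))) (branch (move 615 (branch (move 583 (leaf 487 5)) (move 616 (branch (move 647 (leaf 519 5)) (move 617 (branch (move 585 (leaf 488 4)) (move 649 (leaf 520 4)))))))) (branch (move 487 (branch (move 455 (leaf 455 7)) (move 616 (branch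 (move 519 (leaf 487 7)) (move 617 (branch (move 585 (leaf 488 4)) (move 649 (leaf 520 4)))))))) (move 583 (branch (move 615 (leaf 487 5)) (move 553 (branch (move 554 (leaf 551 1)) (move 585 (branch (move 617 (leaf 488 4)) (move 582 (branch (move 581 (leaf 549 2)) (move 550 (branch (move 549 (leaf 549 3)) (move 614 (branch (move 613 (leaf 581 1)) (move 487 (branch (move 455 (leaf 455 7)) (move 519 (branch (move 551 (leaf 486 5)) (move 518 (leaf 486 6)))))))))))))))))))))) (move 489 (branch (move 519 (leaf 487 1)) (move 584 (branch (move 457 (leaf 456 6)) (move 487 (branch (move 455 (leaf 455 7)) (move 620 (branch (move 588 (leaf 491 4)) (move 619 (branch (move 652 (leaf 523 4)) (move 617 (branch (move 585 (leaf 488 4)) (move 616 (branch (move 649 (leaf 520 4)) (move 618 (branch (move 583 (leaf 583 3)) (move 650 (leaf 522 5))))))))))))))))))))))))))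
theorem a6p1008 : a6e1008.Valid :=
  pos_of_chk [] forall_nil a6c1008 a6e1008 (by decide +kernel)

def a6e1009 : Pos := ⟨506532662334854411888551808654954424635556279667211372523182953952067796675987632126569323624389995634731048845569931092281484385008701307907270344316058596173470320938050387968, 344728266905388205249870491058378321450236758907177536767166761079324491861038217549377097654180973420759146186783702677745125839530143315463988602202930418501199559994373827386479166132931963342752234887928252203008, 13⟩
def a6c1009 : Cert := (move 520 (branch (move 489 (branch (move 521 (leaf 488 1)) (move 488 (branch (move 519 (leaf 487 1)) (move 456 (branch (move 455 (leaf 455 3)) (move 457 (leaf 456 3)))))))) (branch (move 619 (branch (move 620 (branch (move 588 (leaf 491 4)) (move 652 (leaf 523 4)))) (branch (move 652 (branch (move 620 (leaf 523 4)) (move 651 (branch (move 684 (leaf 555 4)) (move 650 (branch (move 618 (leaf 522 5)) (move 682 (leaf 554 5)))))))) (branch (move 588 (branch (move 620 (leaf 491 4)) (move 650 (branch (move 618 (leaf 522 5)) (move 651 (branch (move 682 (leaf 554 5)) (move 556 (branch (move 683 (leaf 555 6)) (move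 554 (branch (move 557 (leaf 522 2)) (move 553 (branch (move 552 (leaf 552 0)) (move 589 (leaf 553 0)))))))))))))) (move 650 (branch (move 618 (leaf 522 5)) (move 651 (branch (move 682 (leaf 554 5)) (move 684 (branch (move 652 (leaf 555 4)) (move 683 (branch (move 716 (leaf 587 4)) (move 556 (branch (move 588 (leaf 555 6)) (move 554 (branch (move 557 (leaf 522 2)) (move 521 (branch (move 489 (leaf 488 1)) (move 553 (leaf 520 3)))))))))))))))))))) (branch (move 619 (branch (move 620 (branch (move 588 (leaf 491 4)) (move 652 (leaf 523 4)))) (branch (move 652 (branch (move 620 (leaf 523 4)) (move 651 (branch (move 684 (leaf 555 4)) (move 650 (branch (move 618 (leaf 522 5)) (move 682 (leaf 554 5)))))))) (branch (move 588 (branch (move 620 (leaf 491 4)) (move 650 (branch (move 618 (leaf 522 5)) (move 651 (branch (move 682 (leaf 554 5)) (move 556 (branch (move 683 (leaf 555 6)) (move 554 (branch (move 557 (leaf 522 2)) (move 553 (branch (move 552 (leaf 552 0)) (move 589 (leaf 553 0)))))))))))))) (move 650 (branch (move 618 (leaf 522 5)) (move 651 (branch (move 682 (leaf 554 5)) (move 684 (branch (move 652 (leaf 555 4)) (move 683 (branch (move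 716 (leaf 587 4)) (move 556 (branch (move 588 (leaf 555 6)) (move 554 (branch (move 557 (leaf 522 2)) (move 553 (branch (move 521 (leaf 520 3)) (move 552 (branch (move 519 (leaf 519 3)) (move 584 (branch (move 583 (leaf 551 1)) (move 585 (leaf 552 1)))))))))))))))))))))))) (ref 0)))))
theorem a6p1009 : a6e1009.Valid :=
  pos_of_chk [a6e1008] (forall_cons a6p1008 forall_nil) a6c1009 a6e1009 (by decide +kernel)

def a6e1010 : Pos := ⟨506532662334854411888551808632577731026891247352668083580025537872461845189365118917210886537795331010870968880547576945522373935735061865629027671401487506504331891862562406400, 344728266905388205249870491058378321450236758907177536767166761079346868554652092561668258312595001144537311609205116805885214859058890644515316279454091678121050065902363716068604498178875685149274387957674204463104, 16⟩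
def a6c1010 : Cert := (move 491 (branch (move 458 (branch (move 490 (leaf 458 7)) (move 459 (branch (move 426 (leaf 426 7)) (move 460 (branch (move 428 (leaf 427 6)) (move 492 (leaf 459 6)))))))) (branch (move 588 (branch (move 620 (leaf 491 4)) (move 459 (branch (move 556 (leaf 459 4)) (move 460 (branch (move 428 (leaf 427 6)) (move 492 (leaf 459 6)))))))) (branch (move 458 (branch (move 490 (leaf 458 7)) (move 459 (branch (move 426 (leaf 426 7)) (move 588 (branch (move 556 (leaf 459 4)) (move 620 (leaf 491 4)))))))) (move 490 (branch (move 458 (leaf 458 7)) (move 492 (branch (move 460 (leaf 459 6)) (ref 0)))))))))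
theorem a6p1010 : a6e1010.Valid :=
  pos_of_chk [a6e1009] (forall_cons a6p1009 forall_nil) a6c1010 a6e1010 (by decide +kernel)

def a6e1011 : Pos := ⟨176904488666942149717187343470196948672505067706482413304477964153233096956344693214900113433901894547587855719439957329989402277913365744112410234216092442230033219584, 12541141279370743432927783226839941826907615261805116852351097996895841687421721352017959395462263599895755582094058249792130823066893093447377019505656149308690163693263920086625479568143184584617903521792, 8⟩
def a6c1011 : Cert := (move 552 (branch (move 553 (branch (move 519 (leaf 519 3)) (move 585 (branch (move 456 (leaf 456 4)) (move 617 (branch (move 584 (leaf 488 4)) (move 649 (leaf 520 7)))))))) (branch (move 456 (branch (move 455 (branch (move 423 (leaf 423 7)) (move 584 (branch (move 487 (leaf 455 7)) (move 583 (branch (move 551 (leaf 455 5)) (move 615 (leaf 487 5)))))))) (branch (move 551 (branch (move 583 (leaf 455 5)) (move 424 (branch (move 519 (leaf 423 5)) (move 425 (branch (move 393 (leaf 392 6)) (move 457 (leaf 424 6)))))))) (move 425 (branch (move 457 (leaf 424 6)) (move 424 (branch (move 393 (leaf 392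 6)) (move 423 (branch (move 391 (leaf 391 7)) (move 455 (leaf 423 7))))))))))) (branch (move 456 (branch (move 425 (branch (move 457 (leaf 424 6)) (move 424 (branch (move 393 (leaf 392 6)) (move 423 (branch (move 391 (leaf 391 7)) (move 455 (leaf 423 7)))))))) (move 585 (branch (move 553 (leaf 456 4)) (move 584 (branch (move 617 (leaf 488 4)) (move 583 (branch (move 551 (leaf 455 5)) (move 615 (leaf 487 5)))))))))) (branch (move 584 (branch (move 553 (branch (move 583 (leaf 551 1)) (move 519 (leaf 519 3)))) (branch (move 583 (branch (move 553 (leaf 551 1)) (move 615 (leaf 487 5)))) (branch (move 519 (branch (move 553 (leaf 519 3)) (move 487 (branch (move 616 (leaf 487 7)) (move 455 (branch (move 423 (leaf 423 4)) (move 551 (leaf 455 4)))))))) (move 616 (branch (move 615 (branch (move 647 (leaf 519 5)) (move 583 (leaf 487 5)))) (branch (move 519 (branch (move 487 (leaf 487 7)) (move 648 (branch (move 551 (leaf 519 7)) (move 649 (branch (move 617 (leaf 520 4)) (move 681 (leaf 552 4)))))))) (move 649 (branch (move 617 (leaf 520 4)) (move 648 (branch (move 681 (leaf 552 4)) (move 647 (branch (move 615 (leaf 519 5)) (move 679 (leaf 551 5)))))))))))))))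 (move 553 (branch (move 519 (leaf 519 3)) (move 456 (branch (move 585 (leaf 456 4)) (move 551 (branch (move 583 (leaf 455 5)) (move 423 (branch (move 455 (leaf 423 7)) (move 424 (branch (move 391 (leaf 391 7)) (move 425 (branch (move 393 (leaf 392 6)) (move 457 (leaf 424 6)))))))))))))))))))
theorem a6p1011 : a6e1011.Valid :=
  pos_of_chk [] forall_nil a6c1011 a6e1011 (by decide +kernel)

def a6e1012 : Pos := ⟨506532662334854411891984207485019729493047230066752069131817671602139449380684863856162095216088823660792328665900658369770132540704441736925831338315916918079757335083607916544, 413857662382752405025527620620109157481435122361532850124573759760848412461336315111264297697991303593492568553778650548449020867555443984144697636340399398614796207328664939449623827075656803149001160392704, 12⟩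
def a6c1012 : Cert := (move 488 (branch (move 489 (branch (move 519 (leaf 487 1)) (move 456 (branch (move 455 (leaf 455 3)) (move 457 (leaf 456 3)))))) (branch (move 456 (branch (move 489 (branch (move 519 (leaf 487 1)) (move 455 (leaf 455 3)))) (branch (move 519 (branch (move 489 (leaf 487 1)) (move 551 (branch (move 424 (leaf 423 5)) (move 583 (branch (move 552 (leaf 455 5)) (move 487 (leaf 455 6)))))))) (branch (move 455 (branch (move 489 (leaf 455 3)) (move 423 (branch (move 552 (leaf 423 7)) (move 391 (branch (move 359 (leaf 359 4)) (move 487 (leaf 391 4)))))))) (move 424 (branch (move 519 (branch (move 551 (leaf 423 5)) (move 392 (branch (move 487 (leaf 391 5)) (move 393 (branch (move 361 (leaf 360 6)) (move 425 (leaf 392 6)))))))) (branch (move 393 (branch (move 425 (leaf 392 6)) (move 392 (branch (move 361 (leaf 360 6)) (move 391 (branch (move 359 (leaf 359 7)) (move 423 (leaf 391 7)))))))) (move 423 (branch (move 391 (leaf 391 7)) (move 552 (branch (move 455 (leaf 423 7)) (move 551 (branch (move 519 (leaf 423 5)) (move 583 (leaf 455 5))))))))))))))) (branch (move 456 (branch (move 455 (branch (move 489 (leaf 455 3)) (move 423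 (branch (move 552 (leaf 423 7)) (move 391 (branch (move 359 (leaf 359 4)) (move 424 (leaf 391 7)))))))) (branch (move 552 (branch (move 425 (branch (move 457 (leaf 424 6)) (move 424 (branch (move 393 (leaf 392 6)) (move 423 (branch (move 391 (leaf 391 7)) (move 455 (leaf 423 7)))))))) (move 585 (branch (move 553 (leaf 456 4)) (move 584 (branch (move 617 (leaf 488 4)) (move 583 (branch (move 551 (leaf 455 5)) (move 615 (leaf 487 5)))))))))) (branch (move 457 (branch (move 489 (leaf 456 3)) (move 552 (branch (move 425 (leaf 424 6)) (move 583 (branch (move 551 (leaf 455 5)) (move 584 (branch (move 615 (leaf 487 5)) (move 585 (branch (move 553 (leaf 456 4)) (move 617 (leaf 488 4)))))))))))) (move 489 (branch (move 455 (leaf 455 3)) (move 457 (leaf 456 3)))))))) (branch (move 456 (branch (move 519 (branch (move 489 (leaf 487 1)) (move 551 (branch (move 424 (leaf 423 5)) (move 583 (branch (move 552 (leaf 455 5)) (move 615 (leaf 487 6)))))))) (branch (move 457 (branch (move 489 (leaf 456 3)) (move 552 (branch (move 425 (leaf 424 6)) (move 583 (branch (move 551 (leaf 455 5)) (move 584 (branch (move 615 (leaf 487 5)) (move 585 (branch (move 553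 (leaf 456 4)) (move 617 (leaf 488 4)))))))))))) (branch (move 424 (branch (move 519 (branch (move 551 (leaf 423 5)) (move 392 (branch (move 487 (leaf 391 5)) (move 391 (branch (move 359 (leaf 359 7)) (move 423 (leaf 391 7)))))))) (branch (move 393 (branch (move 425 (leaf 392 6)) (move 392 (branch (move 361 (leaf 360 6)) (move 391 (branch (move 359 (leaf 359 7)) (move 423 (leaf 391 7)))))))) (move 425 (branch (move 393 (leaf 392 6)) (move 552 (branch (move 457 (leaf 424 6)) (move 551 (branch (move 519 (leaf 423 5)) (move 583 (leaf 455 5))))))))))) (move 489 (branch (move 519 (leaf 487 1)) (move 457 (leaf 456 3)))))))) (branch (move 557 (branch (move 621 (branch (move 589 (branch (move 494 (leaf 493 6)) (move 653 (branch (move 558 (leaf 525 6)) (move 654 (branch (move 622 (leaf 525 4)) (move 686 (leaf 557 4)))))))) (branch (move 618 (branch (move 586 (leaf 490 5)) (move 619 (branch (move 650 (leaf 522 5)) (move 620 (branch (move 652 (leaf 523 4)) (move 654 (branch (move 653 (leaf 618 0)) (move 622 (branch (move 655 (leaf 619 0)) (move 590 (branch (move 591 (leaf 587 2)) (move 558 (leaf 525 7)))))))))))))) (branch (move 589 (branch (move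 494 (leaf 493 6)) (move 620 (branch (move 652 (leaf 524 5)) (move 622 (branch (move 654 (leaf 525 4)) (move 619 (branch (move 586 (leaf 586 3)) (move 650 (branch (move 651 (leaf 618 1)) (move 618 (leaf 522 5)))))))))))) (move 589 (branch (move 494 (leaf 493 6)) (move 653 (branch (move 558 (leaf 525 6)) (move 652 (branch (move 620 (leaf 524 5)) (move 684 (leaf 556 5)))))))))))) (move 554 (branch (move 556 (leaf 522 2)) (ref 0))))) (move 584 (branch (move 586 (branch (move 618 (leaf 490 5)) (move 585 (branch (move 556 (leaf 552 2)) (move 583 (branch (move 554 (leaf 551 2)) (move 615 (branch (move 614 (leaf 582 1)) (move 616 (leaf 583 1)))))))))) (branch (move 489 (branch (move 519 (leaf 487 1)) (move 552 (branch (move 457 (leaf 456 6)) (move 487 (branch (move 455 (leaf 455 7)) (move 617 (branch (move 585 (leaf 488 4)) (move 616 (branch (move 649 (leaf 520 4)) (move 615 (branch (move 583 (leaf 487 5)) (move 647 (leaf 519 5)))))))))))))) (branch (move 489 (branch (move 519 (leaf 487 1)) (move 552 (branch (move 457 (leaf 456 6)) (move 487 (branch (move 455 (leaf 455 7)) (move 618 (branch (move 586 (leaf 490 5)) (move 619 (branch (move 650 (leaf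 522 5)) (move 652 (branch (move 620 (leaf 523 4)) (move 651 (branch (move 684 (leaf 555 4)) (move 616 (branch (move 617 (leaf 616 0)) (move 615 (branch (move 583 (leaf 487 5)) (move 647 (leaf 519 5)))))))))))))))))))) (move 586 (branch (move 618 (leaf 490 5)) (move 585 (branch (move 556 (leaf 552 2)) (move 552 (branch (move 551 (leaf 551 3)) (move 617 (leaf 488 4))))))))))))))))))
theorem a6p1012 : a6e1012.Valid :=
  pos_of_chk [a6e1011] (forall_cons a6p1011 forall_nil) a6c1012 a6e1012 (by decide +kernel)

def a6e1013 : Pos := ⟨506532662334854411888551808654954424635556279667211372523182953952067796675987632126569323624389995634731048845569931092281484385008701307907270344316058596173470320938050387968, 86182067085023692046746207131850834408909272271259187020420470568578273577397602163343019149572103342487952105940235990519861984203752301628912233309055194314993376840914342838309697041443270111760746541766492028928, 13⟩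
def a6c1013 : Cert := (move 520 (branch (move 489 (branch (move 521 (leaf 488 1)) (move 488 (branch (move 519 (leaf 487 1)) (move 456 (branch (move 455 (leaf 455 3)) (move 457 (leaf 456 3)))))))) (branch (move 619 (branch (move 618 (branch (move 586 (leaf 490 5)) (move 650 (leaf 522 5)))) (branch (move 652 (branch (move 620 (leaf 523 4)) (move 651 (branch (move 684 (leaf 555 4)) (move 650 (branch (move 618 (leaf 522 5)) (move 682 (leaf 554 5)))))))) (branch (move 652 (branch (move 620 (leaf 523 4)) (move 651 (branch (move 684 (leaf 555 4)) (move 682 (branch (move 650 (leaf 554 5)) (move 683 (branch (move 714 (leaf 586 5)) (move 554 (branch (move 586 (leaf 554 7)) (move 556 (branch (move 557 (leaf 522 2)) (move 521 (branch (move 489 (leaf 488 1)) (move 553 (leaf 520 3)))))))))))))))) (move 652 (branch (move 620 (leaf 523 4)) (move 651 (branch (move 684 (leaf 555 4)) (move 586 (branch (move 618 (leaf 490 5)) (move 554 (branch (move 683 (leaf 554 7)) (move 556 (branch (move 557 (leaf 522 2)) (move 521 (branch (move 489 (leaf 488 1)) (move 553 (leaf 520 3)))))))))))))))))) (branch (move 619 (branch (move 618 (branch (move 586 (leaf 490 5))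 (move 650 (leaf 522 5)))) (branch (move 652 (branch (move 620 (leaf 523 4)) (move 651 (branch (move 684 (leaf 555 4)) (move 650 (branch (move 618 (leaf 522 5)) (move 682 (leaf 554 5)))))))) (branch (move 652 (branch (move 620 (leaf 523 4)) (move 651 (branch (move 684 (leaf 555 4)) (move 682 (branch (move 650 (leaf 554 5)) (move 683 (branch (move 714 (leaf 586 5)) (move 554 (branch (move 586 (leaf 554 7)) (move 556 (branch (move 557 (leaf 522 2)) (move 553 (branch (move 521 (leaf 520 3)) (move 552 (branch (move 519 (leaf 519 3)) (move 584 (branch (move 583 (leaf 551 1)) (move 585 (leaf 552 1)))))))))))))))))))) (move 652 (branch (move 620 (leaf 523 4)) (move 651 (branch (move 684 (leaf 555 4)) (move 586 (branch (move 618 (leaf 490 5)) (move 554 (branch (move 683 (leaf 554 7)) (move 556 (branch (move 557 (leaf 522 2)) (move 553 (branch (move 521 (leaf 520 3)) (move 552 (branch (move 551 (leaf 551 0)) (move 519 (leaf 519 3)))))))))))))))))))) (ref 0)))))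
theorem a6p1013 : a6e1013.Valid :=
  pos_of_chk [a6e1012] (forall_cons a6p1012 forall_nil) a6c1013 a6e1013 (by decide +kernel)

def a6e1014 : Pos := ⟨506532662334854411888551808632577731026891247352668083580025537872461845189365118917210886537795331010870968880547576945522373935735061865629027671401487506504331891862562406400, 86182067085023692046746207131850834408909272271259187020420470568600650271011477175634179807986131066266117528361650118659951003732499630680239910560216453934843882748904231520435029087386991918282899611512444289024, 16⟩
def a6c1014 : Cert := (move 491 (branch (move 458 (branch (move 490 (leaf 458 7)) (move 459 (branch (move 426 (leaf 426 7)) (move 460 (branch (move 428 (leaf 427 6)) (move 492 (leaf 459 6)))))))) (branch (move 586 (branch (move 618 (leaf 490 5)) (move 459 (branch (move 554 (leaf 458 5)) (move 460 (branch (move 428 (leaf 427 6)) (move 492 (leaf 459 6)))))))) (branch (move 586 (branch (move 618 (leaf 490 5)) (move 459 (branch (move 554 (leaf 458 5)) (move 458 (branch (move 426 (leaf 426 7)) (move 490 (leaf 458 7)))))))) (move 490 (branch (move 458 (leaf 458 7)) (move 492 (branch (move 460 (leaf 459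 6)) (ref 0)))))))))
theorem a6p1014 : a6e1014.Valid :=
  pos_of_chk [a6e1013] (forall_cons a6p1013 forall_nil) a6c1014 a6e1014 (by decide +kernel)

def a6e1015 : Pos := ⟨6526623656238966771032514294005286301265011302687706671717307164913200886036787332964371807669307902290420173058970853347132730745672872050534568919649493815777163616720826175631719923712, 565304642347863401130365810401928808281205873621709821551248876884279107274770602447423461303335485045730496797992455826562042826771914973647991856939107611970683978034558672759765061586897256579072, 13⟩
def a6c1015 : Cert := (move 621 (branch (move 618 (branch (move 650 (leaf 522 5)) (move 590 (branch (move 589 (leaf 586 2)) (move 622 (branch (move 591 (leaf 587 2)) (move 653 (branch (move 654 (leaf 618 0)) (move 558 (leaf 525 5)))))))))) (branch (move 460 (branch (move 492 (leaf 459 6)) (move 459 (branch (move 428 (leaf 427 6)) (move 522 (branch (move 490 (leaf 490 7)) (move 554 (branch (move 427 (leaf 426 5)) (move 557 (branch (move 556 (leaf 522 2)) (move 589 (branch (move 494 (leaf 493 6)) (move 622 (branch (move 654 (leaf 525 4)) (move 591 (branch (move 590 (leaf 587 2)) (move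 623 (branch (move 592 (leaf 588 2)) (move 655 (branch (move 656 (leaf 620 0)) (move 558 (branch (move 653 (leaf 525 6)) (move 559 (leaf 526 7)))))))))))))))))))))))) (branch (move 618 (branch (move 650 (leaf 522 5)) (move 654 (branch (move 653 (leaf 618 0)) (move 622 (branch (move 655 (leaf 619 0)) (move 557 (branch (move 589 (leaf 525 4)) (move 522 (branch (move 490 (leaf 490 7)) (move 556 (branch (move 554 (leaf 522 2)) (move 558 (leaf 522 3)))))))))))))) (branch (move 618 (branch (move 650 (leaf 522 5)) (move 589 (branch (move 590 (leaf 586 2)) (move 557 (branch (move 494 (leaf 493 6)) (move 522 (branch (move 490 (leaf 490 7)) (move 556 (branch (move 554 (leaf 522 2)) (move 558 (leaf 522 3)))))))))))) (branch (move 618 (branch (move 650 (leaf 522 5)) (move 460 (branch (move 492 (leaf 459 6)) (move 459 (branch (move 428 (leaf 427 6)) (move 522 (branch (move 490 (leaf 490 7)) (move 554 (branch (move 427 (leaf 426 5)) (move 557 (branch (move 556 (leaf 522 2)) (move 654 (branch (move 653 (leaf 618 0)) (move 622 (branch (move 655 (leaf 619 0)) (move 590 (branch (move 591 (leaf 587 2)) (move 558 (leaf 525 7)))))))))))))))))))) (move 618 (branch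 (move 650 (leaf 522 5)) (move 589 (branch (move 590 (leaf 586 2)) (move 654 (branch (move 653 (leaf 618 0)) (move 622 (branch (move 655 (leaf 619 0)) (move 557 (leaf 525 4))))))))))))))))
theorem a6p1015 : a6e1015.Valid :=
  pos_of_chk [] forall_nil a6c1015 a6e1015 (by decide +kernel)

def a6e1016 : Pos := ⟨506532662334854411888551808632577731026891247352668083580025537872461845189365118917210886537795331010870968880547576945522373935735061865629027671401487506504331891862562406400, 100329130795598650617752768430135181956664364971562418948937757813029099312124755511565151905610602847264493271298669172549279908826500557495799753365982703829564199435526715856102918978005587514801803755520, 16⟩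
def a6c1016 : Cert := (move 491 (branch (move 458 (branch (move 490 (leaf 458 7)) (move 459 (branch (move 426 (leaf 426 7)) (move 460 (branch (move 428 (leaf 427 6)) (move 492 (leaf 459 6)))))))) (branch (move 490 (branch (move 458 (leaf 458 7)) (move 619 (branch (move 522 (leaf 490 7)) (move 652 (branch (move 620 (leaf 523 4)) (move 651 (branch (move 684 (leaf 555 4)) (move 650 (branch (move 618 (leaf 522 5)) (move 682 (leaf 554 5)))))))))))) (branch (move 460 (branch (move 492 (leaf 459 6)) (move 459 (branch (move 428 (leaf 427 6)) (move 426 (branch (move 458 (leaf 426 7)) (move 427 (branch (move 394 (leaf 394 7)) (move 554 (branch (move 522 (leaf 426 5)) (move 462 (branch (move 461 (leaf 426 3)) (move 557 (branch (move 556 (leaf 522 2)) (move 494 (branch (move 430 (leaf 429 5)) (move 589 (branch (move 558 (leaf 461 5)) (move 621 (leaf 493 6)))))))))))))))))))) (move 619 (branch (move 652 (branch (move 620 (leaf 523 4)) (move 651 (branch (move 684 (leaf 555 4)) (move 650 (branch (move 618 (leaf 522 5)) (move 682 (leaf 554 5)))))))) (branch (move 522 (branch (move 490 (leaf 490 7)) (move 651 (branch (move 554 (leaf 522 7)) (move 652 (branch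 (move 620 (leaf 523 4)) (move 684 (leaf 555 4)))))))) (branch (move 522 (branch (move 490 (leaf 490 7)) (move 651 (branch (move 554 (leaf 522 7)) (move 650 (branch (move 618 (leaf 522 5)) (move 682 (leaf 554 5)))))))) (move 620 (branch (move 652 (leaf 523 4)) (ref 0)))))))))))
theorem a6p1016 : a6e1016.Valid :=
  pos_of_chk [a6e1015] (forall_cons a6p1015 forall_nil) a6c1016 a6e1016 (by decide +kernel)

def a6e1017 : Pos := ⟨3545728635518426600318823331978184555203570623911298509877085713348347840764818701590398098347570917179362456126013191788850354377387508778243229631539607030502770798688211042304, 9343878419426972653074482770431863025633427495290897947853104310216809188639638738569814002548309125998755250091644905517481018792928177235507871453014943587322523130202866265214777473547227889664, 6⟩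
def a6c1017 : Cert := (move 586 (branch (move 618 (branch (move 617 (leaf 585 1)) (move 554 (branch (move 553 (leaf 553 3)) (move 522 (branch (move 491 (leaf 490 6)) (move 619 (branch (move 490 (leaf 490 4)) (move 651 (leaf 522 4)))))))))) (branch (move 621 (branch (move 622 (leaf 586 0)) (move 585 (branch (move 620 (leaf 585 0)) (move 553 (branch (move 552 (leaf 552 3)) (move 554 (leaf 553 3)))))))) (move 621 (branch (move 622 (leaf 586 0)) (move 585 (branch (move 620 (leaf 585 0)) (move 617 (branch (move 616 (leaf 584 1)) (move 618 (leaf 585 1)))))))))))
theorem a6p1017 : a6e1017.Valid :=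
  pos_of_chk [] forall_nil a6c1017 a6e1017 (by decide +kernel)

def a6e1018 : Pos := ⟨3545728635518426600318823331978184555203570623911298509877085713348347840764818701590398098347570917179362456126013191788850354377387508778243229631539607030502770798688211042304, 9343878388969395592989790264827225469948090871308390334096553346044037561607889689323693251271235167148012215482535637723387375368286345773110209659965060700523434797081433355431793240488420573184, 6⟩
def a6c1018 : Cert := (move 586 (branch (move 618 (branch (move 617 (leaf 585 1)) (move 554 (branch (move 553 (leaf 553 3)) (move 522 (branch (move 491 (leaf 490 6)) (move 619 (branch (move 490 (leaf 490 4)) (move 651 (leaf 522 4)))))))))) (branch (move 557 (branch (move 558 (leaf 554 2)) (move 585 (branch (move 556 (leaf 553 2)) (move 553 (branch (move 552 (leaf 552 3)) (move 554 (leaf 553 3)))))))) (move 617 (branch (move 618 (leaf 585 1)) (move 585 (branch (move 616 (leaf 584 1)) (move 557 (branch (move 556 (leaf 553 2)) (move 558 (leaf 554 2)))))))))))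
theorem a6p1018 : a6e1018.Valid :=
  pos_of_chk [] forall_nil a6c1018 a6e1018 (by decide +kernel)

def a6e1019 : Pos := ⟨3545728635518426600401200903899751871783353433500275228484318936950067505677552263100624616548342789804833171813950646448577910114085279074688693487536206756253659138181591728128, 3447282665562428320232422303368043121062249250718483298266141238931022062068887387979328486994179692022348281454032307721805134767091022890719401422179673036794237203030075904949188799037479045361937119140179781615616, 8⟩
def a6c1019 : Cert := (move 590 (branch (move 619 (branch (move 618 (leaf 586 1)) (move 591 (branch (move 620 (leaf 587 1)) (move 623 (branch (move 622 (leaf 587 0)) (move 624 (leaf 588 0)))))))) (branch (move 619 (branch (move 618 (leaf 586 1)) (move 591 (branch (move 620 (leaf 587 1)) (move 559 (branch (move 558 (leaf 555 2)) (move 560 (leaf 556 2)))))))) (move 558 (branch (move 559 (leaf 555 2)) (move 622 (branch (move 623 (leaf 587 0)) (move 654 (branch (move 557 (leaf 525 7)) (move 685 (branch (move 653 (leaf 557 5)) (move 686 (branch (move 717 (leaf 589 5)) (move 687 (branch (move 655 (leaf 558 4)) (move 719 (leaf 590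 4)))))))))))))))))
theorem a6p1019 : a6e1019.Valid :=
  pos_of_chk [] forall_nil a6c1019 a6e1019 (by decide +kernel)

def a6e1020 : Pos := ⟨3545728635518426600291364141337662116343643020714972937008007972147774619127240847753655925613980292970872217563367373568941169131821585346094741679540740455252474685523750813696, 65266236561756501885015916129855459142009292379477636561362035082086774345452347159199953275976494399015570005979192018215085513443029680470931821687485680047856858457849477434888287158272, 5⟩
def a6c1020 : Cert := (move 586 (branch (move 558 (branch (move 557 (leaf 554 2)) (move 590 (branch (move 559 (leaf 555 2)) (move 622 (branch (move 621 (leaf 586 0)) (move 623 (leaf 587 0)))))))) (branch (move 621 (branch (move 622 (leaf 586 0)) (move 585 (branch (move 620 (leaf 585 0)) (move 553 (branch (move 552 (leaf 552 3)) (move 554 (leaf 553 3)))))))) (move 557 (branch (move 558 (leaf 554 2)) (move 585 (branch (move 556 (leaf 553 2)) (move 553 (branch (move 552 (leaf 552 3)) (move 554 (leaf 553 3)))))))))))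
theorem a6p1020 : a6e1020.Valid :=
  pos_of_chk [] forall_nil a6c1020 a6e1020 (by decide +kernel)

def a6e1021 : Pos := ⟨8702164876842575456486548908367394762125704455742100894216624027976405567105375177310962023277481242580064886145233036732276988220815636921049111986701894305547695765265776210848209960960, 2335969596490155521955942826130326225557301786009050083855601386290244130330416133404061036934031860659705533012330102568847916462889584133555087583360204371508322943450883059875630214675244324487168, 7⟩
def a6c1021 : Cert := (move 622 (branch (move 654 (leaf 525 4)) (move 623 (branch (move 620 (branch (move 652 (leaf 524 5)) (move 624 (branch (move 588 (leaf 587 3)) (move 656 (branch (move 655 (leaf 620 0)) (move 657 (leaf 621 0)))))))) (branch (move 624 (branch (move 588 (leaf 588 3)) (move 625 (branch (move 590 (leaf 589 3)) (move 657 (branch (move 656 (leaf 621 0)) (move 658 (leaf 622 0)))))))) (branch (move 620 (branch (move 652 (leaf 524 5)) (move 624 (branch (move 588 (leaf 587 3)) (move 625 (branch (move 590 (leaf 589 3)) (move 593 (branch (move 592 (leaf 589 2)) (move 594 (leaf 590 2)))))))))) (move 620 (branch (move 652 (leaf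 524 5)) (move 591 (branch (move 592 (leaf 588 2)) (move 655 (branch (move 656 (leaf 620 0)) (move 590 (branch (move 619 (leaf 587 2)) (move 558 (leaf 526 4))))))))))))))))
theorem a6p1021 : a6e1021.Valid :=
  pos_of_chk [] forall_nil a6c1021 a6e1021 (by decide +kernel)

def a6e1022 : Pos := ⟨8702164876842575456014803605154865330533420377678856870066706583948039548756056503229947587631493945134936548664064736539010168462333415326314095179367343418482050182835504752734194630656, 802633041804976553114489542455219732706605756638645957849505072325140150627465984745268152494061478757930501241367003758455229558704650701543909731725908749472163963302700233222836720146793386213825495171072, 8⟩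
def a6c1022 : Cert := (move 590 (branch (move 558 (branch (move 494 (leaf 493 5)) (move 653 (branch (move 622 (leaf 525 5)) (move 685 (leaf 557 6)))))) (branch (move 591 (branch (move 620 (branch (move 592 (leaf 588 1)) (move 619 (branch (move 588 (leaf 587 1)) (move 618 (leaf 586 2)))))) (branch (move 592 (branch (move 620 (leaf 588 1)) (move 593 (branch (move 622 (leaf 589 1)) (move 561 (branch (move 560 (leaf 557 2)) (move 562 (leaf 558 2)))))))) (branch (move 588 (branch (move 623 (branch (move 622 (leaf 587 0)) (move 624 (leaf 588 0)))) (move 619 (branch (move 618 (leaf 586 1)) (move 620 (leaf 587 1)))))) (move 592 (branch (move 593 (branch (move 622 (leaf 589 1)) (move 561 (branch (move 560 (leaf 557 2)) (move 562 (leaf 558 2)))))) (branch (move 593 (branch (move 622 (leaf 589 1)) (move 625 (branch (move 624 (leaf 589 0)) (move 626 (leaf 590 0)))))) (move 560 (branch (move 561 (leaf 557 2)) (move 624 (branch (move 625 (leaf 589 0)) (move 623 (branch (move 588 (leaf 588 0)) (move 655 (branch (move 528 (leaf 527 5)) (move 687 (leaf 559 6))))))))))))))))) (move 591 (branch (move 588 (branch (move 619 (branch (move 618 (leaf 586 1))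 (move 620 (leaf 587 1)))) (move 559 (branch (move 558 (leaf 555 2)) (move 560 (leaf 556 2)))))) (branch (move 592 (branch (move 620 (leaf 588 1)) (move 561 (branch (move 560 (leaf 557 2)) (move 593 (branch (move 562 (leaf 558 2)) (move 625 (branch (move 624 (leaf 589 0)) (move 626 (leaf 590 0)))))))))) (move 623 (branch (move 558 (branch (move 494 (leaf 494 4)) (move 655 (branch (move 559 (leaf 526 7)) (move 687 (leaf 558 7)))))) (move 624 (branch (move 588 (leaf 588 0)) (move 625 (branch (move 592 (leaf 589 0)) (move 626 (leaf 590 3))))))))))))))
theorem a6p1022 : a6e1022.Valid :=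
  pos_of_chk [] forall_nil a6c1022 a6e1022 (by decide +kernel)

def a6e1023 : Pos := ⟨3545728635518426600620874429023931382662774259070879811436940866554653278778175093794561998417067783472755080315117192207851392078612666531876597103527139358256028043497273556992, 259977175680792544810680265976093842596663657290541815852516511572209117808117426430570870133536758959152026310449539333046711275202886979149541086293922315345945928610843388383314214649856, 9⟩
def a6c1023 : Cert := (move 590 (branch (move 619 (branch (move 618 (leaf 586 1)) (move 591 (branch (move 620 (leaf 587 1)) (move 560 (branch (move 559 (leaf 556 2)) (move 592 (branch (move 561 (leaf 557 2)) (move 624 (branch (move 623 (leaf 588 0)) (move 625 (leaf 589 0)))))))))))) (branch (move 619 (branch (move 618 (leaf 586 1)) (move 591 (branch (move 620 (leaf 587 1)) (move 624 (branch (move 623 (leaf 588 0)) (move 592 (branch (move 625 (leaf 589 0)) (move 557 (branch (move 556 (leaf 556 3)) (move 494 (branch (move 621 (leaf 493 6)) (move 558 (branch (move 593 (leaf 557 3)) (move 462 (leaf 461 5)))))))))))))))) (move 558 (branch (move 559 (leaf 555 2)) (move 494 (branch (move 621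 (leaf 493 5)) (move 462 (branch (move 557 (leaf 461 5)) (move 463 (branch (move 431 (leaf 430 6)) (move 495 (leaf 462 6)))))))))))))
theorem a6p1023 : a6e1023.Valid :=
  pos_of_chk [] forall_nil a6c1023 a6e1023 (by decide +kernel)

def a6e1024 : Pos := ⟨2532663311084590429136515293567978931138803856348641688018016329998719466379398419701688192403806895403853256716800903693777386143658137007998016004228651517719902817940662124544, 517092400267786090616558593182679504503433138137263309275373881869684384977873193639877196246404215559196210440757472818814139590161292172363544935758268767588248120425688117160572819302010709660151611665262865022976, 11⟩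
def a6c1024 : Cert := (move 588 (branch (ref 0) (branch (ref 1) (branch (move 557 (branch (move 586 (branch (move 558 (leaf 554 2)) (move 585 (branch (move 556 (leaf 553 2)) (move 553 (branch (move 552 (leaf 552 3)) (move 554 (leaf 553 3)))))))) (move 621 (branch (move 494 (leaf 493 6)) (move 652 (branch (move 620 (leaf 524 5)) (move 653 (branch (move 684 (leaf 556 5)) (move 654 (branch (move 622 (leaf 525 4)) (move 686 (leaf 557 4)))))))))))) (move 590 (branch (move 558 (branch (move 559 (leaf 555 2)) (move 621 (branch (move 494 (leaf 493 5)) (move 653 (branch (move 622 (leaf 525 5)) (move 685 (leaf 557 6)))))))) (branch (move 619 (branch (move 618 (leaf 586 1)) (move 591 (branch (move 620 (leaf 587 1)) (move 559 (branch (move 558 (leaf 555 2)) (move 560 (leaf 556 2)))))))) (branch (move 619 (branch (move 618 (leaf 586 1)) (move 591 (branch (move 620 (leaf 587 1)) (move 560 (branch (move 559 (leaf 556 2)) (move 592 (branch (move 561 (leaf 557 2)) (move 625 (branch (move 624 (leaf 589 0)) (move 593 (branch (move 626 (leaf 590 0)) (move 557 (branch (move 556 (leaf 556 3)) (move 621 (branch (move 622 (leaf 589 1)) (move 494 (leaf 493 6))))))))))))))))))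 (move 621 (branch (move 558 (branch (move 494 (leaf 493 5)) (move 653 (branch (move 622 (leaf 525 5)) (move 685 (leaf 557 6)))))) (branch (move 557 (branch (move 494 (leaf 493 6)) (move 653 (branch (move 558 (leaf 525 6)) (move 652 (branch (move 620 (leaf 524 5)) (move 684 (leaf 556 5)))))))) (move 619 (branch (move 618 (leaf 586 1)) (move 620 (branch (move 591 (leaf 587 1)) (move 652 (branch (move 557 (leaf 524 5)) (move 684 (branch (move 716 (leaf 588 6)) (move 683 (branch (move 715 (leaf 587 5)) (move 651 (branch (move 556 (leaf 555 5)) (move 650 (branch (move 622 (leaf 618 1)) (move 649 (leaf 617 2)))))))))))))))))))))))))))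
theorem a6p1024 : a6e1024.Valid :=
  pos_of_chk [a6e1017, a6e1018] (forall_cons a6p1017 (forall_cons a6p1018 forall_nil)) a6c1024 a6e1024 (by decide +kernel)

def a6e1025 : Pos := ⟨3545728635518426600620874429023931382662774259070879811436940866554653278778175093794561998417067783472755080315117192207851392078612666531876597103527139358256028043497273556992, 1480596632796311800709416949119082110781971320775990673581583733164621028139948982839700656904930353468734128972553570267869950685690592647626917947803219728864029611845770100499553859733783629040600945996059572537931918737408, 8⟩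
def a6c1025 : Cert := (move 557 (branch (move 558 (branch (move 586 (leaf 554 2)) (move 559 (branch (move 560 (leaf 556 1)) (move 590 (leaf 555 2)))))) (move 621 (branch (move 494 (leaf 493 6)) (move 653 (branch (move 652 (branch (move 620 (leaf 524 5)) (move 684 (leaf 556 5)))) (branch (move 686 (branch (move 654 (leaf 557 4)) (move 685 (branch (move 718 (leaf 589 4)) (move 716 (branch (move 684 (leaf 588 5)) (move 717 (branch (move 748 (leaf 620 5)) (move 556 (leaf 556 7)))))))))) (branch (move 620 (branch (move 652 (leaf 524 5)) (move 686 (branch (move 654 (leaf 557 4)) (move 685 (branch (move 718 (leaf 589 4)) (move 556 (leaf 556 7)))))))) (move 686 (branch (move 654 (leaf 557 4)) (move 685 (branch (move 718 (leaf 589 4)) (move 684 (branch (move 652 (leaf 556 5)) (move 716 (leaf 588 5))))))))))))))))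
theorem a6p1025 : a6e1025.Valid :=
  pos_of_chk [] forall_nil a6c1025 a6e1025 (by decide +kernel)

def a6e1026 : Pos := ⟨7597989933253771286585770161488263627618583473156157877981716753978961750010859644002799395203701959956852613271028164484056601063996708059539409452719957295650825058888179515392, 160526608360995310563233690567681636528767978227713810367435896721062465412434168577146820046989867640935354151458397168536139799808340041291518937158523851881143298143915393622590635381562257262767106949120, 14⟩
def a6c1026 : Cert := (move 586 (branch (move 617 (branch (move 618 (leaf 585 1)) (move 585 (branch (move 616 (leaf 584 1)) (move 553 (branch (move 552 (leaf 552 3)) (move 554 (leaf 553 3)))))))) (branch (move 558 (branch (move 559 (leaf 555 2)) (move 621 (branch (move 494 (leaf 493 5)) (move 653 (branch (move 685 (leaf 557 6)) (move 585 (branch (move 620 (leaf 585 0)) (move 617 (branch (move 616 (leaf 584 1)) (move 618 (leaf 585 1)))))))))))) (branch (move 558 (branch (move 559 (leaf 555 2)) (move 621 (branch (move 494 (leaf 493 5)) (move 653 (branch (move 685 (leaf 557 6)) (move 585 (branch (move 620 (leaf 585 0)) (move 553 (branch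 (move 552 (leaf 552 3)) (move 554 (leaf 553 3)))))))))))) (move 558 (branch (move 559 (leaf 555 2)) (move 494 (branch (move 621 (leaf 493 5)) (move 591 (branch (move 623 (leaf 494 4)) (move 463 (branch (move 495 (leaf 462 6)) (move 462 (branch (move 431 (leaf 430 6)) (move 461 (branch (move 429 (leaf 429 7)) (move 554 (branch (move 553 (leaf 553 3)) (move 618 (branch (move 617 (leaf 585 1)) (move 491 (branch (move 522 (leaf 490 6)) (move 460 (branch (move 492 (leaf 459 1)) (move 459 (branch (move 490 (leaf 458 1)) (move 427 (branch (move 426 (leaf 426 3)) (move 428 (leaf 427 3))))))))))))))))))))))))))))))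
theorem a6p1026 : a6e1026.Valid :=
  pos_of_chk [] forall_nil a6c1026 a6e1026 (by decide +kernel)

def a6e1027 : Pos := ⟨2532663311084590429136515293567978931138803856348641688018016329998719466379398419701688192403806895403853256716800903693777386143658137007998016004228651517719902817940662124544, 1480596632796311800709416949119082110905705227608038003176361454707029081327103322705917415695783467239487076529837640307849465843989959889038965737706469299179486753067658046764908441796343359627303136198381190647691891179520, 16⟩
def a6c1027 : Cert := (move 588 (branch (move 586 (branch (move 621 (branch (move 622 (leaf 586 0)) (move 557 (branch (move 558 (leaf 554 2)) (move 494 (leaf 493 6)))))) (move 617 (branch (move 618 (leaf 585 1)) (move 585 (branch (move 616 (leaf 584 1)) (move 553 (branch (move 552 (leaf 552 3)) (move 554 (leaf 553 3)))))))))) (branch (move 558 (branch (move 590 (branch (move 559 (leaf 555 2)) (move 622 (branch (move 623 (leaf 587 0)) (move 621 (branch (move 586 (leaf 586 0)) (move 653 (leaf 525 5)))))))) (branch (move 586 (branch (move 557 (leaf 554 2)) (move 621 (branch (move 622 (leaf 586 0)) (move 585 (branch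 (move 620 (leaf 585 0)) (move 617 (branch (move 616 (leaf 584 1)) (move 618 (leaf 585 1)))))))))) (move 559 (branch (move 590 (leaf 555 2)) (move 560 (branch (move 557 (leaf 556 1)) (move 561 (leaf 525 3))))))))) (branch (move 586 (branch (move 617 (branch (move 618 (leaf 585 1)) (move 585 (branch (move 616 (leaf 584 1)) (move 553 (branch (move 552 (leaf 552 3)) (move 554 (leaf 553 3)))))))) (move 558 (branch (move 557 (leaf 554 2)) (move 590 (branch (move 559 (leaf 555 2)) (move 623 (branch (move 622 (leaf 587 0)) (move 591 (branch (move 624 (leaf 588 0)) (move 494 (leaf 494 4)))))))))))) (branch (move 621 (branch (move 622 (branch (move 586 (leaf 586 0)) (move 623 (branch (move 590 (leaf 587 0)) (move 624 (leaf 588 3)))))) (move 557 (branch (move 494 (leaf 493 6)) (move 652 (branch (move 620 (leaf 524 5)) (move 653 (branch (move 684 (leaf 556 5)) (move 685 (branch (move 556 (leaf 556 7)) (move 686 (branch (move 654 (leaf 557 4)) (move 718 (leaf 589 4)))))))))))))) (branch (move 621 (branch (move 557 (branch (move 494 (leaf 493 6)) (move 620 (branch (move 652 (leaf 524 5)) (move 622 (branch (move 623 (leaf 587 3)) (move 654 (leaf 525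 4)))))))) (branch (move 557 (branch (move 494 (leaf 493 6)) (move 653 (branch (move 558 (leaf 525 6)) (move 654 (branch (move 622 (leaf 525 4)) (move 686 (leaf 557 4)))))))) (branch (move 557 (branch (move 494 (leaf 493 6)) (move 653 (branch (move 558 (leaf 525 6)) (move 652 (branch (move 620 (leaf 524 5)) (move 684 (leaf 556 5)))))))) (branch (move 557 (branch (move 653 (branch (move 558 (leaf 525 6)) (move 652 (branch (move 620 (leaf 524 5)) (move 684 (leaf 556 5)))))) (branch (move 653 (branch (move 558 (leaf 525 6)) (move 654 (branch (move 622 (leaf 525 4)) (move 686 (leaf 557 4)))))) (move 620 (branch (move 652 (leaf 524 5)) (move 622 (branch (move 623 (leaf 587 3)) (move 654 (leaf 525 4))))))))) (move 590 (branch (move 558 (branch (move 559 (leaf 555 2)) (move 494 (leaf 493 5)))) (branch (move 558 (branch (move 494 (leaf 493 5)) (move 653 (branch (move 622 (leaf 525 5)) (move 685 (leaf 557 6)))))) (move 623 (branch (move 622 (leaf 587 0)) (move 591 (branch (move 624 (leaf 588 0)) (move 592 (branch (move 620 (leaf 588 1)) (move 560 (branch (move 559 (leaf 556 2)) (move 561 (leaf 557 2)))))))))))))))))) (branch (ref 0) (move 590 (branch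 (move 558 (branch (move 559 (leaf 555 2)) (move 623 (branch (move 622 (leaf 587 0)) (move 591 (branch (move 624 (leaf 588 0)) (move 494 (leaf 494 4)))))))) (branch (move 558 (branch (move 559 (leaf 555 2)) (move 621 (branch (move 494 (leaf 493 5)) (move 653 (branch (move 622 (leaf 525 5)) (move 685 (leaf 557 6)))))))) (branch (move 622 (branch (move 623 (leaf 587 0)) (move 586 (branch (move 621 (leaf 586 0)) (move 553 (branch (move 554 (leaf 553 3)) (move 585 (branch (move 552 (leaf 552 3)) (move 617 (branch (move 616 (leaf 584 1)) (move 618 (leaf 585 1)))))))))))) (ref 1))))))))))))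
theorem a6p1027 : a6e1027.Valid :=
  pos_of_chk [a6e1025, a6e1026] (forall_cons a6p1025 (forall_cons a6p1026 forall_nil)) a6c1027 a6e1027 (by decide +kernel)

def a6e1028 : Pos := ⟨7597989933253771286585770161488263627618583473156157877981716753978961750010859644002799395203701959956852613271028164484056601063996708059539409452719957295650825058888179515392, 47318021512417936217556106623280466746955114986795998764144584684699577136702262574049303188545175843369865159953526278201785293183324824207375124850372976444792725554989995053285107564544, 14⟩
def a6c1028 : Cert := (move 558 (branch (move 559 (leaf 555 2)) (move 494 (branch (move 621 (leaf 493 5)) (move 591 (branch (move 623 (leaf 494 4)) (move 618 (branch (move 619 (leaf 586 1)) (move 586 (branch (move 617 (leaf 585 1)) (move 554 (branch (move 553 (leaf 553 3)) (move 463 (branch (move 495 (leaf 462 6)) (move 462 (branch (move 431 (leaf 430 6)) (move 461 (branch (move 429 (leaf 429 7)) (move 491 (branch (move 522 (leaf 490 6)) (move 460 (branch (move 492 (leaf 459 1)) (move 459 (branch (move 490 (leaf 458 1)) (move 427 (branch (move 426 (leaf 426 3)) (move 428 (leaf 427 3))))))))))))))))))))))))))))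
theorem a6p1028 : a6e1028.Valid :=
  pos_of_chk [] forall_nil a6c1028 a6e1028 (by decide +kernel)

def a6e1029 : Pos := ⟨3545728635518426600620874429023931382662774259070879811436940866554653278778175093794561998417067783472755080315117192207851392078612666531876597103527139358256028043497273556992, 5170923997862062655265647523865729459406694957040395990176029413091742618957811394107624440714151673669766668293564913756774857916646440294039087264338637880615623823896964345218997408349063811850336179051979903860736, 9⟩
def a6c1029 : Cert := (move 590 (branch (move 558 (branch (move 559 (leaf 555 2)) (move 621 (branch (move 494 (leaf 493 5)) (move 653 (branch (move 622 (leaf 525 5)) (move 685 (leaf 557 6)))))))) (branch (move 558 (branch (move 559 (leaf 555 2)) (move 494 (branch (move 621 (leaf 493 5)) (move 462 (branch (move 557 (leaf 461 5)) (move 463 (branch (move 431 (leaf 430 6)) (move 495 (leaf 462 6)))))))))) (branch (move 558 (branch (move 559 (leaf 555 2)) (move 622 (branch (move 623 (leaf 587 0)) (move 654 (branch (move 557 (leaf 525 7)) (move 685 (branch (move 653 (leaf 557 5)) (move 686 (branch (move 717 (leaf 589 5)) (move 687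 (branch (move 655 (leaf 558 4)) (move 719 (leaf 590 4)))))))))))))) (branch (move 591 (branch (move 623 (branch (move 622 (leaf 587 0)) (move 624 (leaf 588 0)))) (branch (move 560 (branch (move 559 (leaf 556 2)) (move 592 (branch (move 561 (leaf 557 2)) (move 624 (branch (move 623 (leaf 588 0)) (move 625 (leaf 589 0)))))))) (branch (move 560 (branch (move 559 (leaf 556 2)) (move 592 (branch (move 561 (leaf 557 2)) (move 625 (branch (move 624 (leaf 589 0)) (move 593 (branch (move 626 (leaf 590 0)) (move 557 (branch (move 556 (leaf 556 3)) (move 621 (branch (move 622 (leaf 589 1)) (move 494 (leaf 493 6)))))))))))))) (move 560 (branch (move 559 (leaf 556 2)) (move 592 (branch (move 561 (leaf 557 2)) (move 622 (branch (move 623 (leaf 587 0)) (move 557 (branch (move 556 (leaf 556 3)) (move 621 (branch (move 593 (leaf 589 1)) (move 654 (leaf 525 4)))))))))))))))) (move 621 (branch (move 622 (branch (move 623 (leaf 587 0)) (move 557 (branch (move 654 (leaf 525 4)) (move 494 (leaf 493 6)))))) (branch (move 557 (branch (move 494 (leaf 493 6)) (move 653 (branch (move 558 (leaf 525 6)) (move 684 (branch (move 652 (leaf 556 5)) (move 685 (branch (move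 716 (leaf 588 5)) (move 686 (branch (move 654 (leaf 557 4)) (move 718 (leaf 589 4)))))))))))) (move 622 (branch (move 623 (leaf 587 0)) (move 653 (branch (move 558 (leaf 525 5)) (move 685 (branch (move 717 (leaf 589 6)) (move 556 (leaf 556 7))))))))))))))))
theorem a6p1029 : a6e1029.Valid :=
  pos_of_chk [] forall_nil a6c1029 a6e1029 (by decide +kernel)

def a6e1030 : Pos := ⟨60915154120169385014511492233089521931176375485877837207897849321927883473321422015269069059794616314793579420118638708448068491076713687873399027324782370219734120789569577504310835544064, 2307937961281096224063109190255977131842420525653421833289708201272325855164820573515740852219564511867259958703059881948258028354419786090890579093768751330772387599917938139246986489304714523443200, 5⟩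
def a6c1030 : Cert := (move 624 (branch (move 593 (branch (move 592 (leaf 589 2)) (move 625 (branch (move 594 (leaf 590 2)) (move 657 (branch (move 656 (leaf 621 0)) (move 658 (leaf 622 0)))))))) (branch (move 592 (branch (move 593 (leaf 589 2)) (move 620 (branch (move 591 (leaf 588 2)) (move 652 (branch (move 651 (leaf 619 1)) (move 653 (leaf 620 1)))))))) (move 656 (branch (move 657 (leaf 621 0)) (move 620 (branch (move 655 (leaf 620 0)) (move 652 (branch (move 651 (leaf 619 1)) (move 653 (leaf 620 1)))))))))))
theorem a6p1030 : a6e1030.Valid :=
  pos_of_chk [] forall_nil a6c1030 a6e1030 (by decide +kernel)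

def a6e1031 : Pos := ⟨30457577060591225169472664202300670128636425188130867606908206509107942875538964524652711793862116146770215466198015385304515298905348439526959740140404719635515737602677999421515953602560, 2373345110009048903540917021524244028399814559456588122050771810071707737769631248530158082049816696042788433096541593214203135519006413694730995885905741721840375641349570513287787658071179872174080, 7⟩
def a6c1031 : Cert := (move 623 (branch (move 656 (branch (move 655 (leaf 620 0)) (move 624 (branch (move 657 (leaf 621 0)) (move 592 (branch (move 591 (leaf 588 2)) (move 593 (leaf 589 2)))))))) (branch (move 592 (branch (move 591 (leaf 588 2)) (move 624 (branch (move 593 (leaf 589 2)) (move 657 (branch (move 656 (leaf 621 0)) (move 625 (branch (move 658 (leaf 622 0)) (move 653 (branch (move 652 (leaf 620 1)) (move 654 (leaf 621 1)))))))))))) (branch (move 592 (branch (move 591 (leaf 588 2)) (move 624 (branch (move 593 (leaf 589 2)) (move 653 (branch (move 652 (leaf 620 1)) (move 654 (branch (move 625 (leaf 621 1)) (move 619 (branch (move 618 (leaf 618 0)) (move 655 (leaf 619 0)))))))))))) (move 655 (branch (move 656 (leaf 620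 0)) (move 619 (branch (move 654 (leaf 619 0)) (move 586 (leaf 586 3))))))))))
theorem a6p1031 : a6e1031.Valid :=
  pos_of_chk [] forall_nil a6c1031 a6e1031 (by decide +kernel)

def a6e1032 : Pos := ⟨149502054223510329489862774858034434327363203260553013234587847196619653951463548258779330861326750529734853653075474444245754018363514875209373401147462953159696167706673983770860110995924038189056, 35534319138849525903646755329328828093710264600462869020048539124386106270927171280435758237510534981854852876015235347972443196178050437492982708486046458694118462471277806221604516541691132218473888552874032619315613277356032, 6⟩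
def a6c1032 : Cert := (move 687 (branch (move 686 (branch (move 718 (leaf 590 5)) (move 654 (branch (move 559 (leaf 558 5)) (move 652 (branch (move 651 (leaf 619 1)) (move 688 (branch (move 653 (leaf 652 0)) (move 720 (leaf 591 4)))))))))) (branch (move 719 (branch (move 590 (leaf 590 7)) (move 720 (branch (move 688 (leaf 591 4)) (move 752 (leaf 623 4)))))) (move 686 (branch (move 718 (leaf 590 5)) (move 654 (branch (move 559 (leaf 558 5)) (move 719 (branch (move 590 (leaf 590 4)) (move 751 (leaf 622 7)))))))))))
theorem a6p1032 : a6e1032.Valid :=
  pos_of_chk [] forall_nil a6c1032 a6e1032 (by decide +kernel)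

def a6e1033 : Pos := ⟨30457577063123888480557254631080215943877612414090612621704615749827948569930232109743598113686156093637344246891495540706920565740306417478260872530472392263759123642144052768318632755200, 3179557058213940108111820765900244918215782329552787755907936973730220718788636889329808741917607373740243230978981552784885817497473794046647649513072272907813814747897644422613874664824819366749480471897819930953474241166833010868224, 9⟩
def a6c1033 : Cert := (move 652 (branch (move 684 (branch (move 716 (leaf 588 6)) (move 683 (branch (move 715 (leaf 587 5)) (move 651 (branch (move 556 (leaf 555 5)) (move 650 (branch (move 649 (leaf 617 2)) (move 653 (leaf 618 2)))))))))) (branch (move 685 (branch (move 684 (branch (move 717 (leaf 588 4)) (move 715 (branch (move 683 (leaf 587 5)) (move 716 (leaf 588 6)))))) (branch (move 653 (branch (move 556 (leaf 556 4)) (move 717 (leaf 588 7)))) (move 684 (branch (move 716 (leaf 588 6)) (branch (move 653 (branch (move 556 (leaf 556 4)) (move 683 (branch (move 715 (leaf 587 5)) (move 654 (branch (move 655 (leaf 651 1)) (move 682 (leaf 650 2)))))))) (move 653 (branch (move 556 (leaf 556 4))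 (move 716 (leaf 588 5)))))))))) (branch (move 684 (branch (move 716 (leaf 588 6)) (branch (move 716 (leaf 588 6)) (move 683 (branch (move 715 (leaf 587 5)) (move 685 (branch (move 717 (leaf 588 4)) (move 651 (branch (move 556 (leaf 555 5)) (move 650 (branch (move 649 (leaf 649 0)) (move 686 (leaf 650 3))))))))))))) (branch (move 684 (branch (move 716 (leaf 588 6)) (branch (move 716 (leaf 588 6)) (branch (move 717 (branch (move 685 (leaf 588 4)) (move 716 (branch (move 749 (leaf 620 4)) (move 748 (branch (move 653 (leaf 620 6)) (move 747 (branch (move 715 (leaf 619 5)) (move 779 (leaf 651 5)))))))))) (move 685 (branch (move 717 (leaf 588 4)) (move 653 (branch (move 556 (leaf 556 4)) (move 651 (branch (move 650 (leaf 618 2)) (move 686 (branch (move 687 (leaf 651 3)) (move 718 (leaf 589 4)))))))))))))) (branch (move 684 (branch (move 716 (leaf 588 6)) (branch (move 716 (leaf 588 6)) (branch (move 717 (branch (move 685 (leaf 588 4)) (move 716 (branch (move 749 (leaf 620 4)) (move 715 (branch (move 683 (leaf 587 5)) (move 747 (leaf 619 5)))))))) (move 653 (branch (move 683 (branch (move 715 (leaf 587 5)) (move 654 (branch (move 655 (leaf 651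 1)) (move 682 (branch (move 651 (leaf 650 1)) (move 681 (leaf 649 2)))))))) (branch (move 685 (branch (move 717 (leaf 588 4)) (move 683 (branch (move 715 (leaf 587 5)) (move 682 (branch (move 681 (leaf 649 2)) (move 650 (branch (move 649 (leaf 649 3)) (move 686 (branch (move 651 (leaf 650 0)) (move 718 (leaf 589 4)))))))))))) (branch (move 685 (branch (move 717 (leaf 588 4)) (move 683 (branch (move 715 (leaf 587 5)) (move 654 (branch (move 655 (leaf 651 1)) (move 682 (leaf 650 2)))))))) (move 685 (branch (move 717 (leaf 588 4)) (move 651 (branch (move 650 (leaf 618 2)) (move 686 (branch (move 687 (leaf 651 3)) (move 718 (leaf 589 4)))))))))))))))) (move 653 (branch (move 685 (branch (move 556 (leaf 556 4)) (move 717 (leaf 588 7)))) (branch (move 651 (branch (move 650 (leaf 618 2)) (move 683 (branch (move 556 (leaf 555 5)) (move 654 (branch (move 682 (leaf 650 1)) (move 686 (branch (move 687 (leaf 651 0)) (move 718 (leaf 589 7)))))))))) (move 685 (branch (move 717 (leaf 588 7)) (move 686 (branch (move 718 (leaf 589 4)) (move 651 (branch (move 650 (leaf 650 0)) (move 687 (branch (move 654 (leaf 651 0)) (move 688 (leaf 652 3)))))))))))))))))))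
theorem a6p1033 : a6e1033.Valid :=
  pos_of_chk [] forall_nil a6c1033 a6e1033 (by decide +kernel)

def a6e1034 : Pos := ⟨8702164876842575456014803604935191805409240866799436044496102000995417619151470730129324756937556563266211554996142828037843622703059933361786707722179439802491117580833135847418512801792, 3179557093748259245582433601524130908284621796481366444567543417447128944195391484155430290646619481111229564590867854182829233059009027726353859892320375237467897860676407878817643432091427594518205295564679796429303382763018024648704, 12⟩
def a6c1034 : Cert := (move 622 (branch (move 588 (branch (move 586 (leaf 586 0)) (move 623 (branch (move 590 (leaf 587 0)) (move 624 (leaf 588 3)))))) (branch (move 623 (branch (move 624 (branch (move 588 (leaf 588 3)) (move 625 (branch (move 590 (leaf 589 3)) (move 657 (branch (move 656 (leaf 621 0)) (move 658 (leaf 622 0)))))))) (branch (move 620 (branch (move 588 (leaf 587 3)) (move 591 (branch (move 592 (leaf 588 2)) (move 619 (branch (move 590 (leaf 587 2)) (move 651 (branch (move 650 (leaf 618 1)) (move 652 (leaf 619 1)))))))))) (ref 0)))) (branch (move 620 (branch (move 619 (branch (move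 586 (leaf 586 3)) (move 654 (branch (move 655 (leaf 619 0)) (move 618 (branch (move 653 (leaf 618 0)) (move 650 (branch (move 649 (leaf 617 1)) (move 651 (leaf 618 1)))))))))) (branch (move 623 (branch (move 588 (leaf 587 3)) (move 652 (branch (move 651 (leaf 619 1)) (move 624 (branch (move 653 (leaf 620 1)) (move 592 (branch (move 591 (leaf 588 2)) (move 593 (leaf 589 2)))))))))) (branch (move 619 (branch (move 586 (leaf 586 3)) (move 651 (branch (move 650 (leaf 618 1)) (move 623 (branch (move 652 (leaf 619 1)) (move 592 (branch (move 591 (leaf 588 2)) (move 624 (branch (move 593 (leaf 589 2)) (move 656 (branch (move 655 (leaf 620 0)) (move 657 (leaf 621 0)))))))))))))) (ref 1))))) (branch (move 620 (branch (move 619 (branch (move 586 (leaf 586 3)) (move 654 (branch (move 655 (leaf 619 0)) (move 618 (branch (move 653 (leaf 618 0)) (move 650 (branch (move 649 (leaf 617 1)) (move 651 (leaf 618 1)))))))))) (branch (move 619 (branch (move 586 (leaf 586 3)) (move 651 (branch (move 650 (leaf 618 1)) (move 623 (branch (move 652 (leaf 619 1)) (move 591 (branch (move 590 (leaf 587 2)) (move 592 (leaf 588 2)))))))))) (branch (move 619 (branch (move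 586 (leaf 586 3)) (move 654 (branch (move 655 (leaf 619 0)) (move 653 (branch (move 618 (leaf 618 0)) (move 591 (branch (move 590 (leaf 587 2)) (move 623 (branch (move 592 (leaf 588 2)) (move 624 (branch (move 652 (leaf 620 1)) (move 625 (leaf 621 1)))))))))))))) (move 623 (branch (move 656 (branch (move 655 (leaf 620 0)) (move 624 (branch (move 657 (leaf 621 0)) (move 592 (branch (move 591 (leaf 588 2)) (move 593 (leaf 589 2)))))))) (branch (move 652 (branch (move 651 (leaf 619 1)) (move 624 (branch (move 653 (leaf 620 1)) (move 592 (branch (move 591 (leaf 588 2)) (move 593 (leaf 589 2)))))))) (branch (move 652 (branch (move 651 (leaf 619 1)) (move 624 (branch (move 653 (leaf 620 1)) (move 656 (branch (move 655 (leaf 620 0)) (move 657 (leaf 621 0)))))))) (move 591 (branch (move 592 (leaf 588 2)) (move 655 (branch (move 656 (leaf 620 0)) (ref 2))))))))))))) (move 620 (branch (move 586 (branch (move 619 (leaf 586 3)) (move 588 (leaf 586 0)))) (branch (move 619 (branch (move 590 (branch (move 618 (leaf 586 2)) (move 591 (leaf 587 2)))) (branch (move 650 (branch (move 651 (leaf 618 1)) (move 618 (branch (move 649 (leaf 617 1)) (move 654 (branch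 (move 653 (leaf 618 0)) (move 655 (leaf 619 0)))))))) (move 654 (branch (move 655 (leaf 619 0)) (move 590 (branch (move 591 (leaf 587 2)) (move 686 (branch (move 718 (leaf 589 7)) (move 685 (branch (move 717 (leaf 589 5)) (move 687 (branch (move 719 (leaf 590 4)) (move 651 (branch (move 650 (leaf 618 1)) (move 652 (branch (move 653 (leaf 651 0)) (move 684 (leaf 651 3))))))))))))))))))) (move 588 (branch (move 586 (leaf 586 0)) (ref 3)))))))))))
theorem a6p1034 : a6e1034.Valid :=
  pos_of_chk [a6e1030, a6e1031, a6e1032, a6e1033] (forall_cons a6p1030 (forall_cons a6p1031 (forall_cons a6p1032 (forall_cons a6p1033 forall_nil)))) a6c1034 a6e1034 (by decide +kernel)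

def a6e1035 : Pos := ⟨2532663311084590429109056102927456492278876253152316115148938588798146244741820565864946019670216271195363018154155085473868200898092213575849528052229784942469606704776201895936, 3179557093748259245582433601524130908285789781288723776722659788780979659859490683123063909075058817819061004526084887481212218468691558025751801758647543443204054656278148281139114022427218917588255359459661691887145623986062112063488, 13⟩
def a6c1035 : Cert := (move 621 (branch (move 557 (branch (move 494 (leaf 493 6)) (move 622 (branch (move 654 (leaf 525 4)) (move 588 (branch (move 586 (leaf 586 0)) (move 623 (branch (move 590 (leaf 587 0)) (move 624 (leaf 588 3)))))))))) (branch (move 557 (branch (move 494 (leaf 493 6)) (move 652 (branch (move 620 (leaf 524 5)) (move 653 (branch (move 684 (leaf 556 5)) (move 654 (branch (move 622 (leaf 525 4)) (move 686 (leaf 557 4)))))))))) (branch (move 557 (branch (move 494 (leaf 493 6)) (move 653 (branch (move 652 (branch (move 620 (leaf 524 5)) (move 684 (leaf 556 5)))) (branch (move 686 (branch (move 654 (leaf 557 4)) (move 685 (branch (move 718 (leaf 589 4)) (move 716 (branch (move 684 (leaf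 588 5)) (move 717 (branch (move 748 (leaf 620 5)) (move 588 (branch (move 556 (leaf 556 7)) (move 620 (leaf 588 7)))))))))))) (branch (move 620 (branch (move 652 (leaf 524 5)) (move 686 (branch (move 654 (leaf 557 4)) (move 685 (branch (move 718 (leaf 589 4)) (move 588 (branch (move 556 (leaf 556 7)) (move 717 (leaf 588 7)))))))))) (move 686 (branch (move 654 (leaf 557 4)) (move 685 (branch (move 718 (leaf 589 4)) (move 684 (branch (move 652 (leaf 556 5)) (move 716 (leaf 588 5)))))))))))))) (branch (move 557 (branch (move 494 (leaf 493 6)) (move 620 (branch (move 652 (leaf 524 5)) (move 619 (branch (move 590 (branch (move 618 (leaf 586 2)) (move 591 (branch (move 592 (leaf 588 1)) (move 622 (leaf 587 2)))))) (branch (move 618 (branch (move 590 (leaf 586 2)) (move 617 (branch (move 588 (leaf 585 2)) (move 649 (branch (move 648 (leaf 616 1)) (move 650 (leaf 617 1)))))))) (move 586 (branch (move 622 (leaf 586 3)) (move 585 (branch (move 584 (leaf 584 0)) (move 588 (leaf 585 0))))))))))))) (ref 0))))))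
theorem a6p1035 : a6e1035.Valid :=
  pos_of_chk [a6e1034] (forall_cons a6p1034 forall_nil) a6c1035 a6e1035 (by decide +kernel)

def a6e1036 : Pos := ⟨60915154120169385014511492233089521931176375485877837207897849321927883473321422015269069059794616314793579420118638708448068491076713687873399027324782370219734120789569577504310835544064, 50872912884043949535463677244261889351525607557426601659085014132140663304250938093886927940187693455317178953896611886229079631340197866813012864059707315029298751193916228953686090006903466981512828866185529425169805505598579632242688, 9⟩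
def a6c1036 : Cert := (move 624 (branch (move 593 (branch (move 592 (leaf 589 2)) (move 625 (branch (move 594 (leaf 590 2)) (move 657 (branch (move 656 (leaf 621 0)) (move 658 (leaf 622 0)))))))) (branch (move 653 (branch (move 652 (leaf 620 1)) (move 625 (branch (move 654 (leaf 621 1)) (move 593 (branch (move 592 (leaf 589 2)) (move 594 (leaf 590 2)))))))) (branch (move 653 (branch (move 652 (leaf 620 1)) (move 625 (branch (move 654 (leaf 621 1)) (move 657 (branch (move 656 (leaf 621 0)) (move 658 (leaf 622 0)))))))) (move 656 (branch (move 657 (leaf 621 0)) (move 688 (branch (move 592 (branch (move 593 (leaf 589 2)) (move 591 (branch (move 559 (leaf 559 7)) (move 720 (leaf 591 7)))))) (branch (move 720 (branch (move 591 (leaf 591 7)) (move 752 (branch (move 655 (leaf 623 7)) (move 751 (branch (move 719 (leaf 623 5)) (move 783 (leaf 655 5)))))))) (move 592 (branch (move 593 (leaf 589 2)) (move 687 (branch (move 719 (leaf 591 5)) (move 655 (branch (move 560 (leaf 559 5)) (move 653 (branch (move 652 (leaf 620 1)) (move 689 (branch (move 654 (leaf 653 0)) (move 721 (leaf 592 4)))))))))))))))))))))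
theorem a6p1036 : a6e1036.Valid :=
  pos_of_chk [] forall_nil a6c1036 a6e1036 (by decide +kernel)

def a6e1037 : Pos := ⟨26106494624955867083658311871490574622697110703286869100936205673402240329793623503188024367199781806690951347462772142228239281072272248592497631908389439625337903455674090179289644269568, 50872912884043949536842590310358439400045143621281939387457586672616852096012363855410500988109740219303024260946816966459322167506847502894832597039618208970069685579418589419175603878187266645158066414043904954967772674648847075508224, 10⟩
def a6c1037 : Cert := (move 623 (branch (ref 0) (branch (move 620 (branch (move 656 (branch (move 655 (leaf 620 0)) (move 624 (branch (move 657 (leaf 621 0)) (move 592 (branch (move 591 (leaf 588 2)) (move 593 (leaf 589 2)))))))) (branch (move 655 (branch (move 656 (leaf 620 0)) (move 619 (branch (move 654 (leaf 619 0)) (move 651 (branch (move 650 (leaf 618 1)) (move 652 (leaf 619 1)))))))) (move 591 (branch (move 592 (leaf 588 2)) (move 619 (branch (move 590 (leaf 587 2)) (move 651 (branch (move 650 (leaf 618 1)) (move 652 (leaf 619 1))))))))))) (branch (move 624 (branch (move 593 (branch (move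 592 (leaf 589 2)) (move 625 (branch (move 594 (leaf 590 2)) (move 657 (branch (move 656 (leaf 621 0)) (move 658 (leaf 622 0)))))))) (branch (move 656 (branch (move 657 (leaf 621 0)) (move 592 (branch (move 593 (leaf 589 2)) (move 620 (branch (move 655 (leaf 620 0)) (move 591 (leaf 588 2)))))))) (branch (move 593 (branch (move 592 (leaf 589 2)) (move 625 (branch (move 594 (leaf 590 2)) (move 658 (branch (move 657 (leaf 622 0)) (move 626 (branch (move 659 (leaf 623 0)) (move 654 (branch (move 653 (leaf 621 1)) (move 655 (leaf 622 1)))))))))))) (branch (move 657 (branch (move 656 (leaf 621 0)) (move 625 (branch (move 658 (leaf 622 0)) (move 654 (branch (move 653 (leaf 621 1)) (move 626 (branch (move 655 (leaf 622 1)) (move 594 (branch (move 593 (leaf 590 2)) (move 595 (leaf 591 2)))))))))))) (branch (move 657 (branch (move 656 (leaf 621 0)) (move 625 (branch (move 658 (leaf 622 0)) (move 654 (branch (move 653 (leaf 621 1)) (move 655 (branch (move 626 (leaf 622 1)) (move 620 (branch (move 619 (leaf 619 0)) (move 591 (branch (move 592 (leaf 588 2)) (move 686 (branch (move 559 (leaf 558 5)) (move 718 (leaf 590 6)))))))))))))))) (move 592 (branch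 (move 593 (leaf 589 2)) (move 620 (branch (move 591 (leaf 588 2)) (move 655 (branch (move 656 (leaf 620 0)) (move 654 (branch (move 619 (leaf 619 0)) (move 625 (branch (move 653 (leaf 621 1)) (move 626 (leaf 622 1)))))))))))))))))) (branch (move 624 (branch (move 656 (branch (move 657 (leaf 621 0)) (move 620 (branch (move 655 (leaf 620 0)) (move 652 (branch (move 651 (leaf 619 1)) (move 653 (leaf 620 1)))))))) (branch (move 653 (branch (move 652 (leaf 620 1)) (move 625 (branch (move 654 (leaf 621 1)) (move 658 (branch (move 657 (leaf 622 0)) (move 626 (branch (move 659 (leaf 623 0)) (move 594 (branch (move 593 (leaf 590 2)) (move 595 (leaf 591 2)))))))))))) (branch (move 625 (branch (move 657 (branch (move 656 (leaf 621 0)) (move 658 (leaf 622 0)))) (branch (move 594 (branch (move 593 (leaf 590 2)) (move 626 (branch (move 595 (leaf 591 2)) (move 658 (branch (move 657 (leaf 622 0)) (move 659 (leaf 623 0)))))))) (branch (move 594 (branch (move 593 (leaf 590 2)) (move 626 (branch (move 595 (leaf 591 2)) (move 655 (branch (move 654 (leaf 622 1)) (move 627 (branch (move 656 (leaf 623 1)) (move 659 (branch (move 658 (leaf 623 0)) (move 660 (leaf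 624 0)))))))))))) (move 656 (branch (move 657 (leaf 621 0)) (move 655 (branch (move 620 (leaf 620 0)) (move 626 (branch (move 654 (leaf 622 1)) (move 627 (leaf 623 1)))))))))))) (move 620 (branch (move 652 (branch (move 651 (leaf 619 1)) (move 653 (leaf 620 1)))) (branch (move 655 (branch (move 656 (leaf 620 0)) (move 619 (branch (move 654 (leaf 619 0)) (move 651 (branch (move 650 (leaf 618 1)) (move 652 (leaf 619 1)))))))) (move 655 (branch (move 656 (leaf 620 0)) (move 654 (branch (move 619 (leaf 619 0)) (move 625 (branch (move 653 (leaf 621 1)) (move 626 (leaf 622 1))))))))))))))) (branch (move 620 (branch (move 655 (branch (move 656 (leaf 620 0)) (move 619 (branch (move 654 (leaf 619 0)) (move 651 (branch (move 650 (leaf 618 1)) (move 652 (leaf 619 1)))))))) (branch (move 591 (branch (move 592 (leaf 588 2)) (move 619 (branch (move 590 (leaf 587 2)) (move 651 (branch (move 650 (leaf 618 1)) (move 652 (leaf 619 1)))))))) (branch (move 655 (branch (move 656 (leaf 620 0)) (move 591 (branch (move 592 (leaf 588 2)) (move 654 (branch (move 619 (leaf 619 0)) (move 686 (branch (move 559 (leaf 558 5)) (move 718 (leaf 590 6)))))))))) (move 591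 (branch (move 592 (leaf 588 2)) (move 655 (branch (move 656 (leaf 620 0)) (ref 1))))))))) (branch (ref 2) (move 624 (branch (move 592 (branch (move 593 (leaf 589 2)) (move 620 (branch (move 591 (leaf 588 2)) (move 652 (branch (move 651 (leaf 619 1)) (move 653 (leaf 620 1)))))))) (branch (move 653 (branch (move 652 (leaf 620 1)) (move 625 (branch (move 654 (leaf 621 1)) (move 658 (branch (move 657 (leaf 622 0)) (move 626 (branch (move 659 (leaf 623 0)) (move 594 (branch (move 593 (leaf 590 2)) (move 595 (leaf 591 2)))))))))))) (branch (move 653 (branch (move 652 (leaf 620 1)) (move 625 (branch (move 654 (leaf 621 1)) (move 658 (branch (move 657 (leaf 622 0)) (move 626 (branch (move 659 (leaf 623 0)) (move 595 (branch (move 594 (leaf 591 2)) (move 627 (branch (move 596 (leaf 592 2)) (move 591 (branch (move 590 (leaf 589 3)) (move 592 (leaf 591 3)))))))))))))))) (move 625 (branch (move 593 (branch (move 592 (leaf 589 2)) (move 594 (leaf 590 2)))) (branch (move 594 (branch (move 593 (leaf 590 2)) (move 626 (branch (move 595 (leaf 591 2)) (move 658 (branch (move 657 (leaf 622 0)) (move 659 (leaf 623 0)))))))) (move 658 (branch (move 657 (leaf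 622 0)) (move 626 (branch (move 659 (leaf 623 0)) (move 591 (branch (move 590 (leaf 589 3)) (move 592 (branch (move 620 (leaf 588 2)) (move 627 (leaf 591 3))))))))))))))))))))))))
theorem a6p1037 : a6e1037.Valid :=
  pos_of_chk [a6e1030, a6e1032, a6e1036] (forall_cons a6p1030 (forall_cons a6p1032 (forall_cons a6p1036 forall_nil))) a6c1037 a6e1037 (by decide +kernel)

def a6e1038 : Pos := ⟨2532663311084590429109056102927456492278876253152316115148938588798146244741820565864946019670216271195363018154155085473868200898092213575849528052229784942469606704776201895936, 54052469942257889643575498008235814976753734572244361863798907202686822828535989973664155543485048493255244478024632865631670688498162472872703960827751577772591942986411195851231886017176076239416600153455485369817262986881972431749120, 14⟩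
def a6c1038 : Cert := (move 621 (branch (move 557 (branch (move 494 (leaf 493 6)) (move 653 (branch (move 558 (leaf 525 6)) (move 652 (branch (move 620 (leaf 524 5)) (move 684 (leaf 556 5)))))))) (branch (move 557 (branch (move 494 (leaf 493 6)) (move 622 (branch (move 654 (leaf 525 4)) (move 588 (branch (move 586 (leaf 586 0)) (move 623 (branch (move 590 (leaf 587 0)) (move 624 (leaf 588 3)))))))))) (branch (move 557 (branch (move 653 (branch (move 558 (leaf 525 6)) (move 652 (branch (move 620 (leaf 524 5)) (move 684 (leaf 556 5)))))) (branch (move 653 (branch (move 558 (leaf 525 6)) (move 654 (branch (move 622 (leaf 525 4)) (move 686 (leaf 557 4)))))) (move 622 (branch (move 654 (leaf 525 4)) (move 588 (branch (move 586 (leaf 586 0)) (move 620 (branch (move 623 (leaf 587 3)) (move 652 (leaf 524 5))))))))))) (move 622 (branch (move 588 (branch (move 586 (leaf 586 0)) (move 623 (branch (move 590 (leaf 587 0)) (move 624 (leaf 588 3)))))) (branch (ref 0) (branch (move 623 (branch (move 588 (branch (move 620 (leaf 587 3)) (move 586 (leaf 586 0)))) (branch (ref 1) (move 620 (branch (move 588 (leaf 587 3)) (move 655 (branch (move 656 (leaf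 620 0)) (move 591 (branch (move 592 (leaf 588 2)) (move 559 (branch (move 558 (leaf 526 7)) (move 686 (branch (move 654 (leaf 558 5)) (move 687 (branch (move 718 (leaf 590 5)) (move 652 (branch (move 651 (leaf 619 1)) (move 688 (branch (move 720 (leaf 591 4)) (move 685 (branch (move 653 (leaf 652 3)) (move 716 (branch (move 717 (leaf 684 1)) (move 684 (leaf 588 6))))))))))))))))))))))))) (move 588 (branch (move 586 (leaf 586 0)) (move 620 (branch (move 590 (branch (move 591 (branch (move 619 (leaf 587 1)) (move 592 (leaf 588 1)))) (move 558 (branch (move 559 (leaf 555 2)) (move 494 (leaf 493 5)))))) (ref 2)))))))))))))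
theorem a6p1038 : a6e1038.Valid :=
  pos_of_chk [a6e1037, a6e1036, a6e1033] (forall_cons a6p1037 (forall_cons a6p1036 (forall_cons a6p1033 forall_nil))) a6c1038 a6e1038 (by decide +kernel)

def a6e1039 : Pos := ⟨160526608360995310522170350060573447148679163105657914391437767135507817911628400770917947781579107210340258860072247021900000536884737446037550051541651870319390801009837860584250063298984733797981133733888, 21028424255444094050330637276729436076825057147048075372674495304266646295674641709418789724014849025858451842847377121328344068862370736182425884810183516686692138503946522778367418267527681386549888223734000198352896, 7⟩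
def a6c1039 : Cert := (move 684 (branch (move 716 (leaf 588 5)) (move 686 (branch (move 718 (leaf 589 4)) (move 687 (branch (move 720 (branch (move 719 (leaf 684 0)) (move 688 (branch (move 721 (leaf 685 0)) (move 656 (branch (move 655 (leaf 652 2)) (move 657 (leaf 653 2)))))))) (branch (move 655 (branch (move 656 (leaf 652 2)) (move 683 (branch (move 654 (leaf 651 2)) (move 651 (branch (move 650 (leaf 650 3)) (move 652 (leaf 651 3)))))))) (move 652 (branch (move 651 (leaf 651 3)) (move 688 (leaf 652 3)))))))))))
theorem a6p1039 : a6e1039.Valid :=
  pos_of_chk [] forall_nil a6c1039 a6e1039 (by decide +kernel)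

end Crest.Agent.SN
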