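import Crest.Agent.Lib_SN_A6x8

set_option autoImplicit false
set_option linter.all false
set_option maxRecDepth 1000000

namespace Crest.Agent.SN
open Cert

def a6e1040 : Pos := ⟨37375513548263188108964118574345426309972338062885918708488079157045527867056905047164415514477585791853810342039948451962696759276313317518728926073471539308366849226147762467698462569023762595840, 1589778546874129622866626112738774928148581538596167587668835935459507845136449225388423601027371578275875319448512011069885834645913600433269277224027394814461529388793332867172030770202383047335784138887363135719515131314284464701440, 12⟩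
def a6c1040 : Cert := (move 651 (branch (move 619 (branch (move 683 (branch (move 556 (leaf 555 6)) (move 716 (branch (move 684 (leaf 587 4)) (move 715 (branch (move 748 (leaf 619 4)) (move 714 (branch (move 682 (leaf 586 5)) (move 746 (leaf 618 5)))))))))) (move 618 (branch (move 652 (branch (move 654 (leaf 618 3)) (move 617 (branch (move 616 (leaf 616 0)) (move 650 (leaf 617 3)))))) (branch (move 654 (branch (move 620 (leaf 618 0)) (move 652 (leaf 618 3)))) (move 617 (branch (move 616 (leaf 584 2)) (move 620 (leaf 585 2))))))))) (branch (move 619 (branch (move 683 (branch (move 556 (leaf 555 6)) (move 716 (branch (move 684 (leaf 587 4)) (move 715 (branch (move 748 (leaf 619 4)) (move 714 (branch (move 682 (leaf 586 5)) (move 746 (leaf 618 5)))))))))) (move 620 (branch (move 622 (branch (move 650 (leaf 618 1)) (move 623 (leaf 587 3)))) (move 618 (branch (move 654 (leaf 618 0)) (move 617 (leaf 585 2)))))))) (branch (move 622 (branch (move 623 (branch (move 620 (leaf 587 3)) (move 624 (leaf 588 3)))) (branch (move 652 (branch (move 650 (leaf 618 2)) (move 623 (branch (move 624 (leaf 620 1)) (move 654 (leaf 619 2)))))) (move 652 (branch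 (move 650 (leaf 618 2)) (move 654 (branch (move 686 (branch (move 687 (leaf 651 0)) (move 718 (leaf 589 7)))) (move 683 (branch (move 682 (leaf 650 1)) (move 620 (branch (move 556 (leaf 555 5)) (move 684 (branch (move 655 (leaf 651 1)) (move 715 (leaf 587 5))))))))))))))) (branch (move 622 (branch (move 623 (branch (move 620 (leaf 587 3)) (move 624 (leaf 588 3)))) (branch (move 652 (branch (move 650 (leaf 618 2)) (move 623 (branch (move 624 (leaf 620 1)) (move 654 (leaf 619 2)))))) (move 650 (branch (move 652 (leaf 618 2)) (move 619 (branch (move 620 (leaf 618 1)) (move 683 (branch (move 556 (leaf 555 6)) (move 716 (branch (move 684 (leaf 587 4)) (move 715 (branch (move 748 (leaf 619 4)) (move 747 (branch (move 618 (leaf 618 7)) (move 746 (branch (move 714 (leaf 618 5)) (move 778 (leaf 650 5))))))))))))))))))) (branch (move 652 (branch (move 622 (branch (move 650 (leaf 618 2)) (move 623 (branch (move 624 (leaf 620 1)) (move 654 (leaf 619 2)))))) (branch (move 650 (branch (move 622 (leaf 618 2)) (move 649 (branch (move 620 (leaf 617 2)) (move 681 (branch (move 680 (leaf 648 1)) (move 682 (leaf 649 1)))))))) (branch (move 654 (branch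 (move 622 (branch (move 623 (leaf 619 2)) (move 686 (branch (move 687 (leaf 651 0)) (move 718 (leaf 589 7)))))) (branch (move 619 (branch (move 618 (leaf 618 3)) (move 655 (branch (move 620 (leaf 619 3)) (move 687 (branch (move 686 (leaf 651 0)) (move 688 (leaf 652 0)))))))) (move 623 (branch (move 622 (leaf 619 2)) (move 655 (branch (move 624 (leaf 620 2)) (move 620 (branch (move 619 (leaf 619 3)) (move 656 (leaf 620 3))))))))))) (move 650 (branch (move 649 (branch (move 620 (leaf 617 2)) (move 681 (branch (move 680 (leaf 648 1)) (move 682 (leaf 649 1)))))) (branch (move 681 (branch (move 682 (leaf 649 1)) (move 649 (branch (move 680 (leaf 648 1)) (move 617 (branch (move 616 (leaf 616 3)) (move 618 (leaf 617 3)))))))) (move 618 (branch (move 617 (leaf 617 3)) (move 654 (branch (move 619 (leaf 618 3)) (move 687 (branch (move 686 (leaf 651 0)) (move 655 (branch (move 688 (leaf 652 0)) (move 656 (branch (move 620 (leaf 620 3)) (move 624 (branch (move 623 (leaf 620 2)) (move 625 (leaf 621 2))))))))))))))))))))) (branch (move 683 (branch (move 619 (branch (move 556 (leaf 555 6)) (move 715 (branch (move 620 (leaf 587 6)) (move 714 (branch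 (move 682 (leaf 586 5)) (move 746 (leaf 618 5)))))))) (branch (move 619 (branch (move 556 (leaf 555 6)) (move 715 (branch (move 620 (leaf 587 6)) (move 716 (branch (move 684 (leaf 587 4)) (move 748 (leaf 619 4)))))))) (branch (move 619 (branch (move 715 (branch (move 620 (leaf 587 6)) (move 714 (branch (move 682 (leaf 586 5)) (move 746 (leaf 618 5)))))) (branch (move 715 (branch (move 620 (leaf 587 6)) (move 716 (branch (move 684 (leaf 587 4)) (move 748 (leaf 619 4)))))) (move 684 (branch (move 716 (leaf 587 4)) (move 682 (branch (move 714 (leaf 586 5)) (move 681 (branch (move 652 (leaf 649 2)) (move 648 (branch (move 649 (leaf 648 3)) (move 680 (branch (move 647 (leaf 647 3)) (move 712 (branch (move 711 (leaf 679 1)) (move 713 (leaf 680 1))))))))))))))))) (branch (move 619 (branch (move 556 (leaf 555 6)) (move 684 (branch (move 716 (leaf 587 4)) (move 682 (branch (move 714 (leaf 586 5)) (move 681 (branch (move 652 (leaf 649 2)) (move 648 (branch (move 649 (leaf 648 3)) (move 680 (branch (move 647 (leaf 647 3)) (move 712 (branch (move 711 (leaf 679 1)) (move 713 (leaf 680 1)))))))))))))))) (move 652 (branch (move 650 (branch (move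 622 (leaf 618 2)) (move 617 (branch (move 618 (leaf 617 3)) (move 649 (branch (move 616 (leaf 616 3)) (move 681 (branch (move 680 (leaf 648 1)) (move 682 (leaf 649 1)))))))))) (move 620 (branch (move 556 (leaf 555 5)) (move 684 (branch (move 715 (leaf 587 5)) (move 716 (leaf 588 6))))))))))))) (branch (move 619 (branch (move 683 (branch (move 556 (leaf 555 6)) (move 716 (branch (move 684 (leaf 587 4)) (move 715 (branch (move 748 (leaf 619 4)) (move 714 (branch (move 682 (leaf 586 5)) (move 746 (leaf 618 5)))))))))) (move 654 (branch (move 652 (branch (move 618 (leaf 618 3)) (move 622 (branch (move 623 (leaf 619 2)) (move 686 (branch (move 687 (leaf 651 0)) (move 718 (leaf 589 7)))))))) (branch (move 620 (branch (move 618 (leaf 618 0)) (move 622 (branch (move 655 (leaf 619 0)) (move 623 (leaf 587 3)))))) (branch (move 618 (branch (move 620 (leaf 618 0)) (move 652 (leaf 618 3)))) (move 622 (branch (move 623 (branch (move 620 (leaf 587 3)) (move 624 (leaf 588 3)))) (branch (move 652 (branch (move 623 (leaf 619 2)) (move 686 (branch (move 687 (leaf 651 0)) (move 718 (leaf 589 7)))))) (move 655 (branch (move 620 (leaf 619 0)) (move 686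 (branch (move 718 (leaf 589 7)) (move 687 (branch (move 652 (leaf 651 0)) (move 656 (branch (move 657 (leaf 621 3)) (move 688 (branch (move 689 (leaf 653 0)) (move 719 (branch (move 751 (leaf 622 7)) (move 624 (branch (move 625 (leaf 621 2)) (move 592 (leaf 591 5))))))))))))))))))))))))) (move 619 (branch (move 683 (branch (move 556 (leaf 555 6)) (move 716 (branch (move 684 (leaf 587 4)) (move 715 (branch (move 748 (leaf 619 4)) (move 714 (branch (move 682 (leaf 586 5)) (move 746 (leaf 618 5)))))))))) (branch (move 652 (branch (move 622 (branch (move 650 (leaf 618 2)) (move 623 (branch (move 624 (leaf 620 1)) (move 654 (leaf 619 2)))))) (branch (move 650 (branch (move 622 (leaf 618 2)) (move 617 (branch (move 618 (leaf 617 3)) (move 649 (branch (move 616 (leaf 616 3)) (move 681 (branch (move 680 (leaf 648 1)) (move 682 (leaf 649 1)))))))))) (branch (move 654 (branch (move 618 (leaf 618 3)) (move 622 (branch (move 623 (leaf 619 2)) (move 686 (branch (move 687 (leaf 651 0)) (move 718 (leaf 589 7)))))))) (move 618 (branch (move 654 (leaf 618 3)) (move 617 (branch (move 616 (leaf 616 0)) (move 650 (leaf 617 3)))))))))) (move 683 (branch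 (move 556 (leaf 555 6)) (move 716 (branch (move 684 (leaf 587 4)) (move 715 (branch (move 748 (leaf 619 4)) (move 746 (branch (move 714 (leaf 618 5)) (move 747 (branch (move 778 (leaf 650 5)) (move 618 (branch (move 650 (leaf 618 7)) (move 654 (branch (move 652 (leaf 618 3)) (move 718 (branch (move 717 (leaf 714 1)) (move 686 (branch (move 622 (leaf 589 7)) (move 750 (leaf 621 7)))))))))))))))))))))))))))))))
theorem a6p1040 : a6e1040.Valid :=
  pos_of_chk [] forall_nil a6c1040 a6e1040 (by decide +kernel)

def a6e1041 : Pos := ⟨7597989933253771286338637445723561677879235044389227722160017083173802755272658959472119840601386342080440466207215800504873933853903397170203017884730158118398160040408037457920, 17268358422901947992138889381523994550757294216158115242135709002918283577677911834348897665306751846542907444519781875131330935001629912793138113641395636744887036552119476455293551902720, 7⟩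
def a6c1041 : Cert := (move 586 (branch (move 618 (branch (move 617 (leaf 585 1)) (move 619 (leaf 586 1)))) (branch (move 617 (branch (move 618 (leaf 585 1)) (move 585 (branch (move 616 (leaf 584 1)) (move 553 (branch (move 552 (leaf 552 3)) (move 554 (leaf 553 3)))))))) (branch (move 553 (branch (move 554 (leaf 553 3)) (move 585 (branch (move 552 (leaf 552 3)) (move 620 (branch (move 621 (leaf 585 0)) (move 619 (branch (move 584 (leaf 584 0)) (move 618 (leaf 586 1)))))))))) (move 553 (branch (move 554 (leaf 553 3)) (move 585 (branch (move 552 (leaf 552 3)) (move 616 (branch (move 617 (leaf 584 1)) (move 584 (branch (move 615 (leaf 583 1)) (move 620 (branch (move 619 (leaf 584 0)) (move 621 (leaf 585 0))))))))))))))))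
theorem a6p1041 : a6e1041.Valid :=
  pos_of_chk [] forall_nil a6c1041 a6e1041 (by decide +kernel)

def a6e1042 : Pos := ⟨14182914542073706401385130090474827976253992908430496330984653818195684249609586221708561084324646165551410778754636040035038158491813728841566870334153894423012267647410685083648, 14805966308658335081742468911532403687371315042607270437862737569849872878912410090306638974070466297583146974946377438493317001050072566138549059434128672932453581217096491310667824910241729444103201661154267898642457870467072, 8⟩
def a6c1042 : Cert := (move 558 (branch (move 494 (branch (move 623 (leaf 494 4)) (move 621 (leaf 493 5)))) (branch (move 623 (branch (move 494 (leaf 494 4)) (move 655 (branch (move 622 (leaf 526 4)) (move 687 (leaf 558 7)))))) (branch (move 621 (branch (move 494 (leaf 493 5)) (move 653 (branch (move 622 (leaf 525 5)) (move 685 (leaf 557 6)))))) (move 622 (branch (move 653 (branch (move 621 (leaf 525 5)) (move 654 (branch (move 685 (leaf 557 5)) (move 686 (branch (move 559 (leaf 558 6)) (move 687 (branch (move 655 (leaf 558 4)) (move 719 (leaf 590 4)))))))))) (branch (move 653 (branch (move 621 (leaf 525 5))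 (move 654 (branch (move 685 (leaf 557 5)) (move 686 (branch (move 559 (leaf 558 6)) (move 718 (branch (move 623 (leaf 590 6)) (move 719 (branch (move 687 (leaf 590 4)) (move 751 (leaf 622 4)))))))))))) (branch (move 654 (branch (move 655 (branch (move 623 (leaf 526 4)) (move 687 (leaf 558 4)))) (branch (move 687 (branch (move 655 (leaf 558 4)) (move 686 (branch (move 719 (leaf 590 4)) (move 685 (branch (move 653 (leaf 557 5)) (move 717 (leaf 589 5)))))))) (branch (move 685 (branch (move 653 (leaf 557 5)) (move 686 (branch (move 717 (leaf 589 5)) (move 718 (branch (move 623 (leaf 590 6)) (move 719 (branch (move 687 (leaf 590 4)) (move 751 (leaf 622 4)))))))))) (move 623 (branch (move 655 (leaf 526 4)) (move 686 (branch (move 718 (leaf 590 6)) (move 685 (branch (move 653 (leaf 557 5)) (move 717 (leaf 589 5)))))))))))) (branch (move 655 (branch (move 623 (leaf 526 4)) (move 654 (branch (move 687 (leaf 558 4)) (move 686 (branch (move 559 (leaf 558 6)) (move 718 (branch (move 621 (leaf 589 7)) (move 717 (branch (move 685 (leaf 589 5)) (move 749 (leaf 621 5)))))))))))) (move 623 (branch (move 655 (leaf 526 4)) (move 621 (branch (move 653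 (leaf 525 5)) (move 620 (branch (move 592 (leaf 588 1)) (move 619 (leaf 587 2)))))))))))))))))
theorem a6p1042 : a6e1042.Valid :=
  pos_of_chk [] forall_nil a6c1042 a6e1042 (by decide +kernel)

def a6e1043 : Pos := ⟨6078391946603017029290583481703028853182808861081986760680635596143627977318749998271633254349834067332274281466939186163172629047650105193350317923775059096720896937642111795200, 14805966308658335081742468911532403688415574827630831754346333685971920805538893990808146753794579483801162215799086841665868699395825029366936188190489659182402149936589401876037245152716208918291045429943930387208878927380480, 9⟩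
def a6c1043 : Cert := (move 591 (branch (move 623 (branch (move 558 (branch (move 494 (leaf 494 4)) (move 655 (branch (move 559 (leaf 526 7)) (move 687 (leaf 558 7)))))) (move 624 (branch (move 588 (leaf 588 0)) (move 625 (branch (move 622 (leaf 589 3)) (move 626 (leaf 590 3)))))))) (branch (move 592 (branch (move 621 (branch (move 620 (leaf 588 1)) (move 593 (branch (move 622 (leaf 589 1)) (move 561 (branch (move 560 (leaf 557 2)) (move 562 (leaf 558 2)))))))) (branch (move 625 (branch (move 624 (leaf 589 0)) (move 593 (branch (move 626 (leaf 590 0)) (move 561 (branch (move 560 (leaf 557 2)) (move 562 (leaf 558 2)))))))) (move 620 (branch (move 621 (leaf 588 1)) (move 624 (branch (move 625 (leaf 589 0)) (move 588 (branch (move 623 (leaf 588 0)) (move 619 (leaf 587 1))))))))))) (branch (move 560 (branch (move 559 (branch (move 588 (leaf 556 2)) (move 561 (branch (move 558 (leaf 557 1)) (move 562 (leaf 558 1)))))) (branch (move 561 (branch (move 592 (leaf 557 2)) (move 559 (branch (move 558 (leaf 557 1)) (move 562 (leaf 558 1)))))) (branch (move 592 (branch (move 561 (leaf 557 2)) (move 624 (branch (move 625 (leaf 589 0)) (move 623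 (branch (move 588 (leaf 588 0)) (move 655 (branch (move 528 (leaf 527 5)) (move 687 (leaf 559 6)))))))))) (move 588 (branch (move 559 (leaf 556 2)) (move 620 (branch (move 619 (leaf 587 1)) (move 592 (branch (move 621 (leaf 588 1)) (move 624 (branch (move 623 (leaf 588 0)) (move 625 (leaf 589 0)))))))))))))) (branch (move 621 (branch (move 558 (branch (move 494 (leaf 493 5)) (move 653 (branch (move 622 (leaf 525 5)) (move 685 (leaf 557 6)))))) (branch (move 592 (branch (move 620 (leaf 588 1)) (move 593 (branch (move 622 (leaf 589 1)) (move 561 (branch (move 560 (leaf 557 2)) (move 562 (leaf 558 2)))))))) (move 558 (branch (move 494 (leaf 493 5)) (move 592 (branch (move 620 (leaf 588 1)) (move 561 (branch (move 560 (leaf 557 2)) (move 593 (branch (move 562 (leaf 558 2)) (move 594 (branch (move 559 (leaf 558 3)) (move 626 (branch (move 625 (leaf 590 0)) (move 627 (leaf 591 0))))))))))))))))) (ref 0))))))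
theorem a6p1043 : a6e1043.Valid :=
  pos_of_chk [a6e1042] (forall_cons a6p1042 forall_nil) a6c1043 a6e1043 (by decide +kernel)

def a6e1044 : Pos := ⟨14182914542073706401385130090474827976253992908430496330984653818195684249609586221708561084324646165551410778754636040035038158491813728841566870334153894423012267647410685083648, 11844773062370494405675335592952656887247817362087946830069411308134375184248892344992244942973957443753137311390203710064316235369607666163357144369174240803303777442639550754091933511419136831170833951429529189681391774728192, 9⟩
def a6c1044 : Cert := (move 592 (branch (move 625 (branch (move 624 (leaf 589 0)) (move 593 (branch (move 626 (leaf 590 0)) (move 561 (branch (move 560 (leaf 557 2)) (move 562 (leaf 558 2)))))))) (branch (move 561 (branch (move 560 (leaf 557 2)) (move 593 (branch (move 562 (leaf 558 2)) (move 626 (branch (move 625 (leaf 590 0)) (move 594 (branch (move 627 (leaf 591 0)) (move 558 (branch (move 559 (leaf 558 3)) (move 623 (branch (move 622 (leaf 590 1)) (move 494 (leaf 494 4)))))))))))))) (branch (move 625 (branch (move 624 (leaf 589 0)) (move 593 (branch (move 626 (leaf 590 0))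 (move 562 (branch (move 561 (leaf 558 2)) (move 594 (branch (move 563 (leaf 559 2)) (move 558 (branch (move 559 (leaf 558 3)) (move 623 (branch (move 622 (leaf 590 1)) (move 494 (leaf 494 4)))))))))))))) (branch (move 623 (branch (move 558 (branch (move 494 (leaf 494 4)) (move 655 (branch (move 559 (leaf 526 7)) (move 687 (leaf 558 7)))))) (branch (move 561 (branch (move 560 (leaf 557 2)) (move 593 (branch (move 562 (leaf 558 2)) (move 594 (branch (move 622 (leaf 590 1)) (move 558 (branch (move 559 (leaf 558 3)) (move 494 (leaf 494 4)))))))))) (move 560 (branch (move 561 (leaf 557 2)) (move 655 (branch (move 687 (leaf 559 6)) (move 528 (branch (move 496 (leaf 495 5)) (move 624 (leaf 527 5))))))))))) (branch (move 623 (branch (move 558 (branch (move 494 (leaf 494 4)) (move 655 (branch (move 559 (leaf 526 7)) (move 687 (leaf 558 7)))))) (branch (move 624 (branch (move 625 (leaf 589 0)) (move 558 (branch (move 494 (leaf 494 4)) (move 655 (branch (move 622 (leaf 526 4)) (move 687 (leaf 558 7)))))))) (branch (move 625 (branch (move 624 (leaf 589 0)) (move 593 (branch (move 626 (leaf 590 0)) (move 594 (branch (move 622 (leaf 590 1)) (move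 558 (branch (move 559 (leaf 558 3)) (move 494 (leaf 494 4)))))))))) (move 560 (branch (move 655 (branch (move 687 (leaf 559 6)) (move 528 (branch (move 496 (leaf 495 5)) (move 559 (leaf 527 6)))))) (branch (move 625 (branch (move 624 (leaf 589 0)) (move 593 (branch (move 626 (leaf 590 0)) (move 594 (branch (move 622 (leaf 590 1)) (move 595 (branch (move 559 (leaf 559 3)) (move 563 (branch (move 562 (leaf 559 2)) (move 564 (leaf 560 2)))))))))))) (move 624 (branch (move 625 (leaf 589 0)) (move 655 (branch (move 528 (leaf 527 5)) (move 687 (leaf 559 6))))))))))))) (move 624 (branch (move 625 (leaf 589 0)) (move 656 (branch (move 688 (branch (move 559 (leaf 559 7)) (move 720 (branch (move 623 (leaf 591 7)) (move 719 (branch (move 687 (leaf 591 5)) (move 751 (leaf 623 5)))))))) (branch (move 560 (branch (move 561 (leaf 557 2)) (move 655 (branch (move 687 (leaf 559 5)) (move 623 (branch (move 528 (leaf 527 5)) (move 558 (branch (move 494 (leaf 494 4)) (move 622 (leaf 526 4)))))))))) (move 560 (branch (move 561 (leaf 557 2)) (move 688 (branch (move 559 (leaf 559 7)) (move 689 (branch (move 657 (leaf 560 4)) (move 721 (leaf 592 4)))))))))))))))))))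
theorem a6p1044 : a6e1044.Valid :=
  pos_of_chk [] forall_nil a6c1044 a6e1044 (by decide +kernel)

def a6e1045 : Pos := ⟨6584924608819935115046492644751266298374757864041268608824636735021881494336927262236441243723259823470970312547420239530164224637910331671363852449423736304614107607002647625728, 1850745793408487616555733758856154816078384459239883640101511453363729222205254686535309237379009118107862274192093062492698369123029034186240425203951390690553240169407186871406792343268090527616158505948281274071789124714496, 12⟩
def a6c1045 : Cert := (move 621 (branch (move 558 (branch (move 494 (leaf 493 5)) (move 653 (branch (move 622 (leaf 525 5)) (move 685 (leaf 557 6)))))) (branch (move 558 (branch (move 494 (leaf 493 5)) (move 588 (branch (move 559 (leaf 555 2)) (move 618 (branch (move 619 (leaf 586 1)) (move 586 (branch (move 617 (leaf 585 1)) (move 585 (branch (move 620 (leaf 585 0)) (move 553 (branch (move 552 (leaf 552 3)) (move 554 (leaf 553 3)))))))))))))) (move 588 (branch (move 622 (branch (move 586 (leaf 586 0)) (move 623 (leaf 587 0)))) (branch (move 618 (branch (move 619 (leaf 586 1)) (move 586 (branch (move 617 (leaf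 585 1)) (move 585 (branch (move 620 (leaf 585 0)) (move 553 (branch (move 552 (leaf 552 3)) (move 554 (leaf 553 3)))))))))) (move 619 (branch (move 618 (leaf 586 1)) (move 651 (branch (move 683 (branch (move 556 (leaf 555 6)) (move 715 (branch (move 620 (leaf 587 6)) (move 716 (branch (move 684 (leaf 587 4)) (move 748 (leaf 619 4)))))))) (branch (move 622 (branch (move 623 (leaf 587 0)) (move 620 (branch (move 650 (leaf 618 1)) (move 654 (branch (move 655 (leaf 619 0)) (move 686 (branch (move 718 (leaf 589 7)) (move 685 (branch (move 717 (leaf 589 5)) (move 687 (branch (move 719 (leaf 590 4)) (move 652 (branch (move 653 (leaf 651 0)) (move 684 (leaf 651 3)))))))))))))))) (branch (move 683 (branch (move 556 (leaf 555 6)) (move 622 (branch (move 623 (leaf 587 0)) (move 716 (branch (move 684 (leaf 587 4)) (move 715 (branch (move 748 (leaf 619 4)) (move 714 (branch (move 682 (leaf 586 5)) (move 746 (leaf 618 5)))))))))))) (move 622 (branch (move 623 (leaf 587 0)) (move 620 (branch (move 650 (leaf 618 1)) (move 683 (branch (move 556 (leaf 555 6)) (move 715 (leaf 587 6))))))))))))))))))))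
theorem a6p1045 : a6e1045.Valid :=
  pos_of_chk [] forall_nil a6c1045 a6e1045 (by decide +kernel)

def a6e1046 : Pos := ⟨30391959733015085145684060070580515977836071415912817763069001227102089680741570083929385435208632858823644727580613020658405958362404669866593926962907031376596193519605672574976, 11844773062370494405675335592952656886395005204162439761895515297208834323949950100954539328502872231446959843017569192867293011361240271307780929763935705391527773790548388144140907570264221505476418990727784173132827722776576, 9⟩
def a6c1046 : Cert := (move 624 (branch (move 625 (leaf 589 0)) (move 656 (branch (move 688 (branch (move 559 (leaf 559 7)) (move 720 (branch (move 623 (leaf 591 7)) (move 719 (branch (move 687 (leaf 591 5)) (move 751 (leaf 623 5)))))))) (branch (move 560 (branch (move 561 (leaf 557 2)) (move 688 (branch (move 559 (leaf 559 7)) (move 689 (branch (move 657 (leaf 560 4)) (move 721 (leaf 592 4)))))))) (move 560 (branch (move 561 (leaf 557 2)) (move 655 (branch (move 687 (leaf 559 5)) (move 528 (branch (move 623 (leaf 527 5)) (move 497 (branch (move 529 (leaf 496 6)) (move 496 (branch (move 465 (leaf 464 6)) (move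 495 (branch (move 494 (leaf 493 1)) (move 463 (leaf 463 7)))))))))))))))))))
theorem a6p1046 : a6e1046.Valid :=
  pos_of_chk [] forall_nil a6c1046 a6e1046 (by decide +kernel)

def a6e1047 : Pos := ⟨14182914542073706401494966853036917731693703321215798622460964782997977136159897637055529775259008662385371733005219312914674899474077422570160822142149360724013452100068525998080, 11844773062370494405675335592952656888357343383562460628548013488095977436196824087568943773289011260474950220814184518224124848221024308276451538302029093172496510249580423590948832532897296967450508030697776061547850827300864, 10⟩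
def a6c1047 : Cert := (move 592 (branch (move 625 (branch (move 624 (leaf 589 0)) (move 593 (branch (move 626 (leaf 590 0)) (move 561 (branch (move 560 (leaf 557 2)) (move 562 (leaf 558 2)))))))) (branch (move 561 (branch (move 560 (leaf 557 2)) (move 593 (branch (move 562 (leaf 558 2)) (move 626 (branch (move 625 (leaf 590 0)) (move 594 (branch (move 627 (leaf 591 0)) (move 558 (branch (move 559 (leaf 558 3)) (move 494 (branch (move 623 (leaf 494 4)) (move 621 (leaf 493 5)))))))))))))) (branch (ref 0) (branch (move 623 (branch (move 558 (branch (move 494 (leaf 494 4)) (move 655 (branch (move 559 (leaf 526 7)) (move 687 (leaf 558 7)))))) (branch (move 560 (branch (move 561 (leaf 557 2)) (move 655 (branch (move 687 (leaf 559 6)) (move 528 (branch (move 496 (leaf 495 5)) (move 624 (leaf 527 5)))))))) (move 558 (branch (move 494 (leaf 494 4)) (move 561 (branch (move 560 (leaf 557 2)) (move 593 (branch (move 562 (leaf 558 2)) (move 594 (branch (move 559 (leaf 558 3)) (move 595 (branch (move 624 (leaf 591 1)) (move 627 (branch (move 626 (leaf 591 0)) (move 628 (leaf 592 0))))))))))))))))) (move 593 (branch (move 625 (branch (move 624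 (leaf 589 0)) (move 626 (leaf 590 0)))) (branch (move 621 (branch (move 620 (leaf 588 1)) (move 558 (branch (move 494 (leaf 493 5)) (move 594 (branch (move 559 (leaf 558 3)) (move 627 (branch (move 626 (leaf 591 0)) (move 595 (branch (move 628 (leaf 592 0)) (move 563 (branch (move 562 (leaf 559 2)) (move 564 (leaf 560 2)))))))))))))) (move 621 (branch (move 620 (leaf 588 1)) (move 558 (branch (move 494 (leaf 493 5)) (move 594 (branch (move 559 (leaf 558 3)) (move 624 (branch (move 625 (leaf 589 0)) (move 595 (branch (move 623 (leaf 591 1)) (move 563 (branch (move 562 (leaf 559 2)) (move 564 (leaf 560 2))))))))))))))))))))))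
theorem a6p1047 : a6e1047.Valid :=
  pos_of_chk [a6e1046] (forall_cons a6p1046 forall_nil) a6c1047 a6e1047 (by decide +kernel)

def a6e1048 : Pos := ⟨224253081237366139392729258710927226836428262882920455695378925898025785501473034675171720281150972250095559885663953063093738279316185262651704917495051635674605654700080227884050134340543847596032, 344728276697511317392228818617944452469760590195473736090188305945396062959756364475271828677067641827113371238369197889317341729061794363118980030443163595358280113003898255785883245557250286970515173900910988361728, 8⟩
def a6c1048 : Cert := (move 653 (branch (move 656 (branch (move 685 (branch (move 684 (leaf 652 1)) (move 657 (branch (move 686 (leaf 653 1)) (move 625 (branch (move 624 (leaf 621 2)) (move 626 (leaf 622 2)))))))) (branch (move 688 (branch (move 689 (leaf 653 0)) (move 652 (branch (move 687 (leaf 652 0)) (move 684 (branch (move 683 (leaf 651 1)) (move 685 (leaf 652 1)))))))) (move 688 (branch (move 689 (leaf 653 0)) (move 625 (branch (move 624 (leaf 621 2)) (move 657 (branch (move 626 (leaf 622 2)) (move 687 (branch (move 652 (leaf 652 0)) (move 658 (branch (move 686 (leaf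 654 1)) (move 659 (leaf 655 1))))))))))))))) (branch (move 685 (branch (move 621 (leaf 557 6)) (move 656 (branch (move 684 (leaf 652 1)) (move 657 (branch (move 686 (leaf 653 1)) (move 689 (branch (move 688 (leaf 653 0)) (move 690 (leaf 654 0)))))))))) (branch (move 621 (branch (move 685 (leaf 557 6)) (move 652 (branch (move 687 (branch (move 688 (leaf 652 0)) (move 651 (branch (move 686 (leaf 651 0)) (move 683 (branch (move 682 (leaf 650 1)) (move 684 (leaf 651 1)))))))) (branch (move 619 (branch (move 620 (leaf 619 3)) (move 651 (branch (move 618 (leaf 618 3)) (move 687 (branch (move 686 (leaf 651 0)) (move 688 (leaf 652 0)))))))) (move 620 (branch (move 619 (leaf 619 3)) (move 684 (branch (move 683 (leaf 651 1)) (move 716 (leaf 588 6))))))))))) (branch (move 621 (branch (move 685 (leaf 557 6)) (move 620 (branch (move 656 (leaf 620 3)) (move 619 (branch (move 618 (leaf 618 0)) (move 652 (leaf 619 3)))))))) (move 652 (branch (move 687 (branch (move 688 (leaf 652 0)) (move 651 (branch (move 686 (leaf 651 0)) (move 683 (branch (move 682 (leaf 650 1)) (move 684 (leaf 651 1)))))))) (branch (move 619 (branch (move 620 (leaf 619 3)) (move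 651 (branch (move 618 (leaf 618 3)) (move 683 (branch (move 682 (leaf 650 1)) (move 684 (leaf 651 1)))))))) (move 620 (branch (move 619 (leaf 619 3)) (move 656 (branch (move 621 (leaf 620 3)) (move 688 (branch (move 687 (leaf 652 0)) (move 689 (leaf 653 0))))))))))))))))
theorem a6p1048 : a6e1048.Valid :=
  pos_of_chk [] forall_nil a6c1048 a6e1048 (by decide +kernel)

def a6e1049 : Pos := ⟨14182914542073706401385130090474827976253992908430496330984653818195684249609586221708561084324646165551410778754636040035038158491813728841566870334153894423012267647410685083648, 2961193263179525745441665307963314844135625533928993100260606201559646374934816576197995145307903595294370706485646731445278096753726005032295435602678949209650420058241245560696119241640094961927540952934722326288424224423936, 11⟩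
def a6c1049 : Cert := (move 558 (branch (move 494 (branch (move 623 (leaf 494 4)) (move 621 (leaf 493 5)))) (branch (move 623 (branch (move 494 (leaf 494 4)) (move 655 (branch (move 622 (leaf 526 4)) (move 687 (leaf 558 7)))))) (branch (move 621 (branch (move 494 (leaf 493 5)) (move 653 (branch (move 622 (leaf 525 5)) (move 685 (leaf 557 6)))))) (move 655 (branch (move 623 (branch (move 559 (leaf 526 7)) (move 687 (leaf 558 7)))) (branch (move 623 (branch (move 622 (leaf 526 4)) (move 687 (leaf 558 7)))) (branch (move 623 (branch (move 622 (leaf 526 4)) (move 559 (leaf 526 7)))) (move 654 (branch (move 622 (branch (move 687 (leaf 558 4)) (move 686 (branch (move 559 (leaf 558 6)) (move 685 (branch (move 653 (leaf 557 5)) (move 717 (leaf 589 5)))))))) (branch (move 622 (branch (move 687 (leaf 558 4)) (move 686 (branch (move 559 (leaf 558 6)) (move 718 (branch (move 621 (leaf 589 7)) (move 717 (branch (move 685 (leaf 589 5)) (move 749 (leaf 621 5)))))))))) (branch (move 653 (branch (move 621 (branch (move 622 (leaf 525 5)) (move 685 (leaf 557 6)))) (branch (move 685 (branch (move 622 (leaf 557 5)) (move 684 (branch (move 656 (leaf 652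 1)) (move 683 (branch (move 652 (leaf 651 1)) (move 682 (leaf 650 2)))))))) (branch (move 685 (branch (move 621 (leaf 557 6)) (move 684 (branch (move 656 (leaf 652 1)) (move 683 (branch (move 652 (leaf 651 1)) (move 682 (leaf 650 2)))))))) (move 621 (branch (move 622 (leaf 525 5)) (move 620 (branch (move 656 (leaf 620 3)) (move 619 (branch (move 618 (leaf 618 0)) (move 652 (leaf 619 3)))))))))))) (branch (move 622 (branch (move 687 (leaf 558 4)) (move 621 (branch (move 653 (leaf 525 5)) (move 620 (branch (move 619 (leaf 619 0)) (move 686 (branch (move 559 (leaf 558 6)) (move 718 (leaf 589 7)))))))))) (ref 0))))))))))))))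
theorem a6p1049 : a6e1049.Valid :=
  pos_of_chk [a6e1048] (forall_cons a6p1048 forall_nil) a6c1049 a6e1049 (by decide +kernel)

def a6e1050 : Pos := ⟨6078391946603017029400420244265118608622519273867289052156946560945920863869061413618601945284196564166235235717522459042809370029913798921944269731770525397722081390299952709632, 14805966325550020146622255866808103037580676592570851332551376024454128284356695467325170261070261356272498974154530352842261058027790224619285085584097219222533766397583260375873741018909983331380838791913355562101126161498112, 12⟩
def a6c1050 : Cert := (move 591 (branch (move 592 (branch (move 625 (branch (move 624 (leaf 589 0)) (move 593 (branch (move 626 (leaf 590 0)) (move 561 (branch (move 560 (leaf 557 2)) (move 562 (leaf 558 2)))))))) (move 621 (branch (move 620 (leaf 588 1)) (move 558 (branch (move 494 (leaf 493 5)) (move 653 (branch (move 622 (leaf 525 5)) (move 685 (leaf 557 6)))))))))) (branch (ref 0) (branch (move 592 (branch (move 621 (branch (move 620 (leaf 588 1)) (move 593 (branch (move 622 (leaf 589 1)) (move 561 (branch (move 560 (leaf 557 2)) (move 562 (leaf 558 2)))))))) (branch (move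 625 (branch (move 624 (leaf 589 0)) (move 593 (branch (move 626 (leaf 590 0)) (move 561 (branch (move 560 (leaf 557 2)) (move 562 (leaf 558 2)))))))) (branch (move 621 (branch (move 620 (leaf 588 1)) (move 593 (branch (move 622 (leaf 589 1)) (move 625 (branch (move 624 (leaf 589 0)) (move 626 (leaf 590 0)))))))) (move 624 (branch (move 625 (leaf 589 0)) (move 656 (branch (move 688 (branch (move 559 (leaf 559 7)) (move 720 (branch (move 623 (leaf 591 7)) (move 719 (branch (move 687 (leaf 591 5)) (move 751 (leaf 623 5)))))))) (branch (move 560 (branch (move 561 (leaf 557 2)) (move 688 (branch (move 559 (leaf 559 7)) (move 689 (branch (move 657 (leaf 560 4)) (move 721 (leaf 592 4)))))))) (move 560 (branch (move 561 (leaf 557 2)) (move 655 (branch (move 687 (leaf 559 5)) (move 623 (branch (move 528 (leaf 527 5)) (move 622 (branch (move 558 (leaf 526 4)) (move 621 (branch (move 620 (leaf 620 0)) (move 657 (leaf 621 0))))))))))))))))))))) (branch (ref 1) (branch (move 592 (branch (move 621 (branch (move 620 (leaf 588 1)) (move 593 (branch (move 622 (leaf 589 1)) (move 561 (branch (move 560 (leaf 557 2)) (move 562 (leaf 558 2)))))))) (branch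 (move 621 (branch (move 620 (leaf 588 1)) (move 593 (branch (move 622 (leaf 589 1)) (move 625 (branch (move 624 (leaf 589 0)) (move 626 (leaf 590 0)))))))) (ref 2)))) (branch (ref 3) (ref 4))))))))
theorem a6p1050 : a6e1050.Valid :=
  pos_of_chk [a6e1042, a6e1044, a6e1046, a6e1047, a6e1049] (forall_cons a6p1042 (forall_cons a6p1044 (forall_cons a6p1046 (forall_cons a6p1047 (forall_cons a6p1049 forall_nil))))) a6c1050 a6e1050 (by decide +kernel)

def a6e1051 : Pos := ⟨2532663311084590429136515293567978931138803856348641688018016329998719466379398419701688192403806895403853256716800903693777386143658137007998016004228651517719902817940662124544, 16656712113787583765255729492267909028023340903603556230183291846908409807840799667606282912356810205421084089027993277098323427288839333625644439957983978877747303242555833851751900959081389954296469546206922468406700523126784, 16⟩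
def a6c1051 : Cert := (move 590 (branch (move 588 (branch (move 558 (branch (move 559 (leaf 555 2)) (move 621 (branch (move 494 (leaf 493 5)) (move 653 (branch (move 622 (leaf 525 5)) (move 685 (leaf 557 6)))))))) (branch (move 619 (branch (move 618 (leaf 586 1)) (move 591 (branch (move 620 (leaf 587 1)) (move 559 (branch (move 558 (leaf 555 2)) (move 560 (leaf 556 2)))))))) (ref 0)))) (branch (move 588 (branch (move 619 (branch (move 618 (leaf 586 1)) (move 591 (branch (move 620 (leaf 587 1)) (move 560 (branch (move 559 (leaf 556 2)) (move 592 (branch (move 561 (leaf 557 2)) (move 624 (branch (move 623 (leaf 588 0)) (move 625 (leaf 589 0)))))))))))) (branch (move 623 (branch (move 622 (leaf 587 0)) (move 591 (branch (move 624 (leaf 588 0)) (move 560 (branch (move 559 (leaf 556 2)) (move 592 (branch (move 561 (leaf 557 2)) (move 620 (branch (move 619 (leaf 587 1)) (move 621 (leaf 588 1)))))))))))) (branch (move 622 (branch (move 623 (leaf 587 0)) (move 586 (branch (move 621 (leaf 586 0)) (move 553 (branch (move 554 (leaf 553 3)) (move 585 (branch (move 552 (leaf 552 3)) (move 617 (branch (move 616 (leaf 584 1)) (move 618 (leaf 585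 1)))))))))))) (ref 1))))) (branch (ref 2) (branch (move 591 (branch (move 588 (branch (move 623 (branch (move 622 (leaf 587 0)) (move 624 (leaf 588 0)))) (move 619 (branch (move 618 (leaf 586 1)) (move 620 (leaf 587 1)))))) (branch (move 588 (branch (move 619 (branch (move 618 (leaf 586 1)) (move 620 (leaf 587 1)))) (move 559 (branch (move 558 (leaf 555 2)) (move 560 (leaf 556 2)))))) (ref 3)))) (branch (ref 4) (branch (ref 5) (branch (move 588 (branch (move 619 (branch (move 618 (leaf 586 1)) (move 591 (branch (move 620 (leaf 587 1)) (move 560 (branch (move 559 (leaf 556 2)) (move 592 (branch (move 561 (leaf 557 2)) (move 624 (branch (move 623 (leaf 588 0)) (move 625 (leaf 589 0)))))))))))) (branch (move 559 (branch (move 558 (leaf 555 2)) (move 591 (branch (move 560 (leaf 556 2)) (move 620 (branch (move 619 (leaf 587 1)) (move 592 (branch (move 621 (leaf 588 1)) (move 624 (branch (move 623 (leaf 588 0)) (move 625 (leaf 589 0)))))))))))) (branch (move 558 (branch (move 559 (leaf 555 2)) (move 621 (branch (move 494 (leaf 493 5)) (move 618 (branch (move 619 (leaf 586 1)) (move 586 (branch (move 617 (leaf 585 1)) (move 585 (branch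 (move 620 (leaf 585 0)) (move 553 (branch (move 552 (leaf 552 3)) (move 554 (leaf 553 3)))))))))))))) (branch (ref 0) (branch (ref 6) (ref 7))))))) (branch (move 588 (branch (move 558 (branch (move 559 (leaf 555 2)) (move 623 (branch (move 622 (leaf 587 0)) (move 591 (branch (move 624 (leaf 588 0)) (move 494 (leaf 494 4)))))))) (branch (move 558 (branch (move 559 (leaf 555 2)) (move 621 (branch (move 494 (leaf 493 5)) (move 653 (branch (move 622 (leaf 525 5)) (move 685 (leaf 557 6)))))))) (branch (move 622 (branch (move 623 (leaf 587 0)) (move 586 (branch (move 621 (leaf 586 0)) (move 553 (branch (move 554 (leaf 553 3)) (move 585 (branch (move 552 (leaf 552 3)) (move 617 (branch (move 616 (leaf 584 1)) (move 618 (leaf 585 1)))))))))))) (ref 7))))) (branch (move 588 (branch (move 558 (branch (move 559 (leaf 555 2)) (move 623 (branch (move 622 (leaf 587 0)) (move 591 (branch (move 624 (leaf 588 0)) (move 494 (leaf 494 4)))))))) (branch (move 558 (branch (move 559 (leaf 555 2)) (move 621 (branch (move 494 (leaf 493 5)) (move 653 (branch (move 622 (leaf 525 5)) (move 685 (leaf 557 6)))))))) (branch (move 622 (branch (move 623 (leaf 587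 0)) (move 586 (branch (move 621 (leaf 586 0)) (move 618 (branch (move 617 (leaf 585 1)) (move 619 (leaf 586 1)))))))) (ref 6))))) (move 588 (branch (move 619 (branch (move 618 (leaf 586 1)) (move 591 (branch (move 620 (leaf 587 1)) (move 623 (branch (move 622 (leaf 587 0)) (move 624 (leaf 588 0)))))))) (branch (move 622 (branch (move 623 (leaf 587 0)) (move 586 (branch (move 621 (leaf 586 0)) (move 553 (branch (move 554 (leaf 553 3)) (move 585 (branch (move 552 (leaf 552 3)) (move 617 (branch (move 616 (leaf 584 1)) (move 618 (leaf 585 1)))))))))))) (branch (ref 0) (move 591 (branch (move 620 (branch (move 619 (leaf 587 1)) (move 592 (branch (move 621 (leaf 588 1)) (move 624 (branch (move 623 (leaf 588 0)) (move 625 (leaf 589 0)))))))) (branch (move 623 (branch (move 624 (leaf 588 0)) (move 558 (branch (move 494 (leaf 494 4)) (move 622 (leaf 587 0)))))) (move 620 (branch (move 619 (leaf 587 1)) (move 621 (branch (move 592 (leaf 588 1)) (move 558 (branch (move 494 (leaf 493 5)) (move 653 (branch (move 622 (leaf 525 5)) (move 685 (leaf 557 6)))))))))))))))))))))))))))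
theorem a6p1051 : a6e1051.Valid :=
  pos_of_chk [a6e1041, a6e1017, a6e1043, a6e1044, a6e1045, a6e1050, a6e1028, a6e1026] (forall_cons a6p1041 (forall_cons a6p1017 (forall_cons a6p1043 (forall_cons a6p1044 (forall_cons a6p1045 (forall_cons a6p1050 (forall_cons a6p1028 (forall_cons a6p1026 forall_nil)))))))) a6c1051 a6e1051 (by decide +kernel)

def a6e1052 : Pos := ⟨30457577062110823156123418459788071142905317034586135441356656636492568221778310848807866416450477496759217728282025387047125004765596708262267807031633226828452701828360000334913242923008, 4634563679427696773371338436899171507766073797091772369452901731380593173137338709670085782075297695140547098898176432387970698903875845547644586028114982157897346358138289318996091376171493470765056, 7⟩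
def a6c1052 : Cert := (move 623 (branch (move 656 (branch (move 655 (leaf 620 0)) (move 624 (branch (move 657 (leaf 621 0)) (move 592 (branch (move 591 (leaf 588 2)) (move 593 (leaf 589 2)))))))) (branch (move 655 (branch (move 656 (leaf 620 0)) (move 591 (branch (move 592 (leaf 588 2)) (move 558 (branch (move 590 (leaf 526 4)) (move 559 (leaf 526 7)))))))) (branch (move 592 (branch (move 591 (leaf 588 2)) (move 624 (branch (move 593 (leaf 589 2)) (move 625 (branch (move 590 (leaf 589 3)) (move 657 (branch (move 656 (leaf 621 0)) (move 658 (leaf 622 0)))))))))) (branch (move 592 (branch (move 591 (leaf 588 2)) (move 624 (branch (move 593 (leaf 589 2)) (move 590 (branch (move 625 (leaf 589 3)) (move 558 (branch (move 655 (leaf 526 4)) (move 494 (leaf 493 5)))))))))) (move 624 (branch (move 656 (branch (move 655 (leaf 620 0)) (move 657 (leaf 621 0)))) (branch (move 625 (branch (move 590 (leaf 589 3)) (move 658 (branch (move 657 (leaf 622 0)) (move 626 (branch (move 659 (leaf 623 0)) (move 594 (branch (move 593 (leaf 590 2)) (move 595 (leaf 591 2)))))))))) (move 590 (branch (move 625 (leaf 589 3)) (move 558 (branch (move 655 (leaf 526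 4)) (move 494 (leaf 493 5))))))))))))))
theorem a6p1052 : a6e1052.Valid :=
  pos_of_chk [] forall_nil a6c1052 a6e1052 (by decide +kernel)

def a6e1053 : Pos := ⟨149502054210457082178397906640639114563349407800425112284207731477640719394003052301243611916869715704758516110345575276459681917911523887166493949996261977618716420561293319060811856150315969544192, 25436456465711520853863261582778214701239361182339008645653965022676092428798754056455690421077833608676765506927009281833727052782894894977997196687841417542377638194593504596337321782907085129531051712137994553409742219430078021894144, 6⟩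
def a6c1053 : Cert := (move 687 (branch (move 686 (branch (move 718 (leaf 590 5)) (move 559 (branch (move 654 (leaf 558 5)) (move 558 (leaf 526 7)))))) (branch (move 718 (branch (move 686 (leaf 590 5)) (move 719 (branch (move 750 (leaf 622 5)) (move 720 (branch (move 688 (leaf 591 4)) (move 752 (leaf 623 4)))))))) (branch (move 720 (branch (move 688 (leaf 591 4)) (move 719 (branch (move 752 (leaf 623 4)) (move 750 (branch (move 718 (leaf 622 5)) (move 751 (branch (move 782 (leaf 654 5)) (move 654 (leaf 622 7)))))))))) (move 559 (branch (move 558 (leaf 526 7)) (move 654 (branch (move 686 (leaf 558 5)) (move 719 (branch (move 751 (leaf 622 7)) (move 720 (branch (move 688 (leaf 591 4)) (move 752 (leaf 623 4))))))))))))))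
theorem a6p1053 : a6e1053.Valid :=
  pos_of_chk [] forall_nil a6c1053 a6e1053 (by decide +kernel)

def a6e1054 : Pos := ⟨26106494625462399745875229957466157310869527659358238929466092104498863398276462793306824461858527177933102097269390081809886880198537326147285245843590877766977513265569669753965861928960, 25436456465711520854897446382350627236941070184014066040829623108479789982425045250778308198371707755062476075107935148353575513398800736028584431126854697085044370129207346007536680222741110753593696652335482352437644475445174249455616, 11⟩
def a6c1054 : Cert := (move 620 (branch (move 619 (branch (move 586 (leaf 586 3)) (move 590 (branch (move 591 (leaf 587 2)) (move 558 (branch (move 494 (leaf 493 5)) (move 653 (leaf 525 5)))))))) (branch (move 619 (branch (move 586 (leaf 586 3)) (move 651 (branch (move 650 (leaf 618 1)) (move 623 (branch (move 652 (leaf 619 1)) (move 655 (branch (move 654 (leaf 619 0)) (move 656 (leaf 620 0)))))))))) (move 623 (branch (move 652 (branch (move 651 (leaf 619 1)) (move 624 (branch (move 653 (leaf 620 1)) (move 656 (branch (move 655 (leaf 620 0)) (move 657 (leaf 621 0)))))))) (branch (move 624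 (branch (move 656 (branch (move 655 (leaf 620 0)) (move 657 (leaf 621 0)))) (branch (move 625 (branch (move 590 (leaf 589 3)) (move 658 (branch (move 657 (leaf 622 0)) (move 626 (branch (move 659 (leaf 623 0)) (move 594 (branch (move 593 (leaf 590 2)) (move 595 (leaf 591 2)))))))))) (move 590 (branch (move 625 (leaf 589 3)) (move 558 (branch (move 655 (leaf 526 4)) (move 494 (leaf 493 5))))))))) (branch (move 652 (branch (move 651 (leaf 619 1)) (move 653 (branch (move 624 (leaf 620 1)) (move 590 (branch (move 558 (leaf 525 5)) (move 685 (branch (move 717 (leaf 589 6)) (move 684 (branch (move 716 (leaf 588 5)) (move 686 (branch (move 718 (leaf 589 4)) (move 687 (branch (move 688 (leaf 652 3)) (move 719 (branch (move 720 (leaf 684 0)) (move 654 (leaf 590 4)))))))))))))))))) (move 655 (branch (move 656 (leaf 620 0)) (move 591 (branch (move 558 (branch (move 590 (leaf 526 4)) (move 559 (leaf 526 7)))) (branch (ref 0) (branch (ref 1) (move 590 (branch (move 558 (leaf 526 4)) (move 687 (branch (move 719 (leaf 590 7)) (move 686 (branch (move 718 (leaf 590 5)) (move 652 (branch (move 651 (leaf 619 1)) (move 688 (branch (move 720 (leaf 591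 4)) (move 653 (branch (move 654 (leaf 652 0)) (move 685 (leaf 652 3)))))))))))))))))))))))))))
theorem a6p1054 : a6e1054.Valid :=
  pos_of_chk [a6e1053, a6e1032] (forall_cons a6p1053 (forall_cons a6p1032 forall_nil)) a6c1054 a6e1054 (by decide +kernel)

def a6e1055 : Pos := ⟨60915154122702048325596082662088741271541742222717003048264863145600511097317275373460578210312593643529433194480040772351640303670945147789227547172037946463968439431037999756429196525568, 2163107846318560570866631060893292518929104313780886321503273025037522221575088630832542767345889788014801959679452697723774042112684543859222431092867895006341931008990683087136756940140935859142656, 7⟩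
def a6c1055 : Cert := (move 620 (branch (move 619 (branch (move 586 (leaf 586 3)) (move 651 (branch (move 650 (leaf 618 1)) (move 652 (leaf 619 1)))))) (branch (move 619 (branch (move 586 (leaf 586 3)) (move 590 (branch (move 618 (leaf 586 2)) (move 558 (branch (move 494 (leaf 493 5)) (move 653 (leaf 525 5)))))))) (move 652 (branch (move 651 (leaf 619 1)) (move 624 (branch (move 653 (leaf 620 1)) (move 657 (branch (move 656 (leaf 621 0)) (move 625 (branch (move 658 (leaf 622 0)) (move 593 (branch (move 592 (leaf 589 2)) (move 594 (leaf 590 2)))))))))))))))
theorem a6p1055 : a6e1055.Valid :=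
  pos_of_chk [] forall_nil a6c1055 a6e1055 (by decide +kernel)

def a6e1056 : Pos := ⟨65266236563402733033579615850238254882839251648601070758259077879793603102240565792006415445929070495474229880934322417731560309414663812661764532727000668114642113054971646786945182334976, 10988213498025308875617417738632187369811884291387169483919284929858514614932245849620020908895555252106472200403316289848743100076144213458639485143059319323956315286289262282272040550342617093134334340318626832187392, 11⟩
def a6c1056 : Cert := (move 653 (branch (move 652 (branch (move 651 (leaf 619 1)) (move 655 (branch (move 656 (leaf 620 0)) (move 684 (branch (move 716 (leaf 588 6)) (move 654 (branch (move 683 (leaf 651 1)) (move 687 (branch (move 688 (leaf 652 0)) (move 719 (leaf 590 7)))))))))))) (branch (move 685 (branch (move 717 (leaf 589 6)) (move 655 (branch (move 656 (leaf 620 0)) (move 686 (branch (move 718 (leaf 589 4)) (move 687 (branch (move 719 (leaf 590 7)) (move 684 (branch (move 716 (leaf 588 5)) (move 683 (branch (move 654 (leaf 651 2)) (move 650 (branch (move 651 (leaf 650 3)) (move 682 (branch (move 649 (leaf 649 3)) (move 714 (branch (move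 713 (leaf 681 1)) (move 715 (leaf 682 1)))))))))))))))))))) (branch (move 652 (branch (move 651 (leaf 619 1)) (move 685 (branch (move 717 (leaf 589 6)) (move 684 (branch (move 716 (leaf 588 5)) (move 686 (branch (move 718 (leaf 589 4)) (move 687 (branch (move 688 (leaf 652 3)) (move 719 (branch (move 720 (leaf 684 0)) (move 654 (leaf 590 4)))))))))))))) (branch (move 685 (branch (move 717 (leaf 589 6)) (move 655 (branch (move 656 (leaf 620 0)) (move 686 (branch (move 718 (leaf 589 4)) (move 687 (branch (move 719 (leaf 590 7)) (move 684 (branch (move 716 (leaf 588 5)) (move 654 (branch (move 683 (leaf 651 2)) (move 688 (branch (move 652 (leaf 652 0)) (move 689 (leaf 653 3)))))))))))))))) (branch (move 652 (branch (move 651 (leaf 619 1)) (move 685 (branch (move 717 (leaf 589 6)) (move 655 (branch (move 656 (leaf 620 0)) (move 687 (branch (move 719 (leaf 590 7)) (move 686 (branch (move 688 (leaf 652 3)) (move 718 (leaf 589 4)))))))))))) (move 652 (branch (move 651 (leaf 619 1)) (move 685 (branch (move 717 (leaf 589 6)) (move 684 (branch (move 716 (leaf 588 5)) (move 655 (branch (move 656 (leaf 620 0)) (move 683 (branch (move 654 (leaf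 651 1)) (move 682 (branch (move 681 (leaf 649 2)) (move 686 (branch (move 718 (leaf 589 4)) (move 714 (branch (move 713 (leaf 681 1)) (move 715 (leaf 682 1))))))))))))))))))))))))
theorem a6p1056 : a6e1056.Valid :=
  pos_of_chk [] forall_nil a6c1056 a6e1056 (by decide +kernel)

def a6e1057 : Pos := ⟨26106494625462399745875229957466157310869527659358238929466092104498863398276462793306824461858527177933102097269390081809886880198537326147285245843590877766977513265569669753965861928960, 22019518024229283474868898803644219086984785000819450756753809548062332976284163189996599062693265980875219450947947240651192355180351340470162586258588830777620567987932981781586354092660427702457015301313891546431488, 14⟩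
def a6c1057 : Cert := (move 623 (branch (move 590 (branch (move 558 (branch (move 655 (leaf 526 4)) (move 494 (leaf 493 5)))) (move 624 (branch (move 625 (leaf 589 3)) (move 652 (branch (move 653 (leaf 620 1)) (move 620 (branch (move 651 (leaf 619 1)) (move 619 (branch (move 618 (leaf 586 2)) (move 586 (leaf 586 3)))))))))))) (branch (move 624 (branch (move 653 (branch (move 652 (leaf 620 1)) (move 625 (branch (move 654 (leaf 621 1)) (move 593 (branch (move 592 (leaf 589 2)) (move 594 (leaf 590 2)))))))) (branch (move 653 (branch (move 652 (leaf 620 1)) (move 625 (branch (move 654 (leaf 621 1)) (move 657 (branch (move 656 (leaf 621 0)) (move 658 (leaf 622 0)))))))) (move 656 (branch (move 657 (leaf 621 0)) (move 655 (branch (move 620 (leaf 620 0)) (move 592 (branch (move 593 (leaf 589 2)) (move 687 (branch (move 560 (leaf 559 5)) (move 719 (leaf 591 6))))))))))))) (branch (move 624 (branch (move 590 (branch (move 625 (leaf 589 3)) (move 558 (branch (move 655 (leaf 526 4)) (move 494 (leaf 493 5)))))) (branch (move 593 (branch (move 592 (leaf 589 2)) (move 625 (branch (move 594 (leaf 590 2)) (move 657 (branch (move 656 (leaf 621 0))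 (move 658 (leaf 622 0)))))))) (move 656 (branch (move 657 (leaf 621 0)) (move 655 (branch (move 620 (leaf 620 0)) (move 592 (branch (move 593 (leaf 589 2)) (move 687 (branch (move 560 (leaf 559 5)) (move 719 (leaf 591 6))))))))))))) (branch (ref 0) (branch (move 624 (branch (move 593 (branch (move 592 (leaf 589 2)) (move 625 (branch (move 594 (leaf 590 2)) (move 657 (branch (move 656 (leaf 621 0)) (move 658 (leaf 622 0)))))))) (branch (move 653 (branch (move 652 (leaf 620 1)) (move 625 (branch (move 654 (leaf 621 1)) (move 593 (branch (move 592 (leaf 589 2)) (move 594 (leaf 590 2)))))))) (branch (move 653 (branch (move 652 (leaf 620 1)) (move 625 (branch (move 654 (leaf 621 1)) (move 657 (branch (move 656 (leaf 621 0)) (move 658 (leaf 622 0)))))))) (move 592 (branch (move 593 (leaf 589 2)) (move 687 (branch (move 656 (branch (move 657 (leaf 621 0)) (move 655 (branch (move 560 (leaf 559 5)) (move 719 (leaf 591 6)))))) (branch (move 656 (branch (move 657 (leaf 621 0)) (move 688 (branch (move 719 (leaf 591 5)) (move 653 (branch (move 652 (leaf 620 1)) (move 689 (branch (move 721 (leaf 592 4)) (move 590 (branch (move 558 (leaf 525 5))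 (move 717 (branch (move 685 (leaf 589 6)) (move 686 (branch (move 718 (leaf 685 1)) (move 654 (leaf 653 3)))))))))))))))) (branch (move 656 (branch (move 657 (leaf 621 0)) (move 655 (branch (move 560 (leaf 559 5)) (move 653 (branch (move 652 (leaf 620 1)) (move 590 (branch (move 558 (leaf 526 4)) (move 685 (branch (move 717 (leaf 589 6)) (move 684 (branch (move 654 (leaf 652 1)) (move 686 (leaf 652 2)))))))))))))) (move 719 (branch (move 655 (leaf 591 6)) (move 653 (branch (move 652 (leaf 620 1)) (move 590 (branch (move 558 (leaf 525 5)) (move 686 (branch (move 654 (leaf 590 4)) (move 685 (branch (move 717 (leaf 589 6)) (move 720 (branch (move 684 (leaf 684 0)) (move 721 (branch (move 688 (leaf 685 0)) (move 718 (leaf 685 3)))))))))))))))))))))))))) (move 590 (branch (move 558 (branch (move 494 (leaf 493 5)) (move 653 (leaf 525 5)))) (branch (move 558 (branch (move 655 (leaf 526 4)) (move 494 (leaf 493 5)))) (move 620 (branch (move 619 (branch (move 618 (leaf 586 2)) (move 586 (leaf 586 3)))) (ref 1))))))))))))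
theorem a6p1057 : a6e1057.Valid :=
  pos_of_chk [a6e1055, a6e1056] (forall_cons a6p1055 (forall_cons a6p1056 forall_nil)) a6c1057 a6e1057 (by decide +kernel)

def a6e1058 : Pos := ⟨60915154120169385014511492233089521931176375485877837207897849321927883473321422015269069059794616314793579420118638708448068491076713687873399027324782370219734120789569577504310835544064, 2233186934201974177600892234668183558775369869790661427387098711059064130825273603215227976718940698853286683103006111178879704616264770914727207490706422573512066919173219558304828678538946167177216, 5⟩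
def a6c1058 : Cert := (move 624 (branch (move 593 (branch (move 592 (leaf 589 2)) (move 625 (branch (move 594 (leaf 590 2)) (move 657 (branch (move 656 (leaf 621 0)) (move 658 (leaf 622 0)))))))) (branch (move 653 (branch (move 652 (leaf 620 1)) (move 625 (branch (move 654 (leaf 621 1)) (move 657 (branch (move 656 (leaf 621 0)) (move 658 (leaf 622 0)))))))) (move 592 (branch (move 593 (leaf 589 2)) (move 620 (branch (move 591 (leaf 588 2)) (move 652 (branch (move 651 (leaf 619 1)) (move 653 (leaf 620 1)))))))))))
theorem a6p1058 : a6e1058.Valid :=
  pos_of_chk [] forall_nil a6c1058 a6e1058 (by decide +kernel)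

def a6e1059 : Pos := ⟨60915154122702048325596082662088741271541742222717003048264863145600511097317275373460578210312593643529433194480040772351640303670945147789227547172037946463968439431037999756429196525568, 1850745798967230912963205333209035128006371700489898832415363907364716336891962909071707025134969355744024693988946106454893197057543013170691459564598645195701277842319931553806962153274432706737149238190465554643678914412544, 10⟩
def a6c1059 : Cert := (move 651 (branch (move 652 (branch (move 620 (leaf 619 1)) (move 653 (branch (move 650 (leaf 618 2)) (move 654 (leaf 619 2)))))) (branch (move 620 (branch (move 652 (leaf 619 1)) (move 619 (branch (move 586 (leaf 586 3)) (move 590 (branch (move 618 (leaf 586 2)) (move 591 (leaf 587 2)))))))) (branch (move 653 (branch (move 652 (branch (move 650 (leaf 618 2)) (move 654 (leaf 619 2)))) (branch (move 590 (branch (move 558 (leaf 525 5)) (move 685 (branch (move 717 (leaf 589 6)) (move 686 (branch (move 718 (leaf 589 4)) (move 684 (branch (move 716 (leaf 588 5)) (move 687 (branch (move 652 (leaf 651 3)) (move 719 (branch (move 720 (leaf 684 0)) (move 654 (leaf 590 4))))))))))))))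 (move 590 (branch (move 558 (leaf 525 5)) (move 685 (branch (move 717 (leaf 589 6)) (move 684 (branch (move 716 (leaf 588 5)) (move 686 (branch (move 718 (leaf 589 4)) (move 683 (branch (move 650 (leaf 650 3)) (move 714 (branch (move 715 (leaf 682 1)) (move 682 (branch (move 713 (leaf 681 1)) (move 619 (leaf 586 5))))))))))))))))))) (move 619 (branch (move 620 (branch (move 650 (leaf 618 1)) (move 586 (leaf 586 3)))) (branch (move 590 (branch (move 558 (branch (move 494 (leaf 493 5)) (move 653 (leaf 525 5)))) (move 620 (branch (move 618 (leaf 586 2)) (move 591 (leaf 587 2)))))) (move 683 (branch (move 586 (branch (move 554 (leaf 554 7)) (move 715 (branch (move 618 (leaf 586 7)) (move 716 (branch (move 684 (leaf 587 4)) (move 748 (leaf 619 4)))))))) (branch (move 586 (branch (move 554 (leaf 554 7)) (move 715 (branch (move 618 (leaf 586 7)) (move 714 (branch (move 682 (leaf 586 5)) (move 746 (leaf 618 5)))))))) (move 684 (branch (move 716 (leaf 587 4)) (move 682 (branch (move 714 (leaf 586 5)) (move 685 (branch (move 650 (branch (move 649 (leaf 649 3)) (move 686 (leaf 650 3)))) (move 653 (branch (move 654 (leaf 650 2)) (move 590 (branch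 (move 558 (leaf 525 5)) (move 717 (leaf 589 6))))))))))))))))))))))
theorem a6p1059 : a6e1059.Valid :=
  pos_of_chk [] forall_nil a6c1059 a6e1059 (by decide +kernel)

def a6e1060 : Pos := ⟨26106494625462399745875229957466157310869527659358238929466092104498863398276462793306824461858527177933102097269390081809886880198537326147285245843590877766977513265569669753965861928960, 49229837982261381364314358585703353291765197567696310973262724854562126029867186226249326950930512504640265358315924080458750961324253837871702529145616926773547372646902821923998189891229403678729039085079121311418647444455424, 12⟩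
def a6c1060 : Cert := (move 623 (branch (ref 0) (branch (move 624 (branch (move 625 (branch (move 590 (leaf 589 3)) (move 657 (branch (move 656 (leaf 621 0)) (move 658 (leaf 622 0)))))) (branch (move 625 (branch (move 590 (leaf 589 3)) (move 593 (branch (move 592 (leaf 589 2)) (move 594 (leaf 590 2)))))) (move 592 (branch (move 593 (leaf 589 2)) (move 591 (branch (move 620 (leaf 588 2)) (move 656 (branch (move 657 (leaf 621 0)) (move 688 (branch (move 559 (leaf 559 7)) (move 720 (leaf 591 7))))))))))))) (branch (ref 1) (branch (move 624 (branch (move 625 (branch (move 590 (leaf 589 3)) (move 657 (branch (move 656 (leaf 621 0)) (move 658 (leaf 622 0)))))) (branch (move 625 (branch (move 590 (leaf 589 3)) (move 593 (branch (move 592 (leaf 589 2)) (move 594 (leaf 590 2)))))) (branch (move 593 (branch (move 592 (leaf 589 2)) (move 625 (branch (move 594 (leaf 590 2)) (move 657 (branch (move 656 (leaf 621 0)) (move 658 (leaf 622 0)))))))) (move 656 (branch (move 657 (leaf 621 0)) (move 688 (branch (move 592 (branch (move 593 (leaf 589 2)) (move 591 (branch (move 559 (leaf 559 7)) (move 720 (leaf 591 7)))))) (branch (move 592 (branch (move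 593 (leaf 589 2)) (move 653 (branch (move 652 (leaf 620 1)) (move 590 (branch (move 558 (leaf 525 5)) (move 685 (branch (move 717 (leaf 589 6)) (move 686 (branch (move 718 (leaf 589 4)) (move 687 (branch (move 719 (leaf 591 5)) (move 689 (branch (move 654 (leaf 653 3)) (move 721 (leaf 592 4)))))))))))))))) (move 653 (branch (move 652 (leaf 620 1)) (move 590 (branch (move 558 (leaf 525 5)) (move 685 (branch (move 717 (leaf 589 6)) (move 720 (branch (move 591 (leaf 591 7)) (move 686 (branch (move 718 (leaf 589 4)) (move 721 (branch (move 687 (leaf 685 0)) (move 753 (leaf 624 4))))))))))))))))))))))) (branch (move 624 (branch (move 625 (branch (move 590 (leaf 589 3)) (move 657 (branch (move 656 (leaf 621 0)) (move 658 (leaf 622 0)))))) (branch (move 653 (branch (move 652 (leaf 620 1)) (move 625 (branch (move 654 (leaf 621 1)) (move 657 (branch (move 656 (leaf 621 0)) (move 658 (leaf 622 0)))))))) (move 652 (branch (move 653 (leaf 620 1)) (move 620 (branch (move 651 (leaf 619 1)) (move 619 (branch (move 586 (leaf 586 3)) (move 590 (branch (move 618 (leaf 586 2)) (move 591 (leaf 587 2))))))))))))) (ref 2)))))))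
theorem a6p1060 : a6e1060.Valid :=
  pos_of_chk [a6e1058, a6e1055, a6e1059] (forall_cons a6p1058 (forall_cons a6p1055 (forall_cons a6p1059 forall_nil))) a6c1060 a6e1060 (by decide +kernel)

def a6e1061 : Pos := ⟨149502054219159247052707818785569327739285380265468986414168001681769807571325842296399229288807531311178095344875933057094422682045795697275322423442220165493640284119550118000176569745616121364480, 546243742519572857143861870787853111660342259886413614597736207102759721255818972009647135116099613594487817360852680897646236967434240800484479925807284154434215945818305193726562192507649739128675638845035788523503790322961167198656165568315392, 10⟩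
def a6c1061 : Cert := (move 687 (branch (move 718 (branch (move 686 (leaf 590 5)) (move 719 (branch (move 750 (leaf 622 5)) (move 720 (branch (move 688 (leaf 591 4)) (move 752 (leaf 623 4)))))))) (branch (move 720 (branch (move 688 (leaf 591 4)) (move 719 (branch (move 752 (leaf 623 4)) (move 750 (branch (move 718 (leaf 622 5)) (move 751 (branch (move 782 (leaf 654 5)) (move 654 (leaf 622 7)))))))))) (branch (move 656 (branch (move 657 (branch (move 654 (leaf 621 3)) (move 658 (leaf 622 3)))) (branch (move 686 (branch (move 718 (leaf 590 5)) (move 657 (branch (move 658 (leaf 654 1)) (move 685 (branch (move 684 (leaf 652 2)) (move 688 (leaf 653 2)))))))) (move 718 (branch (move 686 (leaf 590 5)) (move 719 (branch (move 750 (leaf 622 5)) (move 751 (branch (move 654 (leaf 622 7)) (move 783 (branch (move 688 (leaf 655 6)) (move 784 (branch (move 752 (leaf 655 4)) (move 816 (leaf 687 4))))))))))))))) (branch (move 718 (branch (move 686 (leaf 590 5)) (move 719 (branch (move 750 (leaf 622 5)) (move 751 (branch (move 654 (leaf 622 7)) (move 752 (branch (move 720 (leaf 623 4)) (move 784 (leaf 655 4)))))))))) (branch (move 656 (branch (move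 657 (branch (move 654 (leaf 621 3)) (move 658 (leaf 622 3)))) (branch (move 686 (branch (move 718 (leaf 590 5)) (move 657 (branch (move 658 (leaf 654 1)) (move 685 (branch (move 684 (leaf 652 2)) (move 688 (leaf 653 2)))))))) (move 686 (branch (move 718 (leaf 590 5)) (move 688 (branch (move 720 (leaf 591 4)) (move 685 (branch (move 684 (leaf 652 2)) (move 653 (branch (move 652 (leaf 652 3)) (move 689 (branch (move 654 (leaf 653 0)) (move 690 (branch (move 691 (leaf 655 3)) (move 722 (branch (move 721 (leaf 686 0)) (move 723 (leaf 687 0))))))))))))))))))) (move 719 (branch (move 751 (branch (move 654 (leaf 622 7)) (move 784 (branch (move 752 (leaf 655 4)) (move 783 (branch (move 816 (leaf 687 4)) (move 782 (branch (move 750 (leaf 654 5)) (move 814 (leaf 686 5)))))))))) (branch (move 720 (branch (move 688 (leaf 591 4)) (move 752 (leaf 623 4)))) (move 654 (branch (move 751 (leaf 622 7)) (move 688 (branch (move 720 (leaf 591 4)) (move 653 (branch (move 652 (leaf 652 0)) (move 689 (branch (move 656 (leaf 653 0)) (move 686 (leaf 653 3)))))))))))))))))))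
theorem a6p1061 : a6e1061.Valid :=
  pos_of_chk [] forall_nil a6c1061 a6e1061 (by decide +kernel)

def a6e1062 : Pos := ⟨26106494624955867083658311871710248147821290214166289926506810256354862259398209276288647197893719188559676341130694050729405826831545730557025019365577343241328836057676459084605326098432, 546243742519572857143861870788887296459673882507476129936231024250110438219745643228200831033959782349404422354302610283556365505162291909086422903239956474908670476857132947108742105495951774777224092221247544409941942017924875128371653443059712, 13⟩
def a6c1062 : Cert := (move 623 (branch (move 624 (branch (move 593 (branch (move 592 (leaf 589 2)) (move 625 (branch (move 594 (leaf 590 2)) (move 657 (branch (move 656 (leaf 621 0)) (move 658 (leaf 622 0)))))))) (branch (move 653 (branch (move 652 (leaf 620 1)) (move 625 (branch (move 654 (leaf 621 1)) (move 593 (branch (move 592 (leaf 589 2)) (move 594 (leaf 590 2)))))))) (move 656 (branch (move 657 (leaf 621 0)) (move 620 (branch (move 655 (leaf 620 0)) (move 652 (branch (move 651 (leaf 619 1)) (move 653 (leaf 620 1))))))))))) (branch (ref 0) (branch (ref 1) (branch (move 590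 (branch (move 558 (branch (move 655 (leaf 526 4)) (move 494 (leaf 493 5)))) (branch (move 558 (branch (move 653 (leaf 525 5)) (move 494 (leaf 493 5)))) (move 624 (branch (move 625 (leaf 589 3)) (move 653 (branch (move 652 (leaf 620 1)) (move 685 (branch (move 717 (leaf 589 6)) (move 656 (branch (move 657 (leaf 621 0)) (move 655 (branch (move 620 (leaf 620 0)) (move 684 (branch (move 654 (leaf 652 1)) (move 716 (leaf 588 5))))))))))))))))) (branch (move 620 (branch (move 656 (branch (move 655 (leaf 620 0)) (move 624 (branch (move 657 (leaf 621 0)) (move 592 (branch (move 591 (leaf 588 2)) (move 593 (leaf 589 2)))))))) (branch (move 655 (branch (move 656 (leaf 620 0)) (move 591 (branch (move 592 (leaf 588 2)) (move 558 (branch (move 590 (leaf 526 4)) (move 559 (leaf 526 7)))))))) (branch (move 592 (branch (move 591 (leaf 588 2)) (move 624 (branch (move 593 (leaf 589 2)) (move 625 (branch (move 590 (leaf 589 3)) (move 657 (branch (move 656 (leaf 621 0)) (move 658 (leaf 622 0)))))))))) (branch (move 592 (branch (move 591 (leaf 588 2)) (move 624 (branch (move 593 (leaf 589 2)) (move 590 (branch (move 625 (leaf 589 3)) (move 558 (branch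 (move 655 (leaf 526 4)) (move 494 (leaf 493 5)))))))))) (move 624 (branch (move 656 (branch (move 655 (leaf 620 0)) (move 657 (leaf 621 0)))) (branch (move 625 (branch (move 590 (leaf 589 3)) (move 658 (branch (move 657 (leaf 622 0)) (move 626 (branch (move 659 (leaf 623 0)) (move 594 (branch (move 593 (leaf 590 2)) (move 595 (leaf 591 2)))))))))) (move 590 (branch (move 625 (leaf 589 3)) (move 558 (branch (move 655 (leaf 526 4)) (move 494 (leaf 493 5)))))))))))))) (branch (move 590 (branch (move 558 (branch (move 655 (leaf 526 4)) (move 494 (leaf 493 5)))) (branch (move 558 (branch (move 653 (leaf 525 5)) (move 494 (leaf 493 5)))) (move 624 (branch (move 625 (leaf 589 3)) (move 592 (branch (move 593 (leaf 589 2)) (move 591 (branch (move 620 (leaf 588 1)) (move 560 (branch (move 561 (leaf 557 2)) (move 655 (branch (move 528 (leaf 527 5)) (move 687 (leaf 559 6))))))))))))))) (move 655 (branch (move 656 (branch (move 620 (leaf 620 0)) (move 657 (branch (move 654 (leaf 621 3)) (move 658 (leaf 622 3)))))) (branch (move 591 (branch (move 559 (branch (move 558 (leaf 526 7)) (move 654 (branch (move 686 (leaf 558 5)) (move 656 (branch (move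 657 (leaf 621 3)) (move 688 (leaf 559 4)))))))) (branch (move 559 (branch (move 558 (leaf 526 7)) (move 560 (branch (move 528 (leaf 527 6)) (move 687 (branch (move 592 (leaf 559 6)) (move 686 (branch (move 654 (leaf 558 5)) (move 718 (leaf 590 5)))))))))) (branch (move 559 (branch (move 558 (leaf 526 7)) (move 560 (branch (move 528 (leaf 527 6)) (move 687 (branch (move 592 (leaf 559 6)) (move 688 (branch (move 656 (leaf 559 4)) (move 720 (leaf 591 4)))))))))) (ref 2))))) (move 558 (branch (move 590 (leaf 526 4)) (move 591 (branch (move 559 (leaf 526 7)) (move 592 (branch (move 620 (leaf 588 2)) (move 687 (branch (move 560 (leaf 559 6)) (move 718 (branch (move 686 (leaf 590 5)) (move 719 (branch (move 750 (leaf 622 5)) (move 720 (branch (move 688 (leaf 591 4)) (move 752 (leaf 623 4))))))))))))))))))))))))))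
theorem a6p1062 : a6e1062.Valid :=
  pos_of_chk [a6e1058, a6e1036, a6e1061] (forall_cons a6p1058 (forall_cons a6p1036 (forall_cons a6p1061 forall_nil))) a6c1062 a6e1062 (by decide +kernel)

def a6e1063 : Pos := ⟨37375513565667517856570877539772016490991485242249730610662984036096954274272348548532900543618730968845164977959987481958551950887394468280223127678449624473751218139336803736648575136850040061952, 4826195735190563745541116293887616682930990296201796407625384191946977127200615404465159985191810879646856590209829352505944085333481759967026470485999777005541408492116367579620720630122212753656827927514966212476928, 10⟩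
def a6c1063 : Cert := (move 620 (branch (move 619 (branch (move 586 (leaf 586 3)) (move 590 (branch (move 591 (leaf 587 2)) (move 558 (leaf 525 5)))))) (branch (move 619 (branch (move 586 (leaf 586 3)) (move 654 (branch (move 618 (leaf 618 0)) (move 655 (leaf 619 0)))))) (move 590 (branch (move 558 (leaf 525 5)) (move 685 (branch (move 717 (leaf 589 6)) (move 686 (branch (move 718 (leaf 589 4)) (move 591 (branch (move 592 (leaf 588 1)) (move 654 (branch (move 559 (leaf 558 6)) (move 656 (branch (move 655 (leaf 620 3)) (move 687 (branch (move 719 (leaf 590 4)) (move 688 (branch (move 657 (leaf 653 2)) (move 689 (leaf 653 3)))))))))))))))))))))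
theorem a6p1063 : a6e1063.Valid :=
  pos_of_chk [] forall_nil a6c1063 a6e1063 (by decide +kernel)

def a6e1064 : Pos := ⟨37375513565667517856570877539772016490991485242249730610662984036096954274272348548532900543618730968845164977959987481958551950887394468280223127678449624473751218139336803736648575136850040061952, 22019518021650824827360276871020877451431072797465031866539536779971381059830983615372618310309234810303562954682007272612208911120254175948207694906046736283303964486296964324112046088347316437828300673419900270673920, 9⟩
def a6c1064 : Cert := (move 685 (branch (move 590 (branch (move 558 (leaf 525 5)) (move 717 (leaf 589 6)))) (move 686 (branch (move 718 (leaf 589 4)) (move 684 (branch (move 716 (leaf 588 5)) (move 687 (branch (move 720 (branch (move 719 (leaf 684 0)) (move 688 (branch (move 721 (leaf 685 0)) (move 656 (branch (move 655 (leaf 652 2)) (move 657 (leaf 653 2)))))))) (move 651 (branch (move 652 (leaf 651 3)) (move 683 (branch (move 650 (leaf 650 3)) (move 714 (branch (move 715 (leaf 682 1)) (move 682 (branch (move 713 (leaf 681 1)) (move 619 (leaf 586 5))))))))))))))))))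
theorem a6p1064 : a6e1064.Valid :=
  pos_of_chk [] forall_nil a6c1064 a6e1064 (by decide +kernel)

def a6e1065 : Pos := ⟨37375513565667517856570877539772016490991485242249730610662984036096954274272348548532900543618730968845164977959987481958551950887394468280223127678449624473751218139336803736648575136850040061952, 5170923999146275521684080118592117593691125823527024532797158132893216123474712649441362391895261759166386789611755203004909301338507115037108975782857631207543037195931456240528665263338697275830375024962315141251072, 10⟩
def a6c1065 : Cert := (move 620 (branch (move 619 (branch (move 586 (leaf 586 3)) (move 590 (branch (move 618 (leaf 586 2)) (move 558 (leaf 525 5)))))) (branch (move 619 (branch (move 586 (leaf 586 3)) (move 618 (branch (move 654 (leaf 618 0)) (move 650 (branch (move 649 (leaf 617 1)) (move 651 (leaf 618 1)))))))) (move 590 (branch (move 558 (leaf 525 5)) (move 685 (branch (move 717 (leaf 589 6)) (move 686 (branch (move 718 (leaf 589 4)) (move 684 (branch (move 716 (leaf 588 5)) (move 591 (branch (move 592 (leaf 588 1)) (move 654 (branch (move 559 (leaf 558 6)) (move 687 (branch (move 719 (leaf 590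 4)) (move 652 (branch (move 651 (leaf 651 0)) (move 688 (leaf 652 3)))))))))))))))))))))
theorem a6p1065 : a6e1065.Valid :=
  pos_of_chk [] forall_nil a6c1065 a6e1065 (by decide +kernel)

def a6e1066 : Pos := ⟨160526608360995310539574679809193271438539589457969206371773874417187199971027786291468771631099513500417135734299280254698166085490062791308426763277855781140361951674061394932745526381718898799212801032192, 136560935629893214285965467676279581923416590264754579761459720173395118671335210538908237702783097965332312290707558256456135835758266867896473095379393902285955700159627461700655810243304349366907365161358703437978441514440646658743381637726208, 6⟩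
def a6c1066 : Cert := (move 717 (branch (move 716 (branch (move 684 (leaf 588 5)) (move 748 (leaf 620 5)))) (branch (move 749 (branch (move 654 (leaf 621 6)) (move 782 (branch (move 750 (leaf 653 4)) (move 781 (branch (move 814 (leaf 685 4)) (move 780 (branch (move 748 (leaf 652 5)) (move 812 (leaf 684 5)))))))))) (move 749 (branch (move 654 (leaf 621 6)) (move 684 (branch (move 716 (leaf 588 5)) (move 781 (branch (move 652 (leaf 652 7)) (move 782 (branch (move 750 (leaf 653 4)) (move 814 (leaf 685 4)))))))))))))
theorem a6p1066 : a6e1066.Valid :=
  pos_of_chk [] forall_nil a6c1066 a6e1066 (by decide +kernel)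

def a6e1067 : Pos := ⟨160526608360995310539574679809193271438539589457969206371773874417187199971027786291468771631099513500417135734299280254698166085490062791308426763277855781140361951674061394932745526381718898799212801032192, 31795570540682695406946695334423405628209294374873190230232689173536502741279491416926014627317130735507690649326940399786836870212296840673784639704538751456375938490472197222238290770367869874023734096361710430469089830421025335017472, 5⟩
def a6c1067 : Cert := (move 717 (branch (move 750 (branch (move 718 (leaf 621 4)) (move 749 (branch (move 782 (leaf 653 4)) (move 748 (branch (move 716 (leaf 620 5)) (move 780 (leaf 652 5)))))))) (branch (move 748 (branch (move 716 (leaf 620 5)) (move 749 (branch (move 780 (leaf 652 5)) (move 654 (leaf 621 6)))))) (branch (move 718 (branch (move 686 (leaf 589 4)) (move 750 (leaf 621 4)))) (move 686 (branch (move 718 (leaf 589 4)) (move 748 (branch (move 716 (leaf 620 5)) (move 749 (branch (move 780 (leaf 652 5)) (move 654 (leaf 621 6))))))))))))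
theorem a6p1067 : a6e1067.Valid :=
  pos_of_chk [] forall_nil a6c1067 a6e1067 (by decide +kernel)

def a6e1068 : Pos := ⟨37375513565667517856064344877555098405015902554077313654591614207567067843175725480050061253499930874186419606717836732151934011305746869153958050123662010538549779997697193926752995562173822402560, 136560935629893214285965467696963277912497073412983042639867126243330616973933681775307394824861713630366396286998309780529347341039370888217089776412844123768500883174176893095655175421405607671728496006197443669593165733211912637343242628628480, 8⟩
def a6c1068 : Cert := (move 685 (branch (move 716 (branch (move 684 (leaf 588 5)) (move 717 (branch (move 748 (leaf 620 5)) (move 718 (branch (move 686 (leaf 589 4)) (move 750 (leaf 621 4)))))))) (branch (ref 0) (branch (ref 1) (branch (move 718 (branch (move 686 (leaf 589 4)) (move 717 (branch (move 750 (leaf 621 4)) (move 749 (branch (move 654 (leaf 621 6)) (move 652 (branch (move 620 (leaf 620 7)) (move 781 (branch (move 684 (leaf 652 7)) (move 780 (branch (move 748 (leaf 652 5)) (move 812 (leaf 684 5)))))))))))))) (ref 2))))))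
theorem a6p1068 : a6e1068.Valid :=
  pos_of_chk [a6e1066, a6e1067, a6e1039] (forall_cons a6p1066 (forall_cons a6p1067 (forall_cons a6p1039 forall_nil))) a6c1068 a6e1068 (by decide +kernel)

def a6e1069 : Pos := ⟨37375513567843059079200616873739914470857996519053464071529077991625527666540588711144393692923135859148070665178439230975863959188935938423907899288625442673699532522097221683133662211572603289600, 1589778529106970055510232756047057116560871798771291188934372939143727493653119808440481103094517165162333394301796560683911559560419073718637461541601221169026121240095840907937792347612834895834342660001180758413398202202359527899136, 9⟩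
def a6c1069 : Cert := (move 683 (branch (move 651 (branch (move 586 (branch (move 554 (leaf 554 7)) (move 715 (branch (move 618 (leaf 586 7)) (move 714 (branch (move 682 (leaf 586 5)) (move 746 (leaf 618 5)))))))) (branch (move 682 (branch (move 714 (leaf 586 5)) (move 652 (branch (move 654 (leaf 650 1)) (move 681 (branch (move 650 (leaf 649 1)) (move 680 (leaf 648 2)))))))) (move 586 (branch (move 554 (leaf 554 7)) (move 618 (branch (move 715 (leaf 586 7)) (move 652 (branch (move 654 (leaf 618 3)) (move 617 (branch (move 616 (leaf 616 0)) (move 650 (leaf 618 2))))))))))))) (branch (move 685 (branch (move 717 (leaf 589 6)) (move 684 (branch (move 716 (leaf 588 5)) (move 682 (branch (move 654 (leaf 650 2)) (move 714 (branch (move 713 (leaf 681 1)) (move 651 (leaf 586 5)))))))))) (branch (move 685 (branch (move 717 (leaf 589 6)) (move 684 (branch (move 716 (leaf 588 5)) (move 682 (branch (move 654 (leaf 650 2)) (move 681 (branch (move 652 (leaf 649 2)) (move 649 (branch (move 648 (leaf 648 3)) (move 650 (leaf 649 3)))))))))))) (branch (move 651 (branch (move 586 (branch (move 554 (leaf 554 7)) (move 715 (branch (move 618 (leaf 586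 7)) (move 716 (branch (move 684 (leaf 587 4)) (move 748 (leaf 619 4)))))))) (branch (move 586 (branch (move 554 (leaf 554 7)) (move 715 (branch (move 618 (leaf 586 7)) (move 714 (branch (move 682 (leaf 586 5)) (move 746 (leaf 618 5)))))))) (move 684 (branch (move 716 (leaf 587 4)) (move 682 (branch (move 714 (leaf 586 5)) (move 681 (branch (move 652 (leaf 649 2)) (move 648 (branch (move 649 (leaf 648 3)) (move 680 (branch (move 647 (leaf 647 3)) (move 712 (branch (move 711 (leaf 679 1)) (move 713 (leaf 680 1))))))))))))))))) (move 651 (branch (move 586 (branch (move 554 (leaf 554 7)) (move 618 (branch (move 715 (leaf 586 7)) (move 652 (branch (move 654 (leaf 618 3)) (move 617 (branch (move 616 (leaf 616 0)) (move 650 (leaf 618 2)))))))))) (branch (move 716 (branch (move 684 (leaf 587 4)) (move 715 (branch (move 748 (leaf 619 4)) (move 746 (branch (move 714 (leaf 618 5)) (move 747 (branch (move 778 (leaf 650 5)) (move 717 (branch (move 718 (leaf 714 1)) (move 685 (leaf 589 6)))))))))))) (move 652 (branch (move 650 (leaf 618 2)) (move 684 (branch (move 716 (leaf 587 4)) (move 654 (branch (move 655 (leaf 651 1)) (move 618 (leaf 618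 3))))))))))))))))
theorem a6p1069 : a6e1069.Valid :=
  pos_of_chk [] forall_nil a6c1069 a6e1069 (by decide +kernel)

def a6e1070 : Pos := ⟨37375513567843059075148355576004569785030396739791744020872906793521877464341201529722951329878340578123544132059758175534217619046254057247248616531071018306779159932898736621990345762003998474240, 1850745789347157728813103003794429764726876543554260491806803516415684051858645633532162624351395825980589791244027391378978911793817573007540885224407740282475324083599691778800529708493425377541251305137056177460247760207872, 9⟩
def a6c1070 : Cert := (move 651 (branch (move 590 (branch (move 558 (leaf 525 5)) (move 685 (branch (move 717 (leaf 589 6)) (move 650 (branch (move 652 (leaf 618 2)) (move 684 (branch (move 716 (leaf 588 5)) (move 683 (branch (move 686 (leaf 650 3)) (move 649 (branch (move 648 (leaf 648 0)) (move 682 (leaf 649 3)))))))))))))) (branch (move 683 (branch (move 586 (branch (move 554 (leaf 554 7)) (move 715 (branch (move 618 (leaf 586 7)) (move 714 (branch (move 682 (leaf 586 5)) (move 746 (leaf 618 5)))))))) (branch (move 682 (branch (move 714 (leaf 586 5)) (move 652 (branch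 (move 654 (leaf 650 1)) (move 681 (branch (move 650 (leaf 649 1)) (move 680 (leaf 648 2)))))))) (move 586 (branch (move 554 (leaf 554 7)) (move 618 (branch (move 715 (leaf 586 7)) (move 652 (branch (move 654 (leaf 618 3)) (move 617 (branch (move 616 (leaf 616 0)) (move 650 (leaf 618 2))))))))))))) (branch (move 683 (branch (move 586 (branch (move 554 (leaf 554 7)) (move 715 (branch (move 618 (leaf 586 7)) (move 716 (branch (move 684 (leaf 587 4)) (move 748 (leaf 619 4)))))))) (branch (move 586 (branch (move 554 (leaf 554 7)) (move 715 (branch (move 618 (leaf 586 7)) (move 714 (branch (move 682 (leaf 586 5)) (move 746 (leaf 618 5)))))))) (move 684 (branch (move 716 (leaf 587 4)) (move 682 (branch (move 714 (leaf 586 5)) (move 685 (branch (move 654 (leaf 650 2)) (move 650 (branch (move 649 (leaf 649 3)) (move 686 (leaf 650 3))))))))))))) (branch (move 683 (branch (move 586 (branch (move 554 (leaf 554 7)) (move 715 (branch (move 618 (leaf 586 7)) (move 716 (branch (move 684 (leaf 587 4)) (move 748 (leaf 619 4)))))))) (branch (move 586 (branch (move 554 (leaf 554 7)) (move 715 (branch (move 618 (leaf 586 7)) (move 714 (branch (move 682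 (leaf 586 5)) (move 746 (leaf 618 5)))))))) (move 684 (branch (move 716 (leaf 587 4)) (move 682 (branch (move 714 (leaf 586 5)) (move 681 (branch (move 652 (leaf 649 2)) (move 648 (branch (move 649 (leaf 648 3)) (move 680 (branch (move 647 (leaf 647 3)) (move 712 (branch (move 711 (leaf 679 1)) (move 713 (leaf 680 1))))))))))))))))) (move 590 (branch (move 558 (leaf 525 5)) (move 652 (branch (move 650 (leaf 618 2)) (move 654 (branch (move 618 (leaf 618 3)) (move 685 (branch (move 717 (leaf 589 6)) (move 687 (branch (move 686 (leaf 651 0)) (move 655 (branch (move 688 (leaf 652 0)) (move 684 (branch (move 656 (leaf 652 1)) (move 716 (leaf 588 5)))))))))))))))))))))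
theorem a6p1070 : a6e1070.Valid :=
  pos_of_chk [] forall_nil a6c1070 a6e1070 (by decide +kernel)

def a6e1071 : Pos := ⟨26106494625462399745875229957466157310869527659358238929466092104498863398276462793306824461858527177933102097269390081809886880198537326147285245843590877766977513265569669753965861928960, 136560935631482992825436614162742910351007695891374556345302915371937827420838969302504671275392905983411505567227574527827177922463945134614560356659339615380744676641437958364895133927693447265939651307015071078878158530183824877667947202478080, 12⟩
def a6c1071 : Cert := (move 653 (branch (ref 0) (branch (ref 1) (branch (ref 2) (branch (ref 3) (branch (move 620 (branch (move 619 (branch (move 586 (leaf 586 3)) (move 590 (branch (move 618 (leaf 586 2)) (move 558 (leaf 525 5)))))) (branch (move 619 (branch (move 586 (leaf 586 3)) (move 654 (branch (move 655 (leaf 619 0)) (move 618 (leaf 618 0)))))) (move 652 (branch (move 651 (branch (move 650 (leaf 618 2)) (move 654 (branch (move 623 (leaf 619 1)) (move 686 (branch (move 687 (leaf 651 0)) (move 718 (leaf 589 7)))))))) (branch (move 623 (branch (move 651 (leaf 619 1)) (move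 655 (branch (move 656 (leaf 620 0)) (move 591 (branch (move 592 (leaf 588 2)) (move 558 (branch (move 590 (leaf 526 4)) (move 559 (leaf 526 7)))))))))) (move 654 (branch (move 655 (branch (move 656 (leaf 620 3)) (move 684 (branch (move 683 (leaf 651 1)) (move 716 (leaf 588 6)))))) (branch (move 590 (branch (move 558 (leaf 525 5)) (move 655 (branch (move 656 (leaf 620 3)) (move 687 (branch (move 688 (leaf 652 0)) (move 719 (branch (move 686 (leaf 590 4)) (move 751 (leaf 622 7)))))))))) (move 590 (branch (move 558 (leaf 525 5)) (move 686 (branch (move 719 (branch (move 687 (leaf 590 4)) (move 718 (branch (move 751 (leaf 622 4)) (move 750 (leaf 621 7)))))) (move 591 (branch (move 559 (leaf 558 6)) (move 592 (leaf 588 1))))))))))))))))) (branch (move 590 (branch (move 558 (leaf 525 5)) (move 619 (branch (move 620 (branch (move 591 (leaf 587 2)) (move 586 (leaf 586 3)))) (branch (move 620 (branch (move 618 (leaf 586 2)) (move 591 (leaf 587 2)))) (ref 4)))))) (branch (move 619 (branch (move 620 (branch (move 586 (leaf 586 3)) (move 618 (branch (move 654 (leaf 618 0)) (move 650 (branch (move 649 (leaf 617 1)) (move 651 (leaf 618 1))))))))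 (branch (move 620 (branch (move 586 (leaf 586 3)) (move 590 (branch (move 591 (leaf 587 2)) (move 558 (leaf 525 5)))))) (branch (move 590 (branch (move 558 (leaf 525 5)) (move 620 (branch (move 591 (leaf 587 2)) (move 618 (leaf 586 2)))))) (ref 5))))) (move 590 (branch (move 558 (leaf 525 5)) (move 686 (branch (move 718 (branch (move 685 (leaf 589 4)) (move 654 (leaf 589 7)))) (branch (move 654 (branch (move 718 (leaf 589 7)) (move 591 (branch (move 559 (leaf 558 6)) (move 620 (branch (move 592 (leaf 588 1)) (move 619 (leaf 587 2)))))))) (branch (move 685 (branch (move 718 (leaf 589 4)) (move 684 (branch (move 716 (leaf 588 5)) (move 687 (branch (move 720 (branch (move 719 (leaf 684 0)) (move 688 (branch (move 721 (leaf 685 0)) (move 656 (branch (move 655 (leaf 652 2)) (move 657 (leaf 653 2)))))))) (move 651 (branch (move 652 (leaf 651 3)) (move 683 (branch (move 650 (leaf 650 3)) (move 714 (branch (move 715 (leaf 682 1)) (move 682 (branch (move 713 (leaf 681 1)) (move 619 (leaf 586 5)))))))))))))))) (move 654 (branch (move 687 (branch (move 719 (leaf 590 4)) (move 652 (branch (move 651 (leaf 651 0)) (move 688 (branch (move 685 (leaf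 652 3)) (move 689 (leaf 653 3)))))))) (move 591 (branch (move 559 (leaf 558 6)) (move 620 (branch (move 619 (leaf 587 2)) (move 592 (leaf 588 1))))))))))))))))))))))
theorem a6p1071 : a6e1071.Valid :=
  pos_of_chk [a6e1063, a6e1064, a6e1065, a6e1068, a6e1069, a6e1070] (forall_cons a6p1063 (forall_cons a6p1064 (forall_cons a6p1065 (forall_cons a6p1068 (forall_cons a6p1069 (forall_cons a6p1070 forall_nil)))))) a6c1071 a6e1071 (by decide +kernel)

def a6e1072 : Pos := ⟨26106494625462399745875229957466157310869527659358238929466092104498863398276462793306824461858527177933102097269390081809886880198537326147285245843590877766977513265569669753965861928960, 136560935631482992813591841119677198875820912344436150383154420010007349484237152649134150405588638404189021634876724384491852018534143610074300854375112821503673678086743386300036571275109154184437026348436818272714720821002308485234094464040960, 12⟩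
def a6c1072 : Cert := (move 653 (branch (ref 0) (branch (ref 1) (branch (ref 2) (branch (ref 3) (branch (move 654 (branch (move 686 (branch (move 590 (branch (move 558 (leaf 525 5)) (move 687 (branch (move 719 (leaf 590 4)) (move 652 (branch (move 651 (leaf 651 0)) (move 688 (branch (move 655 (leaf 652 0)) (move 689 (leaf 653 3)))))))))) (move 718 (leaf 589 7)))) (branch (move 655 (branch (move 656 (branch (move 620 (leaf 620 3)) (move 689 (branch (move 688 (leaf 653 0)) (move 657 (branch (move 690 (leaf 654 0)) (move 625 (branch (move 624 (leaf 621 2)) (move 626 (leaf 622 2)))))))))) (branch (move 656 (branch (move 657 (leaf 621 3)) (move 688 (branch (move 689 (leaf 653 0)) (move 652 (branch (move 687 (leaf 652 0)) (move 651 (branch (move 650 (leaf 618 2)) (move 683 (branch (move 682 (leaf 650 1)) (move 684 (leaf 651 1)))))))))))) (move 652 (branch (move 620 (branch (move 619 (leaf 619 3)) (move 684 (branch (move 683 (leaf 651 1)) (move 716 (leaf 588 6)))))) (branch (move 651 (branch (move 650 (leaf 618 2)) (move 683 (branch (move 682 (leaf 650 1)) (move 684 (leaf 651 1)))))) (move 619 (branch (move 620 (leaf 619 0)) (move 651 (branch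 (move 650 (leaf 618 2)) (move 618 (leaf 618 3)))))))))))) (move 590 (branch (move 558 (leaf 525 5)) (move 686 (branch (move 718 (leaf 589 7)) (move 591 (branch (move 559 (leaf 558 6)) (move 620 (branch (move 592 (leaf 588 1)) (move 619 (leaf 587 2))))))))))))) (branch (move 619 (branch (move 620 (branch (move 586 (leaf 586 3)) (move 618 (branch (move 654 (leaf 618 0)) (move 650 (branch (move 649 (leaf 617 1)) (move 651 (leaf 618 1)))))))) (branch (move 620 (branch (move 586 (leaf 586 3)) (move 590 (branch (move 591 (leaf 587 2)) (move 558 (leaf 525 5)))))) (branch (move 590 (branch (move 558 (leaf 525 5)) (move 620 (branch (move 591 (leaf 587 2)) (move 618 (leaf 586 2)))))) (ref 4))))) (move 590 (branch (move 558 (leaf 525 5)) (move 619 (branch (move 620 (branch (move 591 (leaf 587 2)) (move 586 (leaf 586 3)))) (branch (move 620 (branch (move 618 (leaf 586 2)) (move 591 (leaf 587 2)))) (ref 5)))))))))))))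
theorem a6p1072 : a6e1072.Valid :=
  pos_of_chk [a6e1063, a6e1064, a6e1065, a6e1068, a6e1070, a6e1069] (forall_cons a6p1063 (forall_cons a6p1064 (forall_cons a6p1065 (forall_cons a6p1068 (forall_cons a6p1070 (forall_cons a6p1069 forall_nil)))))) a6c1072 a6e1072 (by decide +kernel)

def a6e1073 : Pos := ⟨37375513565667517856064344877555098405235576079201493165471035033137672426128347409654647026600553704880356988586561725819855919806913414913231532088189397995737683613688126528755364467489504231424, 2413097865729160051605318239196856092876776206864634182289235191499861048236681294149706015684500994365755384821748793614520021299832723589055874397144310488120580145258881675106771724441256480879506327286169970147328, 12⟩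
def a6c1073 : Cert := (move 623 (branch (move 652 (branch (move 624 (leaf 620 1)) (move 651 (branch (move 650 (leaf 618 2)) (move 654 (leaf 619 2)))))) (branch (move 590 (branch (move 558 (leaf 525 5)) (move 624 (branch (move 652 (leaf 620 1)) (move 625 (leaf 589 3)))))) (branch (move 590 (branch (move 558 (leaf 525 5)) (move 624 (branch (move 625 (leaf 589 3)) (move 685 (branch (move 717 (leaf 589 6)) (move 592 (branch (move 593 (leaf 589 2)) (move 656 (branch (move 657 (leaf 621 0)) (move 686 (branch (move 718 (leaf 589 4)) (move 684 (branch (move 716 (leaf 588 5)) (move 655 (branch (move 654 (leaf 652 1)) (move 560 (branch (move 528 (leaf 527 5)) (move 561 (branch (move 591 (leaf 557 2)) (move 529 (leaf 528 6)))))))))))))))))))))) (move 651 (branch (move 652 (branch (move 650 (leaf 618 2)) (move 654 (leaf 619 2)))) (branch (move 590 (branch (move 558 (leaf 525 5)) (move 685 (branch (move 717 (leaf 589 6)) (move 686 (branch (move 718 (leaf 589 4)) (move 684 (branch (move 716 (leaf 588 5)) (move 683 (branch (move 650 (leaf 650 3)) (move 654 (branch (move 682 (leaf 650 2)) (move 655 (leaf 651 2)))))))))))))) (branch (move 590 (branch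 (move 558 (leaf 525 5)) (move 685 (branch (move 717 (leaf 589 6)) (move 650 (branch (move 652 (leaf 618 2)) (move 684 (branch (move 716 (leaf 588 5)) (move 683 (branch (move 686 (leaf 650 3)) (move 649 (branch (move 648 (leaf 648 0)) (move 682 (leaf 649 3)))))))))))))) (move 590 (branch (move 558 (leaf 525 5)) (move 654 (branch (move 652 (leaf 619 2)) (move 685 (branch (move 717 (leaf 589 6)) (move 684 (branch (move 716 (leaf 588 5)) (move 655 (branch (move 656 (leaf 652 1)) (move 683 (branch (move 682 (leaf 650 2)) (move 686 (leaf 651 2))))))))))))))))))))))
theorem a6p1073 : a6e1073.Valid :=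
  pos_of_chk [] forall_nil a6c1073 a6e1073 (by decide +kernel)

def a6e1074 : Pos := ⟨37375513565667517860623138837507361176819085021511450661319155234200604476471735729954342906663526249869691511078668537400198291030076349456882410436004048840671590728535288797791891586418644877312, 11844773047547178949050258726657061346653908722754916193972203177401632999102969545601838142211968533713573914812436019855879342570991002685190294118000843390300224544230490871472413164172637420395163652171681218362208233193472, 11⟩
def a6c1074 : Cert := (move 654 (branch (move 686 (branch (move 718 (leaf 589 7)) (move 687 (branch (move 719 (leaf 590 4)) (move 652 (branch (move 651 (leaf 651 0)) (move 688 (branch (move 655 (leaf 652 0)) (move 689 (leaf 653 3)))))))))) (branch (move 686 (branch (move 718 (leaf 589 7)) (move 591 (branch (move 559 (leaf 558 6)) (move 592 (branch (move 593 (leaf 589 1)) (move 624 (branch (move 625 (leaf 589 0)) (move 687 (branch (move 719 (leaf 590 4)) (move 560 (branch (move 561 (leaf 557 2)) (move 655 (branch (move 656 (leaf 559 5)) (move 623 (leaf 559 6)))))))))))))))) (branch (move 652 (branch (move 623 (branch (move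 624 (leaf 620 1)) (move 651 (leaf 619 2)))) (branch (move 651 (branch (move 650 (leaf 618 2)) (move 683 (branch (move 682 (leaf 650 1)) (move 655 (branch (move 684 (leaf 651 1)) (move 656 (branch (move 657 (leaf 621 3)) (move 688 (branch (move 687 (leaf 652 0)) (move 689 (leaf 653 0)))))))))))) (move 655 (branch (move 687 (branch (move 688 (leaf 652 0)) (move 719 (branch (move 623 (leaf 590 7)) (move 751 (leaf 622 7)))))) (branch (move 656 (branch (move 657 (leaf 621 3)) (move 688 (branch (move 687 (leaf 652 0)) (move 689 (leaf 653 0)))))) (move 624 (branch (move 623 (leaf 620 1)) (move 656 (branch (move 625 (leaf 621 2)) (move 657 (leaf 621 3)))))))))))) (branch (move 686 (branch (move 718 (leaf 589 7)) (move 591 (branch (move 559 (leaf 558 6)) (move 592 (branch (move 593 (leaf 589 1)) (move 624 (branch (move 625 (leaf 589 0)) (move 652 (branch (move 623 (leaf 620 1)) (move 651 (branch (move 650 (leaf 618 2)) (move 683 (branch (move 682 (leaf 650 1)) (move 619 (branch (move 618 (leaf 618 3)) (move 684 (branch (move 655 (leaf 651 1)) (move 716 (leaf 587 4)))))))))))))))))))) (move 686 (branch (move 718 (leaf 589 7)) (move 687 (branch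 (move 719 (leaf 590 4)) (move 652 (branch (move 651 (leaf 651 0)) (move 624 (branch (move 623 (leaf 620 1)) (move 591 (branch (move 559 (leaf 558 6)) (move 592 (branch (move 625 (leaf 589 0)) (move 593 (leaf 589 1)))))))))))))))))))
theorem a6p1074 : a6e1074.Valid :=
  pos_of_chk [] forall_nil a6c1074 a6e1074 (by decide +kernel)

def a6e1075 : Pos := ⟨37375513600476177351277862808408278766614849862556578437182582314528711491701368623577859765580975566781254114820464804807800577525576079158399489404563405954942710592093411260648482887195013677056, 50872912884043949535463677259672443750537044796612347671738728365304329265534167268488727468969912570949461631678084089004442390418781673623367529565778604872725371270557237407457743482209914762576703389391630405139913858279995313487872, 9⟩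
def a6c1075 : Cert := (move 624 (branch (move 625 (branch (move 654 (leaf 621 1)) (move 657 (branch (move 656 (leaf 621 0)) (move 658 (leaf 622 0)))))) (branch (move 625 (branch (move 654 (leaf 621 1)) (move 593 (branch (move 592 (leaf 589 2)) (move 594 (leaf 590 2)))))) (branch (move 593 (branch (move 592 (leaf 589 2)) (move 625 (branch (move 594 (leaf 590 2)) (move 657 (branch (move 656 (leaf 621 0)) (move 658 (leaf 622 0)))))))) (move 656 (branch (move 657 (leaf 621 0)) (move 688 (branch (move 592 (branch (move 593 (leaf 589 2)) (move 591 (branch (move 559 (leaf 559 7)) (move 720 (leaf 591 7)))))) (branch (move 720 (branch (move 591 (leaf 591 7)) (move 752 (branch (move 655 (leaf 623 7)) (move 751 (branch (move 719 (leaf 623 5)) (move 783 (leaf 655 5)))))))) (move 592 (branch (move 593 (leaf 589 2)) (move 687 (branch (move 719 (leaf 591 5)) (move 655 (branch (move 560 (leaf 559 5)) (move 689 (branch (move 721 (leaf 592 4)) (move 690 (branch (move 654 (leaf 653 0)) (move 691 (leaf 655 3)))))))))))))))))))))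
theorem a6p1075 : a6e1075.Valid :=
  pos_of_chk [] forall_nil a6c1075 a6e1075 (by decide +kernel)

def a6e1076 : Pos := ⟨160526608360995310574383339306432920018260442162811463857570268491425384915397161915523041259744911853671512313447284102163222176368635390351346732509537084746831640459696367245727385149189597706991817457664, 25436456465711520854207989849021430647481919746715459851760314125898435013034255402960880897249847420267125589544682157138897796250839769491416474084327454497711697628643253933188382606312046076839328378710869177163340776227633746673664, 11⟩
def a6c1076 : Cert := (move 655 (branch (move 684 (branch (move 716 (leaf 588 5)) (move 654 (branch (move 656 (leaf 652 1)) (move 652 (branch (move 683 (leaf 651 1)) (move 651 (leaf 619 2)))))))) (branch (move 591 (branch (move 558 (branch (move 590 (leaf 526 4)) (move 559 (leaf 526 7)))) (branch (move 590 (branch (move 558 (leaf 526 4)) (move 687 (branch (move 719 (leaf 590 7)) (move 592 (branch (move 593 (leaf 589 1)) (move 560 (leaf 559 6)))))))) (branch (move 559 (branch (move 558 (leaf 526 7)) (move 560 (branch (move 528 (leaf 527 6)) (move 687 (branch (move 592 (leaf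 559 6)) (move 688 (branch (move 656 (leaf 559 4)) (move 720 (leaf 591 4)))))))))) (move 687 (branch (move 719 (branch (move 590 (leaf 590 7)) (move 720 (branch (move 688 (leaf 591 4)) (move 752 (leaf 623 4)))))) (branch (move 688 (branch (move 720 (leaf 591 4)) (move 560 (branch (move 592 (leaf 559 6)) (move 559 (branch (move 656 (leaf 559 4)) (move 528 (leaf 527 6)))))))) (move 592 (branch (move 560 (leaf 559 6)) (move 593 (branch (move 590 (leaf 589 1)) (move 594 (leaf 590 1))))))))))))) (move 591 (branch (move 558 (branch (move 590 (leaf 526 4)) (move 559 (leaf 526 7)))) (branch (move 559 (branch (move 558 (leaf 526 7)) (move 560 (branch (move 528 (leaf 527 6)) (move 687 (branch (move 592 (leaf 559 6)) (move 684 (branch (move 716 (leaf 588 5)) (move 720 (branch (move 688 (leaf 591 4)) (move 719 (branch (move 752 (leaf 623 4)) (move 654 (branch (move 751 (leaf 622 7)) (move 652 (branch (move 683 (leaf 651 1)) (move 651 (leaf 619 2)))))))))))))))))) (move 687 (branch (move 592 (branch (move 560 (leaf 559 6)) (move 593 (branch (move 590 (leaf 589 1)) (move 594 (leaf 590 1)))))) (move 720 (branch (move 688 (leaf 591 4)) (move 719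 (branch (move 752 (leaf 623 4)) (move 750 (branch (move 718 (leaf 622 5)) (move 751 (branch (move 782 (leaf 654 5)) (move 654 (leaf 622 7))))))))))))))))))
theorem a6p1076 : a6e1076.Valid :=
  pos_of_chk [] forall_nil a6c1076 a6e1076 (by decide +kernel)

def a6e1077 : Pos := ⟨26106494625462399745875229957466157310869527659358238929466092104498863398276462793306824461858527177933102097269390081809886880198537326147285245843590877766977513265569669753965861928960, 136560935680766127170009417213423809482544698073445395007030791241562635874819521406713786585208238065661149479523149824420548085990000712323996207651645225900008243472499684376307092503812094873540394743471199506477744404829377211697198517977088, 14⟩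
def a6c1077 : Cert := (move 653 (branch (move 652 (branch (move 651 (branch (move 650 (leaf 618 2)) (move 623 (branch (move 624 (leaf 620 1)) (move 654 (leaf 619 2)))))) (branch (move 590 (branch (move 558 (leaf 525 5)) (move 685 (branch (move 717 (leaf 589 6)) (move 651 (branch (move 650 (leaf 618 2)) (move 686 (branch (move 718 (leaf 589 4)) (move 687 (branch (move 684 (leaf 651 3)) (move 688 (leaf 652 3)))))))))))) (move 590 (branch (move 558 (leaf 525 5)) (move 685 (branch (move 717 (leaf 589 6)) (move 684 (branch (move 716 (leaf 588 5)) (move 686 (branch (move 718 (leaf 589 4)) (move 687 (branch (move 688 (leaf 652 3)) (move 719 (branch (move 720 (leaf 684 0)) (move 654 (leaf 590 4))))))))))))))))) (branch (ref 0) (branch (move 686 (branch (move 718 (branch (move 685 (leaf 589 4)) (move 654 (leaf 589 7)))) (branch (move 654 (branch (move 718 (leaf 589 7)) (move 590 (branch (move 558 (leaf 525 5)) (move 687 (branch (move 719 (leaf 590 4)) (move 591 (branch (move 559 (leaf 558 6)) (move 592 (branch (move 593 (leaf 589 1)) (move 624 (branch (move 625 (leaf 589 0)) (move 560 (branch (move 561 (leaf 557 2)) (move 655 (branch (move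 656 (leaf 559 5)) (move 623 (leaf 559 6)))))))))))))))))) (branch (move 590 (branch (move 558 (leaf 525 5)) (move 685 (branch (move 718 (leaf 589 4)) (move 717 (leaf 589 6)))))) (move 590 (branch (move 558 (leaf 525 5)) (move 654 (branch (move 687 (branch (move 719 (leaf 590 4)) (move 652 (branch (move 651 (leaf 651 0)) (move 688 (branch (move 685 (leaf 652 3)) (move 689 (leaf 653 3)))))))) (branch (move 687 (branch (move 719 (leaf 590 4)) (move 591 (branch (move 559 (leaf 558 6)) (move 592 (branch (move 593 (leaf 589 1)) (move 624 (branch (move 625 (leaf 589 0)) (move 560 (branch (move 561 (leaf 557 2)) (move 655 (branch (move 656 (leaf 559 5)) (move 623 (leaf 559 6)))))))))))))) (move 685 (branch (move 717 (leaf 589 5)) (move 591 (branch (move 559 (leaf 558 6)) (move 592 (branch (move 593 (leaf 589 1)) (move 624 (branch (move 625 (leaf 589 0)) (move 623 (branch (move 652 (leaf 620 1)) (move 656 (branch (move 657 (leaf 621 0)) (move 560 (branch (move 561 (leaf 557 2)) (move 528 (branch (move 496 (leaf 495 5)) (move 655 (leaf 527 5))))))))))))))))))))))))))) (branch (ref 1) (branch (move 685 (branch (move 716 (branch (move 684 (leaf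 588 5)) (move 717 (branch (move 748 (leaf 620 5)) (move 718 (branch (move 686 (leaf 589 4)) (move 750 (leaf 621 4)))))))) (branch (ref 2) (branch (ref 3) (branch (ref 4) (move 652 (branch (move 718 (branch (move 686 (leaf 589 4)) (move 717 (branch (move 750 (leaf 621 4)) (move 749 (branch (move 654 (leaf 621 6)) (move 781 (branch (move 684 (leaf 652 7)) (move 780 (branch (move 748 (leaf 652 5)) (move 812 (leaf 684 5)))))))))))) (branch (move 651 (branch (move 650 (leaf 618 2)) (move 623 (branch (move 624 (leaf 620 1)) (move 654 (leaf 619 2)))))) (move 686 (branch (move 718 (leaf 589 4)) (move 651 (branch (move 650 (leaf 650 0)) (move 687 (branch (move 684 (leaf 651 3)) (move 688 (leaf 652 3)))))))))))))))) (branch (move 590 (branch (move 558 (leaf 525 5)) (move 686 (branch (move 685 (branch (move 718 (leaf 589 4)) (move 716 (branch (move 684 (leaf 588 5)) (move 717 (leaf 589 6)))))) (branch (move 654 (branch (move 718 (leaf 589 7)) (move 687 (branch (move 719 (leaf 590 4)) (move 591 (branch (move 559 (leaf 558 6)) (move 592 (branch (move 593 (leaf 589 1)) (move 624 (branch (move 625 (leaf 589 0)) (move 560 (branch (move 561 (leaf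 557 2)) (move 655 (branch (move 656 (leaf 559 5)) (move 623 (leaf 559 6)))))))))))))))) (move 654 (branch (move 687 (branch (move 719 (leaf 590 4)) (move 591 (branch (move 559 (leaf 558 6)) (move 592 (branch (move 593 (leaf 589 1)) (move 624 (branch (move 625 (leaf 589 0)) (move 560 (branch (move 561 (leaf 557 2)) (move 655 (branch (move 656 (leaf 559 5)) (move 623 (leaf 559 6)))))))))))))) (branch (move 685 (branch (move 717 (leaf 589 5)) (move 684 (branch (move 716 (leaf 588 5)) (move 687 (branch (move 719 (leaf 590 4)) (move 688 (branch (move 689 (leaf 653 3)) (move 591 (branch (move 559 (leaf 558 6)) (move 592 (branch (move 593 (leaf 589 1)) (move 624 (branch (move 625 (leaf 589 0)) (move 656 (branch (move 657 (leaf 653 2)) (move 720 (branch (move 721 (leaf 685 0)) (move 623 (leaf 591 7)))))))))))))))))))) (move 685 (branch (move 717 (leaf 589 5)) (move 684 (branch (move 716 (leaf 588 5)) (move 683 (branch (move 682 (leaf 650 2)) (move 655 (leaf 651 2)))))))))))))))) (branch (move 590 (branch (move 558 (leaf 525 5)) (ref 5))) (branch (move 623 (branch (move 590 (branch (move 558 (leaf 525 5)) (move 624 (branch (move 652 (leaf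 620 1)) (move 625 (leaf 589 3)))))) (branch (ref 6) (move 685 (branch (move 590 (branch (move 558 (leaf 525 5)) (move 717 (leaf 589 6)))) (branch (ref 3) (move 655 (branch (move 684 (branch (move 716 (leaf 588 5)) (move 654 (branch (move 656 (leaf 652 1)) (move 683 (branch (move 682 (leaf 650 2)) (move 686 (leaf 651 2)))))))) (branch (move 684 (branch (move 716 (leaf 588 5)) (move 654 (branch (move 656 (leaf 652 1)) (move 652 (branch (move 683 (leaf 651 1)) (move 651 (leaf 619 2)))))))) (branch (move 590 (branch (move 558 (leaf 526 4)) (move 687 (branch (move 719 (leaf 590 7)) (move 684 (branch (move 716 (leaf 588 5)) (move 686 (branch (move 656 (leaf 652 2)) (move 652 (branch (move 651 (leaf 651 3)) (move 688 (leaf 652 3)))))))))))) (move 652 (branch (move 651 (branch (move 650 (leaf 618 2)) (move 654 (leaf 619 2)))) (move 590 (branch (move 558 (leaf 526 4)) (move 687 (branch (move 719 (leaf 590 7)) (move 688 (branch (move 686 (leaf 652 3)) (move 591 (branch (move 720 (leaf 591 4)) (move 592 (branch (move 593 (leaf 589 1)) (move 560 (leaf 559 6)))))))))))))))))))))))) (move 685 (branch (move 590 (branch (move 558 (leaf 525 5)) (move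 717 (leaf 589 6)))) (branch (move 716 (branch (move 684 (leaf 588 5)) (move 717 (branch (move 748 (leaf 620 5)) (move 749 (branch (move 654 (leaf 621 6)) (move 750 (branch (move 718 (leaf 621 4)) (move 782 (leaf 653 4)))))))))) (move 623 (branch (move 590 (branch (move 558 (leaf 525 5)) (move 624 (branch (move 652 (leaf 620 1)) (move 625 (leaf 589 3)))))) (branch (ref 6) (ref 7))))))))))))))))
theorem a6p1077 : a6e1077.Valid :=
  pos_of_chk [a6e1064, a6e1073, a6e1067, a6e1066, a6e1039, a6e1074, a6e1075, a6e1076] (forall_cons a6p1064 (forall_cons a6p1073 (forall_cons a6p1067 (forall_cons a6p1066 (forall_cons a6p1039 (forall_cons a6p1074 (forall_cons a6p1075 (forall_cons a6p1076 forall_nil)))))))) a6c1077 a6e1077 (by decide +kernel)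

def a6e1078 : Pos := ⟨8702164876842575456014803605154865330533420377678856870066706583948039548756056503229947587631493945134936548664064736539010168462333415326314095179367343418482050182835504752734194630656, 573555929657315861148131310604918637033080640566592627398857420106205793023275875026082270428004073551082436765817146891703114200663176372753145582182716939035950267836947899824661173401463851606660418199860157551258500633277392206233038399471616, 15⟩
def a6c1078 : Cert := (move 622 (branch (move 620 (branch (move 619 (branch (move 586 (leaf 586 3)) (move 651 (branch (move 650 (leaf 618 1)) (move 623 (branch (move 652 (leaf 619 1)) (move 592 (branch (move 591 (leaf 588 2)) (move 624 (branch (move 593 (leaf 589 2)) (move 656 (branch (move 655 (leaf 620 0)) (move 657 (leaf 621 0)))))))))))))) (branch (move 623 (branch (move 655 (branch (move 656 (leaf 620 0)) (move 591 (branch (move 592 (leaf 588 2)) (move 558 (branch (move 590 (leaf 526 4)) (move 559 (leaf 526 7)))))))) (branch (move 652 (branch (move 651 (leaf 619 1)) (move 624 (branch (move 653 (leaf 620 1)) (move 592 (branch (move 591 (leaf 588 2)) (move 593 (leaf 589 2))))))))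 (move 652 (branch (move 651 (leaf 619 1)) (move 624 (branch (move 653 (leaf 620 1)) (move 656 (branch (move 655 (leaf 620 0)) (move 657 (leaf 621 0))))))))))) (move 619 (branch (move 586 (leaf 586 3)) (move 590 (branch (move 618 (leaf 586 2)) (move 558 (branch (move 494 (leaf 493 5)) (move 653 (leaf 525 5))))))))))) (branch (move 620 (branch (move 619 (branch (move 586 (leaf 586 3)) (move 590 (branch (move 618 (leaf 586 2)) (move 558 (branch (move 494 (leaf 493 5)) (move 653 (leaf 525 5)))))))) (branch (ref 0) (ref 1)))) (branch (move 620 (branch (move 619 (branch (move 586 (leaf 586 3)) (move 590 (branch (move 618 (leaf 586 2)) (move 591 (leaf 587 2)))))) (branch (move 619 (branch (move 586 (leaf 586 3)) (move 651 (branch (move 650 (leaf 618 1)) (move 623 (branch (move 652 (leaf 619 1)) (move 655 (branch (move 654 (leaf 619 0)) (move 656 (leaf 620 0)))))))))) (ref 1)))) (branch (move 620 (branch (move 619 (branch (move 586 (leaf 586 3)) (move 590 (branch (move 591 (leaf 587 2)) (move 558 (branch (move 494 (leaf 493 5)) (move 653 (leaf 525 5)))))))) (branch (move 619 (branch (move 586 (leaf 586 3)) (move 654 (branch (move 655 (leaf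 619 0)) (move 618 (branch (move 653 (leaf 618 0)) (move 650 (branch (move 649 (leaf 617 1)) (move 651 (leaf 618 1)))))))))) (ref 1)))) (branch (move 620 (branch (move 619 (branch (move 586 (leaf 586 3)) (move 590 (branch (move 618 (leaf 586 2)) (move 591 (leaf 587 2)))))) (branch (move 619 (branch (move 586 (leaf 586 3)) (move 654 (branch (move 655 (leaf 619 0)) (move 618 (branch (move 653 (leaf 618 0)) (move 650 (branch (move 649 (leaf 617 1)) (move 651 (leaf 618 1)))))))))) (move 623 (branch (move 652 (branch (move 651 (leaf 619 1)) (move 624 (branch (move 653 (leaf 620 1)) (move 592 (branch (move 591 (leaf 588 2)) (move 593 (leaf 589 2)))))))) (branch (move 592 (branch (move 591 (leaf 588 2)) (move 624 (branch (move 593 (leaf 589 2)) (move 590 (branch (move 625 (leaf 589 3)) (move 558 (branch (move 655 (leaf 526 4)) (move 494 (leaf 493 5)))))))))) (branch (move 652 (branch (move 651 (leaf 619 1)) (move 653 (branch (move 624 (leaf 620 1)) (move 590 (branch (move 558 (leaf 525 5)) (move 685 (branch (move 717 (leaf 589 6)) (move 684 (branch (move 716 (leaf 588 5)) (move 686 (branch (move 718 (leaf 589 4)) (move 687 (branch (move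 688 (leaf 652 3)) (move 719 (branch (move 720 (leaf 684 0)) (move 654 (leaf 590 4)))))))))))))))))) (move 591 (branch (move 592 (leaf 588 2)) (move 655 (branch (move 558 (branch (move 590 (leaf 526 4)) (move 559 (leaf 526 7)))) (branch (ref 2) (branch (ref 3) (move 590 (branch (move 558 (leaf 526 4)) (move 687 (branch (move 719 (leaf 590 7)) (move 686 (branch (move 718 (leaf 590 5)) (move 652 (branch (move 651 (leaf 619 1)) (move 688 (branch (move 720 (leaf 591 4)) (move 653 (branch (move 654 (leaf 652 0)) (move 685 (leaf 652 3))))))))))))))))))))))))))) (branch (ref 4) (branch (move 620 (branch (move 619 (branch (move 586 (leaf 586 3)) (move 654 (branch (move 655 (leaf 619 0)) (move 618 (branch (move 653 (leaf 618 0)) (move 650 (branch (move 649 (leaf 617 1)) (move 651 (leaf 618 1)))))))))) (branch (move 619 (branch (move 586 (leaf 586 3)) (move 651 (branch (move 650 (leaf 618 1)) (move 623 (branch (move 652 (leaf 619 1)) (move 592 (branch (move 591 (leaf 588 2)) (move 624 (branch (move 593 (leaf 589 2)) (move 656 (branch (move 655 (leaf 620 0)) (move 657 (leaf 621 0)))))))))))))) (branch (ref 0) (branch (move 619 (branch (move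 586 (leaf 586 3)) (move 618 (branch (move 653 (branch (move 654 (leaf 618 0)) (move 617 (branch (move 652 (leaf 617 0)) (move 584 (branch (move 585 (leaf 584 3)) (move 616 (branch (move 583 (leaf 583 3)) (move 648 (branch (move 647 (leaf 615 1)) (move 649 (leaf 616 1)))))))))))) (branch (move 651 (branch (move 650 (leaf 618 1)) (move 652 (branch (move 623 (leaf 619 1)) (move 653 (branch (move 617 (leaf 617 0)) (move 654 (leaf 618 0)))))))) (move 650 (branch (move 649 (leaf 617 1)) (move 651 (leaf 618 1))))))))) (move 623 (branch (move 652 (branch (move 651 (leaf 619 1)) (move 624 (branch (move 653 (leaf 620 1)) (move 592 (branch (move 591 (leaf 588 2)) (move 593 (leaf 589 2)))))))) (branch (move 652 (branch (move 651 (leaf 619 1)) (move 624 (branch (move 653 (leaf 620 1)) (move 656 (branch (move 655 (leaf 620 0)) (move 657 (leaf 621 0)))))))) (move 655 (branch (move 656 (leaf 620 0)) (move 591 (branch (move 592 (leaf 588 2)) (ref 2))))))))))))) (branch (ref 5) (branch (ref 6) (branch (ref 7) (branch (ref 8) (branch (ref 9) (branch (ref 10) (ref 11)))))))))))))))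
theorem a6p1078 : a6e1078.Valid :=
  pos_of_chk [a6e1031, a6e1052, a6e1053, a6e1032, a6e1037, a6e1054, a6e1057, a6e1060, a6e1062, a6e1071, a6e1072, a6e1077] (forall_cons a6p1031 (forall_cons a6p1052 (forall_cons a6p1053 (forall_cons a6p1032 (forall_cons a6p1037 (forall_cons a6p1054 (forall_cons a6p1057 (forall_cons a6p1060 (forall_cons a6p1062 (forall_cons a6p1071 (forall_cons a6p1072 (forall_cons a6p1077 forall_nil)))))))))))) a6c1078 a6e1078 (by decide +kernel)

def a6e1079 : Pos := ⟨120394956242714847730430371470925086868756621228423476114628122148439809430556673346032896334874087411649074119600303250801741101111453858547583020272269110129852724009799778170267312583233769834447709929472, 11009759011996755008521747153207027970780014665279911945692066574686187384876768720615433045486649409464693952334767473363249464520384440216125818327145505256296876989409396818247294887873436084928232653845321622749184, 8⟩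
def a6c1079 : Cert := (move 685 (branch (move 686 (branch (move 715 (branch (move 714 (leaf 682 1)) (move 687 (branch (move 716 (leaf 683 1)) (move 719 (branch (move 718 (leaf 683 0)) (move 720 (leaf 684 0)))))))) (move 654 (branch (move 655 (leaf 651 2)) (move 622 (branch (move 653 (leaf 557 5)) (move 717 (leaf 589 5)))))))) (branch (move 682 (branch (move 714 (branch (move 713 (leaf 681 1)) (move 686 (branch (move 715 (leaf 682 1)) (move 718 (branch (move 717 (leaf 682 0)) (move 719 (leaf 683 0)))))))) (branch (move 714 (branch (move 713 (leaf 681 1)) (move 649 (branch (move 650 (leaf 649 3)) (move 681 (branch (move 648 (leaf 648 3)) (move 715 (branch (move 686 (leaf 682 1)) (move 680 (branch (move 679 (leaf 679 0)) (move 716 (leaf 680 0)))))))))))) (move 717 (branch (move 718 (leaf 682 0)) (move 681 (branch (move 716 (leaf 681 0)) (move 649 (branch (move 648 (leaf 648 3)) (move 650 (leaf 649 3))))))))))) (branch (move 682 (branch (move 654 (branch (move 653 (leaf 650 2)) (move 686 (branch (move 655 (leaf 651 2)) (move 719 (branch (move 718 (leaf 683 0)) (move 687 (branch (move 720 (leaf 684 0)) (move 622 (leaf 590 4))))))))))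 (move 713 (branch (move 714 (leaf 681 1)) (move 681 (branch (move 712 (leaf 680 1)) (move 649 (branch (move 648 (leaf 648 3)) (move 650 (leaf 649 3)))))))))) (branch (move 682 (branch (move 654 (branch (move 653 (leaf 650 2)) (move 686 (branch (move 655 (leaf 651 2)) (move 714 (branch (move 713 (leaf 681 1)) (move 715 (leaf 682 1)))))))) (branch (move 713 (branch (move 714 (leaf 681 1)) (move 681 (branch (move 712 (leaf 680 1)) (move 649 (branch (move 648 (leaf 648 3)) (move 650 (leaf 649 3)))))))) (move 654 (branch (move 653 (leaf 650 2)) (move 686 (branch (move 655 (leaf 651 2)) (move 717 (branch (move 622 (leaf 589 5)) (move 716 (branch (move 681 (leaf 681 0)) (move 687 (branch (move 715 (leaf 683 1)) (move 688 (leaf 684 1))))))))))))))) (branch (move 682 (branch (move 717 (branch (move 718 (leaf 682 0)) (move 681 (branch (move 716 (leaf 681 0)) (move 649 (branch (move 648 (leaf 648 3)) (move 650 (leaf 649 3)))))))) (branch (move 654 (branch (move 653 (leaf 650 2)) (move 686 (branch (move 655 (leaf 651 2)) (move 719 (branch (move 718 (leaf 683 0)) (move 687 (branch (move 720 (leaf 684 0)) (move 622 (leaf 590 4)))))))))) (move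 654 (branch (move 653 (leaf 650 2)) (move 686 (branch (move 655 (leaf 651 2)) (move 717 (branch (move 622 (leaf 589 5)) (move 716 (branch (move 681 (leaf 681 0)) (move 687 (branch (move 715 (leaf 683 1)) (move 688 (leaf 684 1))))))))))))))) (move 494 (branch (move 462 (leaf 461 5)) (move 654 (branch (move 622 (leaf 525 7)) (move 682 (branch (move 653 (leaf 650 2)) (move 717 (branch (move 718 (leaf 682 0)) (move 681 (branch (move 716 (leaf 681 0)) (move 713 (branch (move 712 (leaf 680 1)) (move 714 (leaf 681 1))))))))))))))))))))
theorem a6p1079 : a6e1079.Valid :=
  pos_of_chk [] forall_nil a6c1079 a6e1079 (by decide +kernel)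

def a6e1080 : Pos := ⟨18687756774131594056254923605167799106683197436626887573727627894562557978308484036429607960567764829953242437082347292790388161391182118983257787908882223866601094992379341102190012130001843912704, 29611932617316670163685596083516051512873587610597897979697726550377123993523947702392065622568426548797998346104074943044681819023797840028015027017692921676066751157892338940781976949410915794677712328520053218754810609664000, 8⟩
def a6c1080 : Cert := (move 623 (branch (move 590 (branch (move 622 (leaf 587 0)) (move 591 (branch (move 624 (leaf 588 0)) (move 619 (leaf 587 1)))))) (branch (move 651 (branch (move 683 (leaf 555 5)) (move 653 (branch (move 685 (leaf 556 4)) (move 622 (branch (move 590 (leaf 587 0)) (move 654 (leaf 619 2)))))))) (branch (move 653 (branch (move 685 (leaf 556 4)) (move 651 (branch (move 683 (leaf 555 5)) (move 654 (branch (move 622 (leaf 619 2)) (move 655 (branch (move 624 (leaf 620 2)) (move 687 (branch (move 686 (leaf 651 0)) (move 688 (leaf 652 0)))))))))))) (move 655 (branch (move 653 (branch (move 685 (leaf 556 4)) (move 654 (branch (move 624 (leaf 620 2)) (move 619 (leaf 619 3))))))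 (branch (move 651 (branch (move 683 (leaf 555 5)) (move 653 (branch (move 685 (leaf 556 4)) (move 654 (branch (move 619 (leaf 619 3)) (move 687 (branch (move 686 (leaf 651 0)) (move 688 (leaf 652 0)))))))))) (branch (move 653 (branch (move 685 (leaf 556 4)) (move 654 (branch (move 624 (leaf 620 2)) (move 687 (branch (move 688 (leaf 652 0)) (move 651 (branch (move 686 (leaf 651 0)) (move 683 (leaf 555 5)))))))))) (move 591 (branch (move 590 (branch (move 624 (leaf 588 0)) (move 619 (leaf 587 1)))) (branch (move 651 (branch (move 683 (leaf 555 5)) (move 590 (branch (move 619 (leaf 587 1)) (move 560 (branch (move 559 (leaf 556 2)) (move 592 (branch (move 561 (leaf 557 2)) (move 687 (leaf 559 6)))))))))) (move 687 (branch (move 718 (branch (move 686 (leaf 590 5)) (move 719 (branch (move 750 (leaf 622 5)) (move 720 (branch (move 688 (leaf 591 4)) (move 752 (leaf 623 4)))))))) (branch (move 718 (branch (move 686 (leaf 590 5)) (move 719 (branch (move 750 (leaf 622 5)) (move 592 (branch (move 560 (leaf 559 6)) (move 624 (leaf 591 6)))))))) (move 688 (branch (move 720 (leaf 591 4)) (move 560 (branch (move 592 (leaf 559 6)) (move 559 (branch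 (move 656 (leaf 559 4)) (move 528 (leaf 527 6))))))))))))))))))))))
theorem a6p1080 : a6e1080.Valid :=
  pos_of_chk [] forall_nil a6c1080 a6e1080 (by decide +kernel)

def a6e1081 : Pos := ⟨18687756774675479358366629802905474349862033161256106539008596763440071958829664060562340178276429402299287975484778265167220750057149975950633441864500778395420108272991348643344857936759567155200, 13656093580794840929720587969240703621625248126386160500454075675082955042940831862980100571092019471713058071349996838827533437592426918648694004275061584017987129307277430349840613428469262242869847440446565213133575658231805428845391739092992, 8⟩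
def a6c1081 : Cert := (move 651 (branch (move 683 (branch (move 556 (leaf 555 5)) (move 715 (branch (move 684 (leaf 587 5)) (move 747 (leaf 619 6)))))) (branch (move 653 (branch (move 685 (branch (move 556 (leaf 556 4)) (move 717 (branch (move 684 (leaf 588 4)) (move 749 (leaf 620 7)))))) (move 650 (branch (move 618 (leaf 617 3)) (move 649 (branch (move 616 (leaf 616 3)) (move 681 (branch (move 680 (leaf 648 1)) (move 682 (leaf 649 1)))))))))) (branch (move 556 (branch (move 683 (leaf 555 5)) (move 653 (branch (move 685 (leaf 556 4)) (move 650 (branch (move 618 (leaf 617 3)) (move 649 (branch (move 616 (leaf 616 3)) (move 681 (branch (move 680 (leaf 648 1)) (move 682 (leaf 649 1)))))))))))) (move 684 (branch (move 685 (branch (move 717 (leaf 588 4)) (move 650 (branch (move 649 (leaf 649 0)) (move 686 (branch (move 653 (leaf 650 0)) (move 687 (leaf 651 3)))))))) (branch (move 716 (branch (move 715 (branch (move 683 (leaf 587 5)) (move 747 (leaf 619 5)))) (branch (move 747 (branch (move 715 (leaf 619 5)) (move 748 (branch (move 779 (leaf 651 5)) (move 749 (branch (move 717 (leaf 620 4)) (move 781 (leaf 652 4)))))))) (branch (move 749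 (branch (move 717 (leaf 620 4)) (move 748 (branch (move 781 (leaf 652 4)) (move 780 (branch (move 683 (leaf 651 7)) (move 779 (branch (move 747 (leaf 651 5)) (move 811 (leaf 683 5)))))))))) (move 683 (branch (move 715 (leaf 587 5)) (move 748 (branch (move 780 (leaf 651 7)) (move 749 (branch (move 717 (leaf 620 4)) (move 781 (leaf 652 4)))))))))))) (move 650 (branch (move 653 (branch (move 618 (leaf 617 3)) (move 649 (branch (move 616 (leaf 616 3)) (move 685 (leaf 649 0)))))) (branch (move 649 (branch (move 616 (leaf 616 3)) (move 685 (leaf 649 0)))) (move 683 (branch (move 715 (leaf 587 5)) (move 653 (branch (move 618 (leaf 617 3)) (move 682 (branch (move 681 (leaf 649 1)) (move 654 (leaf 650 1))))))))))))))))))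
theorem a6p1081 : a6e1081.Valid :=
  pos_of_chk [] forall_nil a6c1081 a6e1081 (by decide +kernel)

def a6e1082 : Pos := ⟨40131652099592706017608384542004491934093458789590631241294743377105012514949020773385712353027190543440828215007908348954917930107836528018105052239851502405520415221041026558362948535750891089730822209536, 10665030744346423011973840635900215110480631704993803596877889727377731766243012442078063102016565420795338198957216197536416858577904195994243452261504466060425969907513148983804007613390550402851498729632070310559744, 9⟩
def a6c1082 : Cert := (move 684 (branch (move 715 (leaf 587 5)) (move 685 (branch (move 717 (leaf 588 4)) (move 686 (branch (move 655 (branch (move 654 (leaf 651 2)) (move 687 (branch (move 656 (leaf 652 2)) (move 719 (branch (move 718 (leaf 683 0)) (move 720 (leaf 684 0)))))))) (branch (move 651 (branch (move 650 (leaf 650 3)) (move 687 (leaf 651 3)))) (move 651 (branch (move 650 (leaf 650 3)) (move 654 (branch (move 655 (leaf 651 2)) (move 682 (branch (move 653 (leaf 650 1)) (move 681 (branch (move 680 (leaf 648 2)) (move 713 (branch (move 712 (leaf 680 1)) (move 714 (leaf 681 1)))))))))))))))))))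
theorem a6p1082 : a6e1082.Valid :=
  pos_of_chk [] forall_nil a6c1082 a6e1082 (by decide +kernel)

def a6e1083 : Pos := ⟨10032913022562206911986729318979992492559062796826734385400401692980488564867614808660395496800609761824860396447090374243208454372764567428535649236990534124029765325845908835527024275230535581502793580544, 3701491577186129287113441648286622035316302421945840561925004618386313632678280169344699907174335736856934882463009907758172303002590174064190165022048422811991561986892395001511720605995710701153207371489477799474045883777024, 6⟩
def a6c1083 : Cert := (move 652 (branch (move 557 (branch (move 556 (leaf 524 6)) (move 684 (leaf 556 6)))) (branch (move 680 (branch (move 712 (leaf 584 5)) (move 651 (branch (move 650 (leaf 648 1)) (move 683 (branch (move 682 (leaf 648 2)) (move 556 (leaf 555 5)))))))) (move 684 (branch (move 557 (leaf 556 6)) (move 715 (branch (move 683 (leaf 587 5)) (move 716 (branch (move 747 (leaf 619 5)) (move 717 (branch (move 685 (leaf 588 4)) (move 749 (leaf 620 4)))))))))))))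
theorem a6p1083 : a6e1083.Valid :=
  pos_of_chk [] forall_nil a6c1083 a6e1083 (by decide +kernel)

def a6e1084 : Pos := ⟨2335969601117531696909434582497532106017152896794366645318264454651319905642080112360018996392535092690036583744437869789131518678368155854246925935486019004876432902086503496795166629187857416192, 1987223162494160040098752228852129449140313647480668703423687967072827601326276008526014158865750306932846955981936309131930479955279885522459636154907560538202871173055458682001474494303520638198177752793241956819209320148654209630208, 7⟩
def a6c1084 : Cert := (move 681 (branch (move 714 (branch (move 682 (leaf 585 4)) (move 713 (branch (move 746 (leaf 617 4)) (move 616 (branch (move 584 (leaf 584 7)) (move 745 (branch (move 648 (leaf 616 7)) (move 744 (branch (move 712 (leaf 616 5)) (move 776 (leaf 648 5)))))))))))) (branch (move 712 (branch (move 680 (leaf 584 5)) (move 713 (branch (move 744 (leaf 616 5)) (move 616 (branch (move 584 (leaf 584 7)) (move 745 (branch (move 648 (leaf 616 7)) (move 746 (branch (move 714 (leaf 617 4)) (move 778 (leaf 649 4)))))))))))) (branch (move 682 (branch (move 714 (leaf 585 4)) (move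 553 (branch (move 650 (leaf 553 4)) (move 648 (branch (move 680 (leaf 552 5)) (move 521 (branch (move 616 (leaf 520 5)) (move 522 (branch (move 490 (leaf 489 6)) (move 554 (leaf 521 6)))))))))))) (ref 0)))))
theorem a6p1084 : a6e1084.Valid :=
  pos_of_chk [a6e1083] (forall_cons a6p1083 forall_nil) a6c1084 a6e1084 (by decide +kernel)

def a6e1085 : Pos := ⟨4894967744965154720378982947671819901083103960861717885486891020031237290468991636998040936003371721242757533246058901861023931599141563339788245340491411628814047842352735042757596282880, 1987223162494160040098752228852129449180025130616452290606740724728857679058872060997845280881837717666430633024119004693874176196924884585090735753026278805476805748327602477542870989689069006851053559440478208414503296504149942730752, 12⟩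
def a6c1085 : Cert := (move 649 (branch (move 553 (branch (move 552 (branch (move 520 (leaf 520 7)) (move 681 (branch (move 584 (leaf 552 7)) (move 680 (branch (move 648 (leaf 552 5)) (move 712 (leaf 584 5)))))))) (branch (move 522 (branch (move 554 (leaf 521 6)) (move 521 (branch (move 490 (leaf 489 6)) (move 520 (branch (move 488 (leaf 488 7)) (move 552 (leaf 520 7)))))))) (move 648 (branch (move 680 (leaf 552 5)) (move 521 (branch (move 616 (leaf 520 5)) (move 522 (branch (move 490 (leaf 489 6)) (move 554 (leaf 521 6))))))))))) (branch (move 553 (branch (move 680 (branch (move 648 (leaf 552 5)) (move 681 (branch (move 712 (leaf 584 5)) (move 682 (branch (move 650 (leaf 553 4)) (move 714 (leaf 585 4)))))))) (move 522 (branch (move 554 (leaf 521 6)) (move 521 (branch (move 490 (leaf 489 6)) (move 520 (branch (move 488 (leaf 488 7)) (move 552 (leaf 520 7)))))))))) (branch (move 681 (branch (move 584 (branch (move 552 (leaf 552 7)) (move 713 (branch (move 616 (leaf 584 7)) (move 714 (branch (move 682 (leaf 585 4)) (move 746 (leaf 617 4)))))))) (branch (move 584 (branch (move 552 (leaf 552 7)) (move 713 (branch (move 616 (leaf 584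 7)) (move 712 (branch (move 680 (leaf 584 5)) (move 744 (leaf 616 5)))))))) (ref 0)))) (branch (ref 1) (branch (move 652 (branch (move 557 (branch (move 556 (leaf 524 6)) (move 684 (leaf 556 6)))) (branch (move 684 (branch (move 557 (leaf 556 6)) (move 715 (branch (move 683 (leaf 587 5)) (move 716 (branch (move 747 (leaf 619 5)) (move 717 (branch (move 685 (leaf 588 4)) (move 749 (leaf 620 4)))))))))) (branch (move 556 (branch (move 557 (leaf 524 6)) (move 651 (branch (move 683 (leaf 555 5)) (move 650 (branch (move 616 (leaf 616 3)) (move 682 (branch (move 553 (leaf 553 4)) (move 681 (branch (move 653 (leaf 649 1)) (move 714 (leaf 585 4)))))))))))) (move 681 (branch (move 682 (branch (move 714 (leaf 585 4)) (move 553 (branch (move 650 (leaf 553 4)) (move 552 (branch (move 520 (leaf 520 7)) (move 584 (leaf 552 7)))))))) (branch (move 584 (branch (move 552 (leaf 552 7)) (move 713 (branch (move 616 (leaf 584 7)) (move 746 (branch (move 714 (leaf 617 4)) (move 745 (branch (move 778 (leaf 649 4)) (move 744 (branch (move 712 (leaf 616 5)) (move 776 (leaf 648 5)))))))))))) (branch (move 714 (branch (move 682 (leaf 585 4)) (move 713 (branch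 (move 746 (leaf 617 4)) (move 744 (branch (move 712 (leaf 616 5)) (move 745 (branch (move 776 (leaf 648 5)) (move 715 (branch (move 716 (leaf 712 1)) (move 683 (branch (move 684 (leaf 587 5)) (move 651 (branch (move 556 (leaf 555 5)) (move 747 (leaf 619 6)))))))))))))))) (move 584 (branch (move 552 (leaf 552 7)) (move 616 (branch (move 713 (leaf 584 7)) (move 650 (branch (move 651 (leaf 616 3)) (move 553 (branch (move 682 (leaf 553 4)) (move 521 (branch (move 489 (leaf 488 5)) (move 648 (leaf 520 5)))))))))))))))))))) (move 652 (branch (move 557 (branch (move 556 (leaf 524 6)) (move 684 (leaf 556 6)))) (branch (move 556 (branch (move 557 (leaf 524 6)) (move 651 (branch (move 683 (leaf 555 5)) (move 650 (branch (move 616 (leaf 616 3)) (move 553 (branch (move 682 (leaf 553 4)) (move 653 (branch (move 685 (leaf 556 4)) (move 648 (branch (move 680 (leaf 552 5)) (move 522 (branch (move 554 (leaf 521 6)) (move 521 (branch (move 490 (leaf 489 6)) (move 520 (branch (move 488 (leaf 488 7)) (move 552 (leaf 520 7)))))))))))))))))))) (move 553 (branch (move 522 (branch (move 554 (leaf 521 6)) (move 521 (branch (move 490 (leaf 489 6)) (move 520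 (branch (move 488 (leaf 488 7)) (move 552 (leaf 520 7)))))))) (move 650 (branch (move 682 (leaf 553 4)) (move 684 (branch (move 717 (branch (move 685 (leaf 588 4)) (move 716 (branch (move 749 (leaf 620 4)) (move 715 (branch (move 683 (leaf 587 5)) (move 747 (leaf 619 5)))))))) (branch (move 683 (branch (move 715 (leaf 587 5)) (move 648 (branch (move 651 (leaf 648 0)) (move 680 (leaf 552 5)))))) (move 685 (branch (move 651 (leaf 649 0)) (move 717 (leaf 588 4))))))))))))))))))))
theorem a6p1085 : a6e1085.Valid :=
  pos_of_chk [a6e1083, a6e1084] (forall_cons a6p1083 (forall_cons a6p1084 forall_nil)) a6c1085 a6e1085 (by decide +kernel)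

def a6e1086 : Pos := ⟨21023726370898043310437542830578253029756180210291518340202840996129623597952818131975223803475779290324123526264177537578928328895197736427123444340027302407902464985671439900761776643187803160576, 462686447145572971505110413933127798975747425077854072324436283924354997110600344714625876076248818065059958553095929258038633432619127695860629385015087189706286707783505372748050846053919980314771238339723065357941338013696, 6⟩
def a6c1086 : Cert := (move 681 (branch (move 714 (branch (move 682 (leaf 585 4)) (move 713 (branch (move 746 (leaf 617 4)) (move 712 (branch (move 680 (leaf 584 5)) (move 744 (leaf 616 5)))))))) (branch (move 556 (branch (move 557 (leaf 524 6)) (move 682 (branch (move 714 (leaf 585 4)) (move 653 (branch (move 685 (leaf 556 4)) (move 651 (branch (move 650 (leaf 649 1)) (move 683 (leaf 555 5)))))))))) (move 556 (branch (move 557 (leaf 524 6)) (move 680 (branch (move 712 (leaf 584 5)) (move 651 (branch (move 650 (leaf 648 1)) (move 683 (leaf 555 5)))))))))))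
theorem a6p1086 : a6e1086.Valid :=
  pos_of_chk [] forall_nil a6c1086 a6e1086 (by decide +kernel)

def a6e1087 : Pos := ⟨4894967745471687382595901033427729064131341406053666888446172868175238429347245154016218199968179710616183289384754932941504984966133158930048471818504946154462725050245945712118132113408, 4164178033962548203131706804607570886657771455674420447177289306418825343951657720505355631357526046454294409535765940351708469332723191124748975611454474122031998131785647785506153970696331567488250861747891712710338014085120, 11⟩
def a6c1087 : Cert := (move 652 (branch (move 557 (branch (move 556 (leaf 524 6)) (move 684 (leaf 556 6)))) (branch (move 684 (branch (move 557 (leaf 556 6)) (move 715 (branch (move 683 (leaf 587 5)) (move 716 (branch (move 747 (leaf 619 5)) (move 717 (branch (move 685 (leaf 588 4)) (move 749 (leaf 620 4)))))))))) (branch (move 683 (branch (move 651 (branch (move 556 (leaf 555 5)) (move 715 (branch (move 684 (leaf 587 5)) (move 747 (leaf 619 6)))))) (branch (move 684 (branch (move 715 (leaf 587 5)) (move 685 (branch (move 717 (leaf 588 4)) (move 653 (branch (move 556 (leaf 556 4)) (move 654 (branch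 (move 655 (leaf 651 1)) (move 682 (leaf 650 2)))))))))) (branch (ref 0) (move 651 (branch (move 556 (leaf 555 5)) (move 681 (branch (move 682 (branch (move 680 (leaf 648 2)) (move 653 (branch (move 650 (leaf 649 1)) (move 654 (leaf 650 1)))))) (branch (move 586 (branch (move 616 (leaf 584 1)) (move 649 (branch (move 554 (leaf 553 6)) (move 584 (branch (move 552 (leaf 552 7)) (move 714 (branch (move 682 (leaf 585 4)) (move 713 (branch (move 746 (leaf 617 4)) (move 712 (branch (move 680 (leaf 584 5)) (move 744 (leaf 616 5)))))))))))))) (move 616 (branch (move 586 (leaf 584 1)) (move 649 (branch (move 650 (leaf 616 3)) (move 584 (branch (move 552 (leaf 552 7)) (move 713 (leaf 584 7))))))))))))))))) (move 649 (branch (move 586 (branch (move 616 (leaf 584 1)) (move 681 (branch (move 554 (leaf 553 6)) (move 584 (branch (move 552 (leaf 552 7)) (move 714 (branch (move 682 (leaf 585 4)) (move 713 (branch (move 746 (leaf 617 4)) (move 712 (branch (move 680 (leaf 584 5)) (move 744 (leaf 616 5)))))))))))))) (branch (move 556 (branch (move 557 (leaf 524 6)) (move 616 (branch (move 586 (leaf 584 1)) (move 651 (branch (move 650 (leaf 616 3)) (move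 683 (leaf 555 5)))))))) (ref 1))))))))
theorem a6p1087 : a6e1087.Valid :=
  pos_of_chk [a6e1082, a6e1086] (forall_cons a6p1082 (forall_cons a6p1086 forall_nil)) a6c1087 a6e1087 (by decide +kernel)

def a6e1088 : Pos := ⟨18687756774675479358493262968489187952744928743832553045470554864890180867900167786128592669251642657059178635735057569242345216948687960972309183300345292707344779346845404150407478541940712013824, 3701491577272311353734443112871676362032394005167758545854175501292321019272991113188079162269759803551076158786771121612061243693581635819931144405637524491766176479665460458374690315346369499112842785103460050128431168356352, 8⟩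
def a6c1088 : Cert := (move 649 (branch (move 680 (branch (move 648 (leaf 552 5)) (move 681 (branch (move 712 (leaf 584 5)) (move 682 (branch (move 650 (leaf 553 4)) (move 714 (leaf 585 4)))))))) (branch (move 680 (branch (move 648 (leaf 552 5)) (move 681 (branch (move 712 (leaf 584 5)) (move 651 (branch (move 650 (leaf 648 1)) (move 683 (branch (move 556 (leaf 555 5)) (move 715 (branch (move 684 (leaf 587 5)) (move 747 (leaf 619 6)))))))))))) (branch (move 680 (branch (move 648 (leaf 552 5)) (move 681 (branch (move 712 (leaf 584 5)) (move 682 (branch (move 714 (leaf 585 4)) (move 683 (branch (move 651 (leaf 648 2)) (move 684 (branch (move 653 (leaf 649 2)) (move 716 (branch (move 715 (leaf 680 0)) (move 717 (leaf 681 0)))))))))))))) (branch (move 682 (branch (move 650 (leaf 553 4)) (move 681 (branch (move 714 (leaf 585 4)) (move 680 (branch (move 712 (leaf 584 5)) (move 683 (branch (move 651 (leaf 648 2)) (move 684 (branch (move 653 (leaf 649 2)) (move 716 (branch (move 715 (leaf 680 0)) (move 717 (leaf 681 0)))))))))))))) (branch (move 650 (branch (move 682 (leaf 553 4)) (move 684 (branch (move 717 (branch (move 685 (leaf 588 4))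 (move 716 (branch (move 749 (leaf 620 4)) (move 715 (branch (move 683 (leaf 587 5)) (move 747 (leaf 619 5)))))))) (branch (move 683 (branch (move 715 (leaf 587 5)) (move 648 (branch (move 651 (leaf 648 0)) (move 680 (leaf 552 5)))))) (move 685 (branch (move 651 (leaf 649 0)) (move 717 (leaf 588 4))))))))) (move 684 (branch (move 685 (branch (move 717 (leaf 588 4)) (move 650 (branch (move 651 (leaf 649 0)) (move 682 (leaf 553 4)))))) (branch (move 717 (branch (move 685 (leaf 588 4)) (move 716 (branch (move 749 (leaf 620 4)) (move 715 (branch (move 683 (leaf 587 5)) (move 747 (leaf 619 5)))))))) (move 682 (branch (move 650 (leaf 553 4)) (move 681 (branch (move 714 (leaf 585 4)) (move 683 (branch (move 648 (leaf 648 3)) (move 653 (leaf 649 2)))))))))))))))))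
theorem a6p1088 : a6e1088.Valid :=
  pos_of_chk [] forall_nil a6c1088 a6e1088 (by decide +kernel)

def a6e1089 : Pos := ⟨4894967745345054217041671511988751773369282044755679637706352406139238144627681774761673883976977713272826850350080925171384721624385260032483415199001562523050555748272643044777998155776, 1987223162494160049751143690243766872420275465017848729875610813604936314000845829766935314638240489500792470665601709754149763642487278487567305287010163965279414603841626900458090837771882577479255571251971714112707900912432599531520, 13⟩
def a6c1089 : Cert := (move 585 (branch (move 586 (branch (move 616 (leaf 584 1)) (move 553 (branch (move 552 (leaf 552 3)) (move 554 (leaf 553 3)))))) (branch (move 553 (branch (move 554 (branch (move 586 (leaf 553 3)) (move 649 (branch (move 522 (leaf 521 6)) (move 682 (branch (move 650 (leaf 553 4)) (move 681 (branch (move 714 (leaf 585 4)) (move 680 (branch (move 648 (leaf 552 5)) (move 712 (leaf 584 5)))))))))))) (branch (move 586 (branch (move 552 (leaf 552 3)) (move 554 (leaf 553 3)))) (branch (move 552 (branch (move 586 (leaf 552 3)) (move 520 (branch (move 649 (leaf 520 7)) (move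 488 (branch (move 456 (leaf 456 4)) (move 584 (leaf 488 4)))))))) (move 649 (branch (move 680 (branch (move 648 (leaf 552 5)) (move 681 (branch (move 712 (leaf 584 5)) (move 682 (branch (move 650 (leaf 553 4)) (move 714 (leaf 585 4)))))))) (move 522 (branch (move 554 (leaf 521 6)) (move 521 (branch (move 490 (leaf 489 6)) (move 520 (branch (move 488 (leaf 488 7)) (move 552 (leaf 520 7)))))))))))))) (branch (ref 0) (branch (move 649 (branch (move 586 (branch (move 616 (leaf 584 1)) (move 554 (branch (move 553 (leaf 553 3)) (move 681 (leaf 553 6)))))) (branch (ref 1) (branch (move 681 (branch (ref 2) (branch (move 680 (branch (move 712 (leaf 584 5)) (move 553 (branch (move 648 (leaf 552 5)) (move 554 (branch (move 586 (leaf 553 3)) (move 522 (leaf 521 6)))))))) (move 682 (branch (move 714 (leaf 585 4)) (move 553 (branch (move 650 (leaf 553 4)) (move 554 (branch (move 586 (leaf 553 3)) (move 522 (leaf 521 6))))))))))) (branch (move 586 (branch (move 616 (leaf 584 1)) (move 681 (branch (move 554 (leaf 553 6)) (move 557 (branch (move 556 (leaf 553 2)) (move 682 (branch (move 714 (leaf 585 4)) (move 680 (branch (move 712 (leaf 584 5))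 (move 652 (branch (move 684 (leaf 556 6)) (move 651 (branch (move 650 (leaf 648 1)) (move 683 (leaf 648 2)))))))))))))))) (move 652 (branch (move 684 (branch (move 557 (leaf 556 6)) (move 715 (branch (move 683 (leaf 587 5)) (move 716 (branch (move 747 (leaf 619 5)) (move 717 (branch (move 685 (leaf 588 4)) (move 749 (leaf 620 4)))))))))) (move 616 (branch (move 586 (leaf 584 1)) (move 650 (branch (move 651 (leaf 616 3)) (move 553 (branch (move 682 (leaf 553 4)) (move 648 (branch (move 521 (leaf 520 5)) (move 680 (leaf 552 5))))))))))))))))) (branch (ref 3) (move 652 (branch (move 557 (branch (move 556 (leaf 524 6)) (move 684 (leaf 556 6)))) (branch (move 684 (branch (move 557 (leaf 556 6)) (move 715 (branch (move 683 (leaf 587 5)) (move 716 (branch (move 747 (leaf 619 5)) (move 717 (branch (move 685 (leaf 588 4)) (move 749 (leaf 620 4)))))))))) (branch (move 586 (branch (move 616 (leaf 584 1)) (move 553 (branch (move 552 (leaf 552 3)) (ref 4))))) (move 649 (branch (move 616 (branch (move 586 (leaf 584 1)) (move 650 (branch (move 651 (leaf 616 3)) (move 553 (branch (move 682 (leaf 553 4)) (move 648 (branch (move 521 (leaf 520 5))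 (move 680 (leaf 552 5)))))))))) (branch (ref 5) (move 556 (branch (move 557 (leaf 524 6)) (move 586 (branch (move 616 (leaf 584 1)) (move 552 (branch (move 553 (leaf 552 3)) (move 584 (branch (move 551 (leaf 551 3)) (move 681 (leaf 552 7)))))))))))))))))))))))
theorem a6p1089 : a6e1089.Valid :=
  pos_of_chk [a6e1085, a6e1084, a6e1083, a6e1087, a6e1088, a6e1086] (forall_cons a6p1085 (forall_cons a6p1084 (forall_cons a6p1083 (forall_cons a6p1087 (forall_cons a6p1088 (forall_cons a6p1086 forall_nil)))))) a6c1089 a6e1089 (by decide +kernel)

def a6e1090 : Pos := ⟨4351082440700684707983533188479023898983778692203198948350121608622024899330169078196771481657382924747884176956164508131669824382628887819328066740744577074660072526937200388489508552704, 13656093582782064088513256441827263541719335791936711628029821245173952262102198013577112700550845157296065483176633137647482917022757314933023002073154699608557271452539883864094025524055257705174045988672004851959853311475571453263232620298240, 14⟩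
def a6c1090 : Cert := (move 617 (branch (move 586 (branch (move 618 (leaf 585 1)) (move 585 (branch (move 616 (leaf 584 1)) (move 553 (branch (move 552 (leaf 552 3)) (move 554 (leaf 553 3)))))))) (branch (move 652 (branch (move 557 (branch (move 556 (leaf 524 6)) (move 684 (leaf 556 6)))) (branch (move 684 (branch (move 557 (leaf 556 6)) (move 715 (branch (move 683 (leaf 587 5)) (move 716 (branch (move 747 (leaf 619 5)) (move 717 (branch (move 685 (leaf 588 4)) (move 749 (leaf 620 4)))))))))) (branch (move 556 (branch (move 557 (leaf 524 6)) (move 651 (branch (move 683 (leaf 555 5)) (move 653 (branch (move 685 (leaf 556 4)) (move 650 (branch (move 618 (leaf 617 3)) (move 649 (branch (move 616 (leaf 616 3)) (move 681 (branch (move 680 (leaf 648 1)) (move 682 (leaf 649 1)))))))))))))) (ref 0))))) (branch (move 652 (branch (move 557 (branch (move 556 (leaf 524 6)) (move 684 (leaf 556 6)))) (branch (move 556 (branch (move 557 (leaf 524 6)) (move 653 (branch (move 685 (leaf 556 4)) (move 651 (branch (move 683 (leaf 555 5)) (move 618 (branch (move 586 (leaf 585 1)) (move 650 (leaf 617 3)))))))))) (branch (move 684 (branch (move 557 (leaf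 556 6)) (move 715 (branch (move 683 (leaf 587 5)) (move 716 (branch (move 747 (leaf 619 5)) (move 717 (branch (move 685 (leaf 588 4)) (move 749 (leaf 620 4)))))))))) (move 683 (branch (move 651 (branch (move 556 (leaf 555 5)) (move 715 (branch (move 684 (leaf 587 5)) (move 747 (leaf 619 6)))))) (branch (move 684 (branch (move 715 (leaf 587 5)) (move 685 (branch (move 717 (leaf 588 4)) (move 653 (branch (move 556 (leaf 556 4)) (move 654 (branch (move 655 (leaf 651 1)) (move 682 (leaf 650 2)))))))))) (branch (ref 1) (move 651 (branch (move 556 (leaf 555 5)) (move 618 (branch (move 586 (leaf 585 1)) (move 653 (branch (move 650 (leaf 617 3)) (move 654 (branch (move 682 (leaf 650 1)) (move 623 (branch (move 622 (leaf 619 2)) (move 655 (branch (move 624 (leaf 620 2)) (move 687 (branch (move 686 (leaf 651 0)) (move 688 (leaf 652 0)))))))))))))))))))))))) (ref 2)))))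
theorem a6p1090 : a6e1090.Valid :=
  pos_of_chk [a6e1081, a6e1082, a6e1089] (forall_cons a6p1081 (forall_cons a6p1082 (forall_cons a6p1089 forall_nil))) a6c1090 a6e1090 (by decide +kernel)

def a6e1091 : Pos := ⟨3545728635518426600428660094540274310643281036696600801353396678150640727315130116937366789281933414013323410376596464668487095359651202506837181439535073331503955251346051956736, 13656093582782064118125189049491542242528423325172310292451576634921009162909745119892992327624358205086606713174491153565089490804449680650241478380017209899113923132629813918695068310587949422859696092103926829445247252049949482597108028538880, 15⟩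
def a6c1091 : Cert := (move 620 (branch (move 652 (branch (move 557 (branch (move 556 (leaf 524 6)) (move 684 (leaf 556 6)))) (branch (move 684 (branch (move 557 (leaf 556 6)) (move 715 (branch (move 683 (leaf 587 5)) (move 716 (branch (move 747 (leaf 619 5)) (move 717 (branch (move 685 (leaf 588 4)) (move 749 (leaf 620 4)))))))))) (branch (move 684 (branch (move 716 (branch (move 619 (leaf 587 7)) (move 715 (branch (move 683 (leaf 587 5)) (move 747 (leaf 619 5)))))) (branch (move 716 (branch (move 619 (leaf 587 7)) (move 717 (branch (move 685 (leaf 588 4)) (move 749 (leaf 620 4)))))) (move 685 (branch (move 717 (leaf 588 4)) (move 653 (branch (move 556 (leaf 556 4)) (move 683 (branch (move 715 (leaf 587 5)) (move 654 (branch (move 655 (leaf 651 1)) (move 682 (leaf 650 2))))))))))))) (move 556 (branch (move 557 (leaf 524 6)) (ref 0))))))) (branch (move 586 (branch (move 617 (branch (move 618 (leaf 585 1)) (move 585 (branch (move 616 (leaf 584 1)) (move 553 (branch (move 552 (leaf 552 3)) (move 554 (leaf 553 3)))))))) (branch (move 553 (branch (move 554 (leaf 553 3)) (move 585 (branch (move 552 (leaf 552 3)) (move 584 (branch (move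 619 (leaf 584 0)) (move 616 (branch (move 615 (leaf 583 1)) (move 617 (leaf 584 1)))))))))) (branch (move 585 (branch (move 617 (branch (move 616 (leaf 584 1)) (move 618 (leaf 585 1)))) (branch (move 619 (branch (move 584 (leaf 584 0)) (move 590 (branch (move 618 (leaf 586 1)) (move 591 (leaf 587 1)))))) (move 584 (branch (move 619 (leaf 584 0)) (move 616 (branch (move 615 (leaf 583 1)) (move 617 (leaf 584 1))))))))) (branch (move 553 (branch (move 554 (leaf 553 3)) (move 585 (branch (move 552 (leaf 552 3)) (move 619 (branch (move 584 (leaf 584 0)) (move 590 (branch (move 618 (leaf 586 1)) (move 591 (leaf 587 1)))))))))) (move 618 (branch (move 617 (leaf 585 1)) (move 554 (branch (move 553 (leaf 553 3)) (move 522 (branch (move 491 (leaf 490 6)) (move 619 (branch (move 590 (leaf 586 1)) (move 490 (leaf 490 4))))))))))))))) (ref 1))))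
theorem a6p1091 : a6e1091.Valid :=
  pos_of_chk [a6e1080, a6e1090] (forall_cons a6p1080 (forall_cons a6p1090 forall_nil)) a6c1091 a6e1091 (by decide +kernel)

def a6e1092 : Pos := ⟨160526608398370824070433538171563696372835752364859274444577024270010760303240286335654967491350588367951959748383326534455183694696633021521154676286038139978845892387740046071132893161114213055359388483584, 12214922205444619662106156563486969624299162591165760814549846163870484132852430823272963007511545570193289421049719455654807481960616016196623484466854940041321925029155445870613114440809005602442180633554190236443693165838336, 10⟩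
def a6c1092 : Cert := (move 686 (branch (move 687 (branch (move 655 (leaf 558 4)) (move 719 (leaf 590 4)))) (branch (move 719 (branch (move 687 (leaf 590 4)) (move 718 (branch (move 751 (leaf 622 4)) (move 619 (branch (move 618 (leaf 586 1)) (move 683 (branch (move 684 (leaf 683 0)) (move 651 (branch (move 556 (leaf 555 6)) (move 715 (branch (move 620 (leaf 587 6)) (move 714 (branch (move 682 (leaf 586 5)) (move 746 (leaf 618 5)))))))))))))))) (branch (move 655 (branch (move 687 (leaf 558 4)) (move 618 (branch (move 619 (leaf 586 1)) (move 586 (branch (move 617 (leaf 585 1)) (move 554 (branch (move 553 (leaf 553 3)) (move 683 (branch (move 684 (leaf 651 2)) (move 650 (branch (move 651 (leaf 554 4)) (move 682 (branch (move 715 (leaf 586 4)) (move 681 (branch (move 649 (leaf 553 5)) (move 713 (leaf 585 5)))))))))))))))))) (move 683 (branch (move 684 (branch (move 655 (leaf 651 2)) (move 651 (branch (move 650 (leaf 650 3)) (move 619 (branch (move 716 (leaf 587 4)) (move 556 (leaf 555 6)))))))) (branch (move 619 (branch (move 618 (leaf 586 1)) (move 651 (branch (move 556 (leaf 555 6)) (move 715 (branch (move 620 (leaf 587 6)) (move 714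 (branch (move 682 (leaf 586 5)) (move 746 (leaf 618 5)))))))))) (branch (move 684 (branch (move 655 (leaf 651 2)) (move 650 (branch (move 651 (leaf 650 3)) (move 682 (branch (move 649 (leaf 649 3)) (move 714 (branch (move 713 (leaf 681 1)) (move 715 (leaf 682 1)))))))))) (move 684 (branch (move 655 (leaf 651 2)) (move 718 (branch (move 719 (leaf 683 0)) (move 618 (branch (move 619 (leaf 586 1)) (move 714 (branch (move 715 (leaf 682 1)) (move 682 (branch (move 713 (leaf 681 1)) (move 650 (branch (move 649 (leaf 649 3)) (move 617 (branch (move 586 (leaf 585 1)) (move 585 (leaf 585 7))))))))))))))))))))))))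
theorem a6p1092 : a6e1092.Valid :=
  pos_of_chk [] forall_nil a6c1092 a6e1092 (by decide +kernel)

def a6e1093 : Pos := ⟨160526608323619796991311491709346740785042179297808618581816618367401270089978561996107997190837712867328146734410050934401412925318309283366139500122666536916517135127419365326414312218956402289591032217600, 12214922222702578502236821877480481836468780902680586686230386032944176241828025369030206993178971463928431407427659702281467580136782738704328463515414891090078660651533547662331048258853176909014367584309246615226569019359232, 11⟩
def a6c1093 : Cert := (move 686 (branch (move 654 (branch (move 717 (leaf 589 5)) (move 687 (branch (move 655 (leaf 558 4)) (move 719 (leaf 590 4)))))) (branch (move 619 (branch (move 618 (leaf 586 1)) (move 651 (branch (move 683 (branch (move 556 (leaf 555 6)) (move 715 (branch (move 620 (leaf 587 6)) (move 714 (branch (move 682 (leaf 586 5)) (move 746 (leaf 618 5)))))))) (move 687 (branch (move 719 (branch (move 654 (leaf 590 4)) (move 720 (branch (move 684 (leaf 684 0)) (move 721 (branch (move 688 (leaf 685 0)) (move 718 (leaf 685 3)))))))) (branch (move 684 (branch (move 652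 (leaf 651 3)) (move 720 (branch (move 719 (leaf 684 0)) (move 688 (branch (move 721 (leaf 685 0)) (move 656 (branch (move 655 (leaf 652 2)) (move 657 (leaf 653 2)))))))))) (branch (move 654 (branch (move 655 (leaf 558 4)) (move 719 (leaf 590 4)))) (move 684 (branch (move 652 (leaf 651 3)) (move 655 (branch (move 656 (leaf 652 2)) (move 654 (leaf 558 4)))))))))))))) (branch (move 619 (branch (move 618 (leaf 586 1)) (move 683 (branch (move 651 (branch (move 556 (leaf 555 6)) (move 715 (branch (move 620 (leaf 587 6)) (move 714 (branch (move 682 (leaf 586 5)) (move 746 (leaf 618 5)))))))) (branch (move 651 (branch (move 556 (leaf 555 6)) (move 684 (branch (move 716 (leaf 587 4)) (move 650 (leaf 650 3)))))) (move 684 (branch (move 715 (branch (move 714 (leaf 682 1)) (move 652 (branch (move 620 (leaf 587 5)) (move 687 (branch (move 716 (leaf 683 1)) (move 656 (branch (move 655 (leaf 652 2)) (move 688 (branch (move 657 (leaf 653 2)) (move 720 (branch (move 719 (leaf 684 0)) (move 721 (leaf 685 0)))))))))))))) (branch (move 719 (branch (move 718 (leaf 683 0)) (move 687 (branch (move 720 (leaf 684 0)) (move 716 (branch (move 715 (leaf 683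 1)) (move 688 (branch (move 717 (leaf 684 1)) (move 656 (branch (move 655 (leaf 652 2)) (move 657 (leaf 653 2)))))))))))) (branch (move 714 (branch (move 715 (leaf 682 1)) (move 682 (branch (move 713 (leaf 681 1)) (move 717 (branch (move 718 (leaf 682 0)) (move 652 (branch (move 620 (leaf 588 4)) (move 681 (branch (move 716 (leaf 681 0)) (move 649 (branch (move 648 (leaf 648 3)) (move 650 (leaf 649 3)))))))))))))) (move 718 (branch (move 719 (leaf 683 0)) (move 682 (branch (move 717 (leaf 682 0)) (move 649 (branch (move 650 (leaf 649 3)) (move 681 (branch (move 648 (leaf 648 3)) (move 713 (branch (move 712 (leaf 680 1)) (move 714 (leaf 681 1))))))))))))))))))))) (branch (move 654 (branch (move 717 (leaf 589 5)) (move 655 (branch (move 687 (leaf 558 4)) (move 618 (branch (move 619 (leaf 586 1)) (move 586 (branch (move 617 (leaf 585 1)) (move 554 (branch (move 553 (leaf 553 3)) (move 683 (branch (move 684 (leaf 651 2)) (move 650 (branch (move 651 (leaf 554 4)) (move 682 (branch (move 715 (leaf 586 4)) (move 681 (branch (move 649 (leaf 553 5)) (move 713 (leaf 585 5)))))))))))))))))))) (branch (move 654 (branch (move 717 (leaf 589 5))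 (move 719 (branch (move 687 (leaf 590 4)) (move 718 (branch (move 751 (leaf 622 4)) (move 619 (branch (move 618 (leaf 586 1)) (move 683 (branch (move 684 (leaf 683 0)) (move 651 (branch (move 556 (leaf 555 6)) (move 715 (branch (move 620 (leaf 587 6)) (move 714 (branch (move 682 (leaf 586 5)) (move 746 (leaf 618 5)))))))))))))))))) (move 683 (branch (move 619 (branch (move 618 (leaf 586 1)) (move 651 (branch (move 556 (leaf 555 6)) (move 715 (branch (move 620 (leaf 587 6)) (move 714 (branch (move 682 (leaf 586 5)) (move 746 (leaf 618 5)))))))))) (branch (move 654 (branch (move 717 (leaf 589 5)) (move 684 (branch (move 655 (leaf 651 2)) (move 718 (branch (move 719 (leaf 683 0)) (move 650 (branch (move 651 (leaf 650 3)) (move 682 (branch (move 649 (leaf 649 3)) (move 714 (branch (move 713 (leaf 681 1)) (move 715 (leaf 682 1)))))))))))))) (branch (move 654 (branch (move 717 (leaf 589 5)) (move 684 (branch (move 655 (leaf 651 2)) (move 718 (branch (move 719 (leaf 683 0)) (move 618 (branch (move 619 (leaf 586 1)) (move 714 (branch (move 715 (leaf 682 1)) (move 682 (branch (move 713 (leaf 681 1)) (move 650 (branch (move 649 (leaf 649 3))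 (move 617 (branch (move 586 (leaf 585 1)) (move 585 (leaf 585 7)))))))))))))))))) (move 619 (branch (move 618 (leaf 586 1)) (move 651 (branch (move 556 (leaf 555 6)) (move 684 (branch (move 650 (leaf 650 3)) (move 716 (leaf 587 4))))))))))))))))))
theorem a6p1093 : a6e1093.Valid :=
  pos_of_chk [] forall_nil a6c1093 a6e1093 (by decide +kernel)

def a6e1094 : Pos := ⟨280921564566334644704337533418988686806156695514180100007065456224926173091974820980800833042093048466141463033127122112712427880619117427165651921450804220459745349943172395187631936211976752003539284262912, 5149378480356522910444681069687098184256604027067807893333594932852071907367354208347683136029804470817751646209941723319791019779176654791498780507891582460124041217195126753402715712070845041649517224235395627089920, 6⟩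
def a6c1094 : Cert := (move 682 (branch (move 714 (branch (move 713 (leaf 681 1)) (move 686 (branch (move 715 (leaf 682 1)) (move 718 (branch (move 717 (leaf 682 0)) (move 719 (leaf 683 0)))))))) (branch (move 713 (branch (move 714 (leaf 681 1)) (move 681 (branch (move 712 (leaf 680 1)) (move 649 (branch (move 648 (leaf 648 3)) (move 650 (leaf 649 3)))))))) (move 717 (branch (move 718 (leaf 682 0)) (move 652 (branch (move 620 (leaf 588 4)) (move 681 (branch (move 653 (leaf 649 2)) (move 649 (branch (move 648 (leaf 648 3)) (move 650 (leaf 649 3)))))))))))))
theorem a6p1094 : a6e1094.Valid :=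
  pos_of_chk [] forall_nil a6c1094 a6e1094 (by decide +kernel)

def a6e1095 : Pos := ⟨280921564566334644704337533418988686806156695514180100007065456224926173091974820980800833042093048466141463033127122112712427880619117427165651921450804220459745349943172395187631936211976752003539284262912, 5472561234632367099818377929955604558980565808510937211570934085520013791211142167595276984864349487724207322653145353069451168881582029949301394881304188140046438143998764483465649316665866978376705969820790618587136, 7⟩
def a6c1095 : Cert := (move 686 (branch (move 718 (branch (move 719 (leaf 683 0)) (move 682 (branch (move 717 (leaf 682 0)) (move 714 (branch (move 713 (leaf 681 1)) (move 715 (leaf 682 1)))))))) (branch (move 715 (branch (move 714 (leaf 682 1)) (move 652 (branch (move 620 (leaf 587 5)) (move 687 (branch (move 716 (leaf 683 1)) (move 688 (branch (move 653 (leaf 652 3)) (move 656 (branch (move 655 (leaf 652 2)) (move 657 (leaf 653 2)))))))))))) (move 718 (branch (move 719 (leaf 683 0)) (move 717 (branch (move 682 (leaf 682 0)) (move 652 (branch (move 620 (leaf 588 4)) (move 687 (branch (move 651 (leaf 651 3)) (move 688 (branch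 (move 716 (leaf 684 1)) (move 689 (leaf 685 1)))))))))))))))
theorem a6p1095 : a6e1095.Valid :=
  pos_of_chk [] forall_nil a6c1095 a6e1095 (by decide +kernel)

def a6e1096 : Pos := ⟨200658260404524746217383952442424223525664449987703448098217175843628380210244461756654309966568322342682860603070691788722263203950053037164311974388855354951395379375416587720107769984493800385019794948096, 3414023414276052560985434810811455185935927787897534077245020284192590162229990956150902003145118872800961732734823975129635819490492969502293432568974779724588848778052470367051160078394066147552784493151931105732287098885979544699243721654272, 11⟩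
def a6c1096 : Cert := (move 684 (branch (move 682 (branch (move 713 (branch (move 714 (leaf 681 1)) (move 681 (branch (move 712 (leaf 680 1)) (move 649 (branch (move 648 (leaf 648 3)) (move 650 (leaf 649 3)))))))) (branch (move 717 (branch (move 718 (leaf 682 0)) (move 681 (branch (move 716 (leaf 681 0)) (move 713 (branch (move 712 (leaf 680 1)) (move 714 (leaf 681 1)))))))) (move 650 (branch (move 649 (leaf 649 3)) (move 686 (branch (move 651 (leaf 650 3)) (move 718 (branch (move 717 (leaf 682 0)) (move 719 (leaf 683 0))))))))))) (branch (move 686 (branch (move 650 (branch (move 651 (leaf 650 3)) (move 682 (branch (move 649 (leaf 649 3)) (move 714 (branch (move 713 (leaf 681 1)) (move 715 (leaf 682 1)))))))) (branch (move 715 (branch (move 714 (leaf 682 1)) (move 687 (branch (move 716 (leaf 683 1)) (move 719 (branch (move 718 (leaf 683 0)) (move 720 (leaf 684 0)))))))) (move 651 (branch (move 650 (leaf 650 3)) (move 687 (branch (move 652 (leaf 651 3)) (move 719 (branch (move 718 (leaf 683 0)) (move 720 (leaf 684 0))))))))))) (branch (ref 0) (branch (ref 1) (branch (move 686 (branch (move 651 (branch (move 650 (leaf 650 3)) (move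 652 (branch (move 687 (leaf 651 3)) (move 620 (branch (move 717 (leaf 588 4)) (move 556 (leaf 555 5)))))))) (branch (move 718 (branch (move 719 (leaf 683 0)) (move 682 (branch (move 717 (leaf 682 0)) (move 650 (branch (move 649 (leaf 649 3)) (move 651 (leaf 650 3)))))))) (branch (move 651 (branch (move 650 (leaf 650 3)) (move 687 (branch (move 652 (leaf 651 3)) (move 719 (branch (move 718 (leaf 683 0)) (move 720 (leaf 684 0)))))))) (move 719 (branch (move 718 (leaf 683 0)) (move 687 (branch (move 720 (leaf 684 0)) (move 716 (branch (move 715 (leaf 683 1)) (move 688 (branch (move 717 (leaf 684 1)) (move 656 (branch (move 655 (leaf 652 2)) (move 657 (leaf 653 2)))))))))))))))) (branch (move 686 (branch (move 651 (branch (move 650 (leaf 650 3)) (move 652 (branch (move 687 (leaf 651 3)) (move 620 (branch (move 717 (leaf 588 4)) (move 556 (leaf 555 5)))))))) (branch (move 650 (branch (move 651 (leaf 650 3)) (move 682 (branch (move 649 (leaf 649 3)) (move 714 (branch (move 713 (leaf 681 1)) (move 715 (leaf 682 1)))))))) (move 715 (branch (move 714 (leaf 682 1)) (move 652 (branch (move 620 (leaf 587 5)) (move 687 (branch (move 716 (leaf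 683 1)) (move 688 (branch (move 653 (leaf 652 3)) (move 656 (branch (move 655 (leaf 652 2)) (move 657 (leaf 653 2))))))))))))))) (branch (move 686 (branch (move 651 (branch (move 650 (leaf 650 3)) (move 652 (branch (move 687 (leaf 651 3)) (move 620 (branch (move 717 (leaf 588 4)) (move 556 (leaf 555 5)))))))) (branch (move 715 (branch (move 714 (leaf 682 1)) (move 687 (branch (move 716 (leaf 683 1)) (move 719 (branch (move 718 (leaf 683 0)) (move 720 (leaf 684 0)))))))) (move 715 (branch (move 714 (leaf 682 1)) (move 652 (branch (move 620 (leaf 587 5)) (move 651 (branch (move 650 (leaf 650 3)) (move 747 (branch (move 779 (leaf 651 6)) (move 748 (branch (move 780 (leaf 651 4)) (move 718 (branch (move 719 (leaf 683 0)) (move 746 (branch (move 778 (leaf 650 5)) (move 717 (branch (move 716 (leaf 714 1)) (move 749 (leaf 714 2))))))))))))))))))))) (move 682 (branch (move 717 (branch (move 718 (leaf 682 0)) (move 681 (branch (move 716 (leaf 681 0)) (move 649 (branch (move 648 (leaf 648 3)) (move 650 (leaf 649 3)))))))) (branch (move 713 (branch (move 714 (leaf 681 1)) (move 681 (branch (move 712 (leaf 680 1)) (move 649 (branch (move 648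 (leaf 648 3)) (move 650 (leaf 649 3)))))))) (branch (move 717 (branch (move 718 (leaf 682 0)) (move 681 (branch (move 716 (leaf 681 0)) (move 713 (branch (move 712 (leaf 680 1)) (move 714 (leaf 681 1)))))))) (move 650 (branch (move 649 (leaf 649 3)) (move 747 (branch (move 714 (branch (move 713 (leaf 681 1)) (move 746 (branch (move 779 (leaf 650 4)) (move 717 (branch (move 718 (leaf 682 0)) (move 778 (branch (move 651 (leaf 650 6)) (move 777 (branch (move 745 (leaf 649 5)) (move 809 (leaf 681 5)))))))))))) (branch (move 714 (branch (move 713 (leaf 681 1)) (move 715 (branch (move 618 (leaf 618 4)) (move 717 (branch (move 718 (leaf 682 0)) (move 652 (branch (move 620 (leaf 588 4)) (move 749 (branch (move 781 (leaf 652 7)) (move 750 (branch (move 716 (leaf 714 0)) (move 748 (leaf 714 3)))))))))))))) (move 715 (branch (move 779 (leaf 650 7)) (move 618 (branch (move 586 (leaf 586 4)) (move 651 (leaf 618 7)))))))))))))))))))))))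
theorem a6p1096 : a6e1096.Valid :=
  pos_of_chk [a6e1094, a6e1095] (forall_cons a6p1094 (forall_cons a6p1095 forall_nil)) a6c1096 a6e1096 (by decide +kernel)

def a6e1097 : Pos := ⟨160526608323619796973907161960726916494238262339291941263420122440474820807849946170453063234223255002189863819584980488581715695418569246209895694628771664870603338305714632819778490573364063277447016087552, 3414023414276052560985434810811455185983584124743608704474368399420773793013731342356288845900037470409491585933358359933215646120756314391198375375100371489600308888470560048508112447392375495295687189010798933338040759710010675953965788561408, 12⟩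
def a6c1097 : Cert := (move 683 (branch (move 619 (branch (move 618 (leaf 586 1)) (move 651 (branch (move 556 (leaf 555 6)) (move 715 (branch (move 620 (leaf 587 6)) (move 716 (branch (move 684 (leaf 587 4)) (move 748 (leaf 619 4)))))))))) (branch (move 619 (branch (move 618 (leaf 586 1)) (move 651 (branch (move 556 (leaf 555 6)) (move 715 (branch (move 620 (leaf 587 6)) (move 714 (branch (move 682 (leaf 586 5)) (move 746 (leaf 618 5)))))))))) (branch (move 619 (branch (move 618 (leaf 586 1)) (move 651 (branch (move 556 (leaf 555 6)) (move 684 (branch (move 716 (leaf 587 4)) (move 682 (branch (move 714 (leaf 586 5)) (move 650 (branch (move 649 (leaf 649 3)) (move 686 (leaf 650 3)))))))))))) (branch (move 684 (branch (move 651 (branch (move 619 (branch (move 716 (leaf 587 4)) (move 556 (leaf 555 6)))) (move 650 (branch (move 686 (leaf 650 3)) (move 649 (branch (move 648 (leaf 648 0)) (move 682 (leaf 649 3)))))))) (branch (move 686 (branch (move 651 (branch (move 650 (leaf 650 3)) (move 619 (branch (move 716 (leaf 587 4)) (move 556 (leaf 555 6)))))) (branch (move 651 (branch (move 650 (leaf 650 3)) (move 652 (branch (move 687 (leaf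 651 3)) (move 620 (branch (move 717 (leaf 588 4)) (move 556 (leaf 555 5)))))))) (move 715 (branch (move 714 (leaf 682 1)) (move 687 (branch (move 716 (leaf 683 1)) (move 719 (branch (move 718 (leaf 683 0)) (move 720 (leaf 684 0))))))))))) (branch (ref 0) (branch (ref 1) (move 682 (branch (move 717 (branch (move 718 (leaf 682 0)) (move 681 (branch (move 716 (leaf 681 0)) (move 649 (branch (move 648 (leaf 648 3)) (move 650 (leaf 649 3)))))))) (branch (move 713 (branch (move 714 (leaf 681 1)) (move 681 (branch (move 712 (leaf 680 1)) (move 649 (branch (move 648 (leaf 648 3)) (move 650 (leaf 649 3)))))))) (branch (move 717 (branch (move 718 (leaf 682 0)) (move 681 (branch (move 716 (leaf 681 0)) (move 713 (branch (move 712 (leaf 680 1)) (move 714 (leaf 681 1)))))))) (move 714 (branch (move 713 (leaf 681 1)) (move 651 (branch (move 619 (leaf 586 5)) (move 650 (branch (move 649 (leaf 649 3)) (move 746 (branch (move 778 (leaf 650 6)) (move 747 (branch (move 779 (leaf 650 4)) (move 717 (branch (move 718 (leaf 682 0)) (move 745 (branch (move 777 (leaf 649 5)) (move 716 (branch (move 715 (leaf 713 1)) (move 748 (leaf 713 2)))))))))))))))))))))))))))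 (branch (move 682 (branch (move 684 (branch (move 717 (branch (move 718 (leaf 682 0)) (move 652 (branch (move 620 (leaf 588 4)) (move 681 (branch (move 716 (leaf 681 0)) (move 653 (leaf 649 2)))))))) (branch (move 714 (branch (move 713 (leaf 681 1)) (move 686 (branch (move 715 (leaf 682 1)) (move 718 (branch (move 717 (leaf 682 0)) (move 719 (leaf 683 0)))))))) (move 714 (branch (move 713 (leaf 681 1)) (move 715 (branch (move 686 (leaf 682 1)) (move 652 (branch (move 620 (leaf 587 5)) (move 681 (branch (move 653 (leaf 649 2)) (move 680 (branch (move 679 (leaf 679 0)) (move 716 (leaf 680 0))))))))))))))) (move 618 (branch (move 619 (leaf 586 1)) (move 586 (branch (move 617 (leaf 585 1)) (move 553 (branch (move 554 (leaf 553 3)) (move 585 (branch (move 552 (leaf 552 3)) (move 650 (leaf 553 7)))))))))))) (ref 2)))))))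
theorem a6p1097 : a6e1097.Valid :=
  pos_of_chk [a6e1094, a6e1095, a6e1096] (forall_cons a6p1094 (forall_cons a6p1095 (forall_cons a6p1096 forall_nil))) a6c1097 a6e1097 (by decide +kernel)

def a6e1098 : Pos := ⟨17404329756217814223114197638677388616700191398418544706984938815579918673894782266987113687535895246133142514894256050040738330460987029920440471266575040185224487776382621154804164984832, 3414023414276052572830207864908471192671720343893675409155670230925611505139826754817933451632871297569376369611696481183807432220907429484284774492739659110426865020682314920782905640410408174971603609760936574713688533116024141422172598960128, 13⟩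
def a6c1098 : Cert := (move 685 (branch (move 558 (branch (move 559 (leaf 555 2)) (move 654 (branch (move 653 (leaf 557 5)) (move 686 (branch (move 717 (leaf 589 5)) (move 687 (branch (move 655 (leaf 558 4)) (move 719 (leaf 590 4)))))))))) (branch (move 558 (branch (move 559 (leaf 555 2)) (move 654 (branch (move 653 (leaf 557 5)) (ref 0))))) (branch (move 558 (branch (move 559 (leaf 555 2)) (move 653 (branch (move 654 (leaf 557 5)) (move 586 (branch (move 618 (branch (move 617 (leaf 585 1)) (move 619 (leaf 586 1)))) (branch (move 617 (branch (move 618 (leaf 585 1)) (move 585 (branch (move 616 (leaf 584 1)) (move 553 (branch (move 552 (leaf 552 3)) (move 554 (leaf 553 3)))))))) (branch (move 554 (branch (move 553 (leaf 553 3)) (move 522 (branch (move 491 (branch (move 618 (leaf 490 6)) (move 459 (branch (move 427 (leaf 426 5)) (move 490 (leaf 458 6)))))) (branch (move 619 (branch (move 490 (leaf 490 4)) (move 651 (branch (move 618 (leaf 586 1)) (move 683 (leaf 554 7)))))) (branch (move 618 (branch (move 491 (leaf 490 6)) (move 619 (leaf 586 1)))) (move 490 (branch (move 619 (leaf 490 4)) (move 459 (branch (move 491 (leaf 458 6)) (move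 458 (branch (move 427 (leaf 426 6)) (move 457 (branch (move 425 (leaf 425 7)) (move 489 (leaf 457 7)))))))))))))))) (move 553 (branch (move 554 (leaf 553 3)) (move 585 (branch (move 552 (leaf 552 3)) (move 616 (branch (move 617 (leaf 584 1)) (move 584 (branch (move 615 (leaf 583 1)) (move 620 (branch (move 619 (leaf 584 0)) (move 652 (branch (move 556 (leaf 556 4)) (move 717 (branch (move 684 (leaf 588 4)) (move 749 (leaf 620 7)))))))))))))))))))))))) (branch (move 558 (branch (move 559 (leaf 555 2)) (ref 1))) (ref 2))))))
theorem a6p1098 : a6e1098.Valid :=
  pos_of_chk [a6e1092, a6e1093, a6e1097] (forall_cons a6p1092 (forall_cons a6p1093 (forall_cons a6p1097 forall_nil))) a6c1098 a6e1098 (by decide +kernel)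

def a6e1099 : Pos := ⟨2532663311084590429136515293567978931138803856348641688018016329998719466379398419701688192403806895403853256716800903693777386143658137007998016004228651517719902817940662124544, 17070116973211438781556809195234119741857884467272258319509282270945083373264502894629505449620372770005391516791703171787428034703337264819267657234926542880422025720269889147567315206671226374855755100142248170270411101454390195728092212756480, 16⟩
def a6c1099 : Cert := (move 588 (branch (ref 0) (branch (move 586 (branch (move 617 (branch (move 618 (leaf 585 1)) (move 585 (branch (move 616 (leaf 584 1)) (move 553 (branch (move 552 (leaf 552 3)) (move 554 (leaf 553 3)))))))) (move 558 (branch (move 557 (leaf 554 2)) (move 590 (branch (move 559 (leaf 555 2)) (move 623 (branch (move 622 (leaf 587 0)) (move 591 (branch (move 624 (leaf 588 0)) (move 494 (leaf 494 4)))))))))))) (branch (ref 1) (branch (move 558 (branch (move 557 (branch (move 586 (leaf 554 2)) (move 559 (branch (move 556 (leaf 555 1)) (move 560 (leaf 556 1)))))) (branch (move 590 (branch (move 559 (leaf 555 2)) (move 623 (branch (move 622 (leaf 587 0)) (move 591 (branch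 (move 624 (leaf 588 0)) (move 494 (leaf 494 4)))))))) (move 557 (branch (move 586 (leaf 554 2)) (move 590 (branch (move 622 (branch (move 623 (leaf 587 0)) (move 654 (leaf 525 7)))) (branch (move 494 (branch (move 462 (leaf 461 5)) (move 591 (branch (move 623 (leaf 494 4)) (move 592 (branch (move 556 (leaf 556 3)) (move 593 (leaf 557 3)))))))) (move 620 (branch (move 652 (branch (move 556 (leaf 524 6)) (move 684 (leaf 556 6)))) (branch (move 591 (branch (move 619 (leaf 587 1)) (move 592 (branch (move 556 (leaf 556 3)) (move 593 (leaf 557 3)))))) (move 684 (branch (move 652 (leaf 556 6)) (move 619 (branch (move 591 (leaf 587 1)) (move 683 (branch (move 651 (branch (move 716 (leaf 587 4)) (move 715 (leaf 587 6)))) (branch (move 651 (branch (move 715 (leaf 587 6)) (move 682 (branch (move 714 (leaf 586 5)) (move 654 (branch (move 622 (leaf 525 7)) (move 685 (branch (move 653 (leaf 650 2)) (move 650 (branch (move 649 (leaf 649 3)) (move 686 (leaf 650 3)))))))))))) (branch (move 654 (branch (move 622 (leaf 525 7)) (move 651 (branch (move 716 (leaf 587 4)) (move 682 (branch (move 714 (leaf 586 5)) (move 685 (branch (move 653 (leaf 650 2))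 (move 650 (branch (move 649 (leaf 649 3)) (move 686 (leaf 650 3)))))))))))) (ref 2)))))))))))))))))))) (branch (ref 3) (move 590 (branch (move 619 (branch (move 618 (leaf 586 1)) (move 591 (branch (move 620 (leaf 587 1)) (move 623 (branch (move 622 (leaf 587 0)) (move 624 (leaf 588 0)))))))) (branch (move 558 (branch (move 559 (leaf 555 2)) (move 623 (branch (move 622 (leaf 587 0)) (move 591 (branch (move 624 (leaf 588 0)) (move 494 (leaf 494 4)))))))) (branch (move 619 (branch (move 618 (leaf 586 1)) (move 591 (branch (move 620 (leaf 587 1)) (move 559 (branch (move 558 (leaf 555 2)) (move 560 (leaf 556 2)))))))) (move 622 (branch (move 623 (leaf 587 0)) (ref 4)))))))))))))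
theorem a6p1099 : a6e1099.Valid :=
  pos_of_chk [a6e1018, a6e1019, a6e1079, a6e1091, a6e1098] (forall_cons a6p1018 (forall_cons a6p1019 (forall_cons a6p1079 (forall_cons a6p1091 (forall_cons a6p1098 forall_nil))))) a6c1099 a6e1099 (by decide +kernel)

def a6e1100 : Pos := ⟨506532662216918086112878641375029150371007844511514295442011774485705398306689363842456234910103870849069132394876690225811003782617231095943877901633942686147060140498518802432, 590626046609860179037972139418741435846104222491203883611601781795760652962787358843837902124162880316788846372946335921941289678468537850535080576954738662371382079407062393937526772764826068674779829056645992036587891757288612479291653051383808, 17⟩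
def a6c1100 : Cert := (move 589 (branch (move 557 (branch (move 494 (branch (move 621 (leaf 493 6)) (move 462 (branch (move 430 (leaf 429 5)) (move 558 (leaf 461 5)))))) (branch (move 621 (branch (move 494 (leaf 493 6)) (move 652 (branch (move 620 (leaf 524 5)) (move 653 (branch (move 684 (leaf 556 5)) (move 654 (branch (move 622 (leaf 525 4)) (move 686 (leaf 557 4)))))))))) (move 588 (branch (move 586 (branch (move 558 (leaf 554 2)) (move 585 (branch (move 556 (leaf 553 2)) (move 553 (branch (move 552 (leaf 552 3)) (move 554 (leaf 553 3)))))))) (branch (move 586 (branch (move 558 (leaf 554 2)) (move 618 (branch (move 617 (leaf 585 1)) (move 554 (branch (move 553 (leaf 553 3)) (move 522 (branch (move 491 (leaf 490 6)) (move 619 (branch (move 490 (leaf 490 4)) (move 651 (leaf 522 4)))))))))))) (branch (move 586 (branch (move 585 (branch (move 556 (leaf 553 2)) (move 553 (branch (move 552 (leaf 552 3)) (move 554 (leaf 553 3)))))) (branch (move 585 (branch (move 556 (leaf 553 2)) (move 617 (branch (move 616 (leaf 584 1)) (move 618 (leaf 585 1)))))) (move 618 (branch (move 617 (leaf 585 1)) (move 554 (branch (move 553 (leaf 553 3)) (move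 522 (branch (move 491 (leaf 490 6)) (move 619 (branch (move 490 (leaf 490 4)) (move 651 (leaf 522 4))))))))))))) (move 590 (branch (move 620 (branch (move 652 (branch (move 556 (leaf 524 6)) (move 684 (leaf 556 6)))) (move 619 (branch (move 591 (leaf 587 1)) (move 618 (leaf 586 1)))))) (move 622 (branch (move 623 (leaf 587 0)) (move 654 (branch (move 558 (leaf 525 7)) (move 686 (leaf 557 7))))))))))))))) (branch (move 588 (branch (ref 0) (branch (ref 1) (branch (ref 2) (ref 3))))) (branch (move 621 (branch (move 557 (branch (move 494 (leaf 493 6)) (move 653 (branch (move 558 (leaf 525 6)) (move 654 (branch (move 622 (leaf 525 4)) (move 686 (leaf 557 4)))))))) (branch (move 557 (branch (move 494 (leaf 493 6)) (move 653 (branch (move 558 (leaf 525 6)) (move 652 (branch (move 620 (leaf 524 5)) (move 684 (leaf 556 5)))))))) (branch (move 557 (branch (move 494 (leaf 493 6)) (move 652 (branch (move 620 (leaf 524 5)) (move 653 (branch (move 684 (leaf 556 5)) (move 654 (branch (move 622 (leaf 525 4)) (move 686 (leaf 557 4)))))))))) (branch (move 557 (branch (move 494 (leaf 493 6)) (ref 4))) (branch (move 557 (branch (move 653 (branch (move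 558 (leaf 525 6)) (move 652 (branch (move 620 (leaf 524 5)) (move 684 (leaf 556 5)))))) (branch (move 653 (branch (move 558 (leaf 525 6)) (move 654 (branch (move 622 (leaf 525 4)) (move 686 (leaf 557 4)))))) (branch (move 652 (branch (move 620 (leaf 524 5)) (move 653 (branch (move 684 (leaf 556 5)) (move 654 (branch (move 622 (leaf 525 4)) (move 686 (leaf 557 4)))))))) (ref 4))))) (ref 5))))))) (branch (move 588 (branch (ref 3) (branch (ref 0) (branch (ref 1) (ref 6))))) (branch (ref 7) (branch (ref 8) (branch (move 588 (branch (ref 1) (branch (move 586 (branch (move 617 (branch (move 618 (leaf 585 1)) (move 585 (branch (move 616 (leaf 584 1)) (move 553 (branch (move 552 (leaf 552 3)) (move 554 (leaf 553 3)))))))) (branch (move 618 (branch (move 617 (leaf 585 1)) (move 590 (branch (move 619 (leaf 586 1)) (move 622 (branch (move 621 (leaf 586 0)) (move 623 (leaf 587 0)))))))) (move 621 (branch (move 622 (leaf 586 0)) (move 557 (branch (move 494 (leaf 493 6)) (move 585 (branch (move 556 (leaf 553 2)) (move 553 (branch (move 552 (leaf 552 3)) (move 554 (leaf 553 3))))))))))))) (branch (move 590 (branch (move 558 (branch (move 559 (leaf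 555 2)) (move 623 (branch (move 622 (leaf 587 0)) (move 591 (branch (move 624 (leaf 588 0)) (move 494 (leaf 494 4)))))))) (branch (move 558 (branch (move 559 (leaf 555 2)) (move 621 (branch (move 494 (leaf 493 5)) (move 653 (branch (move 622 (leaf 525 5)) (move 685 (leaf 557 6)))))))) (branch (move 622 (branch (move 623 (leaf 587 0)) (move 586 (branch (move 621 (leaf 586 0)) (move 618 (branch (move 617 (leaf 585 1)) (move 619 (leaf 586 1)))))))) (ref 9))))) (ref 10))))) (branch (ref 11) (branch (move 588 (branch (ref 1) (branch (ref 12) (branch (ref 6) (move 586 (branch (move 617 (branch (move 618 (leaf 585 1)) (move 585 (branch (move 616 (leaf 584 1)) (move 553 (branch (move 552 (leaf 552 3)) (move 554 (leaf 553 3)))))))) (branch (move 553 (branch (move 554 (leaf 553 3)) (move 585 (branch (move 552 (leaf 552 3)) (move 620 (branch (move 621 (leaf 585 0)) (move 619 (branch (move 584 (leaf 584 0)) (move 590 (branch (move 618 (leaf 586 1)) (move 591 (leaf 587 1)))))))))))) (branch (move 553 (branch (move 554 (leaf 553 3)) (move 585 (branch (move 552 (leaf 552 3)) (move 616 (branch (move 617 (leaf 584 1)) (move 584 (branch (move 615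 (leaf 583 1)) (move 620 (branch (move 619 (leaf 584 0)) (move 621 (leaf 585 0)))))))))))) (branch (move 617 (branch (move 618 (leaf 585 1)) (move 585 (branch (move 616 (leaf 584 1)) (move 552 (branch (move 553 (leaf 552 3)) (move 584 (branch (move 551 (leaf 551 3)) (move 620 (branch (move 619 (leaf 584 0)) (move 621 (leaf 585 0)))))))))))) (move 618 (branch (move 617 (leaf 585 1)) (move 619 (branch (move 590 (leaf 586 1)) (move 554 (branch (move 522 (branch (move 490 (leaf 490 4)) (move 491 (leaf 490 6)))) (move 650 (branch (move 682 (branch (move 714 (leaf 586 6)) (move 681 (branch (move 649 (leaf 553 5)) (move 713 (leaf 585 5)))))) (branch (move 651 (branch (move 683 (leaf 554 4)) (move 649 (branch (move 681 (leaf 553 5)) (move 648 (branch (move 647 (leaf 615 2)) (move 620 (leaf 616 2)))))))) (move 683 (branch (move 651 (leaf 554 4)) (move 682 (branch (move 715 (leaf 586 4)) (move 714 (leaf 586 6)))))))))))))))))))))))) (branch (ref 13) (branch (move 588 (branch (ref 0) (branch (ref 1) (branch (move 557 (branch (move 586 (branch (move 558 (leaf 554 2)) (move 585 (branch (move 556 (leaf 553 2)) (move 553 (branch (move 552 (leaf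 552 3)) (move 554 (leaf 553 3)))))))) (move 621 (branch (move 494 (leaf 493 6)) (move 652 (branch (move 620 (leaf 524 5)) (move 653 (branch (move 684 (leaf 556 5)) (move 654 (branch (move 622 (leaf 525 4)) (move 686 (leaf 557 4)))))))))))) (move 621 (branch (move 557 (branch (move 494 (leaf 493 6)) (move 620 (branch (move 652 (leaf 524 5)) (move 622 (branch (move 623 (leaf 587 3)) (move 654 (leaf 525 4)))))))) (branch (move 557 (branch (move 494 (leaf 493 6)) (move 653 (branch (move 558 (leaf 525 6)) (move 654 (branch (move 622 (leaf 525 4)) (move 686 (leaf 557 4)))))))) (branch (move 557 (branch (move 494 (leaf 493 6)) (move 653 (branch (move 558 (leaf 525 6)) (move 652 (branch (move 620 (leaf 524 5)) (move 684 (leaf 556 5)))))))) (move 653 (branch (move 685 (branch (move 556 (leaf 556 7)) (move 717 (branch (move 620 (leaf 588 7)) (move 716 (branch (move 684 (leaf 588 5)) (move 748 (leaf 620 5)))))))) (branch (move 685 (branch (move 556 (leaf 556 7)) (move 717 (branch (move 620 (leaf 588 7)) (move 718 (branch (move 686 (leaf 589 4)) (move 750 (leaf 621 4)))))))) (branch (move 685 (branch (move 556 (leaf 556 7)) (ref 14))) (branch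 (move 685 (branch (move 717 (branch (move 620 (leaf 588 7)) (move 718 (branch (move 686 (leaf 589 4)) (move 750 (leaf 621 4)))))) (branch (move 717 (branch (move 620 (leaf 588 7)) (move 716 (branch (move 684 (leaf 588 5)) (move 748 (leaf 620 5)))))) (ref 14)))) (ref 15)))))))))))))) (branch (ref 16) (branch (move 621 (branch (move 557 (branch (move 494 (leaf 493 6)) (move 653 (branch (move 558 (leaf 525 6)) (move 654 (branch (move 622 (leaf 525 4)) (move 686 (leaf 557 4)))))))) (branch (move 557 (branch (move 494 (leaf 493 6)) (move 653 (branch (move 558 (leaf 525 6)) (move 652 (branch (move 620 (leaf 524 5)) (move 684 (leaf 556 5)))))))) (branch (move 557 (branch (move 494 (leaf 493 6)) (move 622 (branch (move 654 (leaf 525 4)) (move 620 (branch (move 652 (leaf 524 5)) (move 619 (branch (move 586 (leaf 586 3)) (move 590 (branch (move 618 (leaf 586 2)) (move 591 (leaf 587 2)))))))))))) (branch (move 557 (branch (move 653 (branch (move 558 (leaf 525 6)) (move 652 (branch (move 620 (leaf 524 5)) (move 684 (leaf 556 5)))))) (branch (move 653 (branch (move 558 (leaf 525 6)) (move 654 (branch (move 622 (leaf 525 4)) (move 686 (leaf 557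 4)))))) (move 622 (branch (move 654 (leaf 525 4)) (move 620 (branch (move 652 (leaf 524 5)) (move 619 (branch (move 586 (leaf 586 3)) (move 590 (branch (move 618 (leaf 586 2)) (move 591 (leaf 587 2))))))))))))) (ref 17)))))) (ref 18)))))))))))))))
theorem a6p1100 : a6e1100.Valid :=
  pos_of_chk [a6e1017, a6e1018, a6e1019, a6e1020, a6e1021, a6e1022, a6e1023, a6e1024, a6e1027, a6e1028, a6e1029, a6e1035, a6e1025, a6e1038, a6e1039, a6e1040, a6e1051, a6e1078, a6e1099] (forall_cons a6p1017 (forall_cons a6p1018 (forall_cons a6p1019 (forall_cons a6p1020 (forall_cons a6p1021 (forall_cons a6p1022 (forall_cons a6p1023 (forall_cons a6p1024 (forall_cons a6p1027 (forall_cons a6p1028 (forall_cons a6p1029 (forall_cons a6p1035 (forall_cons a6p1025 (forall_cons a6p1038 (forall_cons a6p1039 (forall_cons a6p1040 (forall_cons a6p1051 (forall_cons a6p1078 (forall_cons a6p1099 forall_nil))))))))))))))))))) a6c1100 a6e1100 (by decide +kernel)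

def a6e1101 : Pos := ⟨356969478326791705179058841552232447298010635607451881288512099877648245536678114710373101314395636858819408192357004617930343375985265478253849471137982971904, 590626046609860179038018408063446297660739303396137563423850417403549235117164594188402335905255301172286183325114636228557683811315396778877947455346063106566928321378617487020927304015515855167404732740702530333594072873530275318218690352119808, 18⟩
def a6c1101 : Cert := (move 587 (branch (move 555 (branch (ref 0) (branch (ref 1) (branch (ref 2) (ref 3))))) (branch (ref 4) (branch (move 555 (branch (ref 0) (branch (ref 1) (branch (move 491 (branch (move 490 (branch (move 458 (leaf 458 7)) (move 619 (branch (move 522 (leaf 490 7)) (move 618 (branch (move 586 (leaf 490 5)) (move 650 (leaf 522 5)))))))) (branch (move 618 (branch (move 586 (leaf 490 5)) (move 619 (branch (move 650 (leaf 522 5)) (move 620 (branch (move 588 (leaf 491 4)) (move 652 (leaf 523 4)))))))) (move 458 (branch (move 490 (leaf 458 7)) (move 459 (branch (move 426 (leaf 426 7)) (move 588 (branch (move 556 (leaf 459 4)) (move 620 (leaf 491 4))))))))))) (branch (move 619 (branch (move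 522 (branch (move 490 (leaf 490 7)) (move 651 (branch (move 554 (leaf 522 7)) (move 652 (branch (move 620 (leaf 523 4)) (move 684 (leaf 555 4)))))))) (branch (move 522 (branch (move 490 (leaf 490 7)) (move 651 (branch (move 554 (leaf 522 7)) (move 650 (branch (move 618 (leaf 522 5)) (move 682 (leaf 554 5)))))))) (ref 5)))) (move 491 (branch (move 458 (branch (move 490 (leaf 458 7)) (move 459 (branch (move 426 (leaf 426 7)) (move 460 (branch (move 428 (leaf 427 6)) (move 492 (leaf 459 6)))))))) (ref 6)))))))) (branch (move 555 (branch (ref 0) (branch (move 586 (branch (move 618 (branch (move 491 (leaf 490 5)) (move 650 (branch (move 619 (leaf 522 5)) (move 682 (leaf 554 6)))))) (ref 7))) (branch (ref 8) (branch (move 491 (branch (move 458 (branch (move 490 (leaf 458 7)) (move 459 (branch (move 426 (leaf 426 7)) (move 460 (branch (move 428 (leaf 427 6)) (move 492 (leaf 459 6)))))))) (branch (move 588 (branch (move 620 (leaf 491 4)) (move 459 (branch (move 556 (leaf 459 4)) (move 460 (branch (move 428 (leaf 427 6)) (move 492 (leaf 459 6)))))))) (branch (move 458 (branch (move 490 (leaf 458 7)) (move 459 (branch (move 426 (leaf 426 7))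 (move 588 (branch (move 556 (leaf 459 4)) (move 620 (leaf 491 4)))))))) (ref 9))))) (ref 10)))))) (branch (move 555 (branch (ref 2) (branch (move 491 (branch (move 458 (branch (move 490 (leaf 458 7)) (move 459 (branch (move 426 (leaf 426 7)) (move 460 (branch (move 428 (leaf 427 6)) (move 492 (leaf 459 6)))))))) (move 586 (branch (move 618 (leaf 490 5)) (ref 7))))) (branch (ref 11) (branch (ref 12) (ref 13)))))) (branch (move 555 (branch (move 619 (branch (move 522 (branch (move 490 (leaf 490 7)) (move 651 (branch (move 554 (leaf 522 7)) (move 652 (branch (move 620 (leaf 523 4)) (move 684 (leaf 555 4)))))))) (branch (move 522 (branch (move 490 (leaf 490 7)) (move 651 (branch (move 554 (leaf 522 7)) (move 650 (branch (move 618 (leaf 522 5)) (move 682 (leaf 554 5)))))))) (move 620 (branch (move 652 (leaf 523 4)) (move 621 (branch (move 618 (branch (move 650 (leaf 522 5)) (move 590 (branch (move 589 (leaf 586 2)) (move 622 (branch (move 591 (leaf 587 2)) (move 653 (branch (move 654 (leaf 618 0)) (move 558 (leaf 525 5)))))))))) (branch (move 618 (branch (move 650 (leaf 522 5)) (move 585 (branch (move 586 (leaf 585 3)) (move 617 (branch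 (move 584 (leaf 584 3)) (move 589 (branch (move 588 (leaf 585 2)) (move 590 (leaf 586 2)))))))))) (move 622 (branch (move 586 (leaf 586 3)) (move 623 (branch (move 588 (leaf 587 3)) (move 655 (branch (move 654 (leaf 619 0)) (move 656 (leaf 620 0)))))))))))))))) (branch (ref 3) (branch (ref 10) (branch (ref 14) (branch (ref 13) (branch (ref 15) (branch (ref 16) (branch (ref 17) (branch (ref 18) (ref 19))))))))))) (branch (move 555 (branch (ref 0) (branch (move 491 (branch (move 458 (branch (move 490 (leaf 458 7)) (move 459 (branch (move 426 (leaf 426 7)) (move 460 (branch (move 428 (leaf 427 6)) (move 492 (leaf 459 6)))))))) (move 586 (branch (move 618 (leaf 490 5)) (ref 7))))) (branch (ref 20) (branch (ref 17) (branch (ref 21) (move 586 (branch (move 618 (branch (move 491 (leaf 490 5)) (move 650 (branch (move 619 (leaf 522 5)) (move 682 (leaf 554 6)))))) (ref 7))))))))) (branch (move 555 (branch (ref 2) (branch (ref 11) (branch (ref 12) (branch (ref 15) (ref 22)))))) (branch (move 555 (branch (ref 8) (branch (ref 3) (branch (ref 23) (branch (ref 24) (move 491 (branch (move 458 (branch (move 490 (leaf 458 7)) (move 459 (branch (move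 426 (leaf 426 7)) (move 460 (branch (move 428 (leaf 427 6)) (move 492 (leaf 459 6)))))))) (ref 6)))))))) (branch (move 555 (branch (ref 25) (branch (move 586 (branch (move 618 (branch (move 491 (leaf 490 5)) (move 650 (branch (move 619 (leaf 522 5)) (move 682 (leaf 554 6)))))) (ref 7))) (branch (ref 3) (branch (ref 26) (branch (ref 27) (ref 11))))))) (branch (move 555 (branch (ref 2) (branch (move 491 (branch (move 618 (branch (move 586 (leaf 490 5)) (move 619 (branch (move 650 (leaf 522 5)) (move 620 (branch (move 588 (leaf 491 4)) (move 652 (leaf 523 4)))))))) (move 458 (branch (move 490 (leaf 458 7)) (move 459 (branch (move 426 (leaf 426 7)) (move 460 (branch (move 428 (leaf 427 6)) (move 492 (leaf 459 6)))))))))) (branch (ref 8) (branch (ref 20) (branch (ref 26) (branch (ref 19) (ref 28)))))))) (branch (move 555 (branch (move 491 (branch (move 618 (branch (move 586 (leaf 490 5)) (move 619 (branch (move 650 (leaf 522 5)) (move 620 (branch (move 588 (leaf 491 4)) (move 652 (leaf 523 4)))))))) (move 458 (branch (move 490 (leaf 458 7)) (move 459 (branch (move 426 (leaf 426 7)) (move 460 (branch (move 428 (leaf 427 6)) (move 492 (leaf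 459 6)))))))))) (branch (move 491 (branch (move 458 (branch (move 490 (leaf 458 7)) (move 459 (branch (move 426 (leaf 426 7)) (move 460 (branch (move 428 (leaf 427 6)) (move 492 (leaf 459 6)))))))) (move 586 (branch (move 618 (leaf 490 5)) (ref 7))))) (branch (ref 18) (branch (ref 22) (branch (ref 29) (ref 30))))))) (branch (move 555 (branch (ref 25) (branch (move 619 (branch (move 522 (branch (move 490 (leaf 490 7)) (move 651 (branch (move 554 (leaf 522 7)) (move 652 (branch (move 620 (leaf 523 4)) (move 684 (leaf 555 4)))))))) (branch (move 522 (branch (move 490 (leaf 490 7)) (move 651 (branch (move 554 (leaf 522 7)) (move 650 (branch (move 618 (leaf 522 5)) (move 682 (leaf 554 5)))))))) (ref 5)))) (branch (ref 24) (branch (ref 12) (branch (ref 31) (branch (ref 28) (ref 30)))))))) (branch (move 555 (branch (ref 2) (branch (move 619 (branch (move 522 (branch (move 490 (leaf 490 7)) (move 651 (branch (move 554 (leaf 522 7)) (move 652 (branch (move 620 (leaf 523 4)) (move 684 (leaf 555 4)))))))) (branch (move 522 (branch (move 490 (leaf 490 7)) (move 651 (branch (move 554 (leaf 522 7)) (move 650 (branch (move 618 (leaf 522 5)) (move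 682 (leaf 554 5)))))))) (move 620 (branch (move 652 (leaf 523 4)) (move 618 (branch (move 650 (leaf 522 5)) (move 617 (branch (move 584 (branch (move 585 (leaf 584 3)) (move 616 (branch (move 583 (leaf 583 3)) (move 648 (branch (move 647 (leaf 615 1)) (move 649 (leaf 616 1)))))))) (move 589 (branch (move 588 (leaf 585 2)) (move 621 (branch (move 590 (leaf 586 2)) (move 654 (branch (move 653 (leaf 618 0)) (move 622 (branch (move 655 (leaf 619 0)) (move 557 (leaf 525 4))))))))))))))))))) (branch (ref 31) (branch (move 491 (branch (move 458 (branch (move 490 (leaf 458 7)) (move 459 (branch (move 426 (leaf 426 7)) (move 460 (branch (move 428 (leaf 427 6)) (move 492 (leaf 459 6)))))))) (ref 6))) (branch (ref 27) (branch (ref 29) (ref 21)))))))) (ref 32))))))))))))))))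
theorem a6p1101 : a6e1101.Valid :=
  pos_of_chk [a6e968, a6e969, a6e970, a6e973, a6e975, a6e976, a6e977, a6e978, a6e979, a6e980, a6e982, a6e983, a6e985, a6e986, a6e987, a6e988, a6e989, a6e991, a6e993, a6e997, a6e998, a6e999, a6e1000, a6e974, a6e1001, a6e1002, a6e1003, a6e1004, a6e1007, a6e1010, a6e1014, a6e1016, a6e1100] (forall_cons a6p968 (forall_cons a6p969 (forall_cons a6p970 (forall_cons a6p973 (forall_cons a6p975 (forall_cons a6p976 (forall_cons a6p977 (forall_cons a6p978 (forall_cons a6p979 (forall_cons a6p980 (forall_cons a6p982 (forall_cons a6p983 (forall_cons a6p985 (forall_cons a6p986 (forall_cons a6p987 (forall_cons a6p988 (forall_cons a6p989 (forall_cons a6p991 (forall_cons a6p993 (forall_cons a6p997 (forall_cons a6p998 (forall_cons a6p999 (forall_cons a6p1000 (forall_cons a6p974 (forall_cons a6p1001 (forall_cons a6p1002 (forall_cons a6p1003 (forall_cons a6p1004 (forall_cons a6p1007 (forall_cons a6p1010 (forall_cons a6p1014 (forall_cons a6p1016 (forall_cons a6p1100 forall_nil))))))))))))))))))))))))))))))))) a6c1101 a6e1101 (by decide +kernel)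

def a6e1102 : Pos := ⟨329510287686269266319131238355906874428932894406878659650934246040906072803087490501882862751749818638910222946791081185781855423986398903003553357973522743296, 590626046609860179038018408063446297660739303396137563423850417403549235117164594188402418282827222739602810742026893914205802036356957176303660462134672352820737466823797421033402498937040102269548458875247741936090843303112631121565377041006592, 19⟩
def a6c1102 : Cert := (move 523 (branch (move 524 (branch (move 558 (branch (move 559 (leaf 523 0)) (move 522 (branch (move 557 (leaf 522 0)) (move 490 (branch (move 489 (leaf 489 3)) (move 491 (leaf 490 3)))))))) (branch (move 558 (branch (move 559 (leaf 523 0)) (move 522 (branch (move 557 (leaf 522 0)) (move 554 (branch (move 553 (leaf 521 1)) (move 555 (leaf 522 1)))))))) (move 555 (branch (move 554 (leaf 522 1)) (move 587 (branch (move 619 (branch (move 492 (leaf 491 6)) (move 651 (branch (move 556 (leaf 523 6)) (move 652 (branch (move 620 (leaf 523 4)) (move 684 (leaf 555 4)))))))) (branch (move 491 (branch (move 490 (leaf 490 3)) (move 588 (branch (move 620 (leaf 491 4)) (move 459 (branch (move 556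 (leaf 459 4)) (move 618 (branch (move 586 (leaf 490 5)) (move 619 (branch (move 650 (leaf 522 5)) (move 428 (branch (move 460 (leaf 427 6)) (move 427 (branch (move 396 (leaf 395 6)) (move 426 (branch (move 394 (leaf 394 7)) (move 458 (leaf 426 7)))))))))))))))))) (branch (move 491 (branch (move 490 (leaf 490 3)) (move 460 (branch (move 492 (leaf 459 6)) (move 459 (branch (move 428 (leaf 427 6)) (move 556 (branch (move 427 (leaf 427 4)) (move 588 (leaf 459 4)))))))))) (move 491 (branch (move 490 (leaf 490 3)) (move 492 (branch (move 460 (leaf 459 6)) (move 619 (leaf 491 6))))))))))))))) (branch (move 524 (branch (move 554 (branch (move 555 (leaf 522 1)) (move 522 (branch (move 553 (leaf 521 1)) (move 490 (branch (move 489 (leaf 489 3)) (move 491 (leaf 490 3)))))))) (branch (move 558 (branch (move 559 (leaf 523 0)) (move 494 (branch (move 495 (leaf 491 2)) (move 557 (branch (move 522 (leaf 522 0)) (move 589 (branch (move 462 (leaf 461 5)) (move 621 (leaf 493 6)))))))))) (move 558 (branch (move 559 (leaf 523 0)) (move 494 (branch (move 495 (leaf 491 2)) (move 462 (branch (move 431 (branch (move 463 (leaf 430 6)) (move 430 (branch (move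 399 (leaf 398 6)) (move 429 (branch (move 397 (leaf 397 7)) (move 461 (leaf 429 7)))))))) (move 589 (branch (move 557 (leaf 461 5)) (move 590 (branch (move 621 (leaf 493 5)) (move 623 (branch (move 591 (leaf 494 4)) (move 622 (branch (move 655 (leaf 526 4)) (move 555 (branch (move 554 (leaf 522 1)) (move 491 (branch (move 490 (leaf 490 3)) (move 588 (branch (move 587 (leaf 587 0)) (move 556 (branch (move 459 (leaf 459 4)) (move 620 (leaf 491 7))))))))))))))))))))))))))) (branch (move 524 (branch (move 554 (branch (move 555 (leaf 522 1)) (move 522 (branch (move 553 (leaf 521 1)) (move 490 (branch (move 489 (leaf 489 3)) (move 491 (leaf 490 3)))))))) (branch (move 558 (branch (move 559 (leaf 523 0)) (move 557 (branch (move 522 (leaf 522 0)) (move 494 (branch (move 495 (leaf 491 2)) (move 589 (branch (move 462 (leaf 461 5)) (move 621 (leaf 493 6)))))))))) (move 558 (branch (move 559 (leaf 523 0)) (move 494 (branch (move 495 (leaf 491 2)) (move 462 (branch (move 491 (branch (move 490 (leaf 490 3)) (move 555 (branch (move 554 (leaf 522 1)) (move 429 (branch (move 461 (leaf 429 7)) (move 430 (branch (move 397 (leaf 397 7)) (move 431 (branch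 (move 399 (leaf 398 6)) (move 463 (leaf 430 6)))))))))))) (branch (move 589 (branch (move 557 (leaf 461 5)) (move 590 (branch (move 621 (leaf 493 5)) (move 623 (branch (move 591 (leaf 494 4)) (move 622 (branch (move 655 (leaf 526 4)) (move 491 (branch (move 490 (leaf 490 3)) (move 555 (branch (move 554 (leaf 522 1)) (move 463 (branch (move 431 (leaf 430 6)) (move 461 (branch (move 429 (leaf 429 7)) (move 460 (branch (move 492 (leaf 459 1)) (move 459 (branch (move 428 (leaf 427 6)) (move 426 (branch (move 427 (leaf 426 3)) (move 458 (leaf 426 7)))))))))))))))))))))))) (move 557 (branch (move 430 (leaf 429 5)) (move 589 (leaf 461 5)))))))))))))) (branch (move 558 (branch (move 494 (branch (ref 0) (branch (move 495 (branch (move 524 (leaf 491 2)) (move 463 (branch (move 590 (leaf 462 6)) (move 431 (branch (move 399 (leaf 398 5)) (move 462 (leaf 430 6)))))))) (move 524 (branch (move 495 (leaf 491 2)) (move 522 (branch (move 557 (leaf 522 0)) (move 554 (branch (move 553 (leaf 521 1)) (move 555 (leaf 522 1))))))))))) (branch (move 524 (branch (move 559 (leaf 523 0)) (move 522 (branch (move 557 (leaf 522 0)) (move 554 (branch (move 553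 (leaf 521 1)) (move 555 (leaf 522 1)))))))) (branch (ref 1) (branch (move 494 (branch (ref 0) (move 524 (branch (move 559 (leaf 523 0)) (move 495 (leaf 491 2)))))) (ref 2)))))) (branch (ref 3) (branch (ref 4) (branch (ref 5) (branch (ref 6) (branch (ref 7) (ref 8)))))))))))
theorem a6p1102 : a6e1102.Valid :=
  pos_of_chk [a6e931, a6e934, a6e936, a6e937, a6e946, a6e956, a6e959, a6e967, a6e1101] (forall_cons a6p931 (forall_cons a6p934 (forall_cons a6p936 (forall_cons a6p937 (forall_cons a6p946 (forall_cons a6p956 (forall_cons a6p959 (forall_cons a6p967 (forall_cons a6p1101 forall_nil))))))))) a6c1102 a6e1102 (by decide +kernel)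

def a6e1103 : Pos := ⟨943490606534895625797804639814575677804093268545974238254315266681763173974619713451121262365120594557168007589193436627216331782756179691645777099391186635344129818624, 186877567758720270289894688526069131301881618153453612071942003272087241588797149476662857139363350124498343426578911444080861294334119231622575987557372299138695063571094600698978981365221722947584, 7⟩
def a6c1103 : Cert := (move 462 (branch (move 429 (branch (move 461 (leaf 429 7)) (move 430 (branch (move 397 (leaf 397 7)) (move 431 (branch (move 463 (leaf 430 6)) (move 399 (leaf 398 6)))))))) (branch (move 461 (branch (move 429 (leaf 429 7)) (move 590 (branch (move 493 (leaf 461 7)) (move 623 (branch (move 591 (leaf 494 4)) (move 622 (branch (move 655 (leaf 526 4)) (move 621 (branch (move 653 (leaf 525 5)) (move 589 (leaf 493 5)))))))))))) (branch (move 431 (branch (move 463 (leaf 430 6)) (move 430 (branch (move 399 (leaf 398 6)) (move 493 (branch (move 398 (leaf 397 5)) (move 590 (branch (move 622 (leaf 493 7)) (move 461 (leaf 461 7)))))))))) (move 431 (branch (move 463 (leaf 430 6)) (move 430 (branch (move 399 (leaf 398 6)) (move 398 (branch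 (move 493 (leaf 397 5)) (move 397 (branch (move 429 (leaf 397 7)) (move 365 (leaf 365 7))))))))))))))
theorem a6p1103 : a6e1103.Valid :=
  pos_of_chk [] forall_nil a6c1103 a6e1103 (by decide +kernel)

def a6e1104 : Pos := ⟨219673525175326239139706567952578899801494509915775492637110403638269484207942744522876261888589484489350487029464255763984772246653104111236964442600623833088, 367675729757308937954257490191397900536331071938199216988987663844561617649654403100936884390832620245651603002879019200892012202486472376320, 9⟩
def a6c1104 : Cert := (move 428 (branch (move 427 (branch (move 463 (leaf 427 0)) (move 426 (branch (move 461 (leaf 426 0)) (move 394 (branch (move 393 (leaf 393 3)) (move 395 (leaf 394 3)))))))) (branch (move 431 (branch (move 399 (leaf 398 6)) (move 463 (branch (move 427 (leaf 427 0)) (move 464 (leaf 428 0)))))) (move 431 (branch (move 399 (leaf 398 6)) (move 460 (branch (move 459 (leaf 427 1)) (move 432 (branch (move 461 (leaf 428 1)) (move 396 (branch (move 395 (leaf 395 3)) (move 465 (branch (move 464 (leaf 429 0)) (move 433 (branch (move 466 (leaf 430 0)) (move 401 (branch (move 400 (leaf 397 2)) (move 402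 (leaf 398 2)))))))))))))))))))
theorem a6p1104 : a6e1104.Valid :=
  pos_of_chk [] forall_nil a6c1104 a6e1104 (by decide +kernel)

def a6e1105 : Pos := ⟨219673525175326239139706567948419895260313287626407871360895778083114828594879019660120542517667552527642048594904294154828562879507017294794859084857162596352, 34808659509396432475757358581380559888113372640571172021208606432391629320623423316461973430128069417341588330276542603770747409656539041483214601845141929515394255724750744687993306480640, 11⟩
def a6c1105 : Cert := (move 429 (branch (move 558 (branch (move 461 (leaf 429 7)) (move 463 (branch (move 431 (leaf 430 6)) (move 590 (branch (move 495 (leaf 462 6)) (move 591 (branch (move 623 (leaf 494 4)) (move 559 (leaf 462 4)))))))))) (branch (move 430 (branch (move 397 (leaf 397 7)) (move 431 (branch (move 399 (leaf 398 6)) (move 463 (branch (move 558 (leaf 430 6)) (move 464 (branch (move 465 (leaf 429 3)) (move 428 (leaf 428 0)))))))))) (branch (move 461 (branch (move 558 (leaf 429 7)) (move 397 (branch (move 430 (leaf 397 7)) (move 365 (leaf 365 4)))))) (move 430 (branch (move 397 (leaf 397 7)) (ref 0)))))))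
theorem a6p1105 : a6e1105.Valid :=
  pos_of_chk [a6e1104] (forall_cons a6p1104 forall_nil) a6c1105 a6e1105 (by decide +kernel)

def a6e1106 : Pos := ⟨356969478377938433427436058271188536310941872360836913257934987213324673163180205279196141234446732051411660647839609057423469485504285111783308737596241215488, 186877567758720270306103733731162869141801303339451886236198360322477557930574675515144800859524709595368345593995509569524641365422735453550069235853788850749263788914486824541557412783492159242240, 14⟩
def a6c1106 : Cert := (move 462 (branch (move 430 (branch (move 398 (branch (move 493 (leaf 397 5)) (move 399 (branch (move 431 (leaf 398 6)) (move 367 (leaf 366 6)))))) (branch (move 398 (branch (move 493 (leaf 397 5)) (move 397 (branch (move 429 (leaf 397 7)) (move 365 (leaf 365 7)))))) (branch (move 399 (branch (move 431 (leaf 398 6)) (move 398 (branch (move 367 (leaf 366 6)) (move 397 (branch (move 429 (leaf 397 7)) (move 365 (leaf 365 7)))))))) (move 429 (branch (move 397 (leaf 397 7)) (move 428 (branch (move 427 (branch (move 463 (leaf 427 0)) (move 426 (branch (move 461 (leaf 426 0)) (move 394 (branch (move 393 (leaf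 393 3)) (move 395 (leaf 394 3)))))))) (branch (move 431 (branch (move 399 (leaf 398 6)) (move 460 (branch (move 459 (leaf 427 1)) (move 461 (branch (move 432 (leaf 428 1)) (move 396 (branch (move 395 (leaf 395 3)) (move 493 (leaf 396 7)))))))))) (move 431 (branch (move 399 (leaf 398 6)) (move 463 (branch (move 427 (leaf 427 0)) (move 464 (leaf 428 0))))))))))))))) (branch (move 430 (branch (move 398 (branch (move 493 (leaf 397 5)) (move 399 (branch (move 431 (leaf 398 6)) (move 367 (leaf 366 6)))))) (branch (move 398 (branch (move 493 (leaf 397 5)) (move 397 (branch (move 429 (leaf 397 7)) (move 365 (leaf 365 7)))))) (move 431 (branch (move 399 (leaf 398 6)) (move 429 (branch (move 397 (leaf 397 7)) (move 463 (branch (move 558 (leaf 430 6)) (move 464 (branch (move 465 (leaf 429 3)) (move 428 (leaf 428 0))))))))))))) (branch (move 558 (branch (move 463 (branch (move 431 (leaf 430 6)) (move 590 (branch (move 495 (leaf 462 6)) (move 591 (branch (move 623 (leaf 494 4)) (move 559 (leaf 462 4)))))))) (branch (move 591 (branch (move 559 (leaf 462 4)) (move 590 (branch (move 623 (leaf 494 4)) (move 493 (branch (move 622 (leaf 493 7)) (move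 461 (leaf 461 7)))))))) (move 430 (branch (move 398 (branch (move 493 (leaf 397 5)) (move 367 (branch (move 399 (leaf 366 6)) (move 366 (branch (move 335 (leaf 334 6)) (move 365 (branch (move 397 (leaf 365 7)) (move 333 (leaf 333 7)))))))))) (branch (move 431 (branch (move 463 (leaf 430 6)) (move 399 (leaf 398 6)))) (move 398 (branch (move 493 (leaf 397 5)) (move 463 (branch (move 431 (leaf 430 6)) (move 366 (branch (move 495 (leaf 366 4)) (move 365 (branch (move 397 (leaf 365 7)) (move 333 (leaf 333 7)))))))))))))))) (branch (ref 0) (branch (move 558 (branch (move 461 (branch (move 429 (leaf 429 7)) (move 590 (branch (move 493 (leaf 461 7)) (move 623 (branch (move 591 (leaf 494 4)) (move 622 (branch (move 655 (leaf 526 4)) (move 621 (branch (move 653 (leaf 525 5)) (move 589 (leaf 493 5)))))))))))) (branch (move 463 (branch (move 431 (leaf 430 6)) (move 590 (branch (move 495 (leaf 462 6)) (move 591 (branch (move 623 (leaf 494 4)) (move 559 (leaf 462 4)))))))) (branch (move 461 (branch (move 429 (leaf 429 7)) (move 463 (branch (move 431 (leaf 430 6)) (move 590 (branch (move 495 (leaf 462 6)) (move 493 (leaf 461 7)))))))) (move 495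 (branch (move 461 (branch (move 429 (leaf 429 7)) (move 496 (branch (move 497 (leaf 493 1)) (move 460 (branch (move 459 (leaf 459 0)) (move 463 (leaf 460 0)))))))) (branch (move 463 (branch (move 431 (leaf 430 6)) (move 496 (branch (move 497 (leaf 493 1)) (move 559 (branch (move 591 (leaf 462 4)) (move 560 (branch (move 561 (leaf 525 3)) (move 528 (branch (move 592 (leaf 463 7)) (move 493 (branch (move 529 (leaf 493 0)) (move 464 (branch (move 492 (leaf 460 2)) (move 465 (leaf 461 1)))))))))))))))) (branch (move 461 (branch (move 429 (leaf 429 7)) (move 463 (branch (move 431 (leaf 430 6)) (move 460 (branch (move 459 (leaf 459 0)) (move 492 (branch (move 491 (leaf 459 1)) (move 464 (branch (move 493 (leaf 460 1)) (move 465 (branch (move 466 (leaf 462 1)) (move 433 (branch (move 432 (leaf 429 2)) (move 434 (leaf 430 2)))))))))))))))) (move 461 (branch (move 429 (leaf 429 7)) (move 496 (branch (move 497 (leaf 493 1)) (move 460 (branch (move 493 (leaf 460 3)) (move 459 (leaf 459 0)))))))))))))))) (branch (move 430 (branch (move 398 (branch (move 493 (leaf 397 5)) (move 399 (branch (move 431 (leaf 398 6)) (move 367 (leaf 366 6)))))) (branch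 (move 398 (branch (move 493 (leaf 397 5)) (move 397 (branch (move 429 (leaf 397 7)) (move 365 (leaf 365 7)))))) (move 429 (branch (move 397 (leaf 397 7)) (move 461 (branch (move 558 (leaf 429 7)) (move 431 (branch (move 399 (leaf 398 6)) (move 460 (branch (move 459 (leaf 427 2)) (move 432 (leaf 428 1))))))))))))) (move 429 (branch (move 461 (branch (move 558 (leaf 429 7)) (move 397 (branch (move 430 (leaf 397 7)) (move 365 (leaf 365 4)))))) (branch (move 397 (branch (move 430 (leaf 397 7)) (move 461 (branch (move 493 (leaf 397 4)) (move 365 (leaf 365 4)))))) (branch (move 558 (branch (move 461 (leaf 429 7)) (move 591 (branch (move 559 (leaf 462 4)) (move 590 (branch (move 623 (leaf 494 4)) (move 622 (branch (move 493 (leaf 493 7)) (move 621 (branch (move 653 (leaf 525 5)) (move 589 (leaf 493 5)))))))))))) (move 430 (branch (move 397 (leaf 397 7)) (move 493 (branch (move 398 (leaf 397 5)) (move 492 (branch (move 491 (branch (move 490 (leaf 490 0)) (move 522 (leaf 490 1)))) (move 460 (branch (move 428 (branch (move 396 (leaf 396 4)) (move 427 (branch (move 463 (leaf 427 0)) (move 459 (branch (move 458 (leaf 426 1)) (move 395 (branch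 (move 394 (leaf 394 3)) (move 363 (leaf 363 4)))))))))) (branch (move 428 (branch (move 396 (leaf 396 4)) (move 463 (branch (move 427 (leaf 427 0)) (move 464 (branch (move 495 (leaf 460 2)) (move 465 (leaf 461 1)))))))) (branch (move 495 (branch (move 459 (leaf 459 3)) (move 463 (branch (move 464 (leaf 460 2)) (move 496 (branch (move 497 (leaf 493 1)) (move 558 (branch (move 590 (leaf 462 6)) (move 528 (branch (move 529 (leaf 493 0)) (move 560 (branch (move 592 (leaf 463 7)) (move 559 (branch (move 561 (leaf 525 3)) (move 591 (leaf 462 4)))))))))))))))) (move 459 (branch (move 495 (leaf 459 3)) (move 428 (branch (move 396 (leaf 396 4)) (move 458 (branch (move 457 (leaf 457 0)) (move 427 (leaf 426 1)))))))))))))))))))))))))))))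
theorem a6p1106 : a6e1106.Valid :=
  pos_of_chk [a6e1105] (forall_cons a6p1105 forall_nil) a6c1106 a6e1106 (by decide +kernel)

def a6e1107 : Pos := ⟨356969478377938433439344583930047759605701993629273979548785047266825692262832140702571735330896643627187974822733911315571002639501350171046339650679463739392, 235872651619994311854834147916324034095036038253207427956470084636191154955156223243867860669975189624007308955456733252155090387501405415716266135719577821340191686656, 11⟩
def a6c1107 : Cert := (move 430 (branch (move 399 (branch (move 431 (leaf 398 6)) (move 398 (branch (move 367 (leaf 366 6)) (move 397 (branch (move 429 (leaf 397 7)) (move 365 (leaf 365 7)))))))) (branch (move 495 (branch (move 524 (leaf 491 2)) (move 399 (branch (move 431 (leaf 398 6)) (move 398 (branch (move 367 (leaf 366 6)) (move 496 (branch (move 497 (leaf 493 1)) (move 366 (branch (move 463 (leaf 366 4)) (move 365 (branch (move 397 (leaf 365 7)) (move 333 (leaf 333 7)))))))))))))) (branch (move 461 (branch (move 431 (branch (move 399 (leaf 398 6)) (move 460 (branch (move 459 (leaf 427 2)) (move 432 (branch (move 463 (leaf 428 2)) (move 433 (leaf 429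 1)))))))) (branch (move 495 (branch (move 524 (leaf 491 2)) (move 496 (branch (move 497 (leaf 493 1)) (move 460 (branch (move 459 (leaf 459 0)) (move 463 (leaf 460 0)))))))) (branch (move 495 (branch (move 524 (leaf 491 2)) (move 496 (branch (move 497 (leaf 493 1)) (move 399 (branch (move 431 (leaf 398 6)) (move 398 (branch (move 367 (leaf 366 6)) (move 366 (branch (move 463 (leaf 366 4)) (move 334 (branch (move 429 (leaf 333 5)) (move 333 (branch (move 365 (leaf 333 7)) (move 301 (leaf 301 7)))))))))))))))) (move 495 (branch (move 524 (leaf 491 2)) (move 496 (branch (move 497 (leaf 493 1)) (move 431 (branch (move 399 (leaf 398 6)) (move 460 (branch (move 459 (leaf 459 0)) (move 432 (branch (move 429 (leaf 428 1)) (move 433 (leaf 429 1)))))))))))))))) (branch (move 429 (branch (move 397 (leaf 397 7)) (ref 0))) (move 524 (branch (move 495 (leaf 491 2)) (move 427 (branch (move 491 (branch (move 490 (leaf 490 3)) (move 459 (branch (move 556 (leaf 427 4)) (move 395 (branch (move 492 (leaf 395 4)) (move 396 (branch (move 428 (leaf 395 6)) (move 364 (leaf 363 6)))))))))) (branch (move 429 (branch (move 397 (leaf 397 7)) (move 428 (branch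 (move 463 (leaf 427 0)) (move 426 (branch (move 461 (leaf 426 0)) (move 458 (branch (move 457 (leaf 425 1)) (move 459 (leaf 426 1)))))))))) (branch (move 429 (branch (move 397 (leaf 397 7)) (move 428 (branch (move 463 (leaf 427 0)) (move 395 (branch (move 394 (leaf 394 3)) (move 460 (branch (move 492 (leaf 395 7)) (move 426 (branch (move 461 (leaf 426 0)) (move 490 (branch (move 491 (leaf 490 3)) (move 458 (branch (move 457 (leaf 425 1)) (move 522 (leaf 394 6)))))))))))))))) (move 491 (branch (move 490 (leaf 490 3)) (move 459 (branch (move 556 (leaf 427 4)) (move 426 (branch (move 394 (leaf 394 7)) (move 460 (branch (move 461 (leaf 426 3)) (move 395 (branch (move 492 (leaf 395 4)) (move 397 (branch (move 429 (leaf 397 7)) (move 396 (branch (move 398 (leaf 394 1)) (move 364 (leaf 363 6)))))))))))))))))))))))))))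
theorem a6p1107 : a6e1107.Valid :=
  pos_of_chk [a6e1104] (forall_cons a6p1104 forall_nil) a6c1107 a6e1107 (by decide +kernel)

def a6e1108 : Pos := ⟨356969478377938433427436058271188536310941872360836913257934987213324673163180205279196141234446732051411660647839609057423469485504285111783308737596241215488, 34808659509396432475993231233000554199865913331634974417763121573417972902625968258871598515745138649889051241864059798580052839363994876073951196754964888790467440834456055909088782974976, 13⟩
def a6c1108 : Cert := (move 462 (branch (ref 0) (branch (move 430 (branch (move 399 (branch (move 431 (leaf 398 6)) (move 398 (branch (move 367 (leaf 366 6)) (move 397 (branch (move 429 (leaf 397 7)) (move 365 (leaf 365 7)))))))) (branch (move 431 (branch (move 399 (leaf 398 6)) (move 558 (branch (move 463 (leaf 430 6)) (move 559 (branch (move 524 (leaf 523 0)) (move 591 (leaf 462 4)))))))) (move 429 (branch (move 397 (leaf 397 7)) (move 558 (branch (move 461 (leaf 429 7)) (move 559 (branch (move 524 (leaf 523 0)) (move 591 (leaf 462 4))))))))))) (branch (move 558 (branch (move 463 (branch (move 431 (leaf 430 6)) (move 590 (branch (move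 495 (leaf 462 6)) (move 591 (branch (move 623 (leaf 494 4)) (move 559 (leaf 462 4)))))))) (branch (move 495 (branch (move 524 (leaf 491 2)) (move 463 (branch (move 590 (leaf 462 6)) (move 431 (leaf 430 6)))))) (move 559 (branch (move 524 (leaf 523 0)) (move 591 (leaf 462 4))))))) (branch (ref 1) (branch (move 524 (branch (move 495 (leaf 491 2)) (move 558 (branch (move 559 (leaf 523 0)) (move 491 (branch (move 490 (leaf 490 3)) (move 429 (branch (move 461 (leaf 429 7)) (move 430 (branch (move 397 (leaf 397 7)) (move 399 (branch (move 431 (leaf 398 6)) (move 398 (branch (move 367 (leaf 366 6)) (move 427 (branch (move 428 (leaf 395 2)) (move 459 (branch (move 556 (leaf 427 4)) (move 395 (branch (move 492 (leaf 395 4)) (move 394 (branch (move 426 (leaf 394 7)) (move 362 (leaf 362 7)))))))))))))))))))))))) (move 461 (branch (move 495 (branch (move 524 (leaf 491 2)) (move 496 (branch (move 497 (leaf 493 1)) (move 460 (branch (move 459 (leaf 459 0)) (move 463 (leaf 460 0)))))))) (move 429 (branch (move 558 (leaf 429 7)) (move 397 (branch (move 430 (leaf 397 7)) (move 365 (leaf 365 4))))))))))))))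
theorem a6p1108 : a6e1108.Valid :=
  pos_of_chk [a6e1105, a6e1107] (forall_cons a6p1105 (forall_cons a6p1107 forall_nil)) a6c1108 a6e1108 (by decide +kernel)

def a6e1109 : Pos := ⟨356969478326791705179058841552232447298010635607451881288512099877648245536678114710373101314395636858819408192357004617930343375985265478253849471137982971904, 882896346074241052549061997088334695716753492165177909746608105469241073761002395254950097135969980231902950032034391258256910465624741719308139430291391573100452388079646080513938239155322690300664543707136, 16⟩
def a6c1109 : Cert := (move 524 (branch (move 558 (branch (move 559 (leaf 523 0)) (move 590 (branch (move 622 (branch (move 493 (leaf 493 7)) (move 653 (branch (move 621 (leaf 525 5)) (move 654 (branch (move 685 (leaf 557 5)) (move 655 (branch (move 687 (leaf 558 4)) (move 623 (leaf 526 4)))))))))) (branch (move 494 (branch (move 495 (leaf 491 2)) (move 461 (branch (move 493 (leaf 461 7)) (move 462 (branch (move 429 (leaf 429 7)) (move 431 (branch (move 463 (leaf 430 6)) (move 430 (branch (move 399 (leaf 398 6)) (move 491 (branch (move 490 (leaf 490 3)) (move 459 (branch (move 460 (leaf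 427 2)) (move 427 (branch (move 556 (leaf 427 4)) (move 395 (branch (move 492 (leaf 395 4)) (move 396 (branch (move 428 (leaf 395 6)) (move 364 (leaf 363 6)))))))))))))))))))))) (move 494 (branch (move 495 (leaf 491 2)) (move 621 (branch (move 589 (leaf 493 5)) (move 622 (branch (move 653 (leaf 525 5)) (move 623 (branch (move 655 (leaf 526 4)) (move 591 (leaf 494 4))))))))))))))) (branch (move 558 (branch (move 559 (leaf 523 0)) (move 590 (branch (move 622 (branch (move 493 (leaf 493 7)) (move 653 (branch (move 621 (leaf 525 5)) (move 654 (branch (move 685 (leaf 557 5)) (move 655 (branch (move 687 (leaf 558 4)) (move 623 (leaf 526 4)))))))))) (branch (move 494 (branch (move 495 (leaf 491 2)) (move 621 (branch (move 589 (leaf 493 5)) (move 622 (branch (move 653 (leaf 525 5)) (move 623 (branch (move 655 (leaf 526 4)) (move 591 (leaf 494 4)))))))))) (move 494 (branch (move 495 (leaf 491 2)) (move 461 (branch (move 493 (leaf 461 7)) (move 462 (branch (move 429 (leaf 429 7)) (move 431 (branch (move 463 (leaf 430 6)) (move 430 (branch (move 399 (leaf 398 6)) (move 555 (branch (move 554 (leaf 522 1)) (move 460 (branch (move 459 (leaf 427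 2)) (move 492 (branch (move 428 (leaf 427 5)) (move 587 (branch (move 619 (leaf 491 6)) (move 556 (leaf 459 5))))))))))))))))))))))))) (branch (move 555 (branch (move 554 (leaf 522 1)) (move 587 (branch (move 619 (branch (move 492 (leaf 491 6)) (move 651 (branch (move 556 (leaf 523 6)) (move 652 (branch (move 684 (leaf 555 4)) (move 620 (leaf 523 4)))))))) (branch (move 491 (branch (move 490 (leaf 490 3)) (move 588 (branch (move 620 (leaf 491 4)) (move 459 (branch (move 556 (leaf 459 4)) (move 618 (branch (move 586 (leaf 490 5)) (move 619 (branch (move 650 (leaf 522 5)) (move 428 (branch (move 460 (leaf 427 6)) (move 427 (branch (move 396 (leaf 395 6)) (move 426 (branch (move 458 (leaf 426 7)) (move 394 (leaf 394 7)))))))))))))))))) (branch (move 491 (branch (move 490 (leaf 490 3)) (move 492 (branch (move 619 (leaf 491 6)) (move 460 (leaf 459 6)))))) (move 491 (branch (move 490 (leaf 490 3)) (move 588 (branch (move 620 (leaf 491 4)) (move 459 (branch (move 556 (leaf 459 4)) (move 460 (branch (move 492 (leaf 459 6)) (move 428 (leaf 427 6)))))))))))))))) (branch (move 558 (branch (move 559 (leaf 523 0)) (move 590 (branch (move 622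 (branch (move 493 (leaf 493 7)) (move 653 (branch (move 621 (leaf 525 5)) (move 654 (branch (move 685 (leaf 557 5)) (move 655 (branch (move 687 (leaf 558 4)) (move 623 (leaf 526 4)))))))))) (branch (move 494 (branch (move 495 (leaf 491 2)) (move 621 (branch (move 589 (leaf 493 5)) (move 622 (branch (move 653 (leaf 525 5)) (move 623 (branch (move 655 (leaf 526 4)) (move 591 (leaf 494 4)))))))))) (move 494 (branch (move 495 (leaf 491 2)) (move 461 (branch (move 493 (leaf 461 7)) (move 462 (branch (move 429 (leaf 429 7)) (move 431 (branch (move 463 (leaf 430 6)) (move 430 (branch (move 399 (leaf 398 6)) (move 491 (branch (move 490 (leaf 490 3)) (move 555 (branch (move 554 (leaf 522 1)) (move 460 (branch (move 459 (leaf 427 2)) (move 492 (branch (move 587 (leaf 459 6)) (move 428 (leaf 427 5))))))))))))))))))))))))) (move 558 (branch (move 559 (leaf 523 0)) (move 590 (branch (move 622 (branch (move 493 (leaf 493 7)) (move 653 (branch (move 621 (leaf 525 5)) (move 654 (branch (move 685 (leaf 557 5)) (move 655 (branch (move 687 (leaf 558 4)) (move 623 (leaf 526 4)))))))))) (branch (move 494 (branch (move 495 (leaf 491 2)) (move 621 (branch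 (move 589 (leaf 493 5)) (move 622 (branch (move 653 (leaf 525 5)) (move 623 (branch (move 655 (leaf 526 4)) (move 591 (leaf 494 4)))))))))) (branch (move 494 (branch (move 495 (leaf 491 2)) (move 461 (branch (move 493 (leaf 461 7)) (move 462 (branch (move 429 (leaf 429 7)) (move 431 (branch (move 463 (leaf 430 6)) (move 430 (branch (move 399 (leaf 398 6)) (move 555 (branch (move 554 (leaf 522 1)) (move 491 (branch (move 490 (leaf 490 3)) (move 591 (branch (move 623 (leaf 494 4)) (move 589 (branch (move 621 (leaf 493 5)) (move 588 (branch (move 556 (leaf 555 3)) (move 587 (branch (move 620 (leaf 491 4)) (move 618 (branch (move 619 (leaf 586 1)) (move 586 (leaf 490 5)))))))))))))))))))))))))) (move 494 (branch (move 495 (leaf 491 2)) (move 493 (branch (move 622 (leaf 493 7)) (move 461 (leaf 461 7)))))))))))))))))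
theorem a6p1109 : a6e1109.Valid :=
  pos_of_chk [] forall_nil a6c1109 a6e1109 (by decide +kernel)

def a6e1110 : Pos := ⟨117936325803132357904464360546858158127348872133707909181502797516431469828456377814594845691394955038323091838694586955619079756770278485456288849798750272835786113024, 4351082438674554059351733496951815200037667877094618819959353622019962345205600031047990319187067904328264996714638029956464150111211775144327938372577591998498810480264793826520553488384, 5⟩
def a6c1110 : Cert := (move 459 (branch (move 426 (branch (move 458 (leaf 426 7)) (move 427 (branch (move 394 (leaf 394 7)) (move 428 (branch (move 460 (leaf 427 6)) (move 396 (leaf 395 6)))))))) (branch (move 460 (branch (move 428 (leaf 427 6)) (move 587 (branch (move 492 (leaf 459 6)) (move 588 (branch (move 620 (leaf 491 4)) (move 556 (leaf 459 4)))))))) (move 556 (branch (move 588 (leaf 459 4)) (move 427 (branch (move 524 (leaf 427 4)) (move 426 (branch (move 458 (leaf 426 7)) (move 394 (leaf 394 7)))))))))))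
theorem a6p1110 : a6e1110.Valid :=
  pos_of_chk [] forall_nil a6c1110 a6e1110 (by decide +kernel)

def a6e1111 : Pos := ⟨117936326132642645590733626865989396483255746562640803588381457167365715869362450617682336193277817790072910477604809902410160942552133909442687752802303630809308856320, 1013065324669708823118083041898211102828850518878551805368191849413018704535318773160672618670146964650057719617731689336599073434719834108278219603573687895354477154048019529728, 6⟩
def a6c1111 : Cert := (move 459 (branch (move 426 (branch (move 458 (leaf 426 7)) (move 427 (branch (move 394 (leaf 394 7)) (move 428 (branch (move 460 (leaf 427 6)) (move 396 (leaf 395 6)))))))) (branch (move 524 (branch (move 490 (leaf 490 3)) (move 556 (branch (move 588 (leaf 459 4)) (move 427 (leaf 427 4)))))) (move 490 (branch (move 524 (leaf 490 3)) (move 458 (branch (move 426 (leaf 426 7)) (move 460 (branch (move 428 (leaf 427 6)) (move 489 (branch (move 488 (leaf 456 2)) (move 461 (leaf 457 1)))))))))))))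
theorem a6p1111 : a6e1111.Valid :=
  pos_of_chk [] forall_nil a6c1111 a6e1111 (by decide +kernel)

def a6e1112 : Pos := ⟨506532662334854411888551808632577731026891247352668083580025537872461845189365118917210886537795331010870968880547576945522373935735061865629027671401487506504331891862562406400, 4351082438168021397134815411140987655743548929853573947101356355622229109064979438727050828443810823543774194088066268661209865323603541327730093063325147278659541450471388794732157075456, 5⟩
def a6c1112 : Cert := (move 491 (branch (move 490 (branch (move 458 (leaf 458 7)) (move 492 (branch (move 493 (leaf 490 0)) (move 460 (leaf 459 6)))))) (branch (move 588 (branch (move 620 (leaf 491 4)) (move 459 (branch (move 556 (leaf 459 4)) (move 460 (branch (move 492 (leaf 459 6)) (move 428 (leaf 427 6)))))))) (move 588 (branch (move 620 (leaf 491 4)) (move 459 (branch (move 556 (leaf 459 4)) (move 458 (branch (move 490 (leaf 458 7)) (move 426 (leaf 426 7)))))))))))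
theorem a6p1112 : a6e1112.Valid :=
  pos_of_chk [] forall_nil a6c1112 a6e1112 (by decide +kernel)

def a6e1113 : Pos := ⟨2175541219084010698567407705927463306174591141236814004777591273648878519062512631448974728195590040637566024586536637039407165912547862788356455698656969464963420391846102517016520818688, 135486236613269884854747413738725917936777203024390978305024983325689143228759682653218413719474694535021774041070851533797304760724246556740467778535182546686517507721338956800445653122768298835968, 7⟩
def a6c1113 : Cert := (move 620 (branch (move 652 (leaf 523 4)) (move 621 (branch (move 622 (branch (move 586 (leaf 586 3)) (move 590 (branch (move 591 (leaf 587 2)) (move 558 (branch (move 493 (leaf 493 7)) (move 653 (leaf 525 5)))))))) (branch (move 618 (branch (move 650 (leaf 522 5)) (move 590 (branch (move 589 (leaf 586 2)) (move 622 (branch (move 591 (leaf 587 2)) (move 653 (branch (move 654 (leaf 618 0)) (move 558 (leaf 525 5)))))))))) (move 618 (branch (move 650 (leaf 522 5)) (move 585 (branch (move 586 (leaf 585 3)) (move 617 (branch (move 584 (leaf 584 3)) (move 588 (branch (move 616 (leaf 584 2)) (move 589 (leaf 585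 2)))))))))))))))
theorem a6p1113 : a6e1113.Valid :=
  pos_of_chk [] forall_nil a6c1113 a6e1113 (by decide +kernel)

def a6e1114 : Pos := ⟨117936326132642645590733626865989396483255746562640803588381457167365715869362450617682336193277817790072910477604809902410160942552133909442687752802303630809308856320, 474874370938926010834885226516085752834951158799328734084390778351840243172719823980166132259251463897776344089369428870441431700759106969687960335151419455995621271042089025536, 12⟩
def a6c1114 : Cert := (move 459 (branch (move 554 (branch (move 586 (leaf 458 5)) (move 427 (branch (move 522 (leaf 426 5)) (move 426 (branch (move 458 (leaf 426 7)) (move 394 (leaf 394 7)))))))) (branch (move 426 (branch (move 458 (leaf 426 7)) (move 427 (branch (move 394 (leaf 394 7)) (move 428 (branch (move 460 (leaf 427 6)) (move 396 (leaf 395 6)))))))) (branch (move 554 (branch (move 586 (leaf 458 5)) (move 427 (branch (move 522 (leaf 426 5)) (move 428 (branch (move 460 (leaf 427 6)) (move 396 (leaf 395 6)))))))) (move 490 (branch (move 460 (branch (move 428 (leaf 427 6)) (move 489 (branch (move 488 (leaf 456 2)) (move 492 (branch (move 461 (leaf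 457 2)) (move 493 (leaf 490 0)))))))) (branch (move 458 (branch (move 426 (leaf 426 7)) (move 492 (branch (move 493 (leaf 490 0)) (move 457 (branch (move 456 (leaf 456 0)) (move 554 (branch (move 586 (leaf 458 5)) (move 522 (branch (move 425 (leaf 425 7)) (move 521 (branch (move 520 (leaf 488 2)) (move 553 (branch (move 585 (leaf 457 5)) (move 552 (branch (move 551 (leaf 519 2)) (move 584 (branch (move 583 (leaf 551 1)) (move 489 (leaf 456 5)))))))))))))))))))) (branch (move 458 (branch (move 426 (leaf 426 7)) (move 460 (branch (move 428 (leaf 427 6)) (move 489 (branch (move 488 (leaf 456 2)) (move 461 (leaf 457 1)))))))) (move 458 (branch (move 426 (leaf 426 7)) (move 492 (branch (move 493 (leaf 490 0)) (move 460 (branch (move 428 (leaf 427 6)) (move 457 (branch (move 456 (leaf 456 0)) (move 554 (branch (move 586 (leaf 458 5)) (move 425 (branch (move 424 (leaf 424 3)) (move 522 (leaf 425 7))))))))))))))))))))))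
theorem a6p1114 : a6e1114.Valid :=
  pos_of_chk [] forall_nil a6c1114 a6e1114 (by decide +kernel)

def a6e1115 : Pos := ⟨117936326132642645590733626865989396483255746562640803588381457167365715869362450617682336193277817790072910477604809902410160942552133909442687752802303630809308856320, 23359695969840033788262966714729508040867471324015641187098637484299248420865262559532366582352469909288224611989643746542382982387437618199737764900808489106731164720979756743830920626203313307648, 6⟩
def a6c1115 : Cert := (move 587 (branch (move 618 (branch (move 586 (leaf 490 5)) (move 619 (branch (move 650 (leaf 522 5)) (move 620 (branch (move 652 (leaf 523 4)) (move 588 (leaf 491 4)))))))) (branch (move 524 (branch (move 554 (leaf 522 1)) (move 492 (branch (move 619 (leaf 491 6)) (move 460 (leaf 459 6)))))) (move 554 (branch (move 524 (leaf 522 1)) (move 586 (branch (move 618 (leaf 490 5)) (move 588 (branch (move 620 (leaf 491 4)) (move 553 (branch (move 589 (leaf 553 3)) (move 552 (leaf 552 0)))))))))))))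
theorem a6p1115 : a6e1115.Valid :=
  pos_of_chk [] forall_nil a6c1115 a6e1115 (by decide +kernel)

def a6e1116 : Pos := ⟨117936326187561026871778504587333168583264295212641301148082533728877681049534423472320076538180244177420785864395219665403795589117551457690054035710774721273632129024, 802633041884399518907437648680334351495191062877744287148109689124289171189031910870597022477356269621452089522179023910657310209875438514529643017659964371708458221798600908541772664637931052274376920530944, 11⟩
def a6c1116 : Cert := (move 588 (branch (move 556 (leaf 459 4)) (move 587 (branch (move 620 (leaf 491 4)) (move 618 (branch (move 586 (leaf 490 5)) (move 619 (branch (move 650 (leaf 522 5)) (move 558 (branch (move 559 (leaf 523 0)) (move 590 (branch (move 589 (leaf 586 1)) (move 622 (branch (move 493 (leaf 493 7)) (move 653 (branch (move 621 (leaf 525 5)) (move 654 (branch (move 685 (leaf 557 5)) (move 655 (branch (move 687 (leaf 558 4)) (move 623 (leaf 526 4))))))))))))))))))))))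
theorem a6p1116 : a6e1116.Valid :=
  pos_of_chk [] forall_nil a6c1116 a6e1116 (by decide +kernel)

def a6e1117 : Pos := ⟨1519597986827658745958696430671557645419599716335901799508101802915468443016123278343298118295405082867281086532595308400451027246023349020716816183596215429465835748292133126144, 10032913027234146101440488044649394294930771487810469473921339395207054545746340765318995573499864390901767746534791863533724772024759241014667490240987486934512566816367254586177080114708264826818911010816, 9⟩
def a6c1117 : Cert := (move 585 (branch (move 586 (branch (move 584 (branch (move 583 (leaf 551 2)) (move 556 (leaf 552 2)))) (move 617 (branch (move 616 (leaf 584 1)) (move 522 (branch (move 490 (leaf 489 5)) (move 618 (branch (move 650 (leaf 522 6)) (move 649 (leaf 521 5)))))))))) (branch (move 586 (branch (move 617 (branch (move 616 (leaf 584 1)) (move 522 (branch (move 490 (leaf 489 5)) (move 649 (branch (move 681 (leaf 553 6)) (move 553 (leaf 521 6)))))))) (branch (move 617 (branch (move 616 (leaf 584 1)) (move 522 (branch (move 490 (leaf 489 5)) (move 618 (branch (move 650 (leaf 522 6)) (move 649 (leaf 521 5)))))))) (branch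 (move 553 (branch (move 552 (leaf 552 0)) (move 618 (branch (move 650 (leaf 522 6)) (move 521 (branch (move 489 (leaf 489 4)) (move 520 (branch (move 556 (leaf 520 3)) (move 519 (branch (move 518 (leaf 518 0)) (move 522 (leaf 519 0)))))))))))) (move 553 (branch (move 552 (leaf 552 0)) (move 618 (branch (move 650 (leaf 522 6)) (move 617 (branch (move 616 (leaf 584 1)) (move 521 (branch (move 489 (leaf 489 4)) (move 520 (branch (move 556 (leaf 520 3)) (move 488 (leaf 488 7)))))))))))))))) (branch (move 586 (branch (move 617 (branch (move 616 (leaf 584 1)) (move 522 (branch (move 490 (leaf 489 5)) (move 618 (branch (move 650 (leaf 522 6)) (move 649 (leaf 521 5)))))))) (move 552 (branch (move 553 (leaf 552 0)) (move 584 (branch (move 583 (leaf 551 2)) (move 551 (leaf 551 3)))))))) (branch (move 553 (branch (move 552 (leaf 552 0)) (move 584 (branch (move 556 (leaf 552 1)) (move 583 (branch (move 582 (leaf 550 2)) (move 586 (leaf 551 2)))))))) (move 553 (branch (move 552 (leaf 552 0)) (move 521 (branch (move 556 (branch (move 520 (leaf 520 3)) (move 584 (leaf 552 1)))) (branch (move 584 (branch (move 556 (leaf 552 1)) (move 489 (branch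 (move 616 (leaf 488 5)) (move 490 (branch (move 458 (leaf 457 6)) (move 522 (branch (move 617 (leaf 489 6)) (move 488 (branch (move 487 (leaf 487 0)) (move 456 (leaf 456 7)))))))))))) (move 522 (branch (move 520 (branch (move 519 (leaf 519 0)) (move 617 (branch (move 649 (leaf 521 6)) (move 488 (leaf 488 7)))))) (branch (move 490 (branch (move 458 (leaf 458 4)) (move 520 (branch (move 519 (leaf 519 0)) (move 488 (branch (move 487 (leaf 487 3)) (move 456 (branch (move 489 (leaf 456 7)) (move 424 (leaf 424 4)))))))))) (move 490 (branch (move 617 (leaf 489 6)) (move 458 (leaf 458 4)))))))))))))))))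
theorem a6p1117 : a6e1117.Valid :=
  pos_of_chk [] forall_nil a6c1117 a6e1117 (by decide +kernel)

def a6e1118 : Pos := ⟨356969478326791705179058841552232447298010635607451881288512099877648245536678114710373101314395636858819408192357004617930343375985265478253849471137982971904, 912995085137255734078707981863694640758109618376468119541352130146550027758363220218484467016125908793379564007753877431998477290289172259435748793350117455514488266879845241299690059063369444024687408447488, 15⟩
def a6c1118 : Cert := (move 555 (branch (move 491 (branch (ref 0) (branch (move 587 (branch (move 618 (branch (move 586 (leaf 490 5)) (move 619 (branch (move 650 (leaf 522 5)) (move 620 (branch (move 652 (leaf 523 4)) (move 588 (leaf 491 4)))))))) (move 490 (branch (move 458 (leaf 458 7)) (move 492 (branch (move 493 (leaf 490 0)) (move 460 (leaf 459 6)))))))) (branch (move 490 (branch (move 524 (leaf 490 3)) (move 458 (branch (move 587 (leaf 458 7)) (move 426 (branch (move 459 (leaf 426 7)) (move 522 (leaf 426 4)))))))) (branch (move 490 (branch (move 524 (leaf 490 3)) (move 492 (branch (move 493 (leaf 490 0)) (move 460 (branch (move 587 (leaf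 459 6)) (move 428 (branch (move 459 (leaf 427 6)) (move 396 (leaf 395 5)))))))))) (ref 1)))))) (branch (move 587 (branch (move 491 (branch (move 618 (branch (move 586 (leaf 490 5)) (move 619 (branch (move 650 (leaf 522 5)) (move 620 (branch (move 652 (leaf 523 4)) (move 588 (leaf 491 4)))))))) (branch (move 588 (branch (move 620 (leaf 491 4)) (move 459 (branch (move 556 (leaf 459 4)) (move 460 (branch (move 492 (leaf 459 6)) (move 428 (leaf 427 6)))))))) (move 586 (branch (move 618 (leaf 490 5)) (move 459 (branch (move 554 (leaf 458 5)) (move 460 (branch (move 492 (leaf 459 6)) (move 428 (leaf 427 6))))))))))) (branch (ref 2) (branch (move 491 (branch (move 490 (branch (move 458 (leaf 458 7)) (move 492 (branch (move 493 (leaf 490 0)) (move 460 (leaf 459 6)))))) (branch (move 586 (branch (move 618 (leaf 490 5)) (move 459 (branch (move 554 (leaf 458 5)) (move 460 (branch (move 492 (leaf 459 6)) (move 428 (leaf 427 6)))))))) (move 586 (branch (move 618 (leaf 490 5)) (move 459 (branch (move 554 (leaf 458 5)) (move 458 (branch (move 490 (leaf 458 7)) (move 426 (leaf 426 7))))))))))) (move 619 (branch (move 522 (branch (move 490 (leaf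 490 7)) (move 651 (branch (move 554 (leaf 522 7)) (move 652 (branch (move 684 (leaf 555 4)) (move 620 (leaf 523 4)))))))) (branch (move 522 (branch (move 490 (leaf 490 7)) (move 651 (branch (move 554 (leaf 522 7)) (move 650 (branch (move 682 (leaf 554 5)) (move 618 (leaf 522 5)))))))) (ref 3)))))))) (branch (move 491 (branch (move 554 (branch (move 524 (leaf 522 1)) (move 586 (branch (move 459 (leaf 458 5)) (move 618 (branch (move 650 (leaf 522 6)) (move 522 (leaf 490 6)))))))) (branch (ref 1) (branch (move 524 (branch (move 490 (leaf 490 3)) (move 554 (leaf 522 1)))) (ref 4))))) (branch (move 491 (branch (move 459 (branch (move 554 (branch (move 586 (leaf 458 5)) (move 427 (branch (move 522 (leaf 426 5)) (move 426 (branch (move 458 (leaf 426 7)) (move 394 (leaf 394 7)))))))) (move 460 (branch (move 428 (leaf 427 6)) (move 587 (branch (move 492 (leaf 459 6)) (move 588 (branch (move 620 (leaf 491 4)) (move 556 (leaf 459 4)))))))))) (branch (ref 0) (branch (move 554 (branch (move 524 (leaf 522 1)) (move 586 (branch (move 459 (leaf 458 5)) (move 618 (branch (move 650 (leaf 522 6)) (move 522 (leaf 490 6)))))))) (ref 5))))) (branch (move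 491 (branch (ref 5) (branch (move 587 (branch (move 618 (branch (move 586 (leaf 490 5)) (move 619 (branch (move 650 (leaf 522 5)) (move 620 (branch (move 652 (leaf 523 4)) (move 588 (leaf 491 4)))))))) (move 490 (branch (move 458 (leaf 458 7)) (move 492 (branch (move 493 (leaf 490 0)) (move 460 (leaf 459 6)))))))) (move 524 (branch (move 490 (leaf 490 3)) (move 554 (leaf 522 1))))))) (branch (move 524 (branch (move 554 (leaf 522 1)) (move 491 (branch (move 490 (leaf 490 3)) (move 459 (branch (move 428 (branch (move 460 (leaf 427 6)) (move 427 (branch (move 396 (leaf 395 6)) (move 426 (branch (move 458 (leaf 426 7)) (move 394 (leaf 394 7)))))))) (ref 6))))))) (branch (move 491 (branch (move 554 (branch (move 524 (leaf 522 1)) (move 586 (branch (move 459 (leaf 458 5)) (move 618 (branch (move 650 (leaf 522 6)) (move 522 (leaf 490 6)))))))) (branch (move 490 (branch (move 524 (leaf 490 3)) (move 492 (branch (move 493 (leaf 490 0)) (move 460 (branch (move 587 (leaf 459 6)) (move 428 (branch (move 459 (leaf 427 6)) (move 396 (leaf 395 5)))))))))) (branch (move 524 (branch (move 490 (leaf 490 3)) (move 554 (leaf 522 1)))) (ref 4))))) (branch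 (move 587 (branch (move 619 (branch (move 652 (branch (move 620 (leaf 523 4)) (move 651 (branch (move 684 (leaf 555 4)) (move 650 (branch (move 682 (leaf 554 5)) (move 618 (leaf 522 5)))))))) (branch (move 522 (branch (move 490 (leaf 490 7)) (move 651 (branch (move 554 (leaf 522 7)) (move 650 (branch (move 682 (leaf 554 5)) (move 618 (leaf 522 5)))))))) (move 620 (branch (move 652 (leaf 523 4)) (move 491 (branch (move 588 (leaf 491 4)) (move 490 (branch (move 522 (leaf 490 7)) (move 458 (leaf 458 7))))))))))) (branch (ref 2) (branch (move 524 (branch (move 554 (leaf 522 1)) (move 619 (branch (move 492 (leaf 491 6)) (move 651 (branch (move 556 (leaf 523 6)) (move 652 (branch (move 684 (leaf 555 4)) (move 620 (leaf 523 4)))))))))) (move 524 (branch (move 554 (leaf 522 1)) (move 492 (branch (move 619 (leaf 491 6)) (move 460 (branch (move 491 (leaf 459 6)) (move 556 (leaf 459 5)))))))))))) (branch (move 524 (branch (move 554 (leaf 522 1)) (move 491 (branch (move 490 (leaf 490 3)) (move 459 (branch (move 426 (branch (move 458 (leaf 426 7)) (move 427 (branch (move 394 (leaf 394 7)) (move 396 (branch (move 428 (leaf 395 6)) (move 395 (branch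 (move 364 (leaf 363 6)) (move 492 (leaf 395 4)))))))))) (ref 6))))))) (branch (move 491 (branch (move 459 (branch (move 554 (branch (move 586 (leaf 458 5)) (move 427 (branch (move 522 (leaf 426 5)) (move 426 (branch (move 458 (leaf 426 7)) (move 394 (leaf 394 7)))))))) (move 460 (branch (move 428 (leaf 427 6)) (move 587 (branch (move 492 (leaf 459 6)) (move 588 (branch (move 620 (leaf 491 4)) (move 556 (leaf 459 4)))))))))) (branch (move 490 (branch (move 524 (leaf 490 3)) (move 458 (branch (move 587 (leaf 458 7)) (move 426 (branch (move 459 (leaf 426 7)) (move 522 (leaf 426 4)))))))) (move 524 (branch (move 490 (leaf 490 3)) (move 554 (leaf 522 1))))))) (branch (move 491 (branch (move 554 (branch (move 524 (leaf 522 1)) (move 586 (branch (move 459 (leaf 458 5)) (move 618 (branch (move 650 (leaf 522 6)) (move 522 (leaf 490 6)))))))) (branch (ref 5) (branch (move 490 (branch (move 524 (leaf 490 3)) (move 492 (branch (move 493 (leaf 490 0)) (move 460 (branch (move 587 (leaf 459 6)) (move 428 (branch (move 459 (leaf 427 6)) (move 396 (leaf 395 5)))))))))) (move 587 (branch (move 618 (branch (move 586 (leaf 490 5)) (move 619 (branch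 (move 650 (leaf 522 5)) (move 620 (branch (move 652 (leaf 523 4)) (move 588 (leaf 491 4)))))))) (branch (move 588 (branch (move 620 (leaf 491 4)) (move 459 (branch (move 556 (leaf 459 4)) (move 460 (branch (move 492 (leaf 459 6)) (move 428 (leaf 427 6)))))))) (move 586 (branch (move 618 (leaf 490 5)) (move 459 (branch (move 554 (leaf 458 5)) (move 460 (branch (move 492 (leaf 459 6)) (move 428 (leaf 427 6))))))))))))))) (move 587 (branch (move 619 (branch (move 522 (branch (move 490 (leaf 490 7)) (move 651 (branch (move 554 (leaf 522 7)) (move 652 (branch (move 684 (leaf 555 4)) (move 620 (leaf 523 4)))))))) (branch (move 522 (branch (move 490 (leaf 490 7)) (move 651 (branch (move 554 (leaf 522 7)) (move 650 (branch (move 682 (leaf 554 5)) (move 618 (leaf 522 5)))))))) (ref 3)))) (branch (move 619 (branch (ref 3) (branch (move 524 (branch (move 492 (leaf 491 6)) (move 651 (branch (move 556 (leaf 523 6)) (move 650 (branch (move 682 (leaf 554 5)) (move 618 (leaf 522 5)))))))) (move 524 (branch (move 492 (leaf 491 6)) (move 651 (branch (move 556 (leaf 523 6)) (move 652 (branch (move 684 (leaf 555 4)) (move 620 (leaf 523 4)))))))))))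 (branch (move 524 (branch (move 554 (leaf 522 1)) (move 492 (branch (move 619 (leaf 491 6)) (move 460 (branch (move 556 (leaf 459 5)) (move 428 (leaf 427 5)))))))) (move 554 (branch (move 524 (leaf 522 1)) (move 588 (branch (move 589 (branch (move 590 (leaf 554 3)) (move 586 (branch (move 621 (branch (move 622 (leaf 586 0)) (move 585 (branch (move 620 (leaf 585 0)) (move 584 (branch (move 583 (leaf 551 2)) (move 556 (leaf 552 2)))))))) (move 618 (branch (move 617 (leaf 585 1)) (move 650 (leaf 522 6)))))))) (branch (move 553 (branch (move 552 (leaf 552 0)) (move 589 (branch (move 590 (leaf 554 3)) (move 556 (leaf 553 0)))))) (branch (move 553 (branch (move 552 (leaf 552 0)) (move 589 (branch (move 586 (leaf 553 3)) (move 590 (leaf 554 3)))))) (ref 7)))))))))))))))))))))))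
theorem a6p1118 : a6e1118.Valid :=
  pos_of_chk [a6e1110, a6e1111, a6e1112, a6e1113, a6e1114, a6e1115, a6e1116, a6e1117] (forall_cons a6p1110 (forall_cons a6p1111 (forall_cons a6p1112 (forall_cons a6p1113 (forall_cons a6p1114 (forall_cons a6p1115 (forall_cons a6p1116 (forall_cons a6p1117 forall_nil)))))))) a6c1118 a6e1118 (by decide +kernel)

def a6e1119 : Pos := ⟨117936325803132357904464360546858158127348872133707909181502797516431469828456377814594845691394955038323091838694586955619079756770278485456288849798750272835786113024, 23359695969840033786236836065994514064341466984987433559570198866366469610279898706702902753855163106320638374233394060741340493269103046565370119639646924194367296648147516770308238426138365394944, 5⟩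
def a6c1119 : Cert := (move 587 (branch (move 618 (branch (move 586 (leaf 490 5)) (move 619 (branch (move 650 (leaf 522 5)) (move 620 (branch (move 652 (leaf 523 4)) (move 588 (leaf 491 4)))))))) (branch (move 588 (branch (move 620 (leaf 491 4)) (move 459 (branch (move 556 (leaf 459 4)) (move 460 (branch (move 492 (leaf 459 6)) (move 428 (leaf 427 6)))))))) (move 492 (branch (move 460 (leaf 459 6)) (move 619 (branch (move 524 (leaf 491 6)) (move 618 (branch (move 650 (leaf 522 5)) (move 586 (leaf 490 5)))))))))))
theorem a6p1119 : a6e1119.Valid :=
  pos_of_chk [] forall_nil a6c1119 a6e1119 (by decide +kernel)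

def a6e1120 : Pos := ⟨117936325803132357904464360546858158127348872133707909181502797516431469828456377814594845691394955038323091838694586955619079756770278485456288849798750272835786113024, 23359695969840033786236836065994514064300278199017059889731503884875621004350942312486780325315468319735660011920221278947223426625675138971223680723782373839192414937346690175478939178009714753536, 5⟩
def a6c1120 : Cert := (move 587 (branch (move 618 (branch (move 586 (leaf 490 5)) (move 619 (branch (move 650 (leaf 522 5)) (move 620 (branch (move 652 (leaf 523 4)) (move 588 (leaf 491 4)))))))) (branch (move 490 (branch (move 458 (leaf 458 7)) (move 619 (branch (move 522 (leaf 490 7)) (move 618 (branch (move 650 (leaf 522 5)) (move 586 (leaf 490 5)))))))) (move 588 (branch (move 620 (leaf 491 4)) (move 459 (branch (move 556 (leaf 459 4)) (move 458 (branch (move 490 (leaf 458 7)) (move 426 (leaf 426 7)))))))))))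
theorem a6p1120 : a6e1120.Valid :=
  pos_of_chk [] forall_nil a6c1120 a6e1120 (by decide +kernel)

def a6e1121 : Pos := ⟨117936326132642645590733626865989396483255746562640803588381457167365715869362450617682336193277817790072910477604809902410160942552133909442687752802303630809308856320, 1013065324669708823118083041898211102828850518878551805368191849413018704535318773160672618670146964650057719617731689336599073434719834108278219603573687895354477154048019529728, 6⟩
def a6c1121 : Cert := (move 459 (branch (move 426 (branch (move 458 (leaf 426 7)) (move 427 (branch (move 394 (leaf 394 7)) (move 428 (branch (move 460 (leaf 427 6)) (move 396 (leaf 395 6)))))))) (branch (move 524 (branch (move 490 (leaf 490 3)) (move 556 (branch (move 588 (leaf 459 4)) (move 427 (leaf 427 4)))))) (move 490 (branch (move 524 (leaf 490 3)) (move 458 (branch (move 426 (leaf 426 7)) (move 460 (branch (move 428 (leaf 427 6)) (move 489 (branch (move 488 (leaf 456 2)) (move 461 (leaf 457 1)))))))))))))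
theorem a6p1121 : a6e1121.Valid :=
  pos_of_chk [] forall_nil a6c1121 a6e1121 (by decide +kernel)

def a6e1122 : Pos := ⟨506532662334854411559041520946308464707760008996761209151092643465583185538430872876304813734707840508988106128797758306612150988943980679847172247415088603500778533889039663104, 100329130238469901867410075901830548365931826706895394490269290405694798504708094393643100013061440436352202283029961674284039103448037733292722283777903995133870761704363835024868476423016870438502081232896, 9⟩
def a6c1122 : Cert := (move 619 (branch (move 652 (branch (move 620 (leaf 523 4)) (move 651 (branch (move 684 (leaf 555 4)) (move 650 (branch (move 682 (leaf 554 5)) (move 618 (leaf 522 5)))))))) (branch (move 522 (branch (move 490 (leaf 490 7)) (move 651 (branch (move 554 (leaf 522 7)) (move 650 (branch (move 682 (leaf 554 5)) (move 618 (leaf 522 5)))))))) (branch (move 522 (branch (move 490 (leaf 490 7)) (move 651 (branch (move 554 (leaf 522 7)) (move 652 (branch (move 684 (leaf 555 4)) (move 620 (leaf 523 4)))))))) (move 618 (branch (move 650 (leaf 522 5)) (move 617 (branch (move 620 (branch (move 652 (leaf 523 4)) (move 585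 (branch (move 584 (leaf 584 3)) (move 586 (branch (move 621 (leaf 585 3)) (move 522 (branch (move 490 (leaf 490 7)) (move 649 (branch (move 648 (leaf 616 1)) (move 554 (leaf 521 5)))))))))))) (branch (move 616 (branch (move 588 (leaf 584 2)) (move 615 (branch (move 586 (leaf 583 2)) (move 583 (branch (move 582 (leaf 582 3)) (move 584 (leaf 583 3)))))))) (move 620 (branch (move 652 (leaf 523 4)) (move 588 (branch (move 616 (leaf 584 2)) (move 589 (leaf 585 2)))))))))))))))
theorem a6p1122 : a6e1122.Valid :=
  pos_of_chk [] forall_nil a6c1122 a6e1122 (by decide +kernel)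

def a6e1123 : Pos := ⟨117936325803132357898071019515811006037479361007091504587329668520253608911496824361282084370292075048316704939620555398683754201833637721766411395607567864528503832576, 603274466417240643117829498798643062785256683974870186458287162950574674435151812862115414467492713781030551101108423796053221909325076316418815524052907075123503249508784921249073225371281028106347761294570720067584, 10⟩
def a6c1123 : Cert := (move 587 (branch (ref 0) (branch (move 491 (branch (move 618 (branch (move 586 (leaf 490 5)) (move 619 (branch (move 650 (leaf 522 5)) (move 620 (branch (move 652 (leaf 523 4)) (move 588 (leaf 491 4)))))))) (branch (move 586 (branch (move 618 (leaf 490 5)) (move 459 (branch (move 554 (leaf 458 5)) (move 460 (branch (move 492 (leaf 459 6)) (move 428 (leaf 427 6)))))))) (move 588 (branch (move 620 (leaf 491 4)) (move 459 (branch (move 556 (leaf 459 4)) (move 460 (branch (move 492 (leaf 459 6)) (move 428 (leaf 427 6))))))))))) (branch (move 619 (branch (move 620 (branch (move 652 (leaf 523 4)) (move 491 (branch (move 588 (leaf 491 4)) (move 460 (branch (move 492 (leaf 459 6)) (move 459 (branch (move 428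 (leaf 427 6)) (move 458 (branch (move 490 (leaf 458 7)) (move 426 (leaf 426 7)))))))))))) (branch (move 620 (branch (move 652 (leaf 523 4)) (move 491 (branch (move 588 (leaf 491 4)) (move 460 (branch (move 492 (leaf 459 6)) (move 459 (branch (move 428 (leaf 427 6)) (move 554 (branch (move 586 (leaf 458 5)) (move 522 (branch (move 651 (leaf 522 7)) (move 427 (leaf 426 5)))))))))))))) (branch (move 522 (branch (move 490 (leaf 490 7)) (move 651 (branch (move 554 (leaf 522 7)) (move 682 (branch (move 650 (leaf 554 5)) (move 683 (branch (move 714 (leaf 586 5)) (move 588 (branch (move 556 (leaf 555 6)) (move 620 (branch (move 715 (leaf 587 6)) (move 491 (leaf 491 4)))))))))))))) (move 522 (branch (move 490 (leaf 490 7)) (move 651 (branch (move 554 (leaf 522 7)) (move 684 (branch (move 652 (leaf 555 4)) (move 683 (branch (move 716 (leaf 587 4)) (move 682 (branch (move 714 (leaf 586 5)) (move 650 (leaf 554 5)))))))))))))))) (branch (move 491 (branch (move 490 (branch (move 458 (leaf 458 7)) (move 619 (branch (move 522 (leaf 490 7)) (move 618 (branch (move 650 (leaf 522 5)) (move 586 (leaf 490 5)))))))) (branch (move 586 (branch (move 618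 (leaf 490 5)) (move 459 (branch (move 554 (leaf 458 5)) (move 460 (branch (move 492 (leaf 459 6)) (move 428 (leaf 427 6)))))))) (move 490 (branch (move 458 (leaf 458 7)) (move 460 (branch (move 492 (leaf 459 6)) (move 459 (branch (move 428 (leaf 427 6)) (move 522 (branch (move 619 (leaf 490 7)) (move 427 (branch (move 554 (leaf 426 5)) (move 395 (leaf 394 5))))))))))))))) (branch (move 619 (branch (move 652 (branch (move 620 (leaf 523 4)) (move 651 (branch (move 684 (leaf 555 4)) (move 650 (branch (move 682 (leaf 554 5)) (move 618 (leaf 522 5)))))))) (branch (move 522 (branch (move 490 (leaf 490 7)) (move 651 (branch (move 554 (leaf 522 7)) (move 650 (branch (move 682 (leaf 554 5)) (move 618 (leaf 522 5)))))))) (move 620 (branch (move 652 (leaf 523 4)) (move 491 (branch (move 588 (leaf 491 4)) (move 460 (branch (move 492 (leaf 459 6)) (move 459 (branch (move 428 (leaf 427 6)) (move 458 (branch (move 490 (leaf 458 7)) (move 426 (leaf 426 7))))))))))))))) (branch (move 491 (branch (move 618 (branch (move 586 (leaf 490 5)) (move 619 (branch (move 650 (leaf 522 5)) (move 620 (branch (move 652 (leaf 523 4)) (move 588 (leaf 491 4))))))))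 (branch (move 490 (branch (move 458 (leaf 458 7)) (move 619 (branch (move 522 (leaf 490 7)) (move 618 (branch (move 650 (leaf 522 5)) (move 586 (leaf 490 5)))))))) (move 588 (branch (move 620 (leaf 491 4)) (move 459 (branch (move 556 (leaf 459 4)) (move 458 (branch (move 490 (leaf 458 7)) (move 426 (leaf 426 7))))))))))) (move 491 (branch (move 586 (branch (move 618 (leaf 490 5)) (move 459 (branch (move 554 (leaf 458 5)) (move 460 (branch (move 492 (leaf 459 6)) (move 428 (leaf 427 6)))))))) (branch (move 588 (branch (move 620 (leaf 491 4)) (move 459 (branch (move 556 (leaf 459 4)) (move 458 (branch (move 490 (leaf 458 7)) (move 426 (leaf 426 7)))))))) (move 586 (branch (move 618 (leaf 490 5)) (move 585 (branch (move 584 (branch (move 556 (leaf 552 2)) (move 583 (branch (move 554 (leaf 551 2)) (move 551 (branch (move 550 (leaf 550 3)) (move 552 (leaf 551 3)))))))) (branch (move 588 (branch (move 620 (leaf 491 4)) (move 553 (branch (move 552 (leaf 552 3)) (move 554 (branch (move 589 (leaf 553 3)) (move 490 (branch (move 458 (leaf 458 7)) (move 617 (branch (move 616 (leaf 584 1)) (move 522 (leaf 489 5)))))))))))) (move 588 (branch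 (move 620 (leaf 491 4)) (move 584 (branch (move 556 (leaf 552 2)) (move 616 (branch (move 615 (leaf 583 1)) (move 617 (leaf 584 1)))))))))))))))))))))))
theorem a6p1123 : a6e1123.Valid :=
  pos_of_chk [a6e1122] (forall_cons a6p1122 forall_nil) a6c1123 a6e1123 (by decide +kernel)

def a6e1124 : Pos := ⟨117936325858050739185509238266713364520000017871863391582649240791587177501940723281776094108375432163614728278512957446750926621067254389454022000299342499164706570240, 20065826073156048976468684837901805003483313036409088982239390792405003655584829472661509813165367822286563886388446619718184426666464875320859594891440321316143548191305607888558483091871680561958715654144, 7⟩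
def a6c1124 : Cert := (move 460 (branch (move 459 (branch (move 428 (leaf 427 6)) (move 556 (branch (move 588 (leaf 459 4)) (move 427 (leaf 427 4)))))) (branch (move 492 (branch (move 587 (leaf 459 6)) (move 428 (leaf 427 5)))) (move 587 (branch (move 492 (leaf 459 6)) (move 620 (branch (move 588 (leaf 491 4)) (move 619 (branch (move 652 (leaf 523 4)) (move 651 (branch (move 556 (leaf 523 6)) (move 650 (branch (move 682 (leaf 554 5)) (move 618 (leaf 522 5)))))))))))))))
theorem a6p1124 : a6e1124.Valid :=
  pos_of_chk [] forall_nil a6c1124 a6e1124 (by decide +kernel)

def a6e1125 : Pos := ⟨117936325803132357904464360546858158127348872133707909181502797516431469828456377814594845691394955038323091838694586955619079756770278485456288849798750272835786113024, 253266331167427205779520760849562185604229115733624986041329938675925895267690626421185374147355590536373345564200838266730946829243629113740757573956390099693914894888979136512, 9⟩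
def a6c1125 : Cert := (move 459 (branch (move 554 (branch (move 586 (leaf 458 5)) (move 427 (branch (move 522 (leaf 426 5)) (move 428 (branch (move 460 (leaf 427 6)) (move 396 (leaf 395 6)))))))) (branch (move 554 (branch (move 586 (leaf 458 5)) (move 427 (branch (move 522 (leaf 426 5)) (move 426 (branch (move 458 (leaf 426 7)) (move 394 (leaf 394 7)))))))) (move 460 (branch (move 428 (leaf 427 6)) (move 461 (branch (move 458 (branch (move 426 (leaf 426 7)) (move 489 (branch (move 490 (leaf 457 1)) (move 457 (branch (move 488 (leaf 456 1)) (move 456 (branch (move 492 (leaf 456 0)) (move 424 (branch (move 423 (leaf 423 3)) (move 425 (leaf 424 3)))))))))))) (branch (move 458 (branch (move 426 (leaf 426 7)) (move 430 (branch (move 429 (leaf 426 2)) (move 462 (branch (move 431 (leaf 427 2)) (move 463 (branch (move 492 (leaf 459 1)) (move 495 (branch (move 494 (leaf 459 0)) (move 496 (leaf 460 0)))))))))))) (branch (move 462 (branch (move 490 (leaf 458 1)) (move 463 (branch (move 492 (leaf 459 1)) (move 431 (branch (move 430 (leaf 427 2)) (move 432 (leaf 428 2)))))))) (move 458 (branch (move 426 (leaf 426 7)) (move 490 (branch (move 489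 (leaf 457 1)) (move 462 (leaf 458 1)))))))))))))))
theorem a6p1125 : a6e1125.Valid :=
  pos_of_chk [] forall_nil a6c1125 a6e1125 (by decide +kernel)

def a6e1126 : Pos := ⟨1519597986827658745958696430671557645419599716335901799508101802915468443016123278343298118295405082867281086532595308400451027246023349020716816183596215429465835748292133126144, 7007908790571290422578836384869240797000887985315304347544830435530045862300680189059273625469442442777738073034954187441126192264499996858243878745968820495397778652736559336272895874503974846464, 9⟩
def a6c1126 : Cert := (move 585 (branch (move 586 (branch (move 584 (branch (move 583 (leaf 551 2)) (move 556 (leaf 552 2)))) (move 617 (branch (move 616 (leaf 584 1)) (move 522 (branch (move 490 (leaf 489 5)) (move 618 (branch (move 650 (leaf 522 6)) (move 649 (leaf 521 5)))))))))) (branch (move 586 (branch (move 553 (branch (move 552 (leaf 552 0)) (move 617 (branch (move 616 (leaf 584 1)) (move 522 (branch (move 649 (leaf 521 6)) (move 490 (leaf 489 5)))))))) (branch (move 617 (branch (move 616 (leaf 584 1)) (move 522 (branch (move 490 (leaf 489 5)) (move 618 (branch (move 650 (leaf 522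 6)) (move 649 (leaf 521 5)))))))) (branch (move 553 (branch (move 552 (leaf 552 0)) (move 618 (branch (move 650 (leaf 522 6)) (move 617 (branch (move 616 (leaf 584 1)) (move 521 (branch (move 489 (leaf 489 4)) (move 520 (branch (move 556 (leaf 520 3)) (move 488 (leaf 488 7)))))))))))) (move 553 (branch (move 552 (leaf 552 0)) (move 618 (branch (move 650 (leaf 522 6)) (move 521 (branch (move 489 (leaf 489 4)) (move 520 (branch (move 556 (leaf 520 3)) (move 519 (branch (move 518 (leaf 518 0)) (move 522 (leaf 519 0)))))))))))))))) (branch (move 586 (branch (move 617 (branch (move 616 (leaf 584 1)) (move 522 (branch (move 490 (leaf 489 5)) (move 618 (branch (move 650 (leaf 522 6)) (move 649 (leaf 521 5)))))))) (move 552 (branch (move 553 (leaf 552 0)) (move 584 (branch (move 583 (leaf 551 2)) (move 551 (leaf 551 3)))))))) (branch (move 553 (branch (move 552 (leaf 552 0)) (move 584 (branch (move 556 (leaf 552 1)) (move 583 (branch (move 582 (leaf 550 2)) (move 586 (leaf 551 2)))))))) (move 553 (branch (move 552 (leaf 552 0)) (move 521 (branch (move 584 (branch (move 556 (leaf 552 1)) (move 489 (branch (move 616 (leaf 488 5)) (move 490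 (branch (move 458 (leaf 457 6)) (move 522 (branch (move 617 (leaf 489 6)) (move 488 (branch (move 487 (leaf 487 0)) (move 456 (leaf 456 7)))))))))))) (branch (move 556 (branch (move 520 (leaf 520 3)) (move 584 (leaf 552 1)))) (move 522 (branch (move 520 (branch (move 519 (leaf 519 0)) (move 617 (branch (move 649 (leaf 521 6)) (move 488 (leaf 488 7)))))) (branch (move 490 (branch (move 458 (leaf 458 4)) (move 520 (branch (move 519 (leaf 519 0)) (move 488 (branch (move 487 (leaf 487 3)) (move 456 (branch (move 489 (leaf 456 7)) (move 424 (leaf 424 4)))))))))) (move 490 (branch (move 617 (leaf 489 6)) (move 458 (leaf 458 4)))))))))))))))))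
theorem a6p1126 : a6e1126.Valid :=
  pos_of_chk [] forall_nil a6c1126 a6e1126 (by decide +kernel)

def a6e1127 : Pos := ⟨117936326132642645584340285834942244393386235436024398994208328171187854952402897164369574872174937800066523578530778345474835387615493145752810298611121222502026575872, 100329130239053894283870046642995236581561622914742195409066998570267105216049971491901810532239597630208122270314973966379676177405260810804758136077686297054111022231263700870907223455243869746282257973248, 15⟩
def a6c1127 : Cert := (move 587 (branch (ref 0) (branch (move 619 (branch (move 652 (branch (move 620 (leaf 523 4)) (move 651 (branch (move 684 (leaf 555 4)) (move 650 (branch (move 682 (leaf 554 5)) (move 618 (leaf 522 5)))))))) (branch (move 524 (branch (move 492 (leaf 491 6)) (move 651 (branch (move 556 (leaf 523 6)) (move 650 (branch (move 682 (leaf 554 5)) (move 618 (leaf 522 5)))))))) (branch (move 524 (branch (move 492 (leaf 491 6)) (move 651 (branch (move 556 (leaf 523 6)) (move 652 (branch (move 684 (leaf 555 4)) (move 620 (leaf 523 4)))))))) (move 618 (branch (move 650 (leaf 522 5)) (move 617 (branch (move 616 (branch (move 588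 (leaf 584 2)) (move 615 (branch (move 586 (leaf 583 2)) (move 583 (branch (move 582 (leaf 582 3)) (move 584 (leaf 583 3)))))))) (branch (move 620 (branch (move 652 (leaf 523 4)) (move 588 (branch (move 616 (leaf 584 2)) (move 589 (leaf 585 2)))))) (branch (move 620 (branch (move 652 (leaf 523 4)) (move 585 (branch (move 584 (leaf 584 3)) (move 621 (branch (move 586 (leaf 585 3)) (move 524 (branch (move 492 (leaf 491 6)) (move 522 (branch (move 490 (leaf 490 7)) (move 648 (branch (move 649 (leaf 616 1)) (move 616 (branch (move 647 (leaf 615 1)) (move 521 (branch (move 553 (leaf 520 5)) (move 520 (branch (move 556 (leaf 520 0)) (move 488 (branch (move 487 (leaf 487 3)) (move 489 (leaf 488 3)))))))))))))))))))))) (move 620 (branch (move 652 (leaf 523 4)) (move 585 (branch (move 584 (leaf 584 3)) (move 621 (branch (move 586 (leaf 585 3)) (move 589 (branch (move 588 (leaf 585 2)) (move 590 (leaf 586 2)))))))))))))))))))) (branch (move 524 (branch (move 554 (leaf 522 1)) (move 492 (branch (move 619 (leaf 491 6)) (move 460 (branch (move 556 (leaf 459 5)) (move 428 (leaf 427 5)))))))) (move 554 (branch (move 524 (leaf 522 1)) (move 588 (branch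 (move 553 (branch (move 552 (leaf 552 0)) (move 589 (branch (move 586 (leaf 553 3)) (move 590 (leaf 554 3)))))) (branch (move 589 (branch (move 590 (leaf 554 3)) (move 586 (branch (move 621 (branch (move 622 (leaf 586 0)) (move 585 (branch (move 620 (leaf 585 0)) (move 584 (branch (move 583 (leaf 551 2)) (move 556 (leaf 552 2)))))))) (move 618 (branch (move 617 (leaf 585 1)) (move 650 (leaf 522 6)))))))) (branch (move 553 (branch (move 552 (leaf 552 0)) (move 589 (branch (move 590 (leaf 554 3)) (move 556 (leaf 553 0)))))) (ref 1)))))))))))
theorem a6p1127 : a6e1127.Valid :=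
  pos_of_chk [a6e1122, a6e1126] (forall_cons a6p1122 (forall_cons a6p1126 forall_nil)) a6c1127 a6e1127 (by decide +kernel)

def a6e1128 : Pos := ⟨356969478326791705179058841552232447298010635607451881288512099877648245536678114710373101314395636858819408192357004617930343375985265478253849471137982971904, 603274466417240643118413491215103033525914839528113531112075524528736659485554214958751468035668827605214244482842270556508881081960788485008316500399616678219893257682016568089352023413012214328973988248579416784896, 16⟩
def a6c1128 : Cert := (move 555 (branch (move 491 (branch (ref 0) (branch (ref 1) (branch (move 490 (branch (move 524 (leaf 490 3)) (move 587 (branch (move 458 (leaf 458 7)) (move 619 (branch (move 522 (leaf 490 7)) (move 620 (branch (move 652 (leaf 523 4)) (move 588 (leaf 491 4)))))))))) (branch (move 490 (branch (move 524 (leaf 490 3)) (move 458 (branch (move 587 (leaf 458 7)) (move 426 (branch (move 459 (leaf 426 7)) (move 522 (leaf 426 4)))))))) (ref 2)))))) (branch (ref 3) (branch (move 491 (branch (move 587 (branch (move 618 (branch (move 586 (leaf 490 5)) (move 619 (branch (move 650 (leaf 522 5)) (move 620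 (branch (move 652 (leaf 523 4)) (move 588 (leaf 491 4)))))))) (branch (move 586 (branch (move 618 (leaf 490 5)) (move 459 (branch (move 554 (leaf 458 5)) (move 460 (branch (move 492 (leaf 459 6)) (move 428 (leaf 427 6)))))))) (move 588 (branch (move 620 (leaf 491 4)) (move 459 (branch (move 556 (leaf 459 4)) (move 460 (branch (move 492 (leaf 459 6)) (move 428 (leaf 427 6))))))))))) (branch (ref 0) (branch (move 554 (branch (move 524 (leaf 522 1)) (move 459 (branch (move 586 (leaf 458 5)) (move 427 (branch (move 522 (leaf 426 5)) (move 428 (branch (move 460 (leaf 427 6)) (move 396 (leaf 395 6)))))))))) (branch (move 554 (branch (move 524 (leaf 522 1)) (move 586 (branch (move 459 (leaf 458 5)) (move 618 (branch (move 650 (leaf 522 6)) (move 522 (leaf 490 6)))))))) (branch (move 524 (branch (move 554 (leaf 522 1)) (ref 4))) (move 587 (branch (move 618 (branch (move 586 (leaf 490 5)) (move 619 (branch (move 650 (leaf 522 5)) (move 620 (branch (move 652 (leaf 523 4)) (move 588 (leaf 491 4)))))))) (branch (move 524 (branch (move 554 (leaf 522 1)) (move 492 (branch (move 619 (leaf 491 6)) (move 460 (leaf 459 6)))))) (move 554 (branch (move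 524 (leaf 522 1)) (move 586 (branch (move 618 (leaf 490 5)) (move 588 (branch (move 620 (leaf 491 4)) (move 553 (branch (move 589 (leaf 553 3)) (move 552 (leaf 552 0))))))))))))))))))) (branch (move 491 (branch (move 554 (branch (move 524 (leaf 522 1)) (move 586 (branch (move 459 (leaf 458 5)) (move 618 (branch (move 650 (leaf 522 6)) (move 522 (leaf 490 6)))))))) (branch (ref 2) (branch (move 524 (branch (move 490 (leaf 490 3)) (move 554 (leaf 522 1)))) (ref 5))))) (branch (move 491 (branch (move 554 (branch (move 524 (leaf 522 1)) (move 586 (branch (move 459 (leaf 458 5)) (move 618 (branch (move 650 (leaf 522 6)) (move 522 (leaf 490 6)))))))) (branch (move 490 (branch (move 524 (leaf 490 3)) (move 458 (branch (move 587 (leaf 458 7)) (move 426 (branch (move 459 (leaf 426 7)) (move 522 (leaf 426 4)))))))) (branch (move 524 (branch (move 490 (leaf 490 3)) (move 554 (leaf 522 1)))) (ref 5))))) (branch (move 491 (branch (move 554 (branch (move 524 (leaf 522 1)) (move 586 (branch (move 459 (leaf 458 5)) (move 618 (branch (move 650 (leaf 522 6)) (move 522 (leaf 490 6)))))))) (branch (ref 1) (move 524 (branch (move 490 (leaf 490 3)) (move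 554 (leaf 522 1))))))) (branch (move 491 (branch (move 554 (branch (move 524 (leaf 522 1)) (move 459 (branch (move 586 (leaf 458 5)) (move 427 (branch (move 522 (leaf 426 5)) (move 428 (branch (move 460 (leaf 427 6)) (move 396 (leaf 395 6)))))))))) (branch (move 490 (branch (move 524 (leaf 490 3)) (move 587 (branch (move 458 (leaf 458 7)) (move 619 (branch (move 522 (leaf 490 7)) (move 620 (branch (move 652 (leaf 523 4)) (move 588 (leaf 491 4)))))))))) (branch (ref 2) (ref 5))))) (branch (move 524 (branch (move 554 (leaf 522 1)) (move 491 (branch (move 490 (leaf 490 3)) (ref 4))))) (ref 6))))))))))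
theorem a6p1128 : a6e1128.Valid :=
  pos_of_chk [a6e1119, a6e1120, a6e1121, a6e1123, a6e1124, a6e1125, a6e1127] (forall_cons a6p1119 (forall_cons a6p1120 (forall_cons a6p1121 (forall_cons a6p1123 (forall_cons a6p1124 (forall_cons a6p1125 (forall_cons a6p1127 forall_nil))))))) a6c1128 a6e1128 (by decide +kernel)

def a6e1129 : Pos := ⟨356969478377938433427436058271188536310941872360836913257934987213324673163180205279196141234446732051411660647839609057423469485504285111783308737596241215488, 37375513600476177381669822555575723007699991613927877760463484178482335145171369535058524933015795260848267237819097071052931913443287976456072838641261073899145518187311140158197736984803429842944, 11⟩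
def a6c1129 : Cert := (move 462 (branch (move 430 (branch (move 398 (branch (move 493 (leaf 397 5)) (move 397 (branch (move 429 (leaf 397 7)) (move 365 (leaf 365 7)))))) (branch (move 398 (branch (move 493 (leaf 397 5)) (move 399 (branch (move 431 (leaf 398 6)) (move 367 (leaf 366 6)))))) (branch (move 399 (branch (move 431 (leaf 398 6)) (move 398 (branch (move 367 (leaf 366 6)) (move 397 (branch (move 429 (leaf 397 7)) (move 365 (leaf 365 7)))))))) (move 429 (branch (move 397 (leaf 397 7)) (move 428 (branch (move 431 (branch (move 399 (leaf 398 6)) (move 460 (branch (move 459 (leaf 427 1)) (move 396 (branch (move 395 (leaf 395 3)) (move 461 (branch (move 432 (leaf 428 1)) (move 493 (leaf 396 7)))))))))) (branch (move 427 (branch (move 463 (leaf 427 0)) (move 459 (branch (move 458 (leaf 426 1)) (move 491 (branch (move 396 (leaf 395 6)) (move 426 (branch (move 461 (leaf 426 0)) (move 394 (leaf 394 7)))))))))) (move 431 (branch (move 399 (leaf 398 6)) (move 463 (branch (move 427 (leaf 427 0)) (move 464 (leaf 428 0))))))))))))))) (branch (move 430 (branch (move 398 (branch (move 493 (leaf 397 5)) (move 397 (branch (move 429 (leaf 397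 7)) (move 365 (leaf 365 7)))))) (branch (move 398 (branch (move 493 (leaf 397 5)) (move 399 (branch (move 431 (leaf 398 6)) (move 367 (leaf 366 6)))))) (move 429 (branch (move 397 (leaf 397 7)) (move 461 (branch (move 558 (leaf 429 7)) (move 431 (branch (move 399 (leaf 398 6)) (move 460 (branch (move 459 (leaf 427 2)) (move 432 (leaf 428 1))))))))))))) (branch (move 429 (branch (move 558 (branch (move 461 (leaf 429 7)) (move 463 (branch (move 431 (leaf 430 6)) (move 590 (branch (move 495 (leaf 462 6)) (move 591 (branch (move 623 (leaf 494 4)) (move 559 (leaf 462 4)))))))))) (branch (move 430 (branch (move 397 (leaf 397 7)) (move 431 (branch (move 399 (leaf 398 6)) (move 463 (branch (move 558 (leaf 430 6)) (move 464 (branch (move 465 (leaf 429 3)) (move 428 (leaf 428 0)))))))))) (branch (move 461 (branch (move 558 (leaf 429 7)) (move 397 (branch (move 430 (leaf 397 7)) (move 365 (leaf 365 4)))))) (move 430 (branch (move 397 (leaf 397 7)) (move 428 (branch (move 427 (branch (move 463 (leaf 427 0)) (move 459 (branch (move 458 (leaf 426 1)) (move 491 (branch (move 396 (leaf 395 6)) (move 426 (branch (move 461 (leaf 426 0)) (move 394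 (leaf 394 7)))))))))) (branch (move 431 (branch (move 399 (leaf 398 6)) (move 463 (branch (move 427 (leaf 427 0)) (move 464 (leaf 428 0)))))) (branch (move 431 (branch (move 399 (leaf 398 6)) (move 460 (branch (move 459 (leaf 427 1)) (move 432 (branch (move 461 (leaf 428 1)) (move 464 (branch (move 463 (leaf 428 0)) (move 465 (leaf 429 0)))))))))) (move 431 (branch (move 399 (leaf 398 6)) (move 459 (branch (move 460 (leaf 427 1)) (move 427 (branch (move 458 (leaf 426 1)) (move 396 (branch (move 395 (leaf 395 3)) (move 491 (leaf 395 6)))))))))))))))))))) (branch (move 558 (branch (move 591 (branch (move 559 (leaf 462 4)) (move 590 (branch (move 623 (leaf 494 4)) (move 622 (branch (move 493 (leaf 493 7)) (move 621 (branch (move 653 (leaf 525 5)) (move 589 (leaf 493 5)))))))))) (branch (move 463 (branch (move 431 (leaf 430 6)) (move 590 (branch (move 495 (leaf 462 6)) (move 591 (branch (move 623 (leaf 494 4)) (move 559 (leaf 462 4)))))))) (move 430 (branch (move 398 (branch (move 493 (leaf 397 5)) (move 367 (branch (move 399 (leaf 366 6)) (move 366 (branch (move 335 (leaf 334 6)) (move 365 (branch (move 397 (leaf 365 7)) (move 333 (leaf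 333 7)))))))))) (branch (move 398 (branch (move 493 (leaf 397 5)) (move 463 (branch (move 431 (leaf 430 6)) (move 366 (branch (move 495 (leaf 366 4)) (move 365 (branch (move 397 (leaf 365 7)) (move 333 (leaf 333 7)))))))))) (move 431 (branch (move 463 (leaf 430 6)) (move 399 (leaf 398 6)))))))))) (branch (move 558 (branch (move 591 (branch (move 559 (leaf 462 4)) (move 590 (branch (move 623 (leaf 494 4)) (move 622 (branch (move 493 (leaf 493 7)) (move 621 (branch (move 653 (leaf 525 5)) (move 589 (leaf 493 5)))))))))) (branch (move 463 (branch (move 431 (leaf 430 6)) (move 590 (branch (move 495 (leaf 462 6)) (move 622 (branch (move 493 (leaf 493 7)) (move 621 (branch (move 653 (leaf 525 5)) (move 589 (leaf 493 5)))))))))) (branch (move 463 (branch (move 431 (leaf 430 6)) (move 590 (branch (move 495 (leaf 462 6)) (move 591 (branch (move 623 (leaf 494 4)) (move 559 (leaf 462 4)))))))) (move 495 (branch (move 461 (branch (move 429 (leaf 429 7)) (move 496 (branch (move 497 (leaf 493 1)) (move 460 (branch (move 493 (leaf 460 3)) (move 459 (leaf 459 0)))))))) (branch (move 461 (branch (move 429 (leaf 429 7)) (move 463 (branch (move 431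 (leaf 430 6)) (move 460 (branch (move 459 (leaf 459 0)) (move 492 (branch (move 491 (leaf 459 1)) (move 464 (branch (move 493 (leaf 460 1)) (move 465 (branch (move 466 (leaf 462 1)) (move 433 (branch (move 432 (leaf 429 2)) (move 434 (leaf 430 2)))))))))))))))) (branch (move 463 (branch (move 431 (leaf 430 6)) (move 496 (branch (move 497 (leaf 493 1)) (move 559 (branch (move 591 (leaf 462 4)) (move 560 (branch (move 561 (leaf 525 3)) (move 528 (branch (move 592 (leaf 463 7)) (move 493 (branch (move 529 (leaf 493 0)) (move 464 (branch (move 492 (leaf 460 2)) (move 465 (leaf 461 1)))))))))))))))) (move 461 (branch (move 429 (leaf 429 7)) (move 496 (branch (move 497 (leaf 493 1)) (move 463 (branch (move 460 (leaf 460 0)) (move 431 (leaf 430 6)))))))))))))))) (move 429 (branch (move 461 (branch (move 558 (leaf 429 7)) (move 397 (branch (move 430 (leaf 397 7)) (move 365 (leaf 365 4)))))) (branch (move 558 (branch (move 461 (leaf 429 7)) (move 591 (branch (move 559 (leaf 462 4)) (move 590 (branch (move 623 (leaf 494 4)) (move 622 (branch (move 493 (leaf 493 7)) (move 621 (branch (move 653 (leaf 525 5)) (move 589 (leaf 493 5))))))))))))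 (move 430 (branch (move 397 (leaf 397 7)) (move 428 (branch (move 398 (branch (move 493 (leaf 397 5)) (move 399 (branch (move 427 (leaf 395 2)) (move 367 (leaf 366 6)))))) (branch (move 427 (branch (move 463 (leaf 427 0)) (move 459 (branch (move 458 (leaf 426 1)) (move 491 (branch (move 396 (leaf 395 6)) (move 394 (branch (move 395 (leaf 394 3)) (move 426 (leaf 394 7)))))))))) (move 493 (branch (move 398 (leaf 397 5)) (move 492 (branch (move 460 (branch (move 396 (leaf 396 4)) (move 495 (branch (move 459 (leaf 459 3)) (move 464 (branch (move 463 (leaf 460 2)) (move 496 (branch (move 465 (leaf 461 2)) (move 497 (leaf 493 1)))))))))) (branch (move 460 (branch (move 396 (leaf 396 4)) (move 459 (branch (move 495 (leaf 459 3)) (move 491 (branch (move 458 (leaf 458 3)) (move 522 (leaf 490 1)))))))) (move 491 (branch (move 463 (leaf 459 2)) (move 522 (leaf 490 1)))))))))))))))))))))))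
theorem a6p1129 : a6e1129.Valid :=
  pos_of_chk [] forall_nil a6c1129 a6e1129 (by decide +kernel)

def a6e1130 : Pos := ⟨943490606617273197719371956394358487393069987153207461856034931594496735484846231651893134990591310245105462248920992363914102079201643547642376825142074974837510504448, 943093824197934446010499746772828956201994467252606282456207865132673073496993281353195219311847407466434236381734045806452371852398950996724531728139604682136569885297078688327753833517342928516183912087552, 11⟩
def a6c1130 : Cert := (move 590 (branch (move 621 (branch (move 589 (leaf 493 5)) (move 622 (branch (move 653 (leaf 525 5)) (move 623 (branch (move 655 (leaf 526 4)) (move 591 (leaf 494 4)))))))) (branch (move 555 (branch (move 554 (leaf 522 1)) (move 621 (branch (move 589 (leaf 493 5)) (move 622 (branch (move 653 (leaf 525 5)) (move 655 (branch (move 623 (leaf 526 4)) (move 654 (branch (move 687 (leaf 558 4)) (move 619 (branch (move 620 (leaf 619 0)) (move 587 (branch (move 492 (leaf 491 6)) (move 651 (branch (move 556 (leaf 523 6)) (move 650 (branch (move 682 (leaf 554 5)) (move 618 (leaf 522 5)))))))))))))))))))) (branch (move 621 (branch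 (move 589 (leaf 493 5)) (move 619 (branch (move 622 (branch (move 653 (leaf 525 5)) (move 620 (branch (move 591 (leaf 587 2)) (move 654 (branch (move 655 (leaf 619 0)) (move 586 (branch (move 587 (leaf 586 3)) (move 618 (branch (move 585 (leaf 585 3)) (move 650 (branch (move 649 (leaf 617 1)) (move 651 (leaf 618 1)))))))))))))) (branch (move 555 (branch (move 554 (leaf 522 1)) (move 587 (branch (move 492 (leaf 491 6)) (move 620 (branch (move 652 (leaf 523 4)) (move 622 (branch (move 591 (leaf 587 2)) (move 586 (leaf 586 3)))))))))) (branch (move 555 (branch (move 554 (leaf 522 1)) (move 587 (branch (move 492 (leaf 491 6)) (move 651 (branch (move 556 (leaf 523 6)) (move 650 (branch (move 682 (leaf 554 5)) (move 618 (leaf 522 5)))))))))) (move 622 (branch (move 653 (leaf 525 5)) (move 620 (branch (move 591 (leaf 587 2)) (move 554 (branch (move 555 (leaf 522 1)) (move 522 (branch (move 553 (leaf 521 1)) (move 650 (branch (move 651 (leaf 618 1)) (move 618 (branch (move 649 (leaf 617 1)) (move 586 (branch (move 585 (leaf 585 3)) (move 491 (leaf 490 6)))))))))))))))))))))) (branch (move 623 (branch (move 591 (leaf 494 4)) (move 555 (branch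 (move 554 (leaf 522 1)) (move 587 (branch (move 622 (branch (move 655 (leaf 526 4)) (move 588 (branch (move 589 (leaf 587 0)) (move 620 (branch (move 491 (leaf 491 4)) (move 652 (branch (move 684 (leaf 555 7)) (move 556 (leaf 523 7)))))))))) (branch (move 619 (branch (move 492 (leaf 491 6)) (move 651 (branch (move 556 (leaf 523 6)) (move 652 (branch (move 684 (leaf 555 4)) (move 620 (leaf 523 4)))))))) (branch (move 619 (branch (move 492 (leaf 491 6)) (move 618 (branch (move 650 (leaf 522 5)) (move 588 (branch (move 589 (leaf 586 1)) (move 620 (branch (move 652 (leaf 523 4)) (move 491 (leaf 491 4)))))))))) (move 492 (branch (move 619 (leaf 491 6)) (move 460 (branch (move 491 (leaf 459 6)) (move 556 (leaf 459 5)))))))))))))) (branch (move 555 (branch (move 554 (leaf 522 1)) (move 591 (branch (move 623 (leaf 494 4)) (move 589 (branch (move 621 (leaf 493 5)) (move 588 (branch (move 556 (leaf 555 3)) (move 619 (branch (move 620 (leaf 587 1)) (move 587 (branch (move 618 (leaf 586 1)) (move 492 (leaf 491 6)))))))))))))) (move 622 (branch (move 623 (branch (move 655 (leaf 526 4)) (move 591 (leaf 494 4)))) (branch (move 555 (branch (move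 554 (leaf 522 1)) (move 653 (branch (move 621 (leaf 525 5)) (move 654 (branch (move 685 (leaf 557 5)) (move 655 (branch (move 687 (leaf 558 4)) (move 623 (leaf 526 4)))))))))) (branch (move 555 (branch (move 554 (leaf 522 1)) (move 621 (branch (move 653 (leaf 525 5)) (move 591 (branch (move 623 (leaf 494 4)) (move 619 (branch (move 620 (leaf 587 2)) (move 587 (branch (move 492 (leaf 491 6)) (move 651 (branch (move 556 (leaf 523 6)) (move 650 (branch (move 682 (leaf 554 5)) (move 618 (leaf 522 5)))))))))))))))) (move 555 (branch (move 554 (leaf 522 1)) (move 619 (branch (move 653 (branch (move 621 (leaf 525 5)) (move 654 (branch (move 685 (leaf 557 5)) (move 655 (branch (move 687 (leaf 558 4)) (move 652 (branch (move 620 (leaf 619 3)) (move 651 (branch (move 618 (leaf 618 3)) (move 683 (branch (move 682 (leaf 650 1)) (move 684 (leaf 651 1)))))))))))))) (branch (move 587 (branch (move 492 (leaf 491 6)) (move 620 (branch (move 652 (leaf 523 4)) (move 621 (branch (move 591 (leaf 587 2)) (move 586 (leaf 586 3)))))))) (move 587 (branch (move 492 (leaf 491 6)) (move 651 (branch (move 556 (leaf 523 6)) (move 650 (branch (move 682 (leaf 554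 5)) (move 618 (leaf 522 5)))))))))))))))))))))))
theorem a6p1130 : a6e1130.Valid :=
  pos_of_chk [] forall_nil a6c1130 a6e1130 (by decide +kernel)

def a6e1131 : Pos := ⟨356969478326791705179058841552232447298010635607451881288512099877648245536678114710373101314395636858819408192357004617930343375985265478253849471137982971904, 943093824197934446010499746821456091788970962580945342863308462846306289501310172648962269827399815457387981148860682318486368098699545310809449730580265329731937643808137791304272362768063365193783914266624, 14⟩
def a6c1131 : Cert := (move 494 (branch (move 558 (branch (move 590 (branch (move 493 (branch (move 622 (leaf 493 7)) (move 461 (leaf 461 7)))) (branch (move 623 (branch (move 591 (leaf 494 4)) (move 622 (branch (move 655 (leaf 526 4)) (move 621 (branch (move 653 (leaf 525 5)) (move 589 (leaf 493 5)))))))) (move 493 (branch (move 461 (leaf 461 7)) (move 524 (branch (move 522 (leaf 490 2)) (move 555 (branch (move 554 (leaf 522 1)) (move 591 (branch (move 623 (leaf 494 4)) (move 589 (branch (move 621 (leaf 493 5)) (move 588 (branch (move 556 (leaf 555 3)) (move 619 (branch (move 620 (leaf 587 1)) (move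 587 (branch (move 618 (leaf 586 1)) (move 492 (leaf 491 6))))))))))))))))))))) (branch (move 559 (branch (move 524 (leaf 523 0)) (move 591 (branch (move 462 (leaf 462 4)) (move 623 (branch (move 655 (leaf 526 7)) (move 590 (leaf 494 4)))))))) (branch (move 524 (branch (move 559 (leaf 523 0)) (move 522 (branch (move 493 (leaf 490 2)) (move 554 (branch (move 553 (leaf 521 1)) (move 555 (leaf 522 1)))))))) (move 591 (branch (move 462 (branch (move 559 (leaf 462 4)) (move 431 (branch (move 463 (leaf 430 6)) (move 430 (branch (move 399 (leaf 398 6)) (move 429 (branch (move 461 (leaf 429 7)) (move 397 (leaf 397 7)))))))))) (branch (move 590 (branch (move 623 (leaf 494 4)) (move 493 (branch (move 622 (leaf 493 7)) (move 461 (leaf 461 7)))))) (move 590 (branch (move 623 (leaf 494 4)) (move 559 (branch (move 462 (leaf 462 4)) (move 589 (branch (move 621 (leaf 493 5)) (move 560 (branch (move 588 (leaf 556 2)) (move 561 (leaf 557 1))))))))))))))))) (branch (move 524 (branch (move 495 (leaf 491 2)) (move 522 (branch (move 493 (leaf 490 2)) (move 554 (branch (move 553 (leaf 521 1)) (move 555 (leaf 522 1)))))))) (branch (ref 0) (branch (move 558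 (branch (move 495 (branch (move 524 (leaf 491 2)) (move 463 (branch (move 590 (leaf 462 6)) (move 431 (branch (move 462 (leaf 430 6)) (move 399 (leaf 398 5)))))))) (branch (move 590 (branch (move 495 (branch (move 463 (leaf 462 6)) (move 623 (branch (move 591 (leaf 494 4)) (move 622 (branch (move 655 (leaf 526 4)) (move 621 (branch (move 653 (leaf 525 5)) (move 589 (leaf 493 5)))))))))) (branch (move 493 (branch (move 622 (leaf 493 7)) (move 461 (leaf 461 7)))) (move 493 (branch (move 461 (leaf 461 7)) (move 495 (branch (move 463 (leaf 462 6)) (move 496 (branch (move 497 (leaf 493 1)) (move 591 (branch (move 623 (leaf 494 4)) (move 589 (branch (move 621 (leaf 493 5)) (move 464 (branch (move 465 (leaf 461 2)) (move 528 (branch (move 529 (leaf 493 0)) (move 560 (branch (move 559 (leaf 463 5)) (move 561 (branch (move 592 (leaf 557 2)) (move 593 (leaf 464 4))))))))))))))))))))))) (branch (move 559 (branch (move 524 (leaf 523 0)) (move 591 (branch (move 462 (leaf 462 4)) (move 623 (branch (move 655 (leaf 526 7)) (move 590 (leaf 494 4)))))))) (move 524 (branch (move 495 (leaf 491 2)) (move 559 (leaf 523 0)))))))) (move 524 (branch (move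 495 (leaf 491 2)) (move 558 (branch (move 559 (leaf 523 0)) (ref 1))))))))))
theorem a6p1131 : a6e1131.Valid :=
  pos_of_chk [a6e1129, a6e1130] (forall_cons a6p1129 (forall_cons a6p1130 forall_nil)) a6c1131 a6e1131 (by decide +kernel)

def a6e1132 : Pos := ⟨4052261298678835292472332167570467717662080071974089673208741147724665484307446983010438509877662724071904849030382066452897207911551845438777377979320708828006228271112317304832, 2961193262834797469867840248873800117889821026951043608855767569773408981703108183852733582716429619522508250204280913679685345358692398058819794603998130920156656697142572614235606399021874891497252028236964856856481913372672, 9⟩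
def a6c1132 : Cert := (move 621 (branch (move 622 (branch (move 653 (leaf 525 5)) (move 623 (branch (move 655 (leaf 526 4)) (move 591 (branch (move 494 (leaf 494 4)) (move 592 (branch (move 620 (leaf 588 2)) (move 593 (leaf 589 1)))))))))) (branch (move 494 (branch (move 589 (leaf 493 5)) (move 591 (branch (move 623 (leaf 494 4)) (move 462 (branch (move 559 (leaf 462 4)) (move 463 (branch (move 495 (leaf 462 6)) (move 431 (leaf 430 6)))))))))) (branch (move 589 (branch (move 494 (leaf 493 5)) (move 653 (branch (move 685 (leaf 557 6)) (move 622 (leaf 525 5)))))) (move 622 (branch (move 653 (leaf 525 5)) (move 591 (branch (move 655 (branch (move 623 (leaf 526 4)) (move 654 (branch (move 687 (leaf 558 4)) (move 686 (branch (move 559 (leaf 558 6)) (move 718 (branch (move 589 (leaf 589 7)) (move 717 (branch (move 749 (leaf 621 5)) (move 685 (leaf 589 5)))))))))))) (branch (move 620 (branch (move 619 (leaf 587 2)) (move 592 (branch (move 589 (leaf 588 1)) (move 593 (leaf 589 1)))))) (move 623 (branch (move 655 (leaf 526 4)) (move 592 (branch (move 620 (leaf 588 2)) (move 593 (leaf 589 1)))))))))))))))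
theorem a6p1132 : a6e1132.Valid :=
  pos_of_chk [] forall_nil a6c1132 a6e1132 (by decide +kernel)

def a6e1133 : Pos := ⟨4052261298678835292609628120773079911961718087955717537554129853727531592495336252194149373545615845114356041843611157552443134139381462599519817739315041704257708836934618447872, 2961193262834797469968169379111102035151791189996785745141272248413752551978946280151467776539958719536590695760440818317741585175052844329918588331234436868522773269596357029938420013521001811963473113727445117208976047472640, 10⟩
def a6c1133 : Cert := (move 622 (branch (move 559 (branch (move 524 (leaf 523 0)) (move 655 (branch (move 623 (leaf 526 4)) (move 654 (branch (move 687 (leaf 558 4)) (move 560 (branch (move 561 (leaf 525 3)) (move 686 (branch (move 591 (leaf 558 6)) (move 685 (branch (move 717 (leaf 589 5)) (move 653 (leaf 557 5)))))))))))))) (branch (move 655 (branch (move 623 (leaf 526 4)) (move 654 (branch (move 687 (leaf 558 4)) (move 653 (branch (move 685 (leaf 557 5)) (move 621 (leaf 525 5)))))))) (branch (move 619 (branch (move 524 (branch (move 559 (leaf 523 0)) (move 555 (branch (move 554 (leaf 522 1)) (move 587 (branch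 (move 492 (leaf 491 6)) (move 651 (branch (move 556 (leaf 523 6)) (move 652 (branch (move 684 (leaf 555 4)) (move 620 (leaf 523 4)))))))))))) (branch (move 621 (branch (move 653 (leaf 525 5)) (move 620 (branch (move 591 (leaf 587 2)) (move 587 (branch (move 586 (leaf 586 3)) (move 555 (branch (move 652 (leaf 523 4)) (move 618 (branch (move 589 (leaf 586 2)) (move 650 (leaf 522 5)))))))))))) (branch (move 524 (branch (move 559 (leaf 523 0)) (move 555 (branch (move 554 (leaf 522 1)) (move 587 (branch (move 492 (leaf 491 6)) (move 651 (branch (move 556 (leaf 523 6)) (move 650 (branch (move 682 (leaf 554 5)) (move 618 (leaf 522 5)))))))))))) (move 621 (branch (move 653 (leaf 525 5)) (move 620 (branch (move 591 (leaf 587 2)) (move 618 (branch (move 589 (leaf 586 2)) (move 650 (branch (move 649 (leaf 617 1)) (move 651 (leaf 618 1)))))))))))))) (move 589 (branch (move 623 (branch (move 655 (leaf 526 4)) (move 588 (branch (move 587 (leaf 587 0)) (move 624 (branch (move 621 (leaf 588 3)) (move 625 (leaf 589 3)))))))) (branch (move 559 (branch (move 524 (leaf 523 0)) (move 560 (branch (move 561 (leaf 557 1)) (move 588 (branch (move 587 (leaf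 555 2)) (move 591 (leaf 556 2)))))))) (move 559 (branch (move 524 (leaf 523 0)) (move 560 (branch (move 561 (leaf 557 1)) (move 655 (branch (move 623 (leaf 526 4)) (move 654 (branch (move 687 (leaf 558 4)) (move 686 (branch (move 591 (leaf 558 6)) (move 718 (branch (move 621 (leaf 589 7)) (move 717 (branch (move 749 (leaf 621 5)) (move 685 (leaf 589 5)))))))))))))))))))))))
theorem a6p1133 : a6e1133.Valid :=
  pos_of_chk [] forall_nil a6c1133 a6e1133 (by decide +kernel)

def a6e1134 : Pos := ⟨17404329752672085588539261644975838482390232071360955353747754203843109185649084325847368834094666951810962642136661864239779505728465415451484460128040327991808237937492466064495206203392, 689456534151895453183929096265665064499720119119211017468477858239276019025706172681701131942437362972760913932157925115996730472075709758585061645107034154829870003156994027245329223133606332607493050211434198204416, 12⟩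
def a6c1134 : Cert := (move 522 (branch (move 655 (branch (move 623 (leaf 526 4)) (move 654 (branch (move 687 (leaf 558 4)) (move 685 (branch (move 653 (leaf 557 5)) (move 686 (branch (move 717 (leaf 589 5)) (move 489 (branch (move 490 (leaf 489 3)) (move 521 (branch (move 488 (leaf 488 3)) (move 553 (branch (move 552 (leaf 520 1)) (move 554 (leaf 521 1)))))))))))))))) (branch (move 554 (branch (move 553 (leaf 521 1)) (move 555 (leaf 522 1)))) (branch (move 555 (branch (move 554 (leaf 522 1)) (move 490 (branch (move 489 (leaf 489 3)) (move 619 (branch (move 587 (leaf 490 7)) (move 655 (branch (move 623 (leaf 526 4)) (move 654 (branch (move 687 (leaf 558 4)) (move 653 (branch (move 685 (leaf 557 5)) (move 652 (branch (move 620 (leaf 619 3)) (move 651 (branch (move 618 (leaf 618 3)) (move 683 (branch (move 682 (leaf 650 1)) (move 684 (leaf 651 1)))))))))))))))))))) (move 619 (branch (move 655 (branch (move 623 (leaf 526 4)) (move 654 (branch (move 687 (leaf 558 4)) (move 653 (branch (move 685 (leaf 557 5)) (move 652 (branch (move 620 (leaf 619 3)) (move 651 (branch (move 618 (leaf 618 3)) (move 683 (branch (move 682 (leaf 650 1)) (move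 684 (leaf 651 1)))))))))))))) (branch (move 489 (branch (move 490 (leaf 489 3)) (move 521 (branch (move 488 (leaf 488 3)) (move 552 (branch (move 553 (leaf 520 1)) (move 520 (branch (move 551 (leaf 519 1)) (move 555 (branch (move 556 (leaf 520 0)) (move 587 (branch (move 492 (leaf 491 6)) (move 618 (branch (move 650 (leaf 522 5)) (move 616 (branch (move 584 (leaf 488 6)) (move 588 (branch (move 617 (leaf 584 2)) (move 589 (leaf 586 1)))))))))))))))))))) (move 490 (branch (move 489 (leaf 489 3)) (move 587 (branch (move 555 (leaf 490 7)) (move 623 (branch (move 655 (leaf 526 4)) (move 588 (branch (move 589 (leaf 587 0)) (move 556 (branch (move 492 (leaf 491 5)) (move 651 (branch (move 683 (leaf 555 6)) (move 620 (leaf 523 5)))))))))))))))))))))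
theorem a6p1134 : a6e1134.Valid :=
  pos_of_chk [] forall_nil a6c1134 a6e1134 (by decide +kernel)

def a6e1135 : Pos := ⟨17404329748619824290803916958942294773337380411317421435851401227378871754411689058513095371128493230096977427773544494857266761700635306466056261129879577289998008470354293582807714234368, 65407148744269238685267559608540337774182671966523138995460711837288539556149035726791693473037567614922824990993971838848852873074561404463573605106850812988808576014277596552768300383761072128000, 9⟩
def a6c1135 : Cert := (move 460 (branch (move 428 (branch (move 555 (leaf 427 5)) (move 427 (branch (move 395 (leaf 395 7)) (move 429 (branch (move 397 (leaf 396 6)) (move 556 (branch (move 461 (leaf 428 6)) (move 459 (leaf 427 7)))))))))) (branch (move 489 (branch (move 490 (leaf 489 3)) (move 556 (branch (move 429 (branch (move 461 (leaf 428 6)) (move 428 (branch (move 397 (leaf 396 6)) (move 427 (branch (move 459 (leaf 427 7)) (move 395 (leaf 395 7)))))))) (branch (move 427 (branch (move 459 (leaf 427 7)) (move 428 (branch (move 395 (leaf 395 7)) (move 396 (branch (move 493 (leaf 396 4)) (move 397 (branch (move 429 (leaf 396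 6)) (move 365 (leaf 364 6)))))))))) (branch (move 427 (branch (move 459 (leaf 427 7)) (move 428 (branch (move 395 (leaf 395 7)) (move 493 (branch (move 396 (leaf 396 4)) (move 588 (branch (move 620 (leaf 492 6)) (move 461 (leaf 460 6)))))))))) (move 461 (branch (move 429 (leaf 428 6)) (move 588 (branch (move 493 (leaf 460 6)) (move 621 (branch (move 589 (leaf 492 4)) (move 620 (branch (move 653 (leaf 524 4)) (move 619 (branch (move 651 (leaf 523 5)) (move 587 (leaf 491 5)))))))))))))))))) (branch (move 428 (branch (move 555 (leaf 427 5)) (move 429 (branch (move 397 (leaf 396 6)) (move 493 (branch (move 461 (leaf 429 4)) (move 396 (leaf 396 4)))))))) (branch (move 428 (branch (move 555 (leaf 427 5)) (move 396 (branch (move 493 (leaf 396 4)) (move 395 (branch (move 427 (leaf 395 7)) (move 363 (leaf 363 7)))))))) (move 556 (branch (move 461 (branch (move 429 (leaf 428 6)) (move 588 (branch (move 493 (leaf 460 6)) (move 621 (branch (move 589 (leaf 492 4)) (move 620 (branch (move 653 (leaf 524 4)) (move 619 (branch (move 651 (leaf 523 5)) (move 587 (leaf 491 5)))))))))))) (branch (move 587 (branch (move 555 (leaf 459 5)) (move 588 (branch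 (move 619 (leaf 491 5)) (move 621 (branch (move 589 (leaf 492 4)) (move 620 (branch (move 623 (leaf 587 3)) (move 653 (leaf 524 4)))))))))) (branch (move 461 (branch (move 429 (leaf 428 6)) (move 588 (branch (move 493 (leaf 460 6)) (move 621 (branch (move 589 (leaf 492 4)) (move 620 (branch (move 653 (leaf 524 4)) (move 651 (branch (move 619 (leaf 523 5)) (move 652 (branch (move 623 (leaf 619 1)) (move 555 (leaf 523 7)))))))))))))) (move 458 (branch (move 461 (branch (move 429 (leaf 428 6)) (move 459 (branch (move 427 (leaf 427 7)) (move 489 (branch (move 490 (leaf 457 1)) (move 457 (branch (move 493 (leaf 457 0)) (move 488 (leaf 456 1)))))))))) (branch (move 461 (branch (move 429 (leaf 428 6)) (move 459 (branch (move 427 (leaf 427 7)) (move 457 (branch (move 493 (leaf 457 0)) (move 425 (branch (move 424 (leaf 424 3)) (move 426 (leaf 425 3)))))))))) (move 555 (branch (move 587 (leaf 459 5)) (move 490 (branch (move 489 (leaf 489 3)) (move 426 (leaf 426 4))))))))))))))))))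
theorem a6p1135 : a6e1135.Valid :=
  pos_of_chk [] forall_nil a6c1135 a6e1135 (by decide +kernel)

def a6e1136 : Pos := ⟨17404329748619824289860426352407399147592320835008984762788731425627482854059302106049799549718789832635686446307522660217651446028802630183556365175350683898793720368040361815998663229440, 37375513589598471261936201263169345016575830225122991830706009400491771516092569270614620489801546202046842830400716903439023706636103359224151075443080124654156176080876058576320721450213201412096, 10⟩
def a6c1136 : Cert := (move 460 (branch (move 428 (branch (move 555 (leaf 427 5)) (move 429 (branch (move 397 (leaf 396 6)) (move 427 (branch (move 395 (leaf 395 7)) (move 459 (branch (move 556 (leaf 427 7)) (move 458 (branch (move 457 (leaf 425 2)) (move 430 (leaf 426 1)))))))))))) (branch (move 521 (branch (move 488 (leaf 488 3)) (move 427 (branch (move 428 (branch (move 395 (leaf 395 7)) (move 429 (branch (move 397 (leaf 396 6)) (move 556 (branch (move 461 (leaf 428 6)) (move 459 (leaf 427 7)))))))) (branch (move 552 (branch (move 553 (leaf 520 1)) (move 520 (branch (move 551 (leaf 519 1)) (move 459 (branch (move 556 (leaf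 427 7)) (move 425 (branch (move 457 (leaf 424 5)) (move 426 (branch (move 424 (leaf 424 0)) (move 461 (branch (move 458 (leaf 425 3)) (move 462 (leaf 426 3)))))))))))))) (branch (move 428 (branch (move 395 (leaf 395 7)) (move 429 (branch (move 397 (leaf 396 6)) (move 552 (branch (move 553 (leaf 520 1)) (move 520 (branch (move 551 (leaf 519 1)) (move 457 (branch (move 425 (leaf 424 5)) (move 458 (branch (move 459 (leaf 425 2)) (move 426 (leaf 425 1)))))))))))))) (move 428 (branch (move 395 (leaf 395 7)) (move 429 (branch (move 397 (leaf 396 6)) (move 461 (branch (move 556 (leaf 428 6)) (move 426 (branch (move 425 (leaf 425 0)) (move 462 (leaf 426 0)))))))))))))))) (branch (move 428 (branch (move 555 (leaf 427 5)) (move 521 (branch (move 488 (leaf 488 3)) (move 552 (branch (move 553 (leaf 520 1)) (move 520 (branch (move 551 (leaf 519 1)) (move 429 (branch (move 397 (leaf 396 6)) (move 427 (branch (move 395 (leaf 395 7)) (move 457 (branch (move 425 (leaf 424 5)) (move 458 (branch (move 459 (leaf 425 2)) (move 426 (leaf 425 1)))))))))))))))))) (branch (move 521 (branch (move 488 (leaf 488 3)) (move 555 (branch (move 428 (leaf 427 5))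 (move 556 (branch (move 520 (leaf 520 0)) (move 587 (leaf 459 5)))))))) (move 556 (branch (move 587 (branch (move 555 (leaf 459 5)) (move 588 (branch (move 619 (leaf 491 5)) (move 621 (branch (move 589 (leaf 492 4)) (move 620 (branch (move 623 (leaf 587 3)) (move 653 (leaf 524 4)))))))))) (move 459 (branch (move 427 (leaf 427 7)) (move 457 (branch (move 458 (branch (move 488 (leaf 456 1)) (move 461 (branch (move 429 (leaf 428 6)) (move 425 (branch (move 424 (leaf 424 3)) (move 426 (leaf 425 3)))))))) (branch (move 521 (branch (move 488 (leaf 488 3)) (move 552 (branch (move 553 (leaf 520 1)) (move 520 (branch (move 551 (leaf 519 1)) (move 425 (leaf 424 5)))))))) (branch (move 488 (branch (move 521 (leaf 488 3)) (move 458 (leaf 456 1)))) (move 425 (branch (move 458 (branch (move 424 (leaf 424 3)) (move 461 (branch (move 426 (leaf 425 3)) (move 429 (leaf 428 6)))))) (branch (move 461 (branch (move 429 (leaf 428 6)) (move 426 (branch (move 458 (leaf 425 3)) (move 521 (branch (move 394 (leaf 393 6)) (move 552 (branch (move 553 (leaf 520 1)) (move 520 (leaf 424 5)))))))))) (branch (move 424 (branch (move 458 (leaf 424 3)) (move 521 (branch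 (move 392 (leaf 392 7)) (move 552 (branch (move 553 (leaf 520 1)) (move 520 (leaf 424 5)))))))) (move 521 (branch (move 392 (branch (move 424 (leaf 392 7)) (move 393 (branch (move 360 (leaf 360 7)) (move 394 (branch (move 426 (leaf 393 6)) (move 362 (leaf 361 6)))))))) (move 552 (branch (move 553 (leaf 520 1)) (move 520 (leaf 424 5)))))))))))))))))))))))
theorem a6p1136 : a6e1136.Valid :=
  pos_of_chk [] forall_nil a6c1136 a6e1136 (by decide +kernel)

def a6e1137 : Pos := ⟨17404329748619824290803916958928565178004332509825363330073499418691100074623056189701950722376203036823556593027093615595931078792532650729402648303932051786618820274346780709610919559168, 65407148744269238685267559608650903079621392352650734189716482457095893868476464532515892451572229012516722317968232350734201369671819162509779626387654532006368052595984578858511249272603521581056, 13⟩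
def a6c1137 : Cert := (move 522 (branch (move 489 (branch (move 490 (leaf 489 3)) (move 521 (branch (move 488 (leaf 488 3)) (move 553 (branch (move 552 (leaf 520 1)) (move 554 (leaf 521 1)))))))) (branch (move 554 (branch (move 553 (leaf 521 1)) (move 555 (leaf 522 1)))) (branch (move 555 (branch (move 554 (leaf 522 1)) (move 489 (branch (move 490 (leaf 489 3)) (move 521 (branch (move 488 (leaf 488 3)) (move 492 (branch (move 493 (leaf 489 2)) (move 556 (branch (move 520 (leaf 520 0)) (move 587 (branch (move 619 (leaf 491 6)) (move 460 (leaf 459 5)))))))))))))) (move 492 (branch (ref 0) (branch (move 521 (branch (move 493 (leaf 489 2)) (move 488 (branch (move 489 (leaf 488 3)) (move 520 (branch (move 487 (leaf 487 3)) (move 552 (branch (move 551 (leaf 519 1)) (move 553 (leaf 520 1)))))))))) (branch (move 460 (branch (move 428 (branch (move 555 (leaf 427 5)) (move 427 (branch (move 395 (leaf 395 7)) (move 429 (branch (move 397 (leaf 396 6)) (move 556 (branch (move 461 (leaf 428 6)) (move 459 (leaf 427 7)))))))))) (branch (move 493 (branch (move 521 (leaf 489 2)) (move 461 (branch (move 429 (leaf 429 4)) (move 556 (branch (move 588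 (leaf 460 6)) (move 459 (branch (move 427 (leaf 427 7)) (move 555 (branch (move 587 (leaf 459 5)) (move 458 (branch (move 457 (leaf 457 0)) (move 426 (branch (move 425 (leaf 425 3)) (move 490 (leaf 426 4)))))))))))))))) (branch (move 493 (branch (move 521 (leaf 489 2)) (move 461 (branch (move 429 (leaf 429 4)) (move 428 (branch (move 396 (leaf 396 4)) (move 427 (branch (move 395 (leaf 395 7)) (move 556 (branch (move 588 (leaf 460 6)) (move 459 (leaf 427 7)))))))))))) (move 428 (branch (move 555 (leaf 427 5)) (move 493 (branch (move 521 (leaf 489 2)) (move 396 (leaf 396 4)))))))))) (move 489 (branch (move 490 (leaf 489 3)) (ref 1)))))))))))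
theorem a6p1137 : a6e1137.Valid :=
  pos_of_chk [a6e1135, a6e1136] (forall_cons a6p1135 (forall_cons a6p1136 forall_nil)) a6c1137 a6e1137 (by decide +kernel)

end Crest.Agent.SN
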