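import Crest.Agent.Lib_SN_A6x0
import Crest.Agent.Lib_SN_A6x1
import Crest.Agent.Lib_SN_A6x10
import Crest.Agent.Lib_SN_A6x2
import Crest.Agent.Lib_SN_A6x3
import Crest.Agent.Lib_SN_A6x4
import Crest.Agent.Lib_SN_A6x5
import Crest.Agent.Lib_SN_A6x6
import Crest.Agent.Lib_SN_A6x7
import Crest.Agent.Lib_SN_A6x8
import Crest.Agent.Lib_SN_A6x9

set_option autoImplicit false
set_option linter.all false
set_option maxRecDepth 1000000

namespace Crest.Agent.SN
open Cert

def a6e1259 : Pos := ⟨109836762562089755450502514164423275938658803881070406865684524562045487420871511723161783782538867488004357909741647951756942985145197789041200972216410308608, 42355884331617736162527211002851778572274679690120125428086329782254617944009510865886035530920692285808115524972655663991777881691997238468636835840, 11⟩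
def a6c1259 : Cert := (move 396 (branch (move 493 (branch (move 492 (leaf 396 4)) (move 364 (leaf 364 4)))) (branch (move 364 (branch (move 493 (leaf 364 4)) (move 331 (branch (move 363 (leaf 331 7)) (move 332 (branch (move 299 (leaf 299 7)) (move 333 (branch (move 365 (leaf 332 6)) (move 301 (leaf 300 6)))))))))) (branch (move 363 (branch (move 395 (branch (move 492 (leaf 363 7)) (move 331 (branch (move 364 (leaf 331 7)) (move 299 (leaf 299 4)))))) (branch (move 364 (branch (move 331 (leaf 331 7)) (move 365 (branch (move 333 (leaf 332 6)) (move 397 (branch (move 492 (leaf 364 6)) (move 398 (branch (move 399 (leaf 363 3)) (move 362 (leaf 362 0)))))))))) (branch (ref 0) (move 395 (branch (move 492 (leaf 363 7)) (move 361 (branch (move 362 (branch (move 360 (leaf 360 0)) (move 397 (branch (move 394 (leaf 361 3)) (move 398 (leaf 362 3)))))) (branch (move 458 (branch (move 424 (leaf 424 3)) (move 393 (branch (move 490 (leaf 361 4)) (move 456 (branch (move 488 (leaf 360 5)) (move 330 (branch (move 362 (leaf 329 6)) (move 329 (branch (move 298 (leaf 297 6)) (move 328 (branch (move 360 (leaf 328 7)) (move 296 (leaf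 296 7)))))))))))))) (move 424 (branch (move 458 (leaf 424 3)) (move 393 (branch (move 394 (leaf 392 1)) (move 456 (branch (move 488 (leaf 360 5)) (move 329 (leaf 328 5))))))))))))))))) (move 393 (branch (move 458 (branch (move 424 (leaf 424 3)) (move 361 (branch (move 490 (leaf 361 4)) (move 456 (branch (move 488 (leaf 360 5)) (move 330 (branch (move 362 (leaf 329 6)) (move 329 (branch (move 298 (leaf 297 6)) (move 328 (branch (move 360 (leaf 328 7)) (move 296 (leaf 296 7)))))))))))))) (branch (move 492 (branch (move 493 (leaf 396 4)) (move 424 (branch (move 458 (leaf 424 3)) (move 395 (branch (move 394 (leaf 392 1)) (move 363 (leaf 363 7)))))))) (ref 1))))))))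
theorem a6p1259 : a6e1259.Valid :=
  pos_of_chk [a6e1254, a6e1258] (forall_cons a6p1254 (forall_cons a6p1258 forall_nil)) a6c1259 a6e1259 (by decide +kernel)

def a6e1260 : Pos := ⟨1598335261111060864801347684938255051928067919489781859128736154700352191918629688727912808059718933778899275219295981404043804013161749206672605184, 12786682062094304179739022253706894127049234548985970311319105667313487172011883074945411095466257130071492558906380445257919686349357510600008138752, 8⟩
def a6c1260 : Cert := (move 393 (branch (move 360 (branch (move 392 (leaf 360 7)) (move 361 (branch (move 328 (leaf 328 7)) (move 362 (branch (move 394 (leaf 361 6)) (move 330 (leaf 329 6)))))))) (branch (move 360 (branch (move 392 (leaf 360 7)) (move 361 (branch (move 328 (leaf 328 7)) (move 395 (branch (move 394 (leaf 360 3)) (move 363 (branch (move 492 (leaf 363 7)) (move 331 (branch (move 364 (leaf 331 7)) (move 299 (leaf 299 4)))))))))))) (branch (move 360 (branch (move 392 (leaf 360 7)) (move 361 (branch (move 328 (leaf 328 7)) (move 362 (branch (move 330 (leaf 329 6)) (move 363 (branch (move 395 (leaf 360 0)) (move 364 (branch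 (move 397 (leaf 361 0)) (move 332 (branch (move 331 (leaf 328 2)) (move 333 (leaf 329 2)))))))))))))) (branch (move 362 (branch (move 394 (leaf 361 6)) (move 361 (branch (move 330 (leaf 329 6)) (move 360 (branch (move 328 (leaf 328 7)) (move 363 (branch (move 395 (leaf 360 0)) (move 364 (branch (move 397 (leaf 361 0)) (move 332 (branch (move 331 (leaf 328 2)) (move 333 (leaf 329 2)))))))))))))) (branch (move 394 (branch (move 362 (leaf 361 6)) (move 364 (branch (move 333 (branch (move 365 (leaf 332 6)) (move 332 (branch (move 301 (leaf 300 6)) (move 331 (branch (move 363 (leaf 331 7)) (move 299 (leaf 299 7)))))))) (branch (move 363 (branch (move 331 (leaf 331 7)) (move 392 (branch (move 395 (leaf 360 2)) (move 360 (leaf 360 7)))))) (move 365 (branch (move 395 (leaf 361 2)) (move 333 (leaf 332 6))))))))) (move 364 (branch (move 365 (branch (move 333 (leaf 332 6)) (move 394 (branch (move 395 (leaf 361 2)) (move 362 (leaf 361 6)))))) (branch (move 333 (branch (move 365 (leaf 332 6)) (move 332 (branch (move 301 (leaf 300 6)) (move 331 (branch (move 363 (leaf 331 7)) (move 299 (leaf 299 7)))))))) (move 362 (branch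 (move 394 (leaf 361 6)) (move 361 (branch (move 330 (leaf 329 6)) (move 363 (branch (move 392 (leaf 360 1)) (move 397 (leaf 361 0)))))))))))))))))
theorem a6p1260 : a6e1260.Valid :=
  pos_of_chk [] forall_nil a6c1260 a6e1260 (by decide +kernel)

def a6e1261 : Pos := ⟨109836762562089755450130372737583925210697550091431748544095460185373580574007388741181296467024807751261348091776201006189832574082789505939231256182559604736, 63316582880309045797229458586195626129520368270155455857095954584873867392187180568734708465710312618065464205402527772908701846791428656341814725598357833146031714890751672320, 13⟩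
def a6c1261 : Cert := (move 457 (branch (move 458 (branch (move 424 (leaf 424 3)) (move 489 (branch (move 488 (leaf 456 1)) (move 490 (leaf 457 1)))))) (branch (move 489 (branch (move 490 (branch (move 458 (leaf 457 1)) (move 393 (branch (move 522 (leaf 393 4)) (move 362 (branch (move 394 (leaf 361 6)) (move 361 (branch (move 330 (leaf 329 6)) (move 360 (branch (move 392 (leaf 360 7)) (move 328 (leaf 328 7)))))))))))) (branch (move 458 (branch (move 488 (leaf 456 1)) (move 490 (leaf 457 1)))) (branch (move 488 (branch (move 458 (leaf 456 1)) (move 520 (branch (move 393 (leaf 392 5)) (move 552 (branch (move 584 (leaf 456 6)) (move 456 (leaf 424 6)))))))) (move 393 (branch (move 360 (branch (move 392 (leaf 360 7)) (move 361 (branch (move 328 (leaf 328 7)) (move 362 (branch (move 394 (leaf 361 6)) (move 330 (leaf 329 6)))))))) (move 522 (branch (move 490 (leaf 393 4)) (move 521 (branch (move 554 (leaf 425 4)) (move 520 (branch (move 552 (leaf 424 5)) (move 488 (leaf 392 5)))))))))))))) (branch (ref 0) (branch (move 393 (branch (move 458 (branch (move 424 (leaf 424 3)) (move 490 (branch (move 489 (leaf 457 1))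 (move 361 (leaf 361 4)))))) (branch (ref 1) (branch (move 361 (branch (ref 2) (branch (move 360 (branch (move 328 (leaf 328 7)) (move 489 (branch (move 392 (leaf 360 7)) (move 490 (branch (move 458 (leaf 457 1)) (move 522 (leaf 393 4)))))))) (move 362 (branch (move 330 (leaf 329 6)) (move 489 (branch (move 394 (leaf 361 6)) (move 490 (branch (move 458 (leaf 457 1)) (move 522 (leaf 393 4))))))))))) (branch (move 458 (branch (move 424 (leaf 424 3)) (move 361 (branch (move 490 (leaf 361 4)) (move 493 (branch (move 492 (leaf 457 0)) (move 362 (branch (move 330 (leaf 329 6)) (move 360 (branch (move 328 (leaf 328 7)) (move 396 (branch (move 364 (leaf 364 4)) (move 395 (branch (move 394 (leaf 360 3)) (move 363 (leaf 360 0)))))))))))))))) (move 396 (branch (move 364 (branch (move 493 (leaf 364 4)) (move 331 (branch (move 363 (leaf 331 7)) (move 332 (branch (move 299 (leaf 299 7)) (move 333 (branch (move 365 (leaf 332 6)) (move 301 (leaf 300 6)))))))))) (move 424 (branch (move 458 (leaf 424 3)) (move 394 (branch (move 395 (leaf 392 1)) (move 489 (branch (move 362 (leaf 361 6)) (move 392 (branch (move 521 (leaf 392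 7)) (move 360 (leaf 360 7))))))))))))))))) (branch (ref 3) (move 396 (branch (move 493 (branch (move 492 (leaf 396 4)) (move 364 (leaf 364 4)))) (branch (move 364 (branch (move 493 (leaf 364 4)) (move 331 (branch (move 363 (leaf 331 7)) (move 332 (branch (move 299 (leaf 299 7)) (move 333 (branch (move 365 (leaf 332 6)) (move 301 (leaf 300 6)))))))))) (branch (move 458 (branch (move 424 (leaf 424 3)) (move 489 (branch (move 488 (leaf 456 1)) (ref 4))))) (move 393 (branch (move 424 (branch (move 458 (leaf 424 3)) (move 394 (branch (move 395 (leaf 392 1)) (move 489 (branch (move 362 (leaf 361 6)) (move 392 (branch (move 521 (leaf 392 7)) (move 360 (leaf 360 7)))))))))) (branch (ref 5) (move 492 (branch (move 493 (leaf 396 4)) (move 458 (branch (move 424 (leaf 424 3)) (move 488 (branch (move 489 (leaf 456 1)) (move 456 (branch (move 487 (leaf 455 1)) (move 361 (leaf 360 5)))))))))))))))))))))))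
theorem a6p1261 : a6e1261.Valid :=
  pos_of_chk [a6e1257, a6e1256, a6e1255, a6e1259, a6e1260, a6e1258] (forall_cons a6p1257 (forall_cons a6p1256 (forall_cons a6p1255 (forall_cons a6p1259 (forall_cons a6p1260 (forall_cons a6p1258 forall_nil)))))) a6c1261 a6e1261 (by decide +kernel)

def a6e1262 : Pos := ⟨109836762562089755450130372737497279282756274627069923100840988819641191915401894473207218980130600835392422291056201805999078212267246030596687394562904162304, 63316582880309045797229458586195626129520368289824081499765484995609469912142281896328678037913576208666858287544803578368360595231041241026816991700635087806531170055204372480, 14⟩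
def a6c1262 : Cert := (move 425 (branch (move 458 (branch (move 426 (leaf 425 3)) (move 457 (branch (move 424 (leaf 424 3)) (move 489 (branch (move 488 (leaf 456 1)) (move 490 (leaf 457 1)))))))) (branch (move 396 (branch (move 493 (branch (move 492 (leaf 396 4)) (move 364 (leaf 364 4)))) (branch (move 364 (branch (move 493 (leaf 364 4)) (move 331 (branch (move 363 (leaf 331 7)) (move 332 (branch (move 299 (leaf 299 7)) (move 333 (branch (move 365 (leaf 332 6)) (move 301 (leaf 300 6)))))))))) (branch (move 492 (branch (move 493 (leaf 396 4)) (move 395 (branch (move 363 (leaf 363 7)) (move 397 (branch (move 365 (leaf 364 6)) (move 394 (branch (move 426 (leaf 393 1)) (move 393 (branch (move 424 (leaf 392 1)) (move 361 (branch (move 360 (leaf 360 3)) (move 362 (leaf 361 3)))))))))))))) (ref 0))))) (branch (move 396 (branch (move 493 (branch (move 492 (leaf 396 4)) (move 364 (leaf 364 4)))) (branch (move 492 (branch (move 493 (leaf 396 4)) (move 397 (branch (move 365 (leaf 364 6)) (move 395 (branch (move 363 (leaf 363 7)) (move 426 (branch (move 458 (leaf 425 3)) (move 394 (leaf 393 1)))))))))) (branch (move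 364 (branch (move 493 (leaf 364 4)) (move 331 (branch (move 363 (leaf 331 7)) (move 332 (branch (move 299 (leaf 299 7)) (move 333 (branch (move 365 (leaf 332 6)) (move 301 (leaf 300 6)))))))))) (move 363 (branch (move 395 (branch (move 492 (leaf 363 7)) (move 331 (branch (move 364 (leaf 331 7)) (move 299 (leaf 299 4)))))) (branch (move 364 (branch (move 331 (leaf 331 7)) (move 365 (branch (move 333 (leaf 332 6)) (move 397 (branch (move 492 (leaf 364 6)) (move 398 (branch (move 399 (leaf 363 3)) (move 362 (leaf 362 0)))))))))) (branch (ref 1) (move 395 (branch (move 492 (leaf 363 7)) (move 426 (branch (move 458 (leaf 425 3)) (move 397 (branch (move 394 (leaf 393 1)) (move 398 (branch (move 362 (leaf 362 3)) (move 431 (branch (move 430 (leaf 395 0)) (move 399 (branch (move 432 (leaf 396 0)) (move 367 (branch (move 366 (leaf 363 2)) (move 368 (leaf 364 2)))))))))))))))))))))))) (ref 2)))))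
theorem a6p1262 : a6e1262.Valid :=
  pos_of_chk [a6e1253, a6e1254, a6e1261] (forall_cons a6p1253 (forall_cons a6p1254 (forall_cons a6p1261 forall_nil))) a6c1262 a6e1262 (by decide +kernel)

def a6e1263 : Pos := ⟨137295953202612194310057975933129684728303812112748541192383071730524255380148564537904837647622763728350201130862131636621531269741764803106632614770120851456, 63316582998245372451596727056516445863727787091857423309905754665591282485047477051072479396541821473715864461968809344514762634168308726749542577905135799368353703644595486720, 15⟩
def a6c1263 : Cert := (move 428 (branch (move 396 (branch (move 493 (branch (move 492 (leaf 396 4)) (move 364 (leaf 364 4)))) (branch (move 364 (branch (move 493 (leaf 364 4)) (move 331 (branch (move 363 (leaf 331 7)) (move 332 (branch (move 299 (leaf 299 7)) (move 333 (branch (move 365 (leaf 332 6)) (move 301 (leaf 300 6)))))))))) (branch (move 364 (branch (move 332 (branch (move 427 (leaf 331 5)) (move 331 (branch (move 363 (leaf 331 7)) (move 299 (leaf 299 7)))))) (branch (move 332 (branch (move 427 (leaf 331 5)) (move 333 (branch (move 365 (leaf 332 6)) (move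 301 (leaf 300 6)))))) (move 365 (branch (move 333 (leaf 332 6)) (move 397 (branch (move 492 (leaf 364 6)) (move 363 (branch (move 331 (leaf 331 7)) (move 398 (branch (move 399 (leaf 363 3)) (move 362 (leaf 362 0))))))))))))) (move 492 (branch (move 493 (leaf 396 4)) (ref 0))))))) (branch (move 458 (branch (move 425 (branch (move 426 (leaf 425 3)) (move 457 (branch (move 424 (leaf 424 3)) (move 489 (branch (move 488 (leaf 456 1)) (move 490 (leaf 457 1)))))))) (branch (move 489 (branch (move 490 (leaf 457 1)) (move 457 (branch (move 488 (leaf 456 1)) (move 456 (branch (move 427 (leaf 424 2)) (move 424 (branch (move 423 (leaf 423 3)) (move 425 (leaf 424 3)))))))))) (branch (move 457 (branch (move 425 (branch (move 424 (leaf 424 3)) (move 426 (leaf 425 3)))) (branch (move 427 (branch (move 456 (leaf 424 2)) (move 462 (branch (move 426 (leaf 426 3)) (move 463 (leaf 427 3)))))) (move 456 (branch (move 427 (leaf 424 2)) (move 424 (branch (move 423 (leaf 423 3)) (move 425 (leaf 424 3))))))))) (branch (move 489 (branch (move 490 (leaf 457 1)) (move 457 (branch (move 488 (leaf 456 1)) (move 427 (branch (move 456 (leaf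 424 2)) (move 462 (branch (move 426 (leaf 426 3)) (move 463 (leaf 427 3)))))))))) (move 426 (branch (move 425 (leaf 425 3)) (move 490 (branch (move 489 (leaf 457 1)) (move 522 (branch (move 555 (leaf 426 4)) (move 427 (branch (move 462 (leaf 426 3)) (move 554 (leaf 426 6))))))))))))))) (ref 1))))
theorem a6p1263 : a6e1263.Valid :=
  pos_of_chk [a6e1252, a6e1262] (forall_cons a6p1252 (forall_cons a6p1262 forall_nil)) a6c1263 a6e1263 (by decide +kernel)

def a6e1264 : Pos := ⟨51146728270705702332089802385372841460879825958972576095720491861404971295906086151282031779976262373042636567084969159871780656416334191808483426304, 17581687836496092528958896702630347698092169914895332195194470466421801484439648328310228567087910224255465362083483792076796618947792397168925474816, 10⟩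
def a6c1264 : Cert := (move 366 (branch (move 367 (branch (move 399 (leaf 366 6)) (move 335 (leaf 334 6)))) (branch (move 335 (branch (move 367 (leaf 334 6)) (move 334 (branch (move 303 (leaf 302 6)) (move 427 (branch (move 426 (leaf 426 3)) (move 363 (branch (move 364 (leaf 331 2)) (move 395 (branch (move 492 (leaf 363 4)) (move 331 (branch (move 428 (leaf 331 4)) (move 330 (branch (move 362 (leaf 330 7)) (move 298 (leaf 298 7)))))))))))))))) (branch (move 399 (branch (move 367 (leaf 366 6)) (move 426 (branch (move 427 (leaf 426 3)) (move 458 (branch (move 425 (leaf 425 3)) (move 490 (branch (move 489 (leaf 457 1)) (move 363 (branch (move 364 (leaf 363 0)) (move 394 (branch (move 395 (leaf 362 6)) (move 362 (branch (move 331 (leaf 330 6)) (move 361 (branch (move 393 (leaf 361 7)) (move 329 (leaf 329 7)))))))))))))))))) (move 363 (branch (move 364 (branch (move 399 (leaf 363 0)) (move 395 (branch (move 394 (leaf 362 1)) (move 427 (branch (move 332 (leaf 331 6)) (move 492 (leaf 363 4)))))))) (branch (move 427 (branch (move 426 (leaf 426 3)) (move 395 (branch (move 492 (leaf 363 4)) (move 331 (branch (move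 428 (leaf 331 4)) (move 330 (branch (move 362 (leaf 330 7)) (move 298 (leaf 298 7)))))))))) (branch (move 364 (branch (move 399 (leaf 363 0)) (move 394 (branch (move 395 (leaf 362 1)) (move 362 (branch (move 393 (leaf 361 1)) (move 330 (branch (move 329 (leaf 329 3)) (move 331 (leaf 330 3)))))))))) (move 364 (branch (move 399 (leaf 363 0)) (move 334 (branch (move 335 (leaf 331 2)) (move 426 (branch (move 427 (leaf 426 3)) (move 330 (branch (move 331 (leaf 330 3)) (move 362 (branch (move 329 (leaf 329 3)) (move 394 (branch (move 393 (leaf 361 1)) (move 425 (branch (move 458 (leaf 425 3)) (move 457 (leaf 329 5))))))))))))))))))))))))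
theorem a6p1264 : a6e1264.Valid :=
  pos_of_chk [] forall_nil a6c1264 a6e1264 (by decide +kernel)

def a6e1265 : Pos := ⟨51146728270705702332089802384727278991358098811558596302719738892822544847698780273074366940841100467538426268427557821551746198557358398815296552960, 17581687836496092528958896711194137333442558506437006150697589235906716186428168779841284514177724656066261179573638926594885696195277452769211973632, 11⟩
def a6c1265 : Cert := (move 366 (branch (move 398 (branch (move 333 (leaf 333 7)) (move 367 (branch (move 399 (leaf 366 6)) (move 335 (leaf 334 6)))))) (branch (move 427 (branch (move 426 (leaf 426 3)) (move 395 (branch (move 363 (branch (move 492 (leaf 363 4)) (move 331 (branch (move 428 (leaf 331 4)) (move 330 (branch (move 362 (leaf 330 7)) (move 298 (leaf 298 7)))))))) (move 367 (branch (move 335 (branch (move 398 (leaf 334 6)) (move 336 (branch (move 364 (leaf 332 2)) (move 337 (branch (move 368 (leaf 333 2)) (move 334 (leaf 333 1)))))))) (branch (move 364 (branch (move 396 (leaf 363 1)) (move 336 (branch (move 335 (leaf 332 2)) (move 368 (branch (move 337 (leaf 333 2)) (move 400 (branch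 (move 399 (leaf 364 0)) (move 401 (leaf 365 0)))))))))) (branch (move 398 (branch (move 399 (leaf 366 6)) (move 335 (leaf 334 6)))) (move 364 (branch (move 396 (leaf 363 1)) (move 399 (branch (move 400 (leaf 364 0)) (move 398 (leaf 366 6)))))))))))))) (branch (move 427 (branch (move 426 (leaf 426 3)) (move 363 (branch (move 395 (branch (move 492 (leaf 363 4)) (move 331 (branch (move 428 (leaf 331 4)) (move 330 (branch (move 362 (leaf 330 7)) (move 298 (leaf 298 7)))))))) (branch (move 395 (branch (move 492 (leaf 363 4)) (move 364 (branch (move 332 (leaf 331 6)) (move 394 (leaf 362 1)))))) (move 364 (branch (move 331 (branch (move 330 (leaf 330 3)) (move 396 (branch (move 428 (leaf 331 7)) (move 367 (branch (move 332 (leaf 331 3)) (move 400 (branch (move 399 (leaf 364 0)) (move 368 (branch (move 401 (leaf 365 0)) (move 336 (branch (move 335 (leaf 332 2)) (move 337 (leaf 333 2)))))))))))))) (branch (move 335 (branch (move 334 (leaf 331 2)) (move 367 (branch (move 336 (leaf 332 2)) (move 332 (branch (move 331 (leaf 331 3)) (move 368 (branch (move 333 (leaf 332 3)) (move 400 (branch (move 399 (leaf 364 0)) (move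 401 (leaf 365 0)))))))))))) (branch (move 330 (branch (move 331 (leaf 330 3)) (move 362 (branch (move 329 (leaf 329 3)) (move 333 (branch (move 334 (leaf 330 2)) (move 396 (branch (move 428 (leaf 332 6)) (move 361 (branch (move 332 (leaf 329 2)) (move 393 (branch (move 392 (leaf 360 1)) (move 394 (leaf 361 1)))))))))))))) (move 334 (branch (move 335 (leaf 331 2)) (move 362 (branch (move 333 (leaf 330 2)) (move 393 (branch (move 394 (leaf 361 1)) (move 361 (branch (move 392 (leaf 360 1)) (move 329 (branch (move 328 (leaf 328 3)) (move 330 (leaf 329 3))))))))))))))))))))) (branch (move 398 (branch (move 333 (leaf 333 7)) (move 399 (branch (move 367 (leaf 366 6)) (move 426 (branch (move 427 (leaf 426 3)) (move 458 (branch (move 425 (leaf 425 3)) (move 490 (branch (move 489 (leaf 457 1)) (move 363 (branch (move 364 (leaf 363 0)) (move 394 (branch (move 395 (leaf 362 6)) (move 362 (branch (move 331 (leaf 330 6)) (move 361 (branch (move 393 (leaf 361 7)) (move 329 (leaf 329 7)))))))))))))))))))) (branch (move 398 (branch (move 333 (leaf 333 7)) (move 335 (branch (move 367 (leaf 334 6)) (move 334 (branch (move 303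 (leaf 302 6)) (move 427 (branch (move 426 (leaf 426 3)) (move 363 (branch (move 364 (leaf 331 2)) (move 395 (branch (move 492 (leaf 363 4)) (move 331 (branch (move 428 (leaf 331 4)) (move 330 (branch (move 362 (leaf 330 7)) (move 298 (leaf 298 7)))))))))))))))))) (move 363 (branch (move 427 (branch (move 426 (leaf 426 3)) (move 395 (branch (move 492 (leaf 363 4)) (move 331 (branch (move 428 (leaf 331 4)) (move 330 (branch (move 362 (leaf 330 7)) (move 298 (leaf 298 7)))))))))) (branch (move 398 (branch (move 333 (leaf 333 7)) (move 364 (branch (move 399 (leaf 363 0)) (move 334 (branch (move 335 (leaf 331 2)) (move 394 (branch (move 395 (leaf 362 1)) (move 362 (branch (move 393 (leaf 361 1)) (move 330 (branch (move 329 (leaf 329 3)) (move 331 (leaf 330 3)))))))))))))) (branch (move 398 (branch (move 333 (leaf 333 7)) (move 364 (branch (move 399 (leaf 363 0)) (move 334 (branch (move 335 (leaf 331 2)) (move 426 (branch (move 427 (leaf 426 3)) (move 330 (branch (move 331 (leaf 330 3)) (move 362 (branch (move 329 (leaf 329 3)) (move 394 (branch (move 393 (leaf 361 1)) (move 425 (branch (move 458 (leaf 425 3))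 (move 457 (leaf 329 5)))))))))))))))))) (move 427 (branch (move 426 (leaf 426 3)) (move 395 (branch (move 492 (leaf 363 4)) (move 364 (branch (move 394 (leaf 362 1)) (move 332 (leaf 331 6))))))))))))))))))
theorem a6p1265 : a6e1265.Valid :=
  pos_of_chk [] forall_nil a6c1265 a6e1265 (by decide +kernel)

def a6e1266 : Pos := ⟨2977131414714805823690030317240784957347849674137065688333186729376936746851343806703686838129379269943301361333233408725304775640593989632, 693167424084983962304235794269516367227179955475987472707349039241801562528565979386368752425765046137749056262446936600126423040, 6⟩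
def a6c1266 : Cert := (move 362 (branch (move 330 (branch (move 329 (leaf 329 3)) (move 366 (branch (move 331 (leaf 330 3)) (move 334 (branch (move 333 (leaf 330 2)) (move 335 (leaf 331 2)))))))) (branch (move 329 (branch (move 330 (leaf 329 3)) (move 361 (branch (move 328 (leaf 328 3)) (move 393 (branch (move 392 (leaf 360 1)) (move 394 (leaf 361 1)))))))) (move 333 (branch (move 334 (leaf 330 2)) (move 396 (branch (move 428 (leaf 332 6)) (move 361 (branch (move 397 (leaf 361 0)) (move 393 (branch (move 392 (leaf 360 1)) (move 394 (leaf 361 1)))))))))))))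
theorem a6p1266 : a6e1266.Valid :=
  pos_of_chk [] forall_nil a6c1266 a6e1266 (by decide +kernel)

def a6e1267 : Pos := ⟨2977131414714805823690030317240784957347849674137065688333186729376936746851343806703686838129379269943301361333233408725304775640593989632, 693167433132945451294289913751585999454490229010122346688421767340216423310487236405207727772543106983026568960225930194647515136, 7⟩
def a6c1267 : Cert := (move 366 (branch (move 334 (branch (move 335 (leaf 331 2)) (move 362 (branch (move 333 (leaf 330 2)) (move 330 (branch (move 329 (leaf 329 3)) (move 331 (leaf 330 3)))))))) (branch (move 331 (branch (move 330 (leaf 330 3)) (move 396 (branch (move 428 (leaf 331 7)) (move 367 (branch (move 332 (leaf 331 3)) (move 368 (branch (move 397 (leaf 364 1)) (move 400 (branch (move 399 (leaf 364 0)) (move 401 (leaf 365 0)))))))))))) (move 334 (branch (move 335 (leaf 331 2)) (move 333 (branch (move 362 (leaf 330 2)) (move 396 (branch (move 428 (leaf 332 6)) (move 367 (branch (move 395 (leaf 363 1)) (move 368 (branch (move 332 (leaf 332 3)) (move 369 (leaf 333 3)))))))))))))))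
theorem a6p1267 : a6e1267.Valid :=
  pos_of_chk [] forall_nil a6c1267 a6e1267 (by decide +kernel)

def a6e1268 : Pos := ⟨2977131414714805823690030317203208276023468342490833998784557336938925826068810688772370182584863925541467626237814224751148476392083030016, 12786682062838587034284182998241421542787728109173243215227006327712195646130807387145458114890363135174500557712388532717389612380100136556447137792, 11⟩
def a6c1268 : Cert := (move 364 (branch (move 362 (branch (move 329 (branch (move 330 (leaf 329 3)) (move 361 (branch (move 328 (leaf 328 3)) (move 393 (branch (move 392 (leaf 360 1)) (move 394 (leaf 361 1)))))))) (branch (move 333 (branch (move 334 (leaf 330 2)) (move 361 (branch (move 332 (leaf 329 2)) (move 329 (branch (move 328 (leaf 328 3)) (move 330 (leaf 329 3)))))))) (move 394 (branch (move 393 (leaf 361 1)) (move 366 (branch (move 395 (leaf 362 1)) (move 334 (branch (move 333 (leaf 330 2)) (move 335 (leaf 331 2))))))))))) (branch (move 366 (branch (move 394 (branch (move 395 (leaf 362 1)) (move 362 (branch (move 393 (leaf 361 1)) (move 330 (branch (move 329 (leaf 329 3)) (move 331 (leaf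 330 3)))))))) (branch (move 331 (branch (move 330 (leaf 330 3)) (move 367 (branch (move 332 (leaf 331 3)) (move 335 (branch (move 334 (leaf 331 2)) (move 336 (leaf 332 2)))))))) (move 395 (branch (move 394 (leaf 362 1)) (move 367 (branch (move 396 (leaf 363 1)) (move 335 (branch (move 334 (leaf 331 2)) (move 336 (leaf 332 2))))))))))) (branch (ref 0) (branch (ref 1) (branch (move 366 (branch (move 395 (branch (move 394 (leaf 362 1)) (move 396 (branch (move 367 (leaf 363 1)) (move 428 (branch (move 333 (leaf 332 6)) (move 492 (leaf 363 7)))))))) (branch (move 334 (branch (move 335 (leaf 331 2)) (move 362 (branch (move 333 (leaf 330 2)) (move 394 (branch (move 393 (leaf 361 1)) (move 395 (leaf 362 1)))))))) (branch (move 395 (branch (move 394 (leaf 362 1)) (move 367 (branch (move 396 (leaf 363 1)) (move 335 (branch (move 334 (leaf 331 2)) (move 336 (leaf 332 2)))))))) (move 335 (branch (move 334 (leaf 331 2)) (move 367 (branch (move 336 (leaf 332 2)) (move 332 (branch (move 331 (leaf 331 3)) (move 368 (branch (move 333 (leaf 332 3)) (move 400 (branch (move 399 (leaf 364 0)) (move 401 (leaf 365 0))))))))))))))))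 (branch (move 366 (branch (move 395 (branch (move 394 (leaf 362 1)) (move 396 (branch (move 367 (leaf 363 1)) (move 428 (branch (move 333 (leaf 332 6)) (move 492 (leaf 363 7)))))))) (branch (move 394 (branch (move 395 (leaf 362 1)) (move 362 (branch (move 393 (leaf 361 1)) (move 330 (branch (move 329 (leaf 329 3)) (move 331 (leaf 330 3)))))))) (move 331 (branch (move 330 (leaf 330 3)) (move 396 (branch (move 428 (leaf 331 7)) (move 367 (branch (move 332 (leaf 331 3)) (move 368 (branch (move 397 (leaf 364 1)) (move 400 (branch (move 399 (leaf 364 0)) (move 401 (leaf 365 0))))))))))))))) (branch (move 366 (branch (move 395 (branch (move 394 (leaf 362 1)) (move 396 (branch (move 367 (leaf 363 1)) (move 428 (branch (move 333 (leaf 332 6)) (move 492 (leaf 363 7)))))))) (branch (move 331 (branch (move 330 (leaf 330 3)) (move 367 (branch (move 332 (leaf 331 3)) (move 335 (branch (move 334 (leaf 331 2)) (move 336 (leaf 332 2)))))))) (move 331 (branch (move 330 (leaf 330 3)) (move 396 (branch (move 428 (leaf 331 7)) (move 395 (branch (move 394 (leaf 362 1)) (move 299 (branch (move 267 (leaf 267 4)) (move 300 (branch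 (move 268 (leaf 267 6)) (move 334 (branch (move 335 (leaf 331 2)) (move 298 (branch (move 266 (leaf 266 7)) (move 333 (branch (move 332 (leaf 298 3)) (move 301 (leaf 298 0))))))))))))))))))))) (move 362 (branch (move 333 (branch (move 334 (leaf 330 2)) (move 361 (branch (move 332 (leaf 329 2)) (move 393 (branch (move 392 (leaf 360 1)) (move 394 (leaf 361 1)))))))) (branch (move 329 (branch (move 330 (leaf 329 3)) (move 361 (branch (move 328 (leaf 328 3)) (move 393 (branch (move 392 (leaf 360 1)) (move 394 (leaf 361 1)))))))) (branch (move 333 (branch (move 334 (leaf 330 2)) (move 361 (branch (move 332 (leaf 329 2)) (move 329 (branch (move 328 (leaf 328 3)) (move 330 (leaf 329 3)))))))) (move 394 (branch (move 393 (leaf 361 1)) (move 299 (branch (move 330 (branch (move 329 (leaf 329 3)) (move 298 (branch (move 267 (leaf 266 6)) (move 333 (branch (move 334 (leaf 330 2)) (move 266 (branch (move 395 (leaf 266 4)) (move 265 (branch (move 297 (leaf 265 7)) (move 233 (leaf 233 7)))))))))))) (branch (move 330 (branch (move 329 (leaf 329 3)) (move 331 (branch (move 426 (leaf 298 6)) (move 333 (branch (move 334 (leaf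 330 2)) (move 396 (branch (move 428 (leaf 332 6)) (move 301 (branch (move 269 (leaf 268 5)) (move 302 (branch (move 332 (leaf 298 2)) (move 300 (leaf 298 1)))))))))))))) (move 331 (branch (move 267 (leaf 266 5)) (move 426 (branch (move 458 (leaf 330 6)) (move 395 (leaf 298 5)))))))))))))))))))))))
theorem a6p1268 : a6e1268.Valid :=
  pos_of_chk [a6e1266, a6e1267] (forall_cons a6p1266 (forall_cons a6p1267 forall_nil)) a6c1268 a6e1268 (by decide +kernel)

def a6e1269 : Pos := ⟨22328485610361043677675227378394652657992625263606874190944637703705260772408650440443222389015847422830292133935335354066495560528064151552, 18380855465376986540192585601698406674159312673226644138565415804921954825706771112600770006439498833287909350541420201299063185096729070636250431488, 12⟩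
def a6c1269 : Cert := (move 363 (branch (move 427 (branch (move 426 (leaf 426 3)) (move 395 (branch (move 492 (leaf 363 4)) (move 331 (branch (move 428 (leaf 331 4)) (move 332 (branch (move 364 (leaf 331 6)) (move 300 (leaf 299 6)))))))))) (branch (move 427 (branch (move 426 (leaf 426 3)) (move 395 (branch (move 492 (leaf 363 4)) (move 331 (branch (move 428 (leaf 331 4)) (move 330 (branch (move 362 (leaf 330 7)) (move 298 (leaf 298 7)))))))))) (branch (move 427 (branch (move 426 (leaf 426 3)) (move 395 (branch (move 492 (leaf 363 4)) (move 364 (branch (move 332 (leaf 331 6)) (move 362 (branch (move 330 (leaf 330 7)) (move 394 (branch (move 393 (leaf 361 1)) (move 366 (leaf 362 1)))))))))))) (branch (move 364 (branch (move 395 (branch (move 427 (branch (move 332 (leaf 331 6)) (move 492 (leaf 363 4)))) (move 394 (branch (move 366 (leaf 362 1)) (move 393 (branch (move 392 (leaf 360 2)) (move 362 (leaf 361 1)))))))) (branch (move 366 (branch (move 395 (branch (move 394 (leaf 362 1)) (move 427 (branch (move 332 (leaf 331 6)) (move 492 (leaf 363 4)))))) (branch (move 395 (branch (move 394 (leaf 362 1)) (move 396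 (branch (move 367 (leaf 363 1)) (move 428 (branch (move 333 (leaf 332 6)) (move 492 (leaf 363 7)))))))) (move 331 (branch (move 330 (leaf 330 3)) (move 367 (branch (move 332 (leaf 331 3)) (move 335 (branch (move 334 (leaf 331 2)) (move 336 (leaf 332 2))))))))))) (branch (ref 0) (branch (ref 1) (move 362 (branch (move 333 (branch (move 334 (leaf 330 2)) (move 361 (branch (move 332 (leaf 329 2)) (move 393 (branch (move 392 (leaf 360 1)) (move 394 (leaf 361 1)))))))) (branch (move 329 (branch (move 330 (leaf 329 3)) (move 361 (branch (move 328 (leaf 328 3)) (move 393 (branch (move 392 (leaf 360 1)) (move 394 (leaf 361 1)))))))) (branch (move 333 (branch (move 334 (leaf 330 2)) (move 361 (branch (move 332 (leaf 329 2)) (move 329 (branch (move 328 (leaf 328 3)) (move 330 (leaf 329 3)))))))) (move 330 (branch (move 329 (leaf 329 3)) (move 395 (branch (move 427 (leaf 330 7)) (move 394 (branch (move 393 (leaf 361 1)) (move 298 (branch (move 266 (leaf 266 4)) (move 299 (branch (move 267 (leaf 266 6)) (move 333 (branch (move 334 (leaf 330 2)) (move 297 (branch (move 265 (leaf 265 7)) (move 332 (branch (move 331 (leaf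 297 3)) (move 300 (leaf 297 0))))))))))))))))))))))))))) (branch (move 362 (branch (move 364 (branch (move 333 (branch (move 334 (leaf 330 2)) (move 396 (branch (move 428 (leaf 332 6)) (move 361 (branch (move 332 (leaf 329 2)) (move 397 (leaf 361 0)))))))) (branch (move 330 (branch (move 329 (leaf 329 3)) (move 366 (branch (move 331 (leaf 330 3)) (move 334 (branch (move 333 (leaf 330 2)) (move 335 (leaf 331 2)))))))) (move 330 (branch (move 329 (leaf 329 3)) (move 331 (branch (move 366 (leaf 330 3)) (move 396 (branch (move 428 (leaf 331 7)) (move 361 (branch (move 397 (leaf 361 0)) (move 360 (branch (move 359 (leaf 327 2)) (move 332 (leaf 328 2))))))))))))))) (move 426 (branch (move 427 (leaf 426 3)) (move 458 (branch (move 425 (leaf 425 3)) (move 489 (branch (move 490 (leaf 457 1)) (move 457 (branch (move 488 (leaf 456 1)) (move 394 (leaf 361 5)))))))))))) (ref 2)))))))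
theorem a6p1269 : a6e1269.Valid :=
  pos_of_chk [a6e1266, a6e1267, a6e1268] (forall_cons a6p1266 (forall_cons a6p1267 (forall_cons a6p1268 forall_nil))) a6c1269 a6e1269 (by decide +kernel)

def a6e1270 : Pos := ⟨27459190640522438882256088809459286240873783438471135117064800140493020620813819702489957074104023732295399946532714572279252193840754772329882647024476618752, 2719426524108279704376686837742638045454724567636768665940624649965205438948619517804867124242891332507088257730689696186390242897396637354334816847865930157682449771861709970334011097088, 13⟩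
def a6c1270 : Cert := (move 365 (branch (move 494 (branch (move 495 (leaf 459 0)) (move 398 (branch (move 397 (leaf 365 7)) (move 366 (branch (move 333 (leaf 333 7)) (move 367 (branch (move 399 (leaf 366 6)) (move 335 (leaf 334 6)))))))))) (branch (move 494 (branch (move 495 (leaf 459 0)) (move 398 (branch (move 397 (leaf 365 7)) (ref 0))))) (branch (move 494 (branch (move 495 (leaf 459 0)) (move 397 (branch (move 398 (leaf 365 7)) (move 458 (branch (move 426 (branch (move 425 (leaf 425 3)) (move 427 (leaf 426 3)))) (branch (move 425 (branch (move 426 (leaf 425 3)) (move 457 (branch (move 424 (leaf 424 3)) (move 489 (branch (move 488 (leaf 456 1)) (move 490 (leaf 457 1)))))))) (branch (move 490 (branch (move 489 (leaf 457 1)) (move 522 (branch (move 555 (branch (move 426 (leaf 426 4)) (move 587 (branch (move 619 (leaf 490 7)) (move 554 (leaf 458 4)))))) (branch (move 427 (branch (move 554 (leaf 426 6)) (move 395 (branch (move 426 (leaf 426 3)) (move 363 (leaf 362 5)))))) (branch (move 426 (branch (move 555 (leaf 426 4)) (move 427 (leaf 426 3)))) (move 554 (branch (move 427 (leaf 426 6)) (move 587 (branch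 (move 555 (leaf 458 4)) (move 586 (branch (move 619 (leaf 490 4)) (move 585 (branch (move 617 (leaf 489 5)) (move 553 (leaf 457 5)))))))))))))))) (move 489 (branch (move 490 (leaf 457 1)) (move 457 (branch (move 488 (leaf 456 1)) (move 424 (branch (move 425 (leaf 424 3)) (move 456 (branch (move 423 (leaf 423 3)) (move 428 (branch (move 427 (leaf 424 2)) (move 396 (branch (move 492 (leaf 364 6)) (move 333 (branch (move 364 (leaf 332 6)) (move 301 (leaf 300 5)))))))))))))))))))))))) (branch (move 494 (branch (move 495 (leaf 459 0)) (ref 1))) (ref 2))))))
theorem a6p1270 : a6e1270.Valid :=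
  pos_of_chk [a6e1264, a6e1265, a6e1269] (forall_cons a6p1264 (forall_cons a6p1265 (forall_cons a6p1269 forall_nil))) a6c1270 a6e1270 (by decide +kernel)

def a6e1271 : Pos := ⟨356969478326791705186501670089019461857235711400225047720293387411086382473960574349982847624676831593679604551665943529272551597233431140293243791814997049344, 2719426528223857585847378932325735776815883672841323788859784416603959929285546405420393131647109271000962912173170026537997589140635910451961814475897048584581828729482848382788063723520, 16⟩
def a6c1271 : Cert := (move 460 (branch (ref 0) (branch (move 458 (branch (move 425 (branch (move 426 (leaf 425 3)) (move 457 (branch (move 424 (leaf 424 3)) (move 489 (branch (move 488 (leaf 456 1)) (move 490 (leaf 457 1)))))))) (move 494 (branch (move 493 (leaf 458 0)) (move 462 (branch (move 495 (leaf 459 0)) (move 431 (branch (move 430 (leaf 427 2)) (move 463 (branch (move 432 (leaf 428 2)) (move 558 (leaf 430 6)))))))))))) (branch (ref 1) (branch (move 494 (branch (move 493 (branch (move 458 (leaf 458 0)) (move 495 (branch (move 492 (leaf 459 3)) (move 496 (leaf 460 3)))))) (branch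 (move 462 (branch (move 495 (leaf 459 0)) (move 431 (branch (move 430 (leaf 427 2)) (move 463 (branch (move 432 (leaf 428 2)) (move 558 (leaf 430 6)))))))) (move 493 (branch (move 458 (leaf 458 0)) (move 462 (branch (move 430 (branch (move 431 (leaf 427 2)) (move 398 (leaf 397 5)))) (branch (move 558 (branch (move 590 (leaf 461 7)) (move 463 (branch (move 431 (leaf 430 6)) (move 464 (branch (move 492 (leaf 460 1)) (move 465 (leaf 461 1)))))))) (move 428 (branch (move 396 (branch (move 492 (leaf 396 4)) (move 364 (leaf 364 4)))) (branch (move 463 (branch (move 427 (leaf 427 3)) (move 464 (branch (move 492 (leaf 460 1)) (move 465 (leaf 461 1)))))) (move 364 (branch (move 396 (leaf 364 4)) (move 427 (branch (move 463 (leaf 427 3)) (move 363 (branch (move 395 (branch (move 332 (leaf 331 6)) (move 331 (leaf 331 4)))) (branch (move 395 (branch (move 331 (leaf 331 4)) (move 362 (branch (move 330 (leaf 330 7)) (move 398 (branch (move 430 (leaf 397 5)) (move 365 (branch (move 397 (leaf 362 0)) (move 394 (branch (move 393 (leaf 361 1)) (move 366 (leaf 362 1)))))))))))) (branch (move 398 (branch (move 430 (leaf 397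 5)) (move 395 (branch (move 332 (leaf 331 6)) (move 362 (branch (move 330 (leaf 330 7)) (move 365 (branch (move 397 (leaf 362 0)) (move 394 (branch (move 393 (leaf 361 1)) (move 366 (leaf 362 1)))))))))))) (ref 2)))))))))))))))))))) (branch (ref 3) (move 462 (branch (move 427 (branch (move 426 (leaf 426 3)) (move 463 (branch (move 428 (leaf 427 3)) (move 431 (branch (move 430 (leaf 427 2)) (move 432 (leaf 428 2)))))))) (branch (move 494 (branch (move 495 (leaf 459 0)) (move 431 (branch (move 430 (leaf 427 2)) (move 463 (branch (move 432 (leaf 428 2)) (move 558 (leaf 430 6)))))))) (branch (move 427 (branch (move 426 (leaf 426 3)) (move 463 (branch (move 428 (leaf 427 3)) (move 495 (branch (move 494 (leaf 459 0)) (move 496 (leaf 460 0)))))))) (move 430 (branch (move 431 (leaf 427 2)) (ref 4)))))))))))))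
theorem a6p1271 : a6e1271.Valid :=
  pos_of_chk [a6e1190, a6e1191, a6e1251, a6e1263, a6e1270] (forall_cons a6p1190 (forall_cons a6p1191 (forall_cons a6p1251 (forall_cons a6p1263 (forall_cons a6p1270 forall_nil))))) a6c1271 a6e1271 (by decide +kernel)

def a6e1272 : Pos := ⟨356969478326791705180547407259589850209855650766006514574868357384335872924134606638295050576451875805791447464218792400198785020234898610661728335273385787392, 69073433738398746655039950915704853748078120817715707118110110291447286965194162393217049835829905856281589576384129980076239772203732279112892296964154512285493388328326982814787444932608, 17⟩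
def a6c1272 : Cert := (move 461 (branch (move 493 (branch (move 558 (branch (move 429 (leaf 429 4)) (move 590 (branch (move 622 (leaf 493 7)) (move 494 (leaf 461 7)))))) (branch (move 429 (branch (move 558 (leaf 429 4)) (move 396 (branch (move 428 (leaf 396 7)) (move 397 (branch (move 364 (leaf 364 7)) (move 398 (branch (move 430 (leaf 397 6)) (move 366 (leaf 365 6)))))))))) (move 460 (branch (move 458 (branch (move 494 (leaf 458 0)) (move 457 (branch (move 492 (leaf 457 0)) (move 489 (branch (move 488 (leaf 456 1)) (move 490 (leaf 457 1)))))))) (branch (move 458 (branch (move 494 (leaf 458 0)) (move 426 (branch (move 425 (leaf 425 3)) (move 490 (branch (move 489 (leaf 457 1)) (move 522 (branch (move 555 (leaf 426 4)) (move 427 (branch (move 554 (leaf 426 6)) (move 395 (leaf 394 6)))))))))))) (branch (move 458 (branch (move 457 (branch (move 492 (leaf 457 0)) (move 489 (branch (move 488 (leaf 456 1)) (move 490 (leaf 457 1)))))) (branch (move 457 (branch (move 492 (leaf 457 0)) (move 425 (branch (move 424 (leaf 424 3)) (move 426 (leaf 425 3)))))) (move 426 (branch (move 425 (leaf 425 3)) (move 490 (branch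 (move 489 (leaf 457 1)) (move 522 (branch (move 555 (leaf 426 4)) (move 427 (branch (move 554 (leaf 426 6)) (move 395 (leaf 394 6))))))))))))) (move 462 (branch (move 428 (branch (move 396 (branch (move 492 (leaf 396 4)) (move 364 (leaf 364 4)))) (move 427 (branch (move 463 (leaf 427 3)) (move 426 (leaf 426 3)))))) (move 430 (branch (move 431 (leaf 427 2)) (move 398 (branch (move 494 (leaf 397 5)) (move 366 (leaf 365 5))))))))))))))) (branch (move 460 (branch (ref 0) (branch (ref 1) (branch (ref 2) (ref 3))))) (branch (move 429 (branch (move 493 (branch (move 558 (leaf 429 4)) (move 397 (branch (move 494 (leaf 397 4)) (move 398 (branch (move 430 (leaf 397 6)) (move 366 (leaf 365 6)))))))) (branch (move 493 (branch (move 558 (leaf 429 4)) (move 397 (branch (move 494 (leaf 397 4)) (move 396 (branch (move 428 (leaf 396 7)) (move 364 (leaf 364 7)))))))) (branch (move 493 (branch (move 558 (leaf 429 4)) (move 396 (branch (move 428 (leaf 396 7)) (move 397 (branch (move 364 (leaf 364 7)) (move 398 (branch (move 430 (leaf 397 6)) (move 366 (leaf 365 6)))))))))) (branch (move 493 (branch (move 558 (leaf 429 4)) (ref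 4))) (branch (move 493 (branch (move 397 (branch (move 494 (leaf 397 4)) (move 396 (branch (move 428 (leaf 396 7)) (move 364 (leaf 364 7)))))) (branch (move 397 (branch (move 494 (leaf 397 4)) (move 398 (branch (move 430 (leaf 397 6)) (move 366 (leaf 365 6)))))) (branch (move 396 (branch (move 428 (leaf 396 7)) (move 397 (branch (move 364 (leaf 364 7)) (move 398 (branch (move 430 (leaf 397 6)) (move 366 (leaf 365 6)))))))) (ref 4))))) (ref 5))))))) (branch (move 460 (branch (ref 3) (branch (ref 0) (branch (ref 1) (ref 6))))) (branch (ref 7) (branch (ref 8) (branch (move 460 (branch (ref 1) (branch (move 458 (branch (move 425 (branch (move 426 (leaf 425 3)) (move 457 (branch (move 424 (leaf 424 3)) (move 489 (branch (move 488 (leaf 456 1)) (move 490 (leaf 457 1)))))))) (branch (move 426 (branch (move 425 (leaf 425 3)) (move 462 (branch (move 427 (leaf 426 3)) (move 430 (branch (move 429 (leaf 426 2)) (move 431 (leaf 427 2)))))))) (move 429 (branch (move 430 (leaf 426 2)) (move 493 (branch (move 558 (leaf 429 4)) (move 457 (branch (move 492 (leaf 457 0)) (move 489 (branch (move 488 (leaf 456 1)) (move 490 (leaf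 457 1))))))))))))) (branch (move 462 (branch (move 494 (branch (move 495 (leaf 459 0)) (move 431 (branch (move 430 (leaf 427 2)) (move 463 (branch (move 432 (leaf 428 2)) (move 558 (leaf 430 6)))))))) (branch (move 494 (branch (move 495 (leaf 459 0)) (move 429 (branch (move 558 (leaf 429 7)) (move 397 (branch (move 430 (leaf 397 7)) (move 365 (leaf 365 4)))))))) (branch (move 430 (branch (move 431 (leaf 427 2)) (move 458 (branch (move 429 (leaf 426 2)) (move 426 (branch (move 425 (leaf 425 3)) (move 427 (leaf 426 3)))))))) (ref 9))))) (ref 10))))) (branch (ref 11) (branch (move 460 (branch (ref 1) (branch (ref 12) (branch (ref 6) (move 458 (branch (move 425 (branch (move 426 (leaf 425 3)) (move 457 (branch (move 424 (leaf 424 3)) (move 489 (branch (move 488 (leaf 456 1)) (move 490 (leaf 457 1)))))))) (branch (move 489 (branch (move 490 (leaf 457 1)) (move 457 (branch (move 488 (leaf 456 1)) (move 428 (branch (move 429 (leaf 425 2)) (move 427 (branch (move 456 (leaf 424 2)) (move 462 (branch (move 426 (leaf 426 3)) (move 463 (leaf 427 3)))))))))))) (branch (move 489 (branch (move 490 (leaf 457 1)) (move 457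 (branch (move 488 (leaf 456 1)) (move 424 (branch (move 425 (leaf 424 3)) (move 456 (branch (move 423 (leaf 423 3)) (move 428 (branch (move 427 (leaf 424 2)) (move 429 (leaf 425 2)))))))))))) (branch (move 425 (branch (move 426 (leaf 425 3)) (move 457 (branch (move 424 (leaf 424 3)) (move 488 (branch (move 489 (leaf 456 1)) (move 456 (branch (move 487 (leaf 455 1)) (move 428 (branch (move 427 (leaf 424 2)) (move 429 (leaf 425 2)))))))))))) (move 426 (branch (move 425 (leaf 425 3)) (move 427 (branch (move 462 (leaf 426 3)) (move 490 (branch (move 522 (branch (move 554 (leaf 426 6)) (move 555 (leaf 426 4)))) (move 394 (branch (move 362 (branch (move 330 (leaf 330 4)) (move 361 (branch (move 393 (leaf 361 7)) (move 329 (leaf 329 7)))))) (branch (move 395 (branch (move 363 (leaf 362 5)) (move 393 (branch (move 361 (leaf 361 7)) (move 392 (branch (move 391 (leaf 391 0)) (move 428 (leaf 392 0)))))))) (move 363 (branch (move 395 (leaf 362 5)) (move 362 (branch (move 331 (leaf 330 6)) (move 330 (leaf 330 4)))))))))))))))))))))))) (branch (ref 13) (branch (move 460 (branch (ref 0) (branch (ref 1) (branch (move 493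 (branch (move 458 (branch (move 494 (leaf 458 0)) (move 457 (branch (move 492 (leaf 457 0)) (move 489 (branch (move 488 (leaf 456 1)) (move 490 (leaf 457 1)))))))) (move 429 (branch (move 558 (leaf 429 4)) (move 396 (branch (move 428 (leaf 396 7)) (move 397 (branch (move 364 (leaf 364 7)) (move 398 (branch (move 430 (leaf 397 6)) (move 366 (leaf 365 6)))))))))))) (move 429 (branch (move 493 (branch (move 558 (leaf 429 4)) (move 428 (branch (move 396 (leaf 396 7)) (move 430 (branch (move 431 (leaf 427 1)) (move 398 (leaf 397 6)))))))) (branch (move 493 (branch (move 558 (leaf 429 4)) (move 397 (branch (move 494 (leaf 397 4)) (move 398 (branch (move 430 (leaf 397 6)) (move 366 (leaf 365 6)))))))) (branch (move 493 (branch (move 558 (leaf 429 4)) (move 397 (branch (move 494 (leaf 397 4)) (move 396 (branch (move 428 (leaf 396 7)) (move 364 (leaf 364 7)))))))) (move 397 (branch (move 365 (branch (move 492 (leaf 364 5)) (move 333 (branch (move 428 (leaf 332 5)) (move 332 (branch (move 364 (leaf 332 7)) (move 300 (leaf 300 7)))))))) (branch (move 365 (branch (move 492 (leaf 364 5)) (move 333 (branch (move 428 (leaf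 332 5)) (move 334 (branch (move 366 (leaf 333 6)) (move 302 (leaf 301 6)))))))) (branch (move 365 (branch (move 492 (leaf 364 5)) (ref 14))) (branch (move 365 (branch (move 333 (branch (move 428 (leaf 332 5)) (move 334 (branch (move 366 (leaf 333 6)) (move 302 (leaf 301 6)))))) (branch (move 333 (branch (move 428 (leaf 332 5)) (move 332 (branch (move 364 (leaf 332 7)) (move 300 (leaf 300 7)))))) (ref 14)))) (ref 15)))))))))))))) (branch (ref 16) (branch (move 429 (branch (move 493 (branch (move 558 (leaf 429 4)) (move 397 (branch (move 494 (leaf 397 4)) (move 398 (branch (move 430 (leaf 397 6)) (move 366 (leaf 365 6)))))))) (branch (move 493 (branch (move 558 (leaf 429 4)) (move 397 (branch (move 494 (leaf 397 4)) (move 396 (branch (move 428 (leaf 396 7)) (move 364 (leaf 364 7)))))))) (branch (move 493 (branch (move 558 (leaf 429 4)) (move 430 (branch (move 398 (leaf 397 6)) (move 428 (branch (move 396 (leaf 396 7)) (move 427 (branch (move 458 (leaf 426 1)) (move 462 (branch (move 426 (leaf 426 0)) (move 463 (leaf 427 0)))))))))))) (branch (move 493 (branch (move 397 (branch (move 494 (leaf 397 4)) (move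 396 (branch (move 428 (leaf 396 7)) (move 364 (leaf 364 7)))))) (branch (move 397 (branch (move 494 (leaf 397 4)) (move 398 (branch (move 430 (leaf 397 6)) (move 366 (leaf 365 6)))))) (move 430 (branch (move 398 (leaf 397 6)) (move 428 (branch (move 396 (leaf 396 7)) (move 427 (branch (move 458 (leaf 426 1)) (move 462 (branch (move 426 (leaf 426 0)) (move 463 (leaf 427 0))))))))))))) (ref 17)))))) (ref 18)))))))))))))))
theorem a6p1272 : a6e1272.Valid :=
  pos_of_chk [a6e1189, a6e1190, a6e1191, a6e1192, a6e1193, a6e1194, a6e1195, a6e1196, a6e1199, a6e1200, a6e1201, a6e1207, a6e1197, a6e1210, a6e1211, a6e1212, a6e1223, a6e1250, a6e1271] (forall_cons a6p1189 (forall_cons a6p1190 (forall_cons a6p1191 (forall_cons a6p1192 (forall_cons a6p1193 (forall_cons a6p1194 (forall_cons a6p1195 (forall_cons a6p1196 (forall_cons a6p1199 (forall_cons a6p1200 (forall_cons a6p1201 (forall_cons a6p1207 (forall_cons a6p1197 (forall_cons a6p1210 (forall_cons a6p1211 (forall_cons a6p1212 (forall_cons a6p1223 (forall_cons a6p1250 (forall_cons a6p1271 forall_nil))))))))))))))))))) a6c1272 a6e1272 (by decide +kernel)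

def a6e1273 : Pos := ⟨356969478326791705179058841552232447298010635607451881288512099877648245536678114710373101314395636858819408192357004617930343375985265478253849471137982971904, 12541141284042682693902459564316672667296059311818150521663823529067996309647876240455501814317120229956486804243742913408907762195369311333376211936105646729082681177541498644077211203830553957482782261248, 18⟩
def a6c1273 : Cert := (move 459 (branch (move 491 (branch (ref 0) (branch (ref 1) (branch (ref 2) (ref 3))))) (branch (ref 4) (branch (move 491 (branch (ref 0) (branch (ref 1) (branch (move 555 (branch (move 554 (branch (move 586 (leaf 458 5)) (move 427 (branch (move 522 (leaf 426 5)) (move 426 (branch (move 458 (leaf 426 7)) (move 394 (leaf 394 7)))))))) (branch (move 426 (branch (move 458 (leaf 426 7)) (move 427 (branch (move 394 (leaf 394 7)) (move 428 (branch (move 460 (leaf 427 6)) (move 396 (leaf 395 6)))))))) (move 586 (branch (move 554 (leaf 458 5)) (move 587 (branch (move 618 (leaf 490 5)) (move 460 (branch (move 492 (leaf 459 6)) (move 428 (leaf 427 6))))))))))) (branch (move 427 (branch (move 522 (branch (move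 554 (leaf 426 5)) (move 395 (branch (move 490 (leaf 394 5)) (move 396 (branch (move 428 (leaf 395 6)) (move 364 (leaf 363 6)))))))) (branch (move 522 (branch (move 554 (leaf 426 5)) (move 395 (branch (move 490 (leaf 394 5)) (move 394 (branch (move 426 (leaf 394 7)) (move 362 (leaf 362 7)))))))) (ref 5)))) (move 555 (branch (move 586 (branch (move 554 (leaf 458 5)) (move 587 (branch (move 618 (leaf 490 5)) (move 588 (branch (move 620 (leaf 491 4)) (move 556 (leaf 459 4)))))))) (ref 6)))))))) (branch (move 491 (branch (ref 0) (branch (move 458 (branch (move 426 (branch (move 555 (leaf 426 7)) (move 394 (branch (move 427 (leaf 394 7)) (move 362 (leaf 362 4)))))) (ref 7))) (branch (ref 8) (branch (move 555 (branch (move 586 (branch (move 554 (leaf 458 5)) (move 587 (branch (move 618 (leaf 490 5)) (move 588 (branch (move 620 (leaf 491 4)) (move 556 (leaf 459 4)))))))) (branch (move 460 (branch (move 428 (leaf 427 6)) (move 587 (branch (move 492 (leaf 459 6)) (move 588 (branch (move 620 (leaf 491 4)) (move 556 (leaf 459 4)))))))) (branch (move 586 (branch (move 554 (leaf 458 5)) (move 587 (branch (move 618 (leaf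 490 5)) (move 460 (branch (move 492 (leaf 459 6)) (move 428 (leaf 427 6)))))))) (ref 9))))) (ref 10)))))) (branch (move 491 (branch (ref 2) (branch (move 555 (branch (move 586 (branch (move 554 (leaf 458 5)) (move 587 (branch (move 618 (leaf 490 5)) (move 588 (branch (move 620 (leaf 491 4)) (move 556 (leaf 459 4)))))))) (move 458 (branch (move 426 (leaf 426 7)) (ref 7))))) (branch (ref 11) (branch (ref 12) (ref 13)))))) (branch (move 491 (branch (move 427 (branch (move 522 (branch (move 554 (leaf 426 5)) (move 395 (branch (move 490 (leaf 394 5)) (move 396 (branch (move 428 (leaf 395 6)) (move 364 (leaf 363 6)))))))) (branch (move 522 (branch (move 554 (leaf 426 5)) (move 395 (branch (move 490 (leaf 394 5)) (move 394 (branch (move 426 (leaf 394 7)) (move 362 (leaf 362 7)))))))) (move 428 (branch (move 396 (leaf 395 6)) (move 429 (branch (move 426 (branch (move 394 (leaf 394 7)) (move 462 (branch (move 461 (leaf 426 0)) (move 430 (branch (move 463 (leaf 427 0)) (move 397 (branch (move 398 (leaf 394 2)) (move 494 (leaf 397 7)))))))))) (branch (move 426 (branch (move 394 (leaf 394 7)) (move 457 (branch (move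 458 (leaf 425 1)) (move 425 (branch (move 456 (leaf 424 1)) (move 461 (branch (move 460 (leaf 425 0)) (move 462 (leaf 426 0)))))))))) (move 430 (branch (move 458 (leaf 426 1)) (move 431 (branch (move 460 (leaf 427 1)) (move 399 (branch (move 398 (leaf 395 2)) (move 400 (leaf 396 2)))))))))))))))) (branch (ref 3) (branch (ref 10) (branch (ref 14) (branch (ref 13) (branch (ref 15) (branch (ref 16) (branch (ref 17) (branch (ref 18) (ref 19))))))))))) (branch (move 491 (branch (ref 0) (branch (move 555 (branch (move 586 (branch (move 554 (leaf 458 5)) (move 587 (branch (move 618 (leaf 490 5)) (move 588 (branch (move 620 (leaf 491 4)) (move 556 (leaf 459 4)))))))) (move 458 (branch (move 426 (leaf 426 7)) (ref 7))))) (branch (ref 20) (branch (ref 17) (branch (ref 21) (move 458 (branch (move 426 (branch (move 555 (leaf 426 7)) (move 394 (branch (move 427 (leaf 394 7)) (move 362 (leaf 362 4)))))) (ref 7))))))))) (branch (move 491 (branch (ref 2) (branch (ref 11) (branch (ref 12) (branch (ref 15) (ref 22)))))) (branch (move 491 (branch (ref 8) (branch (ref 3) (branch (ref 23) (branch (ref 24) (move 555 (branch (move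 586 (branch (move 554 (leaf 458 5)) (move 587 (branch (move 618 (leaf 490 5)) (move 588 (branch (move 620 (leaf 491 4)) (move 556 (leaf 459 4)))))))) (ref 6)))))))) (branch (move 491 (branch (ref 25) (branch (move 458 (branch (move 426 (branch (move 555 (leaf 426 7)) (move 394 (branch (move 427 (leaf 394 7)) (move 362 (leaf 362 4)))))) (ref 7))) (branch (ref 3) (branch (ref 26) (branch (ref 27) (ref 11))))))) (branch (move 491 (branch (ref 2) (branch (move 555 (branch (move 426 (branch (move 458 (leaf 426 7)) (move 427 (branch (move 394 (leaf 394 7)) (move 428 (branch (move 460 (leaf 427 6)) (move 396 (leaf 395 6)))))))) (move 586 (branch (move 554 (leaf 458 5)) (move 587 (branch (move 618 (leaf 490 5)) (move 588 (branch (move 620 (leaf 491 4)) (move 556 (leaf 459 4)))))))))) (branch (ref 8) (branch (ref 20) (branch (ref 26) (branch (ref 19) (ref 28)))))))) (branch (move 491 (branch (move 555 (branch (move 426 (branch (move 458 (leaf 426 7)) (move 427 (branch (move 394 (leaf 394 7)) (move 428 (branch (move 460 (leaf 427 6)) (move 396 (leaf 395 6)))))))) (move 586 (branch (move 554 (leaf 458 5)) (move 587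 (branch (move 618 (leaf 490 5)) (move 588 (branch (move 620 (leaf 491 4)) (move 556 (leaf 459 4)))))))))) (branch (move 555 (branch (move 586 (branch (move 554 (leaf 458 5)) (move 587 (branch (move 618 (leaf 490 5)) (move 588 (branch (move 620 (leaf 491 4)) (move 556 (leaf 459 4)))))))) (move 458 (branch (move 426 (leaf 426 7)) (ref 7))))) (branch (ref 18) (branch (ref 22) (branch (ref 29) (ref 30))))))) (branch (move 491 (branch (ref 25) (branch (move 427 (branch (move 522 (branch (move 554 (leaf 426 5)) (move 395 (branch (move 490 (leaf 394 5)) (move 396 (branch (move 428 (leaf 395 6)) (move 364 (leaf 363 6)))))))) (branch (move 522 (branch (move 554 (leaf 426 5)) (move 395 (branch (move 490 (leaf 394 5)) (move 394 (branch (move 426 (leaf 394 7)) (move 362 (leaf 362 7)))))))) (ref 5)))) (branch (ref 24) (branch (ref 12) (branch (ref 31) (branch (ref 28) (ref 30)))))))) (branch (move 491 (branch (ref 2) (branch (move 427 (branch (move 522 (branch (move 554 (leaf 426 5)) (move 395 (branch (move 490 (leaf 394 5)) (move 396 (branch (move 428 (leaf 395 6)) (move 364 (leaf 363 6)))))))) (branch (move 522 (branch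 (move 554 (leaf 426 5)) (move 395 (branch (move 490 (leaf 394 5)) (move 394 (branch (move 426 (leaf 394 7)) (move 362 (leaf 362 7)))))))) (move 428 (branch (move 396 (leaf 395 6)) (move 426 (branch (move 394 (leaf 394 7)) (move 425 (branch (move 456 (branch (move 457 (leaf 424 1)) (move 424 (branch (move 455 (leaf 423 1)) (move 392 (branch (move 391 (leaf 391 3)) (move 393 (leaf 392 3)))))))) (move 461 (branch (move 460 (leaf 425 0)) (move 429 (branch (move 462 (leaf 426 0)) (move 398 (branch (move 397 (leaf 394 2)) (move 430 (branch (move 399 (leaf 395 2)) (move 493 (leaf 397 6))))))))))))))))))) (branch (ref 31) (branch (move 555 (branch (move 586 (branch (move 554 (leaf 458 5)) (move 587 (branch (move 618 (leaf 490 5)) (move 588 (branch (move 620 (leaf 491 4)) (move 556 (leaf 459 4)))))))) (ref 6))) (branch (ref 27) (branch (ref 29) (ref 21)))))))) (ref 32))))))))))))))))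
theorem a6p1273 : a6e1273.Valid :=
  pos_of_chk [a6e1140, a6e1141, a6e1142, a6e1145, a6e1147, a6e1148, a6e1149, a6e1150, a6e1151, a6e1152, a6e1154, a6e1155, a6e1157, a6e1158, a6e1159, a6e1160, a6e1161, a6e1163, a6e1165, a6e1169, a6e1170, a6e1171, a6e1172, a6e1146, a6e1173, a6e1174, a6e1175, a6e1176, a6e1179, a6e1182, a6e1186, a6e1188, a6e1272] (forall_cons a6p1140 (forall_cons a6p1141 (forall_cons a6p1142 (forall_cons a6p1145 (forall_cons a6p1147 (forall_cons a6p1148 (forall_cons a6p1149 (forall_cons a6p1150 (forall_cons a6p1151 (forall_cons a6p1152 (forall_cons a6p1154 (forall_cons a6p1155 (forall_cons a6p1157 (forall_cons a6p1158 (forall_cons a6p1159 (forall_cons a6p1160 (forall_cons a6p1161 (forall_cons a6p1163 (forall_cons a6p1165 (forall_cons a6p1169 (forall_cons a6p1170 (forall_cons a6p1171 (forall_cons a6p1172 (forall_cons a6p1146 (forall_cons a6p1173 (forall_cons a6p1174 (forall_cons a6p1175 (forall_cons a6p1176 (forall_cons a6p1179 (forall_cons a6p1182 (forall_cons a6p1186 (forall_cons a6p1188 (forall_cons a6p1272 forall_nil))))))))))))))))))))))))))))))))) a6c1273 a6e1273 (by decide +kernel)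

def a6e1274 : Pos := ⟨329510287686269266319131238355906874428932894406878659650934246040906072803087490501882862751749818638910222946791081185781855423986398903003553357973522743296, 2961193263438071936297622033267496405919729396207304150642539675951548593764764679683400934846682815687621390974987854739594234629636165822086561052013143426488967222671009247135187250813046968573012800174529492682718809423872, 19⟩
def a6c1274 : Cert := (move 523 (branch (move 524 (branch (move 494 (branch (move 495 (leaf 491 2)) (move 522 (branch (move 493 (leaf 490 2)) (move 554 (branch (move 553 (leaf 521 1)) (move 555 (leaf 522 1)))))))) (branch (move 494 (branch (move 495 (leaf 491 2)) (move 522 (branch (move 493 (leaf 490 2)) (move 490 (branch (move 489 (leaf 489 3)) (move 491 (leaf 490 3)))))))) (move 491 (branch (move 490 (leaf 490 3)) (move 459 (branch (move 427 (branch (move 556 (leaf 427 4)) (move 395 (branch (move 492 (leaf 395 4)) (move 396 (branch (move 428 (leaf 395 6)) (move 364 (leaf 363 6)))))))) (branch (move 555 (branch (move 554 (leaf 522 1)) (move 460 (branch (move 428 (leaf 427 6)) (move 587 (branch (move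 492 (leaf 459 6)) (move 426 (branch (move 458 (leaf 426 7)) (move 427 (branch (move 394 (leaf 394 7)) (move 620 (branch (move 588 (leaf 491 4)) (move 619 (branch (move 652 (leaf 523 4)) (move 618 (branch (move 650 (leaf 522 5)) (move 586 (leaf 490 5)))))))))))))))))) (branch (move 555 (branch (move 554 (leaf 522 1)) (move 588 (branch (move 556 (leaf 459 4)) (move 587 (branch (move 620 (leaf 491 4)) (move 492 (branch (move 619 (leaf 491 6)) (move 460 (leaf 459 6)))))))))) (move 555 (branch (move 554 (leaf 522 1)) (move 556 (branch (move 588 (leaf 459 4)) (move 427 (leaf 427 4))))))))))))))) (branch (move 524 (branch (move 490 (branch (move 491 (leaf 490 3)) (move 522 (branch (move 489 (leaf 489 3)) (move 554 (branch (move 553 (leaf 521 1)) (move 555 (leaf 522 1)))))))) (branch (move 494 (branch (move 495 (leaf 491 2)) (move 558 (branch (move 559 (leaf 523 0)) (move 493 (branch (move 522 (leaf 490 2)) (move 461 (branch (move 590 (leaf 461 7)) (move 429 (leaf 429 4)))))))))) (move 494 (branch (move 495 (leaf 491 2)) (move 558 (branch (move 559 (leaf 523 0)) (move 590 (branch (move 623 (branch (move 591 (leaf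 494 4)) (move 622 (branch (move 655 (leaf 526 4)) (move 621 (branch (move 653 (leaf 525 5)) (move 589 (leaf 493 5)))))))) (move 461 (branch (move 493 (leaf 461 7)) (move 462 (branch (move 429 (leaf 429 7)) (move 431 (branch (move 463 (leaf 430 6)) (move 430 (branch (move 399 (leaf 398 6)) (move 491 (branch (move 490 (leaf 490 3)) (move 555 (branch (move 554 (leaf 522 1)) (move 460 (branch (move 459 (leaf 427 2)) (move 492 (branch (move 587 (leaf 459 6)) (move 428 (leaf 427 5))))))))))))))))))))))))))) (branch (move 524 (branch (move 490 (branch (move 491 (leaf 490 3)) (move 522 (branch (move 489 (leaf 489 3)) (move 554 (branch (move 553 (leaf 521 1)) (move 555 (leaf 522 1)))))))) (branch (move 494 (branch (move 495 (leaf 491 2)) (move 493 (branch (move 522 (leaf 490 2)) (move 558 (branch (move 559 (leaf 523 0)) (move 461 (branch (move 590 (leaf 461 7)) (move 429 (leaf 429 4)))))))))) (move 494 (branch (move 495 (leaf 491 2)) (move 558 (branch (move 559 (leaf 523 0)) (move 590 (branch (move 555 (branch (move 554 (leaf 522 1)) (move 491 (branch (move 490 (leaf 490 3)) (move 621 (branch (move 589 (leaf 493 5))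 (move 622 (branch (move 653 (leaf 525 5)) (move 623 (branch (move 655 (leaf 526 4)) (move 591 (leaf 494 4)))))))))))) (branch (move 461 (branch (move 493 (leaf 461 7)) (move 462 (branch (move 429 (leaf 429 7)) (move 431 (branch (move 463 (leaf 430 6)) (move 430 (branch (move 399 (leaf 398 6)) (move 555 (branch (move 554 (leaf 522 1)) (move 491 (branch (move 490 (leaf 490 3)) (move 591 (branch (move 623 (leaf 494 4)) (move 589 (branch (move 621 (leaf 493 5)) (move 588 (branch (move 556 (leaf 555 3)) (move 587 (branch (move 620 (leaf 491 4)) (move 618 (branch (move 619 (leaf 586 1)) (move 586 (leaf 490 5)))))))))))))))))))))))) (move 493 (branch (move 622 (leaf 493 7)) (move 461 (leaf 461 7)))))))))))))) (branch (move 494 (branch (move 558 (branch (ref 0) (branch (move 559 (branch (move 524 (leaf 523 0)) (move 591 (branch (move 462 (leaf 462 4)) (move 623 (branch (move 655 (leaf 526 7)) (move 590 (leaf 494 4)))))))) (move 524 (branch (move 559 (leaf 523 0)) (move 522 (branch (move 493 (leaf 490 2)) (move 490 (branch (move 489 (leaf 489 3)) (move 491 (leaf 490 3))))))))))) (branch (move 524 (branch (move 495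 (leaf 491 2)) (move 522 (branch (move 493 (leaf 490 2)) (move 490 (branch (move 489 (leaf 489 3)) (move 491 (leaf 490 3)))))))) (branch (ref 1) (branch (move 558 (branch (ref 0) (move 524 (branch (move 495 (leaf 491 2)) (move 559 (leaf 523 0)))))) (ref 2)))))) (branch (ref 3) (branch (ref 4) (branch (ref 5) (branch (ref 6) (branch (ref 7) (ref 8)))))))))))
theorem a6p1274 : a6e1274.Valid :=
  pos_of_chk [a6e1103, a6e1106, a6e1108, a6e1109, a6e1118, a6e1128, a6e1131, a6e1139, a6e1273] (forall_cons a6p1103 (forall_cons a6p1106 (forall_cons a6p1108 (forall_cons a6p1109 (forall_cons a6p1118 (forall_cons a6p1128 (forall_cons a6p1131 (forall_cons a6p1139 (forall_cons a6p1273 forall_nil))))))))) a6c1274 a6e1274 (by decide +kernel)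

def a6e1275 : Pos := ⟨219673525124179510879420825570604582952621929604585773100622830693937381868724993667921908501166545759273481964527387457187903615990932602002368905315681828864, 645250421047503596645319075480881881046706298495180047109336219613256746343627310708681664583287404714427054308265732605640191486209941793002218703735027190885898106413113241515905116010842691666510373750611159132104177810394078721105890140749824, 20⟩
def a6c1275 : Cert := (move 525 (branch (ref 0) (branch (ref 1) (branch (ref 2) (branch (ref 3) (branch (ref 4) (branch (ref 5) (branch (ref 6) (branch (ref 7) (branch (ref 8) (branch (ref 9) (branch (ref 10) (branch (ref 11) (branch (ref 12) (branch (ref 13) (branch (ref 14) (branch (ref 15) (branch (ref 16) (branch (ref 17) (branch (ref 18) (branch (ref 19) (branch (ref 20) (branch (ref 21) (branch (ref 22) (branch (ref 23) (branch (ref 24) (branch (ref 25) (branch (ref 26) (branch (ref 27) (ref 28))))))))))))))))))))))))))))))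
theorem a6p1275 : a6e1275.Valid :=
  pos_of_chk [a6e13, a6e34, a6e55, a6e82, a6e111, a6e138, a6e167, a6e183, a6e199, a6e213, a6e232, a6e251, a6e279, a6e307, a6e341, a6e375, a6e401, a6e427, a6e453, a6e489, a6e525, a6e592, a6e659, a6e695, a6e724, a6e827, a6e930, a6e1102, a6e1274] (forall_cons a6p13 (forall_cons a6p34 (forall_cons a6p55 (forall_cons a6p82 (forall_cons a6p111 (forall_cons a6p138 (forall_cons a6p167 (forall_cons a6p183 (forall_cons a6p199 (forall_cons a6p213 (forall_cons a6p232 (forall_cons a6p251 (forall_cons a6p279 (forall_cons a6p307 (forall_cons a6p341 (forall_cons a6p375 (forall_cons a6p401 (forall_cons a6p427 (forall_cons a6p453 (forall_cons a6p489 (forall_cons a6p525 (forall_cons a6p592 (forall_cons a6p659 (forall_cons a6p695 (forall_cons a6p724 (forall_cons a6p827 (forall_cons a6p930 (forall_cons a6p1102 (forall_cons a6p1274 forall_nil))))))))))))))))))))))))))))) a6c1275 a6e1275 (by decide +kernel)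

end Crest.Agent.SN
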