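import Crest.Agent.Lib_SN_Sym
import Crest.Agent.Lib_SN_A0x0
import Crest.Agent.Lib_SN_A1x0
import Crest.Agent.Lib_SN_A2x0
import Crest.Agent.Lib_SN_A3x0
import Crest.Agent.Lib_SN_A4x0
import Crest.Agent.Lib_SN_A5x1
import Crest.Agent.Lib_SN_A6x11

set_option autoImplicit false
set_option linter.all false
set_option maxRecDepth 1000000

namespace Crest.Agent.SN
open Cert

theorem a0g2 : (a0e71.map 2).Valid := a0p71.map 2 (by decide +kernel) (by decide +kernel)
theorem a0g1 : (a0e71.map 1).Valid := a0p71.map 1 (by decide +kernel) (by decide +kernel)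
theorem a0g4 : (a0e71.map 4).Valid := a0p71.map 4 (by decide +kernel) (by decide +kernel)
theorem a0g7 : (a0e71.map 7).Valid := a0p71.map 7 (by decide +kernel) (by decide +kernel)
theorem a1g1 : (a1e134.map 1).Valid := a1p134.map 1 (by decide +kernel) (by decide +kernel)
theorem a1g4 : (a1e134.map 4).Valid := a1p134.map 4 (by decide +kernel) (by decide +kernel)
theorem a1g6 : (a1e134.map 6).Valid := a1p134.map 6 (by decide +kernel) (by decide +kernel)
theorem a2g1 : (a2e78.map 1).Valid := a2p78.map 1 (by decide +kernel) (by decide +kernel)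
theorem a2g2 : (a2e78.map 2).Valid := a2p78.map 2 (by decide +kernel) (by decide +kernel)
theorem a2g3 : (a2e78.map 3).Valid := a2p78.map 3 (by decide +kernel) (by decide +kernel)
theorem a2g4 : (a2e78.map 4).Valid := a2p78.map 4 (by decide +kernel) (by decide +kernel)
theorem a2g5 : (a2e78.map 5).Valid := a2p78.map 5 (by decide +kernel) (by decide +kernel)
theorem a2g6 : (a2e78.map 6).Valid := a2p78.map 6 (by decide +kernel) (by decide +kernel)
theorem a2g7 : (a2e78.map 7).Valid := a2p78.map 7 (by decide +kernel) (by decide +kernel)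
theorem a3g1 : (a3e96.map 1).Valid := a3p96.map 1 (by decide +kernel) (by decide +kernel)
theorem a3g2 : (a3e96.map 2).Valid := a3p96.map 2 (by decide +kernel) (by decide +kernel)
theorem a3g3 : (a3e96.map 3).Valid := a3p96.map 3 (by decide +kernel) (by decide +kernel)
theorem a3g4 : (a3e96.map 4).Valid := a3p96.map 4 (by decide +kernel) (by decide +kernel)
theorem a3g5 : (a3e96.map 5).Valid := a3p96.map 5 (by decide +kernel) (by decide +kernel)
theorem a3g6 : (a3e96.map 6).Valid := a3p96.map 6 (by decide +kernel) (by decide +kernel)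
theorem a3g7 : (a3e96.map 7).Valid := a3p96.map 7 (by decide +kernel) (by decide +kernel)
theorem a4g1 : (a4e111.map 1).Valid := a4p111.map 1 (by decide +kernel) (by decide +kernel)
theorem a4g2 : (a4e111.map 2).Valid := a4p111.map 2 (by decide +kernel) (by decide +kernel)
theorem a4g3 : (a4e111.map 3).Valid := a4p111.map 3 (by decide +kernel) (by decide +kernel)
theorem a4g4 : (a4e111.map 4).Valid := a4p111.map 4 (by decide +kernel) (by decide +kernel)
theorem a4g5 : (a4e111.map 5).Valid := a4p111.map 5 (by decide +kernel) (by decide +kernel)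
theorem a4g6 : (a4e111.map 6).Valid := a4p111.map 6 (by decide +kernel) (by decide +kernel)
theorem a4g7 : (a4e111.map 7).Valid := a4p111.map 7 (by decide +kernel) (by decide +kernel)
theorem a5g1 : (a5e185.map 1).Valid := a5p185.map 1 (by decide +kernel) (by decide +kernel)
theorem a5g2 : (a5e185.map 2).Valid := a5p185.map 2 (by decide +kernel) (by decide +kernel)
theorem a5g3 : (a5e185.map 3).Valid := a5p185.map 3 (by decide +kernel) (by decide +kernel)
theorem a6g1 : (a6e1275.map 1).Valid := a6p1275.map 1 (by decide +kernel) (by decide +kernel)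
theorem a6g4 : (a6e1275.map 4).Valid := a6p1275.map 4 (by decide +kernel) (by decide +kernel)
theorem a6g6 : (a6e1275.map 6).Valid := a6p1275.map 6 (by decide +kernel) (by decide +kernel)

def rootE : Pos := ⟨0, 5233697859565135079497251395981816551059404309293589893931833225624719064495026106392515846172456269484010536458709288308420257955159333821846835099792014672659866439187936269257949384275299998946533249870642835988793648926887808909119375884156928, 21⟩
def rootC : Cert := (move 526 (branch (ref 0) (branch (ref 1) (branch (ref 2) (branch (ref 3) (branch (ref 4) (branch (ref 5) (branch (ref 6) (branch (ref 7) (branch (ref 8) (branch (ref 9) (branch (ref 10) (branch (ref 11) (branch (ref 12) (branch (ref 13) (branch (ref 14) (branch (ref 15) (branch (ref 16) (branch (ref 17) (branch (ref 18) (branch (ref 19) (branch (ref 20) (branch (ref 21) (branch (ref 22) (branch (ref 23) (branch (ref 24) (branch (ref 25) (branch (ref 26) (branch (ref 27) (branch (ref 28) (branch (ref 29) (branch (ref 30) (branch (ref 31) (branch (ref 32) (branch (ref 33)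 (branch (ref 34) (branch (ref 35) (branch (ref 36) (branch (ref 37) (branch (ref 38) (ref 39)))))))))))))))))))))))))))))))))))))))))
theorem rootP : rootE.Valid :=
  pos_of_chk [(a0e71.map 2), (a0e71.map 1), (a0e71.map 4), (a0e71.map 7), a1e134, (a1e134.map 1), (a1e134.map 4), (a1e134.map 6), a2e78, (a2e78.map 1), (a2e78.map 2), (a2e78.map 3), (a2e78.map 4), (a2e78.map 5), (a2e78.map 6), (a2e78.map 7), a3e96, (a3e96.map 1), (a3e96.map 2), (a3e96.map 3), (a3e96.map 4), (a3e96.map 5), (a3e96.map 6), (a3e96.map 7), a4e111, (a4e111.map 1), (a4e111.map 2), (a4e111.map 3), (a4e111.map 4), (a4e111.map 5), (a4e111.map 6), (a4e111.map 7), a5e185, (a5e185.map 1), (a5e185.map 2), (a5e185.map 3), a6e1275, (a6e1275.map 1), (a6e1275.map 4), (a6e1275.map 6)] (forall_cons a0g2 (forall_cons a0g1 (forall_cons a0g4 (forall_cons a0g7 (forall_cons a1p134 (forall_cons a1g1 (forall_cons a1g4 (forall_cons a1g6 (forall_cons a2p78 (forall_cons a2g1 (forall_cons a2g2 (forall_cons a2g3 (forall_cons a2g4 (forall_cons a2g5 (forall_cons a2g6 (forall_cons a2g7 (forall_cons a3p96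 (forall_cons a3g1 (forall_cons a3g2 (forall_cons a3g3 (forall_cons a3g4 (forall_cons a3g5 (forall_cons a3g6 (forall_cons a3g7 (forall_cons a4p111 (forall_cons a4g1 (forall_cons a4g2 (forall_cons a4g3 (forall_cons a4g4 (forall_cons a4g5 (forall_cons a4g6 (forall_cons a4g7 (forall_cons a5p185 (forall_cons a5g1 (forall_cons a5g2 (forall_cons a5g3 (forall_cons a6p1275 (forall_cons a6g1 (forall_cons a6g4 (forall_cons a6g6 forall_nil)))))))))))))))))))))))))))))))))))))))) rootC rootE (by decide +kernel)

end Crest.Agent.SN
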