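import Mathlib

set_option autoImplicit false

namespace Crest.Agent.LpDim

open Finset

/-! ### scalar inequalities -/

/-- strict superadditivity of `x ^ r`, `r > 1` -/
lemma add_rpow_lt {X Y r : ℝ} (hX : 0 < X) (hY : 0 < Y) (hr : 1 < r) :
    X ^ r + Y ^ r < (X + Y) ^ r := by
  have hXY : 0 < X + Y := by positivity
  have h1 : X ^ r = X * X ^ (r - 1) := by
    rw [Real.rpow_sub_one hX.ne']; field_simp
  have h2 : Y ^ r = Y * Y ^ (r - 1) := by
    rw [Real.rpow_sub_one hY.ne']; field_simp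
  have h3 : (X + Y) ^ r = (X + Y) * (X + Y) ^ (r - 1) := by
    rw [Real.rpow_sub_one hXY.ne']; field_simp
  have h4 : X ^ (r - 1) < (X + Y) ^ (r - 1) :=
    Real.rpow_lt_rpow hX.le (by linarith) (by linarith)
  have h5 : Y ^ (r - 1) < (X + Y) ^ (r - 1) :=
    Real.rpow_lt_rpow hY.le (by linarith) (by linarith)
  rw [h1, h2, h3]
  nlinarith [mul_lt_mul_of_pos_left h4 hX, mul_lt_mul_of_pos_left h5 hY]

/-- strict subadditivity of `x ^ r`, `r < 1` -/
lemma rpow_add_lt {X Y r : ℝ} (hX : 0 < X) (hY : 0 < Y) (hr : r < 1) :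
    (X + Y) ^ r < X ^ r + Y ^ r := by
  have hXY : 0 < X + Y := by positivity
  have h1 : X ^ r = X * X ^ (r - 1) := by
    rw [Real.rpow_sub_one hX.ne']; field_simp
  have h2 : Y ^ r = Y * Y ^ (r - 1) := by
    rw [Real.rpow_sub_one hY.ne']; field_simp
  have h3 : (X + Y) ^ r = (X + Y) * (X + Y) ^ (r - 1) := by
    rw [Real.rpow_sub_one hXY.ne']; field_simp
  have h4 : (X + Y) ^ (r - 1) < X ^ (r - 1) :=
    Real.rpow_lt_rpow_of_neg hX (by linarith) (by linarith)
  have h5 : (X + Y) ^ (r - 1) < Y ^ (r - 1) :=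
    Real.rpow_lt_rpow_of_neg hY (by linarith) (by linarith)
  rw [h1, h2, h3]
  nlinarith [mul_lt_mul_of_pos_left h4 hX, mul_lt_mul_of_pos_left h5 hY]

lemma abs_rpow_eq (x q : ℝ) : |x| ^ q = (x ^ 2) ^ (q / 2) := by
  rw [← sq_abs, ← Real.rpow_natCast, ← Real.rpow_mul (abs_nonneg x)]
  congr 1
  push_cast
  ring

/-- the Clarkson defect -/
noncomputable def phi (q s t : ℝ) : ℝ :=
  |s + t| ^ q + |s - t| ^ q - 2 * |s| ^ q - 2 * |t| ^ q

lemma phi_eq_zero_of_mul_eq_zero {q s t : ℝ} (hq : q ≠ 0) (h : s * t = 0) :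
    phi q s t = 0 := by
  rcases mul_eq_zero.mp h with h | h
  · subst h
    simp [phi, Real.zero_rpow hq]; ring
  · subst h
    simp [phi, Real.zero_rpow hq]; ring

lemma phi_pos {q s t : ℝ} (hq : 2 < q) (hs : s ≠ 0) (ht : t ≠ 0) : 0 < phi q s t := by
  unfold phi
  rw [abs_rpow_eq (s + t), abs_rpow_eq (s - t), abs_rpow_eq s, abs_rpow_eq t]
  set r := q / 2 with hr
  have hr1 : 1 < r := by rw [hr]; linarith
  have hX : 0 < s ^ 2 := by positivity
  have hY : 0 < t ^ 2 := by positivity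
  have h1 := add_rpow_lt hX hY hr1
  have h2 := (convexOn_rpow hr1.le).2
    (show (s + t) ^ 2 ∈ Set.Ici (0 : ℝ) from Set.mem_Ici.mpr (by positivity))
    (show (s - t) ^ 2 ∈ Set.Ici (0 : ℝ) from Set.mem_Ici.mpr (by positivity))
    (show (0 : ℝ) ≤ 1 / 2 by norm_num) (show (0 : ℝ) ≤ 1 / 2 by norm_num) (by norm_num)
  have h3 : (1 / 2 : ℝ) • (s + t) ^ 2 + (1 / 2 : ℝ) • (s - t) ^ 2 = s ^ 2 + t ^ 2 := by
    simp only [smul_eq_mul]; ring
  rw [h3] at h2
  simp only [smul_eq_mul] at h2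
  linarith

lemma phi_neg {q s t : ℝ} (hq0 : 0 < q) (hq : q < 2) (hs : s ≠ 0) (ht : t ≠ 0) :
    phi q s t < 0 := by
  unfold phi
  rw [abs_rpow_eq (s + t), abs_rpow_eq (s - t), abs_rpow_eq s, abs_rpow_eq t]
  set r := q / 2 with hr
  have hr1 : r < 1 := by rw [hr]; linarith
  have hr0 : 0 < r := by rw [hr]; linarith
  have hX : 0 < s ^ 2 := by positivity
  have hY : 0 < t ^ 2 := by positivity
  have h1 := rpow_add_lt hX hY hr1
  have h2 := (Real.concaveOn_rpow hr0.le hr1.le).2
    (show (s + t) ^ 2 ∈ Set.Ici (0 : ℝ) from Set.mem_Ici.mpr (by positivity))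
    (show (s - t) ^ 2 ∈ Set.Ici (0 : ℝ) from Set.mem_Ici.mpr (by positivity))
    (show (0 : ℝ) ≤ 1 / 2 by norm_num) (show (0 : ℝ) ≤ 1 / 2 by norm_num) (by norm_num)
  have h3 : (1 / 2 : ℝ) • (s + t) ^ 2 + (1 / 2 : ℝ) • (s - t) ^ 2 = s ^ 2 + t ^ 2 := by
    simp only [smul_eq_mul]; ring
  rw [h3] at h2
  simp only [smul_eq_mul] at h2
  linarith

/-- the midpoint defect -/
noncomputable def psi (q s t : ℝ) : ℝ :=
  2 ^ (q - 1) * (|s| ^ q + |t| ^ q) - |s - t| ^ q

lemma two_rpow_mul_half {q x : ℝ} (hx : 0 ≤ x) : 2 ^ q * (x / 2) ^ q = x ^ q := by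
  rw [← Real.mul_rpow (by norm_num) (by positivity)]
  congr 1; ring

lemma psi_nonneg {q : ℝ} (hq : 1 < q) (s t : ℝ) : 0 ≤ psi q s t := by
  unfold psi
  have h2 := (convexOn_rpow hq.le).2
    (show |s| ∈ Set.Ici (0 : ℝ) from Set.mem_Ici.mpr (abs_nonneg _))
    (show |t| ∈ Set.Ici (0 : ℝ) from Set.mem_Ici.mpr (abs_nonneg _))
    (show (0 : ℝ) ≤ 1 / 2 by norm_num) (show (0 : ℝ) ≤ 1 / 2 by norm_num) (by norm_num)
  simp only [smul_eq_mul] at h2
  have h3 : |s - t| ^ q ≤ (|s| + |t|) ^ q :=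
    Real.rpow_le_rpow (abs_nonneg _) (abs_sub s t) (by linarith)
  have h4 : (|s| + |t|) ^ q = 2 ^ q * ((|s| + |t|) / 2) ^ q :=
    (two_rpow_mul_half (by positivity)).symm
  have h5 : (1 / 2 * |s| + 1 / 2 * |t|) = (|s| + |t|) / 2 := by ring
  rw [h5] at h2
  have h6 : (2 : ℝ) ^ q = 2 * 2 ^ (q - 1) := by
    rw [Real.rpow_sub_one (by norm_num)]; field_simp
  have h7 : (0 : ℝ) < 2 ^ (q - 1) := by positivity
  rw [h6] at h4
  nlinarith [mul_le_mul_of_nonneg_left h2 h7.le]

lemma eq_neg_of_psi_eq_zero {q : ℝ} (hq : 1 < q) {s t : ℝ} (h : psi q s t = 0) : t = -s := by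
  unfold psi at h
  have h3 : |s - t| ^ q ≤ (|s| + |t|) ^ q :=
    Real.rpow_le_rpow (abs_nonneg _) (abs_sub s t) (by linarith)
  have h4 : (|s| + |t|) ^ q = 2 ^ q * ((|s| + |t|) / 2) ^ q :=
    (two_rpow_mul_half (by positivity)).symm
  have h6 : (2 : ℝ) ^ q = 2 * 2 ^ (q - 1) := by
    rw [Real.rpow_sub_one (by norm_num)]; field_simp
  have h7 : (0 : ℝ) < 2 ^ (q - 1) := by positivity
  rw [h6] at h4
  -- first: |s| = |t|
  have hab : |s| = |t| := by
    by_contra hne
    have h2 := (strictConvexOn_rpow hq).2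
      (show |s| ∈ Set.Ici (0 : ℝ) from Set.mem_Ici.mpr (abs_nonneg _))
      (show |t| ∈ Set.Ici (0 : ℝ) from Set.mem_Ici.mpr (abs_nonneg _)) hne
      (show (0 : ℝ) < 1 / 2 by norm_num) (show (0 : ℝ) < 1 / 2 by norm_num) (by norm_num)
    simp only [smul_eq_mul] at h2
    have h5 : (1 / 2 * |s| + 1 / 2 * |t|) = (|s| + |t|) / 2 := by ring
    rw [h5] at h2
    nlinarith [mul_lt_mul_of_pos_left h2 h7]
  -- then |s - t| = |s| + |t|
  have h8 : (|s| + |t|) ^ q = 2 ^ (q - 1) * (|s| ^ q + |t| ^ q) := by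
    rw [h4, hab]
    have : (|t| + |t|) / 2 = |t| := by ring
    rw [this]; ring
  have h9 : |s - t| ^ q = (|s| + |t|) ^ q := by rw [h8]; linarith
  have h10 : |s - t| = |s| + |t| := by
    have := congrArg (fun x : ℝ => x ^ (1 / q)) h9
    beta_reduce at this
    rwa [← Real.rpow_mul (abs_nonneg _), ← Real.rpow_mul (by positivity),
      mul_one_div_cancel (by linarith), Real.rpow_one, Real.rpow_one] at this
  rcases abs_eq_abs.mp hab with h | h
  · rw [h] at h10
    simp at h10
    have h11 : |t| = 0 := by linarith [abs_nonneg t]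
    have ht : t = 0 := abs_eq_zero.mp h11
    rw [h, ht]; simp
  · rw [h]; ring

/-! ### finite sums -/

section sums

variable {ι : Type*} [Fintype ι]

/-- the `q`-th power of the `ℓ^q` norm -/
noncomputable def N (q : ℝ) (f : ι → ℝ) : ℝ := ∑ i, |f i| ^ q

lemma N_neg (q : ℝ) (f : ι → ℝ) : N q (-f) = N q f := by
  simp [N]

lemma N_two {q : ℝ} (f : ι → ℝ) : N q (f - -f) = 2 ^ q * N q f := by
  unfold N
  rw [Finset.mul_sum]
  refine Finset.sum_congr rfl fun i _ => ?_
  have : (f - -f) i = 2 * f i := by simp; ring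
  rw [this, abs_mul, Real.mul_rpow (by positivity) (abs_nonneg _)]
  simp

lemma sum_phi (q : ℝ) (f g : ι → ℝ) :
    ∑ i, phi q (f i) (g i) = N q (f - -g) + N q (f - g) - 2 * N q f - 2 * N q g := by
  unfold N phi
  simp only [Finset.sum_sub_distrib, Finset.sum_add_distrib, Finset.mul_sum, Pi.sub_apply,
    Pi.neg_apply, sub_neg_eq_add]

lemma sum_psi (q : ℝ) (f g : ι → ℝ) :
    ∑ i, psi q (f i) (g i) = 2 ^ (q - 1) * (N q f + N q g) - N q (f - g) := by
  unfold N psi
  simp only [Finset.sum_sub_distrib, Finset.sum_add_distrib, Finset.mul_sum, Pi.sub_apply,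
    mul_add]

lemma mul_eq_zero_of_sum_phi {q : ℝ} (hq1 : 1 < q) (hq2 : q ≠ 2) (f g : ι → ℝ)
    (h : ∑ i, phi q (f i) (g i) = 0) (i : ι) : f i * g i = 0 := by
  have hq0 : q ≠ 0 := by linarith
  rcases lt_or_gt_of_ne hq2 with hlt | hgt
  · -- all terms ≤ 0
    have hle : ∀ j ∈ (Finset.univ : Finset ι), 0 ≤ - phi q (f j) (g j) := by
      intro j _
      by_cases hj : f j * g j = 0
      · rw [phi_eq_zero_of_mul_eq_zero hq0 hj]; simp
      · have := phi_neg (by linarith) hlt (left_ne_zero_of_mul hj) (right_ne_zero_of_mul hj)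
        linarith
    have hs : ∑ j, - phi q (f j) (g j) = 0 := by
      rw [Finset.sum_neg_distrib, h]; simp
    have := (Finset.sum_eq_zero_iff_of_nonneg hle).mp hs i (Finset.mem_univ i)
    by_contra hj
    have h' := phi_neg (by linarith) hlt (left_ne_zero_of_mul hj) (right_ne_zero_of_mul hj)
    linarith
  · have hle : ∀ j ∈ (Finset.univ : Finset ι), 0 ≤ phi q (f j) (g j) := by
      intro j _
      by_cases hj : f j * g j = 0
      · rw [phi_eq_zero_of_mul_eq_zero hq0 hj]
      · exact (phi_pos hgt (left_ne_zero_of_mul hj) (right_ne_zero_of_mul hj)).le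
    have := (Finset.sum_eq_zero_iff_of_nonneg hle).mp h i (Finset.mem_univ i)
    by_contra hj
    have h' := phi_pos hgt (left_ne_zero_of_mul hj) (right_ne_zero_of_mul hj)
    linarith

lemma eq_neg_of_sum_psi {q : ℝ} (hq1 : 1 < q) (f g : ι → ℝ)
    (h : ∑ i, psi q (f i) (g i) = 0) : g = -f := by
  funext i
  have := (Finset.sum_eq_zero_iff_of_nonneg (fun j _ => psi_nonneg hq1 (f j) (g j))).mp h i
    (Finset.mem_univ i)
  exact eq_neg_of_psi_eq_zero hq1 this

end sums

/-! ### the configuration -/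

/-- row / column indicators on the `k × k` grid -/
def base (k : ℕ) (e : Bool × Fin k) : Fin k × Fin k → ℝ :=
  fun x => if (if e.1 then x.2 else x.1) = e.2 then 1 else 0

/-- the `4k+1` points `0, ±A_a, ±B_b` -/
def pts (k : ℕ) : Option (Bool × Bool × Fin k) → (Fin k × Fin k → ℝ)
  | none => 0
  | some (σ, e) => if σ then - base k e else base k e

lemma phi_one_one_ne {q : ℝ} (hq1 : 1 < q) (hq2 : q ≠ 2) : phi q 1 1 ≠ 0 := by
  have hq0 : q ≠ 0 := by linarith
  have h : phi q 1 1 = 2 ^ q - 4 := by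
    simp [phi, Real.zero_rpow hq0]; norm_num; ring
  rw [h]
  have h4 : (4 : ℝ) = 2 ^ (2 : ℝ) := by norm_num
  rcases lt_or_gt_of_ne hq2 with hlt | hgt
  · have := Real.rpow_lt_rpow_of_exponent_lt (show (1 : ℝ) < 2 by norm_num) hlt
    rw [← h4] at this; linarith
  · have := Real.rpow_lt_rpow_of_exponent_lt (show (1 : ℝ) < 2 by norm_num) hgt
    rw [← h4] at this; linarith

theorem core {q : ℝ} (hq1 : 1 < q) (hq2 : q ≠ 2) {k d : ℕ} {c : ℝ} (hc : 0 < c)
    (W : Option (Bool × Bool × Fin k) → Fin d → ℝ)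
    (H : ∀ j j', N q (W j - W j') = c * N q (pts k j - pts k j')) : k * k ≤ d := by
  have hq0 : q ≠ 0 := by linarith
  set Z : Bool × Fin k → Fin d → ℝ := fun e => W (some (false, e)) - W none with hZ
  set Z' : Bool × Fin k → Fin d → ℝ := fun e => W (some (true, e)) - W none with hZ'
  have hN1 : ∀ e, N q (Z e) = c * N q (base k e) := by
    intro e
    have := H (some (false, e)) none
    simpa [pts] using this
  have hN2 : ∀ e, N q (Z' e) = c * N q (base k e) := by
    intro e
    have := H (some (true, e)) none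
    simpa [pts, N_neg] using this
  have hN3 : ∀ e e', N q (Z e - Z' e') = c * N q (base k e - - base k e') := by
    intro e e'
    have := H (some (false, e)) (some (true, e'))
    have h2 : Z e - Z' e' = W (some (false, e)) - W (some (true, e')) := by
      simp [hZ, hZ']
    rw [h2]
    simpa [pts] using this
  have hN4 : ∀ e e', N q (Z e - Z e') = c * N q (base k e - base k e') := by
    intro e e'
    have := H (some (false, e)) (some (false, e'))
    have h2 : Z e - Z e' = W (some (false, e)) - W (some (false, e')) := by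
      simp [hZ]
    rw [h2]
    simpa [pts] using this
  have hneg : ∀ e, Z' e = - Z e := by
    intro e
    apply eq_neg_of_sum_psi hq1
    rw [sum_psi, hN1, hN2, hN3, N_two]
    have h6 : (2 : ℝ) ^ q = 2 * 2 ^ (q - 1) := by
      rw [Real.rpow_sub_one (by norm_num)]; field_simp
    rw [h6]; ring
  have hPhi : ∀ e e', ∑ i, phi q (Z e i) (Z e' i)
      = c * ∑ x, phi q (base k e x) (base k e' x) := by
    intro e e'
    rw [sum_phi, sum_phi, ← hneg e', hN3, hN4, hN1, hN1]; ring
  -- disjoint supports within a family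
  have hdisj : ∀ (β : Bool) (a a' : Fin k), a ≠ a' → ∀ i, Z (β, a) i * Z (β, a') i = 0 := by
    intro β a a' haa'
    apply mul_eq_zero_of_sum_phi hq1 hq2
    rw [hPhi]
    have : ∀ x ∈ (Finset.univ : Finset (Fin k × Fin k)),
        phi q (base k (β, a) x) (base k (β, a') x) = 0 := by
      intro x _
      apply phi_eq_zero_of_mul_eq_zero hq0
      simp only [base]
      by_cases h1 : (if β then x.2 else x.1) = a
      · have h2 : ¬ (if β then x.2 else x.1) = a' := fun h => haa' (h1.symm.trans h)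
        simp [h2]
      · simp [h1]
    rw [Finset.sum_eq_zero this]; simp
  -- overlapping supports across the families
  have hmeet : ∀ a b : Fin k, ∃ i, Z (false, a) i * Z (true, b) i ≠ 0 := by
    intro a b
    have h1 : ∑ x, phi q (base k (false, a) x) (base k (true, b) x) = phi q 1 1 := by
      rw [Finset.sum_eq_single (a, b)]
      · simp [base]
      · intro x _ hx
        apply phi_eq_zero_of_mul_eq_zero hq0
        simp only [base]
        by_cases h1 : x.1 = a
        · have h2 : ¬ x.2 = b := fun h => hx (Prod.ext h1 h)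
          simp [h2]
        · simp [h1]
      · intro h; exact absurd (Finset.mem_univ _) h
    have h2 : ∑ i, phi q (Z (false, a) i) (Z (true, b) i) ≠ 0 := by
      rw [hPhi, h1]
      exact mul_ne_zero hc.ne' (phi_one_one_ne hq1 hq2)
    obtain ⟨i, _, hi⟩ := Finset.exists_ne_zero_of_sum_ne_zero h2
    exact ⟨i, fun h => hi (phi_eq_zero_of_mul_eq_zero hq0 h)⟩
  choose g hg using hmeet
  have hinj : Function.Injective (fun x : Fin k × Fin k => g x.1 x.2) := by
    rintro ⟨a, b⟩ ⟨a', b'⟩ hab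
    simp only at hab
    have h1 := hg a b
    have h2 := hg a' b'
    rw [← hab] at h2
    have ha : a = a' := by
      by_contra hne
      have := hdisj false a a' hne (g a b)
      rcases mul_eq_zero.mp this with h | h
      · exact h1 (by rw [h]; simp)
      · exact h2 (by rw [h]; simp)
    have hb : b = b' := by
      by_contra hne
      have := hdisj true b b' hne (g a b)
      rcases mul_eq_zero.mp this with h | h
      · exact h1 (by rw [h]; simp)
      · exact h2 (by rw [h]; simp)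
    rw [ha, hb]
  have := Fintype.card_le_of_injective _ hinj
  simpa using this

end Crest.Agent.LpDim
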