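import Mathlib

/-!
Lattice covering lemma and zero-diagonal frame lemma (for `S0326`).
-/

open scoped RealInnerProductSpace

namespace Crest.Agent.Lib_helper6_Lattice

abbrev E2 := EuclideanSpace ℝ (Fin 2)

/-- **Lattice covering lemma.**  If `0 ≤ τ₁ τ₂ < 1`, the unit squares based at the points
`(j + τ₂ k, k + τ₁ j)`, `j, k ∈ ℤ`, cover the plane. -/
theorem lattice_cover (τ₁ τ₂ X Y : ℝ) (h0 : 0 ≤ τ₁ * τ₂) (h1 : τ₁ * τ₂ < 1) :
    ∃ j k : ℤ, X - (j + τ₂ * k) ∈ Set.Icc (0 : ℝ) 1 ∧ Y - (k + τ₁ * j) ∈ Set.Icc (0 : ℝ) 1 := by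
  set γ : ℝ := 1 - τ₁ * τ₂ with hγ
  have hγpos : 0 < γ := by rw [hγ]; linarith
  -- the choice of `j`
  let J : ℤ → ℤ := fun k => ⌊X - τ₂ * k⌋
  let B : ℤ → ℝ := fun k => k + τ₁ * J k
  have hJ0 : ∀ k : ℤ, (J k : ℝ) ≤ X - τ₂ * k := fun k => Int.floor_le _
  have hJ1 : ∀ k : ℤ, X - τ₂ * k < J k + 1 := fun k => Int.lt_floor_add_one _
  -- `B k` is within `|τ₁|` of `γ k + τ₁ X`
  have hBlo : ∀ k : ℤ, γ * k + τ₁ * X - |τ₁| ≤ B k := by
    intro k
    have e : B k = γ * k + τ₁ * X - τ₁ * (X - τ₂ * k - J k) := by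
      simp only [B, hγ]; ring
    rw [e]
    have h2 : τ₁ * (X - τ₂ * k - J k) ≤ |τ₁| := by
      have a1 : 0 ≤ X - τ₂ * k - J k := by linarith [hJ0 k]
      have a2 : X - τ₂ * k - J k ≤ 1 := by linarith [hJ1 k]
      calc τ₁ * (X - τ₂ * k - J k) ≤ |τ₁| * (X - τ₂ * k - J k) :=
            mul_le_mul_of_nonneg_right (le_abs_self _) a1
        _ ≤ |τ₁| * 1 := mul_le_mul_of_nonneg_left a2 (abs_nonneg _)
        _ = |τ₁| := mul_one _
    linarith
  have hBhi : ∀ k : ℤ, B k ≤ γ * k + τ₁ * X + |τ₁| := by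
    intro k
    have e : B k = γ * k + τ₁ * X - τ₁ * (X - τ₂ * k - J k) := by
      simp only [B, hγ]; ring
    rw [e]
    have h2 : -|τ₁| ≤ τ₁ * (X - τ₂ * k - J k) := by
      have a1 : 0 ≤ X - τ₂ * k - J k := by linarith [hJ0 k]
      have a2 : X - τ₂ * k - J k ≤ 1 := by linarith [hJ1 k]
      have : (-τ₁) * (X - τ₂ * k - J k) ≤ |τ₁| := by
        calc (-τ₁) * (X - τ₂ * k - J k) ≤ |τ₁| * (X - τ₂ * k - J k) :=
              mul_le_mul_of_nonneg_right (neg_le_abs _) a1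
          _ ≤ |τ₁| * 1 := mul_le_mul_of_nonneg_left a2 (abs_nonneg _)
          _ = |τ₁| := mul_one _
      linarith
    linarith
  -- increments are at most one
  have hinc : ∀ k : ℤ, B (k + 1) ≤ B k + 1 := by
    intro k
    have e : B (k + 1) - B k - 1 = τ₁ * ((J (k + 1) : ℝ) - J k) := by
      simp only [B]; push_cast; ring
    have hle : τ₁ * ((J (k + 1) : ℝ) - J k) ≤ 0 := by
      rcases le_total 0 τ₁ with ht | ht
      · rcases eq_or_lt_of_le ht with ht0 | htpos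
        · rw [← ht0]; simp
        · have h2 : 0 ≤ τ₂ := by
            by_contra hneg
            push Not at hneg
            nlinarith
          have hmono : J (k + 1) ≤ J k := by
            apply Int.floor_le_floor
            push_cast
            nlinarith
          have : ((J (k + 1) : ℝ)) ≤ J k := by exact_mod_cast hmono
          exact mul_nonpos_of_nonneg_of_nonpos ht (by linarith)
      · rcases eq_or_lt_of_le ht with ht0 | htneg
        · rw [ht0]; simp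
        · have h2 : τ₂ ≤ 0 := by
            by_contra hpos
            push Not at hpos
            nlinarith
          have hmono : J k ≤ J (k + 1) := by
            apply Int.floor_le_floor
            push_cast
            nlinarith
          have : ((J k : ℝ)) ≤ J (k + 1) := by exact_mod_cast hmono
          exact mul_nonpos_of_nonpos_of_nonneg ht (by linarith)
    linarith
  -- the greatest `k` with `B k ≤ Y`
  obtain ⟨k, hk, hkmax⟩ := Int.exists_greatest_of_bdd (P := fun k : ℤ => B k ≤ Y)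
    ⟨⌈(Y - τ₁ * X + |τ₁|) / γ⌉, by
      intro z hz
      have h3 : γ * z ≤ Y - τ₁ * X + |τ₁| := by linarith [hBlo z]
      have h4 : (z : ℝ) ≤ (Y - τ₁ * X + |τ₁|) / γ := by
        rw [le_div_iff₀ hγpos]; linarith
      exact_mod_cast h4.trans (Int.le_ceil _)⟩
    ⟨⌊(Y - τ₁ * X - |τ₁|) / γ⌋, by
      have h3 : ((⌊(Y - τ₁ * X - |τ₁|) / γ⌋ : ℤ) : ℝ) ≤ (Y - τ₁ * X - |τ₁|) / γ := Int.floor_le _
      rw [le_div_iff₀ hγpos] at h3
      show B _ ≤ Y
      linarith [hBhi ⌊(Y - τ₁ * X - |τ₁|) / γ⌋]⟩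
  have hk1 : Y < B (k + 1) := by
    by_contra hcon
    push Not at hcon
    have := hkmax (k + 1) hcon
    omega
  refine ⟨J k, k, ⟨by linarith [hJ0 k], by linarith [hJ1 k]⟩, ⟨?_, ?_⟩⟩
  · show 0 ≤ Y - B k
    linarith
  · show Y - B k ≤ 1
    linarith [hinc k]


theorem trace_entries (A : E2 →L[ℝ] E2) :
    LinearMap.trace ℝ _ A.toLinearMap =
      (A (EuclideanSpace.single 0 1)) 0 + (A (EuclideanSpace.single 1 1)) 1 := by
  rw [LinearMap.trace_eq_matrix_trace ℝ (PiLp.basisFun 2 ℝ (Fin 2)), Matrix.trace_fin_two]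
  simp [LinearMap.toMatrix_apply]

theorem det_entries (A : E2 →L[ℝ] E2) :
    LinearMap.det A.toLinearMap =
      (A (EuclideanSpace.single 0 1)) 0 * (A (EuclideanSpace.single 1 1)) 1 -
      (A (EuclideanSpace.single 1 1)) 0 * (A (EuclideanSpace.single 0 1)) 1 := by
  rw [← LinearMap.det_toMatrix (PiLp.basisFun 2 ℝ (Fin 2)), Matrix.det_fin_two]
  simp [LinearMap.toMatrix_apply]

theorem exists_circle_zero (α σ : ℝ) : ∃ x y : ℝ, x ^ 2 + y ^ 2 = 1 ∧ α * (x ^ 2 - y ^ 2) + 2 * σ * (x * y) = 0 := by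
  by_cases hα : α = 0
  · exact ⟨1, 0, by norm_num, by rw [hα]; ring⟩
  · set r := Real.sqrt (σ ^ 2 + α ^ 2) with hr
    have hr2 : r ^ 2 = σ ^ 2 + α ^ 2 := Real.sq_sqrt (by positivity)
    set t := (-σ + r) / α with ht
    have hq : α * t ^ 2 + 2 * σ * t - α = 0 := by
      rw [ht]; field_simp; linear_combination hr2
    set n := Real.sqrt (t ^ 2 + 1) with hn
    have hn2 : n ^ 2 = t ^ 2 + 1 := Real.sq_sqrt (by positivity)
    have hn0 : n ≠ 0 := by
      intro h; rw [h] at hn2; nlinarith [sq_nonneg t]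
    refine ⟨t / n, 1 / n, ?_, ?_⟩
    · field_simp; linarith
    · field_simp; linear_combination hq

/-- **Zero-diagonal frame lemma.** -/
theorem exists_zero_diag_frame (A : E2 →L[ℝ] E2) (htr : LinearMap.trace ℝ _ A.toLinearMap = 0) :
    ∃ (f1 f2 : E2) (b c : ℝ), ‖f1‖ = 1 ∧ ‖f2‖ = 1 ∧ ⟪f1, f2⟫ = 0 ∧
      (∀ y : E2, y = ⟪y, f1⟫ • f1 + ⟪y, f2⟫ • f2) ∧
      A f1 = c • f2 ∧ A f2 = b • f1 ∧ LinearMap.det A.toLinearMap = -(b * c) := by
  rw [trace_entries] at htr
  rw [det_entries]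
  set e0 : E2 := EuclideanSpace.single 0 1 with he0
  set e1 : E2 := EuclideanSpace.single 1 1 with he1
  set α := (A e0) 0 with hα
  set γ := (A e0) 1 with hγ
  set β := (A e1) 0 with hβ
  have hδ : (A e1) 1 = -α := by linarith
  obtain ⟨x, y, hxy, hq⟩ := exists_circle_zero α ((β + γ) / 2)
  have hf1 : (!₂[x, y] : E2) = x • e0 + y • e1 := by
    ext i; fin_cases i <;> simp [he0, he1]
  have hf2 : (!₂[-y, x] : E2) = (-y) • e0 + x • e1 := by
    ext i; fin_cases i <;> simp [he0, he1]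
  refine ⟨!₂[x, y], !₂[-y, x], β * x ^ 2 - γ * y ^ 2 - 2 * α * x * y,
    γ * x ^ 2 - β * y ^ 2 - 2 * α * x * y, ?_, ?_, ?_, ?_, ?_, ?_, ?_⟩
  · have : ‖(!₂[x, y] : E2)‖ ^ 2 = 1 := by
      rw [EuclideanSpace.norm_sq_eq]; simp [Fin.sum_univ_two, hxy]
    exact (pow_eq_one_iff_of_nonneg (norm_nonneg _) two_ne_zero).mp this
  · have : ‖(!₂[-y, x] : E2)‖ ^ 2 = 1 := by
      rw [EuclideanSpace.norm_sq_eq]; simp [Fin.sum_univ_two]; linarith
    exact (pow_eq_one_iff_of_nonneg (norm_nonneg _) two_ne_zero).mp this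
  · simp [PiLp.inner_apply, Fin.sum_univ_two]; ring
  · intro z
    ext i
    fin_cases i
    · simp [PiLp.inner_apply, Fin.sum_univ_two]
      linear_combination (-(z 0)) * hxy
    · simp [PiLp.inner_apply, Fin.sum_univ_two]
      linear_combination (-(z 1)) * hxy
  · rw [hf1, map_add, map_smul, map_smul]
    ext i
    fin_cases i
    · simp [← hα, ← hβ]
      linear_combination (-(x * α + y * β)) * hxy + x * hq
    · simp [← hγ, hδ]
      linear_combination (-(x * γ - y * α)) * hxy + y * hq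
  · rw [hf2, map_add, map_smul, map_smul]
    ext i
    fin_cases i
    · simp [← hα, ← hβ]
      linear_combination (-(-(y * α) + x * β)) * hxy + y * hq
    · simp [← hγ, hδ]
      linear_combination (-(-(y * γ) - x * α)) * hxy - x * hq
  · rw [hδ]
    linear_combination (α ^ 2 + β * γ) * (x ^ 2 + y ^ 2 + 1) * hxy -
      (α * (x ^ 2 - y ^ 2) + (β + γ) * (x * y)) * hq

/-- The frame lemma with an explicit rotation `(co, si)`. -/
theorem frame (A : E2 →L[ℝ] E2) (htr : LinearMap.trace ℝ _ A.toLinearMap = 0) :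
    ∃ co si b c : ℝ, co ^ 2 + si ^ 2 = 1 ∧
      A (!₂[co, si] : E2) = c • (!₂[-si, co] : E2) ∧ A (!₂[-si, co] : E2) = b • (!₂[co, si] : E2) ∧
      LinearMap.det A.toLinearMap = -(b * c) := by
  rw [trace_entries] at htr
  rw [det_entries]
  set e0 : E2 := EuclideanSpace.single 0 1 with he0
  set e1 : E2 := EuclideanSpace.single 1 1 with he1
  set α := (A e0) 0 with hα
  set γ := (A e0) 1 with hγ
  set β := (A e1) 0 with hβ
  have hδ : (A e1) 1 = -α := by linarith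
  obtain ⟨x, y, hxy, hq⟩ := exists_circle_zero α ((β + γ) / 2)
  have hf1 : (!₂[x, y] : E2) = x • e0 + y • e1 := by
    ext i; fin_cases i <;> simp [he0, he1]
  have hf2 : (!₂[-y, x] : E2) = (-y) • e0 + x • e1 := by
    ext i; fin_cases i <;> simp [he0, he1]
  refine ⟨x, y, β * x ^ 2 - γ * y ^ 2 - 2 * α * x * y,
    γ * x ^ 2 - β * y ^ 2 - 2 * α * x * y, hxy, ?_, ?_, ?_⟩
  · rw [hf1, map_add, map_smul, map_smul]
    ext i
    fin_cases i
    · simp [← hα, ← hβ]
      linear_combination (-(x * α + y * β)) * hxy + x * hq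
    · simp [← hγ, hδ]
      linear_combination (-(x * γ - y * α)) * hxy + y * hq
  · rw [hf2, map_add, map_smul, map_smul]
    ext i
    fin_cases i
    · simp [← hα, ← hβ]
      linear_combination (-(-(y * α) + x * β)) * hxy + y * hq
    · simp [← hγ, hδ]
      linear_combination (-(-(y * γ) - x * α)) * hxy - x * hq
  · rw [hδ]
    linear_combination (α ^ 2 + β * γ) * (x ^ 2 + y ^ 2 + 1) * hxy -
      (α * (x ^ 2 - y ^ 2) + (β + γ) * (x * y)) * hq

theorem lattice (τ₁ τ₂ X Y : ℝ) (h0 : 0 ≤ τ₁ * τ₂) (h1 : τ₁ * τ₂ < 1) :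
    ∃ j k : ℤ, X - (j + τ₂ * k) ∈ Set.Icc (0 : ℝ) 1 ∧ Y - (k + τ₁ * j) ∈ Set.Icc (0 : ℝ) 1 :=
  lattice_cover τ₁ τ₂ X Y h0 h1

end Crest.Agent.Lib_helper6_Lattice
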