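import Crest.Agent.Lib_helper6_Lattice

/-!
`S0326`: the geometric core of the local step.
-/

set_option autoImplicit false
open Metric

namespace Crest.Agent.Lib_helper6_S26Geom
open Crest.Agent.Lib_helper6_Lattice

section frame

variable {co si : ℝ}

theorem expand (hcs : co ^ 2 + si ^ 2 = 1) (z : E2) :
    z = (co * z 0 + si * z 1) • (!₂[co, si] : E2) + (-si * z 0 + co * z 1) • (!₂[-si, co] : E2) := by
  ext i
  fin_cases i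
  · simp
    linear_combination (-(z 0)) * hcs
  · simp
    linear_combination (-(z 1)) * hcs

theorem norm_comb_sq (hcs : co ^ 2 + si ^ 2 = 1) (x y : ℝ) :
    ‖x • (!₂[co, si] : E2) + y • (!₂[-si, co] : E2)‖ ^ 2 = x ^ 2 + y ^ 2 := by
  rw [EuclideanSpace.norm_sq_eq]
  simp [Fin.sum_univ_two]
  linear_combination (x ^ 2 + y ^ 2) * hcs

theorem norm_comb_le (hcs : co ^ 2 + si ^ 2 = 1) (x y : ℝ) :
    ‖x • (!₂[co, si] : E2) + y • (!₂[-si, co] : E2)‖ ≤ |x| + |y| := by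
  have h := norm_comb_sq hcs x y
  have h2 : ‖x • (!₂[co, si] : E2) + y • (!₂[-si, co] : E2)‖ ^ 2 ≤ (|x| + |y|) ^ 2 := by
    rw [h, add_sq, sq_abs, sq_abs]
    have : 0 ≤ |x| * |y| := by positivity
    linarith
  exact (pow_le_pow_iff_left₀ (norm_nonneg _) (by positivity) two_ne_zero).mp h2

theorem abs_fst_le_norm_comb (hcs : co ^ 2 + si ^ 2 = 1) (x y : ℝ) :
    |x| ≤ ‖x • (!₂[co, si] : E2) + y • (!₂[-si, co] : E2)‖ := by
  have h := norm_comb_sq hcs x y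
  have h2 : |x| ^ 2 ≤ ‖x • (!₂[co, si] : E2) + y • (!₂[-si, co] : E2)‖ ^ 2 := by
    rw [h, sq_abs]; nlinarith [sq_nonneg y]
  exact (pow_le_pow_iff_left₀ (abs_nonneg _) (norm_nonneg _) two_ne_zero).mp h2

theorem abs_snd_le_norm_comb (hcs : co ^ 2 + si ^ 2 = 1) (x y : ℝ) :
    |y| ≤ ‖x • (!₂[co, si] : E2) + y • (!₂[-si, co] : E2)‖ := by
  have h := norm_comb_sq hcs x y
  have h2 : |y| ^ 2 ≤ ‖x • (!₂[co, si] : E2) + y • (!₂[-si, co] : E2)‖ ^ 2 := by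
    rw [h, sq_abs]; nlinarith [sq_nonneg x]
  exact (pow_le_pow_iff_left₀ (abs_nonneg _) (norm_nonneg _) two_ne_zero).mp h2

end frame

/-- Solving the 2x2 system. -/
theorem solve_bound (τ₁ τ₂ d₁ d₂ α β δ γ₀ T₁ T₂ : ℝ) (hδ : 0 < δ)
    (h1 : d₁ + τ₂ * d₂ = δ * α) (h2 : d₂ + τ₁ * d₁ = δ * β)
    (hα : α ∈ Set.Icc (0 : ℝ) 1) (hβ : β ∈ Set.Icc (0 : ℝ) 1)
    (hγ₀ : 0 < γ₀) (hγ : γ₀ ≤ 1 - τ₁ * τ₂) (hT₁ : |τ₁| ≤ T₁) (hT₂ : |τ₂| ≤ T₂) :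
    |d₁| + |d₂| ≤ (2 + T₁ + T₂) / γ₀ * δ := by
  set γ := 1 - τ₁ * τ₂ with hγdef
  have hγpos : 0 < γ := lt_of_lt_of_le hγ₀ hγ
  have e1 : γ * d₁ = δ * (α - τ₂ * β) := by rw [hγdef]; linear_combination h1 - τ₂ * h2
  have e2 : γ * d₂ = δ * (β - τ₁ * α) := by rw [hγdef]; linear_combination h2 - τ₁ * h1
  have b1 : |α - τ₂ * β| ≤ 1 + T₂ := by
    calc |α - τ₂ * β| ≤ |α| + |τ₂ * β| := abs_sub _ _
      _ = |α| + |τ₂| * |β| := by rw [abs_mul]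
      _ ≤ 1 + T₂ * 1 := by
          have ha : |α| ≤ 1 := by rw [abs_of_nonneg hα.1]; exact hα.2
          have hb : |β| ≤ 1 := by rw [abs_of_nonneg hβ.1]; exact hβ.2
          have : |τ₂| * |β| ≤ T₂ * 1 := mul_le_mul hT₂ hb (abs_nonneg _) ((abs_nonneg _).trans hT₂)
          linarith
      _ = 1 + T₂ := by ring
  have b2 : |β - τ₁ * α| ≤ 1 + T₁ := by
    calc |β - τ₁ * α| ≤ |β| + |τ₁ * α| := abs_sub _ _
      _ = |β| + |τ₁| * |α| := by rw [abs_mul]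
      _ ≤ 1 + T₁ * 1 := by
          have ha : |α| ≤ 1 := by rw [abs_of_nonneg hα.1]; exact hα.2
          have hb : |β| ≤ 1 := by rw [abs_of_nonneg hβ.1]; exact hβ.2
          have : |τ₁| * |α| ≤ T₁ * 1 := mul_le_mul hT₁ ha (abs_nonneg _) ((abs_nonneg _).trans hT₁)
          linarith
      _ = 1 + T₁ := by ring
  have c1 : γ₀ * |d₁| ≤ δ * (1 + T₂) := by
    calc γ₀ * |d₁| ≤ γ * |d₁| := mul_le_mul_of_nonneg_right hγ (abs_nonneg _)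
      _ = |γ * d₁| := by rw [abs_mul, abs_of_pos hγpos]
      _ = δ * |α - τ₂ * β| := by rw [e1, abs_mul, abs_of_pos hδ]
      _ ≤ δ * (1 + T₂) := mul_le_mul_of_nonneg_left b1 hδ.le
  have c2 : γ₀ * |d₂| ≤ δ * (1 + T₁) := by
    calc γ₀ * |d₂| ≤ γ * |d₂| := mul_le_mul_of_nonneg_right hγ (abs_nonneg _)
      _ = |γ * d₂| := by rw [abs_mul, abs_of_pos hγpos]
      _ = δ * |β - τ₁ * α| := by rw [e2, abs_mul, abs_of_pos hδ]
      _ ≤ δ * (1 + T₁) := mul_le_mul_of_nonneg_left b2 hδ.le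
  rw [div_mul_eq_mul_div, le_div_iff₀ hγ₀]
  nlinarith

/-- **Geometric core of the local step.** -/
theorem geom_cover (V : E2 → E2) (A : E2 →L[ℝ] E2) (co si b c : ℝ) (hcs : co ^ 2 + si ^ 2 = 1)
    (hA1 : A (!₂[co, si] : E2) = c • (!₂[-si, co] : E2))
    (hA2 : A (!₂[-si, co] : E2) = b • (!₂[co, si] : E2))
    (L : ℝ) (hL : 0 < L) (hbc0 : 0 ≤ b * c) (hbc1 : L ^ 2 * (b * c) < 1)
    (p0 : E2) (ρ ω η₁ : ℝ) (hω : 0 ≤ ω) (hη₁ : 0 ≤ η₁)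
    (hstrict : ∀ x ∈ ball p0 ρ, ∀ y ∈ ball p0 ρ, ‖V x - V y - A (x - y)‖ ≤ ω * ‖x - y‖)
    (C : ℝ) (hC : C = 2 * (1 + L * (|b| + |c|)) / (1 - L ^ 2 * (b * c)))
    (hωC : L * ω * C ≤ η₁) (δ : ℝ) (hδ : 0 < δ) (hδρ : C * δ ≤ ρ / 2)
    (p : E2) (hp : p ∈ ball p0 (ρ / 2)) (s : ℝ) (hs : |s| ≤ L) :
    ∃ j k : ℤ,
      ‖p - (p0 + δ • ((j : ℝ) • (!₂[co, si] : E2) + (k : ℝ) • (!₂[-si, co] : E2)))‖ ≤ C * δ ∧
      ∃ x ∈ Set.Icc (0 : ℝ) 1, ∃ y ∈ Set.Icc (0 : ℝ) 1,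
        p + s • V p =
          (p0 + δ • ((j : ℝ) • (!₂[co, si] : E2) + (k : ℝ) • (!₂[-si, co] : E2)) -
            (η₁ * δ) • ((!₂[co, si] : E2) + (!₂[-si, co] : E2))) +
          x • (((1 + 2 * η₁) * δ) • (!₂[co, si] : E2)) +
          y • (((1 + 2 * η₁) * δ) • (!₂[-si, co] : E2)) +
          s • V (p0 + δ • ((j : ℝ) • (!₂[co, si] : E2) + (k : ℝ) • (!₂[-si, co] : E2))) := by
  set f1 : E2 := !₂[co, si] with hf1
  set f2 : E2 := !₂[-si, co] with hf2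
  set γ₀ : ℝ := 1 - L ^ 2 * (b * c) with hγ₀
  have hγ₀pos : 0 < γ₀ := by rw [hγ₀]; linarith
  -- coordinates of `p - p0`
  obtain ⟨z1, z2, hz⟩ : ∃ z1 z2 : ℝ, p - p0 = z1 • f1 + z2 • f2 := ⟨_, _, expand hcs (p - p0)⟩
  set τ₁ : ℝ := s * c with hτ₁
  set τ₂ : ℝ := s * b with hτ₂
  have hs2 : s ^ 2 ≤ L ^ 2 := by
    rw [← sq_abs]; exact pow_le_pow_left₀ (abs_nonneg _) hs 2
  have hττ : τ₁ * τ₂ = s ^ 2 * (b * c) := by rw [hτ₁, hτ₂]; ring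
  have hττ0 : 0 ≤ τ₁ * τ₂ := by rw [hττ]; positivity
  have hττle : τ₁ * τ₂ ≤ L ^ 2 * (b * c) := by
    rw [hττ]; exact mul_le_mul_of_nonneg_right hs2 hbc0
  obtain ⟨j, k, hα, hβ⟩ := lattice τ₁ τ₂ ((z1 + τ₂ * z2) / δ) ((z2 + τ₁ * z1) / δ) hττ0
    (lt_of_le_of_lt hττle hbc1)
  set α : ℝ := (z1 + τ₂ * z2) / δ - (j + τ₂ * k) with hαdef
  set β : ℝ := (z2 + τ₁ * z1) / δ - (k + τ₁ * j) with hβdef
  set cjk : E2 := p0 + δ • ((j : ℝ) • f1 + (k : ℝ) • f2) with hcjk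
  set d1 : ℝ := z1 - δ * j with hd1
  set d2 : ℝ := z2 - δ * k with hd2
  have hd : p - cjk = d1 • f1 + d2 • f2 := by
    have : p - cjk = (p - p0) - δ • ((j : ℝ) • f1 + (k : ℝ) • f2) := by rw [hcjk]; abel
    rw [this, hz, hd1, hd2]
    module
  have e1 : d1 + τ₂ * d2 = δ * α := by
    rw [hαdef, hd1, hd2]; field_simp; ring
  have e2 : d2 + τ₁ * d1 = δ * β := by
    rw [hβdef, hd1, hd2]; field_simp; ring
  have hT1 : |τ₁| ≤ L * |c| := by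
    rw [hτ₁, abs_mul]; exact mul_le_mul_of_nonneg_right hs (abs_nonneg _)
  have hT2 : |τ₂| ≤ L * |b| := by
    rw [hτ₂, abs_mul]; exact mul_le_mul_of_nonneg_right hs (abs_nonneg _)
  have hsolve := solve_bound τ₁ τ₂ d1 d2 α β δ γ₀ (L * |c|) (L * |b|) hδ e1 e2 hα hβ hγ₀pos
    (by rw [hγ₀]; linarith) hT1 hT2
  have hCle : (2 + L * |c| + L * |b|) / γ₀ ≤ C := by
    rw [hC]
    apply div_le_div_of_nonneg_right _ hγ₀pos.le
    have : 0 ≤ L * (|b| + |c|) := by positivity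
    nlinarith
  have hnd : ‖p - cjk‖ ≤ C * δ := by
    rw [hd]
    calc ‖d1 • f1 + d2 • f2‖ ≤ |d1| + |d2| := norm_comb_le hcs d1 d2
      _ ≤ (2 + L * |c| + L * |b|) / γ₀ * δ := hsolve
      _ ≤ C * δ := mul_le_mul_of_nonneg_right hCle hδ.le
  have hpρ : p ∈ ball p0 ρ := by
    rw [mem_ball] at hp ⊢
    have : 0 ≤ C * δ := (norm_nonneg _).trans hnd
    linarith
  have hcρ : cjk ∈ ball p0 ρ := by
    rw [mem_ball, dist_eq_norm] at hp ⊢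
    have : cjk - p0 = (p - p0) - (p - cjk) := by abel
    rw [this]
    calc ‖(p - p0) - (p - cjk)‖ ≤ ‖p - p0‖ + ‖p - cjk‖ := norm_sub_le _ _
      _ < ρ / 2 + ρ / 2 := by linarith
      _ = ρ := by ring
  have herr := hstrict p hpρ cjk hcρ
  obtain ⟨ε1, ε2, hε⟩ : ∃ ε1 ε2 : ℝ, s • (V p - V cjk - A (p - cjk)) = ε1 • f1 + ε2 • f2 :=
    ⟨_, _, expand hcs _⟩
  have hnε : ‖ε1 • f1 + ε2 • f2‖ ≤ η₁ * δ := by
    rw [← hε, norm_smul, Real.norm_eq_abs]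
    calc |s| * ‖V p - V cjk - A (p - cjk)‖ ≤ L * (ω * (C * δ)) := by
          apply mul_le_mul hs (herr.trans (mul_le_mul_of_nonneg_left hnd hω)) (norm_nonneg _) hL.le
      _ = (L * ω * C) * δ := by ring
      _ ≤ η₁ * δ := mul_le_mul_of_nonneg_right hωC hδ.le
  have hε1 : |ε1| ≤ η₁ * δ := (abs_fst_le_norm_comb hcs ε1 ε2).trans hnε
  have hε2 : |ε2| ≤ η₁ * δ := (abs_snd_le_norm_comb hcs ε1 ε2).trans hnε
  have hAd : A (p - cjk) = (d1 * c) • f2 + (d2 * b) • f1 := by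
    rw [hd, map_add, map_smul, map_smul, hA1, hA2, smul_smul, smul_smul]
  have hpos : 0 < (1 + 2 * η₁) * δ := by positivity
  refine ⟨j, k, hnd, (δ * α + ε1 + η₁ * δ) / ((1 + 2 * η₁) * δ), ⟨?_, ?_⟩,
    (δ * β + ε2 + η₁ * δ) / ((1 + 2 * η₁) * δ), ⟨?_, ?_⟩, ?_⟩
  · apply div_nonneg _ hpos.le
    have := (abs_le.mp hε1).1
    have : 0 ≤ δ * α := mul_nonneg hδ.le hα.1
    linarith
  · rw [div_le_one hpos]
    have := (abs_le.mp hε1).2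
    have : δ * α ≤ δ * 1 := mul_le_mul_of_nonneg_left hα.2 hδ.le
    linarith
  · apply div_nonneg _ hpos.le
    have := (abs_le.mp hε2).1
    have : 0 ≤ δ * β := mul_nonneg hδ.le hβ.1
    linarith
  · rw [div_le_one hpos]
    have := (abs_le.mp hε2).2
    have : δ * β ≤ δ * 1 := mul_le_mul_of_nonneg_left hβ.2 hδ.le
    linarith
  · rw [smul_smul, smul_smul, div_mul_cancel₀ _ hpos.ne', div_mul_cancel₀ _ hpos.ne', ← e1, ← e2]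
    have hp' : p = cjk + (d1 • f1 + d2 • f2) := by rw [← hd]; abel
    have hVp : s • V p = s • V cjk + s • A (p - cjk) + (ε1 • f1 + ε2 • f2) := by
      rw [← hε]; module
    rw [hVp, hAd]
    nth_rewrite 1 [hp']
    rw [hτ₁, hτ₂]
    module

end Crest.Agent.Lib_helper6_S26Geom
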