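import Mathlib
import Crest.Prelude.Def_DaugavetL1
import Crest.Agent.Lib_helper2_AUC

/-!
The Daugavet property and weak neighbourhoods: in a space with the Daugavet property, for every
unit vector `x` and every closed finite-codimensional subspace `S` there is `z` in the unit ball
with `‖z - x‖ > 2 - ε` and `z - x` within `ε` of `S`.
-/

set_option autoImplicit false
set_option linter.style.haveILetI false
open Crest Crest.AnalysisR Crest.AnalysisR.L1Subspace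

namespace Crest.Agent.Lib_helper7_Daugavet

variable {X : Type*} [NormedAddCommGroup X] [NormedSpace ℝ X]

/-- slices of the unit ball contain points almost at distance `1 + ‖y‖` from `-y`. -/
theorem slice_step (hD : HasDaugavetProperty X) (φ : X →L[ℝ] ℝ) (y : X) (hy : y ≠ 0) (δ : ℝ)
    (hδ : 0 < δ) : ∃ z : X, ‖z‖ ≤ 1 ∧ ‖φ‖ - δ < φ z ∧ ‖y‖ + 1 - δ < ‖y + z‖ := by
  have hr : 0 < ‖y‖ := norm_pos_iff.2 hy
  by_cases hφ : φ = 0
  · refine ⟨‖y‖⁻¹ • y, ?_, ?_, ?_⟩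
    · rw [norm_smul, norm_inv, norm_norm, inv_mul_cancel₀ hr.ne']
    · simp [hφ, hδ]
    · have : y + ‖y‖⁻¹ • y = (1 + ‖y‖⁻¹) • y := by rw [add_smul, one_smul]
      rw [this, norm_smul, Real.norm_of_nonneg (by positivity), add_mul, one_mul,
        inv_mul_cancel₀ hr.ne']
      linarith
  · have hn : 0 < ‖φ‖ := norm_pos_iff.2 hφ
    set n := ‖φ‖ with hn_def
    set r := ‖y‖ with hr_def
    set δ' := min (δ / 2) (δ * r / n) with hδ'
    have hδ'pos : 0 < δ' := lt_min (by positivity) (by positivity)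
    have h1 : δ' ≤ δ / 2 := min_le_left _ _
    have h2 : δ' ≤ δ * r / n := min_le_right _ _
    have hnorm := hD φ (n⁻¹ • y)
    rw [ContinuousLinearMap.norm_smulRight_apply, norm_smul, norm_inv, Real.norm_of_nonneg hn.le,
      ← mul_assoc, mul_inv_cancel₀ hn.ne', one_mul] at hnorm
    obtain ⟨w, hw1, hw2⟩ := ContinuousLinearMap.exists_lt_apply_of_lt_opNorm
      (ContinuousLinearMap.id ℝ X + φ.smulRight (n⁻¹ • y)) (r := 1 + r - δ')
      (by rw [hnorm]; linarith)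
    simp only [add_apply, ContinuousLinearMap.id_apply,
      ContinuousLinearMap.smulRight_apply, smul_smul] at hw2
    -- general claim for `w` with `0 ≤ φ w`
    have key : ∀ w : X, ‖w‖ < 1 → 0 ≤ φ w → 1 + r - δ' < ‖w + (φ w * n⁻¹) • y‖ →
        ∃ z : X, ‖z‖ ≤ 1 ∧ n - δ < φ z ∧ r + 1 - δ < ‖y + z‖ := by
      intro w hw1 hw0 hw2
      set a := φ w * n⁻¹ with ha
      have ha0 : 0 ≤ a := by positivity
      have e1 : ‖w + a • y‖ ≤ ‖w‖ + a * r := by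
        refine (norm_add_le _ _).trans ?_
        rw [norm_smul, Real.norm_of_nonneg ha0]
      have e2 : r - δ' < a * r := by linarith
      have hφw : φ w = a * n := by rw [ha]; field_simp
      refine ⟨w, hw1.le, ?_, ?_⟩
      · rw [hφw]
        have : δ' * n ≤ δ * r := by
          rw [le_div_iff₀ hn] at h2; exact h2
        -- (1 - a) r < δ'  ⇒ (1 - a) n r < δ' n ≤ δ r
        have h3 : (n - a * n) * r < δ * r := by nlinarith
        have := lt_of_mul_lt_mul_right h3 hr.le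
        linarith
      · have e3 : w + a • y = (y + w) - (1 - a) • y := by
          rw [sub_smul, one_smul]; abel
        have ha1 : a ≤ 1 := by
          have := φ.le_opNorm w
          rw [Real.norm_of_nonneg hw0] at this
          rw [ha, ← div_eq_mul_inv, div_le_one hn]
          calc φ w ≤ n * ‖w‖ := this
            _ ≤ n * 1 := by gcongr
            _ = n := mul_one n
        have e4 : ‖w + a • y‖ ≤ ‖y + w‖ + (1 - a) * r := by
          rw [e3]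
          refine (norm_sub_le _ _).trans ?_
          rw [norm_smul, Real.norm_of_nonneg (by linarith)]
        nlinarith
    rcases le_total 0 (φ w) with h0 | h0
    · exact key w hw1 h0 hw2
    · refine key (-w) (by rwa [norm_neg]) (by simpa using h0) ?_
      have : -w + (φ (-w) * n⁻¹) • y = -(w + (φ w * n⁻¹) • y) := by
        simp [neg_smul]; abel
      rw [this, norm_neg]
      exact hw2

variable {H : Type*} [NormedAddCommGroup H] [InnerProductSpace ℝ H]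

/-- the set of points of `H` approximable by `Φ z`, `z` in the ball almost "`ℓ₁`-orthogonal" to any
prescribed vector. -/
def DD (Φ : X →L[ℝ] H) : Set H :=
  {p | ∀ ε : ℝ, 0 < ε → ∀ y : X, y ≠ 0 →
    ∃ z : X, ‖z‖ ≤ 1 ∧ ‖Φ z - p‖ < ε ∧ ‖y‖ + 1 - ε < ‖y + z‖}

theorem convex_DD (Φ : X →L[ℝ] H) : Convex ℝ (DD Φ) := by
  rw [convex_iff_forall_pos]
  intro p₁ hp₁ p₂ hp₂ a b ha hb hab ε hε y hy
  set ε' := min ε 1 with hε'
  have hε'pos : 0 < ε' := lt_min hε one_pos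
  have hε'1 : ε' ≤ 1 := min_le_right _ _
  have hε'ε : ε' ≤ ε := min_le_left _ _
  have hy0 : 0 < ‖y‖ := norm_pos_iff.2 hy
  obtain ⟨z₁, hz₁, hΦ₁, hn₁⟩ := hp₁ ε' hε'pos (a⁻¹ • y) (smul_ne_zero (inv_ne_zero ha.ne') hy)
  have hn₁' : ‖y‖ + a - a * ε' < ‖y + a • z₁‖ := by
    have e : y + a • z₁ = a • (a⁻¹ • y + z₁) := by
      rw [smul_add, smul_smul, mul_inv_cancel₀ ha.ne', one_smul]
    rw [e, norm_smul, Real.norm_of_nonneg ha.le]
    rw [norm_smul, norm_inv, Real.norm_of_nonneg ha.le] at hn₁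
    have := mul_lt_mul_of_pos_left hn₁ ha
    have e2 : a * (a⁻¹ * ‖y‖ + 1 - ε') = ‖y‖ + a - a * ε' := by field_simp
    linarith
  set y' := y + a • z₁ with hy'
  have hy'0 : 0 < ‖y'‖ := by nlinarith
  obtain ⟨z₂, hz₂, hΦ₂, hn₂⟩ := hp₂ ε' hε'pos (b⁻¹ • y')
    (smul_ne_zero (inv_ne_zero hb.ne') (norm_pos_iff.1 hy'0))
  have hn₂' : ‖y'‖ + b - b * ε' < ‖y' + b • z₂‖ := by
    have e : y' + b • z₂ = b • (b⁻¹ • y' + z₂) := by
      rw [smul_add, smul_smul, mul_inv_cancel₀ hb.ne', one_smul]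
    rw [e, norm_smul, Real.norm_of_nonneg hb.le]
    rw [norm_smul, norm_inv, Real.norm_of_nonneg hb.le] at hn₂
    have := mul_lt_mul_of_pos_left hn₂ hb
    have e2 : b * (b⁻¹ * ‖y'‖ + 1 - ε') = ‖y'‖ + b - b * ε' := by field_simp
    linarith
  refine ⟨a • z₁ + b • z₂, ?_, ?_, ?_⟩
  · refine (norm_add_le _ _).trans ?_
    rw [norm_smul, norm_smul, Real.norm_of_nonneg ha.le, Real.norm_of_nonneg hb.le]
    nlinarith
  · have e : Φ (a • z₁ + b • z₂) - (a • p₁ + b • p₂) = a • (Φ z₁ - p₁) + b • (Φ z₂ - p₂) := by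
      simp only [map_add, map_smul, smul_sub]; abel
    rw [e]
    refine lt_of_le_of_lt (norm_add_le _ _) ?_
    rw [norm_smul, norm_smul, Real.norm_of_nonneg ha.le, Real.norm_of_nonneg hb.le]
    nlinarith
  · have e : y + (a • z₁ + b • z₂) = y' + b • z₂ := by rw [hy']; abel
    rw [e]
    nlinarith

theorem isClosed_DD (Φ : X →L[ℝ] H) : IsClosed (DD Φ) := by
  refine isClosed_of_closure_subset fun p hp ε hε y hy => ?_
  obtain ⟨p', hp', hd⟩ := Metric.mem_closure_iff.1 hp (ε / 2) (half_pos hε)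
  obtain ⟨z, hz, hΦ, hn⟩ := hp' (ε / 2) (half_pos hε) y hy
  refine ⟨z, hz, ?_, by linarith⟩
  have e : Φ z - p = (Φ z - p') + (p' - p) := by abel
  rw [e]
  refine lt_of_le_of_lt (norm_add_le _ _) ?_
  rw [dist_eq_norm, norm_sub_rev] at hd
  linarith

/-- the closure of the image of the unit ball. -/
def CC (Φ : X →L[ℝ] H) : Set H := closure (Φ '' Metric.closedBall 0 1)

theorem farthest_mem (hD : HasDaugavetProperty X) (Φ : X →L[ℝ] H) (a p : H) (hp : p ∈ CC Φ)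
    (hfar : ∀ q ∈ CC Φ, ‖q - a‖ ≤ ‖p - a‖) : p ∈ DD Φ := by
  intro ε hε y hy
  set c := p - a with hc
  set ψ : X →L[ℝ] ℝ := (innerSL ℝ c).comp Φ with hψ
  have hψz : ∀ z, ψ z = inner ℝ c (Φ z) := fun z => rfl
  -- `⟨c, q⟩ ≤ ‖ψ‖` on `CC`
  have hle : ∀ q ∈ CC Φ, inner ℝ c q ≤ ‖ψ‖ := by
    intro q hq
    have hcl : IsClosed {q : H | inner ℝ c q ≤ ‖ψ‖} :=
      isClosed_le (by fun_prop) continuous_const
    refine closure_minimal ?_ hcl hq
    rintro _ ⟨z, hz, rfl⟩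
    have hz1 : ‖z‖ ≤ 1 := by simpa using hz
    show inner ℝ c (Φ z) ≤ ‖ψ‖
    rw [← hψz]
    calc ψ z ≤ ‖ψ z‖ := le_abs_self _
      _ ≤ ‖ψ‖ * ‖z‖ := ψ.le_opNorm z
      _ ≤ ‖ψ‖ * 1 := by gcongr
      _ = ‖ψ‖ := mul_one _
  set δ := min ε (ε ^ 2 / 2) with hδ
  have hδpos : 0 < δ := lt_min hε (by positivity)
  obtain ⟨z, hz, hs, hn⟩ := slice_step hD ψ y hy δ hδpos
  refine ⟨z, hz, ?_, by have := min_le_left ε (ε ^ 2 / 2); linarith⟩
  have hq : Φ z ∈ CC Φ := subset_closure ⟨z, by simpa using hz, rfl⟩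
  have h1 := hfar _ hq
  have h2 := hle p hp
  rw [hψz] at hs
  have h3 : ‖Φ z - p‖ ^ 2 < ε ^ 2 := by
    have e : Φ z - p = (Φ z - a) - c := by rw [hc]; abel
    rw [e, norm_sub_sq_real]
    have e2 : inner ℝ (Φ z - a) c = inner ℝ c (Φ z) - inner ℝ c p + ‖c‖ ^ 2 := by
      rw [real_inner_comm, ← real_inner_self_eq_norm_sq c]
      have : Φ z - a = Φ z - p + c := by rw [hc]; abel
      rw [this, inner_add_right, inner_sub_right]
    rw [e2]
    have h4 : ‖Φ z - a‖ ^ 2 ≤ ‖c‖ ^ 2 := pow_le_pow_left₀ (norm_nonneg _) h1 2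
    have h5 := min_le_right ε (ε ^ 2 / 2)
    nlinarith
  exact lt_of_pow_lt_pow_left₀ 2 hε.le h3

theorem norm_le_of_mem_CC (Φ : X →L[ℝ] H) : ∀ q ∈ CC Φ, ‖q‖ ≤ ‖Φ‖ := by
  intro q hq
  have hcl : IsClosed {q : H | ‖q‖ ≤ ‖Φ‖} := isClosed_le continuous_norm continuous_const
  refine closure_minimal ?_ hcl hq
  rintro _ ⟨z, hz, rfl⟩
  have hz1 : ‖z‖ ≤ 1 := by simpa using hz
  show ‖Φ z‖ ≤ ‖Φ‖
  calc ‖Φ z‖ ≤ ‖Φ‖ * ‖z‖ := Φ.le_opNorm z
    _ ≤ ‖Φ‖ * 1 := by gcongr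
    _ = ‖Φ‖ := mul_one _

theorem CC_subset_DD [FiniteDimensional ℝ H] (hD : HasDaugavetProperty X) (Φ : X →L[ℝ] H) :
    CC Φ ⊆ DD Φ := by
  intro p₀ hp₀
  by_contra hnot
  obtain ⟨f, u, hfu, hup⟩ := geometric_hahn_banach_closed_point (convex_DD Φ) (isClosed_DD Φ) hnot
  set e : H := (InnerProductSpace.toDual ℝ H).symm f with he
  have hfe : ∀ q, f q = inner ℝ e q := by
    intro q
    rw [he, InnerProductSpace.toDual_symm_apply]
  set ρ := ‖Φ‖ with hρ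
  have hgap : 0 < f p₀ - u := by linarith
  set T : ℝ := (ρ ^ 2 + 1) / (2 * (f p₀ - u)) with hT
  have hTpos : 0 < T := by positivity
  have hTeq : 2 * T * (f p₀ - u) = ρ ^ 2 + 1 := by
    rw [hT]; field_simp
  set a : H := -(T • e) with ha
  have hcomp : IsCompact (CC Φ) := by
    haveI : ProperSpace H := FiniteDimensional.proper_real H
    refine Metric.isCompact_of_isClosed_isBounded isClosed_closure ?_
    rw [isBounded_iff_forall_norm_le]
    exact ⟨ρ, norm_le_of_mem_CC Φ⟩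
  obtain ⟨p, hp, hmax⟩ := hcomp.exists_isMaxOn ⟨p₀, hp₀⟩
    (f := fun q => ‖q - a‖) (by fun_prop)
  have hpD : p ∈ DD Φ := farthest_mem hD Φ a p hp (fun q hq => hmax hq)
  have h1 := hfu p hpD
  have h2 : ‖p₀ - a‖ ≤ ‖p - a‖ := hmax hp₀
  have hexp : ∀ q : H, ‖q - a‖ ^ 2 = ‖q‖ ^ 2 + 2 * T * f q + T ^ 2 * ‖e‖ ^ 2 := by
    intro q
    have : q - a = q + T • e := by rw [ha]; abel
    rw [this, norm_add_sq_real, inner_smul_right, norm_smul, Real.norm_of_nonneg hTpos.le, hfe,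
      real_inner_comm]
    ring
  have h3 : ‖p₀ - a‖ ^ 2 ≤ ‖p - a‖ ^ 2 := pow_le_pow_left₀ (norm_nonneg _) h2 2
  rw [hexp, hexp] at h3
  have h4 : ‖p‖ ^ 2 ≤ ρ ^ 2 := pow_le_pow_left₀ (norm_nonneg _) (norm_le_of_mem_CC Φ p hp) 2
  have h5 : 0 ≤ ‖p₀‖ ^ 2 := by positivity
  nlinarith

/-- Daugavet property and finite-rank maps. -/
theorem daugavet_finite_rank [FiniteDimensional ℝ H] (hD : HasDaugavetProperty X) (Φ : X →L[ℝ] H)
    (x : X) (hx : ‖x‖ = 1) (ε : ℝ) (hε : 0 < ε) :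
    ∃ z : X, ‖z‖ ≤ 1 ∧ ‖Φ (z - x)‖ < ε ∧ 2 - ε < ‖z - x‖ := by
  have hmem : Φ x ∈ DD Φ :=
    CC_subset_DD hD Φ (subset_closure ⟨x, by simp [hx], rfl⟩)
  have hx0 : -x ≠ 0 := by
    intro h
    rw [neg_eq_zero] at h
    rw [h, norm_zero] at hx
    exact zero_ne_one hx
  obtain ⟨z, hz, hΦ, hn⟩ := hmem ε hε (-x) hx0
  refine ⟨z, hz, by rwa [map_sub], ?_⟩
  rw [norm_neg, hx] at hn
  have : -x + z = z - x := by abel
  rw [this] at hn
  linarith

open Crest.Agent.Lib_helper2_AUC in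
/-- Daugavet property and closed finite-codimensional subspaces. -/
theorem daugavet_near_cof (hD : HasDaugavetProperty X) (x : X) (hx : ‖x‖ = 1)
    (S : Submodule ℝ X) (hS : CofSub S) (ε : ℝ) (hε : 0 < ε) :
    ∃ z : X, ‖z‖ ≤ 1 ∧ 2 - ε < ‖z - x‖ ∧ ∃ w ∈ S, ‖z - x - w‖ < ε := by
  obtain ⟨hcl, hfd⟩ := hS
  haveI : IsClosed (S : Set X) := hcl
  haveI := hfd
  set e : (X ⧸ S) ≃L[ℝ] EuclideanSpace ℝ (Fin (Module.finrank ℝ (X ⧸ S))) := toEuclidean with he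
  set Φ : X →L[ℝ] EuclideanSpace ℝ (Fin (Module.finrank ℝ (X ⧸ S))) :=
    e.toContinuousLinearMap.comp S.mkQL with hΦ
  obtain ⟨K, hK0, hKle⟩ : ∃ K : ℝ, 0 ≤ K ∧ ∀ v, ‖e.symm v‖ ≤ K * ‖v‖ :=
    ⟨‖(e.symm : EuclideanSpace ℝ (Fin (Module.finrank ℝ (X ⧸ S))) →L[ℝ] (X ⧸ S))‖,
      ContinuousLinearMap.opNorm_nonneg _, fun v =>
      (e.symm : EuclideanSpace ℝ (Fin (Module.finrank ℝ (X ⧸ S))) →L[ℝ] (X ⧸ S)).le_opNorm v⟩
  set ε' := min ε (ε / (2 * (K + 1))) with hε'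
  have hε'pos : 0 < ε' := lt_min hε (by positivity)
  obtain ⟨z, hz, hΦz, hn⟩ := daugavet_finite_rank hD Φ x hx ε' hε'pos
  refine ⟨z, hz, by have := min_le_left ε (ε / (2 * (K + 1))); linarith, ?_⟩
  have h1 : ‖S.mkQL (z - x)‖ < ε / 2 := by
    have e1 : S.mkQL (z - x) = e.symm (Φ (z - x)) := by simp [hΦ]
    rw [e1]
    calc ‖e.symm (Φ (z - x))‖ ≤ K * ‖Φ (z - x)‖ := hKle _
      _ ≤ K * ε' := by gcongr
      _ ≤ K * (ε / (2 * (K + 1))) := by gcongr; exact min_le_right _ _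
      _ < ε / 2 := by
          rw [mul_div_assoc', div_lt_div_iff₀ (by positivity) (by norm_num)]
          nlinarith
  obtain ⟨m, hm, hm'⟩ := Submodule.Quotient.norm_mk_lt (S.mkQL (z - x)) (half_pos hε)
  refine ⟨z - x - m, ?_, ?_⟩
  · have hm2 : S.mkQ m = S.mkQ (z - x) := hm
    have : S.mkQ (z - x - m) = 0 := by
      rw [map_sub, hm2, sub_self]
    exact (Submodule.Quotient.mk_eq_zero S).mp this
  · have : z - x - (z - x - m) = m := by abel
    rw [this]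
    linarith

end Crest.Agent.Lib_helper7_Daugavet
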