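import Mathlib
import Crest.Prelude.Def_TreeProducts

/-!
Probability part of S0169: path products of an independent family along the tree.
-/

set_option autoImplicit false
open MeasureTheory ProbabilityTheory
open Crest Crest.AnalysisR Crest.AnalysisR.TreeProduct

namespace Crest.Agent.Lib_helper7_TreeProd

variable {Ω : Type} [MeasurableSpace Ω]

/-- non-root vertices on the root path of `v`. -/
def pathSet : List ℕ → Finset (List ℕ)
  | [] => ∅
  | a :: v => insert (a :: v) (pathSet v)

theorem length_le_of_mem_pathSet {u v : List ℕ} (h : u ∈ pathSet v) : u.length ≤ v.length := by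
  induction v with
  | nil => simp [pathSet] at h
  | cons a v ih =>
    simp only [pathSet, Finset.mem_insert] at h
    rcases h with rfl | h
    · exact le_rfl
    · have := ih h
      simp only [List.length_cons]
      omega

theorem ne_nil_of_mem_pathSet {u v : List ℕ} (h : u ∈ pathSet v) : u ≠ [] := by
  induction v with
  | nil => simp [pathSet] at h
  | cons a v ih =>
    simp only [pathSet, Finset.mem_insert] at h
    rcases h with rfl | h
    · simp
    · exact ih h

theorem cons_notMem_pathSet (a : ℕ) (v : List ℕ) : a :: v ∉ pathSet v := by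
  intro h
  have := length_le_of_mem_pathSet h
  simp at this

theorem pathProduct_eq (W : List ℕ → Ω → ℝ) (v : List ℕ) :
    pathProduct W v = fun z => ∏ u ∈ pathSet v, W u z := by
  induction v with
  | nil => simp [pathProduct, pathSet]
  | cons a v ih =>
    funext z
    simp only [pathProduct, pathSet]
    rw [Finset.prod_insert (cons_notMem_pathSet a v), ih, mul_comm]

variable {ν : Measure ℝ} {μ : Measure Ω} {W : List ℕ → Ω → ℝ}

theorem measurable_pathProduct (hW : IsRealization ν μ W) (v : List ℕ) :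
    Measurable (pathProduct W v) := by
  rw [pathProduct_eq]
  exact Finset.measurable_fun_prod _ fun u _ => hW.1 u

/-- the path product at `v` is independent of any function of finitely many `W u`, `u` off the
root path of `v`. -/
theorem indep_path (hW : IsRealization ν μ W) (v : List ℕ) (T : Finset (List ℕ))
    (hT : Disjoint (pathSet v) T) (ψ : (T → ℝ) → ℝ) (hψ : Measurable ψ) :
    IndepFun (pathProduct W v) (fun ω => ψ (fun i : T => W i ω)) μ := by
  have h := (hW.2.1.indepFun_finset (pathSet v) T hT hW.1).comp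
    (φ := fun x : (pathSet v → ℝ) => ∏ u : pathSet v, x u) (ψ := ψ)
    (Finset.measurable_fun_prod _ fun u _ => measurable_pi_apply u) hψ
  have e : pathProduct W v =
      (fun x : (pathSet v → ℝ) => ∏ u : pathSet v, x u) ∘ (fun a (i : pathSet v) => W i a) := by
    rw [pathProduct_eq]
    funext z
    simp only [Function.comp]
    exact (Finset.prod_coe_sort (pathSet v) (fun u => W u z)).symm
  rw [e]
  exact h

theorem indep_path_single (hW : IsRealization ν μ W) (v u : List ℕ) (hu : u ∉ pathSet v) :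
    IndepFun (pathProduct W v) (W u) μ :=
  indep_path hW v {u} (by simpa using hu) (fun x => x ⟨u, by simp⟩) (measurable_pi_apply _)

/-! ### the law -/

theorem integrable_id_of_sq [IsProbabilityMeasure ν] (hm2 : Integrable (fun x : ℝ => x ^ 2) ν) :
    Integrable (fun x : ℝ => x) ν := by
  refine Integrable.mono' ((integrable_const (1 : ℝ)).add hm2)
    measurable_id.aestronglyMeasurable (ae_of_all _ fun x => ?_)
  simp only [Pi.add_apply, Real.norm_eq_abs]
  rw [abs_le]
  constructor <;> nlinarith [sq_nonneg (x - 1), sq_nonneg (x + 1)]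

theorem law_integral (hW : IsRealization ν μ W) {u : List ℕ} (hu : u ≠ []) (f : ℝ → ℝ)
    (hf : Measurable f) : ∫ ω, f (W u ω) ∂μ = ∫ x, f x ∂ν := by
  rw [← hW.2.2 u hu, integral_map (hW.1 u).aemeasurable hf.aestronglyMeasurable]

theorem law_integrable (hW : IsRealization ν μ W) {u : List ℕ} (hu : u ≠ []) (f : ℝ → ℝ)
    (hf : Measurable f) (hi : Integrable f ν) : Integrable (fun ω => f (W u ω)) μ := by
  rw [← hW.2.2 u hu] at hi
  exact (integrable_map_measure hf.aestronglyMeasurable (hW.1 u).aemeasurable).1 hi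

theorem law_pos [IsProbabilityMeasure ν] (hpos : ν (Set.Ioi 0) = 1) (hW : IsRealization ν μ W)
    {u : List ℕ} (hu : u ≠ []) : ∀ᵐ ω ∂μ, 0 < W u ω := by
  have h1 : ∀ᵐ x ∂ν, 0 < x := by
    rw [ae_iff]
    have := (prob_compl_eq_zero_iff (μ := ν) measurableSet_Ioi).2 hpos
    convert this using 2
    ext a; simp
  rw [← hW.2.2 u hu] at h1
  exact ae_of_ae_map (hW.1 u).aemeasurable h1

/-- `κ = E|W - 1|`. -/
noncomputable def kap (ν : Measure ℝ) : ℝ := ∫ x, |x - 1| ∂ν

/-- `σ² = E (W - 1)²`. -/
noncomputable def sig2 (ν : Measure ℝ) : ℝ := ∫ x, (x - 1) ^ 2 ∂ν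

theorem sig2_nonneg (ν : Measure ℝ) : 0 ≤ sig2 ν := integral_nonneg fun _ => sq_nonneg _

theorem kap_pos [IsProbabilityMeasure ν] (hnc : ∀ c : ℝ, ν ≠ Measure.dirac c)
    (hm2 : Integrable (fun x : ℝ => x ^ 2) ν) : 0 < kap ν := by
  have hi : Integrable (fun x : ℝ => |x - 1|) ν :=
    ((integrable_id_of_sq hm2).sub (integrable_const 1)).abs
  have h0 : 0 ≤ kap ν := integral_nonneg fun x => abs_nonneg _
  rcases h0.lt_or_eq with h | h
  · exact h
  · exfalso
    have h1 := (integral_eq_zero_iff_of_nonneg (fun x => abs_nonneg (x - 1)) hi).1 h.symm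
    have h2 : (id : ℝ → ℝ) =ᵐ[ν] fun _ => 1 := by
      filter_upwards [h1] with x hx
      simp only [Pi.zero_apply, abs_eq_zero] at hx
      simp only [id]; linarith
    apply hnc 1
    have h3 : Measure.map id ν = Measure.map (fun _ => (1 : ℝ)) ν := Measure.map_congr h2
    rw [Measure.map_id, Measure.map_const] at h3
    simpa using h3

/-! ### path products -/

theorem path_nonneg [IsProbabilityMeasure ν] (hpos : ν (Set.Ioi 0) = 1)
    (hW : IsRealization ν μ W) (v : List ℕ) : ∀ᵐ ω ∂μ, 0 ≤ pathProduct W v ω := by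
  induction v with
  | nil => exact ae_of_all _ fun ω => by simp [pathProduct]
  | cons a v ih =>
    filter_upwards [ih, law_pos hpos hW (u := a :: v) (by simp)] with ω h1 h2
    simp only [pathProduct]
    exact mul_nonneg h1 h2.le

theorem path_integrable_and_mean [IsProbabilityMeasure ν] [IsProbabilityMeasure μ]
    (hmean : ∫ x, x ∂ν = 1) (hm2 : Integrable (fun x : ℝ => x ^ 2) ν)
    (hW : IsRealization ν μ W) (v : List ℕ) :
    Integrable (pathProduct W v) μ ∧ ∫ ω, pathProduct W v ω ∂μ = 1 := by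
  induction v with
  | nil =>
    constructor
    · simp only [pathProduct]; exact integrable_const 1
    · simp [pathProduct]
  | cons a v ih =>
    have hind := indep_path_single hW v (a :: v) (cons_notMem_pathSet a v)
    have hWi : Integrable (W (a :: v)) μ :=
      law_integrable hW (u := a :: v) (by simp) (fun x => x) measurable_id
        (integrable_id_of_sq hm2)
    have hWm : ∫ ω, W (a :: v) ω ∂μ = 1 := by
      rw [← hmean]
      exact law_integral hW (u := a :: v) (by simp) (fun x => x) measurable_id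
    have e : pathProduct W (a :: v) = pathProduct W v * W (a :: v) := by
      funext z; simp [pathProduct]
    constructor
    · rw [e]; exact hind.integrable_mul ih.1 hWi
    · have := hind.integral_mul_eq_mul_integral ih.1.aestronglyMeasurable
        hWi.aestronglyMeasurable
      rw [e, this, ih.2, hWm, mul_one]

theorem path_integral_abs [IsProbabilityMeasure ν] [IsProbabilityMeasure μ]
    (hpos : ν (Set.Ioi 0) = 1)
    (hmean : ∫ x, x ∂ν = 1) (hm2 : Integrable (fun x : ℝ => x ^ 2) ν)
    (hW : IsRealization ν μ W) (v : List ℕ) :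
    ∫ ω, |pathProduct W v ω| ∂μ = 1 := by
  rw [← (path_integrable_and_mean hmean hm2 hW v).2]
  refine integral_congr_ae ?_
  filter_upwards [path_nonneg hpos hW v] with ω h
  exact abs_of_nonneg h

/-- the centred combination of the children multipliers. -/
noncomputable def comb (W : List ℕ → Ω → ℝ) (v : List ℕ) (s : Finset ℕ) (a : ℕ → ℝ) : Ω → ℝ :=
  fun ω => ∑ n ∈ s, a n * (W (n :: v) ω - 1)

theorem measurable_comb (hW : IsRealization ν μ W) (v : List ℕ) (s : Finset ℕ) (a : ℕ → ℝ) :
    Measurable (comb W v s a) :=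
  Finset.measurable_fun_sum _ fun n _ => ((hW.1 (n :: v)).sub_const 1).const_mul (a n)

theorem indep_path_comb (hW : IsRealization ν μ W) (v : List ℕ) (s : Finset ℕ) (a : ℕ → ℝ) :
    IndepFun (pathProduct W v) (comb W v s a) μ := by
  classical
  set T : Finset (List ℕ) := s.image (fun n => n :: v) with hT
  have hdis : Disjoint (pathSet v) T := by
    rw [Finset.disjoint_left]
    intro u hu hu'
    obtain ⟨n, -, rfl⟩ := Finset.mem_image.1 hu'
    exact cons_notMem_pathSet n v hu
  have h := indep_path hW v T hdis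
    (fun x => ∑ n ∈ s.attach, a n * (x ⟨(n : ℕ) :: v, Finset.mem_image_of_mem _ n.2⟩ - 1))
    (Finset.measurable_fun_sum _ fun n _ => ((measurable_pi_apply _).sub_const 1).const_mul _)
  have e : comb W v s a = fun ω => (fun x : T → ℝ =>
      ∑ n ∈ s.attach, a n * (x ⟨(n : ℕ) :: v, Finset.mem_image_of_mem _ n.2⟩ - 1))
      (fun i : T => W i ω) := by
    funext ω
    simp only [comb]
    exact (Finset.sum_attach s (fun n => a n * (W (n :: v) ω - 1))).symm
  rw [e]
  exact h

theorem integrable_sq_sub_one [IsProbabilityMeasure ν]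
    (hm2 : Integrable (fun x : ℝ => x ^ 2) ν) : Integrable (fun x : ℝ => (x - 1) ^ 2) ν := by
  have h := (hm2.sub ((integrable_id_of_sq hm2).const_mul 2)).add (integrable_const (1 : ℝ))
  refine h.congr (ae_of_all _ fun x => ?_)
  simp only [Pi.add_apply, Pi.sub_apply]
  ring

theorem term_memLp [IsProbabilityMeasure ν]
    (hm2 : Integrable (fun x : ℝ => x ^ 2) ν) (hW : IsRealization ν μ W) (v : List ℕ) (c : ℝ)
    (n : ℕ) : MemLp (fun ω => c * (W (n :: v) ω - 1)) 2 μ := by
  have hm : Measurable (fun ω => c * (W (n :: v) ω - 1)) :=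
    ((hW.1 (n :: v)).sub_const 1).const_mul c
  rw [memLp_two_iff_integrable_sq hm.aestronglyMeasurable]
  have h := law_integrable hW (u := n :: v) (by simp) (fun x => c ^ 2 * (x - 1) ^ 2)
    (by fun_prop) ((integrable_sq_sub_one hm2).const_mul _)
  refine h.congr (ae_of_all _ fun ω => ?_)
  simp only []
  ring

theorem term_mean [IsProbabilityMeasure ν] [IsProbabilityMeasure μ]
    (hmean : ∫ x, x ∂ν = 1) (hm2 : Integrable (fun x : ℝ => x ^ 2) ν)
    (hW : IsRealization ν μ W) (v : List ℕ) (c : ℝ) (n : ℕ) :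
    ∫ ω, c * (W (n :: v) ω - 1) ∂μ = 0 := by
  rw [law_integral hW (u := n :: v) (by simp) (fun x => c * (x - 1)) (by fun_prop),
    integral_const_mul, integral_sub (integrable_id_of_sq hm2) (integrable_const 1), hmean]
  simp

theorem term_var [IsProbabilityMeasure ν] [IsProbabilityMeasure μ]
    (hmean : ∫ x, x ∂ν = 1) (hm2 : Integrable (fun x : ℝ => x ^ 2) ν)
    (hW : IsRealization ν μ W) (v : List ℕ) (c : ℝ) (n : ℕ) :
    Var[fun ω => c * (W (n :: v) ω - 1); μ] = c ^ 2 * sig2 ν := by
  have hm : Measurable (fun ω => c * (W (n :: v) ω - 1)) :=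
    ((hW.1 (n :: v)).sub_const 1).const_mul c
  rw [variance_of_integral_eq_zero hm.aemeasurable (term_mean hmean hm2 hW v c n)]
  rw [law_integral hW (u := n :: v) (by simp) (fun x => (c * (x - 1)) ^ 2) (by fun_prop),
    sig2, ← integral_const_mul]
  congr 1
  funext x
  ring

theorem comb_eq_sum (W : List ℕ → Ω → ℝ) (v : List ℕ) (s : Finset ℕ) (a : ℕ → ℝ) :
    comb W v s a = ∑ n ∈ s, fun ω => a n * (W (n :: v) ω - 1) := by
  funext ω
  simp [comb, Finset.sum_apply]

theorem comb_memLp [IsProbabilityMeasure ν]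
    (hm2 : Integrable (fun x : ℝ => x ^ 2) ν) (hW : IsRealization ν μ W) (v : List ℕ)
    (s : Finset ℕ) (a : ℕ → ℝ) : MemLp (comb W v s a) 2 μ := by
  rw [comb_eq_sum]
  exact memLp_finset_sum' s fun n _ => term_memLp hm2 hW v (a n) n

theorem comb_var [IsProbabilityMeasure ν] [IsProbabilityMeasure μ]
    (hmean : ∫ x, x ∂ν = 1) (hm2 : Integrable (fun x : ℝ => x ^ 2) ν)
    (hW : IsRealization ν μ W) (v : List ℕ) (s : Finset ℕ) (a : ℕ → ℝ) :
    Var[comb W v s a; μ] = sig2 ν * ∑ n ∈ s, a n ^ 2 := by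
  rw [comb_eq_sum, IndepFun.variance_sum (fun n _ => term_memLp hm2 hW v (a n) n)]
  · rw [Finset.mul_sum]
    refine Finset.sum_congr rfl fun n _ => ?_
    rw [term_var hmean hm2 hW v (a n) n, mul_comm]
  · intro n _ m _ hnm
    have hne : n :: v ≠ m :: v := by
      intro h; exact hnm (List.cons.inj h).1
    exact (hW.2.1.indepFun hne).comp (φ := fun x => a n * (x - 1)) (ψ := fun x => a m * (x - 1))
      (by fun_prop) (by fun_prop)

theorem comb_mean [IsProbabilityMeasure ν] [IsProbabilityMeasure μ]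
    (hmean : ∫ x, x ∂ν = 1) (hm2 : Integrable (fun x : ℝ => x ^ 2) ν)
    (hW : IsRealization ν μ W) (v : List ℕ) (s : Finset ℕ) (a : ℕ → ℝ) :
    ∫ ω, comb W v s a ω ∂μ = 0 := by
  simp only [comb]
  rw [integral_finset_sum s fun n _ => (term_memLp hm2 hW v (a n) n).integrable (by norm_num)]
  exact Finset.sum_eq_zero fun n _ => term_mean hmean hm2 hW v (a n) n

theorem comb_abs_le [IsProbabilityMeasure ν] [IsProbabilityMeasure μ]
    (hmean : ∫ x, x ∂ν = 1) (hm2 : Integrable (fun x : ℝ => x ^ 2) ν)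
    (hW : IsRealization ν μ W) (v : List ℕ) (s : Finset ℕ) (a : ℕ → ℝ) :
    ∫ ω, |comb W v s a ω| ∂μ ≤ Real.sqrt (sig2 ν * ∑ n ∈ s, a n ^ 2) := by
  have hL := comb_memLp hm2 hW v s a
  have h1 : Var[comb W v s a; μ] = ∫ ω, (comb W v s a ω) ^ 2 ∂μ :=
    variance_of_integral_eq_zero hL.aemeasurable (comb_mean hmean hm2 hW v s a)
  have hLa : MemLp (fun ω => |comb W v s a ω|) 2 μ := hL.abs
  have h2 := variance_eq_sub hLa
  have h3 := variance_nonneg (fun ω => |comb W v s a ω|) μ
  have h4 : μ[(fun ω => |comb W v s a ω|) ^ 2] = ∫ ω, (comb W v s a ω) ^ 2 ∂μ := by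
    congr 1; funext ω; simp
  rw [h4, ← h1, comb_var hmean hm2 hW v s a] at h2
  apply Real.le_sqrt_of_sq_le
  linarith

theorem path_mul_comb_integrable [IsProbabilityMeasure ν] [IsProbabilityMeasure μ]
    (hmean : ∫ x, x ∂ν = 1) (hm2 : Integrable (fun x : ℝ => x ^ 2) ν)
    (hW : IsRealization ν μ W) (v : List ℕ) (s : Finset ℕ) (a : ℕ → ℝ) :
    Integrable (fun ω => pathProduct W v ω * comb W v s a ω) μ :=
  (indep_path_comb hW v s a).integrable_mul (path_integrable_and_mean hmean hm2 hW v).1
    ((comb_memLp hm2 hW v s a).integrable (by norm_num))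

theorem path_mul_comb_abs [IsProbabilityMeasure ν] [IsProbabilityMeasure μ]
    (hpos : ν (Set.Ioi 0) = 1)
    (hmean : ∫ x, x ∂ν = 1) (hm2 : Integrable (fun x : ℝ => x ^ 2) ν)
    (hW : IsRealization ν μ W) (v : List ℕ) (s : Finset ℕ) (a : ℕ → ℝ) :
    ∫ ω, |pathProduct W v ω * comb W v s a ω| ∂μ = ∫ ω, |comb W v s a ω| ∂μ := by
  have h := (indep_path_comb hW v s a).integral_fun_comp_mul_comp
    (f := fun x : ℝ => |x|) (g := fun x : ℝ => |x|)
    (measurable_pathProduct hW v).aemeasurable (measurable_comb hW v s a).aemeasurable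
    (by fun_prop) (by fun_prop)
  simp only [abs_mul]
  rw [h, path_integral_abs hpos hmean hm2 hW v, one_mul]

/-! ### the `L¹` classes -/

/-- the `L¹` class of a path product. -/
noncomputable def zL (hint : ∀ v, Integrable (pathProduct W v) μ) (v : List ℕ) : Lp ℝ 1 μ :=
  (hint v).toL1 _

theorem zL_mem (hint : ∀ v, Integrable (pathProduct W v) μ) (v : List ℕ) :
    zL hint v ∈ productSpan μ W :=
  Submodule.le_topologicalClosure _ (Submodule.subset_span ⟨v, (hint v).coeFn_toL1⟩)

theorem norm_zL [IsProbabilityMeasure ν] [IsProbabilityMeasure μ]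
    (hpos : ν (Set.Ioi 0) = 1)
    (hmean : ∫ x, x ∂ν = 1) (hm2 : Integrable (fun x : ℝ => x ^ 2) ν)
    (hW : IsRealization ν μ W) (hint : ∀ v, Integrable (pathProduct W v) μ) (v : List ℕ) :
    ‖zL hint v‖ = 1 := by
  rw [zL, L1.norm_of_fun_eq_integral_norm]
  simpa using path_integral_abs hpos hmean hm2 hW v

theorem coeFn_sum_diff (hint : ∀ v, Integrable (pathProduct W v) μ) (v : List ℕ) (s : Finset ℕ)
    (a : ℕ → ℝ) :
    ((∑ n ∈ s, a n • (zL hint (n :: v) - zL hint v) : Lp ℝ 1 μ) : Ω → ℝ) =ᵐ[μ]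
      fun ω => pathProduct W v ω * comb W v s a ω := by
  classical
  induction s using Finset.induction_on with
  | empty =>
    simp only [Finset.sum_empty, comb, mul_zero]
    exact Lp.coeFn_zero _ _ _
  | insert n s hn ih =>
    rw [Finset.sum_insert hn]
    filter_upwards [Lp.coeFn_add (a n • (zL hint (n :: v) - zL hint v))
        (∑ n ∈ s, a n • (zL hint (n :: v) - zL hint v)),
      Lp.coeFn_smul (a n) (zL hint (n :: v) - zL hint v),
      Lp.coeFn_sub (zL hint (n :: v)) (zL hint v), (hint (n :: v)).coeFn_toL1,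
      (hint v).coeFn_toL1, ih] with ω h1 h2 h3 h4 h5 h6
    rw [h1]
    simp only [Pi.add_apply]
    rw [h2, h6]
    simp only [Pi.smul_apply, smul_eq_mul]
    rw [h3]
    simp only [Pi.sub_apply, zL]
    rw [h4, h5]
    simp only [comb, Finset.sum_insert hn, pathProduct]
    ring

theorem norm_sum_diff_le [IsProbabilityMeasure ν] [IsProbabilityMeasure μ]
    (hpos : ν (Set.Ioi 0) = 1)
    (hmean : ∫ x, x ∂ν = 1) (hm2 : Integrable (fun x : ℝ => x ^ 2) ν)
    (hW : IsRealization ν μ W) (hint : ∀ v, Integrable (pathProduct W v) μ) (v : List ℕ)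
    (s : Finset ℕ) (a : ℕ → ℝ) :
    ‖(∑ n ∈ s, a n • (zL hint (n :: v) - zL hint v) : Lp ℝ 1 μ)‖ ≤
      Real.sqrt (sig2 ν) * Real.sqrt (∑ n ∈ s, a n ^ 2) := by
  rw [L1.norm_eq_integral_norm, ← Real.sqrt_mul (sig2_nonneg ν)]
  refine le_trans (le_of_eq ?_) (comb_abs_le hmean hm2 hW v s a)
  rw [← path_mul_comb_abs hpos hmean hm2 hW v s a]
  refine integral_congr_ae ?_
  filter_upwards [coeFn_sum_diff hint v s a] with ω h
  rw [h, Real.norm_eq_abs]

theorem norm_diff [IsProbabilityMeasure ν] [IsProbabilityMeasure μ]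
    (hpos : ν (Set.Ioi 0) = 1)
    (hmean : ∫ x, x ∂ν = 1) (hm2 : Integrable (fun x : ℝ => x ^ 2) ν)
    (hW : IsRealization ν μ W) (hint : ∀ v, Integrable (pathProduct W v) μ) (v : List ℕ)
    (n : ℕ) : ‖zL hint (n :: v) - zL hint v‖ = kap ν := by
  have h0 := coeFn_sum_diff hint v {n} (fun _ => 1)
  simp only [Finset.sum_singleton, one_smul] at h0
  rw [L1.norm_eq_integral_norm]
  have h1 : ∫ ω, ‖((zL hint (n :: v) - zL hint v : Lp ℝ 1 μ) : Ω → ℝ) ω‖ ∂μ =
      ∫ ω, |pathProduct W v ω * comb W v {n} (fun _ => 1) ω| ∂μ := by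
    refine integral_congr_ae ?_
    filter_upwards [h0] with ω h
    rw [h, Real.norm_eq_abs]
  rw [h1, path_mul_comb_abs hpos hmean hm2 hW v {n} (fun _ => 1)]
  simp only [comb, Finset.sum_singleton, one_mul]
  exact law_integral hW (u := n :: v) (by simp) (fun x => |x - 1|) (by fun_prop)

end Crest.Agent.Lib_helper7_TreeProd
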