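import Crest.Agent.Lib_helper9_McMart

/-! Markov chain bookkeeping for S0171: MartSum. -/

set_option autoImplicit false

namespace Crest.Agent.Mc

open Finset

variable {n : ℕ} {κ : Type*} [Fintype κ]

lemma mul_apply_sum (A M : Matrix (Fin n) (Fin n) ℝ) (f : Fin n → ℝ) (i : Fin n) :
    ∑ j', (A * M) i j' * f j' = ∑ j, A i j * ∑ j', M j j' * f j' := by
  have := congrFun (Matrix.mulVec_mulVec f A M) i
  simpa [Matrix.mulVec, dotProduct] using this.symm

omit [Fintype κ] in
lemma gg_succ (A : Matrix (Fin n) (Fin n) ℝ) (m : ℕ) (b : κ → Fin n → ℝ) (r : ℕ) (k : κ)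
    (i : Fin n) : gg A m b (r + 1) k i = ∑ j, A i j * gg A m b r k j := by
  unfold gg
  rw [pow_succ', Matrix.mul_assoc, mul_apply_sum]

/-- the value function. -/
noncomputable def VV (A : Matrix (Fin n) (Fin n) ℝ) (m : ℕ) (μ : κ → ℝ) (b : κ → Fin n → ℝ) :
    ℕ → Fin n → ℝ
  | 0 => fun _ => 0
  | (r + 1) => fun i => ∑ j, A i j *
      ((∑ k, μ k * |uu A m b (r + 1) k i - uu A m b r k j|) ^ 2 + VV A m μ b r j)

lemma sum_VV (w : Fin n → ℝ) (A : Matrix (Fin n) (Fin n) ℝ) (hst : Stat w A) (μ : κ → ℝ)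
    (b : κ → Fin n → ℝ) (m T : ℕ) :
    ∑ i, w i * VV A m μ b T i = ∑ r ∈ Finset.range T, ∑ i, ∑ j, w i * A i j *
        (∑ k, μ k * |uu A m b (r + 1) k i - uu A m b r k j|) ^ 2 := by
  induction T with
  | zero => simp [VV]
  | succ T ih =>
    rw [Finset.sum_range_succ, ← ih]
    simp only [VV]
    have : ∀ i, w i * ∑ j, A i j *
        ((∑ k, μ k * |uu A m b (T + 1) k i - uu A m b T k j|) ^ 2 + VV A m μ b T j) =
        (∑ j, w i * A i j * (∑ k, μ k * |uu A m b (T + 1) k i - uu A m b T k j|) ^ 2) +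
          ∑ j, w i * A i j * VV A m μ b T j := by
      intro i
      rw [Finset.mul_sum, ← Finset.sum_add_distrib]
      refine Finset.sum_congr rfl fun j _ => ?_
      ring
    simp_rw [this]
    rw [Finset.sum_add_distrib, add_comm]
    congr 1
    rw [Finset.sum_comm]
    refine Finset.sum_congr rfl fun j _ => ?_
    rw [← Finset.sum_mul, hst j]

omit [Fintype κ] in
lemma gg_mem (A : Matrix (Fin n) (Fin n) ℝ) (hA : Stoch A) (b : κ → Fin n → ℝ)
    (hb : ∀ k i, b k i = 0 ∨ b k i = 1) (m : ℕ) (hm : 1 ≤ m) (r : ℕ) (k : κ) (i : Fin n) :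
    0 ≤ gg A m b r k i ∧ gg A m b r k i ≤ 1 := by
  have hG : Stoch (A ^ r * ces A m) := (hA.pow r).mul (hA.ces hm)
  have hb0 : ∀ j, 0 ≤ b k j := fun j => by rcases hb k j with h | h <;> simp [h]
  have hb1 : ∀ j, b k j ≤ 1 := fun j => by rcases hb k j with h | h <;> simp [h]
  constructor
  · exact Finset.sum_nonneg fun j _ => mul_nonneg (hG.1 i j) (hb0 j)
  · calc gg A m b r k i ≤ ∑ j, (A ^ r * ces A m) i j * 1 :=
          Finset.sum_le_sum fun j _ => mul_le_mul_of_nonneg_left (hb1 j) (hG.1 i j)
      _ = 1 := by simp_rw [mul_one]; exact hG.2 i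

/-- Martingale part: `∑_{r<T} E d(y_{r+1}(Z_0), y_r(Z_1))^2 ≤ 78 avg_τ δ²_{T+τ}`. -/
theorem mart_sum_bound (w : Fin n → ℝ) (A : Matrix (Fin n) (Fin n) ℝ) (hw : ∀ i, 0 ≤ w i)
    (hA : Stoch A) (hst : Stat w A) (μ : κ → ℝ) (hμ : ∀ k, 0 ≤ μ k) (b : κ → Fin n → ℝ)
    (hb : ∀ k i, b k i = 0 ∨ b k i = 1) (m : ℕ) (hm : 1 ≤ m) (T : ℕ) :
    ∑ r ∈ Finset.range T, ∑ i, ∑ j, w i * A i j *
        (∑ k, μ k * |uu A m b (r + 1) k i - uu A m b r k j|) ^ 2 ≤
      78 * ((1 / (m : ℝ)) * ∑ τ ∈ Finset.range m, del2 w A μ b (T + (τ + 1))) := by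
  classical
  rw [← sum_VV w A hst μ b m T]
  -- the pointwise bound
  have hpt : ∀ i0, VV A m μ b T i0 ≤ 78 * ∑ j, (A ^ T * ces A m) i0 j * dd μ b i0 j ^ 2 := by
    intro i0
    set p : ℕ → κ → Fin n → ℝ := fun r k i =>
      if b k i0 = 0 then gg A m b r k i else 1 - gg A m b r k i with hp
    set l : ℕ → Fin n → ℝ := fun r i => ∑ j, (A ^ r * ces A m) i j * dd μ b i0 j ^ 2 with hl
    have hphi : ∀ r r' k i j, |phi (p r k i) - phi (p r' k j)| =
        |uu A m b r k i - uu A m b r' k j| := by
      intro r r' k i j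
      simp only [hp, uu]
      split_ifs with h
      · rfl
      · rw [phi_symm, phi_symm, ← abs_neg]; congr 1; ring
    have hC : Stoch (ces A m) := hA.ces hm
    have key := mart_bound (fun i j => A i j) hA.1 hA.2 μ hμ p
      (fun k i => by
        simp only [hp]
        have := gg_mem A hA b hb m hm 0 k i
        split_ifs <;> linarith [this.1, this.2])
      (fun k i => by
        simp only [hp]
        have := gg_mem A hA b hb m hm 0 k i
        split_ifs <;> linarith [this.1, this.2])
      (fun r k i => by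
        simp only [hp]
        split_ifs with h
        · exact gg_succ A m b r k i
        · rw [gg_succ]
          simp_rw [mul_sub, mul_one]
          rw [Finset.sum_sub_distrib, hA.2 i])
      l
      (fun i => by
        have e : ∑ k, μ k * p 0 k i = ∑ j, ces A m i j * dd μ b i0 j := by
          have e1 : ∀ k, p 0 k i = ∑ j, ces A m i j * |b k i0 - b k j| := by
            intro k
            simp only [hp, gg, pow_zero, Matrix.one_mul]
            split_ifs with h
            · refine Finset.sum_congr rfl fun j _ => ?_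
              rw [h]
              rcases hb k j with h' | h' <;> rw [h'] <;> norm_num
            · have h1 : b k i0 = 1 := (hb k i0).resolve_left h
              rw [← hC.2 i, ← Finset.sum_sub_distrib]
              refine Finset.sum_congr rfl fun j _ => ?_
              rw [h1]
              rcases hb k j with h' | h' <;> rw [h'] <;> norm_num
          simp_rw [e1, dd, Finset.mul_sum]
          rw [Finset.sum_comm]
          refine Finset.sum_congr rfl fun j _ => Finset.sum_congr rfl fun k _ => ?_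
          ring
        rw [e]
        simp only [hl, pow_zero, Matrix.one_mul]
        exact jensen_sq _ _ (hC.1 i) (hC.2 i))
      (fun r i => by
        simp only [hl]
        rw [pow_succ', Matrix.mul_assoc, mul_apply_sum])
      (VV A m μ b) (fun i => rfl)
      (fun r i => by
        simp only [VV]
        refine Finset.sum_congr rfl fun j _ => ?_
        simp_rw [hphi])
    exact key T i0
  calc ∑ i, w i * VV A m μ b T i
      ≤ ∑ i, w i * (78 * ∑ j, (A ^ T * ces A m) i j * dd μ b i j ^ 2) :=
        Finset.sum_le_sum fun i _ => mul_le_mul_of_nonneg_left (hpt i) (hw i)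
    _ = 78 * ((1 / (m : ℝ)) * ∑ τ ∈ Finset.range m, del2 w A μ b (T + (τ + 1))) := by
        have hent : ∀ i j, (A ^ T * ces A m) i j =
            (1 / (m : ℝ)) * ∑ τ ∈ Finset.range m, (A ^ (T + (τ + 1))) i j := by
          intro i j
          unfold ces
          rw [Matrix.mul_smul, Matrix.smul_apply, Finset.mul_sum, Matrix.sum_apply, smul_eq_mul]
          simp_rw [pow_add]
        have hsw : ∑ τ ∈ Finset.range m, del2 w A μ b (T + (τ + 1)) =
            ∑ i, ∑ j, w i * (∑ τ ∈ Finset.range m, (A ^ (T + (τ + 1))) i j) * dd μ b i j ^ 2 := by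
          simp only [del2]
          rw [Finset.sum_comm]
          refine Finset.sum_congr rfl fun i _ => ?_
          rw [Finset.sum_comm]
          refine Finset.sum_congr rfl fun j _ => ?_
          rw [Finset.mul_sum, Finset.sum_mul]
        rw [hsw]
        simp_rw [hent]
        rw [Finset.mul_sum, Finset.mul_sum]
        refine Finset.sum_congr rfl fun i _ => ?_
        rw [Finset.mul_sum, Finset.mul_sum, Finset.mul_sum, Finset.mul_sum]
        refine Finset.sum_congr rfl fun j _ => ?_
        ring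

end Crest.Agent.Mc
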