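import Crest.Agent.Lib_helper9_McDefs

/-! Markov chain bookkeeping for S0171: Time. -/

set_option autoImplicit false

namespace Crest.Agent.Mc

open Finset

variable {n : ℕ} {κ : Type*} [Fintype κ]

lemma ces_telescope (A : Matrix (Fin n) (Fin n) ℝ) (m r : ℕ) :
    A ^ (r + 1) * ces A m - A ^ r * ces A m = (1 / (m : ℝ)) • (A ^ (r + 1) * (A ^ m - 1)) := by
  have h1 : A * (∑ τ ∈ Finset.range m, A ^ (τ + 1)) - ∑ τ ∈ Finset.range m, A ^ (τ + 1)
      = A ^ (m + 1) - A := by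
    rw [Finset.mul_sum, ← Finset.sum_sub_distrib]
    have : ∀ τ ∈ Finset.range m, A * A ^ (τ + 1) - A ^ (τ + 1) = A ^ ((τ + 1) + 1) - A ^ (τ + 1) := by
      intro τ _; rw [← pow_succ']
    rw [Finset.sum_congr rfl this, Finset.sum_range_sub (fun τ => A ^ (τ + 1))]
    simp
  unfold ces
  rw [Matrix.mul_smul, Matrix.mul_smul, ← smul_sub]
  congr 1
  have h2 : A * (A ^ m - 1) = A ^ (m + 1) - A := by
    rw [Matrix.mul_sub, Matrix.mul_one, ← pow_succ']
  rw [pow_succ, Matrix.mul_assoc, ← Matrix.mul_sub, h1, Matrix.mul_assoc, h2]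

omit [Fintype κ] in
lemma gg_diff (A : Matrix (Fin n) (Fin n) ℝ) (hA : Stoch A) (b : κ → Fin n → ℝ) (m r : ℕ) (k : κ)
    (i : Fin n) :
    gg A m b (r + 1) k i - gg A m b r k i =
      (1 / (m : ℝ)) * ∑ j, (A ^ (r + 1)) i j * ∑ l, (A ^ m) j l * (b k l - b k j) := by
  have e1 : gg A m b (r + 1) k i - gg A m b r k i
      = ((A ^ (r + 1) * ces A m - A ^ r * ces A m).mulVec (b k)) i := by
    rw [Matrix.sub_mulVec]
    rfl
  rw [e1, ces_telescope, Matrix.smul_mulVec, ← Matrix.mulVec_mulVec, Matrix.sub_mulVec,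
    Matrix.one_mulVec]
  simp only [Pi.smul_apply, smul_eq_mul]
  congr 1
  simp only [Matrix.mulVec, dotProduct, Pi.sub_apply]
  refine Finset.sum_congr rfl fun j _ => ?_
  congr 1
  simp_rw [mul_sub]
  rw [Finset.sum_sub_distrib, ← Finset.sum_mul, (hA.pow m).2 j, one_mul]

/-- Time difference: `E d(y_{r+1}, y_r)^2 ≤ (4/m²) δ²_m`. -/
theorem timediff_bound (w : Fin n → ℝ) (A : Matrix (Fin n) (Fin n) ℝ) (hw : ∀ i, 0 ≤ w i)
    (hA : Stoch A) (hst : Stat w A) (μ : κ → ℝ) (hμ : ∀ k, 0 ≤ μ k) (b : κ → Fin n → ℝ)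
    (m : ℕ) (hm : 1 ≤ m) (r : ℕ) :
    ∑ i, w i * (∑ k, μ k * |uu A m b (r + 1) k i - uu A m b r k i|) ^ 2 ≤
      4 / (m : ℝ) ^ 2 * del2 w A μ b m := by
  have hm0 : (0 : ℝ) < m := by exact_mod_cast hm
  have hP := hA.pow (r + 1)
  have hQ := hA.pow m
  set P := A ^ (r + 1) with hPd
  set Q := A ^ m with hQd
  have hdd0 : ∀ i j, 0 ≤ dd μ b i j := fun i j =>
    Finset.sum_nonneg fun k _ => mul_nonneg (hμ k) (abs_nonneg _)
  -- pointwise bound
  have hpt : ∀ i, ∑ k, μ k * |uu A m b (r + 1) k i - uu A m b r k i| ≤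
      2 / (m : ℝ) * ∑ j, P i j * ∑ l, Q j l * dd μ b j l := by
    intro i
    have h1 : ∀ k, μ k * |uu A m b (r + 1) k i - uu A m b r k i| ≤
        2 / (m : ℝ) * ∑ j, P i j * ∑ l, Q j l * (μ k * |b k j - b k l|) := by
      intro k
      have a1 : |uu A m b (r + 1) k i - uu A m b r k i| ≤
          2 * |gg A m b (r + 1) k i - gg A m b r k i| := phi_lip _ _
      have a2 : |gg A m b (r + 1) k i - gg A m b r k i| ≤
          (1 / (m : ℝ)) * ∑ j, P i j * ∑ l, Q j l * |b k j - b k l| := by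
        rw [gg_diff A hA, abs_mul, abs_of_nonneg (by positivity : (0:ℝ) ≤ 1 / (m : ℝ))]
        gcongr
        refine (Finset.abs_sum_le_sum_abs _ _).trans (Finset.sum_le_sum fun j _ => ?_)
        rw [abs_mul, abs_of_nonneg (hP.1 i j)]
        gcongr
        · exact hP.1 i j
        refine (Finset.abs_sum_le_sum_abs _ _).trans (Finset.sum_le_sum fun l _ => ?_)
        rw [abs_mul, abs_of_nonneg (hQ.1 j l), abs_sub_comm]
      calc μ k * |uu A m b (r + 1) k i - uu A m b r k i|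
          ≤ μ k * (2 * ((1 / (m : ℝ)) * ∑ j, P i j * ∑ l, Q j l * |b k j - b k l|)) := by
            gcongr
            · exact hμ k
            · exact a1.trans (by gcongr)
        _ = 2 / (m : ℝ) * ∑ j, P i j * ∑ l, Q j l * (μ k * |b k j - b k l|) := by
            simp_rw [Finset.mul_sum]
            refine Finset.sum_congr rfl fun j _ => Finset.sum_congr rfl fun l _ => ?_
            ring
    calc ∑ k, μ k * |uu A m b (r + 1) k i - uu A m b r k i|
        ≤ ∑ k, 2 / (m : ℝ) * ∑ j, P i j * ∑ l, Q j l * (μ k * |b k j - b k l|) :=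
          Finset.sum_le_sum fun k _ => h1 k
      _ = 2 / (m : ℝ) * ∑ j, P i j * ∑ l, Q j l * dd μ b j l := by
          rw [← Finset.mul_sum, Finset.sum_comm]
          congr 1
          refine Finset.sum_congr rfl fun j _ => ?_
          rw [← Finset.mul_sum, Finset.sum_comm]
          congr 1
          refine Finset.sum_congr rfl fun l _ => ?_
          rw [← Finset.mul_sum]
          rfl
  have hsq : ∀ i, (∑ k, μ k * |uu A m b (r + 1) k i - uu A m b r k i|) ^ 2 ≤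
      4 / (m : ℝ) ^ 2 * ∑ j, P i j * ∑ l, Q j l * dd μ b j l ^ 2 := by
    intro i
    have h0 : 0 ≤ ∑ k, μ k * |uu A m b (r + 1) k i - uu A m b r k i| :=
      Finset.sum_nonneg fun k _ => mul_nonneg (hμ k) (abs_nonneg _)
    calc (∑ k, μ k * |uu A m b (r + 1) k i - uu A m b r k i|) ^ 2
        ≤ (2 / (m : ℝ) * ∑ j, P i j * ∑ l, Q j l * dd μ b j l) ^ 2 :=
          pow_le_pow_left₀ h0 (hpt i) 2
      _ = 4 / (m : ℝ) ^ 2 * (∑ j, P i j * ∑ l, Q j l * dd μ b j l) ^ 2 := by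
          rw [mul_pow, div_pow]; norm_num
      _ ≤ 4 / (m : ℝ) ^ 2 * ∑ j, P i j * (∑ l, Q j l * dd μ b j l) ^ 2 := by
          gcongr
          exact jensen_sq _ _ (hP.1 i) (hP.2 i)
      _ ≤ 4 / (m : ℝ) ^ 2 * ∑ j, P i j * ∑ l, Q j l * dd μ b j l ^ 2 := by
          gcongr with j _
          · exact hP.1 i j
          · exact jensen_sq _ _ (hQ.1 j) (hQ.2 j)
  have hswap : ∀ (H : Fin n → ℝ) (c : ℝ),
      ∑ i, w i * (c * ∑ j, P i j * H j) = c * ∑ j, (∑ i, w i * P i j) * H j := by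
    intro H c
    simp_rw [Finset.mul_sum, Finset.sum_mul]
    rw [Finset.sum_comm]
    refine Finset.sum_congr rfl fun j _ => ?_
    rw [Finset.mul_sum]
    refine Finset.sum_congr rfl fun i _ => ?_
    ring
  calc ∑ i, w i * (∑ k, μ k * |uu A m b (r + 1) k i - uu A m b r k i|) ^ 2
      ≤ ∑ i, w i * (4 / (m : ℝ) ^ 2 * ∑ j, P i j * ∑ l, Q j l * dd μ b j l ^ 2) :=
        Finset.sum_le_sum fun i _ => mul_le_mul_of_nonneg_left (hsq i) (hw i)
    _ = 4 / (m : ℝ) ^ 2 * ∑ j, (∑ i, w i * P i j) * ∑ l, Q j l * dd μ b j l ^ 2 := by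
        exact hswap (fun j => ∑ l, Q j l * dd μ b j l ^ 2) _
    _ = 4 / (m : ℝ) ^ 2 * del2 w A μ b m := by
        congr 1
        unfold del2
        refine Finset.sum_congr rfl fun j _ => ?_
        rw [(hst.pow (r + 1)) j, Finset.mul_sum]
        refine Finset.sum_congr rfl fun l _ => ?_
        ring

end Crest.Agent.Mc
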