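import Crest.Agent.Lib_helper9_McTerm1
import Crest.Agent.Lib_helper9_McTime
import Crest.Agent.Lib_helper9_McMartSum

/-! Assembly of the finite "cut" version of S0171. -/

set_option autoImplicit false

namespace Crest.Agent.Mc

open Finset

variable {n : ℕ} {κ : Type*} [Fintype κ]

lemma del2_nonneg (w : Fin n → ℝ) (A : Matrix (Fin n) (Fin n) ℝ) (hw : ∀ i, 0 ≤ w i)
    (hA : Stoch A) (μ : κ → ℝ) (b : κ → Fin n → ℝ) (s : ℕ) : 0 ≤ del2 w A μ b s := by
  unfold del2
  exact Finset.sum_nonneg fun i _ => Finset.sum_nonneg fun j _ =>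
    mul_nonneg (mul_nonneg (hw i) ((hA.pow s).1 i j)) (sq_nonneg _)

/-- gradient of `u_r` in terms of the martingale increment and the time difference -/
lemma grad_le (w : Fin n → ℝ) (A : Matrix (Fin n) (Fin n) ℝ) (hw : ∀ i, 0 ≤ w i)
    (hA : Stoch A) (μ : κ → ℝ) (hμ : ∀ k, 0 ≤ μ k) (u u' : κ → Fin n → ℝ) :
    ∑ i, ∑ j, w i * A i j * (∑ k, μ k * |u k i - u k j|) ^ 2 ≤
      2 * (∑ i, ∑ j, w i * A i j * (∑ k, μ k * |u' k i - u k j|) ^ 2) +
      2 * ∑ i, w i * (∑ k, μ k * |u' k i - u k i|) ^ 2 := by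
  have h2 : ∑ i, w i * (∑ k, μ k * |u' k i - u k i|) ^ 2 =
      ∑ i, ∑ j, w i * A i j * (∑ k, μ k * |u' k i - u k i|) ^ 2 := by
    apply Finset.sum_congr rfl
    intro i _
    rw [← Finset.sum_mul, ← Finset.mul_sum, hA.2 i, mul_one]
  rw [h2, Finset.mul_sum, Finset.mul_sum, ← Finset.sum_add_distrib]
  apply Finset.sum_le_sum
  intro i _
  rw [Finset.mul_sum, Finset.mul_sum, ← Finset.sum_add_distrib]
  apply Finset.sum_le_sum
  intro j _
  have hc0 : 0 ≤ ∑ k, μ k * |u k i - u k j| :=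
    Finset.sum_nonneg fun k _ => mul_nonneg (hμ k) (abs_nonneg _)
  have hc : ∑ k, μ k * |u k i - u k j| ≤
      ∑ k, μ k * |u' k i - u k j| + ∑ k, μ k * |u' k i - u k i| := by
    rw [← Finset.sum_add_distrib]
    apply Finset.sum_le_sum
    intro k _
    rw [← mul_add]
    apply mul_le_mul_of_nonneg_left _ (hμ k)
    have : u k i - u k j = (u' k i - u k j) - (u' k i - u k i) := by ring
    rw [this]
    exact abs_sub _ _
  have hwA : 0 ≤ w i * A i j := mul_nonneg (hw i) (hA.1 i j)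
  set c := ∑ k, μ k * |u k i - u k j|
  set a := ∑ k, μ k * |u' k i - u k j|
  set e := ∑ k, μ k * |u' k i - u k i|
  have : c ^ 2 ≤ 2 * a ^ 2 + 2 * e ^ 2 := by
    have h1 : c ^ 2 ≤ (a + e) ^ 2 := by
      apply pow_le_pow_left₀ hc0 hc
    nlinarith [sq_nonneg (a - e)]
  nlinarith

/-- a window sum of `del2` is at most the full sum -/
lemma window_le (w : Fin n → ℝ) (A : Matrix (Fin n) (Fin n) ℝ) (hw : ∀ i, 0 ≤ w i)
    (hA : Stoch A) (μ : κ → ℝ) (b : κ → Fin n → ℝ) (m r t : ℕ) (h : r + m ≤ t) :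
    ∑ τ ∈ Finset.range m, del2 w A μ b (r + (τ + 1)) ≤ ∑ s ∈ Finset.Icc 1 t, del2 w A μ b s := by
  have h1 : ∑ τ ∈ Finset.range m, del2 w A μ b (r + (τ + 1)) =
      ∑ s ∈ (Finset.range m).image (fun τ => r + (τ + 1)), del2 w A μ b s := by
    rw [Finset.sum_image]
    intro x _ y _ hxy
    simp only at hxy
    omega
  rw [h1]
  apply Finset.sum_le_sum_of_subset_of_nonneg
  · intro s hs
    rw [Finset.mem_image] at hs
    obtain ⟨τ, hτ, rfl⟩ := hs
    rw [Finset.mem_range] at hτ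
    rw [Finset.mem_Icc]
    omega
  · intro s _ _
    exact del2_nonneg w A hw hA μ b s

/-- The finite "cut" version of the theorem. -/
theorem core (t : ℕ) (ht : 1 ≤ t)
    (w : Fin n → ℝ) (A : Matrix (Fin n) (Fin n) ℝ) (hw : ∀ i, 0 ≤ w i)
    (hA : ∀ i j, 0 ≤ A i j) (hA1 : ∀ i, ∑ j, A i j = 1)
    (hrev : ∀ i j, w i * A i j = w j * A j i)
    (μ : κ → ℝ) (hμ : ∀ k, 0 ≤ μ k) (b : κ → Fin n → ℝ) (hb : ∀ k i, b k i = 0 ∨ b k i = 1) :
    ∃ u : κ → Fin n → ℝ,
      ∑ i, w i * (∑ k, μ k * |b k i - u k i|) ^ 2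
        + t * ∑ i, ∑ j, w i * A i j * (∑ k, μ k * |u k i - u k j|) ^ 2
      ≤ 3024 * ((1 / (t : ℝ)) * ∑ s ∈ Finset.Icc 1 t, del2 w A μ b s) := by
  have hS : Stoch A := ⟨hA, hA1⟩
  have hst : Stat w A := Stat.of_rev hA1 hrev
  set S := ∑ s ∈ Finset.Icc 1 t, del2 w A μ b s with hSdef
  have hS0 : 0 ≤ S := Finset.sum_nonneg fun s _ => del2_nonneg w A hw hS μ b s
  have ht0 : (0 : ℝ) < t := by exact_mod_cast ht
  rcases Nat.lt_or_ge t 2 with ht2 | ht2
  · -- t = 1
    have ht1 : t = 1 := by omega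
    refine ⟨b, ?_⟩
    have hS1 : S = del2 w A μ b 1 := by
      rw [hSdef, ht1]; simp
    have h1 : ∑ i, ∑ j, w i * A i j * (∑ k, μ k * |b k i - b k j|) ^ 2 = del2 w A μ b 1 := by
      unfold del2 dd
      simp
    rw [h1, hS1, ht1]
    have := del2_nonneg w A hw hS μ b 1
    simp
    linarith
  · set m := t / 2 with hm
    have hm1 : 1 ≤ m := by omega
    have h2m : m + m ≤ t := by omega
    have h3m : t ≤ 3 * m := by omega
    have hm0 : (0 : ℝ) < m := by exact_mod_cast hm1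
    have h3m' : (t : ℝ) ≤ 3 * m := by exact_mod_cast h3m
    -- the functional
    set F : ℕ → ℝ := fun r => ∑ i, w i * (∑ k, μ k * |b k i - uu A m b r k i|) ^ 2
        + t * ∑ i, ∑ j, w i * A i j * (∑ k, μ k * |uu A m b r k i - uu A m b r k j|) ^ 2 with hF
    have hsum : ∑ r ∈ Finset.range m, F r ≤ (4 + 164 * (t / m)) * S := by
      have hFr : ∀ r ∈ Finset.range m, F r ≤ 4 * ((1 / (m : ℝ)) * S)
          + t * (2 * (∑ i, ∑ j, w i * A i j *
              (∑ k, μ k * |uu A m b (r + 1) k i - uu A m b r k j|) ^ 2)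
            + 2 * (4 / (m : ℝ) ^ 2 * S)) := by
        intro r hr
        rw [Finset.mem_range] at hr
        have e1 := term1_bound w A hw hS μ hμ b hb m hm1 r
        have e1' := window_le w A hw hS μ b m r t (by omega)
        have e2 := timediff_bound w A hw hS hst μ hμ b m hm1 r
        have e2' : del2 w A μ b m ≤ S := by
          apply Finset.single_le_sum (f := fun s => del2 w A μ b s)
            (fun s _ => del2_nonneg w A hw hS μ b s)
          rw [Finset.mem_Icc]; omega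
        have e3 := grad_le w A hw hS μ hμ (uu A m b r) (uu A m b (r + 1))
        have e4 : 4 * ((1 / (m : ℝ)) * ∑ τ ∈ Finset.range m, del2 w A μ b (r + (τ + 1)))
            ≤ 4 * ((1 / (m : ℝ)) * S) := by
          apply mul_le_mul_of_nonneg_left _ (by norm_num)
          apply mul_le_mul_of_nonneg_left e1' (by positivity)
        have e5 : 4 / (m : ℝ) ^ 2 * del2 w A μ b m ≤ 4 / (m : ℝ) ^ 2 * S :=
          mul_le_mul_of_nonneg_left e2' (by positivity)
        have e6 : (t : ℝ) * ∑ i, ∑ j, w i * A i j *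
              (∑ k, μ k * |uu A m b r k i - uu A m b r k j|) ^ 2 ≤
            t * (2 * (∑ i, ∑ j, w i * A i j *
              (∑ k, μ k * |uu A m b (r + 1) k i - uu A m b r k j|) ^ 2)
            + 2 * (4 / (m : ℝ) ^ 2 * S)) := by
          apply mul_le_mul_of_nonneg_left _ ht0.le
          linarith
        simp only [hF]
        linarith
      have e7 := mart_sum_bound w A hw hS hst μ hμ b hb m hm1 m
      have e7' := window_le w A hw hS μ b m m t h2m
      have e8 : ∑ r ∈ Finset.range m, ∑ i, ∑ j, w i * A i j *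
          (∑ k, μ k * |uu A m b (r + 1) k i - uu A m b r k j|) ^ 2 ≤ 78 * ((1 / (m : ℝ)) * S) := by
        refine e7.trans ?_
        apply mul_le_mul_of_nonneg_left _ (by norm_num)
        apply mul_le_mul_of_nonneg_left e7' (by positivity)
      calc ∑ r ∈ Finset.range m, F r
          ≤ ∑ r ∈ Finset.range m, (4 * ((1 / (m : ℝ)) * S)
          + t * (2 * (∑ i, ∑ j, w i * A i j *
              (∑ k, μ k * |uu A m b (r + 1) k i - uu A m b r k j|) ^ 2)
            + 2 * (4 / (m : ℝ) ^ 2 * S))) := Finset.sum_le_sum hFr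
        _ = m * (4 * ((1 / (m : ℝ)) * S)) + t * (2 * ∑ r ∈ Finset.range m, (∑ i, ∑ j, w i * A i j *
              (∑ k, μ k * |uu A m b (r + 1) k i - uu A m b r k j|) ^ 2)
            + m * (2 * (4 / (m : ℝ) ^ 2 * S))) := by
            rw [Finset.sum_add_distrib, Finset.sum_const, Finset.card_range, nsmul_eq_mul,
              ← Finset.mul_sum, Finset.sum_add_distrib, ← Finset.mul_sum, Finset.sum_const,
              Finset.card_range, nsmul_eq_mul]
        _ ≤ m * (4 * ((1 / (m : ℝ)) * S)) + t * (2 * (78 * ((1 / (m : ℝ)) * S))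
            + m * (2 * (4 / (m : ℝ) ^ 2 * S))) := by
            have : (t : ℝ) * (2 * ∑ r ∈ Finset.range m, (∑ i, ∑ j, w i * A i j *
              (∑ k, μ k * |uu A m b (r + 1) k i - uu A m b r k j|) ^ 2)
              + m * (2 * (4 / (m : ℝ) ^ 2 * S))) ≤ t * (2 * (78 * ((1 / (m : ℝ)) * S))
              + m * (2 * (4 / (m : ℝ) ^ 2 * S))) := by
              apply mul_le_mul_of_nonneg_left _ ht0.le
              linarith
            linarith
        _ = (4 + 164 * (t / m)) * S := by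
            field_simp
            ring
    -- pigeonhole
    obtain ⟨r, hr, hrle⟩ : ∃ r ∈ Finset.range m, F r ≤ (4 + 164 * (t / m)) * S / m := by
      by_contra hcon
      push Not at hcon
      have : ∑ r ∈ Finset.range m, (4 + 164 * ((t : ℝ) / m)) * S / m < ∑ r ∈ Finset.range m, F r := by
        apply Finset.sum_lt_sum_of_nonempty
        · exact ⟨0, Finset.mem_range.mpr hm1⟩
        · exact hcon
      rw [Finset.sum_const, Finset.card_range, nsmul_eq_mul] at this
      have h' : (m : ℝ) * ((4 + 164 * ((t : ℝ) / m)) * S / m) = (4 + 164 * ((t : ℝ) / m)) * S := by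
        field_simp
      rw [h'] at this
      linarith
    refine ⟨uu A m b r, hrle.trans ?_⟩
    -- arithmetic: (4 + 164 t/m)/m ≤ 3024/t
    have hq : (t : ℝ) / m ≤ 3 := by
      rw [div_le_iff₀ hm0]; exact h3m'
    have hq0 : 0 ≤ (t : ℝ) / m := by positivity
    have key : (4 + 164 * ((t : ℝ) / m)) / m ≤ 3024 * (1 / (t : ℝ)) := by
      have : (4 + 164 * ((t : ℝ) / m)) / m = (4 + 164 * ((t : ℝ) / m)) * ((t : ℝ) / m) * (1 / t) := by
        field_simp
      rw [this]
      apply mul_le_mul_of_nonneg_right _ (by positivity)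
      nlinarith
    calc (4 + 164 * ((t : ℝ) / m)) * S / m = (4 + 164 * ((t : ℝ) / m)) / m * S := by ring
      _ ≤ 3024 * (1 / (t : ℝ)) * S := mul_le_mul_of_nonneg_right key hS0
      _ = 3024 * ((1 / (t : ℝ)) * S) := by ring

end Crest.Agent.Mc
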