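import Crest.Agent.Lib_helper9_McDefs

/-! Cut decomposition of finitely many points of little l1. -/

set_option autoImplicit false

namespace Crest.Agent.Mc

open Finset

/-- indicator of a finset as a real number -/
def ind {n : ℕ} (S : Finset (Fin n)) (i : Fin n) : ℝ := if i ∈ S then 1 else 0

lemma sum_range_ite_lt (ω : ℕ → ℝ) (n a : ℕ) (ha : a ≤ n) :
    ∑ k ∈ Finset.range n, ω k * (if k < a then (1 : ℝ) else 0) = ∑ k ∈ Finset.range a, ω k := by
  simp_rw [mul_ite, mul_one, mul_zero]
  rw [← Finset.sum_filter]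
  congr 1
  ext k
  simp only [Finset.mem_filter, Finset.mem_range]
  omega

/-- Cut decomposition of a finite real vector. -/
theorem cut_decomp {n : ℕ} (v : Fin n → ℝ) :
    ∃ lam : Finset (Fin n) → ℝ, (∀ S, 0 ≤ lam S) ∧ (∀ S, lam S ≤ 2 * ∑ i, |v i|) ∧
      (∀ i j, v i - v j = ∑ S, lam S * (ind S i - ind S j)) ∧
      (∀ i j, |v i - v j| = ∑ S, lam S * |ind S i - ind S j|) := by
  classical
  rcases Nat.eq_zero_or_pos n with hn | hn
  · subst hn
    refine ⟨fun _ => 0, fun _ => le_rfl, fun _ => by simp, fun i => i.elim0, fun i => i.elim0⟩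
  set σ := Tuple.sort v with hσ
  have hmono : Monotone (v ∘ σ) := Tuple.monotone_sort v
  set F : ℕ → ℝ := fun k => v (σ ⟨min k (n - 1), by omega⟩) with hF
  have hFm : Monotone F := by
    intro k k' hk
    apply hmono
    rw [Fin.le_def]
    simp only
    omega
  set pos : Fin n → ℕ := fun i => (σ.symm i).val with hpos
  have hposlt : ∀ i, pos i < n := fun i => (σ.symm i).isLt
  have hv : ∀ i, v i = F (pos i) := by
    intro i
    simp only [hF, hpos]
    have : (⟨min (σ.symm i).val (n - 1), by omega⟩ : Fin n) = σ.symm i := by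
      apply Fin.ext
      simp only
      have := (σ.symm i).isLt
      omega
    rw [this, Equiv.apply_symm_apply]
  set ω : ℕ → ℝ := fun k => F (k + 1) - F k with hω
  have hω0 : ∀ k, 0 ≤ ω k := fun k => sub_nonneg.mpr (hFm (Nat.le_succ k))
  set Sk : ℕ → Finset (Fin n) := fun k => Finset.univ.filter (fun i => k < pos i) with hSk
  have hind : ∀ k i, ind (Sk k) i = if k < pos i then (1 : ℝ) else 0 := by
    intro k i
    simp [ind, hSk]
  set lam : Finset (Fin n) → ℝ := fun S => ∑ k ∈ Finset.range n, if Sk k = S then ω k else 0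
    with hlam
  have key : ∀ G : Finset (Fin n) → ℝ, ∑ S, lam S * G S = ∑ k ∈ Finset.range n, ω k * G (Sk k) := by
    intro G
    simp only [hlam]
    simp_rw [Finset.sum_mul]
    rw [Finset.sum_comm]
    apply Finset.sum_congr rfl
    intro k _
    simp_rw [ite_mul, zero_mul]
    rw [Finset.sum_ite_eq]
    simp
  have hH : ∀ a, a ≤ n → ∑ k ∈ Finset.range n, ω k * (if k < a then (1 : ℝ) else 0) = F a - F 0 := by
    intro a ha
    rw [sum_range_ite_lt ω n a ha]
    exact Finset.sum_range_sub F a
  have hlin : ∀ i j, ∑ k ∈ Finset.range n, ω k * (ind (Sk k) i - ind (Sk k) j) = v i - v j := by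
    intro i j
    simp_rw [mul_sub, hind]
    rw [Finset.sum_sub_distrib, hH _ (hposlt i).le, hH _ (hposlt j).le, hv i, hv j]
    ring
  have habs : ∀ i j, pos i ≤ pos j →
      ∑ k ∈ Finset.range n, ω k * |ind (Sk k) i - ind (Sk k) j| = |v i - v j| := by
    intro i j hij
    have h1 : ∀ k, |ind (Sk k) i - ind (Sk k) j| = ind (Sk k) j - ind (Sk k) i := by
      intro k
      rw [hind, hind]
      by_cases h1 : k < pos i
      · have h2 : k < pos j := lt_of_lt_of_le h1 hij
        simp [h1, h2]
      · by_cases h2 : k < pos j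
        · simp [h1, h2]
        · simp [h1, h2]
    simp_rw [h1]
    rw [hlin j i, abs_sub_comm, abs_of_nonneg]
    rw [hv i, hv j]
    exact sub_nonneg.mpr (hFm hij)
  refine ⟨lam, ?_, ?_, ?_, ?_⟩
  · intro S
    apply Finset.sum_nonneg
    intro k _
    split_ifs
    · exact hω0 k
    · exact le_rfl
  · intro S
    have h1 : lam S ≤ ∑ k ∈ Finset.range n, ω k := by
      apply Finset.sum_le_sum
      intro k _
      split_ifs
      · exact le_rfl
      · exact hω0 k
    have h2 : ∑ k ∈ Finset.range n, ω k = F n - F 0 := Finset.sum_range_sub F n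
    have h3 : ∀ k, |F k| ≤ ∑ i, |v i| := by
      intro k
      exact Finset.single_le_sum (f := fun i => |v i|) (fun i _ => abs_nonneg _) (Finset.mem_univ _)
    have h4 := h3 n
    have h5 := h3 0
    have h6 := le_abs_self (F n)
    have h7 := neg_abs_le (F 0)
    linarith
  · intro i j
    rw [key (fun S => ind S i - ind S j), hlin]
  · intro i j
    rw [key (fun S => |ind S i - ind S j|)]
    rcases le_total (pos i) (pos j) with h | h
    · exact (habs i j h).symm
    · have := habs j i h
      rw [abs_sub_comm (v i) (v j), ← this]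
      apply Finset.sum_congr rfl
      intro k _
      rw [abs_sub_comm]

end Crest.Agent.Mc
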