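import Crest.Agent.Lib_helper9_McCutDecomp

/-! Cut decomposition of finitely many points of little l1. -/

set_option autoImplicit false

namespace Crest.Agent.Mc

open Finset

lemma l1_summable (f : lp (fun _ : ℕ => ℝ) 1) : Summable (fun c => |f c|) := by
  have h := (lp.memℓp f).summable (by simp)
  simpa using h

lemma l1_norm (f : lp (fun _ : ℕ => ℝ) 1) : ‖f‖ = ∑' c, |f c| := by
  have h := lp.norm_eq_tsum_rpow (p := 1) (by simp) f
  simpa using h

/-- Cut decomposition of finitely many points of l1. -/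
theorem cuts_of_l1 {n : ℕ} (x : Fin n → lp (fun _ : ℕ => ℝ) 1) :
    ∃ L : Finset (Fin n) → lp (fun _ : ℕ => ℝ) 1,
      (∀ i j, x i - x j = ∑ S, (ind S i - ind S j) • L S) ∧
      (∀ i j, ∑ S, ‖L S‖ * |ind S i - ind S j| ≤ ‖x i - x j‖) := by
  classical
  choose lam hlam0 hlamb hlam1 hlam2 using fun c : ℕ => cut_decomp (fun i => x i c)
  have hsumb : Summable (fun c : ℕ => 2 * ∑ i, |x i c|) :=
    (summable_sum fun i _ => l1_summable (x i)).mul_left 2
  have hsum : ∀ S, Summable (fun c : ℕ => lam c S) := fun S =>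
    Summable.of_nonneg_of_le (fun c => hlam0 c S) (fun c => hlamb c S) hsumb
  have hmem : ∀ S, Memℓp (fun c : ℕ => lam c S) 1 := by
    intro S
    rw [memℓp_gen_iff (by simp)]
    simpa [abs_of_nonneg (hlam0 _ S)] using hsum S
  refine ⟨fun S => ⟨fun c => lam c S, hmem S⟩, ?_, ?_⟩
  · intro i j
    ext c
    rw [lp.coeFn_sub, lp.coeFn_sum]
    simp only [Pi.sub_apply, Finset.sum_apply, lp.coeFn_smul, Pi.smul_apply, smul_eq_mul]
    rw [hlam1 c i j]
    refine Finset.sum_congr rfl fun S _ => ?_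
    ring
  · intro i j
    have hn : ∀ S, ‖(⟨fun c => lam c S, hmem S⟩ : lp (fun _ : ℕ => ℝ) 1)‖ = ∑' c, lam c S := by
      intro S
      rw [l1_norm]
      refine tsum_congr fun c => ?_
      exact abs_of_nonneg (hlam0 c S)
    simp_rw [hn, ← tsum_mul_right]
    rw [← Summable.tsum_finsetSum (fun S _ => (hsum S).mul_right _), l1_norm]
    apply le_of_eq
    refine tsum_congr fun c => ?_
    rw [lp.coeFn_sub]
    exact (hlam2 c i j).symm

end Crest.Agent.Mc
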