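import Mathlib

/-! Definitions and elementary lemmas for S0171 (metric Markov cotype 2 of little l1). -/

set_option autoImplicit false

namespace Crest.Agent.Mc

open Finset

/-- The truncation `p ↦ clamp (2p - 1/2)` to `[0,1]`. -/
noncomputable def phi (p : ℝ) : ℝ := max 0 (min 1 (2 * p - 1 / 2))

lemma phi_nonneg (p : ℝ) : 0 ≤ phi p := le_max_left _ _

lemma phi_le_one (p : ℝ) : phi p ≤ 1 := max_le zero_le_one (min_le_left _ _)

lemma phi_eq_zero {p : ℝ} (h : p ≤ 1 / 4) : phi p = 0 := by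
  unfold phi
  apply max_eq_left
  apply (min_le_right _ _).trans
  linarith

lemma phi_le_two_mul {p : ℝ} (h : 0 ≤ p) : phi p ≤ 2 * p := by
  unfold phi
  apply max_le (by linarith)
  apply (min_le_right _ _).trans
  linarith

lemma phi_symm (p : ℝ) : phi (1 - p) = 1 - phi p := by
  unfold phi
  rcases le_total (2 * p - 1 / 2) 0 with h | h
  · rw [min_eq_right (by linarith : 2 * p - 1 / 2 ≤ 1), max_eq_left h,
      min_eq_left (by linarith : (1:ℝ) ≤ 2 * (1 - p) - 1 / 2), max_eq_right zero_le_one]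
    ring
  · rcases le_total (2 * p - 1 / 2) 1 with h1 | h1
    · rw [min_eq_right h1, max_eq_right h,
        min_eq_right (by linarith : 2 * (1 - p) - 1 / 2 ≤ 1),
        max_eq_right (by linarith : (0:ℝ) ≤ 2 * (1 - p) - 1 / 2)]
      ring
    · rw [min_eq_left h1, max_eq_right zero_le_one,
        min_eq_right (by linarith : 2 * (1 - p) - 1 / 2 ≤ 1),
        max_eq_left (by linarith : 2 * (1 - p) - 1 / 2 ≤ 0)]
      ring

lemma phi_lip (p q : ℝ) : |phi p - phi q| ≤ 2 * |p - q| := by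
  unfold phi
  calc |max 0 (min 1 (2 * p - 1 / 2)) - max 0 (min 1 (2 * q - 1 / 2))|
      ≤ |min 1 (2 * p - 1 / 2) - min 1 (2 * q - 1 / 2)| := by
        simpa using abs_max_sub_max_le_max 0 (min 1 (2 * p - 1 / 2)) 0 (min 1 (2 * q - 1 / 2))
    _ ≤ |(2 * p - 1 / 2) - (2 * q - 1 / 2)| := by
        simpa using abs_min_sub_min_le_max 1 (2 * p - 1 / 2) 1 (2 * q - 1 / 2)
    _ = 2 * |p - q| := by
        rw [show (2 * p - 1 / 2) - (2 * q - 1 / 2) = 2 * (p - q) by ring, abs_mul]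
        norm_num

/-- Jensen's inequality for the square and a finite probability vector. -/
lemma jensen_sq {ι : Type*} [Fintype ι] (a ξ : ι → ℝ) (ha : ∀ j, 0 ≤ a j)
    (ha1 : ∑ j, a j = 1) : (∑ j, a j * ξ j) ^ 2 ≤ ∑ j, a j * ξ j ^ 2 := by
  set c := ∑ j, a j * ξ j with hc
  have h : 0 ≤ ∑ j, a j * (ξ j - c) ^ 2 :=
    Finset.sum_nonneg fun j _ => mul_nonneg (ha j) (sq_nonneg _)
  have h2 : ∑ j, a j * (ξ j - c) ^ 2 = ∑ j, a j * ξ j ^ 2 - c ^ 2 := by
    have : ∀ j, a j * (ξ j - c) ^ 2 = a j * ξ j ^ 2 - 2 * c * (a j * ξ j) + c ^ 2 * a j := by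
      intro j; ring
    simp_rw [this]
    rw [Finset.sum_add_distrib, Finset.sum_sub_distrib, ← Finset.mul_sum, ← Finset.mul_sum, ha1,
      ← hc]
    ring
  linarith

/-- Cauchy–Schwarz in the form used here. -/
lemma sq_sum_le_mul {κ : Type*} [Fintype κ] (x a b : κ → ℝ) (ha : ∀ k, 0 ≤ a k)
    (hb : ∀ k, 0 ≤ b k) (h : ∀ k, x k ^ 2 ≤ a k * b k) :
    (∑ k, x k) ^ 2 ≤ (∑ k, a k) * ∑ k, b k := by
  have key : ∀ s : ℝ, 0 ≤ (∑ k, a k) * (s * s) + (-2 * ∑ k, x k) * s + ∑ k, b k := by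
    intro s
    have h1 : ∀ k, 0 ≤ a k * (s * s) + (-2 * x k) * s + b k := by
      intro k
      rcases (ha k).eq_or_lt with h0 | h0
      · have hx : x k = 0 := by
          have := h k
          rw [← h0, zero_mul] at this
          exact pow_eq_zero_iff (two_ne_zero) |>.mp (le_antisymm this (sq_nonneg _))
        rw [← h0, hx]
        simpa using hb k
      · have : 0 ≤ a k * (a k * (s * s) + (-2 * x k) * s + b k) := by
          have h3 := h k
          nlinarith [sq_nonneg (a k * s - x k)]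
        exact nonneg_of_mul_nonneg_right this h0
    have h2 : ∑ k, (a k * (s * s) + (-2 * x k) * s + b k)
        = (∑ k, a k) * (s * s) + (-2 * ∑ k, x k) * s + ∑ k, b k := by
      rw [Finset.sum_add_distrib, Finset.sum_add_distrib, Finset.sum_mul, Finset.mul_sum,
        Finset.sum_mul]
    rw [← h2]
    exact Finset.sum_nonneg fun k _ => h1 k
  have := discrim_le_zero key
  unfold discrim at this
  nlinarith

section chain

variable {n : ℕ}

/-- Row-stochastic matrices. -/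
def Stoch (M : Matrix (Fin n) (Fin n) ℝ) : Prop :=
  (∀ i j, 0 ≤ M i j) ∧ ∀ i, ∑ j, M i j = 1

/-- `w` is stationary for `M`. -/
def Stat (w : Fin n → ℝ) (M : Matrix (Fin n) (Fin n) ℝ) : Prop :=
  ∀ j, ∑ i, w i * M i j = w j

lemma Stoch.one : Stoch (1 : Matrix (Fin n) (Fin n) ℝ) := by
  refine ⟨fun i j => ?_, fun i => ?_⟩
  · rw [Matrix.one_apply]; split_ifs <;> norm_num
  · simp [Matrix.one_apply]

lemma Stoch.mul {M N : Matrix (Fin n) (Fin n) ℝ} (hM : Stoch M) (hN : Stoch N) :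
    Stoch (M * N) := by
  refine ⟨fun i j => ?_, fun i => ?_⟩
  · rw [Matrix.mul_apply]
    exact Finset.sum_nonneg fun k _ => mul_nonneg (hM.1 i k) (hN.1 k j)
  · simp_rw [Matrix.mul_apply]
    rw [Finset.sum_comm]
    simp_rw [← Finset.mul_sum, hN.2, mul_one, hM.2]

lemma Stoch.pow {M : Matrix (Fin n) (Fin n) ℝ} (hM : Stoch M) (s : ℕ) : Stoch (M ^ s) := by
  induction s with
  | zero => simpa using Stoch.one
  | succ s ih => rw [pow_succ]; exact ih.mul hM

lemma Stat.one (w : Fin n → ℝ) : Stat w (1 : Matrix (Fin n) (Fin n) ℝ) := by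
  intro j
  simp [Matrix.one_apply]

lemma Stat.mul {w : Fin n → ℝ} {M N : Matrix (Fin n) (Fin n) ℝ} (hM : Stat w M) (hN : Stat w N) :
    Stat w (M * N) := by
  intro j
  simp_rw [Matrix.mul_apply, Finset.mul_sum]
  rw [Finset.sum_comm]
  simp_rw [← mul_assoc, ← Finset.sum_mul, hM _, hN j]

lemma Stat.pow {w : Fin n → ℝ} {M : Matrix (Fin n) (Fin n) ℝ} (hM : Stat w M) (s : ℕ) :
    Stat w (M ^ s) := by
  induction s with
  | zero => simpa using Stat.one w
  | succ s ih => rw [pow_succ]; exact ih.mul hM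

/-- Reversibility plus row sums one gives stationarity. -/
lemma Stat.of_rev {w : Fin n → ℝ} {A : Matrix (Fin n) (Fin n) ℝ} (hA1 : ∀ i, ∑ j, A i j = 1)
    (hrev : ∀ i j, w i * A i j = w j * A j i) : Stat w A := by
  intro j
  simp_rw [hrev _ j, ← Finset.mul_sum, hA1, mul_one]

/-- The Cesàro kernel `(1/m) ∑_{τ=1}^{m} A^τ`. -/
noncomputable def ces (A : Matrix (Fin n) (Fin n) ℝ) (m : ℕ) : Matrix (Fin n) (Fin n) ℝ :=
  (1 / (m : ℝ)) • ∑ τ ∈ Finset.range m, A ^ (τ + 1)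

lemma ces_apply (A : Matrix (Fin n) (Fin n) ℝ) (m : ℕ) (i j : Fin n) :
    ces A m i j = (1 / (m : ℝ)) * ∑ τ ∈ Finset.range m, (A ^ (τ + 1)) i j := by
  unfold ces
  rw [Matrix.smul_apply, Matrix.sum_apply, smul_eq_mul]

lemma Stoch.ces {A : Matrix (Fin n) (Fin n) ℝ} (hA : Stoch A) {m : ℕ} (hm : 1 ≤ m) :
    Stoch (ces A m) := by
  have hm0 : (0 : ℝ) < m := by exact_mod_cast hm
  refine ⟨fun i j => ?_, fun i => ?_⟩
  · rw [ces_apply]
    exact mul_nonneg (by positivity) (Finset.sum_nonneg fun τ _ => (hA.pow _).1 i j)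
  · simp_rw [ces_apply]
    rw [← Finset.mul_sum, Finset.sum_comm]
    simp_rw [(hA.pow _).2]
    simp
    field_simp

variable {κ : Type*} [Fintype κ]

/-- The cut (semi)metric. -/
def dd (μ : κ → ℝ) (b : κ → Fin n → ℝ) (i j : Fin n) : ℝ := ∑ k, μ k * |b k i - b k j|

/-- `E d(Z_0, Z_s)^2` for the stationary chain. -/
def del2 (w : Fin n → ℝ) (A : Matrix (Fin n) (Fin n) ℝ) (μ : κ → ℝ) (b : κ → Fin n → ℝ) (s : ℕ) :
    ℝ := ∑ i, ∑ j, w i * (A ^ s) i j * dd μ b i j ^ 2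

/-- `g_r^k = A^r (ces A m) b_k`. -/
noncomputable def gg (A : Matrix (Fin n) (Fin n) ℝ) (m : ℕ) (b : κ → Fin n → ℝ) (r : ℕ) (k : κ)
    (i : Fin n) : ℝ := ∑ j, (A ^ r * ces A m) i j * b k j

/-- `u_r^k = phi (g_r^k)`. -/
noncomputable def uu (A : Matrix (Fin n) (Fin n) ℝ) (m : ℕ) (b : κ → Fin n → ℝ) (r : ℕ) (k : κ)
    (i : Fin n) : ℝ := phi (gg A m b r k i)

end chain

end Crest.Agent.Mc
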