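import Crest.Agent.Lib_helper9_McDefs

/-! The truncated L1 martingale cotype-2 inequality, in value-function form. -/

set_option autoImplicit false

namespace Crest.Agent.Mc

open Finset

section mart

variable {ι κ : Type*} [Fintype ι] [Fintype κ]
variable (A : ι → ι → ℝ) (μ : κ → ℝ) (p : ℕ → κ → ι → ℝ)

/-- `n_r(i) = ∑ μ_k p_r^k(i)` -/
def nn (r : ℕ) (i : ι) : ℝ := ∑ k, μ k * p r k i

/-- quadratic increment -/
noncomputable def qq (r : ℕ) (i j : ι) : ℝ :=
  4 * ∑ k, μ k * (phi (p (r + 1) k i) - phi (p r k j)) ^ 2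

/-- l1 increment -/
noncomputable def aa (r : ℕ) (i j : ι) : ℝ :=
  ∑ k, μ k * |phi (p (r + 1) k i) - phi (p r k j)|

/-- value function of `∑ q` -/
noncomputable def UU : ℕ → ι → ℝ
  | 0 => fun _ => 0
  | r + 1 => fun i => ∑ j, A i j * (qq μ p r i j + UU r j)

/-- value function of `∑ n_s q_s` -/
noncomputable def XX : ℕ → ι → ℝ
  | 0 => fun _ => 0
  | r + 1 => fun i => ∑ j, A i j * (nn μ p (r + 1) i * qq μ p r i j + XX r j)

/-- value function of `∑ n_{s+1} q_s` -/
noncomputable def YY : ℕ → ι → ℝ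
  | 0 => fun _ => 0
  | r + 1 => fun i => ∑ j, A i j * (nn μ p r j * qq μ p r i j + YY r j)

variable {A μ p}
variable (hA : ∀ i j, 0 ≤ A i j) (hA1 : ∀ i, ∑ j, A i j = 1) (hμ : ∀ k, 0 ≤ μ k)
  (hp0 : ∀ k i, 0 ≤ p 0 k i) (hp1 : ∀ k i, p 0 k i ≤ 1)
  (hps : ∀ r k i, p (r + 1) k i = ∑ j, A i j * p r k j)

include hA hp0 hps in
lemma p_nonneg (r : ℕ) (k : κ) (i : ι) : 0 ≤ p r k i := by
  induction r generalizing i with
  | zero => exact hp0 k i
  | succ r ih =>
    rw [hps]
    exact Finset.sum_nonneg fun j _ => mul_nonneg (hA i j) (ih j)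

include hA hA1 hp1 hps in
lemma p_le_one (r : ℕ) (k : κ) (i : ι) : p r k i ≤ 1 := by
  induction r generalizing i with
  | zero => exact hp1 k i
  | succ r ih =>
    rw [hps, ← hA1 i]
    apply Finset.sum_le_sum
    intro j _
    have := mul_le_mul_of_nonneg_left (ih j) (hA i j)
    linarith

include hA hμ hp0 hps in
lemma nn_nonneg (r : ℕ) (i : ι) : 0 ≤ nn μ p r i :=
  Finset.sum_nonneg fun k _ => mul_nonneg (hμ k) (p_nonneg hA hp0 hps r k i)

include hps in
lemma nn_succ (r : ℕ) (i : ι) : nn μ p (r + 1) i = ∑ j, A i j * nn μ p r j := by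
  unfold nn
  simp_rw [hps, Finset.mul_sum]
  rw [Finset.sum_comm]
  apply Finset.sum_congr rfl
  intro j _
  apply Finset.sum_congr rfl
  intro k _
  ring

include hμ in
lemma qq_nonneg (r : ℕ) (i j : ι) : 0 ≤ qq μ p r i j := by
  unfold qq
  exact mul_nonneg (by norm_num) (Finset.sum_nonneg fun k _ => mul_nonneg (hμ k) (sq_nonneg _))

/-- pointwise facts on `phi` increments -/
lemma phi_inc_sq_le {a b : ℝ} (ha : 0 ≤ a) (hb : 0 ≤ b) :
    (phi a - phi b) ^ 2 ≤ 2 * (a + b) := by
  have h1 := phi_nonneg a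
  have h2 := phi_nonneg b
  have h3 := phi_le_one a
  have h4 := phi_le_one b
  have h5 := phi_le_two_mul ha
  have h6 := phi_le_two_mul hb
  nlinarith

lemma phi_inc_zero_or {a b : ℝ} : phi a - phi b = 0 ∨ 1 / 4 ≤ a + b ∨ a < 0 ∨ b < 0 := by
  by_cases h : a ≤ 1 / 4 ∧ b ≤ 1 / 4
  · left
    rw [phi_eq_zero h.1, phi_eq_zero h.2, sub_zero]
  · right
    by_contra hcon
    push Not at hcon
    apply h
    constructor <;> linarith [hcon.1, hcon.2.1, hcon.2.2]

include hA hμ hp0 hps in
lemma aa_sq_le (r : ℕ) (i j : ι) :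
    aa μ p r i j ^ 2 ≤ (nn μ p (r + 1) i + nn μ p r j) * qq μ p r i j := by
  unfold aa nn qq
  rw [← Finset.sum_add_distrib, Finset.mul_sum]
  apply sq_sum_le_mul
  · intro k
    have h1 := p_nonneg hA hp0 hps (r + 1) k i
    have h2 := p_nonneg hA hp0 hps r k j
    have := hμ k
    positivity
  · intro k
    have := hμ k
    positivity
  · intro k
    have h1 := p_nonneg hA hp0 hps (r + 1) k i
    have h2 := p_nonneg hA hp0 hps r k j
    have hm := hμ k
    rw [mul_pow, sq_abs]
    rcases phi_inc_zero_or (a := p (r + 1) k i) (b := p r k j) with h | h | h | h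
    · rw [h]; simp
    · have e : (μ k * p (r + 1) k i + μ k * p r k j) *
          (4 * (μ k * (phi (p (r + 1) k i) - phi (p r k j)) ^ 2)) =
          μ k ^ 2 * (phi (p (r + 1) k i) - phi (p r k j)) ^ 2 * (4 * (p (r + 1) k i + p r k j)) := by
        ring
      rw [e]
      have h0 : 0 ≤ μ k ^ 2 * (phi (p (r + 1) k i) - phi (p r k j)) ^ 2 := by positivity
      nlinarith
    · linarith
    · linarith

include hA hμ hp0 hps in
lemma qq_le (r : ℕ) (i j : ι) :
    qq μ p r i j ≤ 8 * (nn μ p (r + 1) i + nn μ p r j) := by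
  unfold nn qq
  rw [← Finset.sum_add_distrib, Finset.mul_sum, Finset.mul_sum]
  apply Finset.sum_le_sum
  intro k _
  have h1 := p_nonneg hA hp0 hps (r + 1) k i
  have h2 := p_nonneg hA hp0 hps r k j
  have hm := hμ k
  have := phi_inc_sq_le h1 h2
  nlinarith

include hA hA1 hμ hp0 hp1 hps in
lemma UU_le_var (r : ℕ) (i : ι) : UU A μ p r i ≤ 16 * ∑ k, μ k * (p r k i - p r k i ^ 2) := by
  induction r generalizing i with
  | zero =>
    simp only [UU]
    apply mul_nonneg (by norm_num)
    apply Finset.sum_nonneg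
    intro k _
    apply mul_nonneg (hμ k)
    have h1 := hp0 k i
    have h2 := hp1 k i
    nlinarith
  | succ r ih =>
    simp only [UU]
    have step : ∀ j, A i j * (qq μ p r i j + UU A μ p r j) ≤
        A i j * (16 * ∑ k, μ k * ((p (r + 1) k i - p r k j) ^ 2 + (p r k j - p r k j ^ 2))) := by
      intro j
      apply mul_le_mul_of_nonneg_left _ (hA i j)
      have h1 : qq μ p r i j ≤ 16 * ∑ k, μ k * (p (r + 1) k i - p r k j) ^ 2 := by
        unfold qq
        rw [Finset.mul_sum, Finset.mul_sum]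
        apply Finset.sum_le_sum
        intro k _
        have hl := phi_lip (p (r + 1) k i) (p r k j)
        have hsq : (phi (p (r + 1) k i) - phi (p r k j)) ^ 2 ≤ 4 * (p (r + 1) k i - p r k j) ^ 2 := by
          rw [← sq_abs (phi (p (r + 1) k i) - phi (p r k j)), ← sq_abs (p (r + 1) k i - p r k j)]
          have h0 := abs_nonneg (phi (p (r + 1) k i) - phi (p r k j))
          nlinarith
        have := hμ k
        nlinarith
      have h2 := ih j
      simp_rw [mul_add, Finset.sum_add_distrib]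
      simp_rw [mul_add] at *
      linarith
    refine (Finset.sum_le_sum fun j _ => step j).trans (le_of_eq ?_)
    -- exchange sums
    have e1 : ∀ j, A i j * (16 * ∑ k, μ k * ((p (r + 1) k i - p r k j) ^ 2 + (p r k j - p r k j ^ 2)))
        = ∑ k, 16 * μ k * (A i j * (p (r + 1) k i ^ 2 - 2 * p (r + 1) k i * p r k j + p r k j)) := by
      intro j
      rw [Finset.mul_sum, Finset.mul_sum]
      apply Finset.sum_congr rfl
      intro k _
      ring
    simp_rw [e1]
    rw [Finset.sum_comm, Finset.mul_sum]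
    apply Finset.sum_congr rfl
    intro k _
    rw [← Finset.mul_sum]
    have e2 : ∑ j, A i j * (p (r + 1) k i ^ 2 - 2 * p (r + 1) k i * p r k j + p r k j) =
        p (r + 1) k i ^ 2 * ∑ j, A i j - 2 * p (r + 1) k i * ∑ j, A i j * p r k j
          + ∑ j, A i j * p r k j := by
      rw [Finset.mul_sum, Finset.mul_sum, ← Finset.sum_sub_distrib, ← Finset.sum_add_distrib]
      apply Finset.sum_congr rfl
      intro j _
      ring
    rw [e2, hA1, ← hps]
    ring

include hA hA1 hμ hp0 hp1 hps in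
lemma UU_le (r : ℕ) (i : ι) : UU A μ p r i ≤ 16 * nn μ p r i := by
  refine (UU_le_var hA hA1 hμ hp0 hp1 hps r i).trans ?_
  unfold nn
  apply mul_le_mul_of_nonneg_left _ (by norm_num)
  apply Finset.sum_le_sum
  intro k _
  apply mul_le_mul_of_nonneg_left _ (hμ k)
  nlinarith [sq_nonneg (p r k i)]

variable {l : ℕ → ι → ℝ} (hl0 : ∀ i, (∑ k, μ k * p 0 k i) ^ 2 ≤ l 0 i)
  (hls : ∀ r i, l (r + 1) i = ∑ j, A i j * l r j)

include hA hl0 hls in
lemma l_nonneg (r : ℕ) (i : ι) : 0 ≤ l r i := by
  induction r generalizing i with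
  | zero => exact (sq_nonneg _).trans (hl0 i)
  | succ r ih =>
    rw [hls]
    exact Finset.sum_nonneg fun j _ => mul_nonneg (hA i j) (ih j)

include hA hA1 hμ hp0 hp1 hps hl0 hls in
lemma inv_X (r : ℕ) (i : ι) :
    (32 * nn μ p r i - UU A μ p r i) ^ 2 ≤ 1024 * l r i - 32 * XX A μ p r i := by
  induction r generalizing i with
  | zero =>
    simp only [UU, XX]
    have := hl0 i
    unfold nn
    nlinarith
  | succ r ih =>
    set n := nn μ p (r + 1) i with hn
    set qb := ∑ j, A i j * qq μ p r i j with hqb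
    set Ub := ∑ j, A i j * UU A μ p r j with hUb
    have hU : UU A μ p (r + 1) i = qb + Ub := by
      simp only [UU]
      rw [hqb, hUb, ← Finset.sum_add_distrib]
      apply Finset.sum_congr rfl
      intro j _
      ring
    have hX : XX A μ p (r + 1) i = n * qb + ∑ j, A i j * XX A μ p r j := by
      simp only [XX]
      rw [hqb, Finset.mul_sum, ← Finset.sum_add_distrib]
      apply Finset.sum_congr rfl
      intro j _
      ring
    have hqb0 : 0 ≤ qb :=
      Finset.sum_nonneg fun j _ => mul_nonneg (hA i j) (qq_nonneg hμ r i j)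
    have hUle : qb + Ub ≤ 16 * n := by
      rw [← hU]
      exact UU_le hA hA1 hμ hp0 hp1 hps (r + 1) i
    have hJ : (32 * n - Ub) ^ 2 ≤ ∑ j, A i j * (32 * nn μ p r j - UU A μ p r j) ^ 2 := by
      have := jensen_sq (fun j => A i j) (fun j => 32 * nn μ p r j - UU A μ p r j) (hA i) (hA1 i)
      have e : ∑ j, A i j * (32 * nn μ p r j - UU A μ p r j) = 32 * n - Ub := by
        rw [hn, nn_succ hps, hUb, Finset.mul_sum, ← Finset.sum_sub_distrib]
        apply Finset.sum_congr rfl
        intro j _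
        ring
      rw [e] at this
      exact this
    have hI : ∑ j, A i j * (32 * nn μ p r j - UU A μ p r j) ^ 2 ≤
        1024 * ∑ j, A i j * l r j - 32 * ∑ j, A i j * XX A μ p r j := by
      rw [Finset.mul_sum, Finset.mul_sum, ← Finset.sum_sub_distrib]
      apply Finset.sum_le_sum
      intro j _
      have := mul_le_mul_of_nonneg_left (ih j) (hA i j)
      linarith
    rw [hU, hX, hls]
    nlinarith

include hA hA1 hμ hp0 hp1 hps hl0 hls in
lemma inv_Y (r : ℕ) (i : ι) :
    (48 * nn μ p r i - UU A μ p r i) ^ 2 ≤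
      2304 * l r i - 56 * YY A μ p r i + 8 * XX A μ p r i := by
  induction r generalizing i with
  | zero =>
    simp only [UU, XX, YY]
    have := hl0 i
    unfold nn
    nlinarith
  | succ r ih =>
    set n := nn μ p (r + 1) i with hn
    have hJ : (48 * n - UU A μ p (r + 1) i) ^ 2 ≤
        ∑ j, A i j * (48 * nn μ p r j - UU A μ p r j - qq μ p r i j) ^ 2 := by
      have := jensen_sq (fun j => A i j)
        (fun j => 48 * nn μ p r j - UU A μ p r j - qq μ p r i j) (hA i) (hA1 i)
      have e : ∑ j, A i j * (48 * nn μ p r j - UU A μ p r j - qq μ p r i j) =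
          48 * n - UU A μ p (r + 1) i := by
        simp only [UU]
        rw [hn, nn_succ hps, Finset.mul_sum, ← Finset.sum_sub_distrib]
        apply Finset.sum_congr rfl
        intro j _
        ring
      rw [e] at this
      exact this
    refine hJ.trans ?_
    have e : 2304 * l (r + 1) i - 56 * YY A μ p (r + 1) i + 8 * XX A μ p (r + 1) i =
        ∑ j, A i j * (2304 * l r j - 56 * YY A μ p r j + 8 * XX A μ p r j
          - 56 * nn μ p r j * qq μ p r i j + 8 * n * qq μ p r i j) := by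
      simp only [YY, XX]
      rw [hls, Finset.mul_sum, Finset.mul_sum, Finset.mul_sum, ← Finset.sum_sub_distrib,
        ← Finset.sum_add_distrib]
      apply Finset.sum_congr rfl
      intro j _
      ring
    rw [e]
    apply Finset.sum_le_sum
    intro j _
    apply mul_le_mul_of_nonneg_left _ (hA i j)
    have h1 := ih j
    have h2 := UU_le hA hA1 hμ hp0 hp1 hps r j
    have h3 := qq_le hA hμ hp0 hps r i j
    have h4 := qq_nonneg (p := p) hμ r i j
    rw [← hn] at h3
    nlinarith

end mart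

/-- Abstract martingale lemma. `p r k` are `[0,1]`-valued "martingales" (`p (r+1) = A (p r)`),
`l r` is a "martingale" dominating `(∑ μ p)^2` at `r = 0`, and `V` is the value function of the
sum of squares of the l1-increments of `phi ∘ p`. -/
theorem mart_bound {ι κ : Type*} [Fintype ι] [Fintype κ]
    (A : ι → ι → ℝ) (hA : ∀ i j, 0 ≤ A i j) (hA1 : ∀ i, ∑ j, A i j = 1)
    (μ : κ → ℝ) (hμ : ∀ k, 0 ≤ μ k)
    (p : ℕ → κ → ι → ℝ) (hp0 : ∀ k i, 0 ≤ p 0 k i) (hp1 : ∀ k i, p 0 k i ≤ 1)
    (hps : ∀ r k i, p (r + 1) k i = ∑ j, A i j * p r k j)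
    (l : ℕ → ι → ℝ) (hl0 : ∀ i, (∑ k, μ k * p 0 k i) ^ 2 ≤ l 0 i)
    (hls : ∀ r i, l (r + 1) i = ∑ j, A i j * l r j)
    (V : ℕ → ι → ℝ) (hV0 : ∀ i, V 0 i = 0)
    (hVs : ∀ r i, V (r + 1) i =
      ∑ j, A i j * ((∑ k, μ k * |phi (p (r + 1) k i) - phi (p r k j)|) ^ 2 + V r j)) :
    ∀ r i, V r i ≤ 78 * l r i := by
  have hVXY : ∀ r i, V r i ≤ XX A μ p r i + YY A μ p r i := by
    intro r
    induction r with
    | zero => intro i; simp [hV0, XX, YY]
    | succ r ih =>
      intro i
      rw [hVs]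
      simp only [XX, YY]
      rw [← Finset.sum_add_distrib]
      apply Finset.sum_le_sum
      intro j _
      rw [← mul_add]
      apply mul_le_mul_of_nonneg_left _ (hA i j)
      have h1 := aa_sq_le hA hμ hp0 hps r i j
      unfold aa at h1
      have h2 := ih j
      linarith
  intro r i
  have h1 := hVXY r i
  have h2 := inv_X hA hA1 hμ hp0 hp1 hps hl0 hls r i
  have h3 := inv_Y hA hA1 hμ hp0 hp1 hps hl0 hls r i
  have h4 := l_nonneg hA hl0 hls r i
  nlinarith [sq_nonneg (32 * nn μ p r i - UU A μ p r i), sq_nonneg (48 * nn μ p r i - UU A μ p r i)]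

end Crest.Agent.Mc
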