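import Crest.Agent.Lib_helper9_McDefs

/-! Markov chain bookkeeping for S0171: Term1. -/

set_option autoImplicit false

namespace Crest.Agent.Mc

open Finset

variable {n : ℕ} {κ : Type*} [Fintype κ]

lemma pow_mul_ces_apply (A : Matrix (Fin n) (Fin n) ℝ) (m r : ℕ) (i j : Fin n) :
    (A ^ r * ces A m) i j = (1 / (m : ℝ)) * ∑ τ ∈ Finset.range m, (A ^ (r + (τ + 1))) i j := by
  unfold ces
  rw [Matrix.mul_smul, Matrix.mul_sum, Matrix.smul_apply, Matrix.sum_apply, smul_eq_mul]
  simp_rw [pow_add]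

lemma sum_w_G_eq (w : Fin n → ℝ) (A : Matrix (Fin n) (Fin n) ℝ) (μ : κ → ℝ) (b : κ → Fin n → ℝ)
    (m r : ℕ) :
    ∑ i, ∑ j, w i * (A ^ r * ces A m) i j * dd μ b i j ^ 2 =
      (1 / (m : ℝ)) * ∑ τ ∈ Finset.range m, del2 w A μ b (r + (τ + 1)) := by
  unfold del2
  simp_rw [pow_mul_ces_apply]
  rw [Finset.sum_comm' (s := Finset.range m) (t := fun _ => Finset.univ)
        (s' := fun _ => Finset.range m) (t' := Finset.univ) (by simp), Finset.mul_sum]
  apply Finset.sum_congr rfl
  intro i _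
  rw [Finset.sum_comm, Finset.mul_sum]
  apply Finset.sum_congr rfl
  intro j _
  rw [Finset.mul_sum, Finset.mul_sum, Finset.sum_mul, Finset.mul_sum]
  apply Finset.sum_congr rfl
  intro s _
  ring

/-- First term: `E d(x, y_r)^2 ≤ 4 avg_τ δ²_{r+τ}`. -/
theorem term1_bound (w : Fin n → ℝ) (A : Matrix (Fin n) (Fin n) ℝ) (hw : ∀ i, 0 ≤ w i)
    (hA : Stoch A) (μ : κ → ℝ) (hμ : ∀ k, 0 ≤ μ k) (b : κ → Fin n → ℝ)
    (hb : ∀ k i, b k i = 0 ∨ b k i = 1) (m : ℕ) (hm : 1 ≤ m) (r : ℕ) :
    ∑ i, w i * (∑ k, μ k * |b k i - uu A m b r k i|) ^ 2 ≤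
      4 * ((1 / (m : ℝ)) * ∑ τ ∈ Finset.range m, del2 w A μ b (r + (τ + 1))) := by
  rw [← sum_w_G_eq]
  set G := A ^ r * ces A m with hGdef
  have hG : Stoch G := (hA.pow r).mul (hA.ces hm)
  have hb0 : ∀ k i, 0 ≤ b k i := by
    intro k i; rcases hb k i with h | h <;> rw [h] <;> norm_num
  have hb1 : ∀ k i, b k i ≤ 1 := by
    intro k i; rcases hb k i with h | h <;> rw [h] <;> norm_num
  have hk : ∀ k i, |b k i - uu A m b r k i| ≤ 2 * ∑ j, G i j * |b k i - b k j| := by
    intro k i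
    unfold uu gg
    rw [← hGdef]
    rcases hb k i with h | h
    · rw [h]
      have e : ∑ j, G i j * |0 - b k j| = ∑ j, G i j * b k j := by
        apply Finset.sum_congr rfl
        intro j _
        rw [zero_sub, abs_neg, abs_of_nonneg (hb0 k j)]
      rw [e, zero_sub, abs_neg, abs_of_nonneg (phi_nonneg _)]
      apply phi_le_two_mul
      exact Finset.sum_nonneg fun j _ => mul_nonneg (hG.1 i j) (hb0 k j)
    · rw [h]
      have e : ∑ j, G i j * |1 - b k j| = 1 - ∑ j, G i j * b k j := by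
        have e1 : ∑ j, G i j * |1 - b k j| = ∑ j, (G i j - G i j * b k j) := by
          apply Finset.sum_congr rfl
          intro j _
          rw [abs_of_nonneg (by linarith [hb1 k j])]
          ring
        rw [e1, Finset.sum_sub_distrib, hG.2 i]
      rw [e, ← phi_symm, abs_of_nonneg (phi_nonneg _)]
      apply phi_le_two_mul
      rw [← e]
      exact Finset.sum_nonneg fun j _ => mul_nonneg (hG.1 i j) (abs_nonneg _)
  have hi : ∀ i, (∑ k, μ k * |b k i - uu A m b r k i|) ^ 2 ≤ 4 * ∑ j, G i j * dd μ b i j ^ 2 := by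
    intro i
    have h1 : ∑ k, μ k * |b k i - uu A m b r k i| ≤ 2 * ∑ j, G i j * dd μ b i j := by
      have e : 2 * ∑ j, G i j * dd μ b i j = ∑ k, μ k * (2 * ∑ j, G i j * |b k i - b k j|) := by
        unfold dd
        simp_rw [Finset.mul_sum]
        rw [Finset.sum_comm]
        apply Finset.sum_congr rfl
        intro k _
        apply Finset.sum_congr rfl
        intro j _
        ring
      rw [e]
      apply Finset.sum_le_sum
      intro k _
      exact mul_le_mul_of_nonneg_left (hk k i) (hμ k)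
    have h0 : 0 ≤ ∑ k, μ k * |b k i - uu A m b r k i| :=
      Finset.sum_nonneg fun k _ => mul_nonneg (hμ k) (abs_nonneg _)
    have h2 := jensen_sq (fun j => G i j) (fun j => dd μ b i j) (hG.1 i) (hG.2 i)
    have h3 := pow_le_pow_left₀ h0 h1 2
    nlinarith
  rw [Finset.mul_sum]
  apply Finset.sum_le_sum
  intro i _
  have := mul_le_mul_of_nonneg_left (hi i) (hw i)
  refine this.trans (le_of_eq ?_)
  rw [Finset.mul_sum, Finset.mul_sum, Finset.mul_sum]
  apply Finset.sum_congr rfl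
  intro j _
  ring

end Crest.Agent.Mc
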