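import Crest.Statements.S0170
import Crest.Agent.Lib_BF_Defs
import Crest.Agent.Lib_BF_Flow
import Crest.Agent.Lib_BF_Moves
import Crest.Agent.Lib_BF_Plan

set_option autoImplicit false
open scoped ContDiff
open Crest.AnalysisR.BoxFlow
open Crest Crest.AnalysisR

namespace Crest.Agent.S0170

open Crest.Agent.BF in
/-- disjoint closed rational boxes are separated in some coordinate -/
theorem sepQ_of_disjoint (c h c' h' : Fin 3 → ℚ) (hh : ∀ j, 0 < h j) (hh' : ∀ j, 0 < h' j)
    (hd : Disjoint (box c h) (box c' h')) : SepQ c h c' h' := by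
  by_contra hcon
  unfold SepQ at hcon
  push Not at hcon
  rw [Set.disjoint_left] at hd
  have key : ∀ j, |((c j * h' j + c' j * h j) / (h j + h' j) : ℚ) - c j| ≤ h j ∧
      |((c j * h' j + c' j * h j) / (h j + h' j) : ℚ) - c' j| ≤ h' j := by
    intro j
    have h1 := hh j
    have h2 := hh' j
    have h3 := hcon j
    have hs : 0 < h j + h' j := by linarith
    have e1 : (c j * h' j + c' j * h j) / (h j + h' j) - c j = -(c j - c' j) * (h j / (h j + h' j)) := by
      field_simp
      ring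
    have e2 : (c j * h' j + c' j * h j) / (h j + h' j) - c' j = (c j - c' j) * (h' j / (h j + h' j)) := by
      field_simp
      ring
    constructor
    · rw [e1, abs_mul, abs_neg, abs_of_pos (div_pos h1 hs)]
      calc |c j - c' j| * (h j / (h j + h' j)) ≤ (h j + h' j) * (h j / (h j + h' j)) :=
            mul_le_mul_of_nonneg_right h3 (div_pos h1 hs).le
        _ = h j := by field_simp
    · rw [e2, abs_mul, abs_of_pos (div_pos h2 hs)]
      calc |c j - c' j| * (h' j / (h j + h' j)) ≤ (h j + h' j) * (h' j / (h j + h' j)) :=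
            mul_le_mul_of_nonneg_right h3 (div_pos h2 hs).le
        _ = h' j := by field_simp
  refine hd (a := fun j => (((c j * h' j + c' j * h j) / (h j + h' j) : ℚ) : ℝ)) ?_ ?_
  · intro j
    have := (key j).1
    show |(((c j * h' j + c' j * h j) / (h j + h' j) : ℚ) : ℝ) - (c j : ℝ)| ≤ (h j : ℝ)
    exact_mod_cast this
  · intro j
    have := (key j).2
    show |(((c j * h' j + c' j * h j) / (h j + h' j) : ℚ) : ℝ) - (c' j : ℝ)| ≤ (h' j : ℝ)
    exact_mod_cast this

/-- Finitely many pairwise disjoint rational boxes in 3-space are carried onto disjoint target boxes, each a translated determinant-one positive diagonal rescaling of its source, by the time-one flow of a smooth, compactly supported, effective, divergence-free velocity field active only in [1/4,3/4]. The flow equals the prescribed affine map on a neighbourhood of each source box. Effective: computably approximable mixed derivatives at rational points and computable global derivative bounds. -/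
theorem result
    (n : ℕ) (a b h k : Fin n → Fin 3 → ℚ)
    (hh : ∀ i j, 0 < h i j) (hk : ∀ i j, 0 < k i j)
    (ha : Pairwise fun i i' => Disjoint (box (a i) (h i)) (box (a i') (h i')))
    (hb : Pairwise fun i i' => Disjoint (box (b i) (k i)) (box (b i') (k i')))
    (hvol : ∀ i, ∏ j : Fin 3, k i j / h i j = 1) :
    ∃ (U : Field) (Φ : ℝ → (Fin 3 → ℝ) → (Fin 3 → ℝ)),
      ContDiff ℝ ∞ U ∧ HasCompactSupport U ∧ Effective U ∧
      (∀ p : ℝ × (Fin 3 → ℝ), p.1 ∉ Set.Icc (1 / 4 : ℝ) (3 / 4) → U p = 0) ∧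
      (∀ p : ℝ × (Fin 3 → ℝ), spaceDiv U p = 0) ∧ IsFlow U Φ ∧
      ∀ i : Fin n, ∃ O : Set (Fin 3 → ℝ), IsOpen O ∧ box (a i) (h i) ⊆ O ∧
        ∀ x ∈ O, Φ 1 x = fun j => (b i j : ℝ) + ((k i j / h i j : ℚ) : ℝ) * (x j - (a i j : ℝ)) := by
  have hreach := BF.reach_of_sep n a b h k hh hk
    (fun i i' hii' => sepQ_of_disjoint _ _ _ _ (hh i) (hh i') (ha hii'))
    (fun i i' hii' => sepQ_of_disjoint _ _ _ _ (hk i) (hk i') (hb hii')) hvol
  obtain ⟨-, hmoves⟩ := BF.reach_moves hreach (show (BF.Cfg.Pos ⟨a, h⟩) from hh)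
  obtain ⟨U, hG, hT, hC⟩ := hmoves (1 / 4) (3 / 4) (by norm_num)
  obtain ⟨Φ, hΦ, huniq⟩ := BF.exists_flow U hG.smooth hG.cpt
  refine ⟨U, Φ, hG.smooth, hG.cpt, hG.eff, ?_, hG.div, hΦ, ?_⟩
  · intro p hp
    apply hT p
    intro hp'
    apply hp
    have h1 : ((1 / 4 : ℚ) : ℝ) = 1 / 4 := by norm_num
    have h2 : ((3 / 4 : ℚ) : ℝ) = 3 / 4 := by norm_num
    rw [h1, h2] at hp'
    exact ⟨hp'.1.le, hp'.2.le⟩
  · intro i
    obtain ⟨O, hO, hbO, hcar⟩ := hC i
    refine ⟨O, hO, hbO, ?_⟩
    intro x hx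
    obtain ⟨γ, hγ, hγ0, hγ1⟩ := hcar x hx
    have e0 : γ 0 = x := hγ0 0 (by norm_num)
    have e1 : γ 1 = _ := hγ1 1 (by norm_num)
    have := huniq γ hγ 1
    rw [e0, e1] at this
    rw [this]
    rfl

end Crest.Agent.S0170
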