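import Crest.Statements.S0359
import Crest.Agent.Lib_helper1_LpDim

set_option autoImplicit false
open MeasureTheory
open scoped ENNReal
open Crest Crest.GeometryTopology

namespace Crest.Agent.S0359

open Crest.Agent.LpDim

/-- norm of a function on a finite discrete space with counting measure, in `L^p` -/
lemma norm_toLp_count {α : Type} [Fintype α] [MeasurableSpace α] [MeasurableSingletonClass α]
    (p : ℝ≥0∞) [Fact (1 ≤ p)] (hp0 : p ≠ 0) (hptop : p ≠ ⊤) (f : α → ℝ)
    (hf : MemLp f p (Measure.count : Measure α)) :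
    ‖hf.toLp f‖ ^ p.toReal = N p.toReal f := by
  have hq : 0 < p.toReal := ENNReal.toReal_pos hp0 hptop
  rw [Lp.norm_toLp, eLpNorm_eq_lintegral_rpow_enorm_toReal hp0 hptop, lintegral_count,
    tsum_fintype, ← ENNReal.toReal_rpow, ← Real.rpow_mul ENNReal.toReal_nonneg, one_div,
    inv_mul_cancel₀ hq.ne', Real.rpow_one, ENNReal.toReal_sum]
  · unfold N
    refine Finset.sum_congr rfl fun i _ => ?_
    rw [← ENNReal.toReal_rpow]
    simp
  · intro i _
    exact ENNReal.rpow_ne_top_of_nonneg hq.le (by simp)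

lemma norm_piLp {d : ℕ} (p : ℝ≥0∞) [Fact (1 ≤ p)] (hp0 : p ≠ 0) (hptop : p ≠ ⊤)
    (f : PiLp p (fun _ : Fin d => ℝ)) :
    ‖f‖ ^ p.toReal = N p.toReal (fun i => f i) := by
  have hq : 0 < p.toReal := ENNReal.toReal_pos hp0 hptop
  rw [PiLp.norm_eq_sum hq, ← Real.rpow_mul, one_div, inv_mul_cancel₀ hq.ne', Real.rpow_one]
  · simp [N]
  · exact Finset.sum_nonneg fun i _ => by positivity

/-- Fix an exponent 1 < p < ∞ with p ≠ 2 and n ≥ 9. If d is a dimension such that every n distinct points of any real L^p space can be mapped to the d-dimensional real ℓ^p space with all pairwise distances multiplied by one common factor s > 0 (an isometric embedding up to scaling), then ⌊(n − 1)/4⌋² ≤ d. -/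
theorem result
    (p : ℝ≥0∞) [Fact (1 ≤ p)] (hp1 : 1 < p) (hptop : p ≠ ⊤) (hp2 : p ≠ 2)
    (n : ℕ) (hn : 9 ≤ n) (d : ℕ)
    (hd : ∀ (α : Type) [MeasurableSpace α] (μ : Measure α) (x : Fin n → Lp ℝ p μ),
      Function.Injective x →
      ∃ (y : Fin n → PiLp p (fun _ : Fin d => ℝ)) (s : ℝ), 0 < s ∧
        ∀ i j, ‖y i - y j‖ = s * ‖x i - x j‖) :
    ((n - 1) / 4) ^ 2 ≤ d := by
  classical
  have hp0 : p ≠ 0 := (lt_trans zero_lt_one hp1).ne'
  set k := (n - 1) / 4 with hk
  have hk2 : 2 ≤ k := by omega
  have hq1 : 1 < p.toReal := by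
    have := (ENNReal.toReal_lt_toReal ENNReal.one_ne_top hptop).mpr hp1
    simpa using this
  have hq2 : p.toReal ≠ 2 := by
    intro h
    apply hp2
    have := congrArg ENNReal.ofReal h
    rw [ENNReal.ofReal_toReal hptop] at this
    simpa using this
  have hq0 : 0 < p.toReal := by linarith
  -- the source space
  let μ : Measure (Fin k × Fin k) := Measure.count
  have hmem : ∀ f : Fin k × Fin k → ℝ, MemLp f p μ := fun f => MemLp.of_discrete
  let T : (Fin k × Fin k → ℝ) → Lp ℝ p μ := fun f => (hmem f).toLp f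
  have hT_sub : ∀ f g, T f - T g = T (f - g) := fun f g => (MemLp.toLp_sub _ _).symm
  have hT_norm : ∀ f, ‖T f‖ ^ p.toReal = N p.toReal f := fun f =>
    norm_toLp_count p hp0 hptop f (hmem f)
  -- the source space is infinite
  have hinf : Infinite (Lp ℝ p μ) := by
    have hv : T (fun _ => 1) ≠ 0 := by
      intro h
      have h1 := hT_norm (fun _ => 1)
      rw [h, norm_zero, Real.zero_rpow hq0.ne'] at h1
      have h2 : N p.toReal (fun _ : Fin k × Fin k => (1 : ℝ)) = (k : ℝ) * k := by
        simp [N]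
      rw [h2] at h1
      have : (0 : ℝ) < (k : ℝ) * k := by
        have : (0 : ℝ) < k := by exact_mod_cast (by omega : 0 < k)
        positivity
      linarith
    exact Infinite.of_injective (fun r : ℝ => r • T (fun _ => 1)) (smul_left_injective ℝ hv)
  -- the point set
  let S : Finset (Lp ℝ p μ) := Finset.univ.image (fun j => T (pts k j))
  have hS : S.card ≤ n := by
    refine Finset.card_image_le.trans ?_
    simp only [Finset.card_univ, Fintype.card_option, Fintype.card_prod, Fintype.card_bool,
      Fintype.card_fin]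
    omega
  obtain ⟨t, hSt, htn⟩ := Infinite.exists_superset_card_eq S n hS
  let e : Fin n ≃ t := (t.equivFinOfCardEq htn).symm
  let x : Fin n → Lp ℝ p μ := fun i => (e i : Lp ℝ p μ)
  have hx : Function.Injective x := Subtype.val_injective.comp e.injective
  obtain ⟨y, s, hs, hy⟩ := hd (Fin k × Fin k) μ x hx
  have hidx : ∀ j, ∃ i, x i = T (pts k j) := by
    intro j
    have hj : T (pts k j) ∈ t := hSt (Finset.mem_image_of_mem _ (Finset.mem_univ j))
    exact ⟨e.symm ⟨_, hj⟩, by simp [x]⟩
  choose idx hidx using hidx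
  have hcore := core hq1 hq2 (k := k) (d := d) (c := s ^ p.toReal) (by positivity)
    (fun j i => y (idx j) i) (by
      intro j j'
      have h1 := hy (idx j) (idx j')
      rw [hidx, hidx, hT_sub] at h1
      have h2 := congrArg (fun r : ℝ => r ^ p.toReal) h1
      beta_reduce at h2
      rw [Real.mul_rpow hs.le (norm_nonneg _), hT_norm, norm_piLp p hp0 hptop] at h2
      rw [← h2]
      rfl)
  rw [sq]
  exact hcore

end Crest.Agent.S0359
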