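import Crest.Statements.S0505
import Crest.Agent.Lib_IMM_Circuit
import Crest.Agent.Lib_IMM_Num

set_option autoImplicit false
universe u
open Crest Crest.LogicCS

namespace Crest.Agent.S0505

/-- For every field K and every n ≥ 2 there is a syntactically homogeneous depth-five sum-product circuit over K in the n³ matrix-entry variables (shared gates, unrestricted fan-in and bottom support) whose output is the top-left entry of the ordered product of the n variable matrices of order n and whose number of vertices, leaves included, is at most 2n³ + r·n² + r·n^(t+1) + n^(r−1) + 1 with t = ⌈√n⌉, r = ⌈n/t⌉, and also at most n^(√n + 4). Layers are indexed by initial segments of ℕ. -/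
theorem result (K : Type u) [Field K] (n : ℕ)
    (hn : 2 ≤ n) :
    ∃ (l b p s r : ℕ)
      (C : Crest.ArithCircuit.SPSPS K (Fin n × Fin n × Fin n) (Fin l) (Fin b) (Fin p) (Fin s) (Fin r)),
      C.IsHomogeneous ∧ C.output = Crest.ArithCircuit.imm K n ∧
        C.size ≤ 2 * n ^ 3 + ⌈(n : ℝ) / ⌈Real.sqrt n⌉₊⌉₊ * n ^ 2 +
          ⌈(n : ℝ) / ⌈Real.sqrt n⌉₊⌉₊ * n ^ (⌈Real.sqrt n⌉₊ + 1) +
          n ^ (⌈(n : ℝ) / ⌈Real.sqrt n⌉₊⌉₊ - 1) + 1 ∧
        (C.size : ℝ) ≤ (n : ℝ) ^ (Real.sqrt n + 4) := by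
  have : NeZero n := ⟨by omega⟩
  have hx0 : (0 : ℝ) < n := by exact_mod_cast (by omega : 0 < n)
  have hsq0 : 0 < Real.sqrt n := Real.sqrt_pos.2 hx0
  generalize ht : ⌈Real.sqrt n⌉₊ = t
  have ht1 : 1 ≤ t := ht ▸ Nat.ceil_pos.2 hsq0
  have hs1 : Real.sqrt n ≤ t := ht ▸ Nat.le_ceil _
  have hs2 : (t : ℝ) < Real.sqrt n + 1 := ht ▸ Nat.ceil_lt_add_one hsq0.le
  have htpos : (0 : ℝ) < t := by exact_mod_cast ht1
  generalize hr : ⌈(n : ℝ) / t⌉₊ = r
  have hr1 : 1 ≤ r := hr ▸ Nat.ceil_pos.2 (div_pos hx0 htpos)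
  have hle : n ≤ r * t := by
    have h1 : (n : ℝ) / t ≤ r := hr ▸ Nat.le_ceil _
    rw [div_le_iff₀ htpos] at h1
    exact_mod_cast h1
  have hlt : (r - 1) * t < n := by
    have h1 : (r : ℝ) < (n : ℝ) / t + 1 := hr ▸ Nat.ceil_lt_add_one (div_pos hx0 htpos).le
    have h2 : ((r : ℝ) - 1) * t < n := by
      rw [← lt_div_iff₀ htpos]
      linarith
    have h3 : ((r - 1 : ℕ) : ℝ) = (r : ℝ) - 1 := by
      rw [Nat.cast_sub hr1]
      simp
    have h4 : (((r - 1) * t : ℕ) : ℝ) < n := by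
      push_cast
      rw [h3]
      exact h2
    exact_mod_cast h4
  obtain ⟨l, b, p, s, rr, C', h1, h2, h3⟩ :=
    LibIMM.exists_fin (LibIMM.circ K n (r - 1) (LibIMM.mqOf n t r))
      (LibIMM.circ_isHomogeneous K n (r - 1) (LibIMM.mqOf n t r))
  have hsize : C'.size ≤ 2 * n ^ 3 + r * n ^ 2 + r * n ^ (t + 1) + n ^ (r - 1) + 1 := by
    rw [h3, LibIMM.circ_size]
    exact LibIMM.size_le n t r (by omega) ht1 hr1 hle
  refine ⟨l, b, p, s, rr, C', h1, ?_, hsize, ?_⟩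
  · rw [h2]
    exact LibIMM.circ_output_eq_imm K n (r - 1) (LibIMM.mqOf n t r) (LibIMM.mqOf_sum n t r ht1 hlt)
  · refine le_trans ?_ (LibIMM.real_bound n t r hn hr1 hs1 hs2 hlt)
    exact_mod_cast hsize

end Crest.Agent.S0505
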